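import Crest.Agent.R146.StepStart_483
import Crest.Agent.R146.Pos_371

-- ▼ part R146/Mills_384
section

/-!
Mills ratio facts (row 146, helper384). `hz z = φ(z)/Φ(z)`; `hz' = -z hz - hz²`, `0 ≤ 1 + hz'`
(`= Φ⁻²(Φ² - zφΦ - φ²)`), `0 < z + hz`, `hz ≤ 1 + |z|`, `U0 ≤ hz`, `hz(-5) ≤ 5.195`, `φ(0) ≥ .398`,
`φ² ≤ Φ(1-Φ)`.
`hz` is the exact self-similar profile of `ν = 1`.
-/

set_option autoImplicit false

open Set Filter Topology

namespace Crest.Agent.R146.Mills_384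

open StepStart_483 StepDef_791

noncomputable section

lemma m1 (z : ℝ) : 0 < ph z + z * Phi z := by
  have h := add_U0_pos z
  rw [U0_eq] at h
  linarith

lemma ph_mul_le (z : ℝ) : ph z * (1 + z ^ 2 / 2) ≤ 1 := by
  rw [ph_eq]
  have h1 : 1 + z ^ 2 / 2 ≤ Real.exp (z ^ 2 / 2) := by
    have := Real.add_one_le_exp (z ^ 2 / 2)
    linarith
  have h2 : (1 : ℝ) ≤ √(2 * Real.pi) := by
    rw [Real.one_le_sqrt]
    have := Real.pi_gt_three
    linarith
  have h3 : (√(2 * Real.pi))⁻¹ ≤ 1 := inv_le_one_of_one_le₀ h2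
  have h4 : Real.exp (-z ^ 2 / 2) * Real.exp (z ^ 2 / 2) = 1 := by
    rw [← Real.exp_add]
    have : -z ^ 2 / 2 + z ^ 2 / 2 = 0 := by ring
    rw [this, Real.exp_zero]
  have h5 : 0 < Real.exp (-z ^ 2 / 2) := Real.exp_pos _
  have h6 : 0 ≤ (√(2 * Real.pi))⁻¹ := by positivity
  calc (√(2 * Real.pi))⁻¹ * Real.exp (-z ^ 2 / 2) * (1 + z ^ 2 / 2)
      ≤ (√(2 * Real.pi))⁻¹ * Real.exp (-z ^ 2 / 2) * Real.exp (z ^ 2 / 2) :=
        mul_le_mul_of_nonneg_left h1 (by positivity)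
    _ = (√(2 * Real.pi))⁻¹ := by rw [mul_assoc, h4, mul_one]
    _ ≤ 1 := h3

lemma z_ph_tendsto : Tendsto (fun z => z * ph z) atBot (𝓝 0) := by
  have h1 : Tendsto (fun z : ℝ => 2 / z) atBot (𝓝 0) := by
    have := (tendsto_inv_atBot_zero (𝕜 := ℝ)).const_mul 2
    simpa [div_eq_mul_inv] using this
  refine tendsto_of_tendsto_of_tendsto_of_le_of_le' h1 tendsto_const_nhds ?_ ?_
  · filter_upwards [eventually_lt_atBot (0:ℝ)] with z hz
    have h2 := ph_mul_le z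
    have h3 := ph_pos z
    rw [div_le_iff_of_neg hz]
    nlinarith
  · filter_upwards [eventually_lt_atBot (0:ℝ)] with z hz
    exact (mul_neg_of_neg_of_pos hz (ph_pos z)).le

/-- `m2 z = (1+z²) Φ + z φ ≥ 0` -/
lemma m2_deriv (z : ℝ) : HasDerivAt (fun z => (1 + z ^ 2) * Phi z + z * ph z)
    (2 * (ph z + z * Phi z)) z := by
  have h1 : HasDerivAt (fun z : ℝ => 1 + z ^ 2) (2 * z) z := by
    simpa using (hasDerivAt_pow 2 z).const_add 1
  have h2 := (h1.mul (Phi_deriv z)).add ((hasDerivAt_id z).mul (ph_deriv z))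
  refine h2.congr_deriv ?_
  simp only [id]
  ring

lemma m2 (z : ℝ) : 0 ≤ (1 + z ^ 2) * Phi z + z * ph z := by
  by_contra hcon
  push Not at hcon
  have hmono : Monotone (fun z => (1 + z ^ 2) * Phi z + z * ph z) := by
    apply monotone_of_deriv_nonneg (fun z => (m2_deriv z).differentiableAt)
    intro y
    rw [(m2_deriv y).deriv]
    have := m1 y
    linarith
  have h1 : ∀ᶠ y in atBot, y * ph y ≤ (1 + z ^ 2) * Phi z + z * ph z := by
    filter_upwards [eventually_le_atBot z] with y hy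
    have h2 := hmono hy
    have h3 : 0 ≤ (1 + y ^ 2) * Phi y := mul_nonneg (by positivity) (Phi_nonneg y)
    simp only at h2
    linarith
  have h4 := le_of_tendsto z_ph_tendsto h1
  linarith

lemma m3_deriv (z : ℝ) : HasDerivAt (fun z => Phi z ^ 2 - z * ph z * Phi z - ph z ^ 2)
    (ph z * ((1 + z ^ 2) * Phi z + z * ph z)) z := by
  have h1 := ((Phi_deriv z).pow 2).sub ((((hasDerivAt_id z).mul (ph_deriv z))).mul (Phi_deriv z))
  have h2 := h1.sub ((ph_deriv z).pow 2)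
  refine h2.congr_deriv ?_
  simp only [id, Pi.mul_apply]
  ring

lemma m3 (z : ℝ) : 0 ≤ Phi z ^ 2 - z * ph z * Phi z - ph z ^ 2 := by
  by_contra hcon
  push Not at hcon
  have hmono : Monotone (fun z => Phi z ^ 2 - z * ph z * Phi z - ph z ^ 2) := by
    apply monotone_of_deriv_nonneg (fun z => (m3_deriv z).differentiableAt)
    intro y
    rw [(m3_deriv y).deriv]
    exact mul_nonneg (ph_pos y).le (m2 y)
  have ht : Tendsto (fun y => -(ph y ^ 2)) atBot (𝓝 0) := by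
    have := (ph_tendsto_atBot.pow 2).neg
    simpa using this
  have h1 : ∀ᶠ y in atBot, -(ph y ^ 2) ≤ Phi z ^ 2 - z * ph z * Phi z - ph z ^ 2 := by
    filter_upwards [eventually_le_atBot z, eventually_le_atBot (0:ℝ)] with y hy hy0
    have h2 := hmono hy
    simp only at h2
    have h3 : 0 ≤ -y * ph y * Phi y :=
      mul_nonneg (mul_nonneg (by linarith) (ph_pos y).le) (Phi_nonneg y)
    nlinarith [sq_nonneg (Phi y)]
  have h4 := le_of_tendsto ht h1
  linarith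

/-- the Mills ratio `φ/Φ` -/
def hz (z : ℝ) : ℝ := ph z / Phi z

/-- its derivative `-z h - h²` -/
def hz1 (z : ℝ) : ℝ := -(z * hz z) - hz z ^ 2

/-- its second derivative -/
def hz2 (z : ℝ) : ℝ := -hz z - z * hz1 z - 2 * hz z * hz1 z

lemma hz_pos (z : ℝ) : 0 < hz z := div_pos (ph_pos z) (Phi_pos z)

lemma hz_deriv (z : ℝ) : HasDerivAt hz (hz1 z) z := by
  have h := (ph_deriv z).div (Phi_deriv z) (Phi_pos z).ne'
  refine h.congr_deriv ?_
  have := (Phi_pos z).ne'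
  unfold hz1 hz
  field_simp

lemma hz1_deriv (z : ℝ) : HasDerivAt hz1 (hz2 z) z := by
  have h := (((hasDerivAt_id z).mul (hz_deriv z)).neg).sub ((hz_deriv z).pow 2)
  refine h.congr_deriv ?_
  unfold hz2
  simp only [id]
  ring

/-- the equation of the `ν = 1` profile -/
lemma hz_eq (z : ℝ) : -hz z + z * hz1 z + hz2 z + 2 * hz z * (1 + hz1 z) = 0 := by
  unfold hz2; ring

lemma one_add_hz1 (z : ℝ) : 0 ≤ 1 + hz1 z := by
  have h := m3 z
  have hp := Phi_pos z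
  have e : 1 + hz1 z = (Phi z ^ 2 - z * ph z * Phi z - ph z ^ 2) / Phi z ^ 2 := by
    unfold hz1 hz
    field_simp
    ring
  rw [e]
  exact div_nonneg h (by positivity)



lemma hz_mul_le (z : ℝ) : hz z * (z + hz z) ≤ 1 := by
  have := one_add_hz1 z
  unfold hz1 at this
  nlinarith

lemma hz_le (z : ℝ) : hz z ≤ 1 + |z| := by
  by_contra hcon
  push Not at hcon
  have h1 := hz_mul_le z
  have h2 := abs_nonneg z
  have h3 := neg_abs_le z
  have h4 := hz_pos z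
  nlinarith

lemma hz_neg5 : hz (-5) ≤ 5.195 := by
  by_contra hcon
  push Not at hcon
  have h1 := hz_mul_le (-5)
  nlinarith

lemma U0_le_hz (z : ℝ) : U0 z ≤ hz z := by
  have h := m1 z
  have hp := Phi_pos z
  have hl := Phi_lt_one z
  rw [U0_eq]
  unfold hz
  rw [le_div_iff₀ hp]
  nlinarith [mul_pos h (sub_pos.2 hl)]

lemma ph_zero_ge : 0.398 ≤ ph 0 := by
  rw [ph_eq]
  have h1 : √(2 * Real.pi) ≤ 1 / 0.398 := by
    rw [Real.sqrt_le_left (by norm_num)]
    have := Real.pi_lt_d2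
    norm_num at this ⊢
    linarith
  have h2 : 0 < √(2 * Real.pi) := by positivity
  have h3 : Real.exp (-(0:ℝ) ^ 2 / 2) = 1 := by norm_num
  rw [h3, mul_one, ← one_div, le_div_iff₀ h2]
  have : 0.398 * √(2 * Real.pi) ≤ 0.398 * (1 / 0.398) := mul_le_mul_of_nonneg_left h1 (by norm_num)
  norm_num at this ⊢
  linarith

lemma ph_zero_le : ph 0 ≤ 0.4 := by
  rw [ph_eq]
  have h1 : 1 / 0.4 ≤ √(2 * Real.pi) := by
    rw [Real.le_sqrt (by norm_num) (by positivity)]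
    have := Real.pi_gt_d2
    norm_num at this ⊢
    linarith
  have h2 : 0 < √(2 * Real.pi) := by positivity
  have h3 : Real.exp (-(0:ℝ) ^ 2 / 2) = 1 := by norm_num
  rw [h3, mul_one, ← one_div, div_le_iff₀ h2]
  have : 0.4 * (1 / 0.4) ≤ 0.4 * √(2 * Real.pi) := mul_le_mul_of_nonneg_left h1 (by norm_num)
  norm_num at this ⊢
  linarith

lemma Phi_zero : Phi 0 = 1 / 2 := by
  have h := Phi_neg 0
  rw [neg_zero] at h
  linarith

lemma hz_zero_le : hz 0 ≤ 0.8 := by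
  unfold hz
  rw [Phi_zero]
  have := ph_zero_le
  linarith

/-- `1 - 2Φ(z) + zφ(z) ≥ 0` for `z ≤ 0` -/
lemma m5 {z : ℝ} (hzn : z ≤ 0) : 0 ≤ 1 - 2 * Phi z + z * ph z := by
  have hd : ∀ y, HasDerivAt (fun y => 1 - 2 * Phi y + y * ph y) (-(ph y * (1 + y ^ 2))) y := by
    intro y
    have h1 := (((Phi_deriv y).const_mul 2).const_sub 1).add ((hasDerivAt_id y).mul (ph_deriv y))
    refine h1.congr_deriv ?_
    simp only [id]
    ring
  have hanti : Antitone (fun y => 1 - 2 * Phi y + y * ph y) := by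
    apply antitone_of_deriv_nonpos (fun y => (hd y).differentiableAt)
    intro y
    rw [(hd y).deriv]
    have := mul_pos (ph_pos y) (show (0:ℝ) < 1 + y ^ 2 by positivity)
    linarith
  have h := hanti hzn
  simp only [Phi_zero] at h
  linarith

lemma ph_sq_le_neg {z : ℝ} (hzn : z ≤ 0) : ph z ^ 2 ≤ Phi z * (1 - Phi z) := by
  have h3 := m3 z
  have h5 := m5 hzn
  have hp := Phi_pos z
  nlinarith [mul_nonneg hp.le h5]

lemma ph_sq_le (z : ℝ) : ph z ^ 2 ≤ Phi z * (1 - Phi z) := by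
  rcases le_total z 0 with h | h
  · exact ph_sq_le_neg h
  · have h1 := ph_sq_le_neg (z := -z) (by linarith)
    rw [ph_neg, Phi_neg] at h1
    nlinarith

end

end Crest.Agent.R146.Mills_384
end

-- ▼ part R146/Flat_384
section

/-!
Law transients ("forgetting") for row 146 (helper384, LEMMA 146-384-FLAT, post 1008).

`Y = -(log p)_x` solves `YSys` (MaxPCmp2_371). `E = 1/D` is increasing in time, `E' = b E` (left
derivatives). `G(t,x) = C E(t) (c0 + σ(x E(t)))`, `σ(y) = y + √(1+y²)` grows linearly at `+∞` and is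
bounded at `-∞`; `Q(t,x) = G(t,-x)`.

* `Y_le_add`: if `S` is an upper barrier then `S + G` is an upper barrier as soon as pointwise
  `0 ≤ b (V g + E w g') + E g' S + g S_x` (`g = c0 + σ(xE)`, `g' = σ(xE)/√(1+(xE)²)`), `1 ≤ C c0`;
* `add_le_Y`: the same below, `S - Q`.
-/

set_option autoImplicit false

open Set Filter Topology

namespace Crest.Agent.R146.Flat_384

open MaxP_371 MaxP2_371 MaxPCmp_371 MaxPCmp2_371 Pos_371

/-- `σ'(y)` -/
noncomputable def sg1 (y : ℝ) : ℝ := sg y / Real.sqrt (1 + y ^ 2)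
/-- `σ''(y)` -/
noncomputable def sg2 (y : ℝ) : ℝ := 1 / Real.sqrt (1 + y ^ 2) ^ 3

lemma sg1_pos (y : ℝ) : 0 < sg1 y := div_pos (sg_pos y) (sqrt_pos' y)



lemma sg2_le (y : ℝ) : sg2 y ≤ 2 * sg1 y := by
  have hs := sqrt_pos' y
  have h1 := one_le_sqrt y
  have h2 := sg_lower y
  unfold sg1 sg2
  set s := Real.sqrt (1 + y ^ 2) with hsd
  have e1 : 2 * (sg y / s) = (2 * sg y * s ^ 2) / s ^ 3 := by field_simp
  rw [e1]
  apply div_le_div_of_nonneg_right _ (by positivity)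
  have h3 := sg_pos y
  nlinarith [mul_pos h3 hs]


lemma hasDerivAt_s (y : ℝ) : HasDerivAt sg (sg1 y) y := hasDerivAt_sg y

lemma hasDerivAt_s1 (y : ℝ) : HasDerivAt sg1 (sg2 y) y := hasDerivAt_sg' y

/-- the forgetting function `C E (c0 + σ(x E))` -/
noncomputable def G (C c0 : ℝ) (E : ℝ → ℝ) (t x : ℝ) : ℝ := C * E t * (c0 + sg (x * E t))

lemma G_x (C c0 : ℝ) (E : ℝ → ℝ) (t x : ℝ) :
    HasDerivAt (G C c0 E t) (C * E t ^ 2 * sg1 (x * E t)) x := by
  have h0 : HasDerivAt (fun y : ℝ => y * E t) (E t) x := by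
    simpa using (hasDerivAt_id x).mul_const (E t)
  have h1 : HasDerivAt (fun y : ℝ => sg (y * E t)) (sg1 (x * E t) * E t) x :=
    (show HasDerivAt (sg ∘ fun y => y * E t) (sg1 (x * E t) * E t) x from
      HasDerivAt.comp (h₂ := sg) x (hasDerivAt_s (x * E t)) h0)
  have h2 := (h1.const_add c0).const_mul (C * E t)
  refine h2.congr_deriv ?_
  ring

lemma G_xx (C : ℝ) (E : ℝ → ℝ) (t x : ℝ) :
    HasDerivAt (fun y => C * E t ^ 2 * sg1 (y * E t)) (C * E t ^ 3 * sg2 (x * E t)) x := by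
  have h0 : HasDerivAt (fun y : ℝ => y * E t) (E t) x := by
    simpa using (hasDerivAt_id x).mul_const (E t)
  have h1 : HasDerivAt (fun y : ℝ => sg1 (y * E t)) (sg2 (x * E t) * E t) x :=
    (show HasDerivAt (sg1 ∘ fun y => y * E t) (sg2 (x * E t) * E t) x from
      HasDerivAt.comp (h₂ := sg1) x (hasDerivAt_s1 (x * E t)) h0)
  have h2 := h1.const_mul (C * E t ^ 2)
  refine h2.congr_deriv ?_
  ring

lemma G_t (C c0 : ℝ) {E : ℝ → ℝ} {t e : ℝ} (hE : HasDerivWithinAt E (e * E t) (Iic t) t) (x : ℝ) :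
    HasDerivWithinAt (fun s => G C c0 E s x)
      (C * e * E t * ((c0 + sg (x * E t)) + x * E t * sg1 (x * E t))) (Iic t) t := by
  have h0 : HasDerivWithinAt (fun s : ℝ => x * E s) (x * (e * E t)) (Iic t) t := hE.const_mul x
  have h1 : HasDerivWithinAt (fun s : ℝ => sg (x * E s)) (sg1 (x * E t) * (x * (e * E t))) (Iic t) t :=
    (show HasDerivWithinAt (sg ∘ fun s => x * E s) (sg1 (x * E t) * (x * (e * E t))) (Iic t) t from
      HasDerivAt.comp_hasDerivWithinAt (h₂ := sg) t (hasDerivAt_s (x * E t)) h0)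
  have h2 := (hE.const_mul C).mul (h1.const_add c0)
  refine h2.congr_deriv ?_
  ring


section

variable {t0 t1 : ℝ} {b E : ℝ → ℝ} {u V P Y Yx Yxx : ℝ → ℝ → ℝ} {M : ℝ}
  {S St Sx Sxx : ℝ → ℝ → ℝ} {L C c0 : ℝ}

lemma key_pos {a C c0 : ℝ} (hC : 0 < C) (hc : 1 ≤ C * c0) :
    0 ≤ C * (c0 + sg a) * sg1 a - sg2 a / 2 := by
  have h1 := sg1_pos a
  have h2 := sg_pos a
  have h3 := sg2_le a
  have h4 : sg1 a ≤ C * (c0 + sg a) * sg1 a := by
    have : 1 ≤ C * (c0 + sg a) := by nlinarith [mul_pos hC h2]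
    nlinarith
  linarith


/-- the mirror of `G`: `Q(t,x) = C E (c0 + σ(-xE))` -/
noncomputable def Q (C c0 : ℝ) (E : ℝ → ℝ) (t x : ℝ) : ℝ := C * E t * (c0 + sg (-(x * E t)))

lemma Q_eq (C c0 : ℝ) (E : ℝ → ℝ) (t x : ℝ) : Q C c0 E t x = G C c0 E t (-x) := by
  unfold Q G; rw [neg_mul]

lemma Q_x (C c0 : ℝ) (E : ℝ → ℝ) (t x : ℝ) :
    HasDerivAt (Q C c0 E t) (-(C * E t ^ 2 * sg1 (-(x * E t)))) x := by
  have h1 : HasDerivAt (fun y : ℝ => -y) (-1) x := hasDerivAt_neg x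
  have h2 := HasDerivAt.comp x (G_x C c0 E t (-x)) h1
  have h3 : (Q C c0 E t) = (G C c0 E t) ∘ (fun y => -y) := by
    funext y; exact Q_eq C c0 E t y
  rw [h3]
  refine h2.congr_deriv ?_
  rw [neg_mul]; ring

lemma Q_xx (C : ℝ) (E : ℝ → ℝ) (t x : ℝ) :
    HasDerivAt (fun y => -(C * E t ^ 2 * sg1 (-(y * E t)))) (C * E t ^ 3 * sg2 (-(x * E t))) x := by
  have h1 : HasDerivAt (fun y : ℝ => -y) (-1) x := hasDerivAt_neg x
  have h2 := (HasDerivAt.comp x (G_xx C E t (-x)) h1).neg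
  have h3 : (fun y => -(C * E t ^ 2 * sg1 (-(y * E t)))) =
      -((fun y => C * E t ^ 2 * sg1 (y * E t)) ∘ (fun y => -y)) := by
    funext y; simp only [Function.comp_apply, Pi.neg_apply, neg_mul]
  rw [h3]
  refine h2.congr_deriv ?_
  rw [neg_mul]; ring

lemma Q_t (C c0 : ℝ) {E : ℝ → ℝ} {t e : ℝ} (hE : HasDerivWithinAt E (e * E t) (Iic t) t) (x : ℝ) :
    HasDerivWithinAt (fun s => Q C c0 E s x)
      (C * e * E t * ((c0 + sg (-(x * E t))) - x * E t * sg1 (-(x * E t)))) (Iic t) t := by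
  have h1 := G_t C c0 hE (-x)
  have h3 : (fun s => Q C c0 E s x) = (fun s => G C c0 E s (-x)) := by
    funext y; exact Q_eq C c0 E y x
  rw [h3]
  refine h1.congr_deriv ?_
  rw [neg_mul]; ring

lemma Q_cont (C c0 : ℝ) {E : ℝ → ℝ} {t0 t1 : ℝ} (hE : ContinuousOn E (Icc t0 t1)) :
    ContinuousOn (fun p : ℝ × ℝ => Q C c0 E p.1 p.2) (strip t0 t1) := by
  have h1 : ContinuousOn (fun p : ℝ × ℝ => E p.1) (strip t0 t1) :=
    hE.comp continuousOn_fst fun p hp => hp.1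
  unfold Q
  exact (continuousOn_const.mul h1).mul
    (continuousOn_const.add (sg_cont.comp_continuousOn (continuousOn_snd.mul h1).neg))

/-- **Forgetting, lower side**: a lower barrier `S` minus `C E (c0 + σ(-xE))`. -/
theorem add_le_Y (h : YSys t0 t1 b u V P Y Yx Yxx M) (hS : FBar t0 t1 S St Sx Sxx)
    (hEc : ContinuousOn E (Icc t0 t1)) (hEp : ∀ t ∈ Icc t0 t1, 0 < E t)
    (hEt : ∀ t ∈ Ioc t0 t1, HasDerivWithinAt E (b t * E t) (Iic t) t)
    (hC : 0 < C) (hc : 1 ≤ C * c0)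
    (hS0 : ∀ t ∈ Icc t0 t1, ∀ x, S t x ≤ L * (1 + |x|))
    (hSx : ∀ t ∈ Ioc t0 t1, ∀ x, -L ≤ Sx t x)
    (hineq : ∀ t ∈ Ioc t0 t1, ∀ x,
      St t x ≤ Sxx t x / 2 - (S t x + b t * u t x) * Sx t x + b t * (1 - V t x) * S t x + b t * P t x)
    (hpt : ∀ t ∈ Ioc t0 t1, ∀ x,
      0 ≤ b t * (V t x * (c0 + sg (-(x * E t))) - E t * (x + u t x) * sg1 (-(x * E t))) -
        E t * sg1 (-(x * E t)) * S t x + (c0 + sg (-(x * E t))) * Sx t x)
    (hinit : ∀ x, S t0 x - Q C c0 E t0 x ≤ Y t0 x) :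
    ∀ t ∈ Icc t0 t1, ∀ x, S t x - Q C c0 E t x ≤ Y t x := by
  have hc0 : 0 < c0 := by
    by_contra hcon
    have : C * c0 ≤ 0 := mul_nonpos_of_nonneg_of_nonpos hC.le (not_lt.1 hcon)
    linarith
  have hG0 : ∀ t ∈ Icc t0 t1, ∀ x, 0 ≤ Q C c0 E t x := fun t ht x => by
    have h1 := hEp t ht
    have h2 := sg_pos (-(x * E t))
    unfold Q; positivity
  have hF : FBar t0 t1 (fun t x => S t x - Q C c0 E t x)
      (fun t x => St t x -
        C * b t * E t * ((c0 + sg (-(x * E t))) - x * E t * sg1 (-(x * E t))))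
      (fun t x => Sx t x - -(C * E t ^ 2 * sg1 (-(x * E t))))
      (fun t x => Sxx t x - C * E t ^ 3 * sg2 (-(x * E t))) :=
    { cS := hS.cS.sub (Q_cont C c0 hEc)
      hSt := fun t ht x => (hS.hSt t ht x).sub (Q_t C c0 (hEt t ht) x)
      hSx := fun t ht x => (hS.hSx t ht x).sub (Q_x C c0 E t x)
      hSxx := fun t ht x => by
        rcases hS.hSxx t ht x with h1 | h1
        · exact Or.inl (h1.sub (Q_xx C E t x).hasDerivWithinAt)
        · exact Or.inr (h1.sub (Q_xx C E t x).hasDerivWithinAt) }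
  refine bar_le_Y h hF (L := L) ?_ ?_ ?_ hinit
  · intro t ht x
    have := hS0 t ht x
    have := hG0 t ht x
    linarith
  · intro t ht x
    have h1 := hSx t ht x
    have h2 : 0 ≤ C * E t ^ 2 * sg1 (-(x * E t)) := by
      have := sg1_pos (-(x * E t))
      positivity
    linarith
  · intro t ht x
    have htI : t ∈ Icc t0 t1 := ⟨ht.1.le, ht.2⟩
    have h1 := hineq t ht x
    have h2 := hpt t ht x
    have h3 := hEp t htI
    have h4 := key_pos (a := -(x * E t)) hC hc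
    have h5 : 0 ≤ C * E t ^ 3 *
        (C * (c0 + sg (-(x * E t))) * sg1 (-(x * E t)) - sg2 (-(x * E t)) / 2) :=
      mul_nonneg (by positivity) h4
    have h6 := mul_nonneg (mul_pos hC h3).le h2
    unfold Q
    nlinarith [h1, h5, h6]

end

end Crest.Agent.R146.Flat_384
end

-- ▼ part R146/Apri_384

/-!
A priori bounds of the backward system (row 146, helper384), `τ = 1 - t`, hypothesis `b τ ≤ 1` only:

* `u_le_hz`   : `u ≤ √τ hz(x/√τ)`;
* `U0_le_u`   : `√τ U0(x/√τ) ≤ u` (all `b ≥ 0`);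
* `u_le_k`    : `u ≤ (√(x²+k) - x)/2` as soon as `k' ≤ -(1 + b k)` (all `b ≥ 0`; `k = χ = D K0` exactly);
* `V_zero_ge` : `V(t,0) ≥ 1/25`;
* `P_le_root` : `V_x ≤ √(V(1-V))/√τ`.
-/

set_option autoImplicit false

open Set Filter Topology

namespace Crest.Agent.R146.Apri_384

open MaxP_371 MaxP2_371 MaxPCmp_371 MaxPCmp2_371 Pos_371 Mills_384 StepStart_483 StepDef_791

noncomputable section

lemma sqrt_tau_deriv {t : ℝ} (ht : t < 1) :
    HasDerivAt (fun s : ℝ => √(1 - s)) (-(1 / (2 * √(1 - t)))) t := by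
  have h1 : HasDerivAt (fun s : ℝ => 1 - s) (-1) t := by
    simpa using (hasDerivAt_id t).const_sub 1
  have h2 := h1.sqrt (by linarith)
  refine h2.congr_deriv ?_
  ring

lemma sqrt_tau_pos {t : ℝ} (ht : t < 1) : 0 < √(1 - t) := Real.sqrt_pos.2 (by linarith)

/-- scaled barrier `√τ f(x/√τ)` -/
lemma bar_scale {t0 t1 : ℝ} (ht1 : t1 < 1) {f f1 f2 : ℝ → ℝ} (hf : ∀ z, HasDerivAt f (f1 z) z)
    (hf1 : ∀ z, HasDerivAt f1 (f2 z) z) :
    Bar t0 t1 (fun t x => √(1 - t) * f (x / √(1 - t)))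
      (fun t x => -((f (x / √(1 - t)) - x / √(1 - t) * f1 (x / √(1 - t))) / (2 * √(1 - t))))
      (fun t x => f1 (x / √(1 - t))) (fun t x => f2 (x / √(1 - t)) / √(1 - t)) := by
  have hfc : Continuous f := continuous_iff_continuousAt.2 fun z => (hf z).continuousAt
  constructor
  · have h1 : ContinuousOn (fun p : ℝ × ℝ => √(1 - p.1)) (strip t0 t1) := by fun_prop
    have h2 : ContinuousOn (fun p : ℝ × ℝ => p.2 / √(1 - p.1)) (strip t0 t1) :=
      continuousOn_snd.div h1 fun p hp => (sqrt_tau_pos (hp.1.2.trans_lt ht1)).ne'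
    exact h1.mul (hfc.comp_continuousOn h2)
  · intro t ht x
    have htl : t < 1 := ht.2.trans ht1
    have hs := sqrt_tau_pos htl
    have h1 := sqrt_tau_deriv htl
    have h2 : HasDerivAt (fun s : ℝ => x / √(1 - s))
        ((0 * √(1 - t) - x * (-(1 / (2 * √(1 - t))))) / √(1 - t) ^ 2) t :=
      (hasDerivAt_const t x).div h1 hs.ne'
    have h3 : HasDerivAt (f ∘ fun s : ℝ => x / √(1 - s))
        (f1 (x / √(1 - t)) * ((0 * √(1 - t) - x * (-(1 / (2 * √(1 - t))))) / √(1 - t) ^ 2)) t :=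
      HasDerivAt.comp (h₂ := f) t (hf _) h2
    have h4 := h1.mul h3
    refine (h4.congr_deriv ?_).hasDerivWithinAt
    simp only [Function.comp_apply]
    have hs' := hs.ne'
    field_simp
    ring
  · intro t ht x
    have hs := sqrt_tau_pos (ht.2.trans ht1)
    have h2 : HasDerivAt (fun y : ℝ => y / √(1 - t)) (1 / √(1 - t)) x :=
      (hasDerivAt_id x).div_const _
    have h3 : HasDerivAt (f ∘ fun y : ℝ => y / √(1 - t)) (f1 (x / √(1 - t)) * (1 / √(1 - t))) x :=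
      HasDerivAt.comp (h₂ := f) x (hf _) h2
    refine (h3.const_mul (√(1 - t))).congr_deriv ?_
    have hs' := hs.ne'
    field_simp
  · intro t ht x
    have hs := sqrt_tau_pos (ht.2.trans ht1)
    have h2 : HasDerivAt (fun y : ℝ => y / √(1 - t)) (1 / √(1 - t)) x :=
      (hasDerivAt_id x).div_const _
    have h3 : HasDerivAt (f1 ∘ fun y : ℝ => y / √(1 - t)) (f2 (x / √(1 - t)) * (1 / √(1 - t))) x :=
      HasDerivAt.comp (h₂ := f1) x (hf1 _) h2
    exact HasSide.of_hasDerivAt (h3.congr_deriv (by ring))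

section

variable {t0 t1 : ℝ} {b : ℝ → ℝ} {u V P Px Pxx : ℝ → ℝ → ℝ} {M : ℝ}

/-- `u ≤ √τ h(x/√τ)` for `b τ ≤ 1`. -/
theorem u_le_hz (h : BSys t0 t1 b u V P Px Pxx M) (h0 : 0 ≤ t0) (ht1 : t1 < 1)
    (hb : ∀ t ∈ Ico t0 t1, b t * (1 - t) ≤ 1)
    (hterm : ∀ x, u t1 x ≤ √(1 - t1) * hz (x / √(1 - t1))) :
    ∀ t ∈ Icc t0 t1, ∀ x, u t x ≤ √(1 - t) * hz (x / √(1 - t)) := by
  refine u_le_bar h (bar_scale ht1 hz_deriv hz1_deriv) (L := 1) ?_ ?_ hterm
  · intro t ht x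
    have hs := sqrt_tau_pos (ht.2.trans_lt ht1)
    have hs1 : √(1 - t) ≤ 1 := by
      have := Real.sqrt_le_sqrt (show 1 - t ≤ 1 by linarith [ht.1])
      rwa [Real.sqrt_one] at this
    have h1 := hz_pos (x / √(1 - t))
    have h2 := hz_le (x / √(1 - t))
    rw [abs_of_nonneg (by positivity), one_mul]
    calc √(1 - t) * hz (x / √(1 - t)) ≤ √(1 - t) * (1 + |x / √(1 - t)|) :=
          mul_le_mul_of_nonneg_left h2 hs.le
      _ = √(1 - t) + |x| := by
          rw [abs_div, abs_of_pos hs]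
          field_simp
      _ ≤ 1 + |x| := by linarith
  · intro t ht x
    have htl : t < 1 := ht.2.trans ht1
    have hs := sqrt_tau_pos htl
    have hs2 : √(1 - t) ^ 2 = 1 - t := Real.sq_sqrt (by linarith)
    set s := √(1 - t) with hsd
    set z := x / s with hzd
    have h1 := hz_eq z
    have h2 : 0 ≤ hz z * (1 + hz1 z) := mul_nonneg (hz_pos z).le (one_add_hz1 z)
    have h3 : b t * s ≤ 1 / s := by
      rw [le_div_iff₀ hs]
      have := hb t ht
      rw [← hs2] at this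
      nlinarith
    have h4 : b t * s * (hz z * (1 + hz1 z)) ≤ 1 / s * (hz z * (1 + hz1 z)) :=
      mul_le_mul_of_nonneg_right h3 h2
    have e : -((hz z - z * hz1 z) / (2 * s)) + hz2 z / s / 2 + 1 / s * (hz z * (1 + hz1 z)) =
        (-hz z + z * hz1 z + hz2 z + 2 * hz z * (1 + hz1 z)) / (2 * s) := by
      field_simp
      ring
    rw [h1, zero_div] at e
    nlinarith

/-- `√τ U0(x/√τ) ≤ u`, all `b ≥ 0`. -/
theorem U0_le_u (h : BSys t0 t1 b u V P Px Pxx M) (h0 : 0 ≤ t0) (ht1 : t1 < 1)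
    (hterm : ∀ x, √(1 - t1) * U0 (x / √(1 - t1)) ≤ u t1 x) :
    ∀ t ∈ Icc t0 t1, ∀ x, √(1 - t) * U0 (x / √(1 - t)) ≤ u t x := by
  have hd : ∀ z, HasDerivAt (fun z => Phi z - 1) (ph z) z := fun z => (Phi_deriv z).sub_const 1
  refine bar_le_u h (bar_scale ht1 U0_deriv hd) (L := 1) ?_ ?_ hterm
  · intro t ht x
    have hs := sqrt_tau_pos (ht.2.trans_lt ht1)
    have hs1 : √(1 - t) ≤ 1 := by
      have := Real.sqrt_le_sqrt (show 1 - t ≤ 1 by linarith [ht.1])
      rwa [Real.sqrt_one] at this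
    have h1 := U0_pos (x / √(1 - t))
    have h2 := U0_le (x / √(1 - t))
    rw [abs_of_nonneg (by positivity), one_mul]
    calc √(1 - t) * U0 (x / √(1 - t)) ≤ √(1 - t) * (1 + |x / √(1 - t)|) :=
          mul_le_mul_of_nonneg_left h2 hs.le
      _ = √(1 - t) + |x| := by
          rw [abs_div, abs_of_pos hs]
          field_simp
      _ ≤ 1 + |x| := by linarith
  · intro t ht x
    have htl : t < 1 := ht.2.trans ht1
    have hs := sqrt_tau_pos htl
    have hbn := h.b_nonneg t ⟨ht.1, ht.2.le⟩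
    have hU := U0_pos (x / √(1 - t))
    have hP := Phi_pos (x / √(1 - t))
    have h2 : 0 ≤ b t * (√(1 - t) * U0 (x / √(1 - t))) * (1 + (Phi (x / √(1 - t)) - 1)) := by
      have : 1 + (Phi (x / √(1 - t)) - 1) = Phi (x / √(1 - t)) := by ring
      rw [this]; positivity
    have e : -((U0 (x / √(1 - t)) - x / √(1 - t) * (Phi (x / √(1 - t)) - 1)) / (2 * √(1 - t))) +
        ph (x / √(1 - t)) / √(1 - t) / 2 = 0 := by
      rw [U0_eq]
      field_simp
      ring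
    linarith


/-- `w(t,0) - w(t,-a) ≤ a V(t,0)` -/
lemma w_conv (h : BSys t0 t1 b u V P Px Pxx M) {t : ℝ} (ht : t ∈ Ico t0 t1) {a : ℝ} (ha : 0 ≤ a) :
    u t 0 - (u t (-a) - a) ≤ V t 0 * a := by
  have hd : ∀ x, HasDerivAt (fun x => x + u t x) (V t x) x := fun x => by
    have := (hasDerivAt_id x).add (h.hux t ht x)
    exact this.congr_deriv (by ring)
  have h1 := (convex_Iic (0:ℝ)).image_sub_le_mul_sub_of_deriv_le (f := fun x => x + u t x)
    (C := V t 0) (fun x _ => (hd x).continuousAt.continuousWithinAt)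
    (fun x _ => (hd x).differentiableAt.differentiableWithinAt) (fun x hx => by
      rw [(hd x).deriv]
      rw [interior_Iic] at hx
      exact h.mono ht hx.le) (-a) (show -a ≤ 0 by linarith) 0 (le_refl (0:ℝ)) (by linarith)
  linarith

/-- `V(t,0) ≥ 1/25`, from the two bounds of `u`. -/
theorem V_zero_ge (h : BSys t0 t1 b u V P Px Pxx M) {t : ℝ} (ht : t ∈ Ico t0 t1) (ht1 : t < 1)
    (hup : ∀ x, u t x ≤ √(1 - t) * hz (x / √(1 - t)))
    (hlo : ∀ x, √(1 - t) * U0 (x / √(1 - t)) ≤ u t x) : 1 / 25 ≤ V t 0 := by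
  have hs := sqrt_tau_pos ht1
  have h1 := w_conv h ht (a := 5 * √(1 - t)) (by positivity)
  have h2 := hlo 0
  have h3 := hup (-(5 * √(1 - t)))
  have e1 : -(5 * √(1 - t)) / √(1 - t) = -5 := by field_simp
  have e2 : (0:ℝ) / √(1 - t) = 0 := zero_div _
  rw [e1] at h3
  rw [e2] at h2
  have h4 : U0 0 = ph 0 := by rw [U0_eq]; ring
  have h5 := ph_zero_ge
  have h6 := hz_neg5
  rw [h4] at h2
  have h7 : √(1 - t) * 0.398 ≤ √(1 - t) * ph 0 := mul_le_mul_of_nonneg_left h5 hs.le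
  have h8 : √(1 - t) * hz (-5) ≤ √(1 - t) * 5.195 := mul_le_mul_of_nonneg_left h6 hs.le
  have h9 : √(1 - t) * 0.203 ≤ V t 0 * (5 * √(1 - t)) := by linarith
  have h10 : √(1 - t) * (0.203 - 5 * V t 0) ≤ 0 := by linarith
  have h11 : 0.203 - 5 * V t 0 ≤ 0 := by
    by_contra hcon
    push Not at hcon
    have := mul_pos hs hcon
    linarith
  norm_num at h11 ⊢
  linarith

/-- **`V_x ≤ √(V(1-V))/√τ`** for `b τ ≤ 1`. -/
theorem P_le_root (h : BSys t0 t1 b u V P Px Pxx M) (ht1 : t1 < 1)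
    (hb : ∀ t ∈ Ico t0 t1, b t * (1 - t) ≤ 1)
    (hterm : ∀ x, P t1 x ≤ (√(1 - t1))⁻¹ * √(V t1 x * (1 - V t1 x))) :
    ∀ t ∈ Icc t0 t1, ∀ x, P t x ≤ (√(1 - t))⁻¹ * √(V t x * (1 - V t x)) := by
  have hq : ∀ v ∈ Ioo (0:ℝ) 1, 0 < v * (1 - v) := fun v hv => mul_pos hv.1 (by linarith [hv.2])
  have hKp : ∀ v ∈ Ioo (0:ℝ) 1, 0 < √(v * (1 - v)) := fun v hv => Real.sqrt_pos.2 (hq v hv)
  have hK : ∀ v ∈ Ioo (0:ℝ) 1, HasDerivAt (fun v => √(v * (1 - v)))
      ((1 - 2 * v) / (2 * √(v * (1 - v)))) v := by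
    intro v hv
    have h1 : HasDerivAt (fun v : ℝ => v * (1 - v)) (1 - 2 * v) v := by
      have := (hasDerivAt_id v).mul ((hasDerivAt_id v).const_sub 1)
      refine this.congr_deriv ?_
      simp only [id]; ring
    exact h1.sqrt (hq v hv).ne'
  have hK' : ∀ v ∈ Ioo (0:ℝ) 1, HasDerivAt (fun v => (1 - 2 * v) / (2 * √(v * (1 - v))))
      (-(1 / (4 * √(v * (1 - v)) ^ 3))) v := by
    intro v hv
    have hk := hKp v hv
    have hsq : √(v * (1 - v)) ^ 2 = v * (1 - v) := Real.sq_sqrt (hq v hv).le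
    have h1 : HasDerivAt (fun v : ℝ => 1 - 2 * v) (-2) v := by
      have := ((hasDerivAt_id v).const_mul 2).const_sub 1
      refine this.congr_deriv ?_
      simp
    have h2 := h1.div ((hK v hv).const_mul 2) (by positivity)
    refine h2.congr_deriv ?_
    field_simp
    rw [hsq]
    ring
  refine h.slope_le (g := fun t => (√(1 - t))⁻¹) (g' := fun t => 1 / (2 * √(1 - t) ^ 3)) ?_ ?_ ?_
    (K := fun v => √(v * (1 - v))) (K' := fun v => (1 - 2 * v) / (2 * √(v * (1 - v))))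
    (K'' := fun v => -(1 / (4 * √(v * (1 - v)) ^ 3))) ?_ ?_ hK
    (fun v hv => HasSide.of_hasDerivAt (hK' v hv)) ?_ ?_ hterm
  · intro t ht
    have htl : t < 1 := ht.2.trans ht1
    have hs := sqrt_tau_pos htl
    have h1 := (sqrt_tau_deriv htl).inv hs.ne'
    refine (h1.congr_deriv ?_).hasDerivWithinAt
    field_simp
  · exact ContinuousOn.inv₀ (by fun_prop) fun t ht => (sqrt_tau_pos (ht.2.trans_lt ht1)).ne'
  · intro t ht
    have := sqrt_tau_pos (ht.2.trans_lt ht1)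
    positivity
  · fun_prop
  · intro v hv; exact (hKp v hv).le
  · intro v hv
    have := hKp v hv
    have : 0 ≤ 1 / (4 * √(v * (1 - v)) ^ 3) := by positivity
    linarith
  · intro t ht v hv
    have htl : t < 1 := ht.2.trans ht1
    have hs := sqrt_tau_pos htl
    have hs2 : √(1 - t) ^ 2 = 1 - t := Real.sq_sqrt (by linarith)
    have hk := hKp v hv
    have hsq : √(v * (1 - v)) ^ 2 = v * (1 - v) := Real.sq_sqrt (hq v hv).le
    have hb1 := hb t ht
    have hb0 := h.b_nonneg t ⟨ht.1, ht.2.le⟩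
    set s := √(1 - t) with hsd
    set K := √(v * (1 - v)) with hKd
    set β := b t * (1 - t) with hβ
    have hβ0 : 0 ≤ β := mul_nonneg hb0 (by linarith)
    have hbt : b t = β / s ^ 2 := by
      rw [hβ, hs2]
      have : (1 - t) ≠ 0 := by linarith
      field_simp
    have e : 1 / (2 * s ^ 3) * K + (s⁻¹) ^ 3 * (K ^ 2 * -(1 / (4 * K ^ 3))) / 2
        + b t * s⁻¹ * (v * (1 - v) * ((1 - 2 * v) / (2 * K)) - (2 - 3 * v) * K) =
        (K ^ 2 / 2 - 1 / 8 + β * (v * (1 - v) * (1 - 2 * v) / 2 - (2 - 3 * v) * K ^ 2)) /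
          (s ^ 3 * K) := by
      rw [hbt]
      field_simp
      ring
    rw [e, hsq]
    apply div_nonpos_of_nonpos_of_nonneg _ (by positivity)
    -- affine in β
    have f0 : v * (1 - v) / 2 - 1 / 8 ≤ 0 := by nlinarith [sq_nonneg (v - 1 / 2)]
    have f1 : v * (1 - v) / 2 - 1 / 8 +
        (v * (1 - v) * (1 - 2 * v) / 2 - (2 - 3 * v) * (v * (1 - v))) ≤ 0 := by
      have hv1 := hv.1
      have hv2 := hv.2
      have e2 : v * (1 - v) / 2 - 1 / 8 +
        (v * (1 - v) * (1 - 2 * v) / 2 - (2 - 3 * v) * (v * (1 - v))) =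
        v * (1 - v) * (2 * v - 1) - 1 / 8 := by ring
      rw [e2]
      nlinarith [mul_nonneg hv1.le (sq_nonneg (v - 4 / 5)), sq_nonneg (v - 4 / 5),
        mul_nonneg (sub_nonneg.2 hv2.le) (sq_nonneg (v - 4 / 5))]
    nlinarith

end

end

end Crest.Agent.R146.Apri_384
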