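import Crest.Agent.R146.P34_734
import Crest.Agent.R146.AsmP_663

/-!
Row 146: ASSEMBLY of S0204 (and S0203, EPS) from the Props of `P34_734` (helper734).
-/

set_option autoImplicit false

open MeasureTheory ProbabilityTheory Filter Crest.ProbabilityR.Perceptron
open scoped Topology ENNReal

namespace Crest.Agent.R146.Asm0204_734

open Crest.Agent.R146.P34_734

/-! ### Elementary facts on `Pv` -/

lemma test_zero : Test (fun _ : ℝ => (0 : ℝ)) where
  smooth n := contDiff_const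
  bd n := ⟨0, fun x => by
    have : iteratedDeriv n (fun _ : ℝ => (0 : ℝ)) = fun _ => 0 := by
      funext y
      simp
    rw [this]; simp⟩


lemma vals_nonempty (W : BS) (α : ℝ) (f : ℝ → ℝ) : (W.vals α f).Nonempty :=
  ⟨_, AsmP_663.oneProf, by rw [AsmP_663.entropy_oneProf]; exact ENNReal.zero_ne_top, rfl⟩

lemma bddBelow_vals (W : BS) (hZ : VZERO W) {α b k : ℝ} (hα : 0 ≤ α) (hb : 0 < b) :
    BddBelow (W.vals α (fq b k)) := by
  have h := hZ b k hb (fun _ => 0) continuous_const ⟨0, by simp⟩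
  simp only [add_zero] at h
  refine ⟨α * ∫ z, fq b k z ∂(gaussianReal 0 1), ?_⟩
  rintro x ⟨m, _, rfl⟩
  have h1 := mul_le_mul_of_nonneg_left (h m) hα
  have h2 : 0 ≤ m.entropy.toReal := ENNReal.toReal_nonneg
  have e : W.V (fun x => fq b k x) m = W.V (fq b k) m := rfl
  rw [e] at h1
  linarith

lemma V_nonpos (W : BS) (hU : VUP W) {b k : ℝ} (hb : 0 < b) (m : OverlapProfile) :
    W.V (fq b k) m ≤ 0 := by
  have h := hU b k 0 hb (fun _ => 0) measurable_const (by simp) m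
  simp only [add_zero] at h
  exact h

/-- the value decreases with the density -/
lemma Pv_anti (W : BS) (hZ : VZERO W) (hU : VUP W) {α α' b k : ℝ} (hα : 0 ≤ α) (h : α ≤ α')
    (hb : 0 < b) : W.Pv α' (fq b k) ≤ W.Pv α (fq b k) := by
  refine le_csInf (vals_nonempty W α _) ?_
  rintro x ⟨m, hm, rfl⟩
  refine (csInf_le (bddBelow_vals W hZ (hα.trans h) hb) ⟨m, hm, rfl⟩).trans ?_
  have := V_nonpos W hU (k := k) hb m
  nlinarith

lemma ZeroE.anti {W : BS} (hZ : VZERO W) (hU : VUP W) {α α' k : ℝ} (hα : 0 ≤ α) (h : α ≤ α')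
    (hE : W.ZeroE α' k) : W.ZeroE α k := by
  intro d hd
  obtain ⟨b0, hb0, hb⟩ := hE d hd
  exact ⟨b0, hb0, fun b hbb => (hb b hbb).trans (Pv_anti W hZ hU hα h (hb0.trans_le hbb))⟩

/-- **joint concavity** -/
lemma Pv_concave (W : BS) (hC : VCONC W) (hZ : VZERO W) {α₁ α₂ k₁ k₂ s t α k b : ℝ}
    (h1 : 0 ≤ α₁) (h2 : 0 ≤ α₂) (hs : 0 ≤ s) (ht : 0 ≤ t) (hst : s + t = 1)
    (hα : α = s * α₁ + t * α₂) (hαp : 0 < α) (hk : α * k = s * α₁ * k₁ + t * α₂ * k₂) (hb : 0 < b) :
    s * W.Pv α₁ (fq b k₁) + t * W.Pv α₂ (fq b k₂) ≤ W.Pv α (fq b k) := by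
  refine le_csInf (vals_nonempty W α _) ?_
  rintro x ⟨m, hm, rfl⟩
  have e1 := csInf_le (bddBelow_vals W hZ (k := k₁) h1 hb) ⟨m, hm, rfl⟩
  have e2 := csInf_le (bddBelow_vals W hZ (k := k₂) h2 hb) ⟨m, hm, rfl⟩
  have e1' := mul_le_mul_of_nonneg_left e1 hs
  have e2' := mul_le_mul_of_nonneg_left e2 ht
  have hc := (hC b hb m).2 (Set.mem_univ k₁) (Set.mem_univ k₂)
    (show 0 ≤ s * α₁ / α by positivity) (show 0 ≤ t * α₂ / α by positivity)
    (by rw [← add_div, ← hα, div_self hαp.ne'])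
  simp only [smul_eq_mul] at hc
  have hkk : s * α₁ / α * k₁ + t * α₂ / α * k₂ = k := by
    field_simp
    linarith
  rw [hkk] at hc
  have hc' := mul_le_mul_of_nonneg_left hc hαp.le
  have hl : α * (s * α₁ / α * W.V (fq b k₁) m + t * α₂ / α * W.V (fq b k₂) m) =
      s * (α₁ * W.V (fq b k₁) m) + t * (α₂ * W.V (fq b k₂) m) := by
    field_simp
  rw [hl] at hc'
  have hS : s * m.entropy.toReal + t * m.entropy.toReal = m.entropy.toReal := by
    rw [← add_mul, hst, one_mul]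
  have f1 : s * W.Pv α₁ (fq b k₁) ≤ s * (α₁ * W.V (fq b k₁) m + m.entropy.toReal) := e1'
  have f2 : t * W.Pv α₂ (fq b k₂) ≤ t * (α₂ * W.V (fq b k₂) m + m.entropy.toReal) := e2'
  nlinarith

lemma ZeroE.concave {W : BS} (hC : VCONC W) (hZ : VZERO W) {α₁ α₂ k₁ k₂ s t α k : ℝ}
    (h1 : 0 ≤ α₁) (h2 : 0 ≤ α₂) (hs : 0 ≤ s) (ht : 0 ≤ t) (hst : s + t = 1)
    (hα : α = s * α₁ + t * α₂) (hαp : 0 < α) (hk : α * k = s * α₁ * k₁ + t * α₂ * k₂)
    (hE1 : W.ZeroE α₁ k₁) (hE2 : W.ZeroE α₂ k₂) : W.ZeroE α k := by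
  intro d hd
  obtain ⟨b1, hb1, hB1⟩ := hE1 d hd
  obtain ⟨b2, hb2, hB2⟩ := hE2 d hd
  refine ⟨max b1 b2, lt_max_of_lt_left hb1, fun b hb => ?_⟩
  have g1 := mul_le_mul_of_nonneg_left (hB1 b ((le_max_left _ _).trans hb)) hs
  have g2 := mul_le_mul_of_nonneg_left (hB2 b ((le_max_right _ _).trans hb)) ht
  have hbp : 0 < b := (lt_max_of_lt_left hb1).trans_le hb
  have := Pv_concave W hC hZ h1 h2 hs ht hst hα hαp hk hbp
  have e : s * -(b * d) + t * -(b * d) = -(b * d) := by rw [← add_mul, hst, one_mul]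
  linarith

/-! ### Monotonicity of the pressure in the potential -/

lemma potentialSum_measurable {N : ℕ} {α : ℝ} {φ : ℝ → ℝ} (hφ : Measurable φ)
    (A : Patterns N α) : Measurable fun y : UnitSphere N => potentialSum φ A y := by
  unfold potentialSum
  refine Finset.measurable_sum _ fun a _ => hφ.comp ?_
  refine Finset.measurable_sum _ fun i _ => Measurable.const_mul ?_ _
  exact ((EuclideanSpace.proj (𝕜 := ℝ) i).continuous.measurable).comp measurable_subtype_coe

lemma integrable_exp_potential {N : ℕ} {α K : ℝ} {φ : ℝ → ℝ} (hφ : Measurable φ)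
    (hK : ∀ x, φ x ≤ K) (A : Patterns N α) :
    Integrable (fun y : UnitSphere N => Real.exp (1 * potentialSum φ A y)) (sphereLaw N) := by
  refine Integrable.of_bound (C := Real.exp (numPatterns N α * K))
    ((potentialSum_measurable hφ A).const_mul 1).exp.aestronglyMeasurable
    (Eventually.of_forall fun y => ?_)
  rw [Real.norm_eq_abs, Real.abs_exp, one_mul]
  refine Real.exp_le_exp.2 ?_
  unfold potentialSum
  refine (Finset.sum_le_sum fun a _ => hK _).trans (le_of_eq ?_)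
  simp

lemma spherePressure_mono {N : ℕ} {α K : ℝ} {φ φ' : ℝ → ℝ} (hφ : Measurable φ)
    (hφ' : Measurable φ') (hK : ∀ x, φ' x ≤ K) (h : ∀ x, φ x ≤ φ' x) (A : Patterns N α) :
    spherePressure N α 1 φ A ≤ spherePressure N α 1 φ' A := by
  have hi := integrable_exp_potential hφ (fun x => (h x).trans (hK x)) A
  have hi' := integrable_exp_potential hφ' hK A
  rcases Nat.eq_zero_or_pos N with hN | hN
  · subst hN; simp [spherePressure]
  have hne : NeZero (sphereLaw N) :=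
    ⟨fun h0 => PressC_663.sphereLaw_univ_ne_zero hN (by rw [h0]; simp)⟩
  have hpos : 0 < ∫ y, Real.exp (1 * potentialSum φ A y) ∂sphereLaw N :=
    integral_exp_pos hi
  have hu : 0 < (sphereLaw N).real Set.univ := by
    rw [Measure.real]
    exact ENNReal.toReal_pos (PressC_663.sphereLaw_univ_ne_zero hN) (measure_ne_top _ _)
  unfold spherePressure
  refine div_le_div_of_nonneg_right (Real.log_le_log (by positivity) ?_) (by positivity)
  refine div_le_div_of_nonneg_right (integral_mono hi hi' fun y => ?_) hu.le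
  refine Real.exp_le_exp.2 ?_
  rw [one_mul, one_mul]
  exact Finset.sum_le_sum fun a _ => h _

lemma fq_nonpos {b k : ℝ} (hb : 0 < b) (x : ℝ) : fq b k x ≤ 0 := by
  unfold fq
  have : 0 ≤ max (k - x) 0 ^ 2 := by positivity
  nlinarith

lemma fq_measurable (b k : ℝ) : Measurable (fq b k) := by unfold fq; fun_prop

lemma fqL_measurable (L b k : ℝ) : Measurable (fqL L b k) := by unfold fqL fq; fun_prop

lemma fqL_bdd {L b k : ℝ} (hb : 0 < b) (hL : 0 ≤ L) (x : ℝ) : |fqL L b k x| ≤ L := by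
  rw [abs_le]
  unfold fqL
  exact ⟨le_max_right _ _, max_le ((fq_nonpos hb x).trans hL) (by linarith)⟩

lemma le_fqL (L b k x : ℝ) : fq b k x ≤ fqL L b k x := le_max_left _ _

lemma pressure_fq_le_fqL {N : ℕ} {α L b k : ℝ} (hb : 0 < b) (hL : 0 ≤ L) (A : Patterns N α) :
    spherePressure N α 1 (fq b k) A ≤ spherePressure N α 1 (fqL L b k) A :=
  spherePressure_mono (fq_measurable b k) (fqL_measurable L b k)
    (fun x => (abs_le.1 (fqL_bdd hb hL x)).2) (le_fqL L b k) A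

/-! ### From satisfiability to zero energy -/

/-- if solutions at margin `k` exist with non-vanishing probability, then
`Pv ≥ -(C + log b / 2)`. -/
lemma Pv_ge_of_sat (W : BS) (hG : GUB W) (hcap : CAP) (hcon : CONCM) {α k : ℝ} (hα : 0 < α)
    (E : ∀ N : ℕ, Set (Patterns N α))
    (hE : ∀ N (A : Patterns N α), A ∈ E N → ∃ y : Fin N → ℝ, ∑ i, y i ^ 2 = 1 ∧
      ∀ μ, k ≤ ∑ i, A (μ, i) * y i)
    (hne : ¬ Tendsto (fun N : ℕ => patternLawMix N α 0 (E N)) atTop (𝓝 0)) :
    ∃ C : ℝ, ∀ b : ℝ, 1 ≤ b → -(C + 1 / 2 * Real.log b) ≤ W.Pv α (fq b k) := by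
  obtain ⟨C, hC⟩ := hcap α 0 hα.le le_rfl zero_lt_one
  refine ⟨C, fun b hb => ?_⟩
  by_contra hcontra
  push Not at hcontra
  set δ : ℝ := (-(C + 1 / 2 * Real.log b) - W.Pv α (fq b k)) / 3 with hδ
  have hδp : 0 < δ := by rw [hδ]; linarith
  have hbp : 0 < b := zero_lt_one.trans_le hb
  obtain ⟨L, hL⟩ := hG α b k hα hbp _ test_zero δ hδp
  have hL' := hL (max L 0) (le_max_left _ _)
  simp only [add_zero] at hL'
  set L' := max L 0
  have hL0 : 0 ≤ L' := le_max_right _ _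
  have hcc := hcon α 0 hα.le (fqL L' b k) (fqL_measurable _ _ _) ⟨L', fqL_bdd hbp hL0⟩ δ hδp
  apply hne
  have hsum := hC.add hcc
  rw [add_zero] at hsum
  refine tendsto_of_tendsto_of_tendsto_of_le_of_le' tendsto_const_nhds hsum
    (Eventually.of_forall fun N => zero_le) ?_
  filter_upwards [hL'] with N hN
  refine (measure_mono ?_).trans (measure_union_le _ _)
  intro A hA
  by_contra hcon2
  simp only [Set.mem_union, Set.mem_ofPred_eq, not_or, not_not, not_lt] at hcon2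
  obtain ⟨y, hy1, hy2⟩ := hE N A hA
  have g1 := hcon2.1 b k hb y hy1 hy2
  have g2 := (abs_le.1 hcon2.2).2
  have g3 := pressure_fq_le_fqL (k := k) hbp hL0 A
  change pM N α 0 (fqL L' b k) ≤ W.Pv α (fq b k) + δ at hN
  linarith

lemma zeroE_of_bound {W : BS} {α k C : ℝ}
    (h : ∀ b : ℝ, 1 ≤ b → -(C + 1 / 2 * Real.log b) ≤ W.Pv α (fq b k)) : W.ZeroE α k := by
  intro d hd
  -- `C + log b / 2 ≤ b d` for large `b`
  have h1 : Tendsto (fun b : ℝ => (C + 1 / 2 * Real.log b) / b) atTop (𝓝 0) := by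
    have e1 : Tendsto (fun b : ℝ => C / b) atTop (𝓝 0) := tendsto_const_nhds.div_atTop tendsto_id
    have e2 : Tendsto (fun b : ℝ => Real.log b / b) atTop (𝓝 0) := by
      have := Real.tendsto_pow_log_div_mul_add_atTop 1 0 1 one_ne_zero
      simpa using this
    have e3 := e1.add (e2.const_mul (1 / 2 : ℝ))
    simp only [mul_zero, add_zero] at e3
    refine e3.congr fun b => ?_
    ring
  obtain ⟨b0, hb0⟩ := eventually_atTop.1 (h1.eventually (gt_mem_nhds hd))
  refine ⟨max b0 1, lt_max_of_lt_right zero_lt_one, fun b hb => ?_⟩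
  have hb1 : 1 ≤ b := (le_max_right _ _).trans hb
  have hbp : 0 < b := zero_lt_one.trans_le hb1
  have g := hb0 b ((le_max_left _ _).trans hb)
  rw [div_lt_iff₀ hbp] at g
  have := h b hb1
  linarith

/-! ### Satisfiable side -/

lemma isProb_patternLawMix {N : ℕ} {α ε : ℝ} (h0 : 0 ≤ ε) (h1 : ε ≤ 1) :
    IsProbabilityMeasure (patternLawMix N α ε) := by
  have h := (RepairLaw_840.good_mixtureLaw ε h0 h1).prob
  unfold patternLawMix; infer_instance

lemma sat_of_zeroE (W : BS) (hM : MARKOV) (hLB : LINDLB W) {α η ε : ℝ} (hα : 0 < α) (h0 : 0 ≤ ε)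
    (h1 : ε < 1) (hη : 0 < η) (hη1 : η ≤ 1) (hE : W.ZeroE α (-1 + η)) :
    Tendsto (fun N : ℕ => satProbMix N α ε) atTop (𝓝 1) := by
  obtain ⟨τ, hτ, hrep⟩ := RepairFin_840.satProbMix_tendsto_one α hα.le ε h0 h1.le η hη hη1
  refine hrep τ le_rfl ?_
  have key : Tendsto (fun N : ℕ => patternLawMix N α ε {A | ¬ RepairFin_840.NearSat A η τ}) atTop
      (𝓝 0) := by
    rw [ENNReal.tendsto_nhds_zero]
    intro q hq
    obtain ⟨q', hq'0, hq'⟩ : ∃ q' : ℝ, 0 < q' ∧ ENNReal.ofReal q' ≤ q := by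
      rcases eq_or_ne q ⊤ with rfl | hqt
      · exact ⟨1, zero_lt_one, le_top⟩
      · exact ⟨q.toReal, ENNReal.toReal_pos hq.ne' hqt, (ENNReal.ofReal_toReal hqt).le⟩
    obtain ⟨b0, hb0, hb⟩ := hE (q' * τ / 4) (by positivity)
    have hB := hb b0 le_rfl
    have hlb := hLB ε h0 h1 α b0 (-1 + η) hα hb0 _ test_zero (b0 * (q' * τ / 4)) (by positivity)
    simp only [add_zero] at hlb
    filter_upwards [hlb, eventually_gt_atTop 0] with N hN hN0
    refine (hM N α ε b0 η τ hN0 hα.le h0 h1 hb0 hτ).trans (le_trans ?_ hq')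
    refine ENNReal.ofReal_le_ofReal ?_
    rw [div_le_iff₀ (by positivity)]
    change W.Pv α (fq b0 (-1 + η)) - _ ≤ pM N α ε (fq b0 (-1 + η)) at hN
    linarith
  have hsub : Tendsto (fun N : ℕ => 1 - patternLawMix N α ε {A | ¬ RepairFin_840.NearSat A η τ})
      atTop (𝓝 1) := by
    have := ENNReal.Tendsto.sub (tendsto_const_nhds (x := (1 : ℝ≥0∞)) (f := (atTop : Filter ℕ))) key
      (Or.inl ENNReal.one_ne_top)
    simpa using this
  refine tendsto_of_tendsto_of_tendsto_of_le_of_le hsub tendsto_const_nhds ?_ ?_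
  · intro N
    have := isProb_patternLawMix (N := N) (α := α) h0 h1.le
    simp only
    rw [tsub_le_iff_right]
    calc (1 : ℝ≥0∞) = patternLawMix N α ε Set.univ := measure_univ.symm
      _ ≤ patternLawMix N α ε ({A | RepairFin_840.NearSat A η τ} ∪
          {A | ¬ RepairFin_840.NearSat A η τ}) := by
            refine measure_mono fun A _ => ?_
            by_cases h : RepairFin_840.NearSat A η τ
            · exact Or.inl h
            · exact Or.inr h
      _ ≤ _ := measure_union_le _ _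
  · intro N
    have := isProb_patternLawMix (N := N) (α := α) h0 h1.le
    exact prob_le_one

/-! ### Threshold -/

/-- margin gain -/
lemma margin_gain (W : BS) (hC : VCONC W) (hZ : VZERO W) (hG : GUB W) (hcap : CAP)
    (hcon : CONCM) (hK : KERN) {α α' : ℝ} (hα : 0 < α) (h : α < α') (hE : W.ZeroE α' (-1)) :
    ∃ η : ℝ, 0 < η ∧ η ≤ 1 ∧ W.ZeroE α (-1 + η) := by
  -- zero energy at margin 0 for small density
  have hker : ∀ α₁ : ℝ, 0 < α₁ → α₁ < 1 → W.ZeroE α₁ 0 := by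
    intro α₁ h0 h1
    obtain ⟨C, hCC⟩ := Pv_ge_of_sat W hG hcap hcon (k := 0) h0
      (fun N => {_A | 0 < N}) (fun N A hA => by
        obtain ⟨y, hy, hy2⟩ := hK N α₁ hA h1 A
        exact ⟨y, hy, fun μ => (hy2 μ).ge⟩) (by
        intro ht
        have e : Tendsto (fun N : ℕ => patternLawMix N α₁ 0 {_A | 0 < N}) atTop (𝓝 1) := by
          refine tendsto_const_nhds.congr' ?_
          filter_upwards [eventually_gt_atTop 0] with N hN
          have := isProb_patternLawMix (N := N) (α := α₁) (ε := 0) le_rfl zero_le_one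
          have e2 : {_A : Patterns N α₁ | 0 < N} = Set.univ := by
            ext; simp [hN]
          rw [e2, measure_univ]
        exact zero_ne_one (tendsto_nhds_unique ht e))
    exact zeroE_of_bound hCC
  set α₁ : ℝ := min α 1 / 2 with hα₁
  have hα₁0 : 0 < α₁ := by rw [hα₁]; positivity
  have hα₁1 : α₁ < 1 := by
    have : min α 1 ≤ 1 := min_le_right _ _
    rw [hα₁]; linarith
  have hα₁2 : α₁ < α := by
    have : min α 1 ≤ α := min_le_left _ _
    rw [hα₁]; linarith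
  set s : ℝ := (α - α₁) / (α' - α₁) with hs
  have hden : 0 < α' - α₁ := by linarith
  have hs0 : 0 < s := by rw [hs]; exact div_pos (by linarith) hden
  have hs1 : s < 1 := by rw [hs, div_lt_one hden]; linarith
  have hsd : s * (α' - α₁) = α - α₁ := by rw [hs]; field_simp
  refine ⟨1 - s * α' / α, ?_, ?_, ?_⟩
  · rw [sub_pos, div_lt_one hα]
    nlinarith
  · have : 0 ≤ s * α' / α := by
      have : 0 < α' := hα.trans h
      positivity
    linarith
  · refine ZeroE.concave hC hZ (α₁ := α') (α₂ := α₁) (k₁ := -1) (k₂ := 0) (s := s) (t := 1 - s)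
      (hα.trans h).le hα₁0.le hs0.le (by linarith) (by ring) (by linarith [hsd]) hα ?_ hE
      (hker α₁ hα₁0 hα₁1)
    field_simp
    ring

/-- the set of densities with zero energy -/
def ZS (W : BS) : Set ℝ := {α | 0 < α ∧ W.ZeroE α (-1)}

/-- upper bound for the mixture just above the threshold => unsatisfiable -/
lemma unsat_of_not_zeroE (W : BS) (hcap : CAP) (hcon : CONCM) {α ε : ℝ} (hα : 0 < α) (h0 : 0 ≤ ε)
    (h1 : ε < 1)
    (hub : ∀ b : ℝ, 0 < b → ∀ δ : ℝ, 0 < δ → ∃ L0 : ℝ, ∀ L, L0 ≤ L → ∀ᶠ N : ℕ in atTop,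
      pM N α ε (fqL L b (-1)) ≤ W.Pv α (fq b (-1)) + δ)
    (hn : ¬ W.ZeroE α (-1)) : Tendsto (fun N : ℕ => satProbMix N α ε) atTop (𝓝 0) := by
  obtain ⟨C, hC⟩ := hcap α ε hα.le h0 h1
  by_contra hne
  apply hn
  refine zeroE_of_bound (C := C) fun b hb => ?_
  by_contra hcontra
  push Not at hcontra
  set δ : ℝ := (-(C + 1 / 2 * Real.log b) - W.Pv α (fq b (-1))) / 3 with hδ
  have hδp : 0 < δ := by rw [hδ]; linarith
  have hbp : 0 < b := zero_lt_one.trans_le hb
  obtain ⟨L, hL⟩ := hub b hbp δ hδp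
  have hL' := hL (max L 0) (le_max_left _ _)
  set L' := max L 0
  have hL0 : 0 ≤ L' := le_max_right _ _
  have hcc := hcon α ε hα.le (fqL L' b (-1)) (fqL_measurable _ _ _) ⟨L', fqL_bdd hbp hL0⟩ δ hδp
  apply hne
  have hsum := hC.add hcc
  rw [add_zero] at hsum
  refine tendsto_of_tendsto_of_tendsto_of_le_of_le' tendsto_const_nhds hsum
    (Eventually.of_forall fun N => zero_le) ?_
  filter_upwards [hL'] with N hN
  unfold satProbMix
  refine (measure_mono ?_).trans (measure_union_le _ _)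
  intro A hA
  by_contra hcon2
  simp only [Set.mem_union, Set.mem_ofPred_eq, not_or, not_not, not_lt] at hcon2
  obtain ⟨y, hy1, hy2⟩ := hA
  have g1 := hcon2.1 b (-1) hb y hy1 hy2
  have g2 := (abs_le.1 hcon2.2).2
  have g3 := pressure_fq_le_fqL (k := -1) hbp hL0 A
  linarith

/-- facts on the threshold -/
lemma threshold (W : BS) (hC : VCONC W) (hZ : VZERO W) (hU : VUP W) (hG : GUB W) (hLB : LINDLB W)
    (hcap : CAP) (hcon : CONCM) (hM : MARKOV) (hK : KERN) (hB : BIG) :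
    ∃ αc : ℝ, 0 < αc ∧ (∀ α, 0 < α → α < αc → W.ZeroE α (-1) ∧ ∀ ε, 0 ≤ ε → ε < 1 →
      Tendsto (fun N : ℕ => satProbMix N α ε) atTop (𝓝 1)) ∧ ∀ α, αc < α → ¬ W.ZeroE α (-1) := by
  have hsat : ∀ α α', 0 < α → α < α' → W.ZeroE α' (-1) → ∀ ε, 0 ≤ ε → ε < 1 →
      Tendsto (fun N : ℕ => satProbMix N α ε) atTop (𝓝 1) := by
    intro α α' h0 h hE ε he0 he1
    obtain ⟨η, h1, h2, h3⟩ := margin_gain W hC hZ hG hcap hcon hK h0 h hE
    exact sat_of_zeroE W hM hLB h0 he0 he1 h1 h2 h3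
  -- bounded above
  obtain ⟨α₀, hα₀, hbig⟩ := hB
  have hbdd : ∀ α ∈ ZS W, α ≤ α₀ := by
    rintro α ⟨hα, hE⟩
    by_contra hlt
    push Not at hlt
    exact zero_ne_one (tendsto_nhds_unique hbig (hsat α₀ α hα₀ hlt hE 0 le_rfl zero_lt_one))
  have hBA : BddAbove (ZS W) := ⟨α₀, hbdd⟩
  -- non empty
  have hhalf : (1 / 2 : ℝ) ∈ ZS W := by
    refine ⟨by norm_num, ?_⟩
    obtain ⟨C, hCC⟩ := Pv_ge_of_sat W hG hcap hcon (α := 1 / 2) (k := -1) (by norm_num)
      (fun N => {_A | 0 < N}) (fun N A hA => by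
        obtain ⟨y, hy, hy2⟩ := hK N (1 / 2) hA (by norm_num) A
        exact ⟨y, hy, fun μ => by rw [hy2 μ]; norm_num⟩) (by
        intro ht
        have e : Tendsto (fun N : ℕ => patternLawMix N (1 / 2) 0 {_A | 0 < N}) atTop (𝓝 1) := by
          refine tendsto_const_nhds.congr' ?_
          filter_upwards [eventually_gt_atTop 0] with N hN
          have := isProb_patternLawMix (N := N) (α := 1 / 2) (ε := 0) le_rfl zero_le_one
          have e2 : {_A : Patterns N (1 / 2) | 0 < N} = Set.univ := by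
            ext; simp [hN]
          rw [e2, measure_univ]
        exact zero_ne_one (tendsto_nhds_unique ht e))
    exact zeroE_of_bound hCC
  refine ⟨sSup (ZS W), ?_, ?_, ?_⟩
  · exact lt_of_lt_of_le (by norm_num) (le_csSup hBA hhalf)
  · intro α h0 h
    obtain ⟨α', hα', hlt⟩ := exists_lt_of_lt_csSup ⟨_, hhalf⟩ h
    exact ⟨ZeroE.anti hZ hU h0.le hlt.le hα'.2, hsat α α' h0 hlt hα'.2⟩
  · intro α h hE
    have hpos : 0 < sSup (ZS W) := lt_of_lt_of_le (by norm_num) (le_csSup hBA hhalf)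
    exact absurd (le_csSup hBA (⟨hpos.trans h, hE⟩ : α ∈ ZS W)) (not_le.2 h)

/-- **S0204 from the nodes** -/
theorem s0204_of (W : BS) (hC : VCONC W) (hZ : VZERO W) (hU : VUP W) (hG : GUB W)
    (hLB : LINDLB W) (hLOC : LOCUB W) (hcap : CAP) (hcon : CONCM) (hM : MARKOV) (hK : KERN)
    (hB : BIG) (hMo : MONOA) :
    ∃ αc : ℝ, 0 < αc ∧ ∃ ε₀ : ℝ, 0 < ε₀ ∧ ε₀ < 1 ∧
      ∀ ε : ℝ, 0 ≤ ε → ε < ε₀ → IsSharpThreshold ε αc := by
  obtain ⟨αc, hαc, hlow, hhigh⟩ := threshold W hC hZ hU hG hLB hcap hcon hM hK hB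
  obtain ⟨ε0, hε0, hε1, η, hη, hub⟩ := hLOC αc hαc fun α h0 h => (hlow α h0 h).1
  refine ⟨αc, hαc, ε0, hε0, hε1, fun ε he0 he1 => ⟨fun α h0 h => ?_, fun α h => ?_⟩⟩
  · exact (hlow α h0 h).2 ε he0 (he1.trans hε1)
  · -- a density just above the threshold
    set α' : ℝ := min α (αc + η / 2) with hα'
    have h1 : αc < α' := by rw [hα', lt_min_iff]; exact ⟨h, by linarith⟩
    have h2 : α' < αc + η := (min_le_right _ _).trans_lt (by linarith)
    have h3 : α' ≤ α := min_le_left _ _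
    have hun : Tendsto (fun N : ℕ => satProbMix N α' ε) atTop (𝓝 0) := by
      refine unsat_of_not_zeroE W hcap hcon (hαc.trans h1) he0 (he1.trans hε1) ?_ (hhigh α' h1)
      intro b hb δ hδ
      obtain ⟨h0, hh0, H⟩ := hub ε he0 he1 α' h1 h2 b hb _ test_zero
      obtain ⟨L0, HL⟩ := H 0 (by rw [abs_zero]; exact hh0.le) δ hδ
      refine ⟨L0, fun L hL => ?_⟩
      have := HL L hL
      simp only [mul_zero, add_zero] at this
      exact this
    refine tendsto_of_tendsto_of_tendsto_of_le_of_le tendsto_const_nhds hun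
      (fun N => zero_le) fun N => ?_
    exact hMo N α' α ε (hαc.trans h1).le h3

/-- satisfiability with probability tending to one at all densities below `αc` => zero energy -/
lemma zeroE_below (W : BS) (hG : GUB W) (hcap : CAP) (hcon : CONCM) (hMix : MIX0) {αc : ℝ}
    (hlow : ∀ α : ℝ, 0 < α → α < αc → Tendsto (fun N : ℕ => satProb N α) atTop (𝓝 1)) :
    ∀ α, 0 < α → α < αc → W.ZeroE α (-1) := by
  intro α h0 h
  obtain ⟨C, hCC⟩ := Pv_ge_of_sat W hG hcap hcon (α := α) (k := -1) h0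
    (fun N => {A | IsSat A}) (fun N A hA => hA) (by
      intro ht
      have e := hlow α h0 h
      have e2 : (fun N : ℕ => satProb N α) = fun N : ℕ => patternLawMix N α 0 {A | IsSat A} := by
        funext N
        unfold satProb patternLaw patternLawMix
        rw [hMix]
      rw [e2] at e
      exact zero_ne_one (tendsto_nhds_unique ht e))
  exact zeroE_of_bound hCC

/-- **EPS from the nodes** -/
theorem eps_of (W : BS) (hG : GUB W) (hLB : LINDLB W) (hLOC : LOCUB W) (hcap : CAP)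
    (hcon : CONCM) (hMix : MIX0) (hInt : PINT) : EPS W := by
  intro αc hαc hlow
  obtain ⟨ε0, hε0, hε1, η, hη, hub⟩ := hLOC αc hαc (zeroE_below W hG hcap hcon hMix hlow)
  refine ⟨ε0, hε0, hε1, η, hη, fun ε he0 he1 α h1 h2 b hb ψ hψ => ?_⟩
  obtain ⟨h0, hh0, H⟩ := hub ε he0 he1 α h1 h2 b hb ψ hψ
  refine ⟨h0, hh0, fun h hh => ?_⟩
  have hα : 0 < α := hαc.trans h1
  have hψb : ∃ K, ∀ x, |h * ψ x| ≤ K := by
    obtain ⟨K, hK⟩ := hψ.bd 0
    refine ⟨|h| * K, fun x => ?_⟩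
    rw [abs_mul]
    have := hK x
    rw [iteratedDeriv_zero] at this
    gcongr
  have hψm : Measurable fun x => h * ψ x := ((hψ.smooth 0).continuous.measurable).const_mul h
  have hTest : Test fun x => h * ψ x := by
    refine ⟨fun n => contDiff_const.mul (hψ.smooth n), fun n => ?_⟩
    obtain ⟨K, hK⟩ := hψ.bd n
    refine ⟨|h| * K, fun x => ?_⟩
    have e : iteratedDeriv n (fun x => h * ψ x) x = h * iteratedDeriv n ψ x := by
      rw [iteratedDeriv_const_mul_field]
    rw [e, abs_mul]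
    have := hK x
    gcongr
  rw [Metric.tendsto_atTop']
  intro δ hδ
  obtain ⟨L0, HL⟩ := H h hh (δ / 2) (by positivity)
  have u1 := HL (max L0 0) (le_max_left _ _)
  have u2 := hLB ε he0 (he1.trans hε1) α b (-1) hα hb _ hTest (δ / 2) (by positivity)
  obtain ⟨n, hn⟩ := eventually_atTop.1 ((u1.and u2).and (eventually_gt_atTop 0))
  refine ⟨n, fun N hN => ?_⟩
  obtain ⟨⟨g1, g2⟩, hN0⟩ := hn N hN.le
  have g3 : pM N α ε (fun x => fq b (-1) x + h * ψ x) ≤
      pM N α ε (fun x => fqL (max L0 0) b (-1) x + h * ψ x) := by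
    obtain ⟨K, hK⟩ := hψb
    have hbd : ∀ x, |fqL (max L0 0) b (-1) x + h * ψ x| ≤ max L0 0 + K := fun x =>
      (abs_add_le _ _).trans (add_le_add (fqL_bdd hb (le_max_right _ _) x) (hK x))
    have hm1 : Measurable fun x => fq b (-1) x + h * ψ x := (fq_measurable _ _).add hψm
    have hm2 : Measurable fun x => fqL (max L0 0) b (-1) x + h * ψ x :=
      (fqL_measurable _ _ _).add hψm
    have := isProb_patternLawMix (N := N) (α := α) he0 (he1.trans hε1).le
    refine integral_mono (hInt N α ε b (-1) hα.le he0 (he1.trans hε1) hb _ hψm ⟨K, hK⟩)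
      (PressC_663.integrable_spherePressure hN0 hα.le hm2 hbd _) fun A => ?_
    exact spherePressure_mono hm1 hm2 (fun x => (abs_le.1 (hbd x)).2)
      (fun x => add_le_add (le_fqL _ _ _ _) le_rfl) A
  rw [Real.dist_eq, abs_lt]
  constructor <;> linarith

/-- S0203 from S0204 -/
theorem s0203_of (hMix : MIX0)
    (h : ∃ αc : ℝ, 0 < αc ∧ ∃ ε₀ : ℝ, 0 < ε₀ ∧ ε₀ < 1 ∧
      ∀ ε : ℝ, 0 ≤ ε → ε < ε₀ → IsSharpThreshold ε αc) :
    ∃ αc : ℝ, 0 < αc ∧
      (∀ α : ℝ, 0 < α → α < αc →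
        Filter.Tendsto (fun N : ℕ => satProb N α) Filter.atTop (nhds 1)) ∧
      (∀ α : ℝ, αc < α →
        Filter.Tendsto (fun N : ℕ => satProb N α) Filter.atTop (nhds 0)) := by
  obtain ⟨αc, hαc, ε₀, h0, _, H⟩ := h
  have e : ∀ (N : ℕ) (α : ℝ), satProb N α = satProbMix N α 0 := by
    intro N α
    unfold satProb satProbMix patternLaw patternLawMix
    rw [hMix]
  simp only [e]
  exact ⟨αc, hαc, (H 0 le_rfl h0).1, (H 0 le_rfl h0).2⟩

end Crest.Agent.R146.Asm0204_734
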