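import Mathlib
import Crest.Agent.R146.PressC_663
import Crest.Agent.R146.RepairLaw_840

-- ▼ part R146/Assoc0_323
section

/-!
Row 146, package ASSOC, part 0: block resampling of a product law and the one-variable
association (Chebyshev) inequality for ratios of integrals.
-/

set_option autoImplicit false

namespace Crest.Agent.R146.Assoc_323

open MeasureTheory

/-- The array which is `x'` on the block `p` and `x` off it. -/
def mix {ι X : Type*} (p : ι → Prop) [DecidablePred p] (x x' : ι → X) : ι → X :=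
  fun i => if p i then x' i else x i

theorem mix_apply_of {ι X : Type*} (p : ι → Prop) [DecidablePred p] (x x' : ι → X) {i : ι}
    (h : p i) : mix p x x' i = x' i := by simp [mix, h]

theorem mix_apply_of_not {ι X : Type*} (p : ι → Prop) [DecidablePred p] (x x' : ι → X) {i : ι}
    (h : ¬ p i) : mix p x x' i = x i := by simp [mix, h]

/-- Resampling a block leaves the product law invariant. -/
theorem measurePreserving_mix {ι X : Type*} [Fintype ι] [MeasurableSpace X] (ν : ι → Measure X)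
    [∀ i, IsProbabilityMeasure (ν i)] (p : ι → Prop) [DecidablePred p] :
    MeasurePreserving (fun z : (ι → X) × (ι → X) => mix p z.1 z.2)
      ((Measure.pi ν).prod (Measure.pi ν)) (Measure.pi ν) := by
  have h1 := (measurePreserving_arrowProdEquivProdArrow X X ι ν ν).symm
  have h2 : MeasurePreserving
      (fun (a : ι → X × X) (i : ι) => (if p i then Prod.snd else Prod.fst : X × X → X) (a i))
      (Measure.pi fun i => (ν i).prod (ν i)) (Measure.pi ν) := by
    refine measurePreserving_pi (fun i => (ν i).prod (ν i)) ν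
      (f := fun i => (if p i then Prod.snd else Prod.fst : X × X → X)) (fun i => ?_)
    by_cases h : p i
    · simp only [h, if_true]
      exact measurePreserving_snd
    · simp only [h, if_false]
      exact measurePreserving_fst
  have h3 := h2.comp h1
  have e : (fun z : (ι → X) × (ι → X) => mix p z.1 z.2) =
      (fun (a : ι → X × X) (i : ι) => (if p i then Prod.snd else Prod.fst : X × X → X) (a i)) ∘
        (MeasurableEquiv.arrowProdEquivProdArrow X X ι).symm := by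
    funext z i
    by_cases h : p i <;>
      simp [mix, h, MeasurableEquiv.arrowProdEquivProdArrow, Equiv.arrowProdEquivProdArrow]
  rw [e]
  exact h3

/-- `∫⁻` form of block resampling. -/
theorem lintegral_mix {ι X : Type*} [Fintype ι] [MeasurableSpace X] (ν : ι → Measure X)
    [∀ i, IsProbabilityMeasure (ν i)] (p : ι → Prop) [DecidablePred p]
    (F : (ι → X) → ENNReal) (hF : Measurable F) :
    ∫⁻ A, F A ∂(Measure.pi ν) =
      ∫⁻ A, ∫⁻ A', F (mix p A A') ∂(Measure.pi ν) ∂(Measure.pi ν) := by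
  have h := measurePreserving_mix ν p
  rw [← h.lintegral_comp hF]
  exact lintegral_prod _ (hF.comp h.measurable).aemeasurable

section Ratio

variable {Y : Type*} [MeasurableSpace Y]

/-- A measurable function which is bounded is integrable for a finite measure. -/
theorem integrable_bdd (ν : Measure Y) [IsFiniteMeasure ν] {f : Y → ℝ} (hf : Measurable f)
    (B : ℝ) (hB : ∀ ω, |f ω| ≤ B) : Integrable f ν :=
  Integrable.of_bound hf.aestronglyMeasurable B (ae_of_all _ fun ω => by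
    simpa [Real.norm_eq_abs] using hB ω)

omit [MeasurableSpace Y] in
/-- A monotone function of a bounded variable is bounded. -/
theorem bdd_of_monotone {f : ℝ → ℝ} (hf : Monotone f) {X : Y → ℝ} {B : ℝ}
    (hB : ∀ ω, |X ω| ≤ B) (ω : Y) : |f (X ω)| ≤ |f B| + |f (-B)| := by
  have h1 := hf (abs_le.1 (hB ω)).1
  have h2 := hf (abs_le.1 (hB ω)).2
  rw [abs_le]
  constructor
  · have := neg_abs_le (f (-B)); have := abs_nonneg (f B); linarith
  · have := le_abs_self (f B); have := abs_nonneg (f (-B)); linarith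

/-- Chebyshev association for one real variable. -/
theorem assoc_mul (ν : Measure Y) [IsFiniteMeasure ν] {X : Y → ℝ} (hX : Measurable X)
    {B : ℝ} (hB : ∀ ω, |X ω| ≤ B) {w χ : ℝ → ℝ} (hw : Monotone w) (hχ : Antitone χ) :
    (∫ ω, χ (X ω) * w (X ω) ∂ν) * ν.real Set.univ ≤
      (∫ ω, χ (X ω) ∂ν) * ∫ ω, w (X ω) ∂ν := by
  have hχ' : Monotone fun x => -χ x := fun a b h => neg_le_neg (hχ h)
  have hwm : Measurable fun ω => w (X ω) := hw.measurable.comp hX
  have hχm : Measurable fun ω => χ (X ω) := hχ.measurable.comp hX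
  have bw : ∀ ω, |w (X ω)| ≤ |w B| + |w (-B)| := bdd_of_monotone hw hB
  have bχ : ∀ ω, |χ (X ω)| ≤ |χ B| + |χ (-B)| := fun ω => by
    have := bdd_of_monotone hχ' hB ω
    simpa using this
  have iw := integrable_bdd ν hwm _ bw
  have iχ := integrable_bdd ν hχm _ bχ
  have iχw : Integrable (fun ω => χ (X ω) * w (X ω)) ν := by
    refine integrable_bdd ν (hχm.mul hwm) ((|χ B| + |χ (-B)|) * (|w B| + |w (-B)|)) fun ω => ?_
    rw [abs_mul]
    exact mul_le_mul (bχ ω) (bw ω) (abs_nonneg _) (by positivity)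
  have key : ∫ ω, (∫ ω', (χ (X ω) - χ (X ω')) * (w (X ω) - w (X ω')) ∂ν) ∂ν ≤ 0 := by
    refine integral_nonpos fun ω => integral_nonpos fun ω' => ?_
    rcases le_total (X ω) (X ω') with h | h
    · exact mul_nonpos_of_nonneg_of_nonpos (sub_nonneg.2 (hχ h)) (sub_nonpos.2 (hw h))
    · exact mul_nonpos_of_nonpos_of_nonneg (sub_nonpos.2 (hχ h)) (sub_nonneg.2 (hw h))
  have inner : ∀ ω, ∫ ω', (χ (X ω) - χ (X ω')) * (w (X ω) - w (X ω')) ∂ν =
      χ (X ω) * w (X ω) * ν.real Set.univ - χ (X ω) * (∫ ω', w (X ω') ∂ν) -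
        w (X ω) * (∫ ω', χ (X ω') ∂ν) + ∫ ω', χ (X ω') * w (X ω') ∂ν := by
    intro ω
    have e : (fun ω' => (χ (X ω) - χ (X ω')) * (w (X ω) - w (X ω'))) = fun ω' =>
        χ (X ω) * w (X ω) - χ (X ω) * w (X ω') - w (X ω) * χ (X ω') + χ (X ω') * w (X ω') := by
      funext ω'; ring
    rw [e, integral_add _ iχw, integral_sub _ (iχ.const_mul _), integral_sub (integrable_const _)
      (iw.const_mul _), integral_const, integral_const_mul, integral_const_mul, smul_eq_mul]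
    · ring
    · exact (integrable_const _).sub (iw.const_mul _)
    · exact ((integrable_const _).sub (iw.const_mul _)).sub (iχ.const_mul _)
  simp_rw [inner] at key
  rw [integral_add _ (integrable_const _), integral_sub _ (iw.mul_const _),
    integral_sub (iχw.mul_const _) (iχ.mul_const _), integral_mul_const, integral_mul_const,
    integral_mul_const, integral_const, smul_eq_mul] at key
  · nlinarith [key]
  · exact (iχw.mul_const _).sub (iχ.mul_const _)
  · exact ((iχw.mul_const _).sub (iχ.mul_const _)).sub (iw.mul_const _)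

/-- The ratio form: the average of a nonnegative nonincreasing function under a weight
comparable (up to the factor `K`) with a nondecreasing one is at most `K` times the plain
average. -/
theorem assoc_ratio (ν : Measure Y) [IsFiniteMeasure ν] (hν : ν ≠ 0) {X : Y → ℝ}
    (hX : Measurable X) {B : ℝ} (hB : ∀ ω, |X ω| ≤ B) {w w₁ χ : ℝ → ℝ} {K : ℝ}
    (hw₁ : Monotone w₁) (hpos : ∀ x, 0 < w₁ x) (hwm : Measurable w)
    (hlow : ∀ x, w₁ x ≤ w x) (hup : ∀ x, w x ≤ K * w₁ x)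
    (hχ : Antitone χ) (hχ0 : ∀ x, 0 ≤ χ x) :
    (∫ ω, χ (X ω) * w (X ω) ∂ν) / (∫ ω, w (X ω) ∂ν) ≤
      K * ((∫ ω, χ (X ω) ∂ν) / ν.real Set.univ) := by
  have hχ' : Monotone fun x => -χ x := fun a b h => neg_le_neg (hχ h)
  have bχ : ∀ ω, |χ (X ω)| ≤ |χ B| + |χ (-B)| := fun ω => by
    have := bdd_of_monotone hχ' hB ω
    simpa using this
  have bw₁ : ∀ ω, |w₁ (X ω)| ≤ |w₁ B| + |w₁ (-B)| := bdd_of_monotone hw₁ hB
  have hK : 0 ≤ K := by
    by_contra hneg
    have h1 := (hpos 0).trans_le ((hlow 0).trans (hup 0))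
    nlinarith [hpos 0]
  have bw : ∀ ω, |w (X ω)| ≤ K * (|w₁ B| + |w₁ (-B)|) := fun ω => by
    rw [abs_of_pos ((hpos _).trans_le (hlow _))]
    refine (hup _).trans (mul_le_mul_of_nonneg_left ?_ hK)
    exact (le_abs_self _).trans (bw₁ ω)
  have hw₁m : Measurable fun ω => w₁ (X ω) := hw₁.measurable.comp hX
  have hχm : Measurable fun ω => χ (X ω) := hχ.measurable.comp hX
  have iw₁ := integrable_bdd ν hw₁m _ bw₁
  have iw := integrable_bdd ν (hwm.comp hX) _ bw
  have iχ := integrable_bdd ν hχm _ bχ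
  have iχw₁ : Integrable (fun ω => χ (X ω) * w₁ (X ω)) ν := by
    refine integrable_bdd ν (hχm.mul hw₁m) ((|χ B| + |χ (-B)|) * (|w₁ B| + |w₁ (-B)|)) fun ω => ?_
    rw [abs_mul]
    exact mul_le_mul (bχ ω) (bw₁ ω) (abs_nonneg _) (by positivity)
  have iχw : Integrable (fun ω => χ (X ω) * w (X ω)) ν := by
    refine integrable_bdd ν (hχm.mul (hwm.comp hX))
      ((|χ B| + |χ (-B)|) * (K * (|w₁ B| + |w₁ (-B)|))) fun ω => ?_
    rw [abs_mul]
    exact mul_le_mul (bχ ω) (bw ω) (abs_nonneg _) (by positivity)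
  have hνpos : 0 < ν.real Set.univ := by
    rw [Measure.real, ENNReal.toReal_pos_iff]
    exact ⟨by rwa [Measure.measure_univ_pos], measure_lt_top _ _⟩
  have w₁pos : 0 < ∫ ω, w₁ (X ω) ∂ν := by
    rw [integral_pos_iff_support_of_nonneg (fun ω => (hpos _).le) iw₁]
    have : Function.support (fun ω => w₁ (X ω)) = Set.univ := by
      ext ω; simp [(hpos (X ω)).ne']
    rw [this, Measure.measure_univ_pos]
    exact hν
  have h1 : ∫ ω, w₁ (X ω) ∂ν ≤ ∫ ω, w (X ω) ∂ν := integral_mono iw₁ iw fun ω => hlow _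
  have h2 : ∫ ω, χ (X ω) * w (X ω) ∂ν ≤ K * ∫ ω, χ (X ω) * w₁ (X ω) ∂ν := by
    rw [← integral_const_mul]
    refine integral_mono iχw (iχw₁.const_mul K) fun ω => ?_
    have := mul_le_mul_of_nonneg_left (hup (X ω)) (hχ0 (X ω))
    calc χ (X ω) * w (X ω) ≤ χ (X ω) * (K * w₁ (X ω)) := this
      _ = K * (χ (X ω) * w₁ (X ω)) := by ring
  have h3 := assoc_mul ν hX hB hw₁ hχ
  have h4 : 0 ≤ ∫ ω, χ (X ω) * w₁ (X ω) ∂ν :=
    integral_nonneg fun ω => mul_nonneg (hχ0 _) (hpos _).le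
  calc (∫ ω, χ (X ω) * w (X ω) ∂ν) / (∫ ω, w (X ω) ∂ν)
      ≤ (K * ∫ ω, χ (X ω) * w₁ (X ω) ∂ν) / (∫ ω, w₁ (X ω) ∂ν) :=
        div_le_div₀ (by positivity) h2 w₁pos h1
    _ = K * ((∫ ω, χ (X ω) * w₁ (X ω) ∂ν) / (∫ ω, w₁ (X ω) ∂ν)) := by ring
    _ ≤ K * ((∫ ω, χ (X ω) ∂ν) / ν.real Set.univ) := by
        refine mul_le_mul_of_nonneg_left ?_ hK
        rw [div_le_div_iff₀ w₁pos hνpos]
        exact h3

end Ratio

end Crest.Agent.R146.Assoc_323
end

-- ▼ part R146/Assoc1_323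
section

/-!
Row 146, package ASSOC, part 1: systems with row dependent potentials
`Z ψ A = ∫ exp (∑ a, ψ a (∑ i, A (a, i) * y ω i)) dμ(ω)` over an arbitrary finite measure space,
rows independent with an arbitrary product law. Comparison of the mean log-partition functions of
`ψ ≤ ψ'` by association in the single row variable.
-/

set_option autoImplicit false
set_option linter.unusedSectionVars false

namespace Crest.Agent.R146.Assoc_323

open MeasureTheory

variable {N M : ℕ} {Y : Type*} [MeasurableSpace Y]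

/-- The field of row `a`: `∑ i, A (a, i) * y ω i`. -/
def fld (y : Y → Fin N → ℝ) (A : Fin M × Fin N → ℝ) (a : Fin M) (ω : Y) : ℝ :=
  ∑ i, A (a, i) * y ω i

/-- The Boltzmann weight `exp (∑ a, ψ a (fld a))`. -/
noncomputable def wt (y : Y → Fin N → ℝ) (ψ : Fin M → ℝ → ℝ) (A : Fin M × Fin N → ℝ) (ω : Y) : ℝ :=
  Real.exp (∑ a, ψ a (fld y A a ω))

/-- The partition function. -/
noncomputable def Zf (μ : Measure Y) (y : Y → Fin N → ℝ) (ψ : Fin M → ℝ → ℝ)
    (A : Fin M × Fin N → ℝ) : ℝ :=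
  ∫ ω, wt y ψ A ω ∂μ

/-- The Gibbs average of `G`. -/
noncomputable def gav (μ : Measure Y) (y : Y → Fin N → ℝ) (ψ : Fin M → ℝ → ℝ)
    (A : Fin M × Fin N → ℝ) (G : Y → ℝ) : ℝ :=
  (∫ ω, G ω * wt y ψ A ω ∂μ) / Zf μ y ψ A

theorem measurable_fld {y : Y → Fin N → ℝ} (hy : Measurable y) (a : Fin M) :
    Measurable fun z : (Fin M × Fin N → ℝ) × Y => fld y z.1 a z.2 := by
  unfold fld
  refine Finset.measurable_sum _ fun i _ => ?_
  exact ((measurable_pi_apply (a, i)).comp measurable_fst).mul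
    ((measurable_pi_apply i).comp (hy.comp measurable_snd))

theorem measurable_fld_right {y : Y → Fin N → ℝ} (hy : Measurable y) (A : Fin M × Fin N → ℝ)
    (a : Fin M) : Measurable (fld y A a) :=
  (measurable_fld hy a).comp measurable_prodMk_left

theorem measurable_wt {y : Y → Fin N → ℝ} (hy : Measurable y) {ψ : Fin M → ℝ → ℝ}
    (hψ : ∀ a, Measurable (ψ a)) :
    Measurable fun z : (Fin M × Fin N → ℝ) × Y => wt y ψ z.1 z.2 := by
  unfold wt
  exact Real.measurable_exp.comp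
    (Finset.measurable_sum _ fun a _ => (hψ a).comp (measurable_fld hy a))

theorem measurable_wt_right {y : Y → Fin N → ℝ} (hy : Measurable y) {ψ : Fin M → ℝ → ℝ}
    (hψ : ∀ a, Measurable (ψ a)) (A : Fin M × Fin N → ℝ) : Measurable (wt y ψ A) := by
  unfold wt
  exact Real.measurable_exp.comp
    (Finset.measurable_sum _ fun a _ => (hψ a).comp (measurable_fld_right hy A a))

theorem wt_pos (y : Y → Fin N → ℝ) (ψ : Fin M → ℝ → ℝ) (A : Fin M × Fin N → ℝ) (ω : Y) :
    0 < wt y ψ A ω := Real.exp_pos _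

/-- the euclidean norm square of row `a`. -/
def rsq (A : Fin M × Fin N → ℝ) (a : Fin M) : ℝ := ∑ i, A (a, i) ^ 2

theorem rsq_nonneg (A : Fin M × Fin N → ℝ) (a : Fin M) : 0 ≤ rsq A a :=
  Finset.sum_nonneg fun _ _ => sq_nonneg _

theorem fld_sq_le {y : Y → Fin N → ℝ} (hy1 : ∀ ω, ∑ i, y ω i ^ 2 ≤ 1) (A : Fin M × Fin N → ℝ)
    (a : Fin M) (ω : Y) : fld y A a ω ^ 2 ≤ rsq A a := by
  have h := Finset.sum_mul_sq_le_sq_mul_sq Finset.univ (fun i => A (a, i)) (fun i => y ω i)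
  refine h.trans ?_
  calc (∑ i, A (a, i) ^ 2) * ∑ i, y ω i ^ 2 ≤ (∑ i, A (a, i) ^ 2) * 1 :=
        mul_le_mul_of_nonneg_left (hy1 ω) (rsq_nonneg A a)
    _ = rsq A a := by simp [rsq]

theorem abs_fld_le {y : Y → Fin N → ℝ} (hy1 : ∀ ω, ∑ i, y ω i ^ 2 ≤ 1) (A : Fin M × Fin N → ℝ)
    (a : Fin M) (ω : Y) : |fld y A a ω| ≤ Real.sqrt (rsq A a) :=
  Real.abs_le_sqrt (fld_sq_le hy1 A a ω)

/-- two-sided quadratic growth of the potentials. -/
def QG (C : ℝ) (ψ : Fin M → ℝ → ℝ) : Prop := ∀ a x, |ψ a x| ≤ C * (1 + x ^ 2)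

theorem abs_sum_le {y : Y → Fin N → ℝ} (hy1 : ∀ ω, ∑ i, y ω i ^ 2 ≤ 1) {C : ℝ} (hC : 0 ≤ C)
    {ψ : Fin M → ℝ → ℝ} (hψ : QG C ψ) (A : Fin M × Fin N → ℝ) (ω : Y) :
    |∑ a, ψ a (fld y A a ω)| ≤ C * ∑ a, (1 + rsq A a) := by
  refine (Finset.abs_sum_le_sum_abs _ _).trans ?_
  rw [Finset.mul_sum]
  refine Finset.sum_le_sum fun a _ => (hψ a _).trans ?_
  exact mul_le_mul_of_nonneg_left (by linarith [fld_sq_le hy1 A a ω]) hC

theorem wt_le {y : Y → Fin N → ℝ} (hy1 : ∀ ω, ∑ i, y ω i ^ 2 ≤ 1) {C : ℝ} (hC : 0 ≤ C)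
    {ψ : Fin M → ℝ → ℝ} (hψ : QG C ψ) (A : Fin M × Fin N → ℝ) (ω : Y) :
    wt y ψ A ω ≤ Real.exp (C * ∑ a, (1 + rsq A a)) :=
  Real.exp_le_exp.2 (abs_le.1 (abs_sum_le hy1 hC hψ A ω)).2

theorem le_wt {y : Y → Fin N → ℝ} (hy1 : ∀ ω, ∑ i, y ω i ^ 2 ≤ 1) {C : ℝ} (hC : 0 ≤ C)
    {ψ : Fin M → ℝ → ℝ} (hψ : QG C ψ) (A : Fin M × Fin N → ℝ) (ω : Y) :
    Real.exp (-(C * ∑ a, (1 + rsq A a))) ≤ wt y ψ A ω :=
  Real.exp_le_exp.2 (abs_le.1 (abs_sum_le hy1 hC hψ A ω)).1

theorem integrable_wt (μ : Measure Y) [IsFiniteMeasure μ] {y : Y → Fin N → ℝ} (hy : Measurable y)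
    (hy1 : ∀ ω, ∑ i, y ω i ^ 2 ≤ 1) {C : ℝ} (hC : 0 ≤ C) {ψ : Fin M → ℝ → ℝ}
    (hψm : ∀ a, Measurable (ψ a)) (hψ : QG C ψ) (A : Fin M × Fin N → ℝ) :
    Integrable (wt y ψ A) μ :=
  integrable_bdd μ (measurable_wt_right hy hψm A) _ fun ω => by
    rw [abs_of_pos (wt_pos _ _ _ _)]
    exact wt_le hy1 hC hψ A ω

theorem real_univ_pos {μ : Measure Y} [IsFiniteMeasure μ] (hμ : μ ≠ 0) :
    0 < μ.real Set.univ := by
  rw [Measure.real, ENNReal.toReal_pos_iff]
  exact ⟨by rwa [Measure.measure_univ_pos], measure_lt_top _ _⟩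

theorem le_Zf {μ : Measure Y} [IsFiniteMeasure μ] {y : Y → Fin N → ℝ}
    (hy : Measurable y) (hy1 : ∀ ω, ∑ i, y ω i ^ 2 ≤ 1) {C : ℝ} (hC : 0 ≤ C) {ψ : Fin M → ℝ → ℝ}
    (hψm : ∀ a, Measurable (ψ a)) (hψ : QG C ψ) (A : Fin M × Fin N → ℝ) :
    μ.real Set.univ * Real.exp (-(C * ∑ a, (1 + rsq A a))) ≤ Zf μ y ψ A := by
  have h : ∫ _ω, Real.exp (-(C * ∑ a, (1 + rsq A a))) ∂μ ≤ Zf μ y ψ A :=
    integral_mono (integrable_const _) (integrable_wt μ hy hy1 hC hψm hψ A)
      fun ω => le_wt hy1 hC hψ A ω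
  simpa [integral_const, smul_eq_mul] using h

theorem Zf_le {μ : Measure Y} [IsFiniteMeasure μ] {y : Y → Fin N → ℝ}
    (hy : Measurable y) (hy1 : ∀ ω, ∑ i, y ω i ^ 2 ≤ 1) {C : ℝ} (hC : 0 ≤ C) {ψ : Fin M → ℝ → ℝ}
    (hψm : ∀ a, Measurable (ψ a)) (hψ : QG C ψ) (A : Fin M × Fin N → ℝ) :
    Zf μ y ψ A ≤ μ.real Set.univ * Real.exp (C * ∑ a, (1 + rsq A a)) := by
  have h : Zf μ y ψ A ≤ ∫ _ω, Real.exp (C * ∑ a, (1 + rsq A a)) ∂μ :=
    integral_mono (integrable_wt μ hy hy1 hC hψm hψ A) (integrable_const _)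
      fun ω => wt_le hy1 hC hψ A ω
  simpa [integral_const, smul_eq_mul] using h

theorem Zf_pos {μ : Measure Y} [IsFiniteMeasure μ] (hμ : μ ≠ 0) {y : Y → Fin N → ℝ}
    (hy : Measurable y) (hy1 : ∀ ω, ∑ i, y ω i ^ 2 ≤ 1) {C : ℝ} (hC : 0 ≤ C) {ψ : Fin M → ℝ → ℝ}
    (hψm : ∀ a, Measurable (ψ a)) (hψ : QG C ψ) (A : Fin M × Fin N → ℝ) : 0 < Zf μ y ψ A :=
  lt_of_lt_of_le (mul_pos (real_univ_pos hμ) (Real.exp_pos _)) (le_Zf hy hy1 hC hψm hψ A)

theorem measurable_Zf (μ : Measure Y) [IsFiniteMeasure μ] {y : Y → Fin N → ℝ} (hy : Measurable y)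
    {ψ : Fin M → ℝ → ℝ} (hψm : ∀ a, Measurable (ψ a)) : Measurable (Zf μ y ψ) := by
  have h : StronglyMeasurable (Function.uncurry fun (A : Fin M × Fin N → ℝ) ω => wt y ψ A ω) :=
    (measurable_wt hy hψm).stronglyMeasurable
  exact (h.integral_prod_right (ν := μ)).measurable

/-- `|log Z| ≤ |log μ(Y)| + C ∑ (1 + |A_a|²)`. -/
theorem abs_log_Zf_le {μ : Measure Y} [IsFiniteMeasure μ] (hμ : μ ≠ 0) {y : Y → Fin N → ℝ}
    (hy : Measurable y) (hy1 : ∀ ω, ∑ i, y ω i ^ 2 ≤ 1) {C : ℝ} (hC : 0 ≤ C) {ψ : Fin M → ℝ → ℝ}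
    (hψm : ∀ a, Measurable (ψ a)) (hψ : QG C ψ) (A : Fin M × Fin N → ℝ) :
    |Real.log (Zf μ y ψ A)| ≤ |Real.log (μ.real Set.univ)| + C * ∑ a, (1 + rsq A a) := by
  have hm := real_univ_pos hμ
  have h1 := Real.log_le_log (mul_pos hm (Real.exp_pos _)) (le_Zf hy hy1 hC hψm hψ A)
  have h2 := Real.log_le_log (Zf_pos hμ hy hy1 hC hψm hψ A) (Zf_le hy hy1 hC hψm hψ A)
  rw [Real.log_mul hm.ne' (Real.exp_pos _).ne', Real.log_exp] at h1 h2
  rw [abs_le]
  constructor
  · have := neg_abs_le (Real.log (μ.real Set.univ)); linarith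
  · have := le_abs_self (Real.log (μ.real Set.univ)); linarith

/-- `log Z` is integrable as soon as the entries are square integrable. -/
theorem integrable_log_Zf (P : Measure (Fin M × Fin N → ℝ)) [IsProbabilityMeasure P]
    (hP : ∀ p, Integrable (fun A : Fin M × Fin N → ℝ => A p ^ 2) P)
    {μ : Measure Y} [IsFiniteMeasure μ] (hμ : μ ≠ 0) {y : Y → Fin N → ℝ}
    (hy : Measurable y) (hy1 : ∀ ω, ∑ i, y ω i ^ 2 ≤ 1) {C : ℝ} (hC : 0 ≤ C) {ψ : Fin M → ℝ → ℝ}
    (hψm : ∀ a, Measurable (ψ a)) (hψ : QG C ψ) :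
    Integrable (fun A => Real.log (Zf μ y ψ A)) P := by
  have hb : Integrable (fun A : Fin M × Fin N → ℝ =>
      |Real.log (μ.real Set.univ)| + C * ∑ a, (1 + rsq A a)) P := by
    refine (integrable_const _).add (Integrable.const_mul ?_ _)
    refine integrable_finsetSum _ fun a _ => (integrable_const _).add ?_
    unfold rsq
    exact integrable_finsetSum _ fun i _ => hP (a, i)
  refine hb.mono' (Real.measurable_log.comp (measurable_Zf μ hy hψm)).aestronglyMeasurable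
    (ae_of_all _ fun A => ?_)
  rw [Real.norm_eq_abs]
  exact abs_log_Zf_le hμ hy hy1 hC hψm hψ A

/-- Jensen: raising the potentials costs at most the Gibbs average of the increase under the
LARGER potentials. -/
theorem log_Zf_sub_le {μ : Measure Y} [IsFiniteMeasure μ] (hμ : μ ≠ 0) {y : Y → Fin N → ℝ}
    (hy : Measurable y) (hy1 : ∀ ω, ∑ i, y ω i ^ 2 ≤ 1) {C : ℝ} (hC : 0 ≤ C)
    {ψ ψ' : Fin M → ℝ → ℝ} (hψm : ∀ a, Measurable (ψ a)) (hψ : QG C ψ)
    (hψm' : ∀ a, Measurable (ψ' a)) (hψ' : QG C ψ') (A : Fin M × Fin N → ℝ) :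
    Real.log (Zf μ y ψ' A) - Real.log (Zf μ y ψ A) ≤
      ∑ a, gav μ y ψ' A (fun ω => ψ' a (fld y A a ω) - ψ a (fld y A a ω)) := by
  set G : Y → ℝ := fun ω => ∑ a, (ψ' a (fld y A a ω) - ψ a (fld y A a ω)) with hG
  have hZ' := Zf_pos hμ hy hy1 hC hψm' hψ' A
  have hZ := Zf_pos hμ hy hy1 hC hψm hψ A
  set c : ℝ := gav μ y ψ' A G with hc
  have iw' := integrable_wt μ hy hy1 hC hψm' hψ' A
  have iw := integrable_wt μ hy hy1 hC hψm hψ A
  have iGa : ∀ a, Integrable
      (fun ω => (ψ' a (fld y A a ω) - ψ a (fld y A a ω)) * wt y ψ' A ω) μ := by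
    intro a
    refine integrable_bdd μ ?_ ((C * (1 + rsq A a) + C * (1 + rsq A a)) *
      Real.exp (C * ∑ a, (1 + rsq A a))) fun ω => ?_
    · exact (((hψm' a).comp (measurable_fld_right hy A a)).sub
        ((hψm a).comp (measurable_fld_right hy A a))).mul (measurable_wt_right hy hψm' A)
    · rw [abs_mul, abs_of_pos (wt_pos _ _ _ _)]
      refine mul_le_mul ?_ (wt_le hy1 hC hψ' A ω) (wt_pos _ _ _ _).le ?_
      · refine (abs_sub _ _).trans (add_le_add ?_ ?_)
        · exact (hψ' a _).trans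
            (mul_le_mul_of_nonneg_left (by linarith [fld_sq_le hy1 A a ω]) hC)
        · exact (hψ a _).trans
            (mul_le_mul_of_nonneg_left (by linarith [fld_sq_le hy1 A a ω]) hC)
      · have := rsq_nonneg A a
        positivity
  have iG : Integrable (fun ω => G ω * wt y ψ' A ω) μ := by
    have : (fun ω => G ω * wt y ψ' A ω) = fun ω => ∑ a,
        (ψ' a (fld y A a ω) - ψ a (fld y A a ω)) * wt y ψ' A ω := by
      funext ω; rw [hG, Finset.sum_mul]
    rw [this]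
    exact integrable_finsetSum _ fun a _ => iGa a
  have hcsum : c = ∑ a, gav μ y ψ' A (fun ω => ψ' a (fld y A a ω) - ψ a (fld y A a ω)) := by
    rw [hc]
    unfold gav
    rw [← Finset.sum_div]
    congr 1
    rw [← integral_finsetSum _ fun a _ => iGa a]
    refine integral_congr_ae (ae_of_all _ fun ω => ?_)
    simp only [hG, Finset.sum_mul]
  rw [← hcsum]
  have hwt : ∀ ω, wt y ψ A ω = wt y ψ' A ω * Real.exp (-G ω) := by
    intro ω
    unfold wt
    rw [← Real.exp_add]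
    congr 1
    simp only [hG, Finset.sum_sub_distrib]
    ring
  have hlow : ∀ ω, Real.exp (-c) * ((1 + c) * wt y ψ' A ω - G ω * wt y ψ' A ω) ≤ wt y ψ A ω := by
    intro ω
    rw [hwt ω]
    have h1 : 1 + (c - G ω) ≤ Real.exp (c - G ω) := by
      have := Real.add_one_le_exp (c - G ω); linarith
    have h2 : Real.exp (-G ω) = Real.exp (-c) * Real.exp (c - G ω) := by
      rw [← Real.exp_add]; congr 1; ring
    rw [h2]
    have h3 := mul_le_mul_of_nonneg_left h1
      (mul_nonneg (Real.exp_pos (-c)).le (wt_pos y ψ' A ω).le)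
    calc Real.exp (-c) * ((1 + c) * wt y ψ' A ω - G ω * wt y ψ' A ω)
        = Real.exp (-c) * wt y ψ' A ω * (1 + (c - G ω)) := by ring
      _ ≤ Real.exp (-c) * wt y ψ' A ω * Real.exp (c - G ω) := h3
      _ = wt y ψ' A ω * (Real.exp (-c) * Real.exp (c - G ω)) := by ring
  have hint : Real.exp (-c) * Zf μ y ψ' A ≤ Zf μ y ψ A := by
    have h1 : ∫ ω, Real.exp (-c) * ((1 + c) * wt y ψ' A ω - G ω * wt y ψ' A ω) ∂μ ≤ Zf μ y ψ A :=
      integral_mono (((iw'.const_mul _).sub iG).const_mul _) iw hlow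
    rw [integral_const_mul, integral_sub (iw'.const_mul _) iG, integral_const_mul] at h1
    have h2 : ∫ ω, G ω * wt y ψ' A ω ∂μ = c * Zf μ y ψ' A := by
      rw [hc]; unfold gav; field_simp
    rw [h2] at h1
    have h3 : ∫ ω, wt y ψ' A ω ∂μ = Zf μ y ψ' A := rfl
    rw [h3] at h1
    calc Real.exp (-c) * Zf μ y ψ' A
        = Real.exp (-c) * ((1 + c) * Zf μ y ψ' A - c * Zf μ y ψ' A) := by ring
      _ ≤ _ := h1
  have h4 := Real.log_le_log (mul_pos (Real.exp_pos _) hZ') hint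
  rw [Real.log_mul (Real.exp_pos _).ne' hZ'.ne', Real.log_exp] at h4
  linarith

/-- monotonicity in the potentials. -/
theorem log_Zf_mono {μ : Measure Y} [IsFiniteMeasure μ] (hμ : μ ≠ 0) {y : Y → Fin N → ℝ}
    (hy : Measurable y) (hy1 : ∀ ω, ∑ i, y ω i ^ 2 ≤ 1) {C : ℝ} (hC : 0 ≤ C)
    {ψ ψ' : Fin M → ℝ → ℝ} (hψm : ∀ a, Measurable (ψ a)) (hψ : QG C ψ)
    (hψm' : ∀ a, Measurable (ψ' a)) (hψ' : QG C ψ') (hle : ∀ a x, ψ a x ≤ ψ' a x)
    (A : Fin M × Fin N → ℝ) :
    Real.log (Zf μ y ψ A) ≤ Real.log (Zf μ y ψ' A) := by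
  refine Real.log_le_log (Zf_pos hμ hy hy1 hC hψm hψ A) ?_
  refine integral_mono (integrable_wt μ hy hy1 hC hψm hψ A)
    (integrable_wt μ hy hy1 hC hψm' hψ' A) fun ω => ?_
  exact Real.exp_le_exp.2 (Finset.sum_le_sum fun a _ => hle a _)

end Crest.Agent.R146.Assoc_323
end

-- ▼ part R146/Assoc2_323
section

/-!
Row 146, package ASSOC, part 2: the association theorem (A) and its consequence (A1).
-/

set_option autoImplicit false
set_option linter.unusedSectionVars false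

namespace Crest.Agent.R146.Assoc_323

open MeasureTheory

variable {N M : ℕ} {Y : Type*} [MeasurableSpace Y]

/-- The product law of an array with i.i.d. entries. -/
noncomputable abbrev PL (M N : ℕ) (ρ : Measure ℝ) : Measure (Fin M × Fin N → ℝ) :=
  Measure.pi fun _ => ρ

theorem fld_mix_self (y : Y → Fin N → ℝ) (A A' : Fin M × Fin N → ℝ) (a : Fin M) (ω : Y) :
    fld y (mix (fun q : Fin M × Fin N => q.1 = a) A A') a ω = fld y A' a ω := by
  unfold fld
  refine Finset.sum_congr rfl fun i _ => ?_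
  rw [mix_apply_of _ _ _ (by rfl)]

theorem fld_mix_of_ne (y : Y → Fin N → ℝ) (A A' : Fin M × Fin N → ℝ) {a b : Fin M} (h : b ≠ a)
    (ω : Y) : fld y (mix (fun q : Fin M × Fin N => q.1 = a) A A') b ω = fld y A b ω := by
  unfold fld
  refine Finset.sum_congr rfl fun i _ => ?_
  rw [mix_apply_of_not _ _ _ (by exact h)]

/-- the weight of the rows different from `a`. -/
noncomputable def wr (y : Y → Fin N → ℝ) (ψ : Fin M → ℝ → ℝ) (a : Fin M) (A : Fin M × Fin N → ℝ)
    (ω : Y) : ℝ :=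
  Real.exp (∑ b ∈ Finset.univ.erase a, ψ b (fld y A b ω))

theorem wr_mix (y : Y → Fin N → ℝ) (ψ : Fin M → ℝ → ℝ) (a : Fin M) (A A' : Fin M × Fin N → ℝ)
    (ω : Y) : wr y ψ a (mix (fun q : Fin M × Fin N => q.1 = a) A A') ω = wr y ψ a A ω := by
  unfold wr
  congr 1
  refine Finset.sum_congr rfl fun b hb => ?_
  rw [fld_mix_of_ne _ _ _ (Finset.ne_of_mem_erase hb)]

theorem wt_eq_wr (y : Y → Fin N → ℝ) (ψ : Fin M → ℝ → ℝ) (a : Fin M) (A : Fin M × Fin N → ℝ)
    (ω : Y) : wt y ψ A ω = Real.exp (ψ a (fld y A a ω)) * wr y ψ a A ω := by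
  unfold wt wr
  rw [← Real.exp_add, ← Finset.add_sum_erase Finset.univ (fun b => ψ b (fld y A b ω))
    (Finset.mem_univ a)]


theorem measurable_wr_right {y : Y → Fin N → ℝ} (hy : Measurable y) {ψ : Fin M → ℝ → ℝ}
    (hψ : ∀ a, Measurable (ψ a)) (a : Fin M) (A : Fin M × Fin N → ℝ) :
    Measurable (wr y ψ a A) := by
  unfold wr
  exact Real.measurable_exp.comp
    (Finset.measurable_sum _ fun b _ => (hψ b).comp (measurable_fld_right hy A b))

theorem abs_sum_erase_le {y : Y → Fin N → ℝ} (hy1 : ∀ ω, ∑ i, y ω i ^ 2 ≤ 1) {C : ℝ} (hC : 0 ≤ C)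
    {ψ : Fin M → ℝ → ℝ} (hψ : QG C ψ) (a : Fin M) (A : Fin M × Fin N → ℝ) (ω : Y) :
    |∑ b ∈ Finset.univ.erase a, ψ b (fld y A b ω)| ≤ C * ∑ b, (1 + rsq A b) := by
  refine (Finset.abs_sum_le_sum_abs _ _).trans ?_
  rw [Finset.mul_sum]
  refine (Finset.sum_le_sum fun b _ => (?_ : |ψ b (fld y A b ω)| ≤ C * (1 + rsq A b))).trans ?_
  · exact (hψ b _).trans
      (mul_le_mul_of_nonneg_left (by linarith [fld_sq_le hy1 A b ω]) hC)
  · refine Finset.sum_le_sum_of_subset_of_nonneg (Finset.erase_subset _ _) fun b _ _ => ?_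
    have := rsq_nonneg A b
    positivity

theorem wr_le {y : Y → Fin N → ℝ} (hy1 : ∀ ω, ∑ i, y ω i ^ 2 ≤ 1) {C : ℝ} (hC : 0 ≤ C)
    {ψ : Fin M → ℝ → ℝ} (hψ : QG C ψ) (a : Fin M) (A : Fin M × Fin N → ℝ) (ω : Y) :
    wr y ψ a A ω ≤ Real.exp (C * ∑ a, (1 + rsq A a)) :=
  Real.exp_le_exp.2 (abs_le.1 (abs_sum_erase_le hy1 hC hψ a A ω)).2

/-- the reference measure with the weight of the other rows. -/
noncomputable def nur (μ : Measure Y) (y : Y → Fin N → ℝ) (ψ : Fin M → ℝ → ℝ) (a : Fin M)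
    (A : Fin M × Fin N → ℝ) : Measure Y :=
  μ.withDensity fun ω => ENNReal.ofReal (wr y ψ a A ω)

theorem isFiniteMeasure_nur (μ : Measure Y) [IsFiniteMeasure μ] {y : Y → Fin N → ℝ}
    (hy1 : ∀ ω, ∑ i, y ω i ^ 2 ≤ 1) {C : ℝ} (hC : 0 ≤ C)
    {ψ : Fin M → ℝ → ℝ} (hψ : QG C ψ) (a : Fin M) (A : Fin M × Fin N → ℝ) :
    IsFiniteMeasure (nur μ y ψ a A) := by
  refine isFiniteMeasure_withDensity (ne_of_lt ?_)
  refine lt_of_le_of_lt (lintegral_mono fun ω => ENNReal.ofReal_le_ofReal (wr_le hy1 hC hψ a A ω)) ?_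
  rw [lintegral_const]
  exact ENNReal.mul_lt_top ENNReal.ofReal_lt_top (measure_lt_top _ _)

theorem nur_univ_pos {μ : Measure Y} (hμ : μ ≠ 0) {y : Y → Fin N → ℝ} (hy : Measurable y)
    {ψ : Fin M → ℝ → ℝ} (hψm : ∀ a, Measurable (ψ a)) (a : Fin M) (A : Fin M × Fin N → ℝ) :
    nur μ y ψ a A Set.univ ≠ 0 := by
  unfold nur
  rw [withDensity_apply _ MeasurableSet.univ, Measure.restrict_univ]
  intro h0
  rw [lintegral_eq_zero_iff (measurable_wr_right hy hψm a A).ennreal_ofReal] at h0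
  apply hμ
  have : ∀ᵐ ω ∂μ, False := by
    filter_upwards [h0] with ω hω
    have h1 : ENNReal.ofReal (wr y ψ a A ω) = 0 := hω
    rw [ENNReal.ofReal_eq_zero] at h1
    exact absurd (Real.exp_pos _) (not_lt.2 h1)
  have h2 := this
  rw [ae_iff] at h2
  simpa using h2

theorem integral_nur (μ : Measure Y) {y : Y → Fin N → ℝ} (hy : Measurable y)
    {ψ : Fin M → ℝ → ℝ} (hψm : ∀ a, Measurable (ψ a)) (a : Fin M) (A : Fin M × Fin N → ℝ)
    (g : Y → ℝ) : ∫ ω, g ω ∂(nur μ y ψ a A) = ∫ ω, g ω * wr y ψ a A ω ∂μ := by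
  unfold nur
  have hm : Measurable fun ω => Real.toNNReal (wr y ψ a A ω) :=
    (measurable_wr_right hy hψm a A).real_toNNReal
  have h := integral_withDensity_eq_integral_smul (μ := μ) hm g
  have e : (fun ω => ENNReal.ofReal (wr y ψ a A ω)) =
      fun ω => ((Real.toNNReal (wr y ψ a A ω) : NNReal) : ENNReal) := rfl
  rw [e, h]
  refine integral_congr_ae (ae_of_all _ fun ω => ?_)
  have hpos : 0 ≤ wr y ψ a A ω := (Real.exp_pos _).le
  show (Real.toNNReal (wr y ψ a A ω)) • g ω = g ω * wr y ψ a A ω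
  rw [NNReal.smul_def, smul_eq_mul, Real.coe_toNNReal _ hpos, mul_comm]

/-- pointwise bound of a Gibbs average of a nonincreasing observable of one row. -/
theorem gav_le_ratio {μ : Measure Y} [IsFiniteMeasure μ] (hμ : μ ≠ 0) {y : Y → Fin N → ℝ}
    (hy : Measurable y) (hy1 : ∀ ω, ∑ i, y ω i ^ 2 ≤ 1) {C : ℝ} (hC : 0 ≤ C)
    {ψ : Fin M → ℝ → ℝ} (hψm : ∀ a, Measurable (ψ a)) (hψ : QG C ψ) (a : Fin M)
    {f : ℝ → ℝ} {T : ℝ} (hf : Monotone f) (hfT : ∀ x, |ψ a x - f x| ≤ T)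
    {χ : ℝ → ℝ} (hχ : Antitone χ) (hχ0 : ∀ x, 0 ≤ χ x) (A : Fin M × Fin N → ℝ) :
    ENNReal.ofReal (gav μ y ψ A (fun ω => χ (fld y A a ω))) ≤
      ENNReal.ofReal (Real.exp (2 * T)) *
        ((∫⁻ ω, ENNReal.ofReal (χ (fld y A a ω)) ∂(nur μ y ψ a A)) / nur μ y ψ a A Set.univ) := by
  have := isFiniteMeasure_nur μ hy1 hC hψ a A
  have hν0 : nur μ y ψ a A ≠ 0 := by
    intro h0
    exact nur_univ_pos hμ hy hψm a A (by rw [h0]; simp)
  have e1 : gav μ y ψ A (fun ω => χ (fld y A a ω)) =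
      (∫ ω, χ (fld y A a ω) * Real.exp (ψ a (fld y A a ω)) ∂(nur μ y ψ a A)) /
        ∫ ω, Real.exp (ψ a (fld y A a ω)) ∂(nur μ y ψ a A) := by
    rw [integral_nur μ hy hψm, integral_nur μ hy hψm]
    unfold gav Zf
    congr 1
    · refine integral_congr_ae (ae_of_all _ fun ω => ?_)
      simp only [wt_eq_wr y ψ a A ω]
      ring
    · refine integral_congr_ae (ae_of_all _ fun ω => ?_)
      simp only [wt_eq_wr y ψ a A ω]
  have hX := measurable_fld_right hy A a
  have h := assoc_ratio (nur μ y ψ a A) hν0 hX (abs_fld_le hy1 A a)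
    (w := fun x => Real.exp (ψ a x)) (w₁ := fun x => Real.exp (f x - T)) (χ := χ)
    (K := Real.exp (2 * T))
    (fun x z hxz => Real.exp_le_exp.2 (by linarith [hf hxz])) (fun x => Real.exp_pos _)
    (Real.measurable_exp.comp (hψm a))
    (fun x => Real.exp_le_exp.2 (by have := (abs_le.1 (hfT x)).1; linarith))
    (fun x => by
      show Real.exp (ψ a x) ≤ Real.exp (2 * T) * Real.exp (f x - T)
      rw [← Real.exp_add]
      exact Real.exp_le_exp.2 (by have := (abs_le.1 (hfT x)).2; linarith)) hχ hχ0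
  rw [e1]
  refine (ENNReal.ofReal_le_ofReal h).trans ?_
  rw [ENNReal.ofReal_mul (Real.exp_pos _).le]
  refine mul_le_mul_right ?_ _
  have hχ' : Monotone fun x => -χ x := fun a b h => neg_le_neg (hχ h)
  have iχ : Integrable (fun ω => χ (fld y A a ω)) (nur μ y ψ a A) :=
    integrable_bdd _ (hχ.measurable.comp hX) _ fun ω => by
      have := bdd_of_monotone hχ' (abs_fld_le hy1 A a) ω
      simpa using this
  have hpos : 0 < (nur μ y ψ a A).real Set.univ := real_univ_pos hν0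
  rw [ENNReal.ofReal_div_of_pos hpos, ofReal_integral_eq_lintegral_ofReal iχ
    (ae_of_all _ fun ω => hχ0 _), Measure.real, ENNReal.ofReal_toReal (measure_ne_top _ _)]

theorem measurable_gav (μ : Measure Y) [IsFiniteMeasure μ] {y : Y → Fin N → ℝ} (hy : Measurable y)
    {ψ : Fin M → ℝ → ℝ} (hψm : ∀ a, Measurable (ψ a)) {G : (Fin M × Fin N → ℝ) → Y → ℝ}
    (hG : Measurable (Function.uncurry G)) : Measurable fun A => gav μ y ψ A (G A) := by
  unfold gav
  refine Measurable.div ?_ (measurable_Zf μ hy hψm)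
  have h : StronglyMeasurable (Function.uncurry
      fun (A : Fin M × Fin N → ℝ) ω => G A ω * wt y ψ A ω) :=
    (hG.mul (measurable_wt hy hψm)).stronglyMeasurable
  exact (h.integral_prod_right (ν := μ)).measurable

/-- **(A) Association.** Under ANY product law of the entries, the mean Gibbs average of a
nonnegative nonincreasing observable `χ` of the field of row `a` is at most `e^{2T}` times its
maximal mean over the reference configurations, when the potential of row `a` is within `T` of a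
nondecreasing function (the potentials of the other rows are arbitrary). -/
theorem lintegral_gav_le {ρ : Measure ℝ} [IsProbabilityMeasure ρ] {μ : Measure Y}
    [IsFiniteMeasure μ] (hμ : μ ≠ 0) {y : Y → Fin N → ℝ}
    (hy : Measurable y) (hy1 : ∀ ω, ∑ i, y ω i ^ 2 ≤ 1) {C : ℝ} (hC : 0 ≤ C)
    {ψ : Fin M → ℝ → ℝ} (hψm : ∀ a, Measurable (ψ a)) (hψ : QG C ψ) (a : Fin M)
    {f : ℝ → ℝ} {T : ℝ} (hf : Monotone f) (hfT : ∀ x, |ψ a x - f x| ≤ T)
    {χ : ℝ → ℝ} (hχ : Antitone χ) (hχ0 : ∀ x, 0 ≤ χ x) {c : ENNReal}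
    (hc : ∀ ω, ∫⁻ A, ENNReal.ofReal (χ (fld y A a ω)) ∂(PL M N ρ) ≤ c) :
    ∫⁻ A, ENNReal.ofReal (gav μ y ψ A (fun ω => χ (fld y A a ω))) ∂(PL M N ρ) ≤
      ENNReal.ofReal (Real.exp (2 * T)) * c := by
  classical
  have hmeas : Measurable fun A : Fin M × Fin N → ℝ =>
      ENNReal.ofReal (gav μ y ψ A (fun ω => χ (fld y A a ω))) := by
    refine ENNReal.measurable_ofReal.comp ?_
    exact measurable_gav μ hy hψm (G := fun A ω => χ (fld y A a ω))
      (hχ.measurable.comp (measurable_fld hy a))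
  rw [lintegral_mix (fun _ => ρ) (fun q : Fin M × Fin N => q.1 = a) _ hmeas]
  have hbound : ∀ A : Fin M × Fin N → ℝ,
      ∫⁻ A', ENNReal.ofReal (gav μ y ψ (mix (fun q : Fin M × Fin N => q.1 = a) A A')
        (fun ω => χ (fld y (mix (fun q : Fin M × Fin N => q.1 = a) A A') a ω))) ∂(PL M N ρ) ≤
      ENNReal.ofReal (Real.exp (2 * T)) * c := by
    intro A
    have := isFiniteMeasure_nur μ hy1 hC hψ a A
    have hpw : ∀ A' : Fin M × Fin N → ℝ,
        ENNReal.ofReal (gav μ y ψ (mix (fun q : Fin M × Fin N => q.1 = a) A A')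
          (fun ω => χ (fld y (mix (fun q : Fin M × Fin N => q.1 = a) A A') a ω))) ≤
        ENNReal.ofReal (Real.exp (2 * T)) *
          ((∫⁻ ω, ENNReal.ofReal (χ (fld y A' a ω)) ∂(nur μ y ψ a A)) /
            nur μ y ψ a A Set.univ) := by
      intro A'
      refine (gav_le_ratio hμ hy hy1 hC hψm hψ a hf hfT hχ hχ0 _).trans ?_
      have e : nur μ y ψ a (mix (fun q : Fin M × Fin N => q.1 = a) A A') = nur μ y ψ a A := by
        unfold nur
        congr 1
        funext ω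
        rw [wr_mix]
      rw [e]
      simp only [fld_mix_self]
      exact le_rfl
    refine (lintegral_mono hpw).trans ?_
    have hjm : Measurable fun z : (Fin M × Fin N → ℝ) × Y =>
        ENNReal.ofReal (χ (fld y z.1 a z.2)) :=
      ENNReal.measurable_ofReal.comp (hχ.measurable.comp (measurable_fld hy a))
    have hm1 : Measurable fun A' : Fin M × Fin N → ℝ =>
        ∫⁻ ω, ENNReal.ofReal (χ (fld y A' a ω)) ∂(nur μ y ψ a A) := hjm.lintegral_prod_right'
    rw [lintegral_const_mul _ (hm1.div_const _)]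
    refine mul_le_mul_right ?_ _
    simp_rw [div_eq_mul_inv]
    rw [lintegral_mul_const _ hm1, lintegral_lintegral_swap hjm.aemeasurable]
    have h1 : ∫⁻ ω, ∫⁻ A', ENNReal.ofReal (χ (fld y A' a ω)) ∂(PL M N ρ) ∂(nur μ y ψ a A) ≤
        c * nur μ y ψ a A Set.univ := by
      refine (lintegral_mono hc).trans ?_
      rw [lintegral_const]
    refine (mul_le_mul_left h1 _).trans ?_
    rw [mul_assoc, ENNReal.mul_inv_cancel (nur_univ_pos hμ hy hψm a A) (measure_ne_top _ _),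
      mul_one]
  refine (lintegral_mono hbound).trans ?_
  rw [lintegral_const, measure_univ, mul_one]

/-- **(A1).** Raising the potentials `ψ ≤ ψ'` with `ψ' a - ψ a` nonincreasing and `ψ' a` within
`T` of a nondecreasing function raises the mean log-partition function by at most
`e^{2T} ∑ a, sup_y E (ψ' a - ψ a)(A_a · y)`. -/
theorem integral_log_Zf_sub_le {ρ : Measure ℝ} [IsProbabilityMeasure ρ]
    (hρ2 : Integrable (fun x : ℝ => x ^ 2) ρ) {μ : Measure Y}
    [IsFiniteMeasure μ] (hμ : μ ≠ 0) {y : Y → Fin N → ℝ}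
    (hy : Measurable y) (hy1 : ∀ ω, ∑ i, y ω i ^ 2 ≤ 1) {C : ℝ} (hC : 0 ≤ C)
    {ψ ψ' : Fin M → ℝ → ℝ} (hψm : ∀ a, Measurable (ψ a)) (hψ : QG C ψ)
    (hψm' : ∀ a, Measurable (ψ' a)) (hψ' : QG C ψ')
    {f : Fin M → ℝ → ℝ} {T : ℝ} (hf : ∀ a, Monotone (f a)) (hfT : ∀ a x, |ψ' a x - f a x| ≤ T)
    (hχ : ∀ a, Antitone fun x => ψ' a x - ψ a x) (hχ0 : ∀ a x, ψ a x ≤ ψ' a x)
    {c : Fin M → ℝ} (hc0 : ∀ a, 0 ≤ c a)
    (hc : ∀ a ω, ∫⁻ A, ENNReal.ofReal (ψ' a (fld y A a ω) - ψ a (fld y A a ω)) ∂(PL M N ρ) ≤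
      ENNReal.ofReal (c a)) :
    (∫ A, Real.log (Zf μ y ψ A) ∂(PL M N ρ)) ≤ (∫ A, Real.log (Zf μ y ψ' A) ∂(PL M N ρ)) ∧
    (∫ A, Real.log (Zf μ y ψ' A) ∂(PL M N ρ)) - (∫ A, Real.log (Zf μ y ψ A) ∂(PL M N ρ)) ≤
      Real.exp (2 * T) * ∑ a, c a := by
  have hP : ∀ p, Integrable (fun A : Fin M × Fin N → ℝ => A p ^ 2) (PL M N ρ) := fun p =>
    (measurePreserving_eval (fun _ : Fin M × Fin N => ρ) p).integrable_comp_of_integrable hρ2
  have i1 := integrable_log_Zf (PL M N ρ) hP hμ hy hy1 hC hψm hψ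
  have i2 := integrable_log_Zf (PL M N ρ) hP hμ hy hy1 hC hψm' hψ'
  refine ⟨integral_mono i1 i2 fun A => log_Zf_mono hμ hy hy1 hC hψm hψ hψm' hψ' hχ0 A, ?_⟩
  rw [← integral_sub i2 i1]
  have i3 : Integrable (fun A => Real.log (Zf μ y ψ' A) - Real.log (Zf μ y ψ A)) (PL M N ρ) :=
    i2.sub i1
  have hA : ∀ a, ∫⁻ A, ENNReal.ofReal (gav μ y ψ' A
      (fun ω => ψ' a (fld y A a ω) - ψ a (fld y A a ω))) ∂(PL M N ρ) ≤
      ENNReal.ofReal (Real.exp (2 * T) * c a) := fun a => by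
    rw [ENNReal.ofReal_mul (Real.exp_pos _).le]
    exact lintegral_gav_le hμ hy hy1 hC hψm' hψ' a (hf a) (hfT a) (hχ a)
      (fun x => sub_nonneg.2 (hχ0 a x)) (hc a)
  have gm : ∀ a, Measurable fun A : Fin M × Fin N → ℝ => gav μ y ψ' A
      (fun ω => ψ' a (fld y A a ω) - ψ a (fld y A a ω)) := fun a =>
    measurable_gav μ hy hψm' (G := fun A ω => ψ' a (fld y A a ω) - ψ a (fld y A a ω))
      ((hχ a).measurable.comp (measurable_fld hy a))
  have g0 : ∀ a (A : Fin M × Fin N → ℝ), 0 ≤ gav μ y ψ' A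
      (fun ω => ψ' a (fld y A a ω) - ψ a (fld y A a ω)) := fun a A =>
    div_nonneg (integral_nonneg fun ω => mul_nonneg (sub_nonneg.2 (hχ0 a _)) (wt_pos _ _ _ _).le)
      (integral_nonneg fun ω => (wt_pos _ _ _ _).le)
  have hle : ∫⁻ A, ENNReal.ofReal (Real.log (Zf μ y ψ' A) - Real.log (Zf μ y ψ A)) ∂(PL M N ρ) ≤
      ENNReal.ofReal (Real.exp (2 * T) * ∑ a, c a) := by
    calc ∫⁻ A, ENNReal.ofReal (Real.log (Zf μ y ψ' A) - Real.log (Zf μ y ψ A)) ∂(PL M N ρ)
        ≤ ∫⁻ A, ∑ a, ENNReal.ofReal (gav μ y ψ' A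
            (fun ω => ψ' a (fld y A a ω) - ψ a (fld y A a ω))) ∂(PL M N ρ) := by
          refine lintegral_mono fun A => ?_
          rw [← ENNReal.ofReal_sum_of_nonneg fun a _ => g0 a A]
          exact ENNReal.ofReal_le_ofReal (log_Zf_sub_le hμ hy hy1 hC hψm hψ hψm' hψ' A)
      _ = ∑ a, ∫⁻ A, ENNReal.ofReal (gav μ y ψ' A
            (fun ω => ψ' a (fld y A a ω) - ψ a (fld y A a ω))) ∂(PL M N ρ) :=
          lintegral_finsetSum _ fun a _ => ENNReal.measurable_ofReal.comp (gm a)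
      _ ≤ ∑ a, ENNReal.ofReal (Real.exp (2 * T) * c a) := Finset.sum_le_sum fun a _ => hA a
      _ = ENNReal.ofReal (Real.exp (2 * T) * ∑ a, c a) := by
          rw [← ENNReal.ofReal_sum_of_nonneg fun a _ => mul_nonneg (Real.exp_pos _).le (hc0 a),
            Finset.mul_sum]
  rw [integral_eq_lintegral_of_nonneg_ae (ae_of_all _ fun A => ?_)
    i3.aestronglyMeasurable]
  · refine ENNReal.toReal_le_of_le_ofReal ?_ hle
    exact mul_nonneg (Real.exp_pos _).le (Finset.sum_nonneg fun a _ => hc0 a)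
  · exact sub_nonneg.2 (log_Zf_mono hμ hy hy1 hC hψm hψ hψm' hψ' hχ0 A)

end Crest.Agent.R146.Assoc_323
end

-- ▼ part R146/Assoc3_323

/-!
Row 146, package ASSOC, part 3: the quadratic penalty potential `qp b k x = -(b/2) (k - x)₊²`, its
truncations, and the truncation error of the mean log-partition function on the sphere, uniformly
in the dimension, for every good coordinate law (`gaussianReal 0 1`, `mixtureLaw ε`).
-/

set_option autoImplicit false
set_option linter.unusedSectionVars false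

namespace Crest.Agent.R146.Assoc_323

open MeasureTheory ProbabilityTheory
open Crest.ProbabilityR.Perceptron
open Crest.Agent.R146.RepairLaw_840 (Good subG_lin lin)
open Crest.Agent.R146.PressC_663 (logZ uSph crd measurable_crd isProb_uSph)

/-! ### The quadratic potential -/

/-- `-(b/2) (k - x)₊²`. -/
noncomputable def qp (b k x : ℝ) : ℝ := -(b / 2) * max (k - x) 0 ^ 2

theorem qp_nonpos {b : ℝ} (hb : 0 ≤ b) (k x : ℝ) : qp b k x ≤ 0 := by
  unfold qp
  have := sq_nonneg (max (k - x) 0)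
  nlinarith

theorem continuous_qp (b k : ℝ) : Continuous (qp b k) := by
  unfold qp; fun_prop

theorem monotone_qp {b : ℝ} (hb : 0 ≤ b) (k : ℝ) : Monotone (qp b k) := by
  intro x z hxz
  unfold qp
  have h1 : max (k - z) 0 ≤ max (k - x) 0 := max_le_max (by linarith) le_rfl
  have h2 : max (k - z) 0 ^ 2 ≤ max (k - x) 0 ^ 2 := by
    have := le_max_right (k - z) 0
    gcongr
  nlinarith

theorem abs_qp_le {b : ℝ} (hb : 0 ≤ b) (k x : ℝ) :
    |qp b k x| ≤ b * (1 + k ^ 2) * (1 + x ^ 2) := by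
  have h0 := le_max_right (k - x) 0
  have h1 : max (k - x) 0 ^ 2 ≤ (k - x) ^ 2 := by
    rcases le_total (k - x) 0 with h | h
    · rw [max_eq_right h]; nlinarith [sq_nonneg (k - x)]
    · rw [max_eq_left h]
  have h2 : (k - x) ^ 2 ≤ 2 * (k ^ 2 + x ^ 2) := by nlinarith [sq_nonneg (k + x)]
  rw [abs_of_nonpos (qp_nonpos hb k x)]
  unfold qp
  have h3 : b / 2 * max (k - x) 0 ^ 2 ≤ b / 2 * (2 * (k ^ 2 + x ^ 2)) :=
    mul_le_mul_of_nonneg_left (h1.trans h2) (by linarith)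
  have h4 : k ^ 2 + x ^ 2 ≤ (1 + k ^ 2) * (1 + x ^ 2) := by nlinarith [sq_nonneg (k * x)]
  nlinarith

/-- the truncation error of the quadratic potential has exponential moments. -/
theorem trunc_qp_le {b : ℝ} (hb : 0 < b) (k : ℝ) {L : ℝ} (hL : 0 ≤ L) (x : ℝ) :
    max (qp b k x) (-L) - qp b k x ≤
      b * Real.exp (2 * |k|) * Real.exp (-Real.sqrt (2 * L / b)) *
        (Real.exp (2 * x) + Real.exp (-(2 * x))) := by
  have hR : 0 ≤ b * Real.exp (2 * |k|) * Real.exp (-Real.sqrt (2 * L / b)) *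
        (Real.exp (2 * x) + Real.exp (-(2 * x))) := by positivity
  rcases le_total (-L) (qp b k x) with h | h
  · rw [max_eq_left h]; linarith
  rw [max_eq_right h]
  set u := max (k - x) 0 with hu
  have hu0 : 0 ≤ u := le_max_right _ _
  have hq : qp b k x = -(b / 2) * u ^ 2 := rfl
  have h1 : L ≤ b / 2 * u ^ 2 := by linarith
  have h2 : Real.sqrt (2 * L / b) ≤ u := by
    rw [Real.sqrt_le_left hu0, div_le_iff₀ hb]
    nlinarith
  have h3 : u ^ 2 ≤ 2 * Real.exp u := by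
    have := Real.quadratic_le_exp_of_nonneg hu0
    nlinarith
  have h4 : u ≤ |k| + |x| := by
    refine max_le ?_ (by positivity)
    have := le_abs_self k
    have := neg_abs_le x
    linarith
  have h5 : Real.exp (2 * |x|) ≤ Real.exp (2 * x) + Real.exp (-(2 * x)) := by
    rcases abs_cases x with ⟨h, _⟩ | ⟨h, _⟩
    · rw [h]; have := Real.exp_pos (-(2 * x)); linarith
    · rw [h, mul_neg]; have := Real.exp_pos (2 * x); linarith
  calc -L - qp b k x = b / 2 * u ^ 2 - L := by rw [hq]; ring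
    _ ≤ b / 2 * (2 * Real.exp u) := by
        have := mul_le_mul_of_nonneg_left h3 (by linarith : 0 ≤ b / 2)
        linarith
    _ = b * Real.exp u := by ring
    _ ≤ b * (Real.exp (2 * u) * Real.exp (-Real.sqrt (2 * L / b))) := by
        refine mul_le_mul_of_nonneg_left ?_ hb.le
        rw [← Real.exp_add]
        exact Real.exp_le_exp.2 (by linarith)
    _ ≤ b * ((Real.exp (2 * |k|) * (Real.exp (2 * x) + Real.exp (-(2 * x)))) *
          Real.exp (-Real.sqrt (2 * L / b))) := by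
        refine mul_le_mul_of_nonneg_left ?_ hb.le
        refine mul_le_mul_of_nonneg_right ?_ (Real.exp_pos _).le
        calc Real.exp (2 * u) ≤ Real.exp (2 * |k| + 2 * |x|) :=
              Real.exp_le_exp.2 (by linarith)
          _ = Real.exp (2 * |k|) * Real.exp (2 * |x|) := Real.exp_add _ _
          _ ≤ _ := mul_le_mul_of_nonneg_left h5 (Real.exp_pos _).le
    _ = _ := by ring

/-! ### Exponential moments of a row field -/

theorem sum_crd_sq {N : ℕ} (u : UnitSphere N) : ∑ i, crd N u i ^ 2 = 1 := by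
  have h : ‖(u : EuclideanSpace ℝ (Fin N))‖ = 1 := by
    simp
  have h2 := EuclideanSpace.norm_sq_eq (u : EuclideanSpace ℝ (Fin N))
  rw [h] at h2
  simp only [Real.norm_eq_abs, sq_abs, one_pow] at h2
  exact h2.symm

theorem sum_crd_sq_le {N : ℕ} (u : UnitSphere N) : ∑ i, crd N u i ^ 2 ≤ 1 := (sum_crd_sq u).le

theorem integral_exp_fld_le {ν : Measure ℝ} (h : Good ν) {N M : ℕ} {Y : Type*}
    {y : Y → Fin N → ℝ} (hy1 : ∀ ω, ∑ i, y ω i ^ 2 ≤ 1) (a : Fin M) (ω : Y) (t : ℝ) :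
    Integrable (fun A : Fin M × Fin N → ℝ => Real.exp (t * fld y A a ω)) (PL M N ν) ∧
    ∫ A, Real.exp (t * fld y A a ω) ∂(PL M N ν) ≤ Real.exp (t ^ 2) := by
  classical
  set l : Fin M × Fin N → ℝ := fun q => if q.1 = a then y ω q.2 else 0 with hl
  have e : ∀ A : Fin M × Fin N → ℝ, lin l A = fld y A a ω := by
    intro A
    unfold lin fld
    rw [Fintype.sum_prod_type]
    simp only [hl]
    rw [Finset.sum_eq_single a]
    · refine Finset.sum_congr rfl fun i _ => ?_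
      simp [mul_comm]
    · intro b _ hb
      simp [hb]
    · simp
  have hl2 : ∑ q, l q ^ 2 ≤ 1 := by
    rw [Fintype.sum_prod_type]
    simp only [hl]
    rw [Finset.sum_eq_single a]
    · simpa using hy1 ω
    · intro b _ hb
      simp [hb]
    · simp
  have hs := subG_lin h l hl2
  have h1 := hs.integrable_exp_mul t
  have h2 := hs.mgf_le t
  simp only [mgf, e] at h1 h2
  refine ⟨h1, h2.trans (Real.exp_le_exp.2 ?_)⟩
  push_cast
  linarith

theorem lintegral_exp_fld_le {ν : Measure ℝ} (h : Good ν) {N M : ℕ} {Y : Type*}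
    {y : Y → Fin N → ℝ} (hy1 : ∀ ω, ∑ i, y ω i ^ 2 ≤ 1) (a : Fin M) (ω : Y) {c : ℝ}
    (hc : 0 ≤ c) {g : ℝ → ℝ} (hg : ∀ x, g x ≤ c * (Real.exp (2 * x) + Real.exp (-(2 * x)))) :
    ∫⁻ A, ENNReal.ofReal (g (fld y A a ω)) ∂(PL M N ν) ≤
      ENNReal.ofReal (c * (2 * Real.exp 4)) := by
  obtain ⟨i1, b1⟩ := integral_exp_fld_le h hy1 a ω 2
  obtain ⟨i2, b2⟩ := integral_exp_fld_le h hy1 a ω (-2)
  refine (lintegral_mono fun A => ENNReal.ofReal_le_ofReal (hg _)).trans ?_
  have e : ∀ A : Fin M × Fin N → ℝ, Real.exp (-(2 * fld y A a ω)) =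
      Real.exp (-2 * fld y A a ω) := fun A => by congr 1; ring
  simp only [e]
  have i3 : Integrable (fun A : Fin M × Fin N → ℝ =>
      c * (Real.exp (2 * fld y A a ω) + Real.exp (-2 * fld y A a ω))) (PL M N ν) :=
    (i1.add i2).const_mul c
  rw [← ofReal_integral_eq_lintegral_ofReal i3 (ae_of_all _ fun A => by
    have := Real.exp_pos (2 * fld y A a ω)
    have := Real.exp_pos (-2 * fld y A a ω)
    positivity)]
  refine ENNReal.ofReal_le_ofReal ?_
  rw [integral_const_mul, integral_add i1 i2]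
  refine mul_le_mul_of_nonneg_left ?_ hc
  norm_num at b1 b2 ⊢
  linarith

/-- The general comparison on the sphere: potentials `ψ ≤ ψ'` with `ψ' - ψ` nonincreasing and
controlled by `c a * cosh`. -/
theorem integral_logZ_sub_le {ν : Measure ℝ} (h : Good ν) {N M : ℕ} (hN : 0 < N) {C : ℝ}
    (hC : 0 ≤ C) {ψ ψ' : Fin M → ℝ → ℝ} (hψm : ∀ a, Measurable (ψ a)) (hψ : QG C ψ)
    (hψm' : ∀ a, Measurable (ψ' a)) (hψ' : QG C ψ')
    {f : Fin M → ℝ → ℝ} {T : ℝ} (hf : ∀ a, Monotone (f a)) (hfT : ∀ a x, |ψ' a x - f a x| ≤ T)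
    (hχ : ∀ a, Antitone fun x => ψ' a x - ψ a x) (hχ0 : ∀ a x, ψ a x ≤ ψ' a x)
    {c : Fin M → ℝ} (hc0 : ∀ a, 0 ≤ c a)
    (hc : ∀ a x, ψ' a x - ψ a x ≤ c a * (Real.exp (2 * x) + Real.exp (-(2 * x)))) :
    (∫ A, logZ (uSph N) (crd N) ψ A ∂(PL M N ν)) ≤ (∫ A, logZ (uSph N) (crd N) ψ' A ∂(PL M N ν)) ∧
    (∫ A, logZ (uSph N) (crd N) ψ' A ∂(PL M N ν)) - (∫ A, logZ (uSph N) (crd N) ψ A ∂(PL M N ν)) ≤
      Real.exp (2 * T) * (2 * Real.exp 4) * ∑ a, c a := by
  have := h.prob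
  have := isProb_uSph hN
  have hρ2 : Integrable (fun x : ℝ => x ^ 2) ν := by
    by_contra hni
    have h1 := h.var
    rw [integral_undef hni] at h1
    norm_num at h1
  have hμ : uSph N ≠ 0 := IsProbabilityMeasure.ne_zero _
  have key := integral_log_Zf_sub_le (ρ := ν) hρ2 hμ (measurable_crd N) (fun u => sum_crd_sq_le u)
    hC hψm hψ hψm' hψ' hf hfT hχ hχ0 (c := fun a => c a * (2 * Real.exp 4))
    (fun a => mul_nonneg (hc0 a) (by positivity))
    (fun a ω => lintegral_exp_fld_le h (fun u => sum_crd_sq_le u) a ω (hc0 a)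
      (g := fun x => ψ' a x - ψ a x) (hc a))
  refine ⟨key.1, key.2.trans (le_of_eq ?_)⟩
  rw [← Finset.sum_mul]
  ring

/-- `log Z` is integrable for potentials of quadratic growth under a good law. -/
theorem integrable_logZ {ν : Measure ℝ} (h : Good ν) {N M : ℕ} (hN : 0 < N) {C : ℝ}
    (hC : 0 ≤ C) {ψ : Fin M → ℝ → ℝ} (hψm : ∀ a, Measurable (ψ a)) (hψ : QG C ψ) :
    Integrable (fun A => logZ (uSph N) (crd N) ψ A) (PL M N ν) := by
  have := h.prob
  have := isProb_uSph hN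
  have hρ2 : Integrable (fun x : ℝ => x ^ 2) ν := by
    by_contra hni
    have h1 := h.var
    rw [integral_undef hni] at h1
    norm_num at h1
  have hμ : uSph N ≠ 0 := IsProbabilityMeasure.ne_zero _
  have hP : ∀ p, Integrable (fun A : Fin M × Fin N → ℝ => A p ^ 2) (PL M N ν) := fun p =>
    (measurePreserving_eval (fun _ : Fin M × Fin N => ν) p).integrable_comp_of_integrable hρ2
  exact integrable_log_Zf (PL M N ν) hP hμ (measurable_crd N) (fun u => sum_crd_sq_le u) hC hψm hψ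

/-- **(A1) for the quadratic penalty.** Truncating the potentials `qp b (k a) + θ a` at level `-L`
changes the mean log-partition function by at most
`e^{2T} · 2 e⁴ · ∑ a, b e^{2|k a|} e^{-√(2L/b)}`, for every good coordinate law. -/
theorem trunc_bound {ν : Measure ℝ} (h : Good ν) {N M : ℕ} (hN : 0 < N) {b : ℝ} (hb : 0 < b)
    (k : Fin M → ℝ) {θ : Fin M → ℝ → ℝ} (hθm : ∀ a, Measurable (θ a)) {T : ℝ}
    (hθ : ∀ a x, |θ a x| ≤ T) {L : ℝ} (hL : 0 ≤ L) :
    (∫ A, logZ (uSph N) (crd N) (fun a x => qp b (k a) x + θ a x) A ∂(PL M N ν)) ≤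
      (∫ A, logZ (uSph N) (crd N) (fun a x => max (qp b (k a) x) (-L) + θ a x) A ∂(PL M N ν)) ∧
    (∫ A, logZ (uSph N) (crd N) (fun a x => max (qp b (k a) x) (-L) + θ a x) A ∂(PL M N ν)) -
      (∫ A, logZ (uSph N) (crd N) (fun a x => qp b (k a) x + θ a x) A ∂(PL M N ν)) ≤
      Real.exp (2 * T) * (2 * Real.exp 4) *
        ∑ a, b * Real.exp (2 * |k a|) * Real.exp (-Real.sqrt (2 * L / b)) := by
  set C : ℝ := ∑ a, b * (1 + k a ^ 2) + |T| + L with hCdef
  have hC0 : 0 ≤ C := by positivity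
  have hq : ∀ a x, |qp b (k a) x| ≤ (∑ a, b * (1 + k a ^ 2)) * (1 + x ^ 2) := by
    intro a x
    refine (abs_qp_le hb.le (k a) x).trans ?_
    refine mul_le_mul_of_nonneg_right ?_ (by positivity)
    exact Finset.single_le_sum (f := fun a => b * (1 + k a ^ 2)) (fun i _ => by positivity)
      (Finset.mem_univ a)
  have hT : ∀ a x, |θ a x| ≤ |T| * (1 + x ^ 2) := by
    intro a x
    have h1 := (hθ a x).trans (le_abs_self T)
    have h2 := abs_nonneg T
    nlinarith [sq_nonneg x, mul_nonneg h2 (sq_nonneg x)]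
  have hS0 : 0 ≤ ∑ a, b * (1 + k a ^ 2) := Finset.sum_nonneg fun i _ => by positivity
  refine integral_logZ_sub_le h hN (C := C) hC0 (ψ := fun a x => qp b (k a) x + θ a x)
    (ψ' := fun a x => max (qp b (k a) x) (-L) + θ a x)
    (fun a => ((continuous_qp b (k a)).measurable).add (hθm a)) ?_
    (fun a => (((continuous_qp b (k a)).measurable).max measurable_const).add (hθm a)) ?_
    (f := fun a x => max (qp b (k a) x) (-L)) (T := T)
    (fun a x z hxz => max_le_max (monotone_qp hb.le (k a) hxz) le_rfl)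
    (fun a x => by simpa using hθ a x) ?_ ?_ (fun a => by positivity) ?_
  · intro a x
    refine (abs_add_le _ _).trans ?_
    have h1 := hq a x
    have h2 := hT a x
    have h3 : 0 ≤ L * (1 + x ^ 2) := by positivity
    rw [hCdef]
    nlinarith
  · intro a x
    refine (abs_add_le _ _).trans ?_
    have h1 := hq a x
    have h2 := hT a x
    have h3 : |max (qp b (k a) x) (-L)| ≤ |qp b (k a) x| := by
      have h4 := qp_nonpos hb.le (k a) x
      rw [abs_of_nonpos h4, abs_of_nonpos (max_le h4 (by linarith))]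
      exact neg_le_neg (le_max_left _ _)
    have h5 : 0 ≤ L * (1 + x ^ 2) := by positivity
    rw [hCdef]
    nlinarith
  · intro a x z hxz
    have hm := monotone_qp hb.le (k a) hxz
    show max (qp b (k a) z) (-L) + θ a z - (qp b (k a) z + θ a z) ≤
      max (qp b (k a) x) (-L) + θ a x - (qp b (k a) x + θ a x)
    have e : ∀ w, max (qp b (k a) w) (-L) + θ a w - (qp b (k a) w + θ a w) =
        max 0 (-L - qp b (k a) w) := by
      intro w
      rcases le_total (-L) (qp b (k a) w) with h | h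
      · rw [max_eq_left h, max_eq_left (by linarith)]; ring
      · rw [max_eq_right h, max_eq_right (by linarith)]; ring
    rw [e, e]
    exact max_le_max le_rfl (by linarith)
  · intro a x
    have := le_max_left (qp b (k a) x) (-L)
    linarith
  · intro a x
    have := trunc_qp_le hb (k a) hL x
    linarith

end Crest.Agent.R146.Assoc_323
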