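import Mathlib
import Crest.Agent.R146.Assoc3_323

/-!
Row 146, package ASSOC, part 4: limits of the mean pressure and convergence in probability pass
from the truncated (bounded) potentials to the quadratic penalty `qp b k + θ`, for every good
coordinate law.
-/

set_option autoImplicit false
set_option linter.unusedSectionVars false

namespace Crest.Agent.R146.Assoc_323

open MeasureTheory ProbabilityTheory Filter Topology
open Crest.ProbabilityR.Perceptron
open Crest.Agent.R146.RepairLaw_840 (Good)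
open Crest.Agent.R146.PressC_663 (logZ uSph crd measurable_crd isProb_uSph spherePressure_eq)

/-- the mean pressure at `β = 1` for an array with i.i.d. entries of law `ν`. -/
noncomputable def eP (ν : Measure ℝ) (α : ℝ) (φ : ℝ → ℝ) (N : ℕ) : ℝ :=
  ∫ g, spherePressure N α 1 φ g ∂(Measure.pi fun _ : Fin (numPatterns N α) × Fin N => ν)

theorem spherePressure_one (N : ℕ) (α : ℝ) (φ : ℝ → ℝ) (g : Patterns N α) :
    spherePressure N α 1 φ g = logZ (uSph N) (crd N) (fun _ => φ) g / N := by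
  rw [spherePressure_eq]
  simp only [one_mul]


theorem eP_eq (ν : Measure ℝ) (α : ℝ) (φ : ℝ → ℝ) (N : ℕ) :
    eP ν α φ N =
      (∫ A, logZ (uSph N) (crd N) (fun _ => φ) A ∂(PL (numPatterns N α) N ν)) / N := by
  unfold eP
  rw [← integral_div]
  exact integral_congr_ae (ae_of_all _ fun g => spherePressure_one N α φ g)



/-- the uniform truncation error at level `L`. -/
noncomputable def cL (α b k T L : ℝ) : ℝ :=
  α * (Real.exp (2 * T) * (2 * Real.exp 4) *
    (b * Real.exp (2 * |k|) * Real.exp (-Real.sqrt (2 * L / b))))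


theorem tendsto_cL (α : ℝ) {b : ℝ} (hb : 0 < b) (k T : ℝ) :
    Tendsto (fun n : ℕ => cL α b k T n) atTop (𝓝 0) := by
  have h1 : Tendsto (fun n : ℕ => Real.sqrt (2 * (n : ℝ) / b)) atTop atTop := by
    refine Real.tendsto_sqrt_atTop.comp ?_
    refine Tendsto.atTop_div_const hb ?_
    exact tendsto_natCast_atTop_atTop.const_mul_atTop (by norm_num)
  have h2 : Tendsto (fun n : ℕ => Real.exp (-Real.sqrt (2 * (n : ℝ) / b))) atTop (𝓝 0) :=
    Real.tendsto_exp_neg_atTop_nhds_zero.comp h1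
  have h3 := h2.const_mul (α * (Real.exp (2 * T) * (2 * Real.exp 4) * (b * Real.exp (2 * |k|))))
  rw [mul_zero] at h3
  refine h3.congr fun n => ?_
  unfold cL
  ring

/-- the truncation error of the mean pressure. -/
theorem eP_trunc {ν : Measure ℝ} (h : Good ν) {α b : ℝ} (hα : 0 ≤ α) (hb : 0 < b) (k : ℝ)
    {θ : ℝ → ℝ} (hθm : Measurable θ) {T : ℝ} (hθ : ∀ x, |θ x| ≤ T) {L : ℝ} (hL : 0 ≤ L)
    {N : ℕ} (hN : 0 < N) :
    eP ν α (fun x => qp b k x + θ x) N ≤ eP ν α (fun x => max (qp b k x) (-L) + θ x) N ∧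
      eP ν α (fun x => max (qp b k x) (-L) + θ x) N - eP ν α (fun x => qp b k x + θ x) N ≤
        cL α b k T L := by
  have h0 : (0 : ℝ) < N := by exact_mod_cast hN
  have key := trunc_bound h (M := numPatterns N α) hN hb (fun _ => k) (fun _ => hθm) (T := T)
    (fun _ => hθ) hL
  rw [eP_eq, eP_eq]
  refine ⟨div_le_div_of_nonneg_right key.1 h0.le, ?_⟩
  rw [← sub_div, div_le_iff₀ h0]
  refine key.2.trans ?_
  rw [Finset.sum_const, Finset.card_univ, Fintype.card_fin, nsmul_eq_mul]
  unfold cL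
  have hM : (numPatterns N α : ℝ) ≤ α * N := Nat.floor_le (by positivity)
  have hc : 0 ≤ Real.exp (2 * T) * (2 * Real.exp 4) *
    (b * Real.exp (2 * |k|) * Real.exp (-Real.sqrt (2 * L / b))) := by positivity
  nlinarith [mul_le_mul_of_nonneg_right hM hc]


theorem QG_const {C : ℝ} {φ : ℝ → ℝ} (hφ : ∀ x, |φ x| ≤ C * (1 + x ^ 2)) (M : ℕ) :
    QG C (fun _ : Fin M => φ) := fun _ x => hφ x

theorem growth_qp_add {b : ℝ} (hb : 0 ≤ b) (k : ℝ) {θ : ℝ → ℝ} {T : ℝ} (hθ : ∀ x, |θ x| ≤ T)
    (x : ℝ) : |qp b k x + θ x| ≤ (b * (1 + k ^ 2) + |T|) * (1 + x ^ 2) := by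
  refine (abs_add_le _ _).trans ?_
  have h1 := abs_qp_le hb k x
  have h2 : |θ x| ≤ |T| * (1 + x ^ 2) := by
    have h3 := (hθ x).trans (le_abs_self T)
    have h4 := mul_nonneg (abs_nonneg T) (sq_nonneg x)
    nlinarith
  linarith



end Crest.Agent.R146.Assoc_323
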