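import Mathlib

-- ▼ part R146/MaxP_371
section

/-!
Weak maximum principles with one-sided time derivatives (row 146, helper371).

`backward_max` : a function `w` on a closed set `K ⊆ [t0,t1] × ℝ`, continuous, of at most linear growth in `x`,
which satisfies at every point of `K` where it is positive a backward parabolic differential inequality
`0 ≤ w_t + a w_xx + b w_x + c w` (right time derivative, `0 ≤ a ≤ A(1+x²)`, `|b| ≤ B(1+|x|)`, `c ≤ C`)
is nonpositive.  (In particular `w` is nonpositive on the part of `K` where no inequality is available,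
such as the terminal time and the lateral boundary: this is part of the hypothesis.)
-/

set_option autoImplicit false

open Set Filter Topology

namespace Crest.Agent.R146.MaxP_371

/-- right derivative of a function which has a right local maximum is nonpositive -/
lemma deriv_right_nonpos {g : ℝ → ℝ} {g' t : ℝ} (hg : HasDerivWithinAt g g' (Ici t) t)
    (hmax : ∀ᶠ s in 𝓝[>] t, g s ≤ g t) : g' ≤ 0 := by
  have h1 : Tendsto (slope g t) (𝓝[>] t) (𝓝 g') := by
    have := (hasDerivWithinAt_iff_tendsto_slope.1 hg)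
    have e : Ici t \ {t} = Ioi t := by
      ext s; simp only [Set.mem_sdiff, mem_Ici, mem_singleton_iff, mem_Ioi]
      constructor
      · rintro ⟨h1, h2⟩; exact lt_of_le_of_ne h1 (Ne.symm h2)
      · intro h; exact ⟨h.le, ne_of_gt h⟩
    rwa [e] at this
  refine le_of_tendsto h1 ?_
  filter_upwards [hmax, self_mem_nhdsWithin] with s hs hst
  rw [slope_def_field]
  exact div_nonpos_of_nonpos_of_nonneg (by linarith) (by have : t < s := hst; linarith)

/-- left derivative of a function which has a left local maximum is nonnegative -/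
lemma deriv_left_nonneg {g : ℝ → ℝ} {g' t : ℝ} (hg : HasDerivWithinAt g g' (Iic t) t)
    (hmax : ∀ᶠ s in 𝓝[<] t, g s ≤ g t) : 0 ≤ g' := by
  have h1 : Tendsto (slope g t) (𝓝[<] t) (𝓝 g') := by
    have := (hasDerivWithinAt_iff_tendsto_slope.1 hg)
    have e : Iic t \ {t} = Iio t := by
      ext s; simp only [Set.mem_sdiff, mem_Iic, mem_singleton_iff, mem_Iio]
      constructor
      · rintro ⟨h1, h2⟩; exact lt_of_le_of_ne h1 h2
      · intro h; exact ⟨h.le, ne_of_lt h⟩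
    rwa [e] at this
  refine ge_of_tendsto h1 ?_
  filter_upwards [hmax, self_mem_nhdsWithin] with s hs hst
  rw [slope_def_field]
  exact div_nonneg_of_nonpos (by linarith) (by have : s < t := hst; linarith)

/-- second order necessary condition at a local maximum -/
lemma second_deriv_nonpos {f f' : ℝ → ℝ} {f'' x : ℝ}
    (hf : ∀ᶠ y in 𝓝 x, HasDerivAt f (f' y) y) (hf' : HasDerivAt f' f'' x)
    (hmax : IsLocalMax f x) : f' x = 0 ∧ f'' ≤ 0 := by
  have hx0 : f' x = 0 := hmax.hasDerivAt_eq_zero hf.self_of_nhds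
  refine ⟨hx0, ?_⟩
  by_contra hcon
  push Not at hcon
  -- f' y / (y-x) → f'' > 0, so f' > 0 on (x, x+ε)
  have h1 : Tendsto (slope f' x) (𝓝[≠] x) (𝓝 f'') := hasDerivAt_iff_tendsto_slope.1 hf'
  have h2 : ∀ᶠ y in 𝓝[≠] x, 0 < slope f' x y := h1.eventually (lt_mem_nhds hcon)
  rw [eventually_nhdsWithin_iff] at h2
  have h3 := (h2.and hf).and hmax
  obtain ⟨ε, hε, hball⟩ := Metric.eventually_nhds_iff.1 h3
  -- on [x, x+ε/2] f is strictly monotone
  have hmem : ∀ y ∈ Icc x (x + ε/2), dist y x < ε := by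
    intro y hy
    rw [Real.dist_eq, abs_of_nonneg (by linarith [hy.1])]
    linarith [hy.2]
  have hmono : StrictMonoOn f (Icc x (x + ε/2)) := by
    apply strictMonoOn_of_deriv_pos (convex_Icc _ _)
    · intro y hy
      exact ((hball (hmem y hy)).1.2).continuousAt.continuousWithinAt
    · intro y hy
      rw [interior_Icc] at hy
      have hyI : y ∈ Icc x (x + ε/2) := ⟨hy.1.le, hy.2.le⟩
      rw [((hball (hmem y hyI)).1.2).deriv]
      have hs := (hball (hmem y hyI)).1.1 (by simpa using ne_of_gt hy.1)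
      rw [slope_def_field, hx0, sub_zero] at hs
      have : 0 < y - x := by linarith [hy.1]
      exact (div_pos_iff_of_pos_right this).1 hs
  have hxm : x ∈ Icc x (x + ε/2) := ⟨le_refl _, by linarith⟩
  have hym : x + ε/2 ∈ Icc x (x + ε/2) := ⟨by linarith, le_refl _⟩
  have hlt := hmono hxm hym (by linarith)
  have hle := (hball (hmem _ hym)).2
  linarith





end Crest.Agent.R146.MaxP_371
end

-- ▼ part R146/MaxP2_371
section

/-!
Weak maximum principle, abstract form (`max_core`: any positive barrier `φ`), and the version with ONE-SIDED second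
space derivatives (`backward_max1`, `forward_max1`), so that barriers which are only `C¹` and piecewise `C²` are allowed.
-/

set_option autoImplicit false

open Set Filter Topology

namespace Crest.Agent.R146.MaxP2_371

open MaxP_371

/-- Abstract maximum principle: `w ≤ 0` on `K` as soon as `w` cannot touch a positive multiple of the positive
barrier `φ` from below, and `w ≤ ε φ` off a compact set for every `ε > 0`. -/
theorem max_core {X : Type*} [TopologicalSpace X] {K : Set X} {w φ : X → ℝ}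
    (hw : ContinuousOn w K) (hφ : ContinuousOn φ K) (hφpos : ∀ p ∈ K, 0 < φ p)
    (hinf : ∀ ε : ℝ, 0 < ε → ∃ L ⊆ K, IsCompact L ∧ ∀ p ∈ K, p ∉ L → w p ≤ ε * φ p)
    (htouch : ∀ p ∈ K, ∀ S : ℝ, 0 < S → (∀ q ∈ K, w q ≤ S * φ q) → w p = S * φ p → False) :
    ∀ p ∈ K, w p ≤ 0 := by
  intro p0 hp0
  by_contra hcon
  push Not at hcon
  set s0 : ℝ := w p0 / φ p0 with hs0
  have hs0pos : 0 < s0 := div_pos hcon (hφpos _ hp0)
  obtain ⟨L, hLK, hLc, hL⟩ := hinf (s0 / 2) (by linarith)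
  have hp0L : p0 ∈ L := by
    by_contra h
    have h1 := hL p0 hp0 h
    have h2 : w p0 = s0 * φ p0 := by rw [hs0, div_mul_cancel₀ _ (hφpos _ hp0).ne']
    have h3 := hφpos _ hp0
    nlinarith
  have hr : ContinuousOn (fun p => w p / φ p) L :=
    (hw.mono hLK).div (hφ.mono hLK) (fun p hp => (hφpos p (hLK hp)).ne')
  obtain ⟨q, hqL, hqmax⟩ := hLc.exists_isMaxOn ⟨p0, hp0L⟩ hr
  set S : ℝ := w q / φ q with hS
  have hSs0 : s0 ≤ S := hqmax hp0L
  have hSpos : 0 < S := lt_of_lt_of_le hs0pos hSs0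
  refine htouch q (hLK hqL) S hSpos ?_ ?_
  · intro p hp
    by_cases hpL : p ∈ L
    · have h1 : w p / φ p ≤ S := hqmax hpL
      exact (div_le_iff₀ (hφpos p hp)).1 h1
    · have h1 := hL p hp hpL
      have h2 := hφpos p hp
      nlinarith
  · rw [hS, div_mul_cancel₀ _ (hφpos q (hLK hqL)).ne']

/-- second order necessary condition at a local maximum, right-sided second derivative -/
lemma second_deriv_nonpos_right {f f' : ℝ → ℝ} {f'' x : ℝ}
    (hf : ∀ᶠ y in 𝓝 x, HasDerivAt f (f' y) y) (hf' : HasDerivWithinAt f' f'' (Ici x) x)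
    (hmax : IsLocalMax f x) : f' x = 0 ∧ f'' ≤ 0 := by
  have hx0 : f' x = 0 := hmax.hasDerivAt_eq_zero hf.self_of_nhds
  refine ⟨hx0, ?_⟩
  by_contra hcon
  push Not at hcon
  have h1 : Tendsto (slope f' x) (𝓝[>] x) (𝓝 f'') := by
    have := (hasDerivWithinAt_iff_tendsto_slope.1 hf')
    have e : Ici x \ {x} = Ioi x := by
      ext s; simp only [Set.mem_sdiff, mem_Ici, mem_singleton_iff, mem_Ioi]
      constructor
      · rintro ⟨h1, h2⟩; exact lt_of_le_of_ne h1 (Ne.symm h2)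
      · intro h; exact ⟨h.le, ne_of_gt h⟩
    rwa [e] at this
  have h2 : ∀ᶠ y in 𝓝[>] x, 0 < slope f' x y := h1.eventually (lt_mem_nhds hcon)
  rw [eventually_nhdsWithin_iff] at h2
  have h3 := (h2.and hf).and hmax
  obtain ⟨ε, hε, hball⟩ := Metric.eventually_nhds_iff.1 h3
  have hmem : ∀ y ∈ Icc x (x + ε/2), dist y x < ε := by
    intro y hy
    rw [Real.dist_eq, abs_of_nonneg (by linarith [hy.1])]
    linarith [hy.2]
  have hmono : StrictMonoOn f (Icc x (x + ε/2)) := by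
    apply strictMonoOn_of_deriv_pos (convex_Icc _ _)
    · intro y hy
      exact ((hball (hmem y hy)).1.2).continuousAt.continuousWithinAt
    · intro y hy
      rw [interior_Icc] at hy
      have hyI : y ∈ Icc x (x + ε/2) := ⟨hy.1.le, hy.2.le⟩
      rw [((hball (hmem y hyI)).1.2).deriv]
      have hs := (hball (hmem y hyI)).1.1 (by simpa using hy.1)
      rw [slope_def_field, hx0, sub_zero] at hs
      have : 0 < y - x := by linarith [hy.1]
      exact (div_pos_iff_of_pos_right this).1 hs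
  have hxm : x ∈ Icc x (x + ε/2) := ⟨le_refl _, by linarith⟩
  have hym : x + ε/2 ∈ Icc x (x + ε/2) := ⟨by linarith, le_refl _⟩
  have hlt := hmono hxm hym (by linarith)
  have hle := (hball (hmem _ hym)).2
  linarith

/-- second order necessary condition at a local maximum, left-sided second derivative -/
lemma second_deriv_nonpos_left {f f' : ℝ → ℝ} {f'' x : ℝ}
    (hf : ∀ᶠ y in 𝓝 x, HasDerivAt f (f' y) y) (hf' : HasDerivWithinAt f' f'' (Iic x) x)
    (hmax : IsLocalMax f x) : f' x = 0 ∧ f'' ≤ 0 := by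
  have hneg : Tendsto (fun y : ℝ => -y) (𝓝 (-x)) (𝓝 x) := by
    have := (continuous_neg (G := ℝ)).tendsto (-x)
    rwa [neg_neg] at this
  have h := second_deriv_nonpos_right (f := fun y => f (-y)) (f' := fun y => - f' (-y))
    (f'' := f'') (x := -x) ?_ ?_ ?_
  · refine ⟨?_, h.2⟩
    have h1 := h.1
    simp only [neg_neg] at h1
    linarith
  · filter_upwards [hneg.eventually hf] with y hy
    have h1 := HasDerivAt.comp y hy (hasDerivAt_neg y)
    have h2 : f' (-y) * -1 = - f' (-y) := by ring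
    rw [h2] at h1
    exact h1
  · have h1 : HasDerivWithinAt (fun s : ℝ => -s) (-1) (Ici (-x)) (-x) :=
      (hasDerivAt_neg (-x)).hasDerivWithinAt
    have h2 : MapsTo (fun s : ℝ => -s) (Ici (-x)) (Iic x) := by
      intro s hs
      have : -x ≤ s := hs
      simp only [mem_Iic]; linarith
    have hf2 : HasDerivWithinAt f' f'' (Iic x) (-(-x)) := by rwa [neg_neg]
    have h3 := HasDerivWithinAt.comp (-x) hf2 h1 h2
    have h4 := h3.neg
    have h5 : -(f'' * -1) = f'' := by ring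
    rw [h5] at h4
    exact h4
  · have h1 : ∀ᶠ y in 𝓝 (-x), f (-y) ≤ f x := hneg.eventually hmax
    filter_upwards [h1] with y hy
    simpa using hy

/-- second derivative from one of the two sides -/
def HasSide (w' : ℝ → ℝ) (wxx x : ℝ) : Prop :=
  HasDerivWithinAt w' wxx (Ici x) x ∨ HasDerivWithinAt w' wxx (Iic x) x

lemma HasSide.of_hasDerivAt {w' : ℝ → ℝ} {wxx x : ℝ} (h : HasDerivAt w' wxx x) : HasSide w' wxx x :=
  Or.inl h.hasDerivWithinAt

lemma HasSide.sub {f' : ℝ → ℝ} {f'' x : ℝ} (h : HasSide f' f'' x) {g' : ℝ → ℝ} {g'' : ℝ}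
    (hg : HasDerivAt g' g'' x) : HasSide (fun y => f' y - g' y) (f'' - g'') x := by
  rcases h with h | h
  · exact Or.inl (h.sub hg.hasDerivWithinAt)
  · exact Or.inr (h.sub hg.hasDerivWithinAt)

lemma HasSide.nonpos {f f' : ℝ → ℝ} {f'' x : ℝ} (h : HasSide f' f'' x)
    (hf : ∀ᶠ y in 𝓝 x, HasDerivAt f (f' y) y) (hmax : IsLocalMax f x) : f' x = 0 ∧ f'' ≤ 0 := by
  rcases h with h | h
  · exact second_deriv_nonpos_right hf h hmax
  · exact second_deriv_nonpos_left hf h hmax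

/-- Local data for the backward inequality at `(t,x)`, one-sided second derivative. -/
def BackIneq1 (K : Set (ℝ × ℝ)) (w : ℝ → ℝ → ℝ) (A B C t x : ℝ) : Prop :=
  ∃ (wt wxx a b c : ℝ) (w' : ℝ → ℝ),
    (∀ᶠ s in 𝓝[>] t, (s, x) ∈ K) ∧ (∀ᶠ y in 𝓝 x, (t, y) ∈ K) ∧
    HasDerivWithinAt (fun s => w s x) wt (Ici t) t ∧
    (∀ᶠ y in 𝓝 x, HasDerivAt (w t) (w' y) y) ∧ HasSide w' wxx x ∧
    0 ≤ a ∧ a ≤ A * (1 + x ^ 2) ∧ |b| ≤ B * (1 + |x|) ∧ c ≤ C ∧
    0 ≤ wt + a * wxx + b * w' x + c * w t x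

/-- Local data for the forward inequality at `(t,x)`, one-sided second derivative. -/
def ForwIneq1 (K : Set (ℝ × ℝ)) (w : ℝ → ℝ → ℝ) (A B C t x : ℝ) : Prop :=
  ∃ (wt wxx a b c : ℝ) (w' : ℝ → ℝ),
    (∀ᶠ s in 𝓝[<] t, (s, x) ∈ K) ∧ (∀ᶠ y in 𝓝 x, (t, y) ∈ K) ∧
    HasDerivWithinAt (fun s => w s x) wt (Iic t) t ∧
    (∀ᶠ y in 𝓝 x, HasDerivAt (w t) (w' y) y) ∧ HasSide w' wxx x ∧
    0 ≤ a ∧ a ≤ A * (1 + x ^ 2) ∧ |b| ≤ B * (1 + |x|) ∧ c ≤ C ∧
    wt ≤ a * wxx + b * w' x + c * w t x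

/-- the exponential-quadratic barrier is a strict supersolution -/
lemma barrier_neg {A B C a b c x : ℝ} (haA : a ≤ A * (1 + x ^ 2))
    (hbB : |b| ≤ B * (1 + |x|)) (hcC : c ≤ C) :
    -(2 * |A| + 4 * |B| + |C| + 1) * (1 + x ^ 2) + 2 * a + 2 * b * x + c * (1 + x ^ 2) < 0 := by
  have hx2 : |x| + |x| ^ 2 ≤ 2 * (1 + x ^ 2) := by
    rw [← sq_abs x]; nlinarith [sq_nonneg (|x| - 1)]
  have hbx : 2 * b * x ≤ 4 * |B| * (1 + x ^ 2) := by
    have h5 : 2 * b * x ≤ 2 * (|b| * |x|) := by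
      have := le_abs_self (b * x)
      rw [abs_mul] at this
      linarith
    have h6 : |b| ≤ |B| * (1 + |x|) :=
      hbB.trans (mul_le_mul_of_nonneg_right (le_abs_self B) (by positivity))
    have h7 : |b| * |x| ≤ |B| * (1 + |x|) * |x| := mul_le_mul_of_nonneg_right h6 (abs_nonneg _)
    have h8 : |B| * (1 + |x|) * |x| ≤ |B| * (2 * (1 + x ^ 2)) := by
      have : |B| * (1 + |x|) * |x| = |B| * (|x| + |x| ^ 2) := by ring
      rw [this]
      exact mul_le_mul_of_nonneg_left hx2 (abs_nonneg _)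
    linarith
  have haA' : a ≤ |A| * (1 + x ^ 2) :=
    haA.trans (mul_le_mul_of_nonneg_right (le_abs_self A) (by positivity))
  have hcC' : c * (1 + x ^ 2) ≤ |C| * (1 + x ^ 2) :=
    mul_le_mul_of_nonneg_right (hcC.trans (le_abs_self C)) (by positivity)
  have hp : 0 < 1 + x ^ 2 := by positivity
  nlinarith

/-- **Weak maximum principle (backward form), one-sided second derivatives.** -/
theorem backward_max1 {K : Set (ℝ × ℝ)} (hK : IsClosed K) {t0 t1 : ℝ}
    (hKt : ∀ p ∈ K, t0 ≤ p.1 ∧ p.1 ≤ t1) {w : ℝ → ℝ → ℝ}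
    (hw : ContinuousOn (fun p : ℝ × ℝ => w p.1 p.2) K)
    {A B C M : ℝ} (hM : ∀ p ∈ K, w p.1 p.2 ≤ M * (1 + |p.2|))
    (hloc : ∀ t x, (t, x) ∈ K → 0 < w t x → BackIneq1 K w A B C t x) :
    ∀ t x, (t, x) ∈ K → w t x ≤ 0 := by
  set κ : ℝ := 2 * |A| + 4 * |B| + |C| + 1 with hκ
  have hκpos : 0 < κ := by positivity
  set φ : ℝ → ℝ → ℝ := fun t x => Real.exp (κ * (t1 - t)) * (1 + x ^ 2) with hφ
  have hφpos : ∀ t x, 0 < φ t x := fun t x => by simp only [hφ]; positivity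
  have hφge : ∀ p ∈ K, 1 + p.2 ^ 2 ≤ φ p.1 p.2 := by
    intro p hp
    have h1 : 1 ≤ Real.exp (κ * (t1 - p.1)) := by
      apply Real.one_le_exp
      exact mul_nonneg hκpos.le (by linarith [(hKt p hp).2])
    simp only [hφ]
    nlinarith [sq_nonneg p.2]
  have key := max_core (K := K) (w := fun p : ℝ × ℝ => w p.1 p.2)
    (φ := fun p : ℝ × ℝ => φ p.1 p.2) hw (by simp only [hφ]; fun_prop)
    (fun p _ => hφpos _ _) ?_ ?_
  · intro t x h; exact key (t, x) h
  · -- behaviour at infinity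
    intro ε hε
    set R : ℝ := 2 * |M| / ε + 2 with hR
    have hRpos : 0 < R := by positivity
    refine ⟨K ∩ (Icc t0 t1 ×ˢ Icc (-R) R), inter_subset_left,
      (isCompact_Icc.prod isCompact_Icc).inter_left hK, ?_⟩
    intro p hp hpL
    have hRp : R ≤ |p.2| := by
      by_contra h
      push Not at h
      exact hpL ⟨hp, ⟨hKt p hp, ⟨(abs_lt.1 h).1.le, (abs_lt.1 h).2.le⟩⟩⟩
    have h1 : w p.1 p.2 ≤ |M| * (1 + |p.2|) := by
      refine (hM p hp).trans ?_
      exact mul_le_mul_of_nonneg_right (le_abs_self M) (by positivity)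
    have hx : (2:ℝ) ≤ |p.2| := by
      have : 0 ≤ 2 * |M| / ε := by positivity
      linarith
    have h3 : 2 * |M| ≤ ε * (|p.2| - 2) := by
      have h4 : 2 * |M| / ε ≤ |p.2| - 2 := by linarith
      have := (div_le_iff₀ hε).1 h4
      linarith
    have h5 : p.2 ^ 2 = |p.2| ^ 2 := (sq_abs _).symm
    have h6 : |M| * (1 + |p.2|) ≤ |M| * (2 * |p.2|) :=
      mul_le_mul_of_nonneg_left (by linarith) (abs_nonneg _)
    have h7 : |M| * (2 * |p.2|) ≤ ε * (|p.2| - 2) * |p.2| := by nlinarith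
    have h8 : w p.1 p.2 ≤ ε * (1 + p.2 ^ 2) := by rw [h5]; nlinarith
    exact h8.trans (mul_le_mul_of_nonneg_left (hφge p hp) hε.le)
  · -- touching
    rintro ⟨t, x⟩ hpK S hSpos hall heq
    simp only at hpK hall heq
    have hwpos : 0 < w t x := by rw [heq]; exact mul_pos hSpos (hφpos _ _)
    obtain ⟨wt, wxx, a, b, c, w', hKs, hKy, hwt, hwx, hwxx, ha0, haA, hbB, hcC, hpde⟩ :=
      hloc t x hpK hwpos
    have hwle : ∀ s y, (s, y) ∈ K → w s y - S * φ s y ≤ 0 := by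
      intro s y hsy
      have := hall (s, y) hsy
      simp only at this
      linarith
    have hweq : w t x - S * φ t x = 0 := by linarith
    have hφt : HasDerivAt (fun s => φ s x) (-κ * φ t x) t := by
      have h1 : HasDerivAt (fun s : ℝ => κ * (t1 - s)) (-κ) t := by
        have := ((hasDerivAt_const t t1).sub (hasDerivAt_id t)).const_mul κ
        simpa using this
      have h2 := h1.exp.mul_const (1 + x ^ 2)
      have h3 : HasDerivAt (fun s => φ s x) (Real.exp (κ * (t1 - t)) * -κ * (1 + x ^ 2)) t := h2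
      convert h3 using 1
      simp only [hφ]; ring
    have hgt : HasDerivWithinAt (fun s => w s x - S * φ s x) (wt - S * (-κ * φ t x)) (Ici t) t :=
      hwt.sub ((hφt.const_mul S).hasDerivWithinAt)
    have h1 : wt - S * (-κ * φ t x) ≤ 0 := by
      apply deriv_right_nonpos hgt
      filter_upwards [hKs] with s hs
      rw [hweq]; exact hwle s x hs
    set e : ℝ := Real.exp (κ * (t1 - t)) with he
    have hepos : 0 < e := Real.exp_pos _
    have hφx : ∀ y, HasDerivAt (fun y => φ t y) (e * (2 * y)) y := by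
      intro y
      have h1 : HasDerivAt (fun y : ℝ => 1 + y ^ 2) (2 * y) y := by
        have := (hasDerivAt_pow 2 y).const_add 1
        simpa using this
      exact h1.const_mul e
    have hφxx : HasDerivAt (fun y : ℝ => e * (2 * y)) (e * 2) x := by
      have := ((hasDerivAt_id x).const_mul 2).const_mul e
      simpa using this
    have hmaxx : IsLocalMax (fun y => w t y - S * φ t y) x := by
      filter_upwards [hKy] with y hy
      rw [hweq]; exact hwle t y hy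
    have h2 := (hwxx.sub (hφxx.const_mul S)).nonpos (f := fun y => w t y - S * φ t y)
      (by
        filter_upwards [hwx] with y hy
        exact hy.sub ((hφx y).const_mul S)) hmaxx
    obtain ⟨h2a, h2b⟩ := h2
    have hφe : φ t x = e * (1 + x ^ 2) := rfl
    have h9 : -κ * (1 + x ^ 2) + 2 * a + 2 * b * x + c * (1 + x ^ 2) < 0 :=
      barrier_neg haA hbB hcC
    have h10 : a * (wxx - S * (e * 2)) ≤ 0 := mul_nonpos_of_nonneg_of_nonpos ha0 h2b
    have h11 : w' x = S * (e * (2 * x)) := by linarith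
    have h12 : w t x = S * (e * (1 + x ^ 2)) := by rw [← hφe]; linarith
    rw [h11, h12] at hpde
    rw [hφe] at h1
    have h13 : 0 ≤ S * e * (-κ * (1 + x ^ 2) + 2 * a + 2 * b * x + c * (1 + x ^ 2)) := by
      nlinarith
    have h14 : S * e * (-κ * (1 + x ^ 2) + 2 * a + 2 * b * x + c * (1 + x ^ 2)) < 0 :=
      mul_neg_of_pos_of_neg (mul_pos hSpos hepos) h9
    linarith

/-- **Weak maximum principle (forward form), one-sided second derivatives.** -/
theorem forward_max1 {K : Set (ℝ × ℝ)} (hK : IsClosed K) {t0 t1 : ℝ}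
    (hKt : ∀ p ∈ K, t0 ≤ p.1 ∧ p.1 ≤ t1) {w : ℝ → ℝ → ℝ}
    (hw : ContinuousOn (fun p : ℝ × ℝ => w p.1 p.2) K)
    {A B C M : ℝ} (hM : ∀ p ∈ K, w p.1 p.2 ≤ M * (1 + |p.2|))
    (hloc : ∀ t x, (t, x) ∈ K → 0 < w t x → ForwIneq1 K w A B C t x) :
    ∀ t x, (t, x) ∈ K → w t x ≤ 0 := by
  set K2 : Set (ℝ × ℝ) := (fun p : ℝ × ℝ => (-p.1, p.2)) ⁻¹' K with hK2
  have hcm : Continuous (fun p : ℝ × ℝ => ((-p.1, p.2) : ℝ × ℝ)) := by fun_prop
  have key := backward_max1 (K := K2) (hK.preimage hcm) (t0 := -t1) (t1 := -t0)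
    (fun p hp => ⟨by linarith [(hKt _ hp).2], by linarith [(hKt _ hp).1]⟩)
    (w := fun t x => w (-t) x) (A := A) (B := B) (C := C) (M := M)
    (by
      have h := hw.comp hcm.continuousOn (s := K2) (fun p hp => hp)
      exact h)
    (fun p hp => hM _ hp)
    (by
      intro t x htx hpos
      obtain ⟨wt, wxx, a, b, c, w', hKs, hKy, hwt, hwx, hwxx, ha0, haA, hbB, hcC, hpde⟩ :=
        hloc (-t) x htx hpos
      refine ⟨-wt, wxx, a, b, c, w', ?_, hKy, ?_, hwx, hwxx, ha0, haA, hbB, hcC, by linarith⟩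
      · have hneg : Tendsto (fun s : ℝ => -s) (𝓝[>] t) (𝓝[<] (-t)) := by
          apply tendsto_nhdsWithin_of_tendsto_nhds_of_eventually_within
          · exact (continuous_neg.tendsto t).mono_left nhdsWithin_le_nhds
          · filter_upwards [self_mem_nhdsWithin] with s hs
            have : t < s := hs
            simpa using this
        exact hneg.eventually hKs
      · have h1 : HasDerivWithinAt (fun s : ℝ => -s) (-1) (Ici t) t :=
          (hasDerivAt_neg t).hasDerivWithinAt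
        have h2 : MapsTo (fun s : ℝ => -s) (Ici t) (Iic (-t)) := by
          intro s hs
          have : t ≤ s := hs
          simpa using this
        have h3 := HasDerivWithinAt.scomp (x := t) (h := fun s : ℝ => -s) (h' := -1)
          (g₁ := fun s => w s x) (g₁' := wt) (t' := Iic (-t)) (s := Ici t)
          hwt h1 h2
        have h4 : (-1 : ℝ) • wt = -wt := by simp
        rw [h4] at h3
        exact h3)
  intro t x htx
  have := key (-t) x (by simpa [hK2] using htx)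
  simpa using this

end Crest.Agent.R146.MaxP2_371
end

-- ▼ part R146/MaxPCmp_371
section

/-!
Comparison lemmas for the tip system of row 146 (helper371), in `x`-space, one-sided time derivatives.

Notation: `u ≥ 0`, `V = 1 + u_x ∈ (0,1)`, `P = V_x = u_xx ≥ 0`, `R = 1 - V`, `b ≥ 0`.
  `u_t = -(P/2 + b u V)`, `V_t = -(P_x/2 + b u P) + b V (1-V)`, `P_t = -(P_xx/2 + b u P_x) + b (2-3V) P`.
-/

set_option autoImplicit false

open Set Filter Topology

namespace Crest.Agent.R146.MaxPCmp_371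

open MaxP_371 MaxP2_371

/-- the strip `[t0,t1] × ℝ` -/
abbrev strip (t0 t1 : ℝ) : Set (ℝ × ℝ) := Icc t0 t1 ×ˢ (univ : Set ℝ)

lemma strip_closed (t0 t1 : ℝ) : IsClosed (strip t0 t1) := isClosed_Icc.prod isClosed_univ

lemma strip_time {t0 t1 : ℝ} (p : ℝ × ℝ) (hp : p ∈ strip t0 t1) : t0 ≤ p.1 ∧ p.1 ≤ t1 := hp.1

lemma strip_ev_right {t0 t1 t : ℝ} (ht : t ∈ Ico t0 t1) (x : ℝ) :
    ∀ᶠ s in 𝓝[>] t, (s, x) ∈ strip t0 t1 := by
  have h1 : ∀ᶠ s in 𝓝[>] t, s < t1 := by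
    exact (eventually_lt_nhds ht.2).filter_mono nhdsWithin_le_nhds
  filter_upwards [h1, self_mem_nhdsWithin] with s hs hst
  exact ⟨⟨ht.1.trans (le_of_lt hst), hs.le⟩, mem_univ _⟩

lemma strip_ev_left {t0 t1 t : ℝ} (ht : t ∈ Ioc t0 t1) (x : ℝ) :
    ∀ᶠ s in 𝓝[<] t, (s, x) ∈ strip t0 t1 := by
  have h1 : ∀ᶠ s in 𝓝[<] t, t0 < s := by
    exact (eventually_gt_nhds ht.1).filter_mono nhdsWithin_le_nhds
  filter_upwards [h1, self_mem_nhdsWithin] with s hs hst
  exact ⟨⟨hs.le, (le_of_lt hst).trans ht.2⟩, mem_univ _⟩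

lemma strip_ev_x {t0 t1 t : ℝ} (ht : t ∈ Icc t0 t1) (x : ℝ) :
    ∀ᶠ y in 𝓝 x, (t, y) ∈ strip t0 t1 :=
  Eventually.of_forall fun y => ⟨ht, mem_univ y⟩

/-- **Strip version, backward.** -/
theorem backward_strip {t0 t1 : ℝ} {w : ℝ → ℝ → ℝ}
    (hw : ContinuousOn (fun p : ℝ × ℝ => w p.1 p.2) (strip t0 t1))
    {A B C M : ℝ} (hM : ∀ t ∈ Icc t0 t1, ∀ x, w t x ≤ M * (1 + |x|))
    (hterm : ∀ x, w t1 x ≤ 0)
    (hloc : ∀ t ∈ Ico t0 t1, ∀ x, 0 < w t x → ∃ (wt wxx a b c : ℝ) (w' : ℝ → ℝ),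
      HasDerivWithinAt (fun s => w s x) wt (Ici t) t ∧
      (∀ᶠ y in 𝓝 x, HasDerivAt (w t) (w' y) y) ∧ HasSide w' wxx x ∧
      0 ≤ a ∧ a ≤ A * (1 + x ^ 2) ∧ |b| ≤ B * (1 + |x|) ∧ c ≤ C ∧
      0 ≤ wt + a * wxx + b * w' x + c * w t x) :
    ∀ t ∈ Icc t0 t1, ∀ x, w t x ≤ 0 := by
  intro t ht x
  refine backward_max1 (strip_closed t0 t1) strip_time hw (A := A) (B := B) (C := C) (M := M)
    (fun p hp => hM p.1 hp.1 p.2) ?_ t x ⟨ht, mem_univ _⟩
  intro t x htx hpos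
  have htI : t ∈ Icc t0 t1 := htx.1
  have htlt : t < t1 := by
    rcases lt_or_eq_of_le htI.2 with h | h
    · exact h
    · exfalso; rw [h] at hpos; exact absurd (hterm x) (not_le.2 hpos)
  obtain ⟨wt, wxx, a, b, c, w', h1, h2, h3, h4, h5, h6, h7, h8⟩ := hloc t ⟨htI.1, htlt⟩ x hpos
  exact ⟨wt, wxx, a, b, c, w', strip_ev_right ⟨htI.1, htlt⟩ x, strip_ev_x htI x,
    h1, h2, h3, h4, h5, h6, h7, h8⟩

/-- **Strip version, forward.** -/
theorem forward_strip {t0 t1 : ℝ} {w : ℝ → ℝ → ℝ}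
    (hw : ContinuousOn (fun p : ℝ × ℝ => w p.1 p.2) (strip t0 t1))
    {A B C M : ℝ} (hM : ∀ t ∈ Icc t0 t1, ∀ x, w t x ≤ M * (1 + |x|))
    (hinit : ∀ x, w t0 x ≤ 0)
    (hloc : ∀ t ∈ Ioc t0 t1, ∀ x, 0 < w t x → ∃ (wt wxx a b c : ℝ) (w' : ℝ → ℝ),
      HasDerivWithinAt (fun s => w s x) wt (Iic t) t ∧
      (∀ᶠ y in 𝓝 x, HasDerivAt (w t) (w' y) y) ∧ HasSide w' wxx x ∧
      0 ≤ a ∧ a ≤ A * (1 + x ^ 2) ∧ |b| ≤ B * (1 + |x|) ∧ c ≤ C ∧
      wt ≤ a * wxx + b * w' x + c * w t x) :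
    ∀ t ∈ Icc t0 t1, ∀ x, w t x ≤ 0 := by
  intro t ht x
  refine forward_max1 (strip_closed t0 t1) strip_time hw (A := A) (B := B) (C := C) (M := M)
    (fun p hp => hM p.1 hp.1 p.2) ?_ t x ⟨ht, mem_univ _⟩
  intro t x htx hpos
  have htI : t ∈ Icc t0 t1 := htx.1
  have htlt : t0 < t := by
    rcases lt_or_eq_of_le htI.1 with h | h
    · exact h
    · exfalso; rw [← h] at hpos; exact absurd (hinit x) (not_le.2 hpos)
  obtain ⟨wt, wxx, a, b, c, w', h1, h2, h3, h4, h5, h6, h7, h8⟩ := hloc t ⟨htlt, htI.2⟩ x hpos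
  exact ⟨wt, wxx, a, b, c, w', strip_ev_left ⟨htlt, htI.2⟩ x, strip_ev_x htI x,
    h1, h2, h3, h4, h5, h6, h7, h8⟩

/-- The backward tip system on `[t0,t1]` (classical on `[t0,t1)`, continuous on `[t0,t1]`). -/
structure BSys (t0 t1 : ℝ) (b : ℝ → ℝ) (u V P Px Pxx : ℝ → ℝ → ℝ) (M : ℝ) : Prop where
  hux : ∀ t ∈ Ico t0 t1, ∀ x, HasDerivAt (u t) (V t x - 1) x
  hVx : ∀ t ∈ Ico t0 t1, ∀ x, HasDerivAt (V t) (P t x) x
  hPx : ∀ t ∈ Ico t0 t1, ∀ x, HasDerivAt (P t) (Px t x) x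
  hPxx : ∀ t ∈ Ico t0 t1, ∀ x, HasDerivAt (Px t) (Pxx t x) x
  hut : ∀ t ∈ Ico t0 t1, ∀ x,
    HasDerivWithinAt (fun s => u s x) (-(P t x / 2 + b t * u t x * V t x)) (Ici t) t
  hVt : ∀ t ∈ Ico t0 t1, ∀ x,
    HasDerivWithinAt (fun s => V s x)
      (-(Px t x / 2 + b t * u t x * P t x) + b t * V t x * (1 - V t x)) (Ici t) t
  hPt : ∀ t ∈ Ico t0 t1, ∀ x,
    HasDerivWithinAt (fun s => P s x)
      (-(Pxx t x / 2 + b t * u t x * Px t x) + b t * (2 - 3 * V t x) * P t x) (Ici t) t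
  cu : ContinuousOn (fun p : ℝ × ℝ => u p.1 p.2) (strip t0 t1)
  cV : ContinuousOn (fun p : ℝ × ℝ => V p.1 p.2) (strip t0 t1)
  cP : ContinuousOn (fun p : ℝ × ℝ => P p.1 p.2) (strip t0 t1)
  b_nonneg : ∀ t ∈ Icc t0 t1, 0 ≤ b t
  b_le : ∀ t ∈ Icc t0 t1, b t ≤ M
  V_pos : ∀ t ∈ Icc t0 t1, ∀ x, 0 < V t x
  V_lt : ∀ t ∈ Icc t0 t1, ∀ x, V t x < 1
  u_nonneg : ∀ t ∈ Icc t0 t1, ∀ x, 0 ≤ u t x
  u_le : ∀ t ∈ Icc t0 t1, ∀ x, u t x ≤ M * (1 + |x|)
  P_nonneg : ∀ t ∈ Icc t0 t1, ∀ x, 0 ≤ P t x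
  P_le : ∀ t ∈ Icc t0 t1, ∀ x, P t x ≤ M

namespace BSys

variable {t0 t1 : ℝ} {b : ℝ → ℝ} {u V P Px Pxx : ℝ → ℝ → ℝ} {M : ℝ}

lemma drift_le (h : BSys t0 t1 b u V P Px Pxx M) {t : ℝ} (ht : t ∈ Icc t0 t1) (x : ℝ) :
    |b t * u t x| ≤ M * M * (1 + |x|) := by
  have h1 := h.b_nonneg t ht
  have h2 := h.b_le t ht
  have h3 := h.u_nonneg t ht x
  have h4 := h.u_le t ht x
  rw [abs_of_nonneg (mul_nonneg h1 h3), mul_assoc]
  exact mul_le_mul h2 h4 h3 (h1.trans h2)

lemma mono (h : BSys t0 t1 b u V P Px Pxx M) {t : ℝ} (ht : t ∈ Ico t0 t1) : Monotone (V t) := by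
  apply monotone_of_deriv_nonneg
  · intro x; exact (h.hVx t ht x).differentiableAt
  · intro x; rw [(h.hVx t ht x).deriv]; exact h.P_nonneg t ⟨ht.1, ht.2.le⟩ x


/-- derivative data for `P - g K(V)` -/
lemma slope_data (h : BSys t0 t1 b u V P Px Pxx M) {t : ℝ} (ht : t ∈ Ico t0 t1) (x : ℝ)
    {g : ℝ → ℝ} {g' : ℝ} (hg : HasDerivWithinAt g g' (Ici t) t)
    {K K' : ℝ → ℝ} {K'' : ℝ} (hK : ∀ v ∈ Ioo (0:ℝ) 1, HasDerivAt K (K' v) v)
    (hK' : HasSide K' K'' (V t x)) :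
    HasDerivWithinAt (fun s => P s x - g s * K (V s x))
      ((-(Pxx t x / 2 + b t * u t x * Px t x) + b t * (2 - 3 * V t x) * P t x) -
        (g' * K (V t x) + g t * (K' (V t x) *
          (-(Px t x / 2 + b t * u t x * P t x) + b t * V t x * (1 - V t x))))) (Ici t) t ∧
    (∀ᶠ y in 𝓝 x, HasDerivAt (fun y => P t y - g t * K (V t y))
      (Px t y - g t * (K' (V t y) * P t y)) y) ∧
    HasSide (fun y => Px t y - g t * (K' (V t y) * P t y))
      (Pxx t x - g t * (K'' * P t x * P t x + K' (V t x) * Px t x)) x := by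
  have htI : t ∈ Icc t0 t1 := ⟨ht.1, ht.2.le⟩
  have hVI : ∀ y, V t y ∈ Ioo (0:ℝ) 1 := fun y => ⟨h.V_pos t htI y, h.V_lt t htI y⟩
  refine ⟨?_, ?_, ?_⟩
  · have h1 : HasDerivWithinAt (fun s => K (V s x))
        (K' (V t x) * (-(Px t x / 2 + b t * u t x * P t x) + b t * V t x * (1 - V t x)))
        (Ici t) t := (hK _ (hVI x)).comp_hasDerivWithinAt t (h.hVt t ht x)
    exact (h.hPt t ht x).sub (hg.mul h1)
  · refine Eventually.of_forall fun y => ?_
    have h1 : HasDerivAt (fun y => K (V t y)) (K' (V t y) * P t y) y :=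
      (hK _ (hVI y)).comp y (h.hVx t ht y)
    exact (h.hPx t ht y).sub (h1.const_mul (g t))
  · rcases hK' with hK' | hK'
    · left
      have hmaps : MapsTo (V t) (Ici x) (Ici (V t x)) := fun y hy => h.mono ht hy
      have h1 : HasDerivWithinAt (fun y => K' (V t y)) (K'' * P t x) (Ici x) x :=
        hK'.comp x (h.hVx t ht x).hasDerivWithinAt hmaps
      have h2 := h1.mul (h.hPx t ht x).hasDerivWithinAt
      exact (h.hPxx t ht x).hasDerivWithinAt.sub (h2.const_mul (g t))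
    · right
      have hmaps : MapsTo (V t) (Iic x) (Iic (V t x)) := fun y hy => h.mono ht hy
      have h1 : HasDerivWithinAt (fun y => K' (V t y)) (K'' * P t x) (Iic x) x :=
        hK'.comp x (h.hVx t ht x).hasDerivWithinAt hmaps
      have h2 := h1.mul (h.hPx t ht x).hasDerivWithinAt
      exact (h.hPxx t ht x).hasDerivWithinAt.sub (h2.const_mul (g t))

/-- **Slope comparison, upper barrier** (P-function, no inversion): `V_x ≤ g(t) K(V)`. -/
theorem slope_le (h : BSys t0 t1 b u V P Px Pxx M)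
    {g g' : ℝ → ℝ} (hg : ∀ t ∈ Ico t0 t1, HasDerivWithinAt g (g' t) (Ici t) t)
    (hgc : ContinuousOn g (Icc t0 t1)) (hg0 : ∀ t ∈ Icc t0 t1, 0 ≤ g t)
    {K K' K'' : ℝ → ℝ} (hKc : ContinuousOn K (Ioo 0 1)) (hK0 : ∀ v ∈ Ioo (0:ℝ) 1, 0 ≤ K v)
    (hK : ∀ v ∈ Ioo (0:ℝ) 1, HasDerivAt K (K' v) v)
    (hK' : ∀ v ∈ Ioo (0:ℝ) 1, HasSide K' (K'' v) v)
    (hconc : ∀ v ∈ Ioo (0:ℝ) 1, K'' v ≤ 0)
    (hineq : ∀ t ∈ Ico t0 t1, ∀ v ∈ Ioo (0:ℝ) 1,
      g' t * K v + g t ^ 3 * (K v ^ 2 * K'' v) / 2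
        + b t * g t * (v * (1 - v) * K' v - (2 - 3 * v) * K v) ≤ 0)
    (hterm : ∀ x, P t1 x ≤ g t1 * K (V t1 x)) :
    ∀ t ∈ Icc t0 t1, ∀ x, P t x ≤ g t * K (V t x) := by
  have hVI : ∀ t ∈ Icc t0 t1, ∀ y, V t y ∈ Ioo (0:ℝ) 1 :=
    fun t ht y => ⟨h.V_pos t ht y, h.V_lt t ht y⟩
  have key := backward_strip (t0 := t0) (t1 := t1) (w := fun t x => P t x - g t * K (V t x))
    ?_ (A := 1) (B := M * M) (C := M) (M := M) ?_ ?_ ?_
  · intro t ht x
    have := key t ht x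
    linarith
  · refine h.cP.sub (ContinuousOn.mul ?_ ?_)
    · exact hgc.comp continuous_fst.continuousOn (fun p hp => hp.1)
    · exact hKc.comp h.cV (fun p hp => hVI p.1 hp.1 p.2)
  · intro t ht x
    have h1 := h.P_le t ht x
    have h2 : 0 ≤ g t * K (V t x) := mul_nonneg (hg0 t ht) (hK0 _ (hVI t ht x))
    have h3 := h.P_nonneg t ht x
    have h4 : 0 ≤ |x| := abs_nonneg x
    have h5 : 0 ≤ M := h3.trans h1
    nlinarith
  · intro x; have := hterm x; linarith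
  · intro t ht x hpos
    have htI : t ∈ Icc t0 t1 := ⟨ht.1, ht.2.le⟩
    set v := V t x with hv
    have hvI : v ∈ Ioo (0:ℝ) 1 := hVI t htI x
    obtain ⟨d1, d2, d3⟩ := h.slope_data ht x (hg t ht) hK (hK' v hvI)
    refine ⟨_, _, 1/2, b t * u t x,
      g t * K'' v * (P t x + g t * K v) / 2 - b t * (2 - 3 * v), _, d1, d2, d3, by norm_num, ?_,
      h.drift_le htI x, ?_, ?_⟩
    · nlinarith [sq_nonneg x]
    · have h1 := h.b_nonneg t htI
      have h5 := h.b_le t htI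
      have h6 : 0 ≤ P t x + g t * K v :=
        add_nonneg (h.P_nonneg t htI x) (mul_nonneg (hg0 t htI) (hK0 v hvI))
      have h7 : g t * K'' v * (P t x + g t * K v) ≤ 0 :=
        mul_nonpos_of_nonpos_of_nonneg
          (mul_nonpos_of_nonneg_of_nonpos (hg0 t htI) (hconc v hvI)) h6
      have h8 : -(b t * (2 - 3 * v)) ≤ b t := by nlinarith [hvI.1, hvI.2]
      linarith
    · have h9 := hineq t ht v hvI
      simp only [← hv]
      nlinarith


end BSys

end Crest.Agent.R146.MaxPCmp_371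
end

-- ▼ part R146/MaxPCmp2_371

/-!
Sub/supersolution comparison for `u`, `V` (backward) and `Y = -(log p)_x` (forward) in `x`-space (row 146, helper371).
The barrier `S` has one-sided time derivative, and is `C¹` with a one-sided second derivative in `x`.
-/

set_option autoImplicit false

open Set Filter Topology

namespace Crest.Agent.R146.MaxPCmp2_371

open MaxP_371 MaxP2_371 MaxPCmp_371

lemma HasSide.neg {f' : ℝ → ℝ} {f'' x : ℝ} (h : HasSide f' f'' x) : HasSide (fun y => -f' y) (-f'') x := by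
  rcases h with h | h
  · exact Or.inl h.neg
  · exact Or.inr h.neg

lemma HasSide.sub_of {f' : ℝ → ℝ} {f'' x : ℝ} (h : HasDerivAt f' f'' x) {g' : ℝ → ℝ} {g'' : ℝ}
    (hg : HasSide g' g'' x) : HasSide (fun y => f' y - g' y) (f'' - g'') x := by
  rcases hg with hg | hg
  · exact Or.inl (h.hasDerivWithinAt.sub hg)
  · exact Or.inr (h.hasDerivWithinAt.sub hg)

/-- A backward barrier on the strip: right time derivative `St`, `C¹` in `x`, one-sided second derivative. -/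
structure Bar (t0 t1 : ℝ) (S St Sx Sxx : ℝ → ℝ → ℝ) : Prop where
  cS : ContinuousOn (fun p : ℝ × ℝ => S p.1 p.2) (strip t0 t1)
  hSt : ∀ t ∈ Ico t0 t1, ∀ x, HasDerivWithinAt (fun s => S s x) (St t x) (Ici t) t
  hSx : ∀ t ∈ Ico t0 t1, ∀ x, HasDerivAt (S t) (Sx t x) x
  hSxx : ∀ t ∈ Ico t0 t1, ∀ x, HasSide (Sx t) (Sxx t x) x

/-- A forward barrier on the strip: left time derivative. -/
structure FBar (t0 t1 : ℝ) (S St Sx Sxx : ℝ → ℝ → ℝ) : Prop where
  cS : ContinuousOn (fun p : ℝ × ℝ => S p.1 p.2) (strip t0 t1)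
  hSt : ∀ t ∈ Ioc t0 t1, ∀ x, HasDerivWithinAt (fun s => S s x) (St t x) (Iic t) t
  hSx : ∀ t ∈ Ioc t0 t1, ∀ x, HasDerivAt (S t) (Sx t x) x
  hSxx : ∀ t ∈ Ioc t0 t1, ∀ x, HasSide (Sx t) (Sxx t x) x

section back

variable {t0 t1 : ℝ} {b : ℝ → ℝ} {u V P Px Pxx : ℝ → ℝ → ℝ} {M : ℝ}
  {S St Sx Sxx : ℝ → ℝ → ℝ} {L : ℝ}

/-- upper barrier for `u`: `S_t + S_xx/2 + b S (1+S_x) ≤ 0`. -/
theorem u_le_bar (h : BSys t0 t1 b u V P Px Pxx M) (hS : Bar t0 t1 S St Sx Sxx)
    (hS0 : ∀ t ∈ Icc t0 t1, ∀ x, |S t x| ≤ L * (1 + |x|))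
    (hineq : ∀ t ∈ Ico t0 t1, ∀ x,
      St t x + Sxx t x / 2 + b t * S t x * (1 + Sx t x) ≤ 0)
    (hterm : ∀ x, u t1 x ≤ S t1 x) :
    ∀ t ∈ Icc t0 t1, ∀ x, u t x ≤ S t x := by
  have key := backward_strip (t0 := t0) (t1 := t1) (w := fun t x => u t x - S t x)
    (h.cu.sub hS.cS) (A := 1) (B := M * L) (C := M) (M := M + L) ?_ ?_ ?_
  · intro t ht x
    have := key t ht x
    linarith
  · intro t ht x
    have h3 := h.u_le t ht x
    have h4 := (abs_le.1 (hS0 t ht x)).1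
    nlinarith
  · intro x; have := hterm x; linarith
  · intro t ht x hpos
    have htI : t ∈ Icc t0 t1 := ⟨ht.1, ht.2.le⟩
    have h1 := h.b_nonneg t htI
    have h5 := h.b_le t htI
    have h6 := h.V_pos t htI x
    have h7 := h.V_lt t htI x
    refine ⟨_, P t x - Sxx t x, 1/2, b t * S t x, b t * V t x,
      fun y => (V t y - 1) - Sx t y, (h.hut t ht x).sub (hS.hSt t ht x),
      Eventually.of_forall fun y => (h.hux t ht y).sub (hS.hSx t ht y), ?_, by norm_num, ?_, ?_, ?_, ?_⟩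
    · exact HasSide.sub_of ((h.hVx t ht x).sub_const 1) (hS.hSxx t ht x)
    · nlinarith [sq_nonneg x]
    · rw [abs_mul, abs_of_nonneg h1, mul_assoc]
      exact mul_le_mul h5 (hS0 t htI x) (abs_nonneg _) (h1.trans h5)
    · nlinarith
    · have h9 := hineq t ht x
      nlinarith

/-- lower barrier for `u`: `S_t + S_xx/2 + b S (1+S_x) ≥ 0`. -/
theorem bar_le_u (h : BSys t0 t1 b u V P Px Pxx M) (hS : Bar t0 t1 S St Sx Sxx)
    (hS0 : ∀ t ∈ Icc t0 t1, ∀ x, |S t x| ≤ L * (1 + |x|))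
    (hineq : ∀ t ∈ Ico t0 t1, ∀ x,
      0 ≤ St t x + Sxx t x / 2 + b t * S t x * (1 + Sx t x))
    (hterm : ∀ x, S t1 x ≤ u t1 x) :
    ∀ t ∈ Icc t0 t1, ∀ x, S t x ≤ u t x := by
  have key := backward_strip (t0 := t0) (t1 := t1) (w := fun t x => -(u t x - S t x))
    (h.cu.sub hS.cS).neg (A := 1) (B := M * L) (C := M) (M := L) ?_ ?_ ?_
  · intro t ht x
    have := key t ht x
    linarith
  · intro t ht x
    have h3 := h.u_nonneg t ht x
    have h4 := (abs_le.1 (hS0 t ht x)).2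
    linarith
  · intro x; have := hterm x; linarith
  · intro t ht x hpos
    have htI : t ∈ Icc t0 t1 := ⟨ht.1, ht.2.le⟩
    have h1 := h.b_nonneg t htI
    have h5 := h.b_le t htI
    have h6 := h.V_pos t htI x
    have h7 := h.V_lt t htI x
    refine ⟨_, -(P t x - Sxx t x), 1/2, b t * S t x, b t * V t x,
      fun y => -((V t y - 1) - Sx t y), ((h.hut t ht x).sub (hS.hSt t ht x)).neg,
      Eventually.of_forall fun y => ((h.hux t ht y).sub (hS.hSx t ht y)).neg, ?_, by norm_num,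
      ?_, ?_, ?_, ?_⟩
    · exact HasSide.neg (HasSide.sub_of ((h.hVx t ht x).sub_const 1) (hS.hSxx t ht x))
    · nlinarith [sq_nonneg x]
    · rw [abs_mul, abs_of_nonneg h1, mul_assoc]
      exact mul_le_mul h5 (hS0 t htI x) (abs_nonneg _) (h1.trans h5)
    · nlinarith
    · have h9 := hineq t ht x
      nlinarith



end back

/-- The forward equation of `Y = -(log p)_x`: `Y_t = Y_xx/2 - (Y + b u) Y_x + b R Y + b P`, `R = 1 - V`. -/
structure YSys (t0 t1 : ℝ) (b : ℝ → ℝ) (u V P Y Yx Yxx : ℝ → ℝ → ℝ) (M : ℝ) : Prop where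
  cY : ContinuousOn (fun p : ℝ × ℝ => Y p.1 p.2) (strip t0 t1)
  hYt : ∀ t ∈ Ioc t0 t1, ∀ x, HasDerivWithinAt (fun s => Y s x)
    (Yxx t x / 2 - (Y t x + b t * u t x) * Yx t x + b t * (1 - V t x) * Y t x + b t * P t x) (Iic t) t
  hYx : ∀ t ∈ Ioc t0 t1, ∀ x, HasDerivAt (Y t) (Yx t x) x
  hYxx : ∀ t ∈ Ioc t0 t1, ∀ x, HasDerivAt (Yx t) (Yxx t x) x
  b_nonneg : ∀ t ∈ Icc t0 t1, 0 ≤ b t
  b_le : ∀ t ∈ Icc t0 t1, b t ≤ M
  V_pos : ∀ t ∈ Icc t0 t1, ∀ x, 0 ≤ V t x
  drift : ∀ t ∈ Icc t0 t1, ∀ x, |Y t x + b t * u t x| ≤ M * (1 + |x|)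
  Y_le : ∀ t ∈ Icc t0 t1, ∀ x, |Y t x| ≤ M * (1 + |x|)

section forw

variable {t0 t1 : ℝ} {b : ℝ → ℝ} {u V P Y Yx Yxx : ℝ → ℝ → ℝ} {M : ℝ}
  {S St Sx Sxx : ℝ → ℝ → ℝ} {L : ℝ}

/-- upper barrier for `Y`: `S_t ≥ S_xx/2 - (S+bu) S_x + b R S + b P`. -/
theorem Y_le_bar (h : YSys t0 t1 b u V P Y Yx Yxx M) (hS : FBar t0 t1 S St Sx Sxx)
    (hS0 : ∀ t ∈ Icc t0 t1, ∀ x, -(L * (1 + |x|)) ≤ S t x)
    (hSx : ∀ t ∈ Ioc t0 t1, ∀ x, -L ≤ Sx t x)
    (hineq : ∀ t ∈ Ioc t0 t1, ∀ x,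
      Sxx t x / 2 - (S t x + b t * u t x) * Sx t x + b t * (1 - V t x) * S t x + b t * P t x ≤ St t x)
    (hinit : ∀ x, Y t0 x ≤ S t0 x) :
    ∀ t ∈ Icc t0 t1, ∀ x, Y t x ≤ S t x := by
  have key := forward_strip (t0 := t0) (t1 := t1) (w := fun t x => Y t x - S t x)
    (h.cY.sub hS.cS) (A := 1) (B := M) (C := M + L) (M := M + L) ?_ ?_ ?_
  · intro t ht x
    have := key t ht x
    linarith
  · intro t ht x
    have h3 := (abs_le.1 (h.Y_le t ht x)).2
    have h4 := hS0 t ht x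
    nlinarith
  · intro x; have := hinit x; linarith
  · intro t ht x hpos
    have htI : t ∈ Icc t0 t1 := ⟨ht.1.le, ht.2⟩
    have h1 := h.b_nonneg t htI
    have h5 := h.b_le t htI
    have h6 := h.V_pos t htI x
    have h7 := hSx t ht x
    refine ⟨_, Yxx t x - Sxx t x, 1/2, -(Y t x + b t * u t x), b t * (1 - V t x) - Sx t x,
      fun y => Yx t y - Sx t y, (h.hYt t ht x).sub (hS.hSt t ht x),
      Eventually.of_forall fun y => (h.hYx t ht y).sub (hS.hSx t ht y), ?_, by norm_num, ?_,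
      ?_, ?_, ?_⟩
    · exact HasSide.sub_of (h.hYxx t ht x) (hS.hSxx t ht x)
    · nlinarith [sq_nonneg x]
    · rw [abs_neg]; exact h.drift t htI x
    · have h8 : b t * (1 - V t x) ≤ b t := by nlinarith
      linarith
    · have h9 := hineq t ht x
      nlinarith

/-- lower barrier for `Y`: `S_t ≤ S_xx/2 - (S+bu) S_x + b R S + b P`. -/
theorem bar_le_Y (h : YSys t0 t1 b u V P Y Yx Yxx M) (hS : FBar t0 t1 S St Sx Sxx)
    (hS0 : ∀ t ∈ Icc t0 t1, ∀ x, S t x ≤ L * (1 + |x|))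
    (hSx : ∀ t ∈ Ioc t0 t1, ∀ x, -L ≤ Sx t x)
    (hineq : ∀ t ∈ Ioc t0 t1, ∀ x,
      St t x ≤ Sxx t x / 2 - (S t x + b t * u t x) * Sx t x + b t * (1 - V t x) * S t x + b t * P t x)
    (hinit : ∀ x, S t0 x ≤ Y t0 x) :
    ∀ t ∈ Icc t0 t1, ∀ x, S t x ≤ Y t x := by
  have key := forward_strip (t0 := t0) (t1 := t1) (w := fun t x => -(Y t x - S t x))
    (h.cY.sub hS.cS).neg (A := 1) (B := M) (C := M + L) (M := M + L) ?_ ?_ ?_
  · intro t ht x
    have := key t ht x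
    linarith
  · intro t ht x
    have h3 := (abs_le.1 (h.Y_le t ht x)).1
    have h4 := hS0 t ht x
    nlinarith
  · intro x; have := hinit x; linarith
  · intro t ht x hpos
    have htI : t ∈ Icc t0 t1 := ⟨ht.1.le, ht.2⟩
    have h1 := h.b_nonneg t htI
    have h5 := h.b_le t htI
    have h6 := h.V_pos t htI x
    have h7 := hSx t ht x
    refine ⟨_, -(Yxx t x - Sxx t x), 1/2, -(Y t x + b t * u t x), b t * (1 - V t x) - Sx t x,
      fun y => -(Yx t y - Sx t y), ((h.hYt t ht x).sub (hS.hSt t ht x)).neg,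
      Eventually.of_forall fun y => ((h.hYx t ht y).sub (hS.hSx t ht y)).neg, ?_, by norm_num, ?_,
      ?_, ?_, ?_⟩
    · exact HasSide.neg (HasSide.sub_of (h.hYxx t ht x) (hS.hSxx t ht x))
    · nlinarith [sq_nonneg x]
    · rw [abs_neg]; exact h.drift t htI x
    · have h8 : b t * (1 - V t x) ≤ b t := by nlinarith
      linarith
    · have h9 := hineq t ht x
      nlinarith

end forw

end Crest.Agent.R146.MaxPCmp2_371
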