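import Mathlib

-- ▼ part R146/Hg_534
section

/-!
Row 146 (TIP-REG, helper534): Gaussian averages `H t φ x = E φ (x + t g)`, class `EG` (continuous,
exponential growth), derivatives in position and standard deviation, Stein identity.
Copied from `R164/GCalc` (helper92, helper92's earlier run) so that only Mathlib is imported.
-/

set_option autoImplicit false

namespace Crest.Agent.R146.Hg_534

open MeasureTheory ProbabilityTheory Filter Topology Set

noncomputable section

theorem integrable_exp_abs_gauss (c : ℝ) :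
    Integrable (fun g : ℝ => Real.exp (c * |g|)) (gaussianReal 0 1) := by
  have h1 : Integrable (fun g : ℝ => Real.exp (c * g)) (gaussianReal 0 1) :=
    integrable_exp_mul_gaussianReal c
  have h2 : Integrable (fun g : ℝ => Real.exp ((-c) * g)) (gaussianReal 0 1) :=
    integrable_exp_mul_gaussianReal (-c)
  refine Integrable.mono' (h1.add h2) (by fun_prop) (Eventually.of_forall fun g => ?_)
  rw [Real.norm_eq_abs, abs_of_pos (Real.exp_pos _)]
  simp only [Pi.add_apply]
  rcases le_total 0 g with hg | hg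
  · rw [abs_of_nonneg hg]
    have := Real.exp_pos (-c * g)
    linarith
  · rw [abs_of_nonpos hg]
    have := Real.exp_pos (c * g)
    have e : c * -g = -c * g := by ring
    rw [e]
    linarith

/-- continuous functions of exponential growth -/
structure EG (φ : ℝ → ℝ) : Prop where
  cont : Continuous φ
  bd : ∃ K A : ℝ, 0 ≤ K ∧ 0 ≤ A ∧ ∀ x, |φ x| ≤ K * Real.exp (A * |x|)

theorem EG.const (c : ℝ) : EG (fun _ => c) :=
  ⟨continuous_const, |c|, 0, abs_nonneg c, le_rfl, fun x => by simp⟩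

theorem EG.of_bdd {φ : ℝ → ℝ} (hc : Continuous φ) {K : ℝ} (hK : ∀ x, |φ x| ≤ K) : EG φ :=
  ⟨hc, K, 0, (abs_nonneg _).trans (hK 0), le_rfl, fun x => by simpa using hK x⟩

theorem EG.add {φ ψ : ℝ → ℝ} (hφ : EG φ) (hψ : EG ψ) : EG (fun x => φ x + ψ x) := by
  obtain ⟨K, A, hK, hA, h⟩ := hφ.bd
  obtain ⟨K', A', hK', hA', h'⟩ := hψ.bd
  refine ⟨hφ.cont.add hψ.cont, K + K', A + A', by positivity, by positivity, fun x => ?_⟩
  have h1 : Real.exp (A * |x|) ≤ Real.exp ((A + A') * |x|) := by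
    refine Real.exp_le_exp.2 ?_
    have := abs_nonneg x
    nlinarith
  have h2 : Real.exp (A' * |x|) ≤ Real.exp ((A + A') * |x|) := by
    refine Real.exp_le_exp.2 ?_
    have := abs_nonneg x
    nlinarith
  calc |φ x + ψ x| ≤ |φ x| + |ψ x| := abs_add_le _ _
    _ ≤ K * Real.exp (A * |x|) + K' * Real.exp (A' * |x|) := add_le_add (h x) (h' x)
    _ ≤ K * Real.exp ((A + A') * |x|) + K' * Real.exp ((A + A') * |x|) :=
        add_le_add (mul_le_mul_of_nonneg_left h1 hK) (mul_le_mul_of_nonneg_left h2 hK')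
    _ = _ := by ring

theorem EG.mul {φ ψ : ℝ → ℝ} (hφ : EG φ) (hψ : EG ψ) : EG (fun x => φ x * ψ x) := by
  obtain ⟨K, A, hK, hA, h⟩ := hφ.bd
  obtain ⟨K', A', hK', hA', h'⟩ := hψ.bd
  refine ⟨hφ.cont.mul hψ.cont, K * K', A + A', by positivity, by positivity, fun x => ?_⟩
  calc |φ x * ψ x| = |φ x| * |ψ x| := abs_mul _ _
    _ ≤ (K * Real.exp (A * |x|)) * (K' * Real.exp (A' * |x|)) :=
        mul_le_mul (h x) (h' x) (abs_nonneg _) (by positivity)
    _ = K * K' * (Real.exp (A * |x|) * Real.exp (A' * |x|)) := by ring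
    _ = _ := by rw [← Real.exp_add]; ring_nf

theorem EG.const_mul {φ : ℝ → ℝ} (hφ : EG φ) (c : ℝ) : EG (fun x => c * φ x) :=
  (EG.const c).mul hφ

theorem EG.neg {φ : ℝ → ℝ} (hφ : EG φ) : EG (fun x => -φ x) := by
  have := hφ.const_mul (-1)
  simpa using this

theorem EG.sub {φ ψ : ℝ → ℝ} (hφ : EG φ) (hψ : EG ψ) : EG (fun x => φ x - ψ x) := by
  have := hφ.add hψ.neg
  simpa [sub_eq_add_neg] using this

theorem EG.pow {φ : ℝ → ℝ} (hφ : EG φ) (n : ℕ) : EG (fun x => φ x ^ n) := by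
  induction n with
  | zero => simpa using EG.const 1
  | succ n ih => simpa [pow_succ] using ih.mul hφ

theorem EG.lip {f : ℝ → ℝ} (hf : ∀ x y, f x ≤ f y + |x - y|) : EG f := by
  have hc : Continuous f := by
    have : LipschitzWith 1 f := by
      refine LipschitzWith.of_le_add fun x y => ?_
      rw [Real.dist_eq]
      exact hf x y
    exact this.continuous
  refine ⟨hc, |f 0| + 1, 1, by positivity, zero_le_one, fun x => ?_⟩
  have h1 := hf x 0
  have h2 := hf 0 x
  rw [sub_zero] at h1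
  rw [zero_sub, abs_neg] at h2
  have h3 : |f x| ≤ |f 0| + |x| := by
    rw [abs_le]
    constructor
    · have := neg_abs_le (f 0); linarith
    · have := le_abs_self (f 0); linarith
  have h4 : |x| + 1 ≤ Real.exp (1 * |x|) := by rw [one_mul]; exact Real.add_one_le_exp _
  have h5 := abs_nonneg x
  have h6 := abs_nonneg (f 0)
  nlinarith


theorem integrable_exp_abs (c : ℝ) :
    Integrable (fun g : ℝ => Real.exp (c * |g|)) (gaussianReal 0 1) :=
  integrable_exp_abs_gauss c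

theorem integrable_mul_exp_abs (c : ℝ) :
    Integrable (fun g : ℝ => |g| * Real.exp (c * |g|)) (gaussianReal 0 1) := by
  refine Integrable.mono' (integrable_exp_abs (c + 1)) (by fun_prop)
    (Eventually.of_forall fun g => ?_)
  rw [Real.norm_eq_abs, abs_of_nonneg (by positivity)]
  have h1 : |g| ≤ Real.exp |g| := by
    have := Real.add_one_le_exp |g|
    linarith
  calc |g| * Real.exp (c * |g|) ≤ Real.exp |g| * Real.exp (c * |g|) :=
        mul_le_mul_of_nonneg_right h1 (Real.exp_pos _).le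
    _ = _ := by rw [← Real.exp_add]; ring_nf

/-- bound for the shifted function -/
theorem shift_bd {φ : ℝ → ℝ} {K A : ℝ} (hK : 0 ≤ K) (hA : 0 ≤ A)
    (h : ∀ x, |φ x| ≤ K * Real.exp (A * |x|)) {x t X T : ℝ} (hx : |x| ≤ X) (ht : |t| ≤ T) (g : ℝ) :
    |φ (x + t * g)| ≤ K * Real.exp (A * X) * Real.exp (A * T * |g|) := by
  refine (h _).trans ?_
  rw [mul_assoc, ← Real.exp_add]
  refine mul_le_mul_of_nonneg_left (Real.exp_le_exp.2 ?_) hK
  have h1 : |x + t * g| ≤ X + T * |g| := by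
    refine (abs_add_le _ _).trans (add_le_add hx ?_)
    rw [abs_mul]
    exact mul_le_mul_of_nonneg_right ht (abs_nonneg g)
  calc A * |x + t * g| ≤ A * (X + T * |g|) := mul_le_mul_of_nonneg_left h1 hA
    _ = _ := by ring

theorem EG.int {φ : ℝ → ℝ} (hφ : EG φ) (t x : ℝ) :
    Integrable (fun g : ℝ => φ (x + t * g)) (gaussianReal 0 1) := by
  obtain ⟨K, A, hK, hA, h⟩ := hφ.bd
  have hc := hφ.cont
  refine Integrable.mono' ((integrable_exp_abs (A * |t|)).const_mul (K * Real.exp (A * |x|)))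
    (by fun_prop) (Eventually.of_forall fun g => ?_)
  rw [Real.norm_eq_abs]
  exact shift_bd hK hA h le_rfl le_rfl g

theorem EG.int_mul {φ : ℝ → ℝ} (hφ : EG φ) (t x : ℝ) :
    Integrable (fun g : ℝ => g * φ (x + t * g)) (gaussianReal 0 1) := by
  obtain ⟨K, A, hK, hA, h⟩ := hφ.bd
  have hc := hφ.cont
  refine Integrable.mono' ((integrable_mul_exp_abs (A * |t|)).const_mul (K * Real.exp (A * |x|)))
    (by fun_prop) (Eventually.of_forall fun g => ?_)
  rw [Real.norm_eq_abs, abs_mul]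
  have := mul_le_mul_of_nonneg_left (shift_bd hK hA h (le_refl |x|) (le_refl |t|) g) (abs_nonneg g)
  linarith

/-- Gaussian average -/
def H (t : ℝ) (φ : ℝ → ℝ) (x : ℝ) : ℝ := ∫ g, φ (x + t * g) ∂gaussianReal 0 1

theorem H_add {φ ψ : ℝ → ℝ} (hφ : EG φ) (hψ : EG ψ) (t x : ℝ) :
    H t (fun y => φ y + ψ y) x = H t φ x + H t ψ x :=
  integral_add (hφ.int t x) (hψ.int t x)

theorem H_sub {φ ψ : ℝ → ℝ} (hφ : EG φ) (hψ : EG ψ) (t x : ℝ) :
    H t (fun y => φ y - ψ y) x = H t φ x - H t ψ x :=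
  integral_sub (hφ.int t x) (hψ.int t x)

theorem H_const_mul (φ : ℝ → ℝ) (c t x : ℝ) : H t (fun y => c * φ y) x = c * H t φ x :=
  integral_const_mul c _

theorem H_const (c t x : ℝ) : H t (fun _ => c) x = c := by
  unfold H
  simp

theorem H_zero (φ : ℝ → ℝ) (x : ℝ) : H 0 φ x = φ x := by
  unfold H
  simp

theorem H_mono {φ ψ : ℝ → ℝ} (hφ : EG φ) (hψ : EG ψ) (h : ∀ y, φ y ≤ ψ y) (t x : ℝ) :
    H t φ x ≤ H t ψ x :=
  integral_mono (hφ.int t x) (hψ.int t x) fun _ => h _

theorem H_pos {φ : ℝ → ℝ} (hφ : EG φ) (h : ∀ y, 0 < φ y) (t x : ℝ) : 0 < H t φ x := by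
  unfold H
  rw [integral_pos_iff_support_of_nonneg (fun _ => (h _).le) (hφ.int t x)]
  have : Function.support (fun g : ℝ => φ (x + t * g)) = univ := by
    ext g
    simp [(h (x + t * g)).ne']
  rw [this, measure_univ]
  exact one_pos

/-- joint continuity -/
theorem H_continuous {φ : ℝ → ℝ} (hφ : EG φ) : Continuous (fun p : ℝ × ℝ => H p.1 φ p.2) := by
  obtain ⟨K, A, hK, hA, h⟩ := hφ.bd
  have hc := hφ.cont
  rw [continuous_iff_continuousAt]
  intro p
  refine continuousAt_of_dominated (bound := fun g => K * Real.exp (A * (|p.2| + 1)) *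
    Real.exp (A * (|p.1| + 1) * |g|)) ?_ ?_ ?_ ?_
  · exact Eventually.of_forall fun q => (by fun_prop :
      Continuous fun g : ℝ => φ (q.2 + q.1 * g)).aestronglyMeasurable
  · have hb : Metric.ball p 1 ∈ 𝓝 p := Metric.ball_mem_nhds p one_pos
    filter_upwards [hb] with q hq
    rw [Metric.mem_ball, Prod.dist_eq, max_lt_iff, Real.dist_eq, Real.dist_eq] at hq
    refine Eventually.of_forall fun g => ?_
    rw [Real.norm_eq_abs]
    refine shift_bd hK hA h ?_ ?_ g
    · have := abs_sub_abs_le_abs_sub q.2 p.2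
      linarith [hq.2]
    · have := abs_sub_abs_le_abs_sub q.1 p.1
      linarith [hq.1]
  · exact (integrable_exp_abs _).const_mul _
  · refine Eventually.of_forall fun g => ?_
    have : Continuous (fun q : ℝ × ℝ => φ (q.2 + q.1 * g)) := by fun_prop
    exact this.continuousAt

/-- derivative in the position -/
theorem H_deriv_x {φ φ1 : ℝ → ℝ} (hφ : EG φ) (hφ1 : EG φ1) (hd : ∀ x, HasDerivAt φ (φ1 x) x)
    (t x : ℝ) : HasDerivAt (fun x => H t φ x) (H t φ1 x) x := by
  obtain ⟨K, A, hK, hA, h⟩ := hφ1.bd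
  have hc := hφ.cont
  have hc1 := hφ1.cont
  refine (hasDerivAt_integral_of_dominated_loc_of_deriv_le
    (bound := fun g => K * Real.exp (A * (|x| + 1)) * Real.exp (A * |t| * |g|))
    (F' := fun x g => φ1 (x + t * g)) (Metric.ball_mem_nhds x one_pos) ?_ (hφ.int t x) ?_ ?_ ?_
    ?_).2
  · exact Eventually.of_forall fun q => (by fun_prop :
      Continuous fun g : ℝ => φ (q + t * g)).aestronglyMeasurable
  · exact (by fun_prop : Continuous fun g : ℝ => φ1 (x + t * g)).aestronglyMeasurable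
  · refine Eventually.of_forall fun g q hq => ?_
    rw [Metric.mem_ball, Real.dist_eq] at hq
    rw [Real.norm_eq_abs]
    refine shift_bd hK hA h ?_ le_rfl g
    have := abs_sub_abs_le_abs_sub q x
    linarith
  · exact (integrable_exp_abs _).const_mul _
  · refine Eventually.of_forall fun g q _ => ?_
    have h1 : HasDerivAt (fun q : ℝ => q + t * g) 1 q := (hasDerivAt_id q).add_const _
    have := (hd (q + t * g)).comp q h1
    rw [mul_one] at this
    exact this

/-- derivative in the standard deviation, before integration by parts -/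
theorem H_deriv_t' {φ φ1 : ℝ → ℝ} (hφ : EG φ) (hφ1 : EG φ1) (hd : ∀ x, HasDerivAt φ (φ1 x) x)
    (t x : ℝ) : HasDerivAt (fun t => H t φ x) (∫ g, g * φ1 (x + t * g) ∂gaussianReal 0 1) t := by
  obtain ⟨K, A, hK, hA, h⟩ := hφ1.bd
  have hc := hφ.cont
  have hc1 := hφ1.cont
  refine (hasDerivAt_integral_of_dominated_loc_of_deriv_le
    (bound := fun g => K * Real.exp (A * |x|) * (|g| * Real.exp (A * (|t| + 1) * |g|)))
    (F' := fun t g => g * φ1 (x + t * g)) (Metric.ball_mem_nhds t one_pos) ?_ (hφ.int t x) ?_ ?_ ?_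
    ?_).2
  · exact Eventually.of_forall fun q => (by fun_prop :
      Continuous fun g : ℝ => φ (x + q * g)).aestronglyMeasurable
  · exact (by fun_prop : Continuous fun g : ℝ => g * φ1 (x + t * g)).aestronglyMeasurable
  · refine Eventually.of_forall fun g q hq => ?_
    rw [Metric.mem_ball, Real.dist_eq] at hq
    rw [Real.norm_eq_abs, abs_mul]
    have hq2 : |q| ≤ |t| + 1 := by
      have := abs_sub_abs_le_abs_sub q t
      linarith
    have := mul_le_mul_of_nonneg_left (shift_bd hK hA h (le_refl |x|) hq2 g) (abs_nonneg g)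
    linarith
  · exact (integrable_mul_exp_abs _).const_mul _
  · refine Eventually.of_forall fun g q _ => ?_
    have h1 : HasDerivAt (fun q : ℝ => x + q * g) g q := by
      have := ((hasDerivAt_id q).mul_const g).const_add x
      simpa using this
    have := (hd (x + q * g)).comp q h1
    rw [mul_comm] at this
    exact this

/-- **Stein's identity** -/
theorem stein {φ φ1 : ℝ → ℝ} (hφ : EG φ) (hφ1 : EG φ1) (hd : ∀ x, HasDerivAt φ (φ1 x) x)
    (t x : ℝ) : ∫ g, g * φ (x + t * g) ∂gaussianReal 0 1 = t * H t φ1 x := by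
  unfold H
  have hv : (1 : NNReal) ≠ 0 := one_ne_zero
  have hpdf : ∀ g : ℝ, HasDerivAt (fun g => -gaussianPDFReal 0 1 g)
      (g * gaussianPDFReal 0 1 g) g := by
    intro g
    unfold gaussianPDFReal
    have h1 : HasDerivAt (fun g : ℝ => -(g - 0) ^ 2 / (2 * ((1 : NNReal) : ℝ))) (-g) g := by
      have h2 : HasDerivAt (fun g : ℝ => (g - 0) ^ 2) (2 * g) g := by
        have := ((hasDerivAt_id' g).sub_const 0).fun_pow 2
        simpa using this
      have h3 := (h2.fun_neg).div_const (2 * ((1 : NNReal) : ℝ))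
      have e : -(2 * g) / (2 * ((1 : NNReal) : ℝ)) = -g := by
        rw [NNReal.coe_one]; ring
      rw [e] at h3
      exact h3
    have h4 := (h1.exp.const_mul ((√(2 * Real.pi * ((1 : NNReal) : ℝ)))⁻¹)).fun_neg
    have e : -((√(2 * Real.pi * ((1 : NNReal) : ℝ)))⁻¹ *
        (Real.exp (-(g - 0) ^ 2 / (2 * ((1 : NNReal) : ℝ))) * -g)) =
        g * ((√(2 * Real.pi * ((1 : NNReal) : ℝ)))⁻¹ *
        Real.exp (-(g - 0) ^ 2 / (2 * ((1 : NNReal) : ℝ)))) := by ring
    rw [e] at h4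
    exact h4
  have hd' : ∀ g : ℝ, HasDerivAt (fun g => φ (x + t * g)) (t * φ1 (x + t * g)) g := by
    intro g
    have h1 : HasDerivAt (fun g : ℝ => x + t * g) t g := by
      have := ((hasDerivAt_id g).const_mul t).const_add x
      simpa using this
    have := (hd (x + t * g)).comp g h1
    rw [mul_comm] at this
    exact this
  have hint : ∀ {ψ : ℝ → ℝ}, Integrable ψ (gaussianReal 0 1) →
      Integrable (fun g => gaussianPDFReal 0 1 g * ψ g) volume := by
    intro ψ hψ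
    rw [gaussianReal_of_var_ne_zero 0 hv] at hψ
    have h1 := (integrable_withDensity_iff_integrable_smul₀'
      (measurable_gaussianPDF 0 1).aemeasurable
      (Eventually.of_forall fun g => gaussianPDF_lt_top)).1 hψ
    refine h1.congr (Eventually.of_forall fun g => ?_)
    simp only [toReal_gaussianPDF, smul_eq_mul]
  have I1 := hint (hφ.int_mul t x)
  have I2 := hint ((hφ1.int t x).const_mul t)
  have I3 := hint (hφ.int t x)
  have key := integral_mul_deriv_eq_deriv_mul_of_integrable (A := ℝ)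
    (u := fun g => φ (x + t * g)) (v := fun g => -gaussianPDFReal 0 1 g)
    (u' := fun g => t * φ1 (x + t * g)) (v' := fun g => g * gaussianPDFReal 0 1 g)
    (fun g _ => hd' g) (fun g _ => hpdf g)
    (by
      refine I1.congr (Eventually.of_forall fun g => ?_)
      simp only [Pi.mul_apply]; ring)
    (by
      refine I2.neg.congr (Eventually.of_forall fun g => ?_)
      simp only [Pi.mul_apply, Pi.neg_apply]; ring)
    (by
      refine I3.neg.congr (Eventually.of_forall fun g => ?_)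
      simp only [Pi.mul_apply, Pi.neg_apply]; ring)
  rw [integral_gaussianReal_eq_integral_smul hv, integral_gaussianReal_eq_integral_smul hv]
  have e1 : ∫ g, gaussianPDFReal 0 1 g • (g * φ (x + t * g)) =
      ∫ g, φ (x + t * g) * (g * gaussianPDFReal 0 1 g) := by
    refine integral_congr_ae (Eventually.of_forall fun g => ?_)
    simp only [smul_eq_mul]; ring
  have e2 : t * ∫ g, gaussianPDFReal 0 1 g • φ1 (x + t * g) =
      - ∫ g, t * φ1 (x + t * g) * -gaussianPDFReal 0 1 g := by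
    rw [← integral_const_mul, ← integral_neg]
    refine integral_congr_ae (Eventually.of_forall fun g => ?_)
    simp only [smul_eq_mul]; ring
  rw [e1, e2]
  exact key

/-- derivative in the standard deviation -/
theorem H_deriv_t {φ φ1 φ2 : ℝ → ℝ} (hφ : EG φ) (hφ1 : EG φ1) (hφ2 : EG φ2)
    (hd : ∀ x, HasDerivAt φ (φ1 x) x) (hd1 : ∀ x, HasDerivAt φ1 (φ2 x) x) (t x : ℝ) :
    HasDerivAt (fun t => H t φ x) (t * H t φ2 x) t := by
  rw [← stein hφ1 hφ2 hd1 t x]
  exact H_deriv_t' hφ hφ1 hd t x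

/-- derivative in the variance -/
theorem H_deriv_v {φ φ1 φ2 : ℝ → ℝ} (hφ : EG φ) (hφ1 : EG φ1) (hφ2 : EG φ2)
    (hd : ∀ x, HasDerivAt φ (φ1 x) x) (hd1 : ∀ x, HasDerivAt φ1 (φ2 x) x) {v : ℝ} (hv : 0 < v)
    (x : ℝ) : HasDerivAt (fun v => H (Real.sqrt v) φ x) (1 / 2 * H (Real.sqrt v) φ2 x) v := by
  have h1 := H_deriv_t hφ hφ1 hφ2 hd hd1 (Real.sqrt v) x
  have h2 := Real.hasDerivAt_sqrt hv.ne'
  have h3 := h1.comp v h2
  have hs : Real.sqrt v ≠ 0 := (Real.sqrt_pos.2 hv).ne'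
  have e : Real.sqrt v * H (Real.sqrt v) φ2 x * (1 / (2 * Real.sqrt v)) =
      1 / 2 * H (Real.sqrt v) φ2 x := by
    field_simp
  rw [e] at h3
  exact h3

end

end Crest.Agent.R146.Hg_534
end

-- ▼ part R146/PB_534

/-!
Row 146 (TIP-REG, helper534): `PG` = continuous functions of polynomial growth; `Sm` = functions all of
whose derivatives exist and have polynomial growth (via `PB n`).
-/

set_option autoImplicit false

namespace Crest.Agent.R146.PB_534

open MeasureTheory ProbabilityTheory Filter Topology Set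
open Crest.Agent.R146.Hg_534

noncomputable section

/-- continuous functions of polynomial growth -/
structure PG (φ : ℝ → ℝ) : Prop where
  cont : Continuous φ
  bd : ∃ (C : ℝ) (n : ℕ), 0 ≤ C ∧ ∀ x, |φ x| ≤ C * (1 + |x|) ^ n

theorem one_le_base (x : ℝ) : 1 ≤ 1 + |x| := by
  have := abs_nonneg x
  linarith

theorem PG.const (c : ℝ) : PG (fun _ => c) :=
  ⟨continuous_const, |c|, 0, abs_nonneg c, fun x => by simp⟩

theorem PG.id : PG (fun x => x) :=
  ⟨continuous_id, 1, 1, zero_le_one, fun x => by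
    have := abs_nonneg x
    rw [pow_one, one_mul]
    linarith⟩

theorem PG.of_bdd {φ : ℝ → ℝ} (hc : Continuous φ) {K : ℝ} (hK : ∀ x, |φ x| ≤ K) : PG φ :=
  ⟨hc, K, 0, (abs_nonneg _).trans (hK 0), fun x => by simpa using hK x⟩

theorem PG.add {φ ψ : ℝ → ℝ} (hφ : PG φ) (hψ : PG ψ) : PG (fun x => φ x + ψ x) := by
  obtain ⟨C, n, hC, h⟩ := hφ.bd
  obtain ⟨C', n', hC', h'⟩ := hψ.bd
  refine ⟨hφ.cont.add hψ.cont, C + C', max n n', by positivity, fun x => ?_⟩
  have h1 : (1 + |x|) ^ n ≤ (1 + |x|) ^ max n n' :=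
    pow_le_pow_right₀ (one_le_base x) (le_max_left _ _)
  have h2 : (1 + |x|) ^ n' ≤ (1 + |x|) ^ max n n' :=
    pow_le_pow_right₀ (one_le_base x) (le_max_right _ _)
  calc |φ x + ψ x| ≤ |φ x| + |ψ x| := abs_add_le _ _
    _ ≤ C * (1 + |x|) ^ n + C' * (1 + |x|) ^ n' := add_le_add (h x) (h' x)
    _ ≤ C * (1 + |x|) ^ max n n' + C' * (1 + |x|) ^ max n n' :=
        add_le_add (mul_le_mul_of_nonneg_left h1 hC) (mul_le_mul_of_nonneg_left h2 hC')
    _ = _ := by ring

theorem PG.mul {φ ψ : ℝ → ℝ} (hφ : PG φ) (hψ : PG ψ) : PG (fun x => φ x * ψ x) := by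
  obtain ⟨C, n, hC, h⟩ := hφ.bd
  obtain ⟨C', n', hC', h'⟩ := hψ.bd
  refine ⟨hφ.cont.mul hψ.cont, C * C', n + n', by positivity, fun x => ?_⟩
  have hx := one_le_base x
  calc |φ x * ψ x| = |φ x| * |ψ x| := abs_mul _ _
    _ ≤ (C * (1 + |x|) ^ n) * (C' * (1 + |x|) ^ n') :=
        mul_le_mul (h x) (h' x) (abs_nonneg _) (by positivity)
    _ = _ := by rw [pow_add]; ring

theorem PG.const_mul {φ : ℝ → ℝ} (hφ : PG φ) (c : ℝ) : PG (fun x => c * φ x) :=
  (PG.const c).mul hφ

theorem PG.neg {φ : ℝ → ℝ} (hφ : PG φ) : PG (fun x => -φ x) := by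
  have := hφ.const_mul (-1)
  simpa using this

theorem PG.sub {φ ψ : ℝ → ℝ} (hφ : PG φ) (hψ : PG ψ) : PG (fun x => φ x - ψ x) := by
  have := hφ.add hψ.neg
  simpa [sub_eq_add_neg] using this

theorem PG.pow {φ : ℝ → ℝ} (hφ : PG φ) (n : ℕ) : PG (fun x => φ x ^ n) := by
  induction n with
  | zero => simpa using PG.const 1
  | succ n ih => simpa [pow_succ] using ih.mul hφ

theorem PG.abs {φ : ℝ → ℝ} (hφ : PG φ) : PG (fun x => |φ x|) := by
  obtain ⟨C, n, hC, h⟩ := hφ.bd
  exact ⟨hφ.cont.abs, C, n, hC, fun x => by rw [abs_abs]; exact h x⟩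

theorem PG.of_abs_le {φ ψ : ℝ → ℝ} (hc : Continuous φ) (hψ : PG ψ) (h : ∀ x, |φ x| ≤ |ψ x|) :
    PG φ := by
  obtain ⟨C, n, hC, h'⟩ := hψ.bd
  exact ⟨hc, C, n, hC, fun x => (h x).trans (h' x)⟩

/-- polynomial growth implies exponential growth -/
theorem PG.eg {φ : ℝ → ℝ} (hφ : PG φ) : EG φ := by
  obtain ⟨C, n, hC, h⟩ := hφ.bd
  refine ⟨hφ.cont, C * Real.exp n, n, by positivity, by positivity, fun x => (h x).trans ?_⟩
  rw [mul_assoc]
  refine mul_le_mul_of_nonneg_left ?_ hC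
  have h1 : 1 + |x| ≤ Real.exp (1 + |x|) := by
    have := Real.add_one_le_exp (1 + |x|)
    linarith
  have h0 : 0 ≤ 1 + |x| := le_trans zero_le_one (one_le_base x)
  calc (1 + |x|) ^ n ≤ (Real.exp (1 + |x|)) ^ n := pow_le_pow_left₀ h0 h1 n
    _ = Real.exp (n * (1 + |x|)) := by rw [← Real.exp_nat_mul]
    _ = Real.exp n * Real.exp (n * |x|) := by rw [← Real.exp_add]; ring_nf

/-- `n` derivatives, all of polynomial growth -/
def PB : ℕ → (ℝ → ℝ) → Prop
  | 0, φ => PG φ
  | n + 1, φ => PG φ ∧ Differentiable ℝ φ ∧ PB n (deriv φ)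

theorem PB.pg : ∀ {n : ℕ} {φ : ℝ → ℝ}, PB n φ → PG φ
  | 0, _, h => h
  | _ + 1, _, h => h.1

theorem PB.pred : ∀ {n : ℕ} {φ : ℝ → ℝ}, PB (n + 1) φ → PB n φ
  | 0, _, h => h.1
  | _ + 1, _, h => ⟨h.1, h.2.1, h.2.2.pred⟩

theorem PB.const : ∀ (n : ℕ) (c : ℝ), PB n (fun _ => c)
  | 0, c => PG.const c
  | n + 1, c => ⟨PG.const c, differentiable_const c, by
      have e : deriv (fun _ : ℝ => c) = fun _ => (0 : ℝ) := by
        funext x; simp
      rw [e]; exact PB.const n 0⟩

theorem PB.add : ∀ {n : ℕ} {φ ψ : ℝ → ℝ}, PB n φ → PB n ψ → PB n (fun x => φ x + ψ x)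
  | 0, _, _, h, h' => PG.add h h'
  | n + 1, φ, ψ, h, h' => ⟨h.1.add h'.1, h.2.1.add h'.2.1, by
      have e : deriv (fun x => φ x + ψ x) = fun x => deriv φ x + deriv ψ x := by
        funext x
        exact deriv_fun_add (h.2.1 x) (h'.2.1 x)
      rw [e]; exact PB.add h.2.2 h'.2.2⟩

theorem PB.mul : ∀ {n : ℕ} {φ ψ : ℝ → ℝ}, PB n φ → PB n ψ → PB n (fun x => φ x * ψ x)
  | 0, _, _, h, h' => PG.mul h h'
  | n + 1, φ, ψ, h, h' => ⟨h.1.mul h'.1, h.2.1.mul h'.2.1, by
      have e : deriv (fun x => φ x * ψ x) = fun x => deriv φ x * ψ x + φ x * deriv ψ x := by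
        funext x
        exact deriv_fun_mul (h.2.1 x) (h'.2.1 x)
      rw [e]; exact PB.add (PB.mul h.2.2 h'.pred) (PB.mul h.pred h'.2.2)⟩

/-- all derivatives of polynomial growth -/
def Sm (φ : ℝ → ℝ) : Prop := ∀ n, PB n φ

theorem Sm.pg {φ : ℝ → ℝ} (h : Sm φ) : PG φ := (h 0).pg
theorem Sm.diff {φ : ℝ → ℝ} (h : Sm φ) : Differentiable ℝ φ := (h 1).2.1
theorem Sm.deriv {φ : ℝ → ℝ} (h : Sm φ) : Sm (deriv φ) := fun n => (h (n + 1)).2.2
theorem Sm.hd {φ : ℝ → ℝ} (h : Sm φ) (x : ℝ) : HasDerivAt φ (_root_.deriv φ x) x :=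
  (h.diff x).hasDerivAt
theorem Sm.const (c : ℝ) : Sm (fun _ => c) := fun n => PB.const n c
theorem Sm.add {φ ψ : ℝ → ℝ} (h : Sm φ) (h' : Sm ψ) : Sm (fun x => φ x + ψ x) :=
  fun n => (h n).add (h' n)
theorem Sm.mul {φ ψ : ℝ → ℝ} (h : Sm φ) (h' : Sm ψ) : Sm (fun x => φ x * ψ x) :=
  fun n => (h n).mul (h' n)
theorem Sm.const_mul {φ : ℝ → ℝ} (h : Sm φ) (c : ℝ) : Sm (fun x => c * φ x) :=
  (Sm.const c).mul h
theorem Sm.neg {φ : ℝ → ℝ} (h : Sm φ) : Sm (fun x => -φ x) := by
  have := h.const_mul (-1)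
  simpa using this
theorem Sm.sub {φ ψ : ℝ → ℝ} (h : Sm φ) (h' : Sm ψ) : Sm (fun x => φ x - ψ x) := by
  have := h.add h'.neg
  simpa [sub_eq_add_neg] using this
theorem Sm.pow {φ : ℝ → ℝ} (h : Sm φ) (n : ℕ) : Sm (fun x => φ x ^ n) := by
  induction n with
  | zero => simpa using Sm.const 1
  | succ n ih => simpa [pow_succ] using ih.mul h

theorem Sm.id : Sm (fun x : ℝ => x) := by
  intro n
  cases n with
  | zero => exact PG.id
  | succ n =>
    refine ⟨PG.id, differentiable_id, ?_⟩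
    have e : _root_.deriv (fun x : ℝ => x) = fun _ => (1 : ℝ) := by
      funext x; simp
    rw [e]; exact PB.const n 1

/-- introduction by an explicit derivative -/
theorem Sm.of_deriv {φ φ' : ℝ → ℝ} (hp : PG φ) (hd : ∀ x, HasDerivAt φ (φ' x) x) (h : Sm φ') :
    Sm φ := by
  intro n
  cases n with
  | zero => exact hp
  | succ n =>
    refine ⟨hp, fun x => (hd x).differentiableAt, ?_⟩
    have e : _root_.deriv φ = φ' := by
      funext x; exact (hd x).deriv
    rw [e]; exact h n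

theorem Sm.cont {φ : ℝ → ℝ} (h : Sm φ) : Continuous φ := h.pg.cont

theorem Sm.add_const {φ : ℝ → ℝ} (h : Sm φ) (c : ℝ) : Sm (fun x => φ x + c) := h.add (Sm.const c)
theorem Sm.sub_const {φ : ℝ → ℝ} (h : Sm φ) (c : ℝ) : Sm (fun x => φ x - c) := h.sub (Sm.const c)

end

end Crest.Agent.R146.PB_534
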