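import Crest.Prelude.Def_InvariantGlass
import Crest.Agent.R146.PB_534
import Crest.Agent.R146.MaxPCmp2_371

/-!
Row 146, package PT-STEP: DEFINITIONS of the step system (helper791).

`A : SD` is a step datum: the weight `m` of the profile is a step function on `[0, T)`, `T < 1`, with
POSITIVE values `z`, and `m = 0` on `[T, 1]`, where `D = d > 0`.  The cells are listed FROM RIGHT TO LEFT:
`cs = [(s₁, z₁), (s₂, z₂), ...]` means weight `z₁` on `[s₁, T)`, `z₂` on `[s₂, s₁)`, ...; the last left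
end is `0`.

* `A.m, A.ml`     : the weight, right / left continuous;
* `A.D, A.E`      : `D(t) = d + ∫_t^T m`, `E = 1/D`;  `A.b = m/D`, `A.bl = ml/D`;
* `A.K0, A.chi`   : `K0(t) = ∫_t^1 E`, `chi = D K0` (explicit recursion-free: integral);
* `A.psi t x`     : Parisi function of the soft wall `ψ(1,x) = -(x₋)²/(2d)`:
  `ψ(T,x) = -(1/(2d)) E[(x+√(1-T) g)₋²]`, on a cell `e^{zψ(t,x)} = E e^{zψ(t',x+√(t'-t) g)}`;
* `A.u = D ψ_x`, `A.V = 1 + u_x`, `A.P = V_x (≥ 0)`, `A.Px = P_x`, `A.Pxx = P_xx`, `R = 1 - V`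
  (the notation of `BSys` of `MaxPCmp_371`).

Terminal values at `T` (with `δ = 1-T`): `u(T,x) = √δ U0(x/√δ)`, `U0(z) = E (z+g)₋`,
`V(T,x) = P(g ≤ x/√δ)`, `P(T,x) = φ(x/√δ)/√δ`.
-/

set_option autoImplicit false

namespace Crest.Agent.R146.StepDef_791

open MeasureTheory ProbabilityTheory Set
open Crest.ProbabilityR.InvariantGlass
open Crest.Agent.R146.Hg_534 Crest.Agent.R146.PB_534

noncomputable section

/-- cells `(left end, weight)`, listed from right to left -/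
abbrev Cells := List (ℝ × ℝ)

/-- the cells tile `[0, T]` -/
def Valid : ℝ → Cells → Prop
  | T, [] => T = 0
  | T, c :: cs => c.1 < T ∧ 0 < c.2 ∧ Valid c.1 cs

/-- weight, right continuous; `0` outside `[0,T)` -/
def mrc : ℝ → Cells → ℝ → ℝ
  | _, [], _ => 0
  | T, c :: cs, t => if c.1 ≤ t then (if t < T then c.2 else 0) else mrc c.1 cs t

/-- weight, left continuous; `0` outside `(0,T]` -/
def mlc : ℝ → Cells → ℝ → ℝ
  | _, [], _ => 0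
  | T, c :: cs, t => if c.1 < t then (if t ≤ T then c.2 else 0) else mlc c.1 cs t

/-- `D` on `(-∞, T]`, `D(T) = d` -/
def Dc : ℝ → ℝ → Cells → ℝ → ℝ
  | _, d, [], _ => d
  | T, d, c :: cs, t => if c.1 ≤ t then d + c.2 * (T - t) else Dc c.1 (d + c.2 * (T - c.1)) cs t

/-- Parisi function on `[0,T]` with terminal value `f` at `T` -/
def Psc : ℝ → (ℝ → ℝ) → Cells → ℝ → ℝ → ℝ
  | _, f, [], _ => f
  | T, f, c :: cs, t =>
      if c.1 ≤ t then gaussOp c.2 (T - t) f else Psc c.1 (gaussOp c.2 (T - c.1) f) cs t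

/-- the start profile: `ψ(T,x) = -(1/(2d)) E[(x+√δ g)₋²]`, `δ = 1-T` -/
def startPsi (d δ : ℝ) (x : ℝ) : ℝ :=
  -(1 / (2 * d)) * H (Real.sqrt δ) (fun y => (max (-y) 0) ^ 2) x

/-- the self-similar profile of `ν = 0`: `U0(z) = E (z+g)₋` -/
def U0 (z : ℝ) : ℝ := H 1 (fun y => max (-y) 0) z

/-- step data -/
structure SD where
  T : ℝ
  d : ℝ
  cs : Cells
  hT0 : 0 < T
  hT1 : T < 1
  hd : 0 < d
  hv : Valid T cs

namespace SD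
variable (A : SD)

/-- weight, right continuous -/
def m (t : ℝ) : ℝ := mrc A.T A.cs t
/-- weight, left continuous -/
def ml (t : ℝ) : ℝ := mlc A.T A.cs t
/-- `D(t) = d + ∫_t^T m` -/
def D (t : ℝ) : ℝ := if t ≤ A.T then Dc A.T A.d A.cs t else A.d
/-- `E = 1/D` -/
def E (t : ℝ) : ℝ := (A.D t)⁻¹
/-- `b = m/D`, right continuous -/
def b (t : ℝ) : ℝ := A.m t / A.D t
/-- `b = m/D`, left continuous -/
def bl (t : ℝ) : ℝ := A.ml t / A.D t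
/-- `K0(t) = ∫_t^1 E` -/
def K0 (t : ℝ) : ℝ := ∫ s in t..1, A.E s
/-- `chi = D K0` -/
def chi (t : ℝ) : ℝ := A.D t * A.K0 t
/-- `δ = 1 - T` -/
def dl : ℝ := 1 - A.T

/-- Parisi function -/
def psi (t x : ℝ) : ℝ := Psc A.T (startPsi A.d A.dl) A.cs t x
/-- `u = D ψ_x` -/
def u (t x : ℝ) : ℝ := A.D t * deriv (A.psi t) x
/-- `V = 1 + u_x` -/
def V (t x : ℝ) : ℝ := 1 + deriv (A.u t) x
/-- `P = V_x` (nonnegative) -/
def P (t x : ℝ) : ℝ := deriv (A.V t) x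
/-- `Px = V_xx` -/
def Px (t x : ℝ) : ℝ := deriv (A.P t) x
/-- `Pxx = V_xxx` -/
def Pxx (t x : ℝ) : ℝ := deriv (A.Px t) x
/-- `w = x + u` -/
def w (t x : ℝ) : ℝ := x + A.u t x

end SD

/-! ### Elementary facts on the step functions -/

theorem Valid.nonneg : ∀ {cs : Cells} {T : ℝ}, Valid T cs → 0 ≤ T
  | [], _, h => le_of_eq h.symm
  | _ :: _, _, h => (Valid.nonneg h.2.2).trans h.1.le

theorem Dc_pos : ∀ {cs : Cells} {T d t : ℝ}, Valid T cs → 0 < d → t ≤ T → d ≤ Dc T d cs t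
  | [], _, _, _, _, _, _ => le_rfl
  | c :: cs, T, d, t, h, hd, ht => by
      unfold Dc
      split_ifs with h1
      · have := mul_nonneg h.2.1.le (sub_nonneg.2 ht)
        linarith
      · have h2 := mul_pos h.2.1 (sub_pos.2 h.1)
        have h3 := Dc_pos (d := d + c.2 * (T - c.1)) h.2.2 (by linarith) (not_le.1 h1).le
        linarith

theorem SD.d_le_D (A : SD) (t : ℝ) : A.d ≤ A.D t := by
  unfold SD.D
  split_ifs with h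
  · exact Dc_pos A.hv A.hd h
  · exact le_rfl

theorem SD.D_pos (A : SD) (t : ℝ) : 0 < A.D t := A.hd.trans_le (A.d_le_D t)

theorem mrc_nonneg : ∀ {cs : Cells} {T t : ℝ}, Valid T cs → 0 ≤ mrc T cs t
  | [], _, _, _ => le_rfl
  | c :: cs, T, t, h => by
      unfold mrc
      split_ifs with h1 h2
      · exact h.2.1.le
      · exact le_rfl
      · exact mrc_nonneg h.2.2

theorem mlc_nonneg : ∀ {cs : Cells} {T t : ℝ}, Valid T cs → 0 ≤ mlc T cs t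
  | [], _, _, _ => le_rfl
  | c :: cs, T, t, h => by
      unfold mlc
      split_ifs with h1 h2
      · exact h.2.1.le
      · exact le_rfl
      · exact mlc_nonneg h.2.2

theorem SD.m_nonneg (A : SD) (t : ℝ) : 0 ≤ A.m t := mrc_nonneg A.hv
theorem SD.ml_nonneg (A : SD) (t : ℝ) : 0 ≤ A.ml t := mlc_nonneg A.hv
theorem SD.E_pos (A : SD) (t : ℝ) : 0 < A.E t := inv_pos.2 (A.D_pos t)
theorem SD.b_nonneg (A : SD) (t : ℝ) : 0 ≤ A.b t := div_nonneg (A.m_nonneg t) (A.D_pos t).le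
theorem SD.bl_nonneg (A : SD) (t : ℝ) : 0 ≤ A.bl t := div_nonneg (A.ml_nonneg t) (A.D_pos t).le
theorem SD.dl_pos (A : SD) : 0 < A.dl := sub_pos.2 A.hT1

/-! ### INTERFACE (Props; consumers take them as hypotheses until they are proved) -/

open Crest.Agent.R146.MaxPCmp_371 (BSys)
open Crest.Agent.R146.MaxPCmp2_371 (YSys)

/-- **R1** (helper847): the backward fields. Time derivatives are RIGHT derivatives on `[0,T)` (weight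
`b`, inside `BSys`) and LEFT derivatives on `(0,T]` (weight `bl`). -/
structure Back (A : SD) : Prop where
  /-- smoothness in `x` with polynomially bounded derivatives -/
  sm : ∀ t ∈ Icc 0 A.T, Sm (A.psi t)
  psi_nonpos : ∀ t ∈ Icc 0 A.T, ∀ x, A.psi t x ≤ 0
  u_pos : ∀ t ∈ Icc 0 A.T, ∀ x, 0 < A.u t x
  w_pos : ∀ t ∈ Icc 0 A.T, ∀ x, 0 < A.w t x
  P_pos : ∀ t ∈ Icc 0 A.T, ∀ x, 0 < A.P t x
  /-- right-derivative system, all continuity and sign facts -/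
  bsys : ∃ M, BSys 0 A.T A.b A.u A.V A.P A.Px A.Pxx M
  /-- derivatives in `x` also at `t = T` -/
  u_x : ∀ t ∈ Icc 0 A.T, ∀ x, HasDerivAt (A.u t) (A.V t x - 1) x
  V_x : ∀ t ∈ Icc 0 A.T, ∀ x, HasDerivAt (A.V t) (A.P t x) x
  P_x : ∀ t ∈ Icc 0 A.T, ∀ x, HasDerivAt (A.P t) (A.Px t x) x
  Px_x : ∀ t ∈ Icc 0 A.T, ∀ x, HasDerivAt (A.Px t) (A.Pxx t x) x
  psi_cont : ContinuousOn (fun q : ℝ × ℝ => A.psi q.1 q.2) (Icc 0 A.T ×ˢ univ)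
  Px_cont : ContinuousOn (fun q : ℝ × ℝ => A.Px q.1 q.2) (Icc 0 A.T ×ˢ univ)
  Pxx_cont : ContinuousOn (fun q : ℝ × ℝ => A.Pxx q.1 q.2) (Icc 0 A.T ×ˢ univ)
  /-- growth, uniformly in time -/
  growth : ∃ C : ℝ, ∃ n : ℕ, 0 ≤ C ∧ ∀ t ∈ Icc 0 A.T, ∀ x, |A.psi t x| ≤ C * (1 + |x|) ^ n ∧
    |A.Px t x| ≤ C * (1 + |x|) ^ n ∧ |A.Pxx t x| ≤ C * (1 + |x|) ^ n
  psi_t : ∀ t ∈ Ico 0 A.T, ∀ x, HasDerivWithinAt (fun s => A.psi s x)
    ((1 - A.V t x) / (2 * A.D t) - A.m t / 2 * (A.u t x / A.D t) ^ 2) (Ici t) t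
  /-- the equations, left derivatives -/
  psi_tl : ∀ t ∈ Ioc 0 A.T, ∀ x, HasDerivWithinAt (fun s => A.psi s x)
    ((1 - A.V t x) / (2 * A.D t) - A.ml t / 2 * (A.u t x / A.D t) ^ 2) (Iic t) t
  u_tl : ∀ t ∈ Ioc 0 A.T, ∀ x, HasDerivWithinAt (fun s => A.u s x)
    (-(A.P t x / 2 + A.bl t * A.u t x * A.V t x)) (Iic t) t
  V_tl : ∀ t ∈ Ioc 0 A.T, ∀ x, HasDerivWithinAt (fun s => A.V s x)
    (-(A.Px t x / 2 + A.bl t * A.u t x * A.P t x) + A.bl t * A.V t x * (1 - A.V t x)) (Iic t) t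
  P_tl : ∀ t ∈ Ioc 0 A.T, ∀ x, HasDerivWithinAt (fun s => A.P s x)
    (-(A.Pxx t x / 2 + A.bl t * A.u t x * A.Px t x) + A.bl t * (2 - 3 * A.V t x) * A.P t x) (Iic t) t
  /-- start profile -/
  u_T : ∀ x, A.u A.T x = Real.sqrt A.dl * U0 (x / Real.sqrt A.dl)
  V_T : ∀ x, A.V A.T x = (gaussianReal 0 1).real (Iic (x / Real.sqrt A.dl))
  P_T : ∀ x, A.P A.T x = gaussianPDFReal 0 1 (x / Real.sqrt A.dl) / Real.sqrt A.dl

/-- expectation under a density `q` (and under `δ_{x0}` at time `0`) -/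
def ex (x0 : ℝ) (p : ℝ → ℝ → ℝ) (t : ℝ) (f : ℝ → ℝ) : ℝ :=
  if t ≤ 0 then f x0 else ∫ x, p t x * f x

/-- test functions of space-time: `C^{1,2}` with one-sided time derivatives, polynomial growth -/
structure Test (A : SD) (F Fr Fl Fx Fxx : ℝ → ℝ → ℝ) : Prop where
  cF : ContinuousOn (fun q : ℝ × ℝ => F q.1 q.2) (Icc 0 A.T ×ˢ univ)
  hx : ∀ t ∈ Icc 0 A.T, ∀ x, HasDerivAt (F t) (Fx t x) x
  hxx : ∀ t ∈ Icc 0 A.T, ∀ x, HasDerivAt (Fx t) (Fxx t x) x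
  hr : ∀ t ∈ Ico 0 A.T, ∀ x, HasDerivWithinAt (fun s => F s x) (Fr t x) (Ici t) t
  hl : ∀ t ∈ Ioc 0 A.T, ∀ x, HasDerivWithinAt (fun s => F s x) (Fl t x) (Iic t) t
  /-- right/left joint continuity of the time derivatives and continuity of `Fx, Fxx` -/
  cr : ∀ t ∈ Ico 0 A.T, ∀ x, ContinuousWithinAt (fun q : ℝ × ℝ => Fr q.1 q.2) (Ici t ×ˢ univ) (t, x)
  cl : ∀ t ∈ Ioc 0 A.T, ∀ x, ContinuousWithinAt (fun q : ℝ × ℝ => Fl q.1 q.2) (Iic t ×ˢ univ) (t, x)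
  cx : ContinuousOn (fun q : ℝ × ℝ => Fx q.1 q.2) (Icc 0 A.T ×ˢ univ)
  cxx : ContinuousOn (fun q : ℝ × ℝ => Fxx q.1 q.2) (Icc 0 A.T ×ˢ univ)
  growth : ∃ C : ℝ, ∃ n : ℕ, 0 ≤ C ∧ ∀ t ∈ Icc 0 A.T, ∀ x, |F t x| ≤ C * (1 + |x|) ^ n ∧
    |Fr t x| ≤ C * (1 + |x|) ^ n ∧ |Fl t x| ≤ C * (1 + |x|) ^ n ∧
    |Fx t x| ≤ C * (1 + |x|) ^ n ∧ |Fxx t x| ≤ C * (1 + |x|) ^ n

/-- **R2** (helper534): the law.  `p t` is the density of the chain started at `x0` at time `0`,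
`Y = -(log p)_x`. -/
structure Law (A : SD) (x0 : ℝ) (p Y Yx Yxx : ℝ → ℝ → ℝ) : Prop where
  p_pos : ∀ t ∈ Ioc 0 A.T, ∀ x, 0 < p t x
  p_cont : ContinuousOn (fun q : ℝ × ℝ => p q.1 q.2) (Ioc 0 A.T ×ˢ univ)
  p_x : ∀ t ∈ Ioc 0 A.T, ∀ x, HasDerivAt (p t) (-Y t x * p t x) x
  mass : ∀ t ∈ Ioc 0 A.T, ∫ x, p t x = 1
  /-- all moments, uniformly in time -/
  mom : ∀ n : ℕ, ∃ C : ℝ, ∀ t ∈ Ioc 0 A.T, Integrable (fun x => p t x * (1 + |x|) ^ n) ∧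
    ∫ x, p t x * (1 + |x|) ^ n ≤ C
  /-- boundary terms vanish -/
  tail : ∀ t ∈ Ioc 0 A.T, ∀ n : ℕ, Filter.Tendsto (fun x => p t x * (1 + |x|) ^ n)
    (Filter.cocompact ℝ) (nhds 0)
  ysys : ∀ t0 ∈ Ioo 0 A.T, ∃ M, YSys t0 A.T A.bl A.u A.V A.P Y Yx Yxx M
  /-- expectation identity -/
  ex_cont : ∀ F Fr Fl Fx Fxx, Test A F Fr Fl Fx Fxx →
    ContinuousOn (fun t => ex x0 p t (F t)) (Icc 0 A.T)
  ex_r : ∀ F Fr Fl Fx Fxx, Test A F Fr Fl Fx Fxx → ∀ t ∈ Ico 0 A.T,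
    HasDerivWithinAt (fun s => ex x0 p s (F s))
      (ex x0 p t (fun x => Fr t x + Fxx t x / 2 + A.b t * A.u t x * Fx t x)) (Ici t) t
  ex_l : ∀ F Fr Fl Fx Fxx, Test A F Fr Fl Fx Fxx → ∀ t ∈ Ioc 0 A.T,
    HasDerivWithinAt (fun s => ex x0 p s (F s))
      (ex x0 p t (fun x => Fl t x + Fxx t x / 2 + A.bl t * A.u t x * Fx t x)) (Iic t) t

/-- `Q(t) = E[R V]` -/
def Qs (A : SD) (x0 : ℝ) (p : ℝ → ℝ → ℝ) (t : ℝ) : ℝ :=
  ex x0 p t (fun x => (1 - A.V t x) * A.V t x)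
/-- `T2(t) = E[R²]` -/
def Ts (A : SD) (x0 : ℝ) (p : ℝ → ℝ → ℝ) (t : ℝ) : ℝ := ex x0 p t (fun x => (1 - A.V t x) ^ 2)
/-- `Z(t) = E[R² V]` -/
def Zs (A : SD) (x0 : ℝ) (p : ℝ → ℝ → ℝ) (t : ℝ) : ℝ :=
  ex x0 p t (fun x => (1 - A.V t x) ^ 2 * A.V t x)
/-- `N(t) = E[V_x²]` -/
def Ns (A : SD) (x0 : ℝ) (p : ℝ → ℝ → ℝ) (t : ℝ) : ℝ := ex x0 p t (fun x => A.P t x ^ 2)
/-- `Lam(t) = E[λ_t²] = E(t)² E[u²]` -/
def Lams (A : SD) (x0 : ℝ) (p : ℝ → ℝ → ℝ) (t : ℝ) : ℝ :=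
  A.E t ^ 2 * ex x0 p t (fun x => A.u t x ^ 2)
/-- `Cs(t) = E[h_t λ_t] = E(t) E[w u]` -/
def Cs (A : SD) (x0 : ℝ) (p : ℝ → ℝ → ℝ) (t : ℝ) : ℝ :=
  A.E t * ex x0 p t (fun x => A.w t x * A.u t x)
/-- `L(t) = E[P_x² + 6b(1-2V)P² + 6b²V²(1-V)²]` (no-gap functional of 413) -/
def Ls (A : SD) (x0 : ℝ) (p : ℝ → ℝ → ℝ) (t : ℝ) : ℝ :=
  ex x0 p t (fun x => A.Px t x ^ 2 + 6 * A.b t * (1 - 2 * A.V t x) * A.P t x ^ 2 +
    6 * A.b t ^ 2 * A.V t x ^ 2 * (1 - A.V t x) ^ 2)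

/-- **SCAL**: the scalar identities (from `Back`, `Clock`, `Law`). `K = N - 2 b Z`. -/
structure Scal (A : SD) (x0 : ℝ) (p : ℝ → ℝ → ℝ) : Prop where
  Ts_t : ∀ t ∈ Ico 0 A.T,
    HasDerivWithinAt (Ts A x0 p) (Ns A x0 p t - 2 * A.b t * Zs A x0 p t) (Ici t) t
  Qs_t : ∀ t ∈ Ico 0 A.T, HasDerivWithinAt (Qs A x0 p)
    (-A.b t * Qs A x0 p t - (Ns A x0 p t - 2 * A.b t * Zs A x0 p t)) (Ici t) t
  Lams_t : ∀ t ∈ Icc 0 A.T, HasDerivWithinAt (Lams A x0 p) (A.E t ^ 2 * Ts A x0 p t) (Icc 0 A.T) t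
  Cs_t : ∀ t ∈ Icc 0 A.T, HasDerivWithinAt (Cs A x0 p) (-(A.E t * Qs A x0 p t)) (Icc 0 A.T) t
  mean_lam : ∀ t ∈ Icc 0 A.T, A.E t * ex x0 p t (A.u t) = A.E 0 * A.u 0 x0
  mean_h : ∀ t ∈ Icc 0 A.T, ex x0 p t (A.w t) = A.w 0 x0
  cont : ContinuousOn (Ts A x0 p) (Icc 0 A.T) ∧ ContinuousOn (Qs A x0 p) (Icc 0 A.T) ∧
    ContinuousOn (Ns A x0 p) (Icc 0 A.T) ∧ ContinuousOn (Zs A x0 p) (Icc 0 A.T)
  /-- 546's identity: on a cell `(K D²)' = D² L` -/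
  K_t : ∀ t ∈ Ico 0 A.T, HasDerivWithinAt (fun s => Ns A x0 p s - 2 * A.b s * Zs A x0 p s)
    (2 * A.b t * (Ns A x0 p t - 2 * A.b t * Zs A x0 p t) + Ls A x0 p t) (Ici t) t

/-- **CLK**: the clock functions. -/
structure Clock (A : SD) : Prop where
  D_cont : Continuous A.D
  D_anti : Antitone A.D
  D_t : ∀ t ∈ Ico 0 A.T, HasDerivWithinAt A.D (-A.m t) (Ici t) t
  D_tl : ∀ t ∈ Ioc 0 A.T, HasDerivWithinAt A.D (-A.ml t) (Iic t) t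
  K0_t : ∀ t ∈ Icc 0 A.T, HasDerivAt A.K0 (-A.E t) t
  K0_pos : ∀ t, t < 1 → 0 < A.K0 t
  K0_T : A.K0 A.T = A.dl / A.d
  chi_pos : ∀ t, t < 1 → 0 < A.chi t
  chi_T : A.chi A.T = A.dl
  chi_t : ∀ t ∈ Ico 0 A.T, HasDerivWithinAt A.chi (-(1 + A.m t * A.K0 t)) (Ici t) t
  chi_tl : ∀ t ∈ Ioc 0 A.T, HasDerivWithinAt A.chi (-(1 + A.ml t * A.K0 t)) (Iic t) t

end

end Crest.Agent.R146.StepDef_791
private theorem rz_4d40207b15 : type_of% @_root_.Crest.Agent.R146.StepDef_791.Dc.eq_def := @_root_.Crest.Agent.R146.StepDef_791.Dc.eq_def -- L54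
private theorem rz_13b3b33a69 : type_of% @_root_.Crest.Agent.R146.StepDef_791.Dc.eq_1 := @_root_.Crest.Agent.R146.StepDef_791.Dc.eq_1 -- L54
private theorem rz_4840376949 : type_of% @_root_.Crest.Agent.R146.StepDef_791.Psc.eq_def := @_root_.Crest.Agent.R146.StepDef_791.Psc.eq_def -- L59
private theorem rz_80d806c907 : type_of% @_root_.Crest.Agent.R146.StepDef_791.Psc.eq_1 := @_root_.Crest.Agent.R146.StepDef_791.Psc.eq_1 -- L59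
private theorem rz_e69d3599fe : type_of% @_root_.Crest.Agent.R146.StepDef_791.mlc.eq_def := @_root_.Crest.Agent.R146.StepDef_791.mlc.eq_def -- L49
private theorem rz_612f9c59ec : type_of% @_root_.Crest.Agent.R146.StepDef_791.mlc.eq_1 := @_root_.Crest.Agent.R146.StepDef_791.mlc.eq_1 -- L49
private theorem rz_f260934204 : type_of% @_root_.Crest.Agent.R146.StepDef_791.mrc.eq_def := @_root_.Crest.Agent.R146.StepDef_791.mrc.eq_def -- L44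
private theorem rz_d0b447eaa6 : type_of% @_root_.Crest.Agent.R146.StepDef_791.mrc.eq_1 := @_root_.Crest.Agent.R146.StepDef_791.mrc.eq_1 -- L44
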