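import Crest.Agent.R146.PB_534
import Mathlib
import Crest.Prelude.Def_InvariantGlass
import Crest.Agent.R146.StepDef_791
import Crest.Agent.R146.StepStart_483

-- ▼ part R146/R1a_847
section

/-!
Row 146, PT0-R1 (helper847), part a: tilted Gaussian averages
`T z f s φ x = E[φ e^{z f}(x + s G)] / E[e^{z f}(x + s G)]` (design of helper534, post 698):
derivatives in `x` and in the variance, Stein identity, moment bounds, uniform polynomial growth,
`Sm` closure, joint continuity.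
-/

set_option autoImplicit false

namespace Crest.Agent.R146.R1a_847

open MeasureTheory ProbabilityTheory Filter Topology Set
open Crest.Agent.R146.Hg_534 Crest.Agent.R146.PB_534

noncomputable section

/-- the weight `e^{z f}` -/
def gz (z : ℝ) (f : ℝ → ℝ) : ℝ → ℝ := fun y => Real.exp (z * f y)

theorem gz_pos (z : ℝ) (f : ℝ → ℝ) (y : ℝ) : 0 < gz z f y := Real.exp_pos _

theorem gz_le_one {z : ℝ} {f : ℝ → ℝ} (hz : 0 ≤ z) (h0 : ∀ x, f x ≤ 0) (y : ℝ) : gz z f y ≤ 1 := by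
  unfold gz
  rw [Real.exp_le_one_iff]
  exact mul_nonpos_of_nonneg_of_nonpos hz (h0 y)

theorem gz_hd {z : ℝ} {f : ℝ → ℝ} (hf : Sm f) (y : ℝ) :
    HasDerivAt (gz z f) (z * deriv f y * gz z f y) y := by
  have := ((hf.hd y).const_mul z).exp
  rw [mul_comm] at this
  exact this

theorem Sm_gz {z : ℝ} {f : ℝ → ℝ} (hz : 0 ≤ z) (hf : Sm f) (h0 : ∀ x, f x ≤ 0) : Sm (gz z f) := by
  have hpg : PG (gz z f) := by
    refine PG.of_bdd (K := 1) ?_ ?_
    · unfold gz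
      have := hf.cont
      fun_prop
    · intro x
      rw [abs_of_pos (gz_pos z f x)]
      exact gz_le_one hz h0 x
  have hdv : deriv (gz z f) = fun y => z * deriv f y * gz z f y := by
    funext y; exact (gz_hd hf y).deriv
  intro n
  induction n with
  | zero => exact hpg
  | succ n ih =>
    refine ⟨hpg, fun x => (gz_hd hf x).differentiableAt, ?_⟩
    rw [hdv]
    exact PB.mul ((hf.deriv.const_mul z) n) ih

/-- the tilted derivative `φ' + z f' φ` -/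
def dz (z : ℝ) (f φ : ℝ → ℝ) : ℝ → ℝ := fun y => deriv φ y + z * deriv f y * φ y

theorem Sm_dz {z : ℝ} {f φ : ℝ → ℝ} (hf : Sm f) (hφ : Sm φ) : Sm (dz z f φ) :=
  hφ.deriv.add ((hf.deriv.const_mul z).mul hφ)

theorem hd_mul_gz {z : ℝ} {f φ : ℝ → ℝ} (hf : Sm f) (hφ : Sm φ) (y : ℝ) :
    HasDerivAt (fun y => φ y * gz z f y) (dz z f φ y * gz z f y) y := by
  have := (hφ.hd y).mul (gz_hd (z := z) hf y)
  have e : deriv φ y * gz z f y + φ y * (z * deriv f y * gz z f y) =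
      dz z f φ y * gz z f y := by
    unfold dz; ring
  rw [e] at this
  exact this

/-- tilted average -/
def T (z : ℝ) (f : ℝ → ℝ) (s : ℝ) (φ : ℝ → ℝ) (x : ℝ) : ℝ :=
  H s (fun y => φ y * gz z f y) x / H s (gz z f) x

/-- standing assumptions on the weight -/
structure W (z : ℝ) (f : ℝ → ℝ) : Prop where
  hz : 0 ≤ z
  sm : Sm f
  nonpos : ∀ x, f x ≤ 0

variable {z : ℝ} {f : ℝ → ℝ}

theorem W.smg (h : W z f) : Sm (gz z f) := Sm_gz h.hz h.sm h.nonpos

theorem W.egg (h : W z f) : EG (gz z f) := h.smg.pg.eg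

theorem W.eg {φ : ℝ → ℝ} (h : W z f) (hφ : PG φ) : EG (fun y => φ y * gz z f y) :=
  (hφ.mul h.smg.pg).eg

theorem W.Hpos (h : W z f) (s x : ℝ) : 0 < H s (gz z f) x := H_pos h.egg (gz_pos z f) s x

theorem T_add (h : W z f) {φ ψ : ℝ → ℝ} (hφ : PG φ) (hψ : PG ψ) (s x : ℝ) :
    T z f s (fun y => φ y + ψ y) x = T z f s φ x + T z f s ψ x := by
  unfold T
  rw [← add_div, ← H_add (h.eg hφ) (h.eg hψ)]
  congr 2
  funext y; ring

theorem T_sub (h : W z f) {φ ψ : ℝ → ℝ} (hφ : PG φ) (hψ : PG ψ) (s x : ℝ) :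
    T z f s (fun y => φ y - ψ y) x = T z f s φ x - T z f s ψ x := by
  unfold T
  rw [← sub_div, ← H_sub (h.eg hφ) (h.eg hψ)]
  congr 2
  funext y; ring

theorem T_const_mul (φ : ℝ → ℝ) (c s x : ℝ) :
    T z f s (fun y => c * φ y) x = c * T z f s φ x := by
  unfold T
  rw [← mul_div_assoc, ← H_const_mul]
  congr 2
  funext y; ring

theorem T_const (h : W z f) (c s x : ℝ) : T z f s (fun _ => c) x = c := by
  unfold T
  rw [H_const_mul, mul_div_assoc, div_self (h.Hpos s x).ne', mul_one]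

theorem T_mono (h : W z f) {φ ψ : ℝ → ℝ} (hφ : PG φ) (hψ : PG ψ) (hle : ∀ y, φ y ≤ ψ y) (s x : ℝ) :
    T z f s φ x ≤ T z f s ψ x := by
  unfold T
  refine div_le_div_of_nonneg_right ?_ (h.Hpos s x).le
  exact H_mono (h.eg hφ) (h.eg hψ) (fun y => mul_le_mul_of_nonneg_right (hle y) (gz_pos z f y).le) s x

theorem T_nonneg (h : W z f) {φ : ℝ → ℝ} (hφ : PG φ) (hle : ∀ y, 0 ≤ φ y) (s x : ℝ) :
    0 ≤ T z f s φ x := by
  have := T_mono h (PG.const 0) hφ hle s x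
  rwa [T_const h] at this

theorem T_abs (h : W z f) {φ : ℝ → ℝ} (hφ : PG φ) (s x : ℝ) :
    |T z f s φ x| ≤ T z f s (fun y => |φ y|) x := by
  rw [abs_le]
  constructor
  · have h1 := T_mono h (PG.neg hφ.abs) hφ (fun y => neg_abs_le (φ y)) s x
    have h2 : T z f s (fun y => -|φ y|) x = -T z f s (fun y => |φ y|) x := by
      have := T_const_mul (z := z) (f := f) (fun y => |φ y|) (-1) s x
      simpa using this
    rw [h2] at h1
    exact h1
  · exact T_mono h hφ hφ.abs (fun y => le_abs_self (φ y)) s x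

theorem T_zero (φ : ℝ → ℝ) (x : ℝ) : T z f 0 φ x = φ x := by
  unfold T
  rw [H_zero, H_zero, mul_div_assoc, div_self (gz_pos z f x).ne', mul_one]

/-- strict positivity (Gaussian of full support, `s ≠ 0`) -/
theorem H_pos_of {φ : ℝ → ℝ} (hφ : EG φ) (h : ∀ y, 0 ≤ φ y) {y0 : ℝ} (h0 : 0 < φ y0) {s : ℝ}
    (hs : s ≠ 0) (x : ℝ) : 0 < H s φ x := by
  unfold H
  rw [integral_pos_iff_support_of_nonneg (fun _ => h _) (hφ.int s x)]
  have hc : Continuous (fun g : ℝ => φ (x + s * g)) := by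
    have := hφ.cont
    fun_prop
  have hopen : IsOpen (Function.support (fun g : ℝ => φ (x + s * g))) := hc.isOpen_support
  have hne : (Function.support (fun g : ℝ => φ (x + s * g))).Nonempty := by
    refine ⟨(y0 - x) / s, ?_⟩
    have e : x + s * ((y0 - x) / s) = y0 := by
      field_simp; ring
    simp only [Function.mem_support, e]
    exact h0.ne'
  rw [pos_iff_ne_zero]
  intro h0
  have hac : (volume : Measure ℝ) ≪ gaussianReal 0 1 :=
    gaussianReal_absolutelyContinuous' 0 one_ne_zero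
  exact (hopen.measure_pos volume hne).ne' (hac h0)

theorem T_pos (h : W z f) {φ : ℝ → ℝ} (hφ : PG φ) (hle : ∀ y, 0 ≤ φ y) {y0 : ℝ} (h0 : 0 < φ y0)
    {s : ℝ} (hs : s ≠ 0) (x : ℝ) : 0 < T z f s φ x := by
  unfold T
  refine div_pos ?_ (h.Hpos s x)
  exact H_pos_of (h.eg hφ) (fun y => mul_nonneg (hle y) (gz_pos z f y).le)
    (mul_pos h0 (gz_pos z f y0)) hs x

theorem T_cont (h : W z f) {φ : ℝ → ℝ} (hφ : PG φ) :
    Continuous (fun p : ℝ × ℝ => T z f p.1 φ p.2) := by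
  unfold T
  exact (H_continuous (h.eg hφ)).div (H_continuous h.egg) (fun p => (h.Hpos p.1 p.2).ne')

/-- derivative in the position -/
theorem T_hd_x (h : W z f) {φ : ℝ → ℝ} (hφ : Sm φ) (s x : ℝ) :
    HasDerivAt (fun x => T z f s φ x)
      (T z f s (dz z f φ) x - T z f s φ x * T z f s (dz z f (fun _ => 1)) x) x := by
  have h1 := H_deriv_x (h.eg hφ.pg) (h.eg (Sm_dz h.sm hφ).pg) (hd_mul_gz h.sm hφ) s x
  have h2 := H_deriv_x (h.eg (PG.const 1)) (h.eg (Sm_dz h.sm (Sm.const 1)).pg)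
    (hd_mul_gz h.sm (Sm.const 1)) s x
  have e : (fun y => (1 : ℝ) * gz z f y) = gz z f := by funext y; ring
  rw [e] at h2
  have h3 := h1.div h2 (h.Hpos s x).ne'
  refine h3.congr_deriv ?_
  unfold T
  have := (h.Hpos s x).ne'
  field_simp

/-- derivative in the variance -/
theorem T_hd_v_pos (h : W z f) {φ : ℝ → ℝ} (hφ : Sm φ) {v : ℝ} (hv : 0 < v) (x : ℝ) :
    HasDerivAt (fun v => T z f (Real.sqrt v) φ x)
      (1 / 2 * (T z f (Real.sqrt v) (dz z f (dz z f φ)) x -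
        T z f (Real.sqrt v) φ x * T z f (Real.sqrt v) (dz z f (dz z f (fun _ => 1))) x)) v := by
  have s1 := Sm_dz (z := z) h.sm hφ
  have s2 := Sm_dz (z := z) h.sm (Sm.const 1)
  have h1 := H_deriv_v (h.eg hφ.pg) (h.eg s1.pg) (h.eg (Sm_dz h.sm s1).pg)
    (hd_mul_gz h.sm hφ) (hd_mul_gz h.sm s1) hv x
  have h2 := H_deriv_v (h.eg (PG.const 1)) (h.eg s2.pg) (h.eg (Sm_dz h.sm s2).pg)
    (hd_mul_gz h.sm (Sm.const 1)) (hd_mul_gz h.sm s2) hv x
  have e : (fun y => (1 : ℝ) * gz z f y) = gz z f := by funext y; ring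
  rw [e] at h2
  have h3 := h1.div h2 (h.Hpos (Real.sqrt v) x).ne'
  refine h3.congr_deriv ?_
  unfold T
  have := (h.Hpos (Real.sqrt v) x).ne'
  field_simp

/-- derivative in the variance, one-sided at `0` -/
theorem T_hd_v (h : W z f) {φ : ℝ → ℝ} (hφ : Sm φ) {v : ℝ} (hv : 0 ≤ v) (x : ℝ) :
    HasDerivWithinAt (fun v => T z f (Real.sqrt v) φ x)
      (1 / 2 * (T z f (Real.sqrt v) (dz z f (dz z f φ)) x -
        T z f (Real.sqrt v) φ x * T z f (Real.sqrt v) (dz z f (dz z f (fun _ => 1))) x)) (Ici 0) v := by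
  rcases hv.lt_or_eq with hv | hv
  · exact (T_hd_v_pos h hφ hv x).hasDerivWithinAt
  · subst hv
    have s1 := Sm_dz (z := z) h.sm hφ
    have s2 := Sm_dz (z := z) h.sm (Sm.const 1)
    have s11 := Sm_dz (z := z) h.sm s1
    have s22 := Sm_dz (z := z) h.sm s2
    have c0 : ∀ {φ : ℝ → ℝ}, PG φ → Continuous (fun v : ℝ => T z f (Real.sqrt v) φ x) := by
      intro φ hφ
      exact (T_cont h hφ).comp ((Real.continuous_sqrt).prodMk continuous_const)
    refine hasDerivWithinAt_Ici_of_tendsto_deriv (s := Ioi 0) ?_ ?_ self_mem_nhdsWithin ?_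
    · intro v hv
      exact (T_hd_v_pos h hφ hv x).differentiableAt.differentiableWithinAt
    · exact (c0 hφ.pg).continuousWithinAt
    · have h1 : Tendsto (fun v => 1 / 2 * (T z f (Real.sqrt v) (dz z f (dz z f φ)) x -
          T z f (Real.sqrt v) φ x * T z f (Real.sqrt v) (dz z f (dz z f (fun _ => 1))) x)) (𝓝[>] 0)
          (𝓝 (1 / 2 * (T z f (Real.sqrt 0) (dz z f (dz z f φ)) x -
          T z f (Real.sqrt 0) φ x * T z f (Real.sqrt 0) (dz z f (dz z f (fun _ => 1))) x))) := by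
        have hc : Continuous (fun v => 1 / 2 * (T z f (Real.sqrt v) (dz z f (dz z f φ)) x -
          T z f (Real.sqrt v) φ x * T z f (Real.sqrt v) (dz z f (dz z f (fun _ => 1))) x)) :=
          continuous_const.mul ((c0 s11.pg).sub ((c0 hφ.pg).mul (c0 s22.pg)))
        exact (hc.tendsto 0).mono_left nhdsWithin_le_nhds
      refine h1.congr' ?_
      filter_upwards [self_mem_nhdsWithin] with v hv
      exact (T_hd_v_pos h hφ hv x).deriv.symm

/-- **Stein identity** for the tilted law -/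
theorem T_stein (h : W z f) {φ : ℝ → ℝ} (hφ : Sm φ) (s x : ℝ) :
    T z f s (fun y => (y - x) * φ y) x = s ^ 2 * T z f s (dz z f φ) x := by
  have h1 := stein (h.eg hφ.pg) (h.eg (Sm_dz h.sm hφ).pg) (hd_mul_gz h.sm hφ) s x
  unfold T
  rw [← mul_div_assoc]
  congr 1
  have h2 : s ^ 2 * H s (fun y => dz z f φ y * gz z f y) x =
      s * ∫ g, g * (φ (x + s * g) * gz z f (x + s * g)) ∂gaussianReal 0 1 := by
    rw [h1]; ring
  rw [h2, ← integral_const_mul]
  unfold H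
  refine integral_congr_ae (Eventually.of_forall fun g => ?_)
  simp only
  ring

/-- covariance form of the derivative: `s² ∂_x⟨φ⟩ = ⟨(y - ⟨y⟩) φ⟩` -/
theorem T_cov (h : W z f) {φ : ℝ → ℝ} (hφ : Sm φ) (s x : ℝ) :
    s ^ 2 * (T z f s (dz z f φ) x - T z f s φ x * T z f s (dz z f (fun _ => 1)) x) =
      T z f s (fun y => (y - T z f s (fun y => y) x) * φ y) x := by
  have h1 := T_stein h hφ s x
  have h2 := T_stein h (Sm.const 1) s x
  set m := T z f s (fun y => y) x with hm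
  have e1 : T z f s (fun y => (y - x) * 1) x = m - x := by
    have : (fun y : ℝ => (y - x) * 1) = fun y => y - x := by funext y; ring
    rw [this, T_sub h PG.id (PG.const x), T_const h]
  rw [e1] at h2
  have e2 : T z f s (fun y => (y - m) * φ y) x =
      T z f s (fun y => (y - x) * φ y) x - (m - x) * T z f s φ x := by
    have : (fun y : ℝ => (y - m) * φ y) = fun y => (y - x) * φ y - (m - x) * φ y := by
      funext y; ring
    rw [this, T_sub h ((PG.id.sub (PG.const x)).mul hφ.pg) (hφ.pg.const_mul _), T_const_mul]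
  rw [e2, h1, h2]
  ring

theorem T_y (h : W z f) (s x : ℝ) :
    T z f s (fun y => y) x = x + s ^ 2 * z * T z f s (deriv f) x := by
  have h2 := T_stein h (Sm.const 1) s x
  have : (fun y : ℝ => (y - x) * 1) = fun y => y - x := by funext y; ring
  rw [this, T_sub h PG.id (PG.const x), T_const h] at h2
  have e : dz z f (fun _ => 1) = fun y => z * deriv f y := by
    funext y; unfold dz; simp
  rw [e, T_const_mul] at h2
  linarith


/-- strict version -/
theorem T_deriv_pos (h : W z f) {φ : ℝ → ℝ} (hφ : Sm φ) (hm : StrictMono φ) {s : ℝ} (hs : s ≠ 0)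
    (x : ℝ) :
    0 < T z f s (dz z f φ) x - T z f s φ x * T z f s (dz z f (fun _ => 1)) x := by
  have h1 := T_cov h hφ s x
  set m := T z f s (fun y => y) x with hmd
  have h2 : 0 < T z f s (fun y => (y - m) * φ y) x := by
    have e : T z f s (fun y => (y - m) * φ y) x = T z f s (fun y => (y - m) * (φ y - φ m)) x := by
      have e1 : (fun y : ℝ => (y - m) * (φ y - φ m)) = fun y => (y - m) * φ y - φ m * (y - m) := by
        funext y; ring
      rw [e1, T_sub h ((PG.id.sub (PG.const m)).mul hφ.pg) ((PG.id.sub (PG.const m)).const_mul _),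
        T_const_mul, T_sub h PG.id (PG.const m), T_const h, ← hmd]
      ring
    rw [e]
    refine T_pos h ((PG.id.sub (PG.const m)).mul (hφ.pg.sub (PG.const _))) (fun y => ?_)
      (y0 := m + 1) ?_ hs x
    · rcases le_total m y with hy | hy
      · exact mul_nonneg (by linarith) (by linarith [hm.monotone hy])
      · exact mul_nonneg_of_nonpos_of_nonpos (by linarith) (by linarith [hm.monotone hy])
    · have := hm (lt_add_one m)
      exact mul_pos (by linarith) (by linarith)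
  rw [← h1] at h2
  have hs2 : 0 < s ^ 2 := by positivity
  exact (mul_pos_iff_of_pos_left hs2).1 h2

end

end Crest.Agent.R146.R1a_847
end

-- ▼ part R146/R1b_847
section

/-!
Row 146, PT0-R1 (helper847), part b: moments of the tilted law, uniform polynomial growth, `Sm` closure,
the tower `r n = ⟨d^n 1⟩` and the cumulants `p1..p5` of the Cole-Hopf function.
-/

set_option autoImplicit false

namespace Crest.Agent.R146.R1b_847

open MeasureTheory ProbabilityTheory Filter Topology Set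
open Crest.Agent.R146.Hg_534 Crest.Agent.R146.PB_534 Crest.Agent.R146.R1a_847

noncomputable section

variable {z : ℝ} {f : ℝ → ℝ}

/-- weight with `f' ≥ 0` decreasing -/
structure WM (z : ℝ) (f : ℝ → ℝ) : Prop extends W z f where
  d1 : ∀ x, 0 ≤ deriv f x
  anti : Antitone (deriv f)

theorem Sm_shift_pow (x : ℝ) (n : ℕ) : Sm (fun y => (y - x) ^ n) := (Sm.id.sub (Sm.const x)).pow n

theorem deriv_shift_pow (x : ℝ) (n : ℕ) (y : ℝ) :
    deriv (fun y => (y - x) ^ (n + 1)) y = (n + 1) * (y - x) ^ n := by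
  have := ((hasDerivAt_id' y).sub_const x).fun_pow (n + 1)
  simpa using this.deriv

theorem mom_rec (h : WM z f) (s x : ℝ) (n : ℕ) :
    T z f s (fun y => (y - x) ^ (2 * (n + 1))) x ≤
      (2 * (2 * n + 1) * s ^ 2 + (s ^ 2 * z * deriv f x) ^ 2) *
        T z f s (fun y => (y - x) ^ (2 * n)) x := by
  have h0 := h.toW
  set c := s ^ 2 * z * deriv f x with hc
  have hc0 : 0 ≤ c := mul_nonneg (mul_nonneg (sq_nonneg s) h.hz) (h.d1 x)
  have h1 := T_stein h0 (Sm_shift_pow x (2 * n + 1)) s x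
  have e1 : (fun y : ℝ => (y - x) * (y - x) ^ (2 * n + 1)) = fun y => (y - x) ^ (2 * (n + 1)) := by
    funext y; ring
  rw [e1, ← T_const_mul] at h1
  have h2 : T z f s (fun y => (y - x) ^ (2 * (n + 1))) x ≤
      T z f s (fun y => ((2 * n + 1) * s ^ 2 + c ^ 2 / 2) * (y - x) ^ (2 * n) +
        1 / 2 * (y - x) ^ (2 * (n + 1))) x := by
    rw [h1]
    refine T_mono h0 ((Sm_dz h0.sm (Sm_shift_pow x (2 * n + 1))).pg.const_mul _)
      (((Sm_shift_pow x (2 * n)).pg.const_mul _).add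
        ((Sm_shift_pow x (2 * (n + 1))).pg.const_mul _)) (fun y => ?_) s x
    unfold dz
    rw [deriv_shift_pow]
    set d := y - x with hd
    have hdn : 0 ≤ d ^ (2 * n) := by rw [pow_mul]; positivity
    have key : deriv f y * d ^ (2 * n + 1) ≤ deriv f x * |d| * d ^ (2 * n) := by
      rcases le_total 0 d with hy | hy
      · rw [abs_of_nonneg hy, pow_succ]
        have h3 : deriv f y ≤ deriv f x := h.anti (by linarith)
        have h4 : 0 ≤ d ^ (2 * n) * d := mul_nonneg hdn hy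
        nlinarith
      · have h3 : deriv f y * d ^ (2 * n + 1) ≤ 0 := by
          rw [pow_succ]
          exact mul_nonpos_of_nonneg_of_nonpos (h.d1 y) (mul_nonpos_of_nonneg_of_nonpos hdn hy)
        have h4 : 0 ≤ deriv f x * |d| * d ^ (2 * n) :=
          mul_nonneg (mul_nonneg (h.d1 x) (abs_nonneg d)) hdn
        linarith
    have key2 : s ^ 2 * z * (deriv f y * d ^ (2 * n + 1)) ≤ c * |d| * d ^ (2 * n) := by
      have h3 : 0 ≤ s ^ 2 * z := mul_nonneg (sq_nonneg s) h.hz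
      have := mul_le_mul_of_nonneg_left key h3
      rw [hc]
      linarith
    have key3 : c * |d| * d ^ (2 * n) ≤ (c ^ 2 / 2 + d ^ 2 / 2) * d ^ (2 * n) := by
      refine mul_le_mul_of_nonneg_right ?_ hdn
      nlinarith [sq_nonneg (c - |d|), sq_abs d]
    have e2 : d ^ (2 * (n + 1)) = d ^ 2 * d ^ (2 * n) := by ring
    rw [e2]
    push_cast
    nlinarith
  rw [T_add h0 ((Sm_shift_pow x (2 * n)).pg.const_mul _)
    ((Sm_shift_pow x (2 * (n + 1))).pg.const_mul _), T_const_mul, T_const_mul] at h2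
  nlinarith

theorem mom_nonneg (h : WM z f) (s x : ℝ) (n : ℕ) :
    0 ≤ T z f s (fun y => (y - x) ^ (2 * n)) x :=
  T_nonneg h.toW (Sm_shift_pow x (2 * n)).pg (fun y => by rw [pow_mul]; positivity) s x

theorem mom_le (h : WM z f) (s x : ℝ) (N : ℕ) : ∀ n ≤ N,
    T z f s (fun y => (y - x) ^ (2 * n)) x ≤
      (4 * N * s ^ 2 + (s ^ 2 * z * deriv f x) ^ 2) ^ n := by
  intro n
  induction n with
  | zero =>
    intro _
    simp only [Nat.mul_zero, pow_zero]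
    rw [T_const h.toW]
  | succ n ih =>
    intro hn
    have h1 := ih (by omega)
    have h2 := mom_rec h s x n
    have h3 : (2 * (2 * n + 1) * s ^ 2 + (s ^ 2 * z * deriv f x) ^ 2) ≤
        (4 * N * s ^ 2 + (s ^ 2 * z * deriv f x) ^ 2) := by
      have h4 : (2 * (2 * n + 1) : ℝ) ≤ 4 * N := by
        have : ((n : ℝ) + 1) ≤ N := by exact_mod_cast hn
        linarith
      have := mul_le_mul_of_nonneg_right h4 (sq_nonneg s)
      linarith
    have h5 := mom_nonneg h s x n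
    have h6 : 0 ≤ (4 * N * s ^ 2 + (s ^ 2 * z * deriv f x) ^ 2) := by positivity
    calc T z f s (fun y => (y - x) ^ (2 * (n + 1))) x
        ≤ (2 * (2 * n + 1) * s ^ 2 + (s ^ 2 * z * deriv f x) ^ 2) *
          T z f s (fun y => (y - x) ^ (2 * n)) x := h2
      _ ≤ (4 * N * s ^ 2 + (s ^ 2 * z * deriv f x) ^ 2) *
          (4 * N * s ^ 2 + (s ^ 2 * z * deriv f x) ^ 2) ^ n :=
          mul_le_mul h3 h1 h5 h6
      _ = _ := by ring

theorem base_pow_le (x y : ℝ) (m : ℕ) :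
    (1 + |y|) ^ m ≤ 4 ^ m * ((1 + |x|) ^ (2 * m) + (y - x) ^ (2 * m)) := by
  have h1 : 1 + |y| ≤ (1 + |y|) ^ 2 := by
    have := abs_nonneg y
    nlinarith
  have h0 : 0 ≤ 1 + |y| := by positivity
  have h2 : (1 + |y|) ^ 2 ≤ 2 * (1 + |x|) ^ 2 + 2 * (y - x) ^ 2 := by
    have h3 : |y| ≤ |x| + |y - x| := by
      have := abs_add_le x (y - x)
      simpa using this
    have h4 : 1 + |y| ≤ (1 + |x|) + |y - x| := by linarith
    have h5 : (1 + |y|) ^ 2 ≤ ((1 + |x|) + |y - x|) ^ 2 := pow_le_pow_left₀ h0 h4 2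
    nlinarith [sq_nonneg ((1 + |x|) - |y - x|), sq_abs (y - x)]
  calc (1 + |y|) ^ m ≤ (2 * (1 + |x|) ^ 2 + 2 * (y - x) ^ 2) ^ m :=
        pow_le_pow_left₀ h0 (h1.trans h2) m
    _ ≤ 2 ^ (m - 1) * ((2 * (1 + |x|) ^ 2) ^ m + (2 * (y - x) ^ 2) ^ m) :=
        add_pow_le (by positivity) (by positivity) m
    _ ≤ 2 ^ m * ((2 * (1 + |x|) ^ 2) ^ m + (2 * (y - x) ^ 2) ^ m) := by
        refine mul_le_mul_of_nonneg_right ?_ (by positivity)
        exact pow_le_pow_right₀ (by norm_num) (Nat.sub_le m 1)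
    _ = _ := by
        rw [mul_pow, mul_pow, ← pow_mul, ← pow_mul]
        have : (4 : ℝ) ^ m = 2 ^ m * 2 ^ m := by rw [← mul_pow]; norm_num
        rw [this]; ring

/-- **uniform polynomial growth of tilted averages** -/
theorem T_growth (h : WM z f) {φ : ℝ → ℝ} (hφ : PG φ) (S : ℝ) :
    ∃ (C : ℝ) (n : ℕ), 0 ≤ C ∧ ∀ s, |s| ≤ S → ∀ x, |T z f s φ x| ≤ C * (1 + |x|) ^ n := by
  obtain ⟨C, m, hC, hb⟩ := hφ.bd
  obtain ⟨C1, k, hC1, hb1⟩ := h.sm.deriv.pg.bd
  have h0 := h.toW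
  refine ⟨C * (4 ^ m * (1 + (4 * m * S ^ 2 + (S ^ 2 * z * C1) ^ 2) ^ m)), 2 * m + 2 * k * m,
    ?_, fun s hs x => ?_⟩
  · positivity
  have hpg : PG (fun y => C * (1 + |y|) ^ m) :=
    (((PG.const 1).add PG.id.abs).pow m).const_mul C
  have hpg2 : PG (fun y => C * (4 ^ m * ((1 + |x|) ^ (2 * m) + (y - x) ^ (2 * m)))) :=
    (((PG.const _).add (Sm_shift_pow x (2 * m)).pg).const_mul _).const_mul _
  have h1 : |T z f s φ x| ≤ C * (4 ^ m * ((1 + |x|) ^ (2 * m) +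
      T z f s (fun y => (y - x) ^ (2 * m)) x)) := by
    calc |T z f s φ x| ≤ T z f s (fun y => |φ y|) x := T_abs h0 hφ s x
      _ ≤ T z f s (fun y => C * (1 + |y|) ^ m) x := T_mono h0 hφ.abs hpg hb s x
      _ ≤ T z f s (fun y => C * (4 ^ m * ((1 + |x|) ^ (2 * m) + (y - x) ^ (2 * m)))) x :=
          T_mono h0 hpg hpg2 (fun y => mul_le_mul_of_nonneg_left (base_pow_le x y m) hC) s x
      _ = _ := by
          rw [T_const_mul, T_const_mul, T_add h0 (PG.const _) (Sm_shift_pow x (2 * m)).pg,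
            T_const h0]
  refine h1.trans ?_
  have h2 := mom_le h s x m m le_rfl
  have hx := one_le_base x
  have hs2 : s ^ 2 ≤ S ^ 2 := by
    rw [← sq_abs s]
    exact pow_le_pow_left₀ (abs_nonneg s) hs 2
  have h3 : (4 * m * s ^ 2 + (s ^ 2 * z * deriv f x) ^ 2) ≤
      (4 * m * S ^ 2 + (S ^ 2 * z * C1) ^ 2) * (1 + |x|) ^ (2 * k) := by
    have h4 : s ^ 2 * z * deriv f x ≤ (S ^ 2 * z * C1) * (1 + |x|) ^ k := by
      have h5 : deriv f x ≤ C1 * (1 + |x|) ^ k := (le_abs_self _).trans (hb1 x)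
      have h6 : s ^ 2 * z ≤ S ^ 2 * z := mul_le_mul_of_nonneg_right hs2 h.hz
      calc s ^ 2 * z * deriv f x ≤ (S ^ 2 * z) * (C1 * (1 + |x|) ^ k) :=
            mul_le_mul h6 h5 (h.d1 x) (mul_nonneg (sq_nonneg S) h.hz)
        _ = _ := by ring
    have h5 : 0 ≤ s ^ 2 * z * deriv f x := mul_nonneg (mul_nonneg (sq_nonneg s) h.hz) (h.d1 x)
    have h6 : (s ^ 2 * z * deriv f x) ^ 2 ≤ (S ^ 2 * z * C1) ^ 2 * (1 + |x|) ^ (2 * k) := by
      calc (s ^ 2 * z * deriv f x) ^ 2 ≤ ((S ^ 2 * z * C1) * (1 + |x|) ^ k) ^ 2 :=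
            pow_le_pow_left₀ h5 h4 2
        _ = _ := by rw [mul_pow, ← pow_mul, mul_comm k 2]
    have h7 : (1 : ℝ) ≤ (1 + |x|) ^ (2 * k) := one_le_pow₀ hx
    have h8 : 4 * (m : ℝ) * s ^ 2 ≤ 4 * m * S ^ 2 * (1 + |x|) ^ (2 * k) := by
      calc 4 * (m : ℝ) * s ^ 2 ≤ 4 * m * S ^ 2 := mul_le_mul_of_nonneg_left hs2 (by positivity)
        _ = 4 * m * S ^ 2 * 1 := by ring
        _ ≤ _ := mul_le_mul_of_nonneg_left h7 (by positivity)
    linarith [h6, h8, add_mul (4 * (m : ℝ) * S ^ 2) ((S ^ 2 * z * C1) ^ 2) ((1 + |x|) ^ (2 * k))]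
  have h4 : T z f s (fun y => (y - x) ^ (2 * m)) x ≤
      (4 * m * S ^ 2 + (S ^ 2 * z * C1) ^ 2) ^ m * (1 + |x|) ^ (2 * k * m) := by
    refine h2.trans ?_
    calc (4 * m * s ^ 2 + (s ^ 2 * z * deriv f x) ^ 2) ^ m ≤
        ((4 * m * S ^ 2 + (S ^ 2 * z * C1) ^ 2) * (1 + |x|) ^ (2 * k)) ^ m :=
          pow_le_pow_left₀ (by positivity) h3 m
      _ = _ := by rw [mul_pow, ← pow_mul]
  have h5 : (1 + |x|) ^ (2 * m) ≤ (1 + |x|) ^ (2 * m + 2 * k * m) :=
    pow_le_pow_right₀ hx (by omega)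
  have h6 : (1 + |x|) ^ (2 * k * m) ≤ (1 + |x|) ^ (2 * m + 2 * k * m) :=
    pow_le_pow_right₀ hx (by omega)
  have h7 : (1 + |x|) ^ (2 * m) + T z f s (fun y => (y - x) ^ (2 * m)) x ≤
      (1 + (4 * m * S ^ 2 + (S ^ 2 * z * C1) ^ 2) ^ m) * (1 + |x|) ^ (2 * m + 2 * k * m) := by
    have h8 := mul_le_mul_of_nonneg_left h6
      (by positivity : 0 ≤ (4 * m * S ^ 2 + (S ^ 2 * z * C1) ^ 2) ^ m)
    linarith [add_mul (1 : ℝ) ((4 * m * S ^ 2 + (S ^ 2 * z * C1) ^ 2) ^ m)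
      ((1 + |x|) ^ (2 * m + 2 * k * m))]
  calc C * (4 ^ m * ((1 + |x|) ^ (2 * m) + T z f s (fun y => (y - x) ^ (2 * m)) x))
      ≤ C * (4 ^ m * ((1 + (4 * m * S ^ 2 + (S ^ 2 * z * C1) ^ 2) ^ m) *
        (1 + |x|) ^ (2 * m + 2 * k * m))) := by
        refine mul_le_mul_of_nonneg_left (mul_le_mul_of_nonneg_left h7 (by positivity)) hC
    _ = _ := by ring

/-- tilted averages of `Sm` functions are `Sm` -/
theorem T_Sm (h : WM z f) {φ : ℝ → ℝ} (hφ : Sm φ) (s : ℝ) : Sm (fun x => T z f s φ x) := by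
  have h0 := h.toW
  have hpg : ∀ {φ : ℝ → ℝ}, PG φ → PG (fun x => T z f s φ x) := by
    intro φ hφ
    obtain ⟨C, n, hC, hb⟩ := T_growth h hφ |s|
    refine ⟨?_, C, n, hC, fun x => hb s le_rfl x⟩
    exact (T_cont h0 hφ).comp (continuous_const.prodMk continuous_id)
  intro n
  induction n generalizing φ with
  | zero => exact hpg hφ.pg
  | succ n ih =>
    refine ⟨hpg hφ.pg, fun x => (T_hd_x h0 hφ s x).differentiableAt, ?_⟩
    have e : deriv (fun x => T z f s φ x) = fun x =>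
        T z f s (dz z f φ) x + (-1 * T z f s φ x) * T z f s (dz z f (fun _ => 1)) x := by
      funext x
      rw [(T_hd_x h0 hφ s x).deriv]
      ring
    rw [e]
    exact PB.add (ih (Sm_dz h0.sm hφ)) (PB.mul (PB.mul (PB.const n (-1)) (ih hφ))
      (ih (Sm_dz h0.sm (Sm.const 1))))

/-- `d^n 1` -/
def en (z : ℝ) (f : ℝ → ℝ) : ℕ → ℝ → ℝ
  | 0 => fun _ => 1
  | n + 1 => dz z f (en z f n)

theorem Sm_en (h : W z f) : ∀ n, Sm (en z f n)
  | 0 => Sm.const 1
  | n + 1 => Sm_dz h.sm (Sm_en h n)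

/-- the tower -/
def r (z : ℝ) (f : ℝ → ℝ) (n : ℕ) (s x : ℝ) : ℝ := T z f s (en z f n) x


theorem r_hd_x (h : W z f) (n : ℕ) (s x : ℝ) :
    HasDerivAt (r z f n s) (r z f (n + 1) s x - r z f n s x * r z f 1 s x) x :=
  T_hd_x h (Sm_en h n) s x

theorem r_hd_v (h : W z f) (n : ℕ) {v : ℝ} (hv : 0 ≤ v) (x : ℝ) :
    HasDerivWithinAt (fun v => r z f n (Real.sqrt v) x)
      (1 / 2 * (r z f (n + 2) (Real.sqrt v) x - r z f n (Real.sqrt v) x *
        r z f 2 (Real.sqrt v) x)) (Ici 0) v :=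
  T_hd_v h (Sm_en h n) hv x

theorem r_cont (h : W z f) (n : ℕ) : Continuous (fun p : ℝ × ℝ => r z f n (Real.sqrt p.1) p.2) := by
  have h1 := T_cont h (Sm_en h n).pg
  exact h1.comp ((Real.continuous_sqrt.comp continuous_fst).prodMk continuous_snd)

theorem r_Sm (h : WM z f) (n : ℕ) (s : ℝ) : Sm (r z f n s) := T_Sm h (Sm_en h.toW n) s

end

end Crest.Agent.R146.R1b_847
private theorem rz_607e003c5b : type_of% @_root_.Crest.Agent.R146.R1b_847.en.eq_def := @_root_.Crest.Agent.R146.R1b_847.en.eq_def -- L233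
end

-- ▼ part R146/MaxP_86
section

/-!
# Row 146: generic parabolic maximum principles (helper86)

* `mp_compact` : `[0,T] × D`, coefficients arbitrary (degenerate, unbounded), `c ≤ A`,
  `limsup u ≤ 0` at the boundary of `D` uniformly in time.
* `mp_growth` : whole line, polynomial growth.
* backward versions `mp_compact_back`, `mp_growth_back`.
-/

set_option autoImplicit false

noncomputable section

open Set Filter Topology

namespace Crest.Agent.R146.MaxP_86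

/-- first order condition and second order condition at an interior maximum of a function of one
variable which has a derivative near the point and a second derivative at the point. -/
theorem deriv_conditions_of_isMax {D : Set ℝ} (hD : IsOpen D) {f f' : ℝ → ℝ} {f'' x₀ : ℝ}
    (hx : x₀ ∈ D) (hf : ∀ x ∈ D, HasDerivAt f (f' x) x) (hf' : HasDerivAt f' f'' x₀)
    (hmax : ∀ x ∈ D, f x ≤ f x₀) : f' x₀ = 0 ∧ f'' ≤ 0 := by
  have hloc : IsLocalMax f x₀ := by
    filter_upwards [hD.mem_nhds hx] with x hxD using hmax x hxD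
  have h0 : f' x₀ = 0 := by
    have := hloc.hasDerivAt_eq_zero (hf x₀ hx)
    exact this
  refine ⟨h0, ?_⟩
  by_contra hpos
  push Not at hpos
  -- f' > 0 to the right of x₀
  have h1 : ∀ᶠ x in 𝓝[>] x₀, 0 < f' x := by
    have hslope := hasDerivAt_iff_tendsto_slope.1 hf'
    have h2 : ∀ᶠ x in 𝓝[≠] x₀, 0 < slope f' x₀ x := hslope.eventually (lt_mem_nhds hpos)
    have h3 : ∀ᶠ x in 𝓝[>] x₀, 0 < slope f' x₀ x :=
      h2.filter_mono (nhdsWithin_mono _ (fun y hy => ne_of_gt hy))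
    filter_upwards [h3, self_mem_nhdsWithin] with x hx1 hx2
    have hx2' : (0 : ℝ) < x - x₀ := sub_pos.2 hx2
    rw [slope_def_field, h0, sub_zero] at hx1
    exact (div_pos_iff_of_pos_right hx2').1 hx1
  have h4 : ∀ᶠ x in 𝓝[>] x₀, x ∈ D := (hD.mem_nhds hx |> fun h => nhdsWithin_le_nhds h)
  obtain ⟨δ, hδ, hball⟩ : ∃ δ > x₀, Ioo x₀ δ ⊆ {x | 0 < f' x ∧ x ∈ D} := by
    have := h1.and h4
    rw [eventually_iff] at this
    obtain ⟨δ, hδ, h⟩ := (mem_nhdsGT_iff_exists_Ioo_subset).1 this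
    exact ⟨δ, hδ, h⟩
  set y := (x₀ + δ) / 2 with hy
  have hδ' : x₀ < δ := hδ
  have hxy : x₀ < y := by rw [hy]; linarith
  have hyδ : y < δ := by rw [hy]; linarith
  have hmono : f x₀ < f y := by
    have hcont : ContinuousOn f (Icc x₀ y) := by
      intro x hx1
      rcases eq_or_lt_of_le hx1.1 with h | h
      · rw [← h]; exact (hf x₀ hx).continuousAt.continuousWithinAt
      · exact (hf x (hball ⟨h, lt_of_le_of_lt hx1.2 hyδ⟩).2).continuousAt.continuousWithinAt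
    have hsm : StrictMonoOn f (Icc x₀ y) := by
      apply strictMonoOn_of_deriv_pos (convex_Icc _ _) hcont
      intro x hx1
      rw [interior_Icc] at hx1
      have hm := hball (show x ∈ Ioo x₀ δ from ⟨hx1.1, hx1.2.trans hyδ⟩)
      rw [(hf x hm.2).deriv]
      exact hm.1
    exact hsm (left_mem_Icc.2 hxy.le) (right_mem_Icc.2 hxy.le) hxy
  have := hmax y (hball ⟨hxy, hyδ⟩).2
  linarith

/-- left derivative at a maximum over `[0, t]` is nonnegative -/
theorem left_deriv_nonneg_of_isMax {f : ℝ → ℝ} {f' t : ℝ} (ht : 0 < t)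
    (hf : HasDerivWithinAt f f' (Iic t) t) (hmax : ∀ s ∈ Icc 0 t, f s ≤ f t) : 0 ≤ f' := by
  have hslope := (hasDerivWithinAt_iff_tendsto_slope' (s := Iio t) (by simp)).1
    (hf.mono Iio_subset_Iic_self)
  refine ge_of_tendsto hslope ?_
  have h1 : ∀ᶠ s in 𝓝[<] t, s ∈ Ioo 0 t := Ioo_mem_nhdsLT ht
  filter_upwards [h1] with s hs
  rw [slope_def_field]
  have h2 : f s - f t ≤ 0 := sub_nonpos.2 (hmax s ⟨hs.1.le, hs.2.le⟩)
  have h3 : s - t < 0 := sub_neg.2 hs.2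
  exact div_nonneg_of_nonpos h2 h3.le

/-- **Parabolic maximum principle, compact version.**  `u` is a (sub)solution at the points where it
is positive; the coefficients are arbitrary except `0 ≤ a` and `c ≤ A`; `u` is asymptotically `≤ 0`
off compact subsets of `D`, uniformly in time. -/
theorem mp_compact {T A : ℝ} {D : Set ℝ} (hD : IsOpen D)
    {u ut ux uxx a B c : ℝ → ℝ → ℝ}
    (hcont : ContinuousOn (fun p : ℝ × ℝ => u p.1 p.2) (Icc 0 T ×ˢ D))
    (hut : ∀ t ∈ Ioc 0 T, ∀ x ∈ D, HasDerivWithinAt (fun s => u s x) (ut t x) (Iic t) t)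
    (hux : ∀ t ∈ Ioc 0 T, ∀ x ∈ D, HasDerivAt (fun y => u t y) (ux t x) x)
    (huxx : ∀ t ∈ Ioc 0 T, ∀ x ∈ D, HasDerivAt (fun y => ux t y) (uxx t x) x)
    (ha : ∀ t ∈ Ioc 0 T, ∀ x ∈ D, 0 < u t x → 0 ≤ a t x)
    (hc : ∀ t ∈ Ioc 0 T, ∀ x ∈ D, 0 < u t x → c t x ≤ A)
    (heq : ∀ t ∈ Ioc 0 T, ∀ x ∈ D, 0 < u t x →
      ut t x ≤ a t x * uxx t x + B t x * ux t x + c t x * u t x)
    (hinit : ∀ x ∈ D, u 0 x ≤ 0)
    (hbd : ∀ ε > 0, ∃ K : Set ℝ, IsCompact K ∧ K ⊆ D ∧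
      ∀ t ∈ Icc 0 T, ∀ x ∈ D, x ∉ K → u t x ≤ ε) :
    ∀ t ∈ Icc 0 T, ∀ x ∈ D, u t x ≤ 0 := by
  intro t₁ ht₁ x₁ hx₁
  by_contra hneg
  push Not at hneg
  -- `φ = exp (-M t) u`
  set M : ℝ := |A| + 1 with hM
  have hMpos : 0 < M := by positivity
  have hAM : A < M := by rw [hM]; linarith [le_abs_self A]
  set φ : ℝ × ℝ → ℝ := fun p => Real.exp (-M * p.1) * u p.1 p.2 with hφ
  have hT0 : 0 ≤ T := ht₁.1.trans ht₁.2
  set η := φ (t₁, x₁) with hη
  have hηpos : 0 < η := mul_pos (Real.exp_pos _) hneg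
  obtain ⟨K, hK, hKD, hKb⟩ := hbd (η / 2) (by positivity)
  have hx₁K : x₁ ∈ K := by
    by_contra hx
    have h1 := hKb t₁ ht₁ x₁ hx₁ hx
    have h2 : φ (t₁, x₁) ≤ u t₁ x₁ := by
      show Real.exp (-M * t₁) * u t₁ x₁ ≤ u t₁ x₁
      have : Real.exp (-M * t₁) ≤ 1 := Real.exp_le_one_iff.2 (by nlinarith [ht₁.1])
      nlinarith
    rw [← hη] at h2
    linarith
  have hφc : ContinuousOn φ (Icc 0 T ×ˢ K) := by
    apply ContinuousOn.mul
    · exact (Real.continuous_exp.comp (continuous_const.mul continuous_fst)).continuousOn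
    · exact hcont.mono (prod_mono_right hKD)
  obtain ⟨⟨t₀, x₀⟩, hm, hmax⟩ := (isCompact_Icc.prod hK).exists_isMaxOn
    ⟨(t₁, x₁), ⟨ht₁, hx₁K⟩⟩ hφc
  have ht₀ : t₀ ∈ Icc 0 T := hm.1
  have hx₀K : x₀ ∈ K := hm.2
  have hx₀ : x₀ ∈ D := hKD hx₀K
  have hmaxv : η ≤ φ (t₀, x₀) := hmax (show (t₁, x₁) ∈ Icc 0 T ×ˢ K from ⟨ht₁, hx₁K⟩)
  have hφ₀ : 0 < φ (t₀, x₀) := hηpos.trans_le hmaxv
  -- global maximality on `[0,T] × D`
  have hglob : ∀ t ∈ Icc 0 T, ∀ x ∈ D, φ (t, x) ≤ φ (t₀, x₀) := by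
    intro t ht x hx
    by_cases hxK : x ∈ K
    · exact hmax (show (t, x) ∈ Icc 0 T ×ˢ K from ⟨ht, hxK⟩)
    · have h1 := hKb t ht x hx hxK
      have h2 : Real.exp (-M * t) ≤ 1 := Real.exp_le_one_iff.2 (by nlinarith [ht.1])
      have h3 : φ (t, x) ≤ η / 2 := by
        show Real.exp (-M * t) * u t x ≤ η / 2
        have h4 := Real.exp_pos (-M * t)
        rcases le_total 0 (u t x) with h | h
        · nlinarith
        · nlinarith [mul_nonneg h4.le (neg_nonneg.2 h)]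
      linarith
  have hu₀ : 0 < u t₀ x₀ := by
    have := hφ₀
    exact (mul_pos_iff_of_pos_left (Real.exp_pos _)).1 this
  have ht₀pos : 0 < t₀ := by
    rcases eq_or_lt_of_le ht₀.1 with h | h
    · rw [← h] at hu₀
      exact absurd (hinit x₀ hx₀) (not_le.2 hu₀)
    · exact h
  have ht₀' : t₀ ∈ Ioc 0 T := ⟨ht₀pos, ht₀.2⟩
  -- space derivatives
  have hsp := deriv_conditions_of_isMax (D := D) hD (f := fun y => u t₀ y) (f' := ux t₀)
    (f'' := uxx t₀ x₀) hx₀ (hux t₀ ht₀') (huxx t₀ ht₀' x₀ hx₀) (by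
      intro x hx
      have h1 := hglob t₀ ht₀ x hx
      have h2 : Real.exp (-M * t₀) * u t₀ x ≤ Real.exp (-M * t₀) * u t₀ x₀ := h1
      exact (mul_le_mul_iff_right₀ (Real.exp_pos _)).1 h2)
  -- time derivative
  have htd : HasDerivWithinAt (fun s => Real.exp (-M * s) * u s x₀)
      (Real.exp (-M * t₀) * (ut t₀ x₀ - M * u t₀ x₀)) (Iic t₀) t₀ := by
    have h1 : HasDerivWithinAt (fun s : ℝ => Real.exp (-M * s)) (Real.exp (-M * t₀) * (-M))
        (Iic t₀) t₀ := by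
      have := ((hasDerivAt_id t₀).const_mul (-M)).exp
      simpa using this.hasDerivWithinAt
    have h2 := h1.mul (hut t₀ ht₀' x₀ hx₀)
    have h3 : Real.exp (-M * t₀) * (ut t₀ x₀ - M * u t₀ x₀)
        = Real.exp (-M * t₀) * (-M) * u t₀ x₀ + Real.exp (-M * t₀) * ut t₀ x₀ := by ring
    rw [h3]
    exact h2
  have htn := left_deriv_nonneg_of_isMax ht₀pos htd (by
    intro s hs
    exact hglob s ⟨hs.1, hs.2.trans ht₀.2⟩ x₀ hx₀)
  have htn' : 0 ≤ ut t₀ x₀ - M * u t₀ x₀ := by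
    have := Real.exp_pos (-M * t₀)
    exact nonneg_of_mul_nonneg_right htn this
  have h5 := heq t₀ ht₀' x₀ hx₀ hu₀
  rw [hsp.1] at h5
  have h6 : a t₀ x₀ * uxx t₀ x₀ ≤ 0 :=
    mul_nonpos_of_nonneg_of_nonpos (ha t₀ ht₀' x₀ hx₀ hu₀) hsp.2
  have h7 : c t₀ x₀ * u t₀ x₀ ≤ A * u t₀ x₀ :=
    mul_le_mul_of_nonneg_right (hc t₀ ht₀' x₀ hx₀ hu₀) hu₀.le
  nlinarith

/-! ### the weight `(1+x^2)^(k+1)` -/

/-- the weight -/
def wt (k : ℕ) (x : ℝ) : ℝ := (1 + x ^ 2) ^ (k + 1)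
/-- its derivative -/
def wt1 (k : ℕ) (x : ℝ) : ℝ := (k + 1 : ℝ) * (1 + x ^ 2) ^ k * (2 * x)
/-- its second derivative -/
def wt2 (k : ℕ) (x : ℝ) : ℝ :=
  (k + 1 : ℝ) * ((k : ℝ) * (1 + x ^ 2) ^ (k - 1) * (2 * x)) * (2 * x) +
    (k + 1 : ℝ) * (1 + x ^ 2) ^ k * 2

theorem wt_pos (k : ℕ) (x : ℝ) : 0 < wt k x := by unfold wt; positivity

theorem hasDerivAt_base (x : ℝ) : HasDerivAt (fun y : ℝ => 1 + y ^ 2) (2 * x) x := by
  have := ((hasDerivAt_pow 2 x).const_add 1)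
  simpa using this

theorem hasDerivAt_wt (k : ℕ) (x : ℝ) : HasDerivAt (wt k) (wt1 k x) x := by
  have h := (hasDerivAt_base x).pow (k + 1)
  have h2 : wt1 k x = ((k + 1 : ℕ) : ℝ) * (1 + x ^ 2) ^ (k + 1 - 1) * (2 * x) := by
    unfold wt1; push_cast; rfl
  rw [h2]
  exact h

theorem hasDerivAt_wt1 (k : ℕ) (x : ℝ) : HasDerivAt (wt1 k) (wt2 k x) x := by
  have h1 := ((hasDerivAt_base x).pow k).const_mul (k + 1 : ℝ)
  have h2 : HasDerivAt (fun y : ℝ => 2 * y) 2 x := by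
    simpa using (hasDerivAt_id x).const_mul (2 : ℝ)
  have h3 := h1.mul h2
  unfold wt1 wt2
  exact h3

theorem wt1_abs (k : ℕ) (x : ℝ) : (1 + |x|) * |wt1 k x| ≤ 4 * (k + 1) * wt k x := by
  unfold wt wt1
  rw [abs_mul, abs_mul, abs_of_nonneg (by positivity : (0 : ℝ) ≤ (k : ℝ) + 1),
    abs_of_nonneg (by positivity : (0 : ℝ) ≤ (1 + x ^ 2) ^ k), abs_mul, abs_two]
  have h1 : (1 + |x|) * (2 * |x|) ≤ 4 * (1 + x ^ 2) := by
    have := sq_abs x
    nlinarith [sq_nonneg (|x| - 1), abs_nonneg x]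
  have h2 : (0 : ℝ) ≤ ((k : ℝ) + 1) * (1 + x ^ 2) ^ k := by positivity
  calc (1 + |x|) * (((k : ℝ) + 1) * (1 + x ^ 2) ^ k * (2 * |x|))
      = ((1 + |x|) * (2 * |x|)) * (((k : ℝ) + 1) * (1 + x ^ 2) ^ k) := by ring
    _ ≤ (4 * (1 + x ^ 2)) * (((k : ℝ) + 1) * (1 + x ^ 2) ^ k) :=
        mul_le_mul_of_nonneg_right h1 h2
    _ = 4 * (k + 1) * (1 + x ^ 2) ^ (k + 1) := by ring

theorem wt2_nonneg (k : ℕ) (x : ℝ) : 0 ≤ wt2 k x := by
  unfold wt2
  have : (k + 1 : ℝ) * ((k : ℝ) * (1 + x ^ 2) ^ (k - 1) * (2 * x)) * (2 * x)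
      = (k + 1 : ℝ) * ((k : ℝ) * (1 + x ^ 2) ^ (k - 1)) * (2 * x) ^ 2 := by ring
  rw [this]
  positivity

theorem wt2_le (k : ℕ) (x : ℝ) : (1 + x ^ 2) * wt2 k x ≤ (4 * (k + 1) * k + 2 * (k + 1)) * wt k x := by
  unfold wt wt2
  rcases k with _ | k
  · simp
    nlinarith [sq_nonneg x]
  · have h0 : (0 : ℝ) ≤ (1 + x ^ 2) ^ k := by positivity
    have h1 : x ^ 2 * (1 + x ^ 2) ^ k ≤ (1 + x ^ 2) ^ (k + 1) := by
      rw [pow_succ (1 + x ^ 2) k]; nlinarith
    have h2 : (0 : ℝ) ≤ 1 + x ^ 2 := by positivity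
    have h3 : (0 : ℝ) ≤ (((k + 1 : ℕ) : ℝ) + 1) * ((k + 1 : ℕ) : ℝ) := by positivity
    simp only [Nat.add_sub_cancel]
    have h4 : (1 + x ^ 2) * ((((k + 1 : ℕ) : ℝ) + 1) * (((k + 1 : ℕ) : ℝ) * (1 + x ^ 2) ^ k * (2 * x)) * (2 * x)
        + (((k + 1 : ℕ) : ℝ) + 1) * (1 + x ^ 2) ^ (k + 1) * 2)
        = 4 * ((((k + 1 : ℕ) : ℝ) + 1) * ((k + 1 : ℕ) : ℝ)) * ((1 + x ^ 2) * (x ^ 2 * (1 + x ^ 2) ^ k))
          + 2 * (((k + 1 : ℕ) : ℝ) + 1) * (1 + x ^ 2) ^ (k + 1 + 1) := by ring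
    rw [h4]
    have h5 : (1 + x ^ 2) * (x ^ 2 * (1 + x ^ 2) ^ k) ≤ (1 + x ^ 2) ^ (k + 1 + 1) := by
      rw [pow_succ (1 + x ^ 2) (k + 1), mul_comm ((1 + x ^ 2) ^ (k + 1))]
      exact mul_le_mul_of_nonneg_left h1 h2
    have h6 := mul_le_mul_of_nonneg_left h5 (mul_nonneg (by norm_num : (0 : ℝ) ≤ 4) h3)
    nlinarith

/-- **Parabolic maximum principle, polynomial growth, whole line.** -/
theorem mp_growth {T A C : ℝ} {k : ℕ}
    {u ut ux uxx a B c : ℝ → ℝ → ℝ}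
    (hcont : ContinuousOn (fun p : ℝ × ℝ => u p.1 p.2) (Icc 0 T ×ˢ univ))
    (hut : ∀ t ∈ Ioc 0 T, ∀ x, HasDerivWithinAt (fun s => u s x) (ut t x) (Iic t) t)
    (hux : ∀ t ∈ Ioc 0 T, ∀ x, HasDerivAt (fun y => u t y) (ux t x) x)
    (huxx : ∀ t ∈ Ioc 0 T, ∀ x, HasDerivAt (fun y => ux t y) (uxx t x) x)
    (hA : 0 ≤ A)
    (ha : ∀ t ∈ Ioc 0 T, ∀ x, 0 < u t x → 0 ≤ a t x)
    (ha' : ∀ t ∈ Ioc 0 T, ∀ x, 0 < u t x → a t x ≤ A * (1 + x ^ 2))
    (hB : ∀ t ∈ Ioc 0 T, ∀ x, 0 < u t x → |B t x| ≤ A * (1 + |x|))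
    (hc : ∀ t ∈ Ioc 0 T, ∀ x, 0 < u t x → c t x ≤ A)
    (heq : ∀ t ∈ Ioc 0 T, ∀ x, 0 < u t x →
      ut t x ≤ a t x * uxx t x + B t x * ux t x + c t x * u t x)
    (hinit : ∀ x, u 0 x ≤ 0)
    (hgrow : ∀ t ∈ Icc 0 T, ∀ x, u t x ≤ C * (1 + x ^ 2) ^ k) :
    ∀ t ∈ Icc 0 T, ∀ x, u t x ≤ 0 := by
  -- constants
  set M : ℝ := A * ((4 * (k + 1) * k + 2 * (k + 1)) + 4 * (k + 1) + 1) with hM
  have hMnn : 0 ≤ M := by positivity
  suffices H : ∀ ε > 0, ∀ t ∈ Icc 0 T, ∀ x, u t x - ε * (Real.exp (M * t) * wt k x) ≤ 0 by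
    intro t ht x
    by_contra hneg
    push Not at hneg
    have hE : 0 < Real.exp (M * t) * wt k x := mul_pos (Real.exp_pos _) (wt_pos k x)
    have := H (u t x / (2 * (Real.exp (M * t) * wt k x))) (by positivity) t ht x
    have h2 : ∀ E : ℝ, 0 < E → ∀ v : ℝ, v / (2 * E) * E = v / 2 := by
      intro E hE v; field_simp
    rw [h2 _ hE] at this
    linarith
  intro ε hε t ht x
  have hEt : ∀ t : ℝ, HasDerivAt (fun s => Real.exp (M * s)) (Real.exp (M * t) * M) t := by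
    intro t
    have := ((hasDerivAt_id t).const_mul M).exp
    simpa using this
  refine mp_compact (T := T) (A := A) (D := univ) isOpen_univ
    (u := fun t x => u t x - ε * (Real.exp (M * t) * wt k x))
    (ut := fun t x => ut t x - ε * (Real.exp (M * t) * M * wt k x))
    (ux := fun t x => ux t x - ε * (Real.exp (M * t) * wt1 k x))
    (uxx := fun t x => uxx t x - ε * (Real.exp (M * t) * wt2 k x))
    (a := a) (B := B) (c := c) ?_ ?_ ?_ ?_ ?_ ?_ ?_ ?_ ?_ t ht x (mem_univ _)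
  · refine hcont.sub (Continuous.continuousOn ?_)
    have h1 : Continuous (wt k) := by unfold wt; fun_prop
    exact continuous_const.mul ((Real.continuous_exp.comp (continuous_const.mul continuous_fst)).mul
      (h1.comp continuous_snd))
  · intro t ht x _
    exact (hut t ht x).sub ((((hEt t).mul_const (wt k x)).const_mul ε).hasDerivWithinAt)
  · intro t ht x _
    exact (hux t ht x).sub (((hasDerivAt_wt k x).const_mul _).const_mul ε)
  · intro t ht x _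
    exact (huxx t ht x).sub (((hasDerivAt_wt1 k x).const_mul _).const_mul ε)
  · intro t ht x _ hpos
    have hE : 0 < ε * (Real.exp (M * t) * wt k x) :=
      mul_pos hε (mul_pos (Real.exp_pos _) (wt_pos k x))
    exact ha t ht x (by linarith)
  · intro t ht x _ hpos
    have hE : 0 < ε * (Real.exp (M * t) * wt k x) :=
      mul_pos hε (mul_pos (Real.exp_pos _) (wt_pos k x))
    exact hc t ht x (by linarith)
  · intro t ht x _ hpos
    have hE : 0 < ε * (Real.exp (M * t) * wt k x) :=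
      mul_pos hε (mul_pos (Real.exp_pos _) (wt_pos k x))
    have hu : 0 < u t x := by linarith
    have h1 := heq t ht x hu
    have h2 : a t x * wt2 k x ≤ A * ((4 * (k + 1) * k + 2 * (k + 1)) * wt k x) := by
      calc a t x * wt2 k x ≤ A * (1 + x ^ 2) * wt2 k x :=
            mul_le_mul_of_nonneg_right (ha' t ht x hu) (wt2_nonneg k x)
        _ = A * ((1 + x ^ 2) * wt2 k x) := by ring
        _ ≤ _ := mul_le_mul_of_nonneg_left (wt2_le k x) hA
    have h3 : B t x * wt1 k x ≤ A * (4 * (k + 1) * wt k x) := by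
      calc B t x * wt1 k x ≤ |B t x| * |wt1 k x| := by
            rw [← abs_mul]; exact le_abs_self _
        _ ≤ A * (1 + |x|) * |wt1 k x| :=
            mul_le_mul_of_nonneg_right (hB t ht x hu) (abs_nonneg _)
        _ = A * ((1 + |x|) * |wt1 k x|) := by ring
        _ ≤ _ := mul_le_mul_of_nonneg_left (wt1_abs k x) hA
    have h4 : c t x * wt k x ≤ A * wt k x :=
      mul_le_mul_of_nonneg_right (hc t ht x hu) (wt_pos k x).le
    have h5 : a t x * wt2 k x + B t x * wt1 k x + c t x * wt k x ≤ M * wt k x := by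
      calc _ ≤ A * ((4 * (k + 1) * k + 2 * (k + 1)) * wt k x) + A * (4 * (k + 1) * wt k x)
            + A * wt k x := by linarith
        _ = M * wt k x := by rw [hM]; ring
    have h6 : 0 < ε * Real.exp (M * t) := mul_pos hε (Real.exp_pos _)
    have h7 := mul_le_mul_of_nonneg_left h5 h6.le
    have h8 : ut t x - ε * (Real.exp (M * t) * M * wt k x)
        ≤ a t x * uxx t x + B t x * ux t x + c t x * u t x
          - ε * Real.exp (M * t) * (a t x * wt2 k x + B t x * wt1 k x + c t x * wt k x) := by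
      nlinarith
    calc _ ≤ _ := h8
      _ = _ := by ring
  · intro x _
    have hE : 0 < ε * (Real.exp (M * 0) * wt k x) :=
      mul_pos hε (mul_pos (Real.exp_pos _) (wt_pos k x))
    have := hinit x
    show u 0 x - ε * (Real.exp (M * 0) * wt k x) ≤ 0
    linarith
  · intro δ hδ
    refine ⟨Icc (-(|C| / ε + 1)) (|C| / ε + 1), isCompact_Icc, subset_univ _, ?_⟩
    intro t ht x _ hx
    have hr : 0 ≤ |C| / ε := by positivity
    have hx2 : |C| / ε < 1 + x ^ 2 := by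
      by_contra h
      push Not at h
      apply hx
      have h1 : x ^ 2 ≤ (|C| / ε + 1) ^ 2 := by nlinarith
      exact abs_le.1 (abs_le_of_sq_le_sq h1 (by positivity))
    have h1 := hgrow t ht x
    have hE1 : (1 : ℝ) ≤ Real.exp (M * t) := Real.one_le_exp (mul_nonneg hMnn ht.1)
    have h2 : |C| < ε * (1 + x ^ 2) := by
      rw [div_lt_iff₀ hε] at hx2
      linarith
    have h3 : (0 : ℝ) < (1 + x ^ 2) ^ k := by positivity
    have h4 : wt k x = (1 + x ^ 2) ^ k * (1 + x ^ 2) := by unfold wt; rw [pow_succ]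
    have h5 : C * (1 + x ^ 2) ^ k ≤ ε * wt k x := by
      rw [h4]
      have := le_abs_self C
      nlinarith
    have h6 : ε * wt k x ≤ ε * (Real.exp (M * t) * wt k x) := by
      have := wt_pos k x
      have h7 : wt k x ≤ Real.exp (M * t) * wt k x := by nlinarith
      exact mul_le_mul_of_nonneg_left h7 hε.le
    show u t x - ε * (Real.exp (M * t) * wt k x) ≤ δ
    linarith

/-! ### backward versions (right time derivatives, terminal condition) -/




end Crest.Agent.R146.MaxP_86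
end
end

-- ▼ part R146/R1c_847
section

/-!
Row 146, PT0-R1 (helper847), part c: the Cole-Hopf function of one cell, its five `x`-derivatives
`q1..q5`, their equations in the variance `v`, signs and bounds; the state `St δ f` is propagated.
-/

set_option autoImplicit false

namespace Crest.Agent.R146.R1c_847

open MeasureTheory ProbabilityTheory Filter Topology Set
open Crest.ProbabilityR.InvariantGlass
open Crest.Agent.R146.Hg_534 Crest.Agent.R146.PB_534 Crest.Agent.R146.R1a_847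
open Crest.Agent.R146.R1b_847

noncomputable section

variable {z : ℝ} {f : ℝ → ℝ}

/-- value of the tower at variance `v` -/
def rv (z : ℝ) (f : ℝ → ℝ) (n : ℕ) (v x : ℝ) : ℝ := r z f n (Real.sqrt v) x

/-- Cole-Hopf function -/
def q0 (z : ℝ) (f : ℝ → ℝ) (v x : ℝ) : ℝ := z⁻¹ * Real.log (H (Real.sqrt v) (gz z f) x)

def q1 (z : ℝ) (f : ℝ → ℝ) (v x : ℝ) : ℝ := z⁻¹ * rv z f 1 v x
def q2 (z : ℝ) (f : ℝ → ℝ) (v x : ℝ) : ℝ := z⁻¹ * (rv z f 2 v x - rv z f 1 v x ^ 2)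
def q3 (z : ℝ) (f : ℝ → ℝ) (v x : ℝ) : ℝ :=
  z⁻¹ * (rv z f 3 v x - 3 * rv z f 1 v x * rv z f 2 v x + 2 * rv z f 1 v x ^ 3)
def q4 (z : ℝ) (f : ℝ → ℝ) (v x : ℝ) : ℝ :=
  z⁻¹ * (rv z f 4 v x - 4 * rv z f 3 v x * rv z f 1 v x - 3 * rv z f 2 v x ^ 2 +
    12 * rv z f 2 v x * rv z f 1 v x ^ 2 - 6 * rv z f 1 v x ^ 4)
def q5 (z : ℝ) (f : ℝ → ℝ) (v x : ℝ) : ℝ :=
  z⁻¹ * (rv z f 5 v x - 5 * rv z f 4 v x * rv z f 1 v x - 10 * rv z f 3 v x * rv z f 2 v x +
    20 * rv z f 3 v x * rv z f 1 v x ^ 2 + 30 * rv z f 2 v x ^ 2 * rv z f 1 v x -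
    60 * rv z f 2 v x * rv z f 1 v x ^ 3 + 24 * rv z f 1 v x ^ 5)

theorem gaussOp_eq (hz : z ≠ 0) (v : ℝ) : gaussOp z v f = q0 z f v := by
  funext x
  unfold gaussOp q0 H gz
  rw [if_neg hz]

theorem q0_zero (hz : z ≠ 0) (x : ℝ) : q0 z f 0 x = f x := by
  unfold q0
  rw [Real.sqrt_zero, H_zero]
  unfold gz
  rw [Real.log_exp]
  field_simp

section deriv

variable (h : W z f)
include h

theorem rv_hd_x (n : ℕ) (v x : ℝ) :
    HasDerivAt (rv z f n v) (rv z f (n + 1) v x - rv z f n v x * rv z f 1 v x) x :=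
  r_hd_x h n _ x

theorem rv_hd_v (n : ℕ) {v : ℝ} (hv : 0 ≤ v) (x : ℝ) :
    HasDerivWithinAt (fun v => rv z f n v x)
      (1 / 2 * (rv z f (n + 2) v x - rv z f n v x * rv z f 2 v x)) (Ici 0) v :=
  r_hd_v h n hv x

theorem rv_cont (n : ℕ) : Continuous (fun p : ℝ × ℝ => rv z f n p.1 p.2) := r_cont h n

theorem q0_hd_x (v x : ℝ) : HasDerivAt (q0 z f v) (q1 z f v x) x := by
  have e : (fun y => (1 : ℝ) * gz z f y) = gz z f := by funext y; ring
  have h2 := H_deriv_x (h.eg (PG.const 1)) (h.eg (Sm_dz h.sm (Sm.const 1)).pg)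
    (hd_mul_gz h.sm (Sm.const 1)) (Real.sqrt v) x
  rw [e] at h2
  have h3 := (h2.log (h.Hpos _ x).ne').const_mul z⁻¹
  exact h3

theorem q1_hd_x (v x : ℝ) : HasDerivAt (q1 z f v) (q2 z f v x) x := by
  have h1 := (rv_hd_x h 1 v x).const_mul z⁻¹
  refine h1.congr_deriv ?_
  unfold q2; ring

theorem q2_hd_x (v x : ℝ) : HasDerivAt (q2 z f v) (q3 z f v x) x := by
  have h1 := rv_hd_x h 1 v x
  have h2 := rv_hd_x h 2 v x
  have := (h2.sub (h1.fun_pow 2)).const_mul z⁻¹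
  refine this.congr_deriv ?_
  unfold q3; simp only [Nat.reduceSub, Nat.cast_ofNat, Nat.reduceAdd]; ring

theorem q3_hd_x (v x : ℝ) : HasDerivAt (q3 z f v) (q4 z f v x) x := by
  have h1 := rv_hd_x h 1 v x
  have h2 := rv_hd_x h 2 v x
  have h3 := rv_hd_x h 3 v x
  have := ((h3.sub ((h1.const_mul 3).mul h2)).add ((h1.fun_pow 3).const_mul 2)).const_mul z⁻¹
  refine this.congr_deriv ?_
  unfold q4; simp only [Nat.reduceSub, Nat.cast_ofNat, Nat.reduceAdd]; ring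

theorem q4_hd_x (v x : ℝ) : HasDerivAt (q4 z f v) (q5 z f v x) x := by
  have h1 := rv_hd_x h 1 v x
  have h2 := rv_hd_x h 2 v x
  have h3 := rv_hd_x h 3 v x
  have h4 := rv_hd_x h 4 v x
  have := ((((h4.sub ((h3.const_mul 4).mul h1)).sub ((h2.fun_pow 2).const_mul 3)).add
    ((h2.const_mul 12).mul (h1.fun_pow 2))).sub ((h1.fun_pow 4).const_mul 6)).const_mul z⁻¹
  refine this.congr_deriv ?_
  unfold q5; simp only [Nat.reduceSub, Nat.cast_ofNat, Nat.reduceAdd]; ring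

theorem q0_hd_v (hz : z ≠ 0) {v : ℝ} (hv : 0 ≤ v) (x : ℝ) :
    HasDerivWithinAt (fun v => q0 z f v x) (1 / 2 * (q2 z f v x + z * q1 z f v x ^ 2)) (Ici 0) v := by
  have e : (fun y => (1 : ℝ) * gz z f y) = gz z f := by funext y; ring
  have s2 := Sm_dz (z := z) h.sm (Sm.const 1)
  have key : ∀ v : ℝ, 1 / 2 * (q2 z f v x + z * q1 z f v x ^ 2) = z⁻¹ * (1 / 2 * rv z f 2 v x) := by
    intro v
    unfold q2 q1
    field_simp
    ring
  have hpos : ∀ v : ℝ, 0 < v → HasDerivAt (fun v => q0 z f v x)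
      (1 / 2 * (q2 z f v x + z * q1 z f v x ^ 2)) v := by
    intro v hv
    have h2 := H_deriv_v (h.eg (PG.const 1)) (h.eg s2.pg) (h.eg (Sm_dz h.sm s2).pg)
      (hd_mul_gz h.sm (Sm.const 1)) (hd_mul_gz h.sm s2) hv x
    rw [e] at h2
    have h3 := (h2.log (h.Hpos (Real.sqrt v) x).ne').const_mul z⁻¹
    rw [key v]
    refine h3.congr_deriv ?_
    unfold rv r T en en en
    ring
  rcases hv.lt_or_eq with hv | hv
  · exact (hpos v hv).hasDerivWithinAt
  · subst hv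
    refine hasDerivWithinAt_Ici_of_tendsto_deriv (s := Ioi 0) ?_ ?_ self_mem_nhdsWithin ?_
    · intro v hv
      exact (hpos v hv).differentiableAt.differentiableWithinAt
    · have hc : Continuous (fun v => q0 z f v x) := by
        unfold q0
        have h1 : Continuous (fun v : ℝ => H (Real.sqrt v) (gz z f) x) :=
          (H_continuous h.egg).comp (Real.continuous_sqrt.prodMk continuous_const)
        exact continuous_const.mul (h1.log (fun v => (h.Hpos _ x).ne'))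
      exact hc.continuousWithinAt
    · have hc : Continuous (fun v => 1 / 2 * (q2 z f v x + z * q1 z f v x ^ 2)) := by
        have h1 : Continuous (fun v : ℝ => rv z f 2 v x) :=
          (rv_cont h 2).comp (continuous_id.prodMk continuous_const)
        have : (fun v => 1 / 2 * (q2 z f v x + z * q1 z f v x ^ 2)) =
            fun v => z⁻¹ * (1 / 2 * rv z f 2 v x) := by funext v; exact key v
        rw [this]
        fun_prop
      have h1 := (hc.tendsto 0).mono_left (nhdsWithin_le_nhds (s := Ioi 0))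
      refine h1.congr' ?_
      filter_upwards [self_mem_nhdsWithin] with v hv
      exact (hpos v hv).deriv.symm

theorem q1_hd_v (hz : z ≠ 0) {v : ℝ} (hv : 0 ≤ v) (x : ℝ) :
    HasDerivWithinAt (fun v => q1 z f v x)
      (1 / 2 * (q3 z f v x + 2 * z * q1 z f v x * q2 z f v x)) (Ici 0) v := by
  have h1 := (rv_hd_v h 1 hv x).const_mul z⁻¹
  refine h1.congr_deriv ?_
  unfold q3 q2 q1
  field_simp
  ring

theorem q2_hd_v (hz : z ≠ 0) {v : ℝ} (hv : 0 ≤ v) (x : ℝ) :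
    HasDerivWithinAt (fun v => q2 z f v x)
      (1 / 2 * (q4 z f v x + 2 * z * q2 z f v x ^ 2 + 2 * z * q1 z f v x * q3 z f v x)) (Ici 0) v := by
  have h1 := rv_hd_v h 1 hv x
  have h2 := rv_hd_v h 2 hv x
  have := (h2.fun_sub (h1.fun_pow 2)).const_mul z⁻¹
  refine this.congr_deriv ?_
  unfold q4 q3 q2 q1
  field_simp
  norm_num
  ring

theorem q3_hd_v (hz : z ≠ 0) {v : ℝ} (hv : 0 ≤ v) (x : ℝ) :
    HasDerivWithinAt (fun v => q3 z f v x)
      (1 / 2 * (q5 z f v x + 6 * z * q2 z f v x * q3 z f v x + 2 * z * q1 z f v x * q4 z f v x))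
      (Ici 0) v := by
  have h1 := rv_hd_v h 1 hv x
  have h2 := rv_hd_v h 2 hv x
  have h3 := rv_hd_v h 3 hv x
  have := ((h3.fun_sub ((h1.const_mul 3).fun_mul h2)).fun_add ((h1.fun_pow 3).const_mul 2)).const_mul z⁻¹
  refine this.congr_deriv ?_
  unfold q5 q4 q3 q2 q1
  field_simp
  norm_num
  ring

theorem q0_cont : Continuous (fun p : ℝ × ℝ => q0 z f p.1 p.2) := by
  unfold q0
  have h1 : Continuous (fun p : ℝ × ℝ => H (Real.sqrt p.1) (gz z f) p.2) :=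
    (H_continuous h.egg).comp ((Real.continuous_sqrt.comp continuous_fst).prodMk continuous_snd)
  exact continuous_const.mul (h1.log (fun v => (h.Hpos _ _).ne'))

theorem q1_cont : Continuous (fun p : ℝ × ℝ => q1 z f p.1 p.2) := by
  unfold q1
  have := rv_cont h 1
  fun_prop

theorem q2_cont : Continuous (fun p : ℝ × ℝ => q2 z f p.1 p.2) := by
  unfold q2
  have := rv_cont h 1
  have := rv_cont h 2
  fun_prop

theorem q3_cont : Continuous (fun p : ℝ × ℝ => q3 z f p.1 p.2) := by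
  unfold q3
  have := rv_cont h 1
  have := rv_cont h 2
  have := rv_cont h 3
  fun_prop

theorem q4_cont : Continuous (fun p : ℝ × ℝ => q4 z f p.1 p.2) := by
  unfold q4
  have := rv_cont h 1
  have := rv_cont h 2
  have := rv_cont h 3
  have := rv_cont h 4
  fun_prop

theorem q5_cont : Continuous (fun p : ℝ × ℝ => q5 z f p.1 p.2) := by
  unfold q5
  have := rv_cont h 1
  have := rv_cont h 2
  have := rv_cont h 3
  have := rv_cont h 4
  have := rv_cont h 5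
  fun_prop

end deriv

/-! ### uniform growth -/

/-- functions of `(v,x)` of polynomial growth in `x` uniformly for `v ∈ [0,S]`, for every `S` -/
def UG (F : ℝ → ℝ → ℝ) : Prop :=
  ∀ S : ℝ, ∃ (C : ℝ) (n : ℕ), 0 ≤ C ∧ ∀ v ∈ Icc 0 S, ∀ x, |F v x| ≤ C * (1 + |x|) ^ n

theorem UG.const (c : ℝ) : UG (fun _ _ => c) := fun S =>
  ⟨|c|, 0, abs_nonneg c, fun v _ x => by simp⟩

theorem UG.add {F G : ℝ → ℝ → ℝ} (hF : UG F) (hG : UG G) : UG (fun v x => F v x + G v x) := by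
  intro S
  obtain ⟨C, n, hC, h1⟩ := hF S
  obtain ⟨C', n', hC', h2⟩ := hG S
  refine ⟨C + C', n + n', by positivity, fun v hv x => ?_⟩
  have hx := one_le_base x
  have h3 : (1 + |x|) ^ n ≤ (1 + |x|) ^ (n + n') := pow_le_pow_right₀ hx (by omega)
  have h4 : (1 + |x|) ^ n' ≤ (1 + |x|) ^ (n + n') := pow_le_pow_right₀ hx (by omega)
  calc |F v x + G v x| ≤ |F v x| + |G v x| := abs_add_le _ _
    _ ≤ C * (1 + |x|) ^ n + C' * (1 + |x|) ^ n' := add_le_add (h1 v hv x) (h2 v hv x)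
    _ ≤ C * (1 + |x|) ^ (n + n') + C' * (1 + |x|) ^ (n + n') :=
        add_le_add (mul_le_mul_of_nonneg_left h3 hC) (mul_le_mul_of_nonneg_left h4 hC')
    _ = _ := by ring

theorem UG.mul {F G : ℝ → ℝ → ℝ} (hF : UG F) (hG : UG G) : UG (fun v x => F v x * G v x) := by
  intro S
  obtain ⟨C, n, hC, h1⟩ := hF S
  obtain ⟨C', n', hC', h2⟩ := hG S
  refine ⟨C * C', n + n', by positivity, fun v hv x => ?_⟩
  have hx := one_le_base x
  calc |F v x * G v x| = |F v x| * |G v x| := abs_mul _ _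
    _ ≤ (C * (1 + |x|) ^ n) * (C' * (1 + |x|) ^ n') :=
        mul_le_mul (h1 v hv x) (h2 v hv x) (abs_nonneg _) (by positivity)
    _ = _ := by rw [pow_add]; ring

theorem UG.const_mul {F : ℝ → ℝ → ℝ} (hF : UG F) (c : ℝ) : UG (fun v x => c * F v x) :=
  (UG.const c).mul hF

theorem UG.sub {F G : ℝ → ℝ → ℝ} (hF : UG F) (hG : UG G) : UG (fun v x => F v x - G v x) := by
  have := hF.add (hG.const_mul (-1))
  simpa [sub_eq_add_neg] using this

theorem UG.pow {F : ℝ → ℝ → ℝ} (hF : UG F) (n : ℕ) : UG (fun v x => F v x ^ n) := by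
  induction n with
  | zero => simpa using UG.const 1
  | succ n ih => simpa [pow_succ] using ih.mul hF

theorem rv_ug (h : WM z f) (n : ℕ) : UG (rv z f n) := by
  intro S
  obtain ⟨C, k, hC, hb⟩ := T_growth h (Sm_en h.toW n).pg (Real.sqrt S)
  refine ⟨C, k, hC, fun v hv x => hb _ ?_ x⟩
  rw [abs_of_nonneg (Real.sqrt_nonneg v)]
  exact Real.sqrt_le_sqrt hv.2

theorem q1_ug (h : WM z f) : UG (q1 z f) := (rv_ug h 1).const_mul _
theorem q2_ug (h : WM z f) : UG (q2 z f) := ((rv_ug h 2).sub ((rv_ug h 1).pow 2)).const_mul _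
theorem q3_ug (h : WM z f) : UG (q3 z f) :=
  (((rv_ug h 3).sub (((rv_ug h 1).const_mul 3).mul (rv_ug h 2))).add
    (((rv_ug h 1).pow 3).const_mul 2)).const_mul _
theorem q4_ug (h : WM z f) : UG (q4 z f) :=
  (((((rv_ug h 4).sub (((rv_ug h 3).const_mul 4).mul (rv_ug h 1))).sub
    (((rv_ug h 2).pow 2).const_mul 3)).add (((rv_ug h 2).const_mul 12).mul ((rv_ug h 1).pow 2))).sub
    (((rv_ug h 1).pow 4).const_mul 6)).const_mul _
theorem q5_ug (h : WM z f) : UG (q5 z f) :=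
  (((((((rv_ug h 5).sub (((rv_ug h 4).const_mul 5).mul (rv_ug h 1))).sub
    (((rv_ug h 3).const_mul 10).mul (rv_ug h 2))).add
    (((rv_ug h 3).const_mul 20).mul ((rv_ug h 1).pow 2))).add
    ((((rv_ug h 2).pow 2).const_mul 30).mul (rv_ug h 1))).sub
    (((rv_ug h 2).const_mul 60).mul ((rv_ug h 1).pow 3))).add
    (((rv_ug h 1).pow 5).const_mul 24)).const_mul _

theorem q1_Sm (h : WM z f) (v : ℝ) : Sm (q1 z f v) := (r_Sm h 1 (Real.sqrt v)).const_mul z⁻¹

theorem q0_nonpos (h : W z f) (v x : ℝ) : q0 z f v x ≤ 0 := by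
  unfold q0
  refine mul_nonpos_of_nonneg_of_nonpos (inv_nonneg.2 h.hz) ?_
  refine Real.log_nonpos (h.Hpos _ x).le ?_
  have := H_mono h.egg (EG.const 1) (gz_le_one h.hz h.nonpos) (Real.sqrt v) x
  rwa [H_const] at this

theorem q0_ug (h : WM z f) : UG (q0 z f) := by
  intro S
  obtain ⟨C, n, hC, hb⟩ := q1_ug h S
  -- bound at x = 0 by continuity in v
  have hc : Continuous (fun v => q0 z f v 0) :=
    (q0_cont h.toW).comp (continuous_id.prodMk continuous_const)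
  obtain ⟨B, hB⟩ := (isCompact_Icc (a := 0) (b := S)).exists_bound_of_continuousOn hc.continuousOn
  refine ⟨|B| + C, n + 1, by positivity, fun v hv x => ?_⟩
  have h0 : |q0 z f v 0| ≤ |B| := by
    have := hB v hv
    rw [Real.norm_eq_abs] at this
    exact this.trans (le_abs_self B)
  have hx := one_le_base x
  have h1 : |q0 z f v x - q0 z f v 0| ≤ C * (1 + |x|) ^ n * |x| := by
    have := Convex.norm_image_sub_le_of_norm_hasDerivWithin_le (f := q0 z f v) (f' := q1 z f v)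
      (s := uIcc 0 x) (x := 0) (y := x) (C := C * (1 + |x|) ^ n)
      (fun y _ => (q0_hd_x h.toW v y).hasDerivWithinAt) (fun y hy => ?_) (convex_uIcc 0 x)
      left_mem_uIcc right_mem_uIcc
    · rw [sub_zero, Real.norm_eq_abs, Real.norm_eq_abs] at this
      exact this
    · rw [Real.norm_eq_abs]
      refine (hb v hv y).trans (mul_le_mul_of_nonneg_left ?_ hC)
      have h3 : |y| ≤ |x| := by
        rcases le_total 0 x with h4 | h4
        · rw [uIcc_of_le h4] at hy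
          rw [abs_of_nonneg hy.1, abs_of_nonneg h4]; exact hy.2
        · rw [uIcc_of_ge h4] at hy
          rw [abs_of_nonpos hy.2, abs_of_nonpos h4]; linarith [hy.1]
      exact pow_le_pow_left₀ (by positivity) (by linarith) n
  have h2 : (1 : ℝ) ≤ (1 + |x|) ^ (n + 1) := one_le_pow₀ hx
  have h3 : (1 + |x|) ^ n * |x| ≤ (1 + |x|) ^ (n + 1) := by
    rw [pow_succ]
    exact mul_le_mul_of_nonneg_left (by linarith) (by positivity)
  have h4 : |q0 z f v x| ≤ |q0 z f v 0| + |q0 z f v x - q0 z f v 0| := by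
    have := abs_add_le (q0 z f v 0) (q0 z f v x - q0 z f v 0)
    simpa using this
  have h5 := mul_le_mul_of_nonneg_left h2 (abs_nonneg B)
  have h6 := mul_le_mul_of_nonneg_left h3 hC
  nlinarith

theorem q0_Sm (h : WM z f) (v : ℝ) (hv : 0 ≤ v) : Sm (q0 z f v) := by
  refine Sm.of_deriv (φ' := q1 z f v) ?_ (q0_hd_x h.toW v) (q1_Sm h v)
  obtain ⟨C, n, hC, hb⟩ := q0_ug h v
  refine ⟨?_, C, n, hC, fun x => hb v ⟨hv, le_rfl⟩ x⟩
  exact (q0_cont h.toW).comp (continuous_const.prodMk continuous_id)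

end

end Crest.Agent.R146.R1c_847
end

-- ▼ part R146/R1d_847
section

/-!
Row 146, PT0-R1 (helper847), part d: propagation of the state `St δ f` through one cell
(`0 < f'`, `f'' < 0`, `1 + δ f'' > 0`, `x + δ f' > 0`, `0 < f''' ≤ M`).
-/

set_option autoImplicit false

namespace Crest.Agent.R146.R1d_847

open MeasureTheory ProbabilityTheory Filter Topology Set
open Crest.ProbabilityR.InvariantGlass
open Crest.Agent.R146.Hg_534 Crest.Agent.R146.PB_534 Crest.Agent.R146.R1a_847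
open Crest.Agent.R146.R1b_847 Crest.Agent.R146.R1c_847

noncomputable section

/-- the state at a fixed time (`δ = D(t)`, `f = ψ(t,·)`) -/
structure St (δ : ℝ) (f : ℝ → ℝ) : Prop where
  sm : Sm f
  nonpos : ∀ x, f x ≤ 0
  d1 : ∀ x, 0 < deriv f x
  d2 : ∀ x, deriv (deriv f) x < 0
  d2' : ∀ x, 0 < 1 + δ * deriv (deriv f) x
  w : ∀ x, 0 < x + δ * deriv f x
  d3 : ∀ x, 0 < deriv (deriv (deriv f)) x
  d3b : ∃ M, ∀ x, deriv (deriv (deriv f)) x ≤ M

variable {z δ : ℝ} {f : ℝ → ℝ}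

theorem St.anti (h : St δ f) : StrictAnti (deriv f) :=
  strictAnti_of_deriv_neg h.d2

theorem St.toWM (h : St δ f) (hz : 0 ≤ z) : WM z f :=
  { hz := hz, sm := h.sm, nonpos := h.nonpos, d1 := fun x => (h.d1 x).le, anti := h.anti.antitone }

theorem dz_one (z : ℝ) (f : ℝ → ℝ) : dz z f (fun _ => 1) = fun y => z * deriv f y := by
  funext y; unfold dz; simp

theorem dz_const_mul (z : ℝ) (f : ℝ → ℝ) {φ : ℝ → ℝ} (hφ : Sm φ) (c : ℝ) :
    dz z f (fun y => c * φ y) = fun y => c * dz z f φ y := by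
  funext y
  unfold dz
  rw [deriv_const_mul _ (hφ.diff y)]
  ring


/-- `q1 = ⟨f'⟩` -/
theorem q1_eq (hz : z ≠ 0) (v x : ℝ) : q1 z f v x = T z f (Real.sqrt v) (deriv f) x := by
  unfold q1 rv r en en
  rw [dz_one, T_const_mul]
  field_simp

/-- `q2 = ⟨d f'⟩ - ⟨f'⟩⟨d 1⟩` -/
theorem q2_eq (h : W z f) (hz : z ≠ 0) (v x : ℝ) :
    q2 z f v x = T z f (Real.sqrt v) (dz z f (deriv f)) x -
      T z f (Real.sqrt v) (deriv f) x * T z f (Real.sqrt v) (dz z f (fun _ => 1)) x := by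
  unfold q2 rv r en en en
  rw [dz_one, dz_const_mul z f h.sm.deriv, T_const_mul, T_const_mul]
  field_simp

theorem q1_zero (hz : z ≠ 0) (x : ℝ) : q1 z f 0 x = deriv f x := by
  rw [q1_eq hz, Real.sqrt_zero, T_zero]

theorem q0_zero' (hz : z ≠ 0) : q0 z f 0 = f := funext fun x => q0_zero hz x

theorem q1_zero' (hz : z ≠ 0) : q1 z f 0 = deriv f := funext fun x => q1_zero hz x

theorem q2_zero' (h : W z f) (hz : z ≠ 0) : q2 z f 0 = deriv (deriv f) := by
  funext x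
  have h1 := q1_hd_x h 0 x
  rw [q1_zero' hz] at h1
  exact h1.deriv.symm

theorem q3_zero' (h : W z f) (hz : z ≠ 0) : q3 z f 0 = deriv (deriv (deriv f)) := by
  funext x
  have h1 := q2_hd_x h 0 x
  rw [q2_zero' h hz] at h1
  exact h1.deriv.symm

theorem q1_pos (h : St δ f) (hz : 0 < z) (v x : ℝ) : 0 < q1 z f v x := by
  rcases eq_or_ne (Real.sqrt v) 0 with hv | hv
  · rw [q1_eq hz.ne', hv, T_zero]; exact h.d1 x
  · rw [q1_eq hz.ne']
    exact T_pos (h.toWM hz.le).toW h.sm.deriv.pg (fun y => (h.d1 y).le) (h.d1 0) hv x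

theorem q2_neg (h : St δ f) (hz : 0 < z) {v : ℝ} (hv : 0 ≤ v) (x : ℝ) : q2 z f v x < 0 := by
  have hW := (h.toWM hz.le).toW
  rcases hv.lt_or_eq with hv | hv
  · have hs : Real.sqrt v ≠ 0 := (Real.sqrt_pos.2 hv).ne'
    have hm : StrictMono (fun y => -deriv f y) := fun a b hab => neg_lt_neg (h.anti hab)
    have h1 := T_deriv_pos hW h.sm.deriv.neg hm hs x
    have e1 : (fun y => -deriv f y) = fun y => (-1) * deriv f y := by funext y; ring
    rw [e1, dz_const_mul z f h.sm.deriv, T_const_mul, T_const_mul] at h1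
    rw [q2_eq hW hz.ne']
    linarith
  · rw [← hv, q2_zero' hW hz.ne']
    exact h.d2 x

/-- `w(v,x) = ⟨y + δ f'⟩` -/
theorem w_eq (h : W z f) (hz : z ≠ 0) {v : ℝ} (hv : 0 ≤ v) (x : ℝ) :
    x + (δ + z * v) * q1 z f v x = T z f (Real.sqrt v) (fun y => y + δ * deriv f y) x := by
  rw [T_add h PG.id (h.sm.deriv.pg.const_mul δ), T_const_mul, T_y h, q1_eq hz, Real.sq_sqrt hv]
  ring

theorem w_pos (h : St δ f) (hz : 0 < z) {v : ℝ} (hv : 0 ≤ v) (x : ℝ) :
    0 < x + (δ + z * v) * q1 z f v x := by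
  have hW := (h.toWM hz.le).toW
  rcases hv.lt_or_eq with hv' | hv'
  · rw [w_eq hW hz.ne' hv]
    exact T_pos hW (PG.id.add (h.sm.deriv.pg.const_mul δ)) (fun y => (h.w y).le) (h.w 0)
      (Real.sqrt_pos.2 hv').ne' x
  · rw [← hv', q1_zero hz.ne']
    have := h.w x
    simpa using this

theorem V_pos (h : St δ f) (hz : 0 < z) {v : ℝ} (hv : 0 ≤ v) (x : ℝ) :
    0 < 1 + (δ + z * v) * q2 z f v x := by
  have hW := (h.toWM hz.le).toW
  rcases hv.lt_or_eq with hv' | hv'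
  · have hs : Real.sqrt v ≠ 0 := (Real.sqrt_pos.2 hv').ne'
    have hsm : Sm (fun y => y + δ * deriv f y) := Sm.id.add (h.sm.deriv.const_mul δ)
    have hm : StrictMono (fun y => y + δ * deriv f y) := by
      refine strictMono_of_deriv_pos fun x => ?_
      have h1 : HasDerivAt (fun y => y + δ * deriv f y) (1 + δ * deriv (deriv f) x) x :=
        (hasDerivAt_id' x).add ((h.sm.deriv.hd x).const_mul δ)
      rw [h1.deriv]
      exact h.d2' x
    have h1 := T_deriv_pos hW hsm hm hs x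
    have h2 := T_hd_x hW hsm (Real.sqrt v) x
    have h3 : HasDerivAt (fun x => x + (δ + z * v) * q1 z f v x)
        (1 + (δ + z * v) * q2 z f v x) x :=
      (hasDerivAt_id' x).add ((q1_hd_x hW v x).const_mul _)
    have h4 : (fun x => x + (δ + z * v) * q1 z f v x) =
        fun x => T z f (Real.sqrt v) (fun y => y + δ * deriv f y) x :=
      funext fun x => w_eq hW hz.ne' hv x
    rw [h4] at h3
    rw [h3.unique h2]
    exact h1
  · rw [← hv', q2_zero' hW hz.ne']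
    have := h.d2' x
    simpa using this

/-- polynomial growth in the form of `mp_growth` -/
theorem UG.sq {F : ℝ → ℝ → ℝ} (hF : UG F) (S : ℝ) :
    ∃ (C : ℝ) (n : ℕ), 0 ≤ C ∧ ∀ v ∈ Icc 0 S, ∀ x, |F v x| ≤ C * (1 + x ^ 2) ^ n := by
  obtain ⟨C, n, hC, hb⟩ := hF S
  refine ⟨C * 2 ^ n, n, by positivity, fun v hv x => (hb v hv x).trans ?_⟩
  rw [mul_assoc, ← mul_pow]
  refine mul_le_mul_of_nonneg_left (pow_le_pow_left₀ (by positivity) ?_ n) hC
  have := sq_abs x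
  nlinarith [sq_nonneg (|x| - 1), abs_nonneg x]

theorem q2_bd (h : St δ f) (hδ : 0 < δ) (hz : 0 < z) {v : ℝ} (hv : 0 ≤ v) (x : ℝ) :
    -q2 z f v x ≤ 1 / δ := by
  have h1 := V_pos h hz hv x
  have h2 := q2_neg h hz hv x
  have h3 : 0 ≤ z * v := mul_nonneg hz.le hv
  rw [le_div_iff₀ hδ]
  nlinarith

/-- linear growth of the drift -/
theorem q1_lin (h : St δ f) (hδ : 0 < δ) (hz : 0 < z) (S : ℝ) :
    ∃ A : ℝ, 0 ≤ A ∧ ∀ v ∈ Icc 0 S, ∀ x, |z * q1 z f v x| ≤ A * (1 + |x|) := by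
  have hM := h.toWM (z := z) hz.le
  have hW := hM.toW
  obtain ⟨C, n, hC, hb⟩ := q1_ug hM S
  refine ⟨z * (C + 1 / δ), by positivity, fun v hv x => ?_⟩
  have h0 : |q1 z f v 0| ≤ C := by
    have := hb v hv 0
    simpa using this
  have h1 : |q1 z f v x - q1 z f v 0| ≤ 1 / δ * |x| := by
    have := Convex.norm_image_sub_le_of_norm_hasDerivWithin_le (f := q1 z f v) (f' := q2 z f v)
      (s := univ) (x := 0) (y := x) (C := 1 / δ)
      (fun y _ => (q1_hd_x hW v y).hasDerivWithinAt) (fun y _ => ?_) convex_univ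
      (mem_univ _) (mem_univ _)
    · rw [sub_zero, Real.norm_eq_abs, Real.norm_eq_abs] at this
      exact this
    · rw [Real.norm_eq_abs, abs_of_neg (q2_neg h hz hv.1 y)]
      exact q2_bd h hδ hz hv.1 y
  have h2 : |q1 z f v x| ≤ C + 1 / δ * |x| := by
    have := abs_add_le (q1 z f v 0) (q1 z f v x - q1 z f v 0)
    have e : q1 z f v 0 + (q1 z f v x - q1 z f v 0) = q1 z f v x := by ring
    rw [e] at this
    linarith
  rw [abs_mul, abs_of_pos hz, mul_assoc]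
  refine mul_le_mul_of_nonneg_left (h2.trans ?_) hz.le
  have hx := abs_nonneg x
  have h4 : 0 < 1 / δ := by positivity
  nlinarith

theorem q3_nonneg (h : St δ f) (hδ : 0 < δ) (hz : 0 < z) {v : ℝ} (hv : 0 ≤ v) (x : ℝ) :
    0 ≤ q3 z f v x := by
  have hM := h.toWM (z := z) hz.le
  have hW := hM.toW
  obtain ⟨A, hA, hlin⟩ := q1_lin h hδ hz v
  obtain ⟨C, n, hC, hg⟩ := UG.sq (q3_ug hM) v
  have key := MaxP_86.mp_growth (T := v) (A := A + 1) (C := C) (k := n)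
    (u := fun v x => -q3 z f v x)
    (ut := fun v x => -(1 / 2 * (q5 z f v x + 6 * z * q2 z f v x * q3 z f v x +
      2 * z * q1 z f v x * q4 z f v x)))
    (ux := fun v x => -q4 z f v x) (uxx := fun v x => -q5 z f v x)
    (a := fun _ _ => 1 / 2) (B := fun v x => z * q1 z f v x) (c := fun v x => 3 * z * q2 z f v x)
    (q3_cont hW).neg.continuousOn
    (fun t ht x => ((q3_hd_v hW hz.ne' ht.1.le x).hasDerivAt
      (Ici_mem_nhds ht.1)).neg.hasDerivWithinAt)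
    (fun t ht x => (q3_hd_x hW t x).neg) (fun t ht x => (q4_hd_x hW t x).neg)
    (by positivity) (fun _ _ _ _ => by norm_num)
    (fun _ _ x _ => by nlinarith [sq_nonneg x])
    (fun t ht x _ => by
      have := hlin t ⟨ht.1.le, ht.2⟩ x
      have h5 := abs_nonneg x
      nlinarith)
    (fun t ht x _ => by
      have := q2_neg h hz ht.1.le x
      nlinarith)
    (fun t ht x _ => by
      nlinarith)
    (fun x => by
      rw [q3_zero' hW hz.ne']
      have := h.d3 x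
      linarith)
    (fun t ht x => (neg_le_abs _).trans (hg t ht x))
  have := key v ⟨hv, le_rfl⟩ x
  linarith

theorem q3_le (h : St δ f) (hδ : 0 < δ) (hz : 0 < z) {M : ℝ}
    (hMb : ∀ x, deriv (deriv (deriv f)) x ≤ M) {v : ℝ} (hv : 0 ≤ v) (x : ℝ) :
    q3 z f v x ≤ M := by
  have hM := h.toWM (z := z) hz.le
  have hW := hM.toW
  obtain ⟨A, hA, hlin⟩ := q1_lin h hδ hz v
  obtain ⟨C, n, hC, hg⟩ := UG.sq (q3_ug hM) v
  have hM0 : 0 ≤ M := (h.d3 0).le.trans (hMb 0)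
  have key := MaxP_86.mp_growth (T := v) (A := A + 1) (C := C) (k := n)
    (u := fun v x => q3 z f v x - M)
    (ut := fun v x => 1 / 2 * (q5 z f v x + 6 * z * q2 z f v x * q3 z f v x +
      2 * z * q1 z f v x * q4 z f v x))
    (ux := fun v x => q4 z f v x) (uxx := fun v x => q5 z f v x)
    (a := fun _ _ => 1 / 2) (B := fun v x => z * q1 z f v x) (c := fun _ _ => 0)
    ((q3_cont hW).sub continuous_const).continuousOn
    (fun t ht x => ((q3_hd_v hW hz.ne' ht.1.le x).hasDerivAt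
      (Ici_mem_nhds ht.1)).hasDerivWithinAt.sub_const M)
    (fun t ht x => (q3_hd_x hW t x).sub_const M) (fun t ht x => (q4_hd_x hW t x))
    (by positivity) (fun _ _ _ _ => by norm_num)
    (fun _ _ x _ => by nlinarith [sq_nonneg x])
    (fun t ht x _ => by
      have := hlin t ⟨ht.1.le, ht.2⟩ x
      have h5 := abs_nonneg x
      nlinarith)
    (fun t ht x _ => by positivity)
    (fun t ht x _ => by
      have h1 := q2_neg h hz ht.1.le x
      have h2 := q3_nonneg h hδ hz ht.1.le x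
      have h3 : z * q2 z f t x * q3 z f t x ≤ 0 :=
        mul_nonpos_of_nonpos_of_nonneg (mul_nonpos_of_nonneg_of_nonpos hz.le h1.le) h2
      nlinarith)
    (fun x => by
      rw [q3_zero' hW hz.ne']
      have := hMb x
      linarith)
    (fun t ht x => by
      have := (le_abs_self _).trans (hg t ht x)
      linarith)
  have := key v ⟨hv, le_rfl⟩ x
  linarith

/-- tilted average as a function of the variance -/
def Gv (z : ℝ) (f φ : ℝ → ℝ) (v x : ℝ) : ℝ := T z f (Real.sqrt v) φ x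

theorem Gv_hd_x (h : W z f) {φ : ℝ → ℝ} (hφ : Sm φ) (v x : ℝ) :
    HasDerivAt (Gv z f φ v)
      (Gv z f (dz z f φ) v x - Gv z f φ v x * Gv z f (dz z f (fun _ => 1)) v x) x :=
  T_hd_x h hφ _ x

theorem Gv_hd_v (h : W z f) {φ : ℝ → ℝ} (hφ : Sm φ) {v : ℝ} (hv : 0 ≤ v) (x : ℝ) :
    HasDerivWithinAt (fun v => Gv z f φ v x)
      (1 / 2 * (Gv z f (dz z f (dz z f φ)) v x -
        Gv z f φ v x * Gv z f (dz z f (dz z f (fun _ => 1))) v x)) (Ici 0) v :=
  T_hd_v h hφ hv x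

theorem Gv_ug (h : WM z f) {φ : ℝ → ℝ} (hφ : PG φ) : UG (Gv z f φ) := by
  intro S
  obtain ⟨C, k, hC, hb⟩ := T_growth h hφ (Real.sqrt S)
  refine ⟨C, k, hC, fun v hv x => hb _ ?_ x⟩
  rw [abs_of_nonneg (Real.sqrt_nonneg v)]
  exact Real.sqrt_le_sqrt hv.2

theorem Gv_cont (h : W z f) {φ : ℝ → ℝ} (hφ : PG φ) :
    Continuous (fun p : ℝ × ℝ => Gv z f φ p.1 p.2) :=
  (T_cont h hφ).comp ((Real.continuous_sqrt.comp continuous_fst).prodMk continuous_snd)

theorem Gv_one (hz : z ≠ 0) (v x : ℝ) :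
    Gv z f (dz z f (fun _ => 1)) v x = z * q1 z f v x := by
  rw [q1_eq hz, dz_one]
  unfold Gv
  rw [T_const_mul]

/-- **strict positivity of the third derivative** -/
theorem q3_lower (h : St δ f) (hδ : 0 < δ) (hz : 0 < z) {v : ℝ} (hv : 0 ≤ v) (x : ℝ) :
    Real.exp (-(3 * z / δ) * v) * Gv z f (deriv (deriv (deriv f))) v x ≤ q3 z f v x := by
  have hM := h.toWM (z := z) hz.le
  have hW := hM.toW
  obtain ⟨A, hA, hlin⟩ := q1_lin h hδ hz v
  set φ := deriv (deriv (deriv f)) with hφd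
  have hφ : Sm φ := h.sm.deriv.deriv.deriv
  set c := 3 * z / δ with hc
  have hc0 : 0 ≤ c := by positivity
  have hug : UG (fun v x => Real.exp (-c * v) * Gv z f φ v x - q3 z f v x) := by
    refine UG.sub ?_ (q3_ug hM)
    intro S
    obtain ⟨C, k, hC, hb⟩ := Gv_ug hM hφ.pg S
    refine ⟨C, k, hC, fun v hv x => ?_⟩
    rw [abs_mul, abs_of_pos (Real.exp_pos _)]
    have h1 : Real.exp (-c * v) ≤ 1 := by
      rw [Real.exp_le_one_iff]; nlinarith [hv.1]
    calc Real.exp (-c * v) * |Gv z f φ v x| ≤ 1 * |Gv z f φ v x| :=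
          mul_le_mul_of_nonneg_right h1 (abs_nonneg _)
      _ ≤ _ := by rw [one_mul]; exact hb v hv x
  obtain ⟨C, n, hC, hg⟩ := UG.sq hug v
  set G0 := Gv z f φ with hG0
  set d1 := Gv z f (dz z f φ) with hd1
  set d2 := Gv z f (dz z f (dz z f φ)) with hd2
  set e1 := Gv z f (dz z f (fun _ => 1)) with he1
  set e2 := Gv z f (dz z f (dz z f (fun _ => 1))) with he2
  have s1 := Sm_dz (z := z) hW.sm hφ
  have s2 := Sm_dz (z := z) hW.sm (Sm.const 1)
  have key := MaxP_86.mp_growth (T := v) (A := A + 1) (C := C) (k := n)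
    (u := fun v x => Real.exp (-c * v) * G0 v x - q3 z f v x)
    (ut := fun v x => (Real.exp (-c * v) * (-c)) * G0 v x + Real.exp (-c * v) *
      (1 / 2 * (d2 v x - G0 v x * e2 v x)) - 1 / 2 * (q5 z f v x + 6 * z * q2 z f v x * q3 z f v x +
      2 * z * q1 z f v x * q4 z f v x))
    (ux := fun v x => Real.exp (-c * v) * (d1 v x - G0 v x * e1 v x) - q4 z f v x)
    (uxx := fun v x => Real.exp (-c * v) * ((d2 v x - d1 v x * e1 v x) -
      ((d1 v x - G0 v x * e1 v x) * e1 v x + G0 v x * (e2 v x - e1 v x * e1 v x))) - q5 z f v x)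
    (a := fun _ _ => 1 / 2) (B := fun v x => z * q1 z f v x) (c := fun _ _ => -c)
    (by
      have h1 := Gv_cont hW hφ.pg
      have h2 := q3_cont hW
      have : Continuous (fun p : ℝ × ℝ => Real.exp (-c * p.1) * Gv z f φ p.1 p.2 -
        q3 z f p.1 p.2) := by fun_prop
      exact this.continuousOn)
    (fun t ht x => by
      have h1 : HasDerivAt (fun v : ℝ => Real.exp (-c * v)) (Real.exp (-c * t) * (-c)) t := by
        have := ((hasDerivAt_id t).const_mul (-c)).exp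
        simpa using this
      have h2 := (Gv_hd_v hW hφ ht.1.le x).hasDerivAt (Ici_mem_nhds ht.1)
      have h3 := (q3_hd_v hW hz.ne' ht.1.le x).hasDerivAt (Ici_mem_nhds ht.1)
      exact ((h1.mul h2).sub h3).hasDerivWithinAt)
    (fun t ht x => ((Gv_hd_x hW hφ t x).const_mul _).sub (q3_hd_x hW t x))
    (fun t ht x => by
      have h1 := Gv_hd_x hW s1 t x
      have h2 := Gv_hd_x hW hφ t x
      have h3 := Gv_hd_x hW s2 t x
      exact ((h1.sub (h2.mul h3)).const_mul _).sub (q4_hd_x hW t x))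
    (by positivity) (fun _ _ _ _ => by norm_num)
    (fun _ _ x _ => by nlinarith [sq_nonneg x])
    (fun t ht x _ => by
      have := hlin t ⟨ht.1.le, ht.2⟩ x
      have h5 := abs_nonneg x
      nlinarith)
    (fun t ht x _ => by
      linarith)
    (fun t ht x _ => by
      have h1 := q2_bd h hδ hz ht.1.le x
      have h2 := q3_nonneg h hδ hz ht.1.le x
      have h3 : -(3 * z * q2 z f t x * q3 z f t x) ≤ c * q3 z f t x := by
        have h4 : -(3 * z * q2 z f t x) ≤ c := by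
          have h5 := mul_le_mul_of_nonneg_left h1 (by positivity : 0 ≤ 3 * z)
          have e : c = 3 * z * (1 / δ) := by rw [hc]; ring
          linarith
        have := mul_le_mul_of_nonneg_right h4 h2
        linarith
      have h6 : e1 t x = z * q1 z f t x := by rw [he1, Gv_one hz.ne']
      rw [← h6]
      have h7 : 2 * z * q1 z f t x * q4 z f t x = 2 * e1 t x * q4 z f t x := by rw [h6]; ring
      rw [h7]
      nlinarith)
    (fun x => by
      have h1 : G0 0 x = φ x := by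
        rw [hG0]; unfold Gv; rw [Real.sqrt_zero, T_zero]
      rw [h1, q3_zero' hW hz.ne']
      simp [hφd])
    (fun t ht x => (le_abs_self _).trans (hg t ht x))
  have := key v ⟨hv, le_rfl⟩ x
  linarith

theorem q3_pos (h : St δ f) (hδ : 0 < δ) (hz : 0 < z) {v : ℝ} (hv : 0 ≤ v) (x : ℝ) :
    0 < q3 z f v x := by
  have hW := (h.toWM (z := z) hz.le).toW
  rcases hv.lt_or_eq with hv' | hv'
  · refine lt_of_lt_of_le (mul_pos (Real.exp_pos _) ?_) (q3_lower h hδ hz hv x)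
    exact T_pos hW h.sm.deriv.deriv.deriv.pg (fun y => (h.d3 y).le) (h.d3 0)
      (Real.sqrt_pos.2 hv').ne' x
  · rw [← hv', q3_zero' hW hz.ne']
    exact h.d3 x

/-- **propagation of the state through one cell** -/
theorem St.step (h : St δ f) (hδ : 0 < δ) (hz : 0 < z) {v : ℝ} (hv : 0 ≤ v) :
    St (δ + z * v) (gaussOp z v f) := by
  have hM := h.toWM (z := z) hz.le
  have hW := hM.toW
  rw [gaussOp_eq hz.ne']
  have e1 : deriv (q0 z f v) = q1 z f v := funext fun x => (q0_hd_x hW v x).deriv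
  have e2 : deriv (q1 z f v) = q2 z f v := funext fun x => (q1_hd_x hW v x).deriv
  have e3 : deriv (q2 z f v) = q3 z f v := funext fun x => (q2_hd_x hW v x).deriv
  obtain ⟨M, hMb⟩ := h.d3b
  refine ⟨q0_Sm hM v hv, q0_nonpos hW v, ?_, ?_, ?_, ?_, ?_, ⟨M, ?_⟩⟩
  · rw [e1]; exact q1_pos h hz v
  · rw [e1, e2]; exact q2_neg h hz hv
  · rw [e1, e2]; exact V_pos h hz hv
  · rw [e1]; exact w_pos h hz hv
  · rw [e1, e2, e3]; exact q3_pos h hδ hz hv
  · rw [e1, e2, e3]; exact q3_le h hδ hz hMb hv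

end

end Crest.Agent.R146.R1d_847
end

-- ▼ part R146/R1e_847
section

/-!
Row 146, PT0-R1 (helper847), part e: gluing of the cells. `sys_of`: the step system generated from a
terminal state `St δ f` satisfies all equations, continuity, growth and sign statements on `[0,T]`.
-/

set_option autoImplicit false

namespace Crest.Agent.R146.R1e_847

open MeasureTheory ProbabilityTheory Filter Topology Set
open Crest.ProbabilityR.InvariantGlass
open Crest.Agent.R146.Hg_534 Crest.Agent.R146.PB_534 Crest.Agent.R146.R1a_847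
open Crest.Agent.R146.R1b_847 Crest.Agent.R146.R1c_847 Crest.Agent.R146.R1d_847
open Crest.Agent.R146.StepDef_791

noncomputable section

/-- space derivative of a function of `(t,x)` -/
def Dx (ψ : ℝ → ℝ → ℝ) (t x : ℝ) : ℝ := deriv (ψ t) x

theorem Dx_congr {F G : ℝ → ℝ → ℝ} {t : ℝ} (h : F t = G t) : Dx F t = Dx G t := by
  funext x; unfold Dx; rw [h]

/-- gluing at time `s` -/
def gl (s : ℝ) (F G : ℝ → ℝ → ℝ) (t x : ℝ) : ℝ := if s ≤ t then F t x else G t x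

theorem Dx_gl (s : ℝ) (F G : ℝ → ℝ → ℝ) : Dx (gl s F G) = gl s (Dx F) (Dx G) := by
  funext t x
  unfold Dx gl
  by_cases h : s ≤ t
  · have : (fun x => if s ≤ t then F t x else G t x) = F t := by funext x; rw [if_pos h]
    rw [this, if_pos h]
  · have : (fun x => if s ≤ t then F t x else G t x) = G t := by funext x; rw [if_neg h]
    rw [this, if_neg h]

theorem gl_of_le {s : ℝ} {F G : ℝ → ℝ → ℝ} {t : ℝ} (h : s ≤ t) : gl s F G t = F t := by
  funext x; unfold gl; rw [if_pos h]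

theorem gl_of_lt {s : ℝ} {F G : ℝ → ℝ → ℝ} {t : ℝ} (h : t < s) : gl s F G t = G t := by
  funext x; unfold gl; rw [if_neg (not_le.2 h)]

theorem gl_of_le' {s : ℝ} {F G : ℝ → ℝ → ℝ} (hs : F s = G s) {t : ℝ} (h : t ≤ s) :
    gl s F G t = G t := by
  rcases h.lt_or_eq with h | h
  · exact gl_of_lt h
  · rw [h, gl_of_le le_rfl, hs]

theorem gl_cont {s T : ℝ} {F G : ℝ → ℝ → ℝ} (hs : F s = G s) (h0 : 0 ≤ s) (hT : s ≤ T)
    (hF : ContinuousOn (fun q : ℝ × ℝ => F q.1 q.2) (Icc s T ×ˢ univ))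
    (hG : ContinuousOn (fun q : ℝ × ℝ => G q.1 q.2) (Icc 0 s ×ˢ univ)) :
    ContinuousOn (fun q : ℝ × ℝ => gl s F G q.1 q.2) (Icc 0 T ×ˢ univ) := by
  have h1 : ContinuousOn (fun q : ℝ × ℝ => gl s F G q.1 q.2) (Icc s T ×ˢ univ) :=
    hF.congr fun q hq => by rw [gl_of_le hq.1.1]
  have h2 : ContinuousOn (fun q : ℝ × ℝ => gl s F G q.1 q.2) (Icc 0 s ×ˢ univ) :=
    hG.congr fun q hq => by rw [gl_of_le' hs hq.1.2]
  have h3 := h2.union_of_isClosed h1 (isClosed_Icc.prod isClosed_univ)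
    (isClosed_Icc.prod isClosed_univ)
  rw [← union_prod, Icc_union_Icc_eq_Icc h0 hT] at h3
  exact h3

/-- uniform polynomial growth on `[a,b]` -/
def Gr (a b : ℝ) (F : ℝ → ℝ → ℝ) : Prop :=
  ∃ (C : ℝ) (n : ℕ), 0 ≤ C ∧ ∀ t ∈ Icc a b, ∀ x, |F t x| ≤ C * (1 + |x|) ^ n

theorem gl_growth {s T : ℝ} {F G : ℝ → ℝ → ℝ} (hF : Gr s T F) (hG : Gr 0 s G) :
    Gr 0 T (gl s F G) := by
  obtain ⟨C, n, hC, h1⟩ := hF
  obtain ⟨C', n', hC', h2⟩ := hG
  refine ⟨C + C', n + n', by positivity, fun t ht x => ?_⟩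
  have hx := one_le_base x
  have h3 : (1 + |x|) ^ n ≤ (1 + |x|) ^ (n + n') := pow_le_pow_right₀ hx (by omega)
  have h4 : (1 + |x|) ^ n' ≤ (1 + |x|) ^ (n + n') := pow_le_pow_right₀ hx (by omega)
  have h5 : 0 ≤ (1 + |x|) ^ (n + n') := by positivity
  rcases le_or_gt s t with h | h
  · rw [gl_of_le h]
    have := h1 t ⟨h, ht.2⟩ x
    nlinarith [mul_le_mul_of_nonneg_left h3 hC, mul_nonneg hC' h5]
  · rw [gl_of_lt h]
    have := h2 t ⟨ht.1, h.le⟩ x
    nlinarith [mul_le_mul_of_nonneg_left h4 hC', mul_nonneg hC h5]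

/-- right derivative property of `F` with derivative field `F'` on `[a,b)` -/
def RD (a b : ℝ) (F F' : ℝ → ℝ → ℝ) : Prop :=
  ∀ t ∈ Ico a b, ∀ x, HasDerivWithinAt (fun s => F s x) (F' t x) (Ici t) t

/-- left derivative property on `(a,b]` -/
def LD (a b : ℝ) (F F' : ℝ → ℝ → ℝ) : Prop :=
  ∀ t ∈ Ioc a b, ∀ x, HasDerivWithinAt (fun s => F s x) (F' t x) (Iic t) t

theorem gl_right {s T : ℝ} {F G F' G' : ℝ → ℝ → ℝ} {K' : ℝ → ℝ → ℝ}
    (hF : RD s T F F') (hG : RD 0 s G G')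
    (h1 : ∀ t ∈ Ico s T, ∀ x, K' t x = F' t x) (h2 : ∀ t ∈ Ico 0 s, ∀ x, K' t x = G' t x) :
    RD 0 T (gl s F G) K' := by
  intro t ht x
  rcases le_or_gt s t with h | h
  · rw [h1 t ⟨h, ht.2⟩ x]
    refine (hF t ⟨h, ht.2⟩ x).congr (fun r hr => ?_) ?_
    · rw [gl_of_le (h.trans hr)]
    · rw [gl_of_le h]
  · rw [h2 t ⟨ht.1, h⟩ x]
    refine (hG t ⟨ht.1, h⟩ x).congr_of_eventuallyEq ?_ ?_
    · filter_upwards [nhdsWithin_le_nhds (Iio_mem_nhds h)] with r hr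
      rw [gl_of_lt hr]
    · rw [gl_of_lt h]

theorem gl_left {s T : ℝ} {F G F' G' : ℝ → ℝ → ℝ} {K' : ℝ → ℝ → ℝ} (hs : F s = G s)
    (hF : LD s T F F') (hG : LD 0 s G G')
    (h1 : ∀ t ∈ Ioc s T, ∀ x, K' t x = F' t x) (h2 : ∀ t ∈ Ioc 0 s, ∀ x, K' t x = G' t x) :
    LD 0 T (gl s F G) K' := by
  intro t ht x
  rcases lt_or_ge s t with h | h
  · rw [h1 t ⟨h, ht.2⟩ x]
    refine (hF t ⟨h, ht.2⟩ x).congr_of_eventuallyEq ?_ ?_
    · filter_upwards [nhdsWithin_le_nhds (Ioi_mem_nhds h)] with r hr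
      rw [gl_of_le (le_of_lt hr)]
    · rw [gl_of_le h.le]
  · rw [h2 t ⟨ht.1, h⟩ x]
    refine (hG t ⟨ht.1, h⟩ x).congr (fun r hr => ?_) ?_
    · rw [gl_of_le' hs (le_trans hr h)]
    · rw [gl_of_le' hs h]

/-! ### the cell in the time variable -/

/-- time-reversed function of the variance -/
def tr (T : ℝ) (Q : ℝ → ℝ → ℝ) (t x : ℝ) : ℝ := Q (T - t) x

theorem tr_cont (T a : ℝ) {Q : ℝ → ℝ → ℝ} (hQ : Continuous (fun q : ℝ × ℝ => Q q.1 q.2)) :
    ContinuousOn (fun q : ℝ × ℝ => tr T Q q.1 q.2) (Icc a T ×ˢ univ) := by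
  have : Continuous (fun q : ℝ × ℝ => tr T Q q.1 q.2) := by
    unfold tr
    exact hQ.comp ((continuous_const.sub continuous_fst).prodMk continuous_snd)
  exact this.continuousOn

theorem tr_growth (T a : ℝ) {Q : ℝ → ℝ → ℝ} (hQ : UG Q) : Gr a T (tr T Q) := by
  obtain ⟨C, n, hC, h⟩ := hQ (T - a)
  exact ⟨C, n, hC, fun t ht x => h (T - t) ⟨by linarith [ht.2], by linarith [ht.1]⟩ x⟩

theorem tr_hd (T : ℝ) {Q Q' : ℝ → ℝ → ℝ}
    (h : ∀ v, 0 ≤ v → ∀ x, HasDerivWithinAt (fun v => Q v x) (Q' v x) (Ici 0) v) {t : ℝ}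
    (ht : t ≤ T) (x : ℝ) :
    HasDerivWithinAt (fun s => tr T Q s x) (-(Q' (T - t) x)) (Iic T) t := by
  have h1 : HasDerivWithinAt (fun s : ℝ => T - s) (-1) (Iic T) t := by
    simpa using ((hasDerivAt_id t).const_sub T).hasDerivWithinAt
  have h2 : MapsTo (fun s : ℝ => T - s) (Iic T) (Ici 0) := by
    intro r hr
    simp only [mem_Iic] at hr
    simp only [mem_Ici]
    linarith
  have h3 := HasDerivWithinAt.comp (h₂ := fun v => Q v x) (h := fun s : ℝ => T - s) t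
    (h (T - t) (by linarith) x) h1 h2
  have e : -(Q' (T - t) x) = Q' (T - t) x * (-1) := by ring
  rw [e]
  exact h3

theorem tr_RD (T a : ℝ) {Q Q' : ℝ → ℝ → ℝ}
    (h : ∀ v, 0 ≤ v → ∀ x, HasDerivWithinAt (fun v => Q v x) (Q' v x) (Ici 0) v) :
    RD a T (tr T Q) (fun t x => -(Q' (T - t) x)) := by
  intro t ht x
  exact ((tr_hd T h ht.2.le x).hasDerivAt (Iic_mem_nhds ht.2)).hasDerivWithinAt

theorem tr_LD (T a : ℝ) {Q Q' : ℝ → ℝ → ℝ}
    (h : ∀ v, 0 ≤ v → ∀ x, HasDerivWithinAt (fun v => Q v x) (Q' v x) (Ici 0) v) :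
    LD a T (tr T Q) (fun t x => -(Q' (T - t) x)) := by
  intro t ht x
  exact (tr_hd T h ht.2 x).mono (Iic_subset_Iic.2 ht.2)

/-! ### the system -/

/-- all facts on `[0,T]` in terms of the derivatives of `ψ` -/
structure Sys (T : ℝ) (D m ml : ℝ → ℝ) (ψ : ℝ → ℝ → ℝ) : Prop where
  st : ∀ t ∈ Icc 0 T, St (D t) (ψ t)
  c0 : ContinuousOn (fun q : ℝ × ℝ => ψ q.1 q.2) (Icc 0 T ×ˢ univ)
  c1 : ContinuousOn (fun q : ℝ × ℝ => Dx ψ q.1 q.2) (Icc 0 T ×ˢ univ)
  c2 : ContinuousOn (fun q : ℝ × ℝ => Dx (Dx ψ) q.1 q.2) (Icc 0 T ×ˢ univ)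
  c3 : ContinuousOn (fun q : ℝ × ℝ => Dx (Dx (Dx ψ)) q.1 q.2) (Icc 0 T ×ˢ univ)
  c4 : ContinuousOn (fun q : ℝ × ℝ => Dx (Dx (Dx (Dx ψ))) q.1 q.2) (Icc 0 T ×ˢ univ)
  c5 : ContinuousOn (fun q : ℝ × ℝ => Dx (Dx (Dx (Dx (Dx ψ)))) q.1 q.2) (Icc 0 T ×ˢ univ)
  g0 : Gr 0 T ψ
  g1 : Gr 0 T (Dx ψ)
  g2 : Gr 0 T (Dx (Dx ψ))
  g3 : Gr 0 T (Dx (Dx (Dx ψ)))
  g4 : Gr 0 T (Dx (Dx (Dx (Dx ψ))))
  g5 : Gr 0 T (Dx (Dx (Dx (Dx (Dx ψ)))))
  r0 : RD 0 T ψ (fun t x => -(1 / 2 * (Dx (Dx ψ) t x + m t * Dx ψ t x ^ 2)))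
  r1 : RD 0 T (Dx ψ) (fun t x => -(1 / 2 * (Dx (Dx (Dx ψ)) t x +
    2 * m t * Dx ψ t x * Dx (Dx ψ) t x)))
  r2 : RD 0 T (Dx (Dx ψ)) (fun t x => -(1 / 2 * (Dx (Dx (Dx (Dx ψ))) t x +
    2 * m t * Dx (Dx ψ) t x ^ 2 + 2 * m t * Dx ψ t x * Dx (Dx (Dx ψ)) t x)))
  r3 : RD 0 T (Dx (Dx (Dx ψ))) (fun t x => -(1 / 2 * (Dx (Dx (Dx (Dx (Dx ψ)))) t x +
    6 * m t * Dx (Dx ψ) t x * Dx (Dx (Dx ψ)) t x + 2 * m t * Dx ψ t x * Dx (Dx (Dx (Dx ψ))) t x)))
  l0 : LD 0 T ψ (fun t x => -(1 / 2 * (Dx (Dx ψ) t x + ml t * Dx ψ t x ^ 2)))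
  l1 : LD 0 T (Dx ψ) (fun t x => -(1 / 2 * (Dx (Dx (Dx ψ)) t x +
    2 * ml t * Dx ψ t x * Dx (Dx ψ) t x)))
  l2 : LD 0 T (Dx (Dx ψ)) (fun t x => -(1 / 2 * (Dx (Dx (Dx (Dx ψ))) t x +
    2 * ml t * Dx (Dx ψ) t x ^ 2 + 2 * ml t * Dx ψ t x * Dx (Dx (Dx ψ)) t x)))
  l3 : LD 0 T (Dx (Dx (Dx ψ))) (fun t x => -(1 / 2 * (Dx (Dx (Dx (Dx (Dx ψ)))) t x +
    6 * ml t * Dx (Dx ψ) t x * Dx (Dx (Dx ψ)) t x + 2 * ml t * Dx ψ t x * Dx (Dx (Dx (Dx ψ))) t x)))
  b3 : ∃ M, ∀ t ∈ Icc 0 T, ∀ x, Dx (Dx (Dx ψ)) t x ≤ M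
  cD : ContinuousOn D (Icc 0 T)
  rD : ∀ t ∈ Ico 0 T, HasDerivWithinAt D (-(m t)) (Ici t) t
  lD : ∀ t ∈ Ioc 0 T, HasDerivWithinAt D (-(ml t)) (Iic t) t
  mb : ∃ M, ∀ t, m t ≤ M ∧ ml t ≤ M

theorem Psc_T : ∀ {cs : Cells} {T : ℝ} {f : ℝ → ℝ}, Valid T cs → Psc T f cs T = f
  | [], _, _, _ => rfl
  | c :: cs, T, f, h => by
      unfold Psc
      rw [if_pos h.1.le, sub_self, gaussOp_eq h.2.1.ne', q0_zero' h.2.1.ne']

theorem Dc_T : ∀ {cs : Cells} {T d : ℝ}, Valid T cs → Dc T d cs T = d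
  | [], _, _, _ => rfl
  | c :: cs, T, d, h => by
      unfold Dc
      rw [if_pos h.1.le, sub_self, mul_zero, add_zero]

theorem Sm.gr {f : ℝ → ℝ} (h : Sm f) {ψ : ℝ → ℝ → ℝ} (hψ : ψ 0 = f) : Gr 0 0 ψ := by
  obtain ⟨C, n, hC, hb⟩ := h.pg.bd
  refine ⟨C, n, hC, fun t ht x => ?_⟩
  have ht0 : t = 0 := le_antisymm ht.2 ht.1
  rw [ht0, hψ]; exact hb x

theorem cont_sing {f : ℝ → ℝ} (h : Continuous f) {ψ : ℝ → ℝ → ℝ} (hψ : ψ 0 = f) :
    ContinuousOn (fun q : ℝ × ℝ => ψ q.1 q.2) (Icc 0 0 ×ˢ univ) := by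
  have h1 : Continuous (fun q : ℝ × ℝ => f q.2) := h.comp continuous_snd
  refine h1.continuousOn.congr fun q hq => ?_
  have ht0 : q.1 = 0 := le_antisymm hq.1.2 hq.1.1
  rw [ht0, hψ]

theorem RD_empty {F F' : ℝ → ℝ → ℝ} : RD 0 0 F F' := fun _ ht => absurd ht.2 (not_lt.2 ht.1)
theorem LD_empty {F F' : ℝ → ℝ → ℝ} : LD 0 0 F F' := fun _ ht => absurd ht.1 (not_lt.2 ht.2)

/-- base of the induction: no cell -/
theorem sys_nil {δ : ℝ} {f : ℝ → ℝ} (h : St δ f) :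
    Sys 0 (Dc 0 δ []) (mrc 0 []) (mlc 0 []) (Psc 0 f []) := by
  have e0 : Psc 0 f [] 0 = f := rfl
  have e1 : Dx (Psc 0 f []) 0 = deriv f := rfl
  have e2 : Dx (Dx (Psc 0 f [])) 0 = deriv (deriv f) := rfl
  have e3 : Dx (Dx (Dx (Psc 0 f []))) 0 = deriv (deriv (deriv f)) := rfl
  have e4 : Dx (Dx (Dx (Dx (Psc 0 f [])))) 0 = deriv (deriv (deriv (deriv f))) := rfl
  have e5 : Dx (Dx (Dx (Dx (Dx (Psc 0 f []))))) 0 = deriv (deriv (deriv (deriv (deriv f)))) := rfl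
  have s1 := h.sm.deriv
  have s2 := s1.deriv
  have s3 := s2.deriv
  have s4 := s3.deriv
  have s5 := s4.deriv
  obtain ⟨M, hM⟩ := h.d3b
  exact
  { st := fun t ht => by
      have ht0 : t = 0 := le_antisymm ht.2 ht.1
      rw [ht0]; exact h
    c0 := cont_sing h.sm.cont e0
    c1 := cont_sing s1.cont e1
    c2 := cont_sing s2.cont e2
    c3 := cont_sing s3.cont e3
    c4 := cont_sing s4.cont e4
    c5 := cont_sing s5.cont e5
    g0 := Sm.gr h.sm e0
    g1 := Sm.gr s1 e1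
    g2 := Sm.gr s2 e2
    g3 := Sm.gr s3 e3
    g4 := Sm.gr s4 e4
    g5 := Sm.gr s5 e5
    r0 := RD_empty
    r1 := RD_empty
    r2 := RD_empty
    r3 := RD_empty
    l0 := LD_empty
    l1 := LD_empty
    l2 := LD_empty
    l3 := LD_empty
    b3 := ⟨M, fun t ht x => by
      have ht0 : t = 0 := le_antisymm ht.2 ht.1
      rw [ht0, e3]; exact hM x⟩
    cD := continuousOn_const
    rD := fun t ht => absurd ht.2 (not_lt.2 ht.1)
    lD := fun t ht => absurd ht.1 (not_lt.2 ht.2)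
    mb := ⟨0, fun t => ⟨le_rfl, le_rfl⟩⟩ }

theorem Psc_cons (T : ℝ) (f : ℝ → ℝ) (c : ℝ × ℝ) (cs : Cells) (hz : c.2 ≠ 0) :
    Psc T f (c :: cs) = gl c.1 (tr T (q0 c.2 f)) (Psc c.1 (gaussOp c.2 (T - c.1) f) cs) := by
  funext t x
  unfold gl tr
  rw [Psc]
  by_cases h : c.1 ≤ t
  · rw [if_pos h, if_pos h, gaussOp_eq hz]
  · rw [if_neg h, if_neg h]

theorem Dx_tr (T : ℝ) {Q Q' : ℝ → ℝ → ℝ} (h : ∀ v x, HasDerivAt (Q v) (Q' v x) x) :
    Dx (tr T Q) = tr T Q' := by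
  funext t x
  exact (h (T - t) x).deriv

/-- the induction step: one more cell on the right -/
theorem sys_cons {T δ : ℝ} {f : ℝ → ℝ} (h : St δ f) (hδ : 0 < δ) {c : ℝ × ℝ} {cs : Cells}
    (h0 : 0 ≤ c.1) (hcT : c.1 < T) (hz : 0 < c.2) (hv : Valid c.1 cs)
    (hS : Sys c.1 (Dc c.1 (δ + c.2 * (T - c.1)) cs) (mrc c.1 cs) (mlc c.1 cs)
      (Psc c.1 (gaussOp c.2 (T - c.1) f) cs)) :
    Sys T (Dc T δ (c :: cs)) (mrc T (c :: cs)) (mlc T (c :: cs)) (Psc T f (c :: cs)) := by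
  have hWM := h.toWM (z := c.2) hz.le
  have hW := hWM.toW
  have hz' := hz.ne'
  set G := Psc c.1 (gaussOp c.2 (T - c.1) f) cs with hG
  have eP : Psc T f (c :: cs) = gl c.1 (tr T (q0 c.2 f)) G := Psc_cons T f c cs hz'
  have t1 : Dx (tr T (q0 c.2 f)) = tr T (q1 c.2 f) := Dx_tr T (q0_hd_x hW)
  have t2 : Dx (tr T (q1 c.2 f)) = tr T (q2 c.2 f) := Dx_tr T (q1_hd_x hW)
  have t3 : Dx (tr T (q2 c.2 f)) = tr T (q3 c.2 f) := Dx_tr T (q2_hd_x hW)
  have t4 : Dx (tr T (q3 c.2 f)) = tr T (q4 c.2 f) := Dx_tr T (q3_hd_x hW)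
  have t5 : Dx (tr T (q4 c.2 f)) = tr T (q5 c.2 f) := Dx_tr T (q4_hd_x hW)
  have e1 : Dx (Psc T f (c :: cs)) = gl c.1 (tr T (q1 c.2 f)) (Dx G) := by rw [eP, Dx_gl, t1]
  have e2 : Dx (Dx (Psc T f (c :: cs))) = gl c.1 (tr T (q2 c.2 f)) (Dx (Dx G)) := by
    rw [e1, Dx_gl, t2]
  have e3 : Dx (Dx (Dx (Psc T f (c :: cs)))) = gl c.1 (tr T (q3 c.2 f)) (Dx (Dx (Dx G))) := by
    rw [e2, Dx_gl, t3]
  have e4 : Dx (Dx (Dx (Dx (Psc T f (c :: cs))))) =
      gl c.1 (tr T (q4 c.2 f)) (Dx (Dx (Dx (Dx G)))) := by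
    rw [e3, Dx_gl, t4]
  have e5 : Dx (Dx (Dx (Dx (Dx (Psc T f (c :: cs)))))) =
      gl c.1 (tr T (q5 c.2 f)) (Dx (Dx (Dx (Dx (Dx G))))) := by
    rw [e4, Dx_gl, t5]
  -- agreement at the joint
  have j0 : tr T (q0 c.2 f) c.1 = G c.1 := by
    rw [hG, Psc_T hv, gaussOp_eq hz']; rfl
  have j1 : tr T (q1 c.2 f) c.1 = Dx G c.1 := by rw [← t1]; exact Dx_congr j0
  have j2 : tr T (q2 c.2 f) c.1 = Dx (Dx G) c.1 := by
    rw [← t2]; exact Dx_congr j1
  have j3 : tr T (q3 c.2 f) c.1 = Dx (Dx (Dx G)) c.1 := by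
    rw [← t3]; exact Dx_congr j2
  have j4 : tr T (q4 c.2 f) c.1 = Dx (Dx (Dx (Dx G))) c.1 := by
    rw [← t4]; exact Dx_congr j3
  have j5 : tr T (q5 c.2 f) c.1 = Dx (Dx (Dx (Dx (Dx G)))) c.1 := by
    rw [← t5]; exact Dx_congr j4
  -- weights
  have mR : ∀ t ∈ Ico c.1 T, mrc T (c :: cs) t = c.2 := by
    intro t ht; rw [mrc, if_pos ht.1, if_pos ht.2]
  have mR' : ∀ t ∈ Ico 0 c.1, mrc T (c :: cs) t = mrc c.1 cs t := by
    intro t ht; rw [mrc, if_neg (not_le.2 ht.2)]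
  have mL : ∀ t ∈ Ioc c.1 T, mlc T (c :: cs) t = c.2 := by
    intro t ht; rw [mlc, if_pos ht.1, if_pos ht.2]
  have mL' : ∀ t ∈ Ioc 0 c.1, mlc T (c :: cs) t = mlc c.1 cs t := by
    intro t ht; rw [mlc, if_neg (not_lt.2 ht.2)]
  have dR : ∀ t, c.1 ≤ t → Dc T δ (c :: cs) t = δ + c.2 * (T - t) := by
    intro t ht; rw [Dc, if_pos ht]
  have dR' : ∀ t, t ≤ c.1 → Dc T δ (c :: cs) t = Dc c.1 (δ + c.2 * (T - c.1)) cs t := by
    intro t ht
    rcases ht.lt_or_eq with ht | ht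
    · rw [Dc, if_neg (not_le.2 ht)]
    · rw [ht, dR _ le_rfl, Dc_T hv]
  have glF : ∀ {F K : ℝ → ℝ → ℝ} {t : ℝ}, c.1 ≤ t → ∀ x, gl c.1 F K t x = F t x :=
    fun ht x => congrFun (gl_of_le ht) x
  have glG : ∀ {F K : ℝ → ℝ → ℝ} {t : ℝ}, t < c.1 → ∀ x, gl c.1 F K t x = K t x :=
    fun ht x => congrFun (gl_of_lt ht) x
  have glG' : ∀ {F K : ℝ → ℝ → ℝ}, F c.1 = K c.1 → ∀ {t : ℝ}, t ≤ c.1 → ∀ x,
      gl c.1 F K t x = K t x :=
    fun hj _ ht x => congrFun (gl_of_le' hj ht) x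
  obtain ⟨M0, hM0⟩ := h.d3b
  obtain ⟨M1, hM1⟩ := hS.b3
  obtain ⟨m1, hm1⟩ := hS.mb
  have hlin : ∀ t : ℝ, HasDerivAt (fun s : ℝ => δ + c.2 * (T - s)) (-c.2) t := by
    intro t
    have := (((hasDerivAt_id t).const_sub T).const_mul c.2).const_add δ
    simpa using this
  refine
  { st := ?_
    c0 := ?_, c1 := ?_, c2 := ?_, c3 := ?_, c4 := ?_, c5 := ?_
    g0 := ?_, g1 := ?_, g2 := ?_, g3 := ?_, g4 := ?_, g5 := ?_
    r0 := ?_, r1 := ?_, r2 := ?_, r3 := ?_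
    l0 := ?_, l1 := ?_, l2 := ?_, l3 := ?_
    b3 := ?_, cD := ?_, rD := ?_, lD := ?_, mb := ?_ }
  · intro t ht
    rcases le_or_gt c.1 t with h1 | h1
    · rw [dR t h1, eP, gl_of_le h1]
      have := h.step hδ hz (v := T - t) (by linarith [ht.2])
      rw [gaussOp_eq hz'] at this
      exact this
    · rw [dR' t h1.le, eP, gl_of_lt h1]
      exact hS.st t ⟨ht.1, h1.le⟩
  · rw [eP]; exact gl_cont j0 h0 hcT.le (tr_cont T _ (q0_cont hW)) hS.c0
  · rw [e1]; exact gl_cont j1 h0 hcT.le (tr_cont T _ (q1_cont hW)) hS.c1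
  · rw [e2]; exact gl_cont j2 h0 hcT.le (tr_cont T _ (q2_cont hW)) hS.c2
  · rw [e3]; exact gl_cont j3 h0 hcT.le (tr_cont T _ (q3_cont hW)) hS.c3
  · rw [e4]; exact gl_cont j4 h0 hcT.le (tr_cont T _ (q4_cont hW)) hS.c4
  · rw [e5]; exact gl_cont j5 h0 hcT.le (tr_cont T _ (q5_cont hW)) hS.c5
  · rw [eP]; exact gl_growth (tr_growth T _ (q0_ug hWM)) hS.g0
  · rw [e1]; exact gl_growth (tr_growth T _ (q1_ug hWM)) hS.g1
  · rw [e2]; exact gl_growth (tr_growth T _ (q2_ug hWM)) hS.g2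
  · rw [e3]; exact gl_growth (tr_growth T _ (q3_ug hWM)) hS.g3
  · rw [e4]; exact gl_growth (tr_growth T _ (q4_ug hWM)) hS.g4
  · rw [e5]; exact gl_growth (tr_growth T _ (q5_ug hWM)) hS.g5
  · rw [e2, e1, eP]
    refine gl_right (tr_RD T c.1 (fun v hv x => q0_hd_v hW hz' hv x)) hS.r0 ?_ ?_
    · intro t ht x
      simp only [glF ht.1, mR t ht]; rfl
    · intro t ht x
      simp only [glG ht.2, mR' t ht]
  · rw [e3, e2, e1]
    refine gl_right (tr_RD T c.1 (fun v hv x => q1_hd_v hW hz' hv x)) hS.r1 ?_ ?_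
    · intro t ht x
      simp only [glF ht.1, mR t ht]; rfl
    · intro t ht x
      simp only [glG ht.2, mR' t ht]
  · rw [e4, e3, e2, e1]
    refine gl_right (tr_RD T c.1 (fun v hv x => q2_hd_v hW hz' hv x)) hS.r2 ?_ ?_
    · intro t ht x
      simp only [glF ht.1, mR t ht]; rfl
    · intro t ht x
      simp only [glG ht.2, mR' t ht]
  · rw [e5, e4, e3, e2, e1]
    refine gl_right (tr_RD T c.1 (fun v hv x => q3_hd_v hW hz' hv x)) hS.r3 ?_ ?_
    · intro t ht x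
      simp only [glF ht.1, mR t ht]; rfl
    · intro t ht x
      simp only [glG ht.2, mR' t ht]
  · rw [e2, e1, eP]
    refine gl_left j0 (tr_LD T c.1 (fun v hv x => q0_hd_v hW hz' hv x)) hS.l0 ?_ ?_
    · intro t ht x
      simp only [glF ht.1.le, mL t ht]; rfl
    · intro t ht x
      simp only [glG' j1 ht.2, glG' j2 ht.2, mL' t ht]
  · rw [e3, e2, e1]
    refine gl_left j1 (tr_LD T c.1 (fun v hv x => q1_hd_v hW hz' hv x)) hS.l1 ?_ ?_
    · intro t ht x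
      simp only [glF ht.1.le, mL t ht]; rfl
    · intro t ht x
      simp only [glG' j1 ht.2, glG' j2 ht.2, glG' j3 ht.2, mL' t ht]
  · rw [e4, e3, e2, e1]
    refine gl_left j2 (tr_LD T c.1 (fun v hv x => q2_hd_v hW hz' hv x)) hS.l2 ?_ ?_
    · intro t ht x
      simp only [glF ht.1.le, mL t ht]; rfl
    · intro t ht x
      simp only [glG' j1 ht.2, glG' j2 ht.2, glG' j3 ht.2, glG' j4 ht.2, mL' t ht]
  · rw [e5, e4, e3, e2, e1]
    refine gl_left j3 (tr_LD T c.1 (fun v hv x => q3_hd_v hW hz' hv x)) hS.l3 ?_ ?_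
    · intro t ht x
      simp only [glF ht.1.le, mL t ht]; rfl
    · intro t ht x
      simp only [glG' j1 ht.2, glG' j2 ht.2, glG' j3 ht.2, glG' j4 ht.2, glG' j5 ht.2, mL' t ht]
  · refine ⟨max M0 M1, fun t ht x => ?_⟩
    rw [e3]
    rcases le_or_gt c.1 t with h1 | h1
    · rw [glF h1]
      exact (q3_le h hδ hz hM0 (by linarith [ht.2]) x).trans (le_max_left _ _)
    · rw [glG h1]
      exact (hM1 t ⟨ht.1, h1.le⟩ x).trans (le_max_right _ _)
  · have k1 : ContinuousOn (Dc T δ (c :: cs)) (Icc c.1 T) := by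
      refine ContinuousOn.congr (f := fun t => δ + c.2 * (T - t)) ?_ fun t ht => dR t ht.1
      fun_prop
    have k2 : ContinuousOn (Dc T δ (c :: cs)) (Icc 0 c.1) :=
      hS.cD.congr fun t ht => dR' t ht.2
    have := k2.union_of_isClosed k1 isClosed_Icc isClosed_Icc
    rwa [Icc_union_Icc_eq_Icc h0 hcT.le] at this
  · intro t ht
    rcases le_or_gt c.1 t with h1 | h1
    · rw [mR t ⟨h1, ht.2⟩]
      refine (hlin t).hasDerivWithinAt.congr (fun r hr => dR r (h1.trans hr)) (dR t h1)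
    · rw [mR' t ⟨ht.1, h1⟩]
      refine (hS.rD t ⟨ht.1, h1⟩).congr_of_eventuallyEq ?_ (dR' t h1.le)
      filter_upwards [nhdsWithin_le_nhds (Iio_mem_nhds h1)] with r hr
      exact dR' r (le_of_lt hr)
  · intro t ht
    rcases lt_or_ge c.1 t with h1 | h1
    · rw [mL t ⟨h1, ht.2⟩]
      refine (hlin t).hasDerivWithinAt.congr_of_eventuallyEq ?_ (dR t h1.le)
      filter_upwards [nhdsWithin_le_nhds (Ioi_mem_nhds h1)] with r hr
      exact dR r (le_of_lt hr)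
    · rw [mL' t ⟨ht.1, h1⟩]
      refine (hS.lD t ⟨ht.1, h1⟩).congr (fun r hr => dR' r (le_trans hr h1)) (dR' t h1)
  · refine ⟨max (max c.2 0) m1, fun t => ⟨?_, ?_⟩⟩
    · rw [mrc]
      split_ifs
      · exact (le_max_left _ _).trans (le_max_left _ _)
      · exact (le_max_right _ _).trans (le_max_left _ _)
      · exact (hm1 t).1.trans (le_max_right _ _)
    · rw [mlc]
      split_ifs
      · exact (le_max_left _ _).trans (le_max_left _ _)
      · exact (le_max_right _ _).trans (le_max_left _ _)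
      · exact (hm1 t).2.trans (le_max_right _ _)

/-- **the step system** -/
theorem sys_of : ∀ {cs : Cells} {T δ : ℝ} {f : ℝ → ℝ}, Valid T cs → 0 < δ → St δ f →
    Sys T (Dc T δ cs) (mrc T cs) (mlc T cs) (Psc T f cs)
  | [], T, δ, f, hv, _, hst => by
      have hT : T = 0 := hv
      subst hT
      exact sys_nil hst
  | c :: cs, T, δ, f, hv, hδ, hst => by
      have h2 : 0 < δ + c.2 * (T - c.1) := by
        have := mul_pos hv.2.1 (sub_pos.2 hv.1)
        linarith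
      have h3 := hst.step hδ hv.2.1 (v := T - c.1) (by linarith [hv.1])
      exact sys_cons hst hδ (Valid.nonneg hv.2.2) hv.1 hv.2.1 hv.2.2 (sys_of hv.2.2 h2 h3)

end

end Crest.Agent.R146.R1e_847
end

-- ▼ part R146/R1f_847
section

/-!
Row 146, PT0-R1 (helper847), part f: `Back A` (structure of `StepDef_791`) from the state at `T`
and the explicit start profile.
-/

set_option autoImplicit false

namespace Crest.Agent.R146.R1f_847

open MeasureTheory ProbabilityTheory Filter Topology Set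
open Crest.ProbabilityR.InvariantGlass
open Crest.Agent.R146.Hg_534 Crest.Agent.R146.PB_534 Crest.Agent.R146.R1a_847
open Crest.Agent.R146.R1b_847 Crest.Agent.R146.R1c_847 Crest.Agent.R146.R1d_847
open Crest.Agent.R146.R1e_847
open Crest.Agent.R146.StepDef_791

noncomputable section

variable (A : SD)

theorem sys (h : St A.d (startPsi A.d A.dl)) : Sys A.T A.D A.m A.ml A.psi := by
  have h1 := sys_of A.hv A.hd h
  have eD : ∀ t, t ≤ A.T → A.D t = Dc A.T A.d A.cs t := fun t ht => by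
    unfold SD.D; rw [if_pos ht]
  have ePsi : A.psi = Psc A.T (startPsi A.d A.dl) A.cs := rfl
  have em : A.m = mrc A.T A.cs := rfl
  have eml : A.ml = mlc A.T A.cs := rfl
  rw [ePsi, em, eml]
  exact
  { st := fun t ht => by rw [eD t ht.2]; exact h1.st t ht
    c0 := h1.c0, c1 := h1.c1, c2 := h1.c2, c3 := h1.c3, c4 := h1.c4, c5 := h1.c5
    g0 := h1.g0, g1 := h1.g1, g2 := h1.g2, g3 := h1.g3, g4 := h1.g4, g5 := h1.g5
    r0 := h1.r0, r1 := h1.r1, r2 := h1.r2, r3 := h1.r3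
    l0 := h1.l0, l1 := h1.l1, l2 := h1.l2, l3 := h1.l3
    b3 := h1.b3
    cD := h1.cD.congr fun t ht => eD t ht.2
    rD := fun t ht => by
      refine (h1.rD t ht).congr_of_eventuallyEq ?_ (eD t ht.2.le)
      filter_upwards [nhdsWithin_le_nhds (Iio_mem_nhds ht.2)] with r hr
      exact eD r (le_of_lt hr)
    lD := fun t ht => (h1.lD t ht).congr (fun r hr => eD r (le_trans hr ht.2)) (eD t ht.2)
    mb := h1.mb }

/-- abbreviations: the derivatives of `ψ` -/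
def p1 (t x : ℝ) : ℝ := Dx A.psi t x
def p2 (t x : ℝ) : ℝ := Dx (Dx A.psi) t x
def p3 (t x : ℝ) : ℝ := Dx (Dx (Dx A.psi)) t x
def p4 (t x : ℝ) : ℝ := Dx (Dx (Dx (Dx A.psi))) t x
def p5 (t x : ℝ) : ℝ := Dx (Dx (Dx (Dx (Dx A.psi)))) t x

theorem u_eq (t x : ℝ) : A.u t x = A.D t * p1 A t x := rfl

theorem V_eq (t x : ℝ) : A.V t x = 1 + A.D t * p2 A t x := by
  unfold SD.V
  have : A.u t = fun x => A.D t * p1 A t x := rfl
  rw [this, deriv_const_mul_field]
  rfl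

theorem P_eq (t x : ℝ) : A.P t x = A.D t * p3 A t x := by
  unfold SD.P
  have : A.V t = fun x => 1 + A.D t * p2 A t x := funext fun x => V_eq A t x
  rw [this, deriv_const_add, deriv_const_mul_field]
  rfl

theorem Px_eq (t x : ℝ) : A.Px t x = A.D t * p4 A t x := by
  unfold SD.Px
  have : A.P t = fun x => A.D t * p3 A t x := funext fun x => P_eq A t x
  rw [this, deriv_const_mul_field]
  rfl

theorem Pxx_eq (t x : ℝ) : A.Pxx t x = A.D t * p5 A t x := by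
  unfold SD.Pxx
  have : A.Px t = fun x => A.D t * p4 A t x := funext fun x => Px_eq A t x
  rw [this, deriv_const_mul_field]
  rfl

section

variable {A} (S : Sys A.T A.D A.m A.ml A.psi)
include S

theorem sm0 {t : ℝ} (ht : t ∈ Icc 0 A.T) : Sm (A.psi t) := (S.st t ht).sm
theorem hd1 {t : ℝ} (ht : t ∈ Icc 0 A.T) (x : ℝ) : HasDerivAt (p1 A t) (p2 A t x) x :=
  (sm0 S ht).deriv.hd x
theorem hd2 {t : ℝ} (ht : t ∈ Icc 0 A.T) (x : ℝ) : HasDerivAt (p2 A t) (p3 A t x) x :=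
  (sm0 S ht).deriv.deriv.hd x
theorem hd3 {t : ℝ} (ht : t ∈ Icc 0 A.T) (x : ℝ) : HasDerivAt (p3 A t) (p4 A t x) x :=
  (sm0 S ht).deriv.deriv.deriv.hd x
theorem hd4 {t : ℝ} (ht : t ∈ Icc 0 A.T) (x : ℝ) : HasDerivAt (p4 A t) (p5 A t x) x :=
  (sm0 S ht).deriv.deriv.deriv.deriv.hd x

theorem u_x {t : ℝ} (ht : t ∈ Icc 0 A.T) (x : ℝ) : HasDerivAt (A.u t) (A.V t x - 1) x := by
  have h := (hd1 S ht x).const_mul (A.D t)
  have e : A.V t x - 1 = A.D t * p2 A t x := by rw [V_eq]; ring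
  rw [e]; exact h

theorem V_x {t : ℝ} (ht : t ∈ Icc 0 A.T) (x : ℝ) : HasDerivAt (A.V t) (A.P t x) x := by
  have h := ((hd2 S ht x).const_mul (A.D t)).const_add 1
  rw [P_eq]
  have : A.V t = fun x => 1 + A.D t * p2 A t x := funext fun x => V_eq A t x
  rw [this]; exact h

theorem P_x {t : ℝ} (ht : t ∈ Icc 0 A.T) (x : ℝ) : HasDerivAt (A.P t) (A.Px t x) x := by
  have h := (hd3 S ht x).const_mul (A.D t)
  rw [Px_eq]
  have : A.P t = fun x => A.D t * p3 A t x := funext fun x => P_eq A t x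
  rw [this]; exact h

theorem Px_x {t : ℝ} (ht : t ∈ Icc 0 A.T) (x : ℝ) : HasDerivAt (A.Px t) (A.Pxx t x) x := by
  have h := (hd4 S ht x).const_mul (A.D t)
  rw [Pxx_eq]
  have : A.Px t = fun x => A.D t * p4 A t x := funext fun x => Px_eq A t x
  rw [this]; exact h

theorem V_pos {t : ℝ} (ht : t ∈ Icc 0 A.T) (x : ℝ) : 0 < A.V t x := by
  rw [V_eq]; exact (S.st t ht).d2' x

theorem V_lt {t : ℝ} (ht : t ∈ Icc 0 A.T) (x : ℝ) : A.V t x < 1 := by
  rw [V_eq]
  have h1 := mul_neg_of_pos_of_neg (A.D_pos t) ((S.st t ht).d2 x)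
  have h2 : A.D t * p2 A t x < 0 := h1
  linarith

theorem u_pos {t : ℝ} (ht : t ∈ Icc 0 A.T) (x : ℝ) : 0 < A.u t x :=
  mul_pos (A.D_pos t) ((S.st t ht).d1 x)

theorem P_pos {t : ℝ} (ht : t ∈ Icc 0 A.T) (x : ℝ) : 0 < A.P t x := by
  rw [P_eq]; exact mul_pos (A.D_pos t) ((S.st t ht).d3 x)

theorem w_pos {t : ℝ} (ht : t ∈ Icc 0 A.T) (x : ℝ) : 0 < A.w t x := (S.st t ht).w x

theorem D_bd : ∃ M, 0 ≤ M ∧ ∀ t ∈ Icc 0 A.T, A.D t ≤ M := by
  obtain ⟨M, hM⟩ := isCompact_Icc.exists_bound_of_continuousOn S.cD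
  refine ⟨|M|, abs_nonneg M, fun t ht => ?_⟩
  have := hM t ht
  rw [Real.norm_eq_abs] at this
  exact (le_abs_self _).trans (this.trans (le_abs_self M))

/-- `|u(t,x)| ≤ u(t,0) + |x|` -/
theorem u_le' {t : ℝ} (ht : t ∈ Icc 0 A.T) (x : ℝ) : A.u t x ≤ A.u t 0 + |x| := by
  have := Convex.norm_image_sub_le_of_norm_hasDerivWithin_le (f := A.u t)
    (f' := fun x => A.V t x - 1) (s := univ) (x := 0) (y := x) (C := 1)
    (fun y _ => (u_x S ht y).hasDerivWithinAt) (fun y _ => ?_) convex_univ (mem_univ _) (mem_univ _)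
  · rw [sub_zero, Real.norm_eq_abs, Real.norm_eq_abs, one_mul] at this
    have := (le_abs_self _).trans this
    linarith
  · rw [Real.norm_eq_abs, abs_le]
    constructor
    · have := V_pos S ht y; linarith
    · have := V_lt S ht y; linarith

theorem c_D : ContinuousOn (fun q : ℝ × ℝ => A.D q.1) (Icc 0 A.T ×ˢ univ) :=
  S.cD.comp continuousOn_fst fun _ hq => hq.1

theorem cu : ContinuousOn (fun q : ℝ × ℝ => A.u q.1 q.2) (Icc 0 A.T ×ˢ univ) :=
  (c_D S).mul S.c1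

theorem cV : ContinuousOn (fun q : ℝ × ℝ => A.V q.1 q.2) (Icc 0 A.T ×ˢ univ) :=
  (continuousOn_const.add ((c_D S).mul S.c2)).congr fun q _ => V_eq A q.1 q.2

theorem cP : ContinuousOn (fun q : ℝ × ℝ => A.P q.1 q.2) (Icc 0 A.T ×ˢ univ) :=
  ((c_D S).mul S.c3).congr fun q _ => P_eq A q.1 q.2

theorem cPx : ContinuousOn (fun q : ℝ × ℝ => A.Px q.1 q.2) (Icc 0 A.T ×ˢ univ) :=
  ((c_D S).mul S.c4).congr fun q _ => Px_eq A q.1 q.2

theorem cPxx : ContinuousOn (fun q : ℝ × ℝ => A.Pxx q.1 q.2) (Icc 0 A.T ×ˢ univ) :=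
  ((c_D S).mul S.c5).congr fun q _ => Pxx_eq A q.1 q.2

theorem u_tr {t : ℝ} (ht : t ∈ Ico 0 A.T) (x : ℝ) : HasDerivWithinAt (fun s => A.u s x)
    (-(A.P t x / 2 + A.b t * A.u t x * A.V t x)) (Ici t) t := by
  have h := (S.rD t ht).mul (S.r1 t ht x)
  refine h.congr_deriv ?_
  rw [V_eq, P_eq, u_eq]
  unfold SD.b p1 p2 p3
  have := (A.D_pos t).ne'
  field_simp
  ring

theorem V_tr {t : ℝ} (ht : t ∈ Ico 0 A.T) (x : ℝ) : HasDerivWithinAt (fun s => A.V s x)
    (-(A.Px t x / 2 + A.b t * A.u t x * A.P t x) + A.b t * A.V t x * (1 - A.V t x)) (Ici t) t := by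
  have h := ((S.rD t ht).mul (S.r2 t ht x)).const_add 1
  have e : (fun s => A.V s x) = fun s => 1 + A.D s * Dx (Dx A.psi) s x :=
    funext fun s => V_eq A s x
  rw [e]
  refine h.congr_deriv ?_
  rw [V_eq, P_eq, u_eq, Px_eq]
  unfold SD.b p1 p2 p3 p4
  have := (A.D_pos t).ne'
  field_simp
  ring

theorem P_tr {t : ℝ} (ht : t ∈ Ico 0 A.T) (x : ℝ) : HasDerivWithinAt (fun s => A.P s x)
    (-(A.Pxx t x / 2 + A.b t * A.u t x * A.Px t x) + A.b t * (2 - 3 * A.V t x) * A.P t x)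
    (Ici t) t := by
  have h := (S.rD t ht).mul (S.r3 t ht x)
  have e : (fun s => A.P s x) = fun s => A.D s * Dx (Dx (Dx A.psi)) s x :=
    funext fun s => P_eq A s x
  rw [e]
  refine h.congr_deriv ?_
  rw [V_eq, P_eq, u_eq, Px_eq, Pxx_eq]
  unfold SD.b p1 p2 p3 p4 p5
  have := (A.D_pos t).ne'
  field_simp
  ring

theorem u_tl {t : ℝ} (ht : t ∈ Ioc 0 A.T) (x : ℝ) : HasDerivWithinAt (fun s => A.u s x)
    (-(A.P t x / 2 + A.bl t * A.u t x * A.V t x)) (Iic t) t := by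
  have h := (S.lD t ht).mul (S.l1 t ht x)
  refine h.congr_deriv ?_
  rw [V_eq, P_eq, u_eq]
  unfold SD.bl p1 p2 p3
  have := (A.D_pos t).ne'
  field_simp
  ring

theorem V_tl {t : ℝ} (ht : t ∈ Ioc 0 A.T) (x : ℝ) : HasDerivWithinAt (fun s => A.V s x)
    (-(A.Px t x / 2 + A.bl t * A.u t x * A.P t x) + A.bl t * A.V t x * (1 - A.V t x))
    (Iic t) t := by
  have h := ((S.lD t ht).mul (S.l2 t ht x)).const_add 1
  have e : (fun s => A.V s x) = fun s => 1 + A.D s * Dx (Dx A.psi) s x :=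
    funext fun s => V_eq A s x
  rw [e]
  refine h.congr_deriv ?_
  rw [V_eq, P_eq, u_eq, Px_eq]
  unfold SD.bl p1 p2 p3 p4
  have := (A.D_pos t).ne'
  field_simp
  ring

theorem P_tl {t : ℝ} (ht : t ∈ Ioc 0 A.T) (x : ℝ) : HasDerivWithinAt (fun s => A.P s x)
    (-(A.Pxx t x / 2 + A.bl t * A.u t x * A.Px t x) + A.bl t * (2 - 3 * A.V t x) * A.P t x)
    (Iic t) t := by
  have h := (S.lD t ht).mul (S.l3 t ht x)
  have e : (fun s => A.P s x) = fun s => A.D s * Dx (Dx (Dx A.psi)) s x :=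
    funext fun s => P_eq A s x
  rw [e]
  refine h.congr_deriv ?_
  rw [V_eq, P_eq, u_eq, Px_eq, Pxx_eq]
  unfold SD.bl p1 p2 p3 p4 p5
  have := (A.D_pos t).ne'
  field_simp
  ring

theorem psi_tr {t : ℝ} (ht : t ∈ Ico 0 A.T) (x : ℝ) : HasDerivWithinAt (fun s => A.psi s x)
    ((1 - A.V t x) / (2 * A.D t) - A.m t / 2 * (A.u t x / A.D t) ^ 2) (Ici t) t := by
  refine (S.r0 t ht x).congr_deriv ?_
  rw [V_eq, u_eq]
  unfold p1 p2
  have := (A.D_pos t).ne'
  field_simp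
  ring

theorem psi_tl {t : ℝ} (ht : t ∈ Ioc 0 A.T) (x : ℝ) : HasDerivWithinAt (fun s => A.psi s x)
    ((1 - A.V t x) / (2 * A.D t) - A.ml t / 2 * (A.u t x / A.D t) ^ 2) (Iic t) t := by
  refine (S.l0 t ht x).congr_deriv ?_
  rw [V_eq, u_eq]
  unfold p1 p2
  have := (A.D_pos t).ne'
  field_simp
  ring

/-- one constant for everything -/
theorem bsys : ∃ M, MaxPCmp_371.BSys 0 A.T A.b A.u A.V A.P A.Px A.Pxx M := by
  obtain ⟨MD, hMD0, hMD⟩ := D_bd S
  obtain ⟨Mm, hMm⟩ := S.mb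
  obtain ⟨M3, hM3⟩ := S.b3
  have hc0 : ContinuousOn (fun t => A.u t 0) (Icc 0 A.T) := by
    have h1 : ContinuousOn (fun t : ℝ => ((t, 0) : ℝ × ℝ)) (Icc 0 A.T) := by fun_prop
    exact (cu S).comp h1 fun t ht => ⟨ht, mem_univ _⟩
  obtain ⟨Mu, hMu⟩ := isCompact_Icc.exists_bound_of_continuousOn hc0
  have hMu' : ∀ t ∈ Icc 0 A.T, A.u t 0 ≤ |Mu| := fun t ht => by
    have := hMu t ht
    rw [Real.norm_eq_abs] at this
    exact (le_abs_self _).trans (this.trans (le_abs_self Mu))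
  set M := |Mm| / A.d + (|Mu| + 1) + MD * |M3| with hM
  have k1 : 0 ≤ |Mm| / A.d := div_nonneg (abs_nonneg _) A.hd.le
  have k2 : 0 ≤ |Mu| + 1 := by positivity
  have k3 : 0 ≤ MD * |M3| := mul_nonneg hMD0 (abs_nonneg _)
  refine ⟨M, ?_⟩
  have hI : ∀ {t}, t ∈ Ico 0 A.T → t ∈ Icc 0 A.T := fun ht => ⟨ht.1, ht.2.le⟩
  exact
  { hux := fun t ht x => u_x S (hI ht) x
    hVx := fun t ht x => V_x S (hI ht) x
    hPx := fun t ht x => P_x S (hI ht) x
    hPxx := fun t ht x => Px_x S (hI ht) x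
    hut := fun t ht x => u_tr S ht x
    hVt := fun t ht x => V_tr S ht x
    hPt := fun t ht x => P_tr S ht x
    cu := cu S
    cV := cV S
    cP := cP S
    b_nonneg := fun t _ => A.b_nonneg t
    b_le := fun t _ => by
      have h1 : A.m t ≤ |Mm| := (hMm t).1.trans (le_abs_self _)
      have h2 : A.b t ≤ |Mm| / A.d := by
        unfold SD.b
        exact div_le_div₀ (abs_nonneg _) h1 A.hd (A.d_le_D t)
      linarith
    V_pos := fun t ht x => V_pos S ht x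
    V_lt := fun t ht x => V_lt S ht x
    u_nonneg := fun t ht x => (u_pos S ht x).le
    u_le := fun t ht x => by
      have h1 := u_le' S ht x
      have h2 := hMu' t ht
      have h3 := abs_nonneg x
      have h4 : |Mu| + |x| ≤ (|Mu| + 1) * (1 + |x|) := by nlinarith [abs_nonneg Mu]
      have h5 : (|Mu| + 1) * (1 + |x|) ≤ M * (1 + |x|) := by
        refine mul_le_mul_of_nonneg_right ?_ (by positivity)
        linarith
      linarith
    P_nonneg := fun t ht x => (P_pos S ht x).le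
    P_le := fun t ht x => by
      rw [P_eq]
      have h1 : p3 A t x ≤ |M3| := (hM3 t ht x).trans (le_abs_self _)
      have h2 : 0 ≤ p3 A t x := ((S.st t ht).d3 x).le
      have h3 : A.D t * p3 A t x ≤ MD * |M3| := mul_le_mul (hMD t ht) h1 h2 hMD0
      linarith }

theorem growth : ∃ C : ℝ, ∃ n : ℕ, 0 ≤ C ∧ ∀ t ∈ Icc 0 A.T, ∀ x, |A.psi t x| ≤ C * (1 + |x|) ^ n ∧
    |A.Px t x| ≤ C * (1 + |x|) ^ n ∧ |A.Pxx t x| ≤ C * (1 + |x|) ^ n := by
  obtain ⟨MD, hMD0, hMD⟩ := D_bd S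
  obtain ⟨C0, n0, hC0, h0⟩ := S.g0
  obtain ⟨C4, n4, hC4, h4⟩ := S.g4
  obtain ⟨C5, n5, hC5, h5⟩ := S.g5
  refine ⟨C0 + MD * C4 + MD * C5, n0 + n4 + n5, by positivity, fun t ht x => ?_⟩
  have hx := one_le_base x
  have e0 : (1 + |x|) ^ n0 ≤ (1 + |x|) ^ (n0 + n4 + n5) := pow_le_pow_right₀ hx (by omega)
  have e4 : (1 + |x|) ^ n4 ≤ (1 + |x|) ^ (n0 + n4 + n5) := pow_le_pow_right₀ hx (by omega)
  have e5 : (1 + |x|) ^ n5 ≤ (1 + |x|) ^ (n0 + n4 + n5) := pow_le_pow_right₀ hx (by omega)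
  set B := (1 + |x|) ^ (n0 + n4 + n5) with hB
  have hB0 : 0 ≤ B := by positivity
  have hDt := hMD t ht
  have hD0 := (A.D_pos t).le
  have a0 : 0 ≤ C0 * B := mul_nonneg hC0 hB0
  have a4 : 0 ≤ MD * C4 * B := mul_nonneg (mul_nonneg hMD0 hC4) hB0
  have a5 : 0 ≤ MD * C5 * B := mul_nonneg (mul_nonneg hMD0 hC5) hB0
  refine ⟨?_, ?_, ?_⟩
  · have := (h0 t ht x).trans (mul_le_mul_of_nonneg_left e0 hC0)
    linarith
  · rw [Px_eq, abs_mul, abs_of_nonneg hD0]
    have h6 : |p4 A t x| ≤ C4 * B := (h4 t ht x).trans (mul_le_mul_of_nonneg_left e4 hC4)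
    have h7 : A.D t * |p4 A t x| ≤ MD * (C4 * B) := mul_le_mul hDt h6 (abs_nonneg _) hMD0
    linarith
  · rw [Pxx_eq, abs_mul, abs_of_nonneg hD0]
    have h6 : |p5 A t x| ≤ C5 * B := (h5 t ht x).trans (mul_le_mul_of_nonneg_left e5 hC5)
    have h7 : A.D t * |p5 A t x| ≤ MD * (C5 * B) := mul_le_mul hDt h6 (abs_nonneg _) hMD0
    linarith

end

/-- **R1** from the state at `T` and the three start formulas. -/
theorem back_of (h : St A.d (startPsi A.d A.dl))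
    (hu : ∀ x, A.u A.T x = Real.sqrt A.dl * U0 (x / Real.sqrt A.dl))
    (hV : ∀ x, A.V A.T x = (gaussianReal 0 1).real (Iic (x / Real.sqrt A.dl)))
    (hP : ∀ x, A.P A.T x = gaussianPDFReal 0 1 (x / Real.sqrt A.dl) / Real.sqrt A.dl) :
    Back A := by
  have S := sys A h
  exact
  { sm := fun t ht => sm0 S ht
    psi_nonpos := fun t ht => (S.st t ht).nonpos
    u_pos := fun t ht x => u_pos S ht x
    w_pos := fun t ht x => w_pos S ht x
    P_pos := fun t ht x => P_pos S ht x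
    bsys := bsys S
    u_x := fun t ht x => u_x S ht x
    V_x := fun t ht x => V_x S ht x
    P_x := fun t ht x => P_x S ht x
    Px_x := fun t ht x => Px_x S ht x
    psi_cont := S.c0
    Px_cont := cPx S
    Pxx_cont := cPxx S
    growth := growth S
    psi_t := fun t ht x => psi_tr S ht x
    psi_tl := fun t ht x => psi_tl S ht x
    u_tl := fun t ht x => u_tl S ht x
    V_tl := fun t ht x => V_tl S ht x
    P_tl := fun t ht x => P_tl S ht x
    u_T := hu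
    V_T := hV
    P_T := hP }

end

end Crest.Agent.R146.R1f_847
end

-- ▼ part R146/Back_847

/-!
Row 146, PT0-R1 (helper847): **`Back A` for every step datum `A`** (structure of `StepDef_791`).
-/

set_option autoImplicit false

namespace Crest.Agent.R146.Back_847

open MeasureTheory ProbabilityTheory Filter Topology Set
open Crest.Agent.R146.Hg_534 Crest.Agent.R146.PB_534
open Crest.Agent.R146.R1d_847 Crest.Agent.R146.R1e_847
open Crest.Agent.R146.StepDef_791 Crest.Agent.R146.StepStart_483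

/-- the state at time `T` -/
theorem st_start {d δ : ℝ} (hd : 0 < d) (hδ : 0 < δ) : St d (startPsi d δ) := by
  have hs := Real.sqrt_pos.2 hδ
  refine ⟨Sm_startPsi hd hδ, startPsi_nonpos hd, startPsi_deriv_pos hd hδ,
    startPsi_deriv2_neg hd hδ, fun x => ?_, fun x => ?_, startPsi_deriv3_pos hd hδ,
    ⟨1 / (Real.sqrt δ * d), fun x => ?_⟩⟩
  · have h := startPsi_deriv2_gt hd hδ x
    have h2 := mul_lt_mul_of_pos_left h hd
    have h3 : d * -(1 / d) = -1 := by field_simp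
    rw [h3] at h2
    linarith
  · rw [startPsi_deriv_eq hδ]
    have h := add_U0_pos (x / Real.sqrt δ)
    have h1 := mul_pos hs h
    have e : x + d * (Real.sqrt δ * U0 (x / Real.sqrt δ) / d) =
        Real.sqrt δ * (x / Real.sqrt δ + U0 (x / Real.sqrt δ)) := by
      field_simp
    rw [e]
    exact h1
  · rw [startPsi_deriv3_eq hδ]
    exact div_le_div_of_nonneg_right (ph_le_one _) (by positivity)

/-- **R1** -/
theorem back (A : SD) : Back A :=
  R1f_847.back_of A (st_start A.hd A.dl_pos) (u_T A) (V_T A) (P_T A)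


end Crest.Agent.R146.Back_847
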