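import Crest.Agent.R146.VSpace_371
import Crest.Agent.R146.StepDef_791

-- ▼ part R146/VRatio_371
section

/-!
Monotonicity of the closure ratio (row 146, helper371).

`cheb` : Chebyshev-type inequality for ratios.  `closure_le` / `le_closure` : two-sided bounds of
`E_p[V_x²] / E_p[w(V)]` from a slope barrier `V_x ≤ g K(V)` (`≥`) and a comparison law
`φ(V)` such that `p / φ(V)` is nonincreasing (nondecreasing) in `x`.
-/
namespace Crest.Agent.R146.VRatio_371
end Crest.Agent.R146.VRatio_371
end

-- ▼ part R146/StepCmp_371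

/-!
Row 146, PT-CMP: `Back A` gives `BSysV` (limits of `V` at `±∞`), and the slope barriers of the step system in the
new clock `r = -log K0`, `Y = m K0 = b χ`, with exponentially small transients.
-/

set_option autoImplicit false

open Set Filter Topology MeasureTheory

namespace Crest.Agent.R146.StepCmp_371

open MaxP_371 MaxP2_371 MaxPCmp_371 VSpace_371 VRatio_371 StepDef_791

/-- a monotone function `V ∈ (0,1)` whose primitive `w` is positive tends to `0` at `-∞` -/
lemma lim_bot_of {V w : ℝ → ℝ} (hV : Monotone V) (hV0 : ∀ x, 0 ≤ V x)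
    (hw : ∀ x, HasDerivAt w (V x) x) (hwpos : ∀ x, 0 < w x) : Tendsto V atBot (𝓝 0) := by
  have hbdd : BddBelow (range V) := ⟨0, by rintro _ ⟨x, rfl⟩; exact hV0 x⟩
  have h1 := tendsto_atBot_ciInf hV hbdd
  set ℓ := ⨅ x, V x with hℓ
  have hℓ0 : 0 ≤ ℓ := le_ciInf hV0
  rcases hℓ0.eq_or_lt with h | h
  · rwa [← h] at h1
  · exfalso
    -- V ≥ ℓ > 0 so w(x) ≤ w(0) + ℓ x for x ≤ 0
    have h2 : ∀ x, ℓ ≤ V x := fun x => ciInf_le hbdd x
    have hmono : Monotone (fun x => w x - ℓ * x) := by
      apply monotone_of_deriv_nonneg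
      · intro x; exact ((hw x).sub ((hasDerivAt_id x).const_mul ℓ)).differentiableAt
      · intro x
        have h3 := (hw x).sub ((hasDerivAt_id x).const_mul ℓ)
        have h4 : deriv (fun x => w x - ℓ * x) x = V x - ℓ * 1 := h3.deriv
        rw [h4]; linarith [h2 x]
    set y : ℝ := -(w 0 / ℓ) - 1 with hy
    have hy0 : y ≤ 0 := by
      have : 0 ≤ w 0 / ℓ := div_nonneg (hwpos 0).le h.le
      linarith
    have h5 := hmono hy0
    simp only [mul_zero, sub_zero] at h5
    have h6 : ℓ * y = -(w 0) - ℓ := by rw [hy]; field_simp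
    have h7 := hwpos y
    linarith

/-- a monotone function `V ≤ 1` such that the primitive `u` of `V - 1` is positive tends to `1` at `+∞` -/
lemma lim_top_of {V u : ℝ → ℝ} (hV : Monotone V) (hV1 : ∀ x, V x ≤ 1)
    (hu : ∀ x, HasDerivAt u (V x - 1) x) (hupos : ∀ x, 0 < u x) : Tendsto V atTop (𝓝 1) := by
  have h := lim_bot_of (V := fun x => 1 - V (-x)) (w := fun x => u (-x))
    (fun x y hxy => by have := hV (neg_le_neg hxy); simp only; linarith)
    (fun x => by have := hV1 (-x); linarith)
    (fun x => by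
      have h1 := HasDerivAt.comp x (hu (-x)) (hasDerivAt_neg x)
      have h2 : (V (-x) - 1) * -1 = 1 - V (-x) := by ring
      rw [h2] at h1
      exact h1)
    (fun x => hupos (-x))
  have h2 : Tendsto (fun x => 1 - (1 - V (-(-x)))) atTop (𝓝 (1 - 0)) :=
    ((h.comp tendsto_neg_atTop_atBot).const_sub 1)
  simpa using h2






end Crest.Agent.R146.StepCmp_371
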