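import Crest.Agent.R164.GCalc2
import Crest.Prelude.Def_SphericalPressure

-- ▼ part R146/CtlA_130
section

/-!
Row 146, S0206 node (V), part A (helper130): Gaussian one-step estimates for `gaussOp`.
-/

set_option autoImplicit false

namespace Crest.Agent.R146.CtlA_130

open MeasureTheory ProbabilityTheory Filter Topology Set
open Crest.ProbabilityR.InvariantGlass
open Crest.Agent.R164.GC (H)

noncomputable section

/-- bounded measurable functions -/
structure BM (f : ℝ → ℝ) (K : ℝ) : Prop where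
  meas : Measurable f
  bd : ∀ x, |f x| ≤ K

theorem BM.nonneg {f : ℝ → ℝ} {K : ℝ} (h : BM f K) : 0 ≤ K := (abs_nonneg _).trans (h.bd 0)

theorem BM.int {f : ℝ → ℝ} {K : ℝ} (h : BM f K) (t x : ℝ) (μ : Measure ℝ) [IsFiniteMeasure μ] :
    Integrable (fun g => f (x + t * g)) μ := by
  refine Integrable.of_bound (h.meas.comp (by fun_prop)).aestronglyMeasurable K ?_
  exact ae_of_all _ fun g => by simpa [Real.norm_eq_abs] using h.bd _

theorem BM.expi {f : ℝ → ℝ} {K : ℝ} (h : BM f K) (a t x : ℝ) (μ : Measure ℝ) [IsFiniteMeasure μ] :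
    Integrable (fun g => Real.exp (a * f (x + t * g))) μ := by
  refine Integrable.of_bound
    ((h.meas.comp (by fun_prop)).const_mul a).exp.aestronglyMeasurable (Real.exp (|a| * K)) ?_
  refine ae_of_all _ fun g => ?_
  rw [Real.norm_eq_abs, abs_of_pos (Real.exp_pos _)]
  refine Real.exp_le_exp.2 ?_
  calc a * f (x + t * g) ≤ |a * f (x + t * g)| := le_abs_self _
    _ = |a| * |f (x + t * g)| := abs_mul _ _
    _ ≤ |a| * K := mul_le_mul_of_nonneg_left (h.bd _) (abs_nonneg a)

/-- Gaussian shift -/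
theorem gauss_shift (h : ℝ → ℝ) (c : ℝ) :
    ∫ z, h z ∂gaussianReal 0 1 =
      ∫ z, h (z + c) * Real.exp (-c * z - c ^ 2 / 2) ∂gaussianReal 0 1 := by
  rw [integral_gaussianReal_eq_integral_smul one_ne_zero,
    integral_gaussianReal_eq_integral_smul one_ne_zero]
  rw [← integral_add_right_eq_self (μ := (volume : Measure ℝ)) (fun z => gaussianPDFReal 0 1 z • h z) c]
  refine integral_congr_ae (ae_of_all _ fun z => ?_)
  simp only [smul_eq_mul, gaussianPDFReal, sub_zero, NNReal.coe_one, mul_one]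
  have : Real.exp (-(z + c) ^ 2 / 2) = Real.exp (-z ^ 2 / 2) * Real.exp (-c * z - c ^ 2 / 2) := by
    rw [← Real.exp_add]; congr 1; ring
  rw [this]; ring

/-- one-step upper bound -/
theorem step_le {u : ℝ → ℝ} {K : ℝ} (hu : BM u K) {x : ℝ} (hx : 0 ≤ x) {d : ℝ} (hd : 0 ≤ d)
    (y c : ℝ) :
    (∫ g, u (y + x * d * c + Real.sqrt d * g) ∂gaussianReal 0 1) - x / 2 * (d * c ^ 2) ≤
      gaussOp x d u y := by
  rcases hx.eq_or_lt with hx0 | hx0
  · rw [← hx0, R164.GC.gaussOp_zero]
    simp [H]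
  · rw [R164.GC.gaussOp_ne hx0.ne']
    unfold H
    set s := Real.sqrt d with hs
    have hsd : s ^ 2 = d := Real.sq_sqrt hd
    set c' := x * s * c with hc'
    have e1 := gauss_shift (fun z => Real.exp (x * u (y + s * z))) c'
    rw [e1]
    have e2 : (fun z => Real.exp (x * u (y + s * (z + c'))) * Real.exp (-c' * z - c' ^ 2 / 2)) =
        fun z => Real.exp (x * u (y + x * d * c + s * z) + (-c' * z - c' ^ 2 / 2)) := by
      funext z
      rw [← Real.exp_add]
      congr 4
      rw [hc', ← hsd]; ring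
    rw [e2]
    have hi1 := hu.int s (y + x * d * c) (gaussianReal 0 1)
    have hi2 : Integrable (fun z : ℝ => -c' * z - c' ^ 2 / 2) (gaussianReal 0 1) :=
      ((memLp_id_gaussianReal' 1 (by simp)).integrable le_rfl).const_mul (-c') |>.sub
        (integrable_const _)
    have hW : Integrable (fun z => x * u (y + x * d * c + s * z) + (-c' * z - c' ^ 2 / 2))
        (gaussianReal 0 1) := (hi1.const_mul x).add hi2
    have hE : Integrable
        (fun z => Real.exp (x * u (y + x * d * c + s * z) + (-c' * z - c' ^ 2 / 2)))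
        (gaussianReal 0 1) := by
      have h1 : Integrable (fun z : ℝ => Real.exp (-c' * z)) (gaussianReal 0 1) :=
        integrable_exp_mul_gaussianReal _
      refine (h1.const_mul (Real.exp (|x| * K))).mono'
        (Measurable.aestronglyMeasurable ?_) (ae_of_all _ fun z => ?_)
      · exact (((hu.meas.comp (by fun_prop)).const_mul x).add (by fun_prop)).exp
      · rw [Real.norm_eq_abs, abs_of_pos (Real.exp_pos _), ← Real.exp_add]
        refine Real.exp_le_exp.2 ?_
        have h2 : x * u (y + x * d * c + s * z) ≤ |x| * K := by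
          calc _ ≤ |x * u (y + x * d * c + s * z)| := le_abs_self _
            _ = |x| * |u (y + x * d * c + s * z)| := abs_mul _ _
            _ ≤ |x| * K := mul_le_mul_of_nonneg_left (hu.bd _) (abs_nonneg x)
        nlinarith [sq_nonneg c']
    have hJ : Real.exp (∫ z, (x * u (y + x * d * c + s * z) + (-c' * z - c' ^ 2 / 2))
        ∂gaussianReal 0 1) ≤ ∫ z, Real.exp (x * u (y + x * d * c + s * z) +
          (-c' * z - c' ^ 2 / 2)) ∂gaussianReal 0 1 :=
      convexOn_exp.map_integral_le Real.continuous_exp.continuousOn isClosed_univ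
        (by simp) hW hE
    have hI : ∫ z, (x * u (y + x * d * c + s * z) + (-c' * z - c' ^ 2 / 2)) ∂gaussianReal 0 1 =
        x * (∫ z, u (y + x * d * c + s * z) ∂gaussianReal 0 1) - c' ^ 2 / 2 := by
      have hid : Integrable (fun z : ℝ => -c' * z) (gaussianReal 0 1) :=
        ((memLp_id_gaussianReal' 1 (by simp)).integrable le_rfl).const_mul (-c')
      rw [integral_add (hi1.const_mul x) hi2, integral_const_mul, integral_sub hid
        (integrable_const _), integral_const_mul, integral_id_gaussianReal]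
      simp
      ring
    rw [hI] at hJ
    have hL := Real.log_le_log (Real.exp_pos _) hJ
    rw [Real.log_exp] at hL
    have h3 : (∫ g, u (y + x * d * c + s * g) ∂gaussianReal 0 1) - x / 2 * (d * c ^ 2) =
        x⁻¹ * (x * (∫ z, u (y + x * d * c + s * z) ∂gaussianReal 0 1) - c' ^ 2 / 2) := by
      rw [hc', ← hsd]
      field_simp
    rw [h3]
    exact mul_le_mul_of_nonneg_left hL (by positivity)

theorem exp_le_aux (v : ℝ) : Real.exp v ≤ 1 + v + v ^ 2 * Real.exp |v| := by
  have h1 : 1 - v ≤ Real.exp (-v) := by have := Real.add_one_le_exp (-v); linarith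
  have h3 : Real.exp (-v) * Real.exp v = 1 := by rw [← Real.exp_add]; simp
  have hpos := Real.exp_pos v
  -- `exp v - 1 ≤ v exp v`
  have h4 : Real.exp v - 1 ≤ v * Real.exp v := by nlinarith
  have h5 : v ≤ Real.exp v - 1 := by have := Real.add_one_le_exp v; linarith
  have hle : Real.exp v ≤ Real.exp |v| := Real.exp_le_exp.2 (le_abs_self v)
  have h1' : (1:ℝ) ≤ Real.exp |v| := Real.one_le_exp (abs_nonneg v)
  rcases le_or_gt 0 v with hv | hv
  · nlinarith [mul_nonneg hv (sub_nonneg.2 h4), mul_le_mul_of_nonneg_left hle (mul_nonneg hv hv)]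
  · -- `v (exp v - 1) ≤ v²`
    have h6 : v * (Real.exp v - 1) ≤ v * v := mul_le_mul_of_nonpos_left h5 hv.le
    have h7 : 0 ≤ v ^ 2 := sq_nonneg v
    nlinarith [mul_le_mul_of_nonneg_left h1' h7]

theorem integrable_poly_exp (n : ℕ) (A L : ℝ) :
    Integrable (fun z : ℝ => (A + |z|) ^ n * Real.exp (L * |z|)) (gaussianReal 0 1) := by
  have h1 := R164.GC.integrable_exp_abs (L + n)
  refine (h1.const_mul (Real.exp (n * |A|))).mono' (by fun_prop) (ae_of_all _ fun z => ?_)
  rw [Real.norm_eq_abs, abs_mul, abs_of_pos (Real.exp_pos (L * |z|)), abs_pow]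
  have h2 : abs (A + |z|) ≤ Real.exp (|A| + |z|) := by
    calc abs (A + |z|) ≤ |A| + |z| := by
          have := abs_add_le A |z|
          rwa [abs_abs] at this
      _ ≤ Real.exp (|A| + |z|) := by have := Real.add_one_le_exp (|A| + |z|); linarith
  calc (abs (A + |z|)) ^ n * Real.exp (L * |z|) ≤
        Real.exp (|A| + |z|) ^ n * Real.exp (L * |z|) :=
        mul_le_mul_of_nonneg_right (pow_le_pow_left₀ (abs_nonneg _) h2 n) (Real.exp_pos _).le
    _ = Real.exp (n * |A|) * Real.exp ((L + n) * |z|) := by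
        rw [← Real.exp_nat_mul, ← Real.exp_add, ← Real.exp_add]; congr 1; ring

/-- the constant of the one-step lower bound -/
def MC (L C : ℝ) : ℝ :=
  C ^ 2 * ∫ z, ((L + |z|) ^ 4 * Real.exp (2 * L * |z|)) ∂gaussianReal 0 1

theorem MC_nonneg (L C : ℝ) : 0 ≤ MC L C := by
  unfold MC
  have : 0 ≤ ∫ z, ((L + |z|) ^ 4 * Real.exp (2 * L * |z|)) ∂gaussianReal 0 1 :=
    integral_nonneg fun z => by positivity
  positivity

/-- one-step lower bound -/
theorem step_ge {u u1 : ℝ → ℝ} {K L C : ℝ} (hu : BM u K) (hd1 : ∀ y, HasDerivAt u (u1 y) y)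
    (hL0 : 0 ≤ L) (hC0 : 0 ≤ C)
    (hL : ∀ y, |u1 y| ≤ L) (hC : ∀ y z, |u1 y - u1 z| ≤ C * |y - z|) {x : ℝ} (hx : 0 ≤ x)
    (hx1 : x ≤ 1) {d : ℝ} (hd : 0 ≤ d) (hd1' : d ≤ 1) (y : ℝ) :
    gaussOp x d u y ≤ (∫ g, u (y + x * d * u1 y + Real.sqrt d * g) ∂gaussianReal 0 1) -
      x / 2 * (d * u1 y ^ 2) + MC L C * d ^ 2 := by
  rcases hx.eq_or_lt with hx0 | hx0
  · rw [← hx0, R164.GC.gaussOp_zero]
    have := mul_nonneg (MC_nonneg L C) (sq_nonneg d)
    simp [H]
    exact this
  · rw [R164.GC.gaussOp_ne hx0.ne']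
    unfold H
    set s := Real.sqrt d with hs
    set c := u1 y with hc
    have hs0 : 0 ≤ s := Real.sqrt_nonneg d
    have hs1 : s ≤ 1 := Real.sqrt_le_one.mpr hd1'
    have hsd : s ^ 2 = d := Real.sq_sqrt hd
    set c' := x * s * c with hc'
    have e1 := gauss_shift (fun z => Real.exp (x * u (y + s * z))) c'
    rw [e1]
    set W : ℝ → ℝ := fun z => x * u (y + x * d * c + s * z) + (-c' * z - c' ^ 2 / 2) with hWdef
    have e2 : (fun z => Real.exp (x * u (y + s * (z + c'))) * Real.exp (-c' * z - c' ^ 2 / 2)) =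
        fun z => Real.exp (W z) := by
      funext z
      rw [← Real.exp_add, hWdef]
      congr 4
      rw [hc', ← hsd]; ring
    rw [e2]
    have hdW : ∀ z, HasDerivAt W (x * s * (u1 (y + x * d * c + s * z) - c)) z := by
      intro z
      have h1 : HasDerivAt (fun z => y + x * d * c + s * z) s z := by
        simpa using ((hasDerivAt_id z).const_mul s).const_add (y + x * d * c)
      have h2 := ((hd1 (y + x * d * c + s * z)).comp z h1).const_mul x
      have h3 : HasDerivAt (fun z : ℝ => -c' * z - c' ^ 2 / 2) (-c') z := by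
        simpa using ((hasDerivAt_id z).const_mul (-c')).sub_const (c' ^ 2 / 2)
      have h4 := h2.add h3
      refine (h4.congr_deriv ?_)
      rw [hc']; ring
    set V : ℝ → ℝ := fun z => W z - W 0 with hV
    have hcL : |c| ≤ L := hL y
    have hb1 : ∀ z, |V z| ≤ x * C * d * ((L + |z|) * |z|) := by
      intro z
      have := Convex.norm_image_sub_le_of_norm_hasDerivWithin_le (f := W)
        (f' := fun z => x * s * (u1 (y + x * d * c + s * z) - c)) (C := x * C * d * (L + |z|))
        (s := Metric.closedBall (0:ℝ) |z|) (x := 0) (y := z)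
        (fun ζ _ => (hdW ζ).hasDerivWithinAt) ?_ (convex_closedBall _ _)
        (Metric.mem_closedBall_self (abs_nonneg z)) (by simp [Real.dist_eq])
      · rw [hV]
        simpa [Real.norm_eq_abs, mul_assoc] using this
      · intro ζ hζ
        rw [Metric.mem_closedBall, dist_zero_right, Real.norm_eq_abs] at hζ
        rw [Real.norm_eq_abs, abs_mul, abs_of_nonneg (mul_nonneg hx hs0)]
        have h5 : |u1 (y + x * d * c + s * ζ) - c| ≤ C * (s * (L + |z|)) := by
          rw [hc]
          refine (hC _ _).trans (mul_le_mul_of_nonneg_left ?_ hC0)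
          have e : y + x * d * u1 y + s * ζ - y = x * d * u1 y + s * ζ := by ring
          rw [e]
          calc |x * d * u1 y + s * ζ| ≤ |x * d * u1 y| + |s * ζ| := abs_add_le _ _
            _ = x * d * |u1 y| + s * |ζ| := by
                rw [abs_mul (x * d), abs_mul s, abs_of_nonneg (mul_nonneg hx hd),
                  abs_of_nonneg hs0]
            _ ≤ s * L + s * |z| := by
                refine add_le_add ?_ (mul_le_mul_of_nonneg_left hζ hs0)
                have h6 : x * d ≤ s := by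
                  rw [← hsd]
                  nlinarith [mul_nonneg hs0 hs0, mul_nonneg hx hs0]
                exact mul_le_mul h6 hcL (abs_nonneg _) hs0
            _ = s * (L + |z|) := by ring
        calc x * s * |u1 (y + x * d * c + s * ζ) - c| ≤ x * s * (C * (s * (L + |z|))) :=
              mul_le_mul_of_nonneg_left h5 (mul_nonneg hx hs0)
          _ = x * C * s ^ 2 * (L + |z|) := by ring
          _ = x * C * d * (L + |z|) := by rw [hsd]
    have hb2 : ∀ z, |V z| ≤ 2 * L * |z| := by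
      intro z
      have := Convex.norm_image_sub_le_of_norm_hasDerivWithin_le (f := W)
        (f' := fun z => x * s * (u1 (y + x * d * c + s * z) - c)) (C := 2 * L)
        (s := Set.univ) (x := 0) (y := z)
        (fun ζ _ => (hdW ζ).hasDerivWithinAt) ?_ convex_univ (mem_univ _) (mem_univ _)
      · rw [hV]
        simpa [Real.norm_eq_abs, mul_assoc] using this
      · intro ζ _
        rw [Real.norm_eq_abs, abs_mul, abs_of_nonneg (mul_nonneg hx hs0)]
        have h6 : |u1 (y + x * d * c + s * ζ) - c| ≤ 2 * L := by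
          calc _ ≤ |u1 (y + x * d * c + s * ζ)| + |c| := abs_sub _ _
            _ ≤ 2 * L := by have := hL (y + x * d * c + s * ζ); linarith
        have h7 : x * s ≤ 1 := by nlinarith
        calc x * s * |u1 (y + x * d * c + s * ζ) - c| ≤ 1 * (2 * L) :=
              mul_le_mul h7 h6 (abs_nonneg _) zero_le_one
          _ = 2 * L := one_mul _
    have hi1 := hu.int s (y + x * d * c) (gaussianReal 0 1)
    have hid : Integrable (fun z : ℝ => -c' * z) (gaussianReal 0 1) :=
      ((memLp_id_gaussianReal' 1 (by simp)).integrable le_rfl).const_mul (-c')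
    have hi2 : Integrable (fun z : ℝ => -c' * z - c' ^ 2 / 2) (gaussianReal 0 1) :=
      hid.sub (integrable_const _)
    have hWi : Integrable W (gaussianReal 0 1) := (hi1.const_mul x).add hi2
    have hVi : Integrable V (gaussianReal 0 1) := hWi.sub (integrable_const _)
    have hWm : Measurable W := ((hu.meas.comp (by fun_prop)).const_mul x).add (by fun_prop)
    have hVm : Measurable V := hWm.sub_const _
    have hpe := integrable_poly_exp 4 L (2 * L)
    have hR : ∀ z, V z ^ 2 * Real.exp |V z| ≤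
        (x * C * d) ^ 2 * ((L + |z|) ^ 4 * Real.exp (2 * L * |z|)) := by
      intro z
      have h8 : V z ^ 2 ≤ (x * C * d) ^ 2 * (L + |z|) ^ 4 := by
        have h9 : |V z| ≤ x * C * d * (L + |z|) ^ 2 := by
          refine (hb1 z).trans (mul_le_mul_of_nonneg_left ?_ (by positivity))
          rw [sq]
          exact mul_le_mul_of_nonneg_left (by linarith) (by positivity)
        calc V z ^ 2 = |V z| ^ 2 := (sq_abs _).symm
          _ ≤ (x * C * d * (L + |z|) ^ 2) ^ 2 := pow_le_pow_left₀ (abs_nonneg _) h9 2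
          _ = _ := by ring
      calc V z ^ 2 * Real.exp |V z| ≤ ((x * C * d) ^ 2 * (L + |z|) ^ 4) *
            Real.exp (2 * L * |z|) :=
            mul_le_mul h8 (Real.exp_le_exp.2 (hb2 z)) (Real.exp_pos _).le (by positivity)
        _ = _ := by ring
    have hEV : Integrable (fun z => Real.exp (V z)) (gaussianReal 0 1) := by
      refine (R164.GC.integrable_exp_abs (2 * L)).mono' hVm.exp.aestronglyMeasurable
        (ae_of_all _ fun z => ?_)
      rw [Real.norm_eq_abs, abs_of_pos (Real.exp_pos _)]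
      exact Real.exp_le_exp.2 ((le_abs_self _).trans (hb2 z))
    have hmain : ∫ z, Real.exp (V z) ∂gaussianReal 0 1 ≤
        1 + ∫ z, V z ∂gaussianReal 0 1 + x ^ 2 * d ^ 2 * MC L C := by
      have h10 : ∀ z, Real.exp (V z) ≤ 1 + V z +
          (x * C * d) ^ 2 * ((L + |z|) ^ 4 * Real.exp (2 * L * |z|)) := fun z =>
        (exp_le_aux (V z)).trans (by have := hR z; linarith)
      have h11 := integral_mono hEV (((integrable_const 1).add hVi).add
        (hpe.const_mul ((x * C * d) ^ 2))) h10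
      refine h11.trans (le_of_eq ?_)
      have e4 : ∀ z : ℝ, ((fun _ : ℝ => (1:ℝ)) + V + fun z => (x * C * d) ^ 2 *
          ((L + |z|) ^ 4 * Real.exp (2 * L * |z|))) z = 1 + V z + (x * C * d) ^ 2 *
          ((L + |z|) ^ 4 * Real.exp (2 * L * |z|)) := fun z => rfl
      have e5 : ∫ z, (((fun _ : ℝ => (1:ℝ)) + V + fun z => (x * C * d) ^ 2 *
          ((L + |z|) ^ 4 * Real.exp (2 * L * |z|))) z) ∂gaussianReal 0 1 =
          ∫ z, (1 + V z) ∂gaussianReal 0 1 + ∫ z, ((x * C * d) ^ 2 *
          ((L + |z|) ^ 4 * Real.exp (2 * L * |z|))) ∂gaussianReal 0 1 :=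
        integral_add ((integrable_const 1).add hVi) (hpe.const_mul _)
      have e6 : ∫ z, (1 + V z) ∂gaussianReal 0 1 = 1 + ∫ z, V z ∂gaussianReal 0 1 := by
        rw [integral_add (integrable_const 1) hVi]; simp
      rw [e5, e6, integral_const_mul]
      unfold MC
      ring
    have hposI : 0 < ∫ z, Real.exp (V z) ∂gaussianReal 0 1 :=
      integral_exp_pos hEV
    have hlog : Real.log (∫ z, Real.exp (V z) ∂gaussianReal 0 1) ≤
        ∫ z, V z ∂gaussianReal 0 1 + x ^ 2 * d ^ 2 * MC L C := by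
      have := Real.log_le_sub_one_of_pos hposI
      linarith
    have hWV : ∫ z, Real.exp (W z) ∂gaussianReal 0 1 =
        Real.exp (W 0) * ∫ z, Real.exp (V z) ∂gaussianReal 0 1 := by
      rw [← integral_const_mul]
      refine integral_congr_ae (ae_of_all _ fun z => ?_)
      simp only [hV]
      rw [← Real.exp_add]
      congr 1
      ring
    have hVint : ∫ z, V z ∂gaussianReal 0 1 = x * (∫ z, u (y + x * d * c + s * z)
        ∂gaussianReal 0 1) - c' ^ 2 / 2 - W 0 := by
      have e5 : ∫ z, V z ∂gaussianReal 0 1 = ∫ z, W z ∂gaussianReal 0 1 - W 0 := by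
        rw [hV, integral_sub hWi (integrable_const _)]
        simp
      rw [e5]
      congr 1
      rw [hWdef]
      simp only
      rw [integral_add (hi1.const_mul x) hi2, integral_const_mul, integral_sub hid
        (integrable_const _), integral_const_mul, integral_id_gaussianReal]
      simp
      ring
    rw [hWV, Real.log_mul (Real.exp_pos _).ne' hposI.ne', Real.log_exp]
    have h12 : x⁻¹ * (W 0 + Real.log (∫ z, Real.exp (V z) ∂gaussianReal 0 1)) ≤
        x⁻¹ * (x * (∫ z, u (y + x * d * c + s * z) ∂gaussianReal 0 1) - c' ^ 2 / 2 +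
          x ^ 2 * d ^ 2 * MC L C) := by
      refine mul_le_mul_of_nonneg_left ?_ (by positivity)
      rw [hVint] at hlog
      linarith
    refine h12.trans ?_
    have e6 : x⁻¹ * (x * (∫ z, u (y + x * d * c + s * z) ∂gaussianReal 0 1) - c' ^ 2 / 2 +
          x ^ 2 * d ^ 2 * MC L C) = (∫ z, u (y + x * d * c + s * z) ∂gaussianReal 0 1) -
          x / 2 * (d * c ^ 2) + x * (MC L C * d ^ 2) := by
      rw [hc', ← hsd]
      field_simp
    rw [e6]
    have h13 : x * (MC L C * d ^ 2) ≤ 1 * (MC L C * d ^ 2) :=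
      mul_le_mul_of_nonneg_right hx1 (mul_nonneg (MC_nonneg L C) (sq_nonneg d))
    linarith

end

end Crest.Agent.R146.CtlA_130
end

-- ▼ part R146/CtlB_130
section

/-!
Row 146, S0206 node (V), part B (helper130): semigroup property and regularity of `gaussOp`.
-/

set_option autoImplicit false

namespace Crest.Agent.R146.CtlB_130

open MeasureTheory ProbabilityTheory Filter Topology Set
open Crest.ProbabilityR.InvariantGlass
open Crest.Agent.R164.GC (H)
open Crest.Agent.R146.CtlA_130
open scoped NNReal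

noncomputable section

/-- `H` through the law of the increment -/
theorem H_eq {φ : ℝ → ℝ} (hφ : Measurable φ) {d : ℝ} (hd : 0 ≤ d) (x : ℝ) :
    H (Real.sqrt d) φ x = ∫ y, φ (x + y) ∂gaussianReal 0 d.toNNReal := by
  have h1 : (gaussianReal 0 1).map (fun g => Real.sqrt d * g) = gaussianReal 0 d.toNNReal := by
    rw [gaussianReal_map_const_mul]
    congr 1
    · simp
    · rw [mul_one]
      apply NNReal.coe_injective
      simp [Real.sq_sqrt hd, Real.coe_toNNReal d hd]
  have hm : Measurable (fun y => φ (x + y)) := hφ.comp (by fun_prop)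
  rw [← h1, integral_map (f := fun y => φ (x + y)) (by fun_prop) hm.aestronglyMeasurable]
  rfl

theorem H_meas {φ : ℝ → ℝ} (hφ : Measurable φ) (t : ℝ) : Measurable (H t φ) := by
  unfold H
  have : StronglyMeasurable (fun p : ℝ × ℝ => φ (p.1 + t * p.2)) :=
    (hφ.comp (by fun_prop)).stronglyMeasurable
  exact this.integral_prod_right.measurable

theorem H_bd {φ : ℝ → ℝ} {K : ℝ} (h : BM φ K) (t x : ℝ) : |H t φ x| ≤ K := by
  unfold H
  have := norm_integral_le_of_norm_le_const (μ := gaussianReal 0 1) (f := fun g => φ (x + t * g))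
    (C := K) (ae_of_all _ fun g => h.bd _)
  simpa [Real.norm_eq_abs] using this

theorem H_semi {φ : ℝ → ℝ} {K : ℝ} (h : BM φ K) {d1 d2 : ℝ} (h1 : 0 ≤ d1) (h2 : 0 ≤ d2) (x : ℝ) :
    H (Real.sqrt d1) (H (Real.sqrt d2) φ) x = H (Real.sqrt (d1 + d2)) φ x := by
  rw [H_eq (H_meas h.meas _) h1, H_eq h.meas (add_nonneg h1 h2)]
  have e1 : ∀ y, H (Real.sqrt d2) φ (x + y) = ∫ z, φ (x + (y + z)) ∂gaussianReal 0 d2.toNNReal := by
    intro y
    rw [H_eq h.meas h2]
    simp only [add_assoc]
  simp only [e1]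
  have e2 : gaussianReal 0 (d1 + d2).toNNReal =
      (gaussianReal 0 d1.toNNReal) ∗ (gaussianReal 0 d2.toNNReal) := by
    rw [gaussianReal_conv_gaussianReal, add_zero, Real.toNNReal_add h1 h2]
  rw [e2, integral_conv]
  refine Integrable.of_bound (h.meas.comp (by fun_prop)).aestronglyMeasurable K ?_
  exact ae_of_all _ fun g => by simpa [Real.norm_eq_abs] using h.bd _

theorem exp_BM {f : ℝ → ℝ} {K : ℝ} (h : BM f K) (a : ℝ) :
    BM (fun y => Real.exp (a * f y)) (Real.exp (|a| * K)) := by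
  refine ⟨(h.meas.const_mul a).exp, fun x => ?_⟩
  rw [abs_of_pos (Real.exp_pos _)]
  refine Real.exp_le_exp.2 ?_
  calc a * f x ≤ |a * f x| := le_abs_self _
    _ = |a| * |f x| := abs_mul _ _
    _ ≤ |a| * K := mul_le_mul_of_nonneg_left (h.bd _) (abs_nonneg a)

theorem exp_H_pos {f : ℝ → ℝ} {K : ℝ} (h : BM f K) (a t x : ℝ) :
    0 < H t (fun y => Real.exp (a * f y)) x := by
  unfold H
  exact integral_exp_pos (h.expi a t x _)

theorem gaussOp_BM {f : ℝ → ℝ} {K : ℝ} (h : BM f K) {a : ℝ} (ha : 0 ≤ a) (v : ℝ) :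
    BM (gaussOp a v f) K := by
  rcases ha.eq_or_lt with h0 | h0
  · rw [← h0]
    have e : gaussOp 0 v f = fun x => H (Real.sqrt v) f x :=
      funext fun x => R164.GC.gaussOp_zero v f x
    rw [e]
    exact ⟨H_meas h.meas _, H_bd h _⟩
  · have e : gaussOp a v f = fun x =>
        a⁻¹ * Real.log (H (Real.sqrt v) (fun y => Real.exp (a * f y)) x) :=
      funext fun x => R164.GC.gaussOp_ne h0.ne' v f x
    rw [e]
    refine ⟨((H_meas (h.meas.const_mul a).exp _).log).const_mul _, fun x => ?_⟩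
    have hp := exp_H_pos h a (Real.sqrt v) x
    have hup : H (Real.sqrt v) (fun y => Real.exp (a * f y)) x ≤ Real.exp (a * K) := by
      unfold H
      have := integral_mono (μ := gaussianReal 0 1) (h.expi a (Real.sqrt v) x _)
        (integrable_const (Real.exp (a * K))) (fun g => Real.exp_le_exp.2
          (mul_le_mul_of_nonneg_left ((le_abs_self _).trans (h.bd _)) h0.le))
      simpa using this
    have hlo : Real.exp (-(a * K)) ≤ H (Real.sqrt v) (fun y => Real.exp (a * f y)) x := by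
      unfold H
      have := integral_mono (μ := gaussianReal 0 1) (integrable_const (Real.exp (-(a * K))))
        (h.expi a (Real.sqrt v) x _) (fun g => Real.exp_le_exp.2 (by
          have h1 := (abs_le.1 (h.bd (x + Real.sqrt v * g))).1
          nlinarith))
      simpa using this
    have h1 := Real.log_le_log hp hup
    have h2 := Real.log_le_log (Real.exp_pos _) hlo
    rw [Real.log_exp] at h1 h2
    have h3 : |Real.log (H (Real.sqrt v) (fun y => Real.exp (a * f y)) x)| ≤ a * K :=
      abs_le.2 ⟨h2, h1⟩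
    rw [abs_mul, abs_of_pos (inv_pos.2 h0)]
    calc a⁻¹ * |Real.log (H (Real.sqrt v) (fun y => Real.exp (a * f y)) x)| ≤ a⁻¹ * (a * K) :=
          mul_le_mul_of_nonneg_left h3 (inv_pos.2 h0).le
      _ = K := by field_simp

/-- semigroup property inside a cell -/
theorem gaussOp_semi {f : ℝ → ℝ} {K : ℝ} (h : BM f K) {a : ℝ} (ha : 0 ≤ a) {d1 d2 : ℝ}
    (h1 : 0 ≤ d1) (h2 : 0 ≤ d2) (x : ℝ) :
    gaussOp a d1 (gaussOp a d2 f) x = gaussOp a (d1 + d2) f x := by
  rcases ha.eq_or_lt with h0 | h0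
  · rw [← h0]
    have e : gaussOp 0 d2 f = fun x => H (Real.sqrt d2) f x :=
      funext fun x => R164.GC.gaussOp_zero d2 f x
    rw [R164.GC.gaussOp_zero, R164.GC.gaussOp_zero, e]
    exact H_semi h h1 h2 x
  · rw [R164.GC.gaussOp_ne h0.ne', R164.GC.gaussOp_ne h0.ne']
    congr 2
    rw [← H_semi (exp_BM h a) h1 h2 x]
    congr 1
    funext y
    rw [R164.GC.gaussOp_ne h0.ne']
    have hp := exp_H_pos h a (Real.sqrt d2) y
    rw [show a * (a⁻¹ * Real.log (H (Real.sqrt d2) (fun y => Real.exp (a * f y)) y)) =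
      Real.log (H (Real.sqrt d2) (fun y => Real.exp (a * f y)) y) by field_simp]
    exact Real.exp_log hp

theorem gaussOp_var0 {f : ℝ → ℝ} {a : ℝ} (x : ℝ) : gaussOp a 0 f x = f x := by
  unfold gaussOp
  by_cases h : a = 0
  · simp [h]
  · simp [h]

/-- bounded `C²` functions with bounded derivatives -/
structure Reg (u u1 u2 : ℝ → ℝ) (K L C : ℝ) : Prop where
  d1 : ∀ y, HasDerivAt u (u1 y) y
  d2 : ∀ y, HasDerivAt u1 (u2 y) y
  c2 : Continuous u2
  bK : ∀ y, |u y| ≤ K
  bL : ∀ y, |u1 y| ≤ L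
  bC : ∀ y, |u2 y| ≤ C

theorem Reg.BM {u u1 u2 : ℝ → ℝ} {K L C : ℝ} (h : Reg u u1 u2 K L C) : BM u K :=
  ⟨(continuous_iff_continuousAt.2 fun y => (h.d1 y).continuousAt).measurable, h.bK⟩

theorem Reg.lip1 {u u1 u2 : ℝ → ℝ} {K L C : ℝ} (h : Reg u u1 u2 K L C) (y z : ℝ) :
    |u1 y - u1 z| ≤ C * |y - z| := by
  have := Convex.norm_image_sub_le_of_norm_hasDerivWithin_le (f := u1) (f' := u2) (C := C)
    (s := Set.univ) (x := z) (y := y) (fun ζ _ => (h.d2 ζ).hasDerivWithinAt)
    (fun ζ _ => by simpa [Real.norm_eq_abs] using h.bC ζ) convex_univ (mem_univ _) (mem_univ _)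
  simpa [Real.norm_eq_abs] using this

theorem Reg.lip {u u1 u2 : ℝ → ℝ} {K L C : ℝ} (h : Reg u u1 u2 K L C) (y z : ℝ) :
    |u y - u z| ≤ L * |y - z| := by
  have := Convex.norm_image_sub_le_of_norm_hasDerivWithin_le (f := u) (f' := u1) (C := L)
    (s := Set.univ) (x := z) (y := y) (fun ζ _ => (h.d1 ζ).hasDerivWithinAt)
    (fun ζ _ => by simpa [Real.norm_eq_abs] using h.bL ζ) convex_univ (mem_univ _) (mem_univ _)
  simpa [Real.norm_eq_abs] using this

open R164.GC in
theorem gaussOp_sm' {f f1 f2 : ℝ → ℝ} {C : ℝ} (h : Sm f f1 f2 C) {a : ℝ} (ha : 0 ≤ a) (v : ℝ) :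
    Sm (gaussOp a v f) (tE a v f f1) (g2 a v f f1 f2) (C + a) := by
  refine ⟨gaussOp_deriv_x h a v, fun x => ?_, ?_, fun x => tE_abs_le h.lip a v h.B1 x,
    fun x => ?_⟩
  · have := tE_deriv_x h a v h.B1.eg h.B2.eg h.d2 x
    unfold g2
    simp only [sq]
    exact this
  · unfold g2
    have c1 := (tE_BC h.lip a v h.B2).cont
    have c2 := (tE_BC h.lip a v (h.B1.pow 2)).cont
    have c3 := (tE_BC h.lip a v h.B1).cont
    fun_prop
  · unfold g2
    have b1 := tE_abs_le h.lip a v h.B2 x
    have b2 := tE_abs_le h.lip a v (h.B1.pow 2) x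
    have b3 := tE_sq_le h.lip a v h.B1.eg x
    have b4 := sq_nonneg (tE a v f f1 x)
    rw [one_pow] at b2
    have b5 := (le_abs_self _).trans b2
    rw [abs_le] at b1 ⊢
    constructor
    · nlinarith
    · nlinarith

theorem gaussOp_scale {u : ℝ → ℝ} {L : ℝ} (hL : 0 < L) (a v x : ℝ) :
    gaussOp a v u x = L * gaussOp (a * L) v (fun y => u y / L) x := by
  unfold gaussOp
  by_cases h : a = 0
  · simp only [h, zero_mul, if_true]
    rw [integral_div]
    field_simp
  · rw [if_neg h, if_neg (mul_ne_zero h hL.ne')]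
    have e : ∀ g : ℝ, a * L * (u (x + Real.sqrt v * g) / L) = a * u (x + Real.sqrt v * g) :=
      fun g => by field_simp
    simp only [e]
    field_simp

/-- regularity is preserved inside a cell, uniformly in the width -/
theorem gaussOp_reg {u u1 u2 : ℝ → ℝ} {K L C : ℝ} (h : Reg u u1 u2 K L C) (hL : 0 < L)
    {a : ℝ} (ha : 0 ≤ a) (ha1 : a ≤ 1) (v : ℝ) :
    ∃ w1 w2 : ℝ → ℝ, Reg (gaussOp a v u) w1 w2 K L (C + L ^ 2) := by
  have hS : R164.GC.Sm (fun y => u y / L) (fun y => u1 y / L) (fun y => u2 y / L) (C / L) := by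
    refine ⟨fun y => (h.d1 y).div_const L, fun y => (h.d2 y).div_const L, h.c2.div_const L,
      fun y => ?_, fun y => ?_⟩
    · rw [abs_div, abs_of_pos hL]
      exact (div_le_one hL).2 (h.bL y)
    · rw [abs_div, abs_of_pos hL]
      exact div_le_div_of_nonneg_right (h.bC y) hL.le
  have hT := gaussOp_sm' hS (mul_nonneg ha hL.le) v
  have e : gaussOp a v u = fun x => L * gaussOp (a * L) v (fun y => u y / L) x :=
    funext fun x => gaussOp_scale hL a v x
  refine ⟨fun x => L * R164.GC.tE (a * L) v (fun y => u y / L) (fun y => u1 y / L) x,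
    fun x => L * R164.GC.g2 (a * L) v (fun y => u y / L) (fun y => u1 y / L)
      (fun y => u2 y / L) x, ?_, ?_, ?_, ?_, ?_, ?_⟩
  · intro y
    rw [e]
    exact (hT.d1 y).const_mul L
  · intro y
    exact (hT.d2 y).const_mul L
  · exact hT.c2.const_mul L |> fun h => h
  · exact (gaussOp_BM h.BM ha v).bd
  · intro y
    rw [abs_mul, abs_of_pos hL]
    calc L * _ ≤ L * 1 := mul_le_mul_of_nonneg_left (hT.b1 y) hL.le
      _ = L := mul_one L
  · intro y
    rw [abs_mul, abs_of_pos hL]
    have h1 : C / L + a * L ≤ C / L + L := by nlinarith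
    calc L * _ ≤ L * (C / L + L) := mul_le_mul_of_nonneg_left ((hT.b2 y).trans h1) hL.le
      _ = C + L ^ 2 := by field_simp

end

end Crest.Agent.R146.CtlB_130
end

-- ▼ part R146/CtlC_130

/-!
Row 146, S0206 node (V), part C (helper130): the natural filtration, progressive controls,
conditional one-step estimates and their chains.
-/

set_option autoImplicit false

namespace Crest.Agent.R146.CtlC_130

open MeasureTheory ProbabilityTheory Filter Topology Set
open Crest.ProbabilityR.InvariantGlass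
open Crest.ProbabilityR.Perceptron (brownianFiltration)
open Crest.Agent.R164.GC (H)
open Crest.Agent.R146.CtlA_130 Crest.Agent.R146.CtlB_130
open scoped NNReal

noncomputable section

variable {Ω : Type*} [mΩ : MeasurableSpace Ω] {P : Measure Ω}
variable {B : ℝ≥0 → Ω → ℝ} (hBm : ∀ t, Measurable (B t))

/-- the σ-algebra at the real time `t` -/
@[reducible] def F (t : ℝ) : MeasurableSpace Ω := brownianFiltration B hBm t.toNNReal

theorem F_le (t : ℝ) : F hBm t ≤ mΩ := (brownianFiltration B hBm).le _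

theorem F_mono {s t : ℝ} (h : s ≤ t) : F hBm s ≤ F hBm t :=
  (brownianFiltration B hBm).mono (Real.toNNReal_le_toNNReal h)

theorem F_adapted (s t : ℝ) (h : s ≤ t) : Measurable[F hBm t] (B s.toNNReal) := by
  have h1 : Measurable[F hBm s] (B s.toNNReal) :=
    ((Filtration.stronglyAdapted_natural (u := fun t => B t)
      fun t => (hBm t).stronglyMeasurable) s.toNNReal).measurable
  exact h1.mono (F_mono hBm h) le_rfl

theorem F_eq (t : ℝ) : F hBm t =
    MeasurableSpace.comap (fun ω (s : Set.Iic t.toNNReal) => B s ω) MeasurableSpace.pi := by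
  change (⨆ j ≤ t.toNNReal, MeasurableSpace.comap (B j) inferInstance) = _
  simp only [MeasurableSpace.pi, MeasurableSpace.comap_iSup, MeasurableSpace.comap_comp]
  rw [iSup_subtype']
  rfl

/-- the increment is independent of the past -/
theorem indep_incr (hB : IsBrownianReal B P) {s t : ℝ} (_hs : 0 ≤ s) (h : s ≤ t) {Y : Ω → ℝ}
    (hY : Measurable[F hBm s] Y) :
    IndepFun Y (fun ω => B t.toNNReal ω - B s.toNNReal ω) P := by
  have h1 := hB.toIsPreBrownianReal.indepFun_shift s.toNNReal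
  have h2 : Indep (F hBm s) (MeasurableSpace.comap
      (fun ω (t : ℝ≥0) => B (s.toNNReal + t) ω - B s.toNNReal ω) MeasurableSpace.pi) P := by
    rw [F_eq]
    exact h1.symm
  rw [IndepFun_iff_Indep]
  refine indep_of_indep_of_le_left (indep_of_indep_of_le_right h2 ?_) hY.comap_le
  have e : (fun ω => B t.toNNReal ω - B s.toNNReal ω) =
      (fun g : ℝ≥0 → ℝ => g (t.toNNReal - s.toNNReal)) ∘
        (fun ω (t : ℝ≥0) => B (s.toNNReal + t) ω - B s.toNNReal ω) := by
    funext ω
    simp only [Function.comp_apply]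
    rw [add_tsub_cancel_of_le (Real.toNNReal_le_toNNReal h)]
  rw [e, ← MeasurableSpace.comap_comp]
  exact MeasurableSpace.comap_mono (measurable_pi_apply _).comap_le

theorem law_incr (hB : IsBrownianReal B P) {s t : ℝ} (hs : 0 ≤ s) (h : s ≤ t) :
    P.map (fun ω => B t.toNNReal ω - B s.toNNReal ω) = gaussianReal 0 (t - s).toNNReal := by
  have h1 := (hB.toIsPreBrownianReal.hasLaw_sub t.toNNReal s.toNNReal).map_eq
  have e : (B t.toNNReal - B s.toNNReal) = fun ω => B t.toNNReal ω - B s.toNNReal ω := rfl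
  rw [e] at h1
  rw [h1]
  have e2 : nndist ((t.toNNReal : ℝ≥0) : ℝ) ((s.toNNReal : ℝ≥0) : ℝ) = (t - s).toNNReal := by
    apply NNReal.coe_injective
    rw [coe_nndist, Real.dist_eq, Real.coe_toNNReal t (hs.trans h), Real.coe_toNNReal s hs,
      Real.coe_toNNReal (t - s) (by linarith), abs_of_nonneg (by linarith)]
  exact congrArg (gaussianReal 0) e2

/-- integrating out one increment -/
theorem int_incr [IsProbabilityMeasure P] (hB : IsBrownianReal B P) {s t : ℝ} (hs : 0 ≤ s)
    (h : s ≤ t) {Y : Ω → ℝ} (hY : Measurable[F hBm s] Y) {φ : ℝ → ℝ} {K : ℝ} (hφ : BM φ K) :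
    ∫ ω, φ (Y ω + (B t.toNNReal ω - B s.toNNReal ω)) ∂P =
      ∫ ω, H (Real.sqrt (t - s)) φ (Y ω) ∂P := by
  have hYm : Measurable Y := hY.mono (F_le hBm s) le_rfl
  have hDm : Measurable (fun ω => B t.toNNReal ω - B s.toNNReal ω) := (hBm _).sub (hBm _)
  have hind := indep_incr hBm hB hs h hY
  have hprod := (indepFun_iff_map_prod_eq_prod_map_map hYm.aemeasurable hDm.aemeasurable).1 hind
  have hφ2 : Measurable (fun p : ℝ × ℝ => φ (p.1 + p.2)) := hφ.meas.comp (by fun_prop)
  have e1 : ∫ ω, φ (Y ω + (B t.toNNReal ω - B s.toNNReal ω)) ∂P =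
      ∫ p, φ (p.1 + p.2) ∂(P.map fun ω => (Y ω, B t.toNNReal ω - B s.toNNReal ω)) := by
    rw [integral_map (hYm.prodMk hDm).aemeasurable hφ2.aestronglyMeasurable]
  have : IsProbabilityMeasure (P.map Y) := Measure.isProbabilityMeasure_map hYm.aemeasurable
  rw [e1, hprod, law_incr hB hs h, integral_prod]
  · rw [integral_map hYm.aemeasurable]
    · refine integral_congr_ae (ae_of_all _ fun ω => ?_)
      simp only
      rw [H_eq hφ.meas (by linarith)]
    · exact (hφ2.stronglyMeasurable.integral_prod_right).aestronglyMeasurable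
  · refine Integrable.of_bound hφ2.aestronglyMeasurable K ?_
    exact ae_of_all _ fun g => by simpa [Real.norm_eq_abs] using hφ.bd _

theorem bm_int [IsFiniteMeasure P] {φ : ℝ → ℝ} {K : ℝ} (hφ : BM φ K) {Y : Ω → ℝ}
    (hY : Measurable Y) : Integrable (fun ω => φ (Y ω)) P := by
  refine Integrable.of_bound (hφ.meas.comp hY).aestronglyMeasurable K ?_
  exact ae_of_all _ fun g => by simpa [Real.norm_eq_abs] using hφ.bd _

theorem bd_int [IsFiniteMeasure P] {Y : Ω → ℝ} {K : ℝ}
    (hY : Measurable Y) (hK : ∀ ω, |Y ω| ≤ K) : Integrable Y P := by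
  refine Integrable.of_bound hY.aestronglyMeasurable K ?_
  exact ae_of_all _ fun g => by simpa [Real.norm_eq_abs] using hK _

/-- conditional one-step upper bound -/
theorem cstep_le [IsProbabilityMeasure P] (hB : IsBrownianReal B P) {s t : ℝ} (hs : 0 ≤ s)
    (h : s ≤ t) {X c : Ω → ℝ} (hX : Measurable[F hBm s] X) (hc : Measurable[F hBm s] c) {M : ℝ}
    (hcM : ∀ ω, |c ω| ≤ M) {φ : ℝ → ℝ} {K : ℝ} (hφ : BM φ K) {x : ℝ} (hx : 0 ≤ x) :
    ∫ ω, φ (X ω + x * (t - s) * c ω + (B t.toNNReal ω - B s.toNNReal ω)) ∂P -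
      x / 2 * ((t - s) * ∫ ω, c ω ^ 2 ∂P) ≤ ∫ ω, gaussOp x (t - s) φ (X ω) ∂P := by
  have hd : 0 ≤ t - s := by linarith
  have hXm : Measurable X := hX.mono (F_le hBm s) le_rfl
  have hcm : Measurable c := hc.mono (F_le hBm s) le_rfl
  have hY : Measurable[F hBm s] (fun ω => X ω + x * (t - s) * c ω) :=
    Measurable.add hX (Measurable.const_mul hc _)
  rw [int_incr hBm hB hs h hY hφ]
  have hi1 : Integrable (fun ω => H (Real.sqrt (t - s)) φ (X ω + x * (t - s) * c ω)) P :=
    bm_int ⟨H_meas hφ.meas _, H_bd hφ _⟩ (hXm.add (hcm.const_mul _))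
  have hi2 : Integrable (fun ω => x / 2 * ((t - s) * c ω ^ 2)) P := by
    have : Integrable (fun ω => c ω ^ 2) P := by
      refine bd_int (K := M ^ 2) (hcm.pow_const 2) fun ω => ?_
      rw [abs_pow]
      exact pow_le_pow_left₀ (abs_nonneg _) (hcM ω) 2
    exact (this.const_mul _).const_mul _
  have e : x / 2 * ((t - s) * ∫ ω, c ω ^ 2 ∂P) = ∫ ω, x / 2 * ((t - s) * c ω ^ 2) ∂P := by
    rw [integral_const_mul, integral_const_mul]
  rw [e, ← integral_sub hi1 hi2]
  refine integral_mono (hi1.sub hi2) (bm_int (gaussOp_BM hφ hx _) hXm) fun ω => ?_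
  have := step_le hφ hx hd (X ω) (c ω)
  simpa [H] using this

/-- conditional one-step lower bound -/
theorem cstep_ge [IsProbabilityMeasure P] (hB : IsBrownianReal B P) {s t : ℝ} (hs : 0 ≤ s)
    (h : s ≤ t) (hts : t - s ≤ 1) {X : Ω → ℝ} (hX : Measurable[F hBm s] X) {φ w1 w2 : ℝ → ℝ}
    {K L C : ℝ} (hφ : Reg φ w1 w2 K L C) {x : ℝ} (hx : 0 ≤ x) (hx1 : x ≤ 1) :
    ∫ ω, gaussOp x (t - s) φ (X ω) ∂P ≤
    ∫ ω, φ (X ω + x * (t - s) * w1 (X ω) + (B t.toNNReal ω - B s.toNNReal ω)) ∂P -
      x / 2 * ((t - s) * ∫ ω, w1 (X ω) ^ 2 ∂P) + MC L C * (t - s) ^ 2 := by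
  have hd : 0 ≤ t - s := by linarith
  have hXm : Measurable X := hX.mono (F_le hBm s) le_rfl
  have hw1 : Measurable w1 :=
    (continuous_iff_continuousAt.2 fun y => (hφ.d2 y).continuousAt).measurable
  have hcm : Measurable (fun ω => w1 (X ω)) := hw1.comp hXm
  have hY : Measurable[F hBm s] (fun ω => X ω + x * (t - s) * w1 (X ω)) :=
    Measurable.add hX (Measurable.const_mul (hw1.comp hX) _)
  rw [int_incr hBm hB hs h hY hφ.BM]
  have hL0 : 0 ≤ L := (abs_nonneg _).trans (hφ.bL 0)
  have hC0 : 0 ≤ C := (abs_nonneg _).trans (hφ.bC 0)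
  have hi1 : Integrable (fun ω => H (Real.sqrt (t - s)) φ (X ω + x * (t - s) * w1 (X ω))) P :=
    bm_int ⟨H_meas hφ.BM.meas _, H_bd hφ.BM _⟩ (hXm.add (hcm.const_mul _))
  have hi2 : Integrable (fun ω => x / 2 * ((t - s) * w1 (X ω) ^ 2)) P := by
    have : Integrable (fun ω => w1 (X ω) ^ 2) P := by
      refine bd_int (K := L ^ 2) (hcm.pow_const 2) fun ω => ?_
      rw [abs_pow]
      exact pow_le_pow_left₀ (abs_nonneg _) (hφ.bL _) 2
    exact (this.const_mul _).const_mul _
  have e : x / 2 * ((t - s) * ∫ ω, w1 (X ω) ^ 2 ∂P) =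
      ∫ ω, x / 2 * ((t - s) * w1 (X ω) ^ 2) ∂P := by
    rw [integral_const_mul, integral_const_mul]
  have e3 : ∫ ω, (H (Real.sqrt (t - s)) φ (X ω + x * (t - s) * w1 (X ω)) -
      x / 2 * ((t - s) * w1 (X ω) ^ 2) + MC L C * (t - s) ^ 2) ∂P =
      ∫ ω, H (Real.sqrt (t - s)) φ (X ω + x * (t - s) * w1 (X ω)) ∂P -
      ∫ ω, x / 2 * ((t - s) * w1 (X ω) ^ 2) ∂P + MC L C * (t - s) ^ 2 := by
    have h1 := integral_add (hi1.sub hi2) (integrable_const (μ := P) (MC L C * (t - s) ^ 2))
    have h2 := integral_sub hi1 hi2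
    simp only [Pi.sub_apply] at h1
    rw [h1, h2]
    simp
  rw [e, ← e3]
  refine integral_mono (bm_int (gaussOp_BM hφ.BM hx _) hXm) ((hi1.sub hi2).add
    (integrable_const _)) fun ω => ?_
  have := step_ge hφ.BM hφ.d1 hL0 hC0 hφ.bL hφ.lip1 hx hx1 hd hts (X ω)
  simpa [H] using this

/-! ### Progressive controls -/

open Crest.ProbabilityR.Perceptron

/-- bounded progressive controls -/
structure Ctl (M : ℝ) (v : ℝ≥0 → Ω → ℝ) : Prop where
  prog : IsProgressive (brownianFiltration B hBm) v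
  bd : ∀ r ω, |v r ω| ≤ M

variable {hBm}

theorem prog_joint {v : ℝ≥0 → Ω → ℝ} (hv : IsProgressive (brownianFiltration B hBm) v) (t : ℝ) :
    Measurable[Prod.instMeasurableSpace (m₂ := F hBm t)]
      (fun p : ℝ × Ω => v (min p.1.toNNReal t.toNNReal) p.2) := by
  have h1 := hv t.toNNReal
  have h2 : Measurable[Prod.instMeasurableSpace (m₂ := F hBm t),
      Prod.instMeasurableSpace (m₂ := F hBm t)]
      (fun p : ℝ × Ω => ((⟨min p.1.toNNReal t.toNNReal, Set.mem_Iic.2 (min_le_right _ _)⟩ :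
        Set.Iic t.toNNReal), p.2)) := by
    refine @Measurable.prodMk (ℝ × Ω) (Prod.instMeasurableSpace (m₂ := F hBm t))
      (Set.Iic t.toNNReal) Ω _ (F hBm t) _ _ ?_ ?_
    · refine Measurable.subtype_mk ?_
      refine Measurable.min ?_ measurable_const
      exact measurable_real_toNNReal.comp (@measurable_fst _ _ _ (F hBm t))
    · exact @measurable_snd _ _ _ (F hBm t)
  exact h1.comp h2

theorem prog_joint' {v : ℝ≥0 → Ω → ℝ} (hv : IsProgressive (brownianFiltration B hBm) v) (t : ℝ) :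
    Measurable (fun p : ℝ × Ω => v (min p.1.toNNReal t.toNNReal) p.2) := by
  refine (prog_joint hv t).mono ?_ le_rfl
  exact sup_le_sup le_rfl (MeasurableSpace.comap_mono (F_le hBm t))

theorem prog_section {v : ℝ≥0 → Ω → ℝ} (hv : IsProgressive (brownianFiltration B hBm) v) (t : ℝ)
    (ω : Ω) : Measurable (fun r : ℝ => v (min r.toNNReal t.toNNReal) ω) :=
  (prog_joint' hv t).comp (measurable_id.prodMk measurable_const)

theorem min_eq_of_le {r t : ℝ} (h : r ≤ t) : min r.toNNReal t.toNNReal = r.toNNReal :=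
  min_eq_left (Real.toNNReal_le_toNNReal h)

omit mΩ in
theorem int_min {g : ℝ → ℝ → ℝ} {v : ℝ≥0 → Ω → ℝ} {s t : ℝ} (h : s ≤ t) (ω : Ω) :
    ∫ r in s..t, g r (v r.toNNReal ω) =
      ∫ r in s..t, g r (v (min r.toNNReal t.toNNReal) ω) := by
  refine intervalIntegral.integral_congr_ae (ae_of_all _ fun r hr => ?_)
  rw [uIoc_of_le h] at hr
  rw [min_eq_of_le hr.2]

/-- integrals of progressive processes are adapted -/
theorem meas_int {v : ℝ≥0 → Ω → ℝ} (hv : IsProgressive (brownianFiltration B hBm) v) {s t : ℝ}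
    (h : s ≤ t) {g : ℝ → ℝ → ℝ} (hg : Measurable (fun p : ℝ × ℝ => g p.1 p.2)) :
    Measurable[F hBm t] (fun ω => ∫ r in s..t, g r (v r.toNNReal ω)) := by
  have e : (fun ω => ∫ r in s..t, g r (v r.toNNReal ω)) =
      fun ω => ∫ r in Set.Ioc s t, g r (v (min r.toNNReal t.toNNReal) ω) := by
    funext ω
    rw [int_min h, intervalIntegral.integral_of_le h]
  rw [e]
  have h1 : Measurable[Prod.instMeasurableSpace (m₂ := F hBm t)]
      (fun p : ℝ × Ω => g p.1 (v (min p.1.toNNReal t.toNNReal) p.2)) := by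
    have h3 : Measurable[Prod.instMeasurableSpace (m₂ := F hBm t)]
        (fun p : ℝ × Ω => (p.1, v (min p.1.toNNReal t.toNNReal) p.2)) :=
      Measurable.prodMk (@measurable_fst _ _ _ (F hBm t)) (prog_joint hv t)
    exact hg.comp h3
  have h2 := @StronglyMeasurable.integral_prod_left _ _ _ _ (F hBm t)
    (volume.restrict (Set.Ioc s t)) _ _ _
    (fun r ω => g r (v (min r.toNNReal t.toNNReal) ω)) h1.stronglyMeasurable
  exact h2.measurable

theorem Ctl.intv {M : ℝ} {v : ℝ≥0 → Ω → ℝ} (hv : Ctl hBm M v) {m : ℝ → ℝ} (hm : Measurable m)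
    {c : ℝ} {s t : ℝ} (hmb : ∀ r ∈ Set.Ioc s t, |m r| ≤ c) (hst : s ≤ t) (ω : Ω) :
    IntervalIntegrable (fun r => m r * v r.toNNReal ω) volume s t := by
  rw [intervalIntegrable_iff_integrableOn_Ioc_of_le hst]
  have h1 : IntegrableOn (fun r => m r * v (min r.toNNReal t.toNNReal) ω) (Set.Ioc s t) := by
    refine Measure.integrableOn_of_bounded (M := c * M) (by simp)
      (hm.mul (prog_section hv.prog t ω)).aestronglyMeasurable ?_
    refine (ae_restrict_iff' measurableSet_Ioc).2 (ae_of_all _ fun r hr => ?_)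
    rw [Real.norm_eq_abs, abs_mul]
    exact mul_le_mul (hmb r hr) (hv.bd _ _) (abs_nonneg _) ((abs_nonneg _).trans (hmb r hr))
  refine h1.congr_fun (fun r hr => ?_) measurableSet_Ioc
  simp only
  rw [min_eq_of_le hr.2]

theorem Ctl.intv2 {M : ℝ} {v : ℝ≥0 → Ω → ℝ} (hv : Ctl hBm M v) {m : ℝ → ℝ} (hm : Measurable m)
    {c : ℝ} {s t : ℝ} (hmb : ∀ r ∈ Set.Ioc s t, |m r| ≤ c) (hst : s ≤ t) (ω : Ω) :
    IntervalIntegrable (fun r => m r * v r.toNNReal ω ^ 2) volume s t := by
  rw [intervalIntegrable_iff_integrableOn_Ioc_of_le hst]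
  have h1 : IntegrableOn (fun r => m r * v (min r.toNNReal t.toNNReal) ω ^ 2) (Set.Ioc s t) := by
    refine Measure.integrableOn_of_bounded (M := c * M ^ 2) (by simp)
      (hm.mul ((prog_section hv.prog t ω).pow_const 2)).aestronglyMeasurable ?_
    refine (ae_restrict_iff' measurableSet_Ioc).2 (ae_of_all _ fun r hr => ?_)
    rw [Real.norm_eq_abs, abs_mul, abs_pow]
    exact mul_le_mul (hmb r hr) (pow_le_pow_left₀ (abs_nonneg _) (hv.bd _ _) 2)
      (by positivity) ((abs_nonneg _).trans (hmb r hr))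
  refine h1.congr_fun (fun r hr => ?_) measurableSet_Ioc
  simp only
  rw [min_eq_of_le hr.2]

end

end Crest.Agent.R146.CtlC_130
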