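import Crest.Agent.R146.DualG2_256
import Crest.Agent.R146.CtlC_130
import Crest.Agent.R146.StepDef_791

-- ▼ part R146/Br1_256
section

/-!
# Row 146, R3 bridge (helper256), file 1: locally Lipschitz functions of linear constant, one step

`QL g C` : `|g x - g y| ≤ C (1 + |x| + |y|) |x - y|`.
-/

set_option autoImplicit false

noncomputable section

open MeasureTheory Set Filter Topology ProbabilityTheory
open scoped InnerProductSpace RealInnerProductSpace NNReal ENNReal

namespace Crest.Agent.R146.Br_256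

open Crest.ProbabilityR.Perceptron Crest.ProbabilityR.InvariantGlass
open Crest.Agent.R146.DualQ_256 Crest.Agent.R146.DualC1_256 Crest.Agent.R146.DualV_256
  Crest.Agent.R146.DualL_256 Crest.Agent.R146.DualG_256
open Crest.Agent.R164.GC (H)

/-- locally Lipschitz with a constant of linear growth -/
structure QL (g : ℝ → ℝ) (C : ℝ) : Prop where
  nonneg : 0 ≤ C
  lip : ∀ x y, |g x - g y| ≤ C * (1 + |x| + |y|) * |x - y|

theorem QL.cont {g : ℝ → ℝ} {C : ℝ} (h : QL g C) : Continuous g := by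
  rw [continuous_iff_continuousAt]
  intro x
  rw [ContinuousAt, tendsto_iff_norm_sub_tendsto_zero]
  have h1 : Tendsto (fun y => C * (1 + |y| + |x|) * |y - x|) (𝓝 x)
      (𝓝 (C * (1 + |x| + |x|) * |x - x|)) :=
    (Continuous.tendsto (by fun_prop) _)
  rw [sub_self, abs_zero, mul_zero] at h1
  exact squeeze_zero (fun _ => norm_nonneg _) (fun y => by
    rw [Real.norm_eq_abs]; exact h.lip y x) h1

theorem QL.growth {g : ℝ → ℝ} {C : ℝ} (h : QL g C) (x : ℝ) :
    |g x| ≤ |g 0| + C + 2 * C * x ^ 2 := by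
  have h1 := h.lip x 0
  rw [abs_zero, sub_zero, add_zero] at h1
  have h2 : |g x| ≤ |g 0| + |g x - g 0| := by
    have := abs_add_le (g 0) (g x - g 0)
    rw [add_sub_cancel] at this; exact this
  have h3 : C * (1 + |x|) * |x| ≤ C * (1 + 2 * x ^ 2) := by
    rw [mul_assoc]
    refine mul_le_mul_of_nonneg_left ?_ h.nonneg
    rw [← sq_abs x]
    nlinarith [sq_nonneg (|x| - 1), abs_nonneg x]
  nlinarith

theorem QL.add {g g' : ℝ → ℝ} {C C' : ℝ} (h : QL g C) (h' : QL g' C') :
    QL (fun x => g x + g' x) (C + C') where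
  nonneg := add_nonneg h.nonneg h'.nonneg
  lip := fun x y => by
    have h1 := h.lip x y
    have h2 := h'.lip x y
    calc |g x + g' x - (g y + g' y)| = |(g x - g y) + (g' x - g' y)| := by congr 1; ring
      _ ≤ |g x - g y| + |g' x - g' y| := abs_add_le _ _
      _ ≤ _ := by nlinarith

theorem QL.const_mul {g : ℝ → ℝ} {C : ℝ} (h : QL g C) (c : ℝ) :
    QL (fun x => c * g x) (|c| * C) where
  nonneg := mul_nonneg (abs_nonneg c) h.nonneg
  lip := fun x y => by
    rw [← mul_sub, abs_mul, mul_assoc, mul_assoc]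
    refine mul_le_mul_of_nonneg_left ?_ (abs_nonneg c)
    rw [← mul_assoc]; exact h.lip x y

theorem QL.of_lip {g : ℝ → ℝ} {l : ℝ} (hl : 0 ≤ l) (h : ∀ x y, |g x - g y| ≤ l * |x - y|) :
    QL g l where
  nonneg := hl
  lip := fun x y => by
    refine (h x y).trans (mul_le_mul_of_nonneg_right ?_ (abs_nonneg _))
    have := mul_nonneg hl (add_nonneg (abs_nonneg x) (abs_nonneg y))
    nlinarith

/-- a differentiable function whose derivative is `L`-Lipschitz -/
theorem QL.of_deriv {g g1 : ℝ → ℝ} (hd : ∀ x, HasDerivAt g (g1 x) x) {L : ℝ} (hL : 0 ≤ L)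
    (h1 : ∀ x y, |g1 x - g1 y| ≤ L * |x - y|) : QL g (|g1 0| + L) where
  nonneg := add_nonneg (abs_nonneg _) hL
  lip := fun x y => by
    have hb : ∀ z, |g1 z| ≤ |g1 0| + L * |z| := fun z => by
      have h2 := h1 z 0
      rw [sub_zero] at h2
      have := abs_add_le (g1 0) (g1 z - g1 0)
      rw [add_sub_cancel] at this; linarith
    have hseg : ∀ z ∈ segment ℝ y x, ‖g1 z‖ ≤ (|g1 0| + L) * (1 + |x| + |y|) := by
      intro z hz
      obtain ⟨a, b, ha, hb', hab, rfl⟩ := hz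
      rw [Real.norm_eq_abs]
      refine (hb _).trans ?_
      have h3 : |a • y + b • x| ≤ |x| + |y| := by
        simp only [smul_eq_mul]
        refine (abs_add_le _ _).trans ?_
        rw [abs_mul, abs_mul, abs_of_nonneg ha, abs_of_nonneg hb']
        have : a ≤ 1 := by linarith
        have : b ≤ 1 := by linarith
        nlinarith [abs_nonneg x, abs_nonneg y]
      have h4 := mul_le_mul_of_nonneg_left h3 hL
      have h5 := mul_nonneg (abs_nonneg (g1 0)) (add_nonneg (abs_nonneg x) (abs_nonneg y))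
      nlinarith
    have := (convex_segment y x).norm_image_sub_le_of_norm_hasDerivWithin_le
      (f := g) (f' := g1) (fun z _ => (hd z).hasDerivWithinAt) hseg
      (left_mem_segment ℝ y x) (right_mem_segment ℝ y x)
    simpa [Real.norm_eq_abs] using this

/-- continuous of quadratic growth -/
structure QG (g : ℝ → ℝ) (A : ℝ) : Prop where
  nonneg : 0 ≤ A
  cont : Continuous g
  bd : ∀ x, |g x| ≤ A + A * x ^ 2

theorem QL.qg {g : ℝ → ℝ} {C : ℝ} (h : QL g C) : QG g (|g 0| + 2 * C) where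
  nonneg := by have := h.nonneg; positivity
  cont := h.cont
  bd := fun x => by
    have h1 := h.growth x
    have h2 := h.nonneg
    have h3 := abs_nonneg (g 0)
    have h4 := mul_nonneg h3 (sq_nonneg x)
    nlinarith


section Gauss

theorem gauss_sq_int : Integrable (fun w : ℝ => w ^ 2) (gaussianReal 0 1) :=
  (memLp_id_gaussianReal' 2 (by simp)).integrable_sq

theorem QG.gint {g : ℝ → ℝ} {A : ℝ} (h : QG g A) (y s : ℝ) :
    Integrable (fun w => g (y + s * w)) (gaussianReal 0 1) := by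
  have h1 : Integrable (fun w : ℝ => A + A * (2 * y ^ 2 + 2 * s ^ 2 * w ^ 2))
      (gaussianReal 0 1) :=
    (integrable_const _).add
      (((integrable_const _).add (gauss_sq_int.const_mul _)).const_mul _)
  refine h1.mono' (h.cont.comp (by fun_prop)).aestronglyMeasurable
    (ae_of_all _ fun w => ?_)
  rw [Real.norm_eq_abs]
  refine (h.bd _).trans ?_
  have h2 : (y + s * w) ^ 2 ≤ 2 * y ^ 2 + 2 * s ^ 2 * w ^ 2 := by nlinarith [sq_nonneg (y - s * w)]
  have h3 := mul_le_mul_of_nonneg_left h2 h.nonneg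
  linarith

/-- exponential integrability of functions bounded above -/
theorem exp_gint {g : ℝ → ℝ} (hg : Continuous g) {K : ℝ} (hK : ∀ x, g x ≤ K) {x : ℝ}
    (hx : 0 ≤ x) (y s a b : ℝ) :
    Integrable (fun w => Real.exp (x * g (y + s * w) + (a * w + b))) (gaussianReal 0 1) := by
  have h1 : Integrable (fun z : ℝ => Real.exp (a * z)) (gaussianReal 0 1) :=
    integrable_exp_mul_gaussianReal _
  refine (h1.const_mul (Real.exp (x * K + b))).mono' ?_ (ae_of_all _ fun z => ?_)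
  · exact Continuous.aestronglyMeasurable (by fun_prop)
  · rw [Real.norm_eq_abs, abs_of_pos (Real.exp_pos _), ← Real.exp_add]
    refine Real.exp_le_exp.2 ?_
    have := mul_le_mul_of_nonneg_left (hK (y + s * z)) hx
    linarith

/-- **one step**, constants -/
theorem step_le {g : ℝ → ℝ} {A K : ℝ} (hg : QG g A) (hK : ∀ x, g x ≤ K) {x : ℝ} (hx : 0 ≤ x)
    {d : ℝ} (hd : 0 ≤ d) (y c : ℝ) :
    (∫ w, g (y + x * d * c + Real.sqrt d * w) ∂gaussianReal 0 1) - x / 2 * (d * c ^ 2) ≤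
      gaussOp x d g y := by
  rcases hx.eq_or_lt with hx0 | hx0
  · rw [← hx0, R164.GC.gaussOp_zero]
    simp [H]
  · rw [R164.GC.gaussOp_ne hx0.ne']
    unfold H
    set s := Real.sqrt d with hs
    have hsd : s ^ 2 = d := Real.sq_sqrt hd
    set c' := x * s * c with hc'
    rw [CtlA_130.gauss_shift (fun z => Real.exp (x * g (y + s * z))) c']
    have e2 : (fun z => Real.exp (x * g (y + s * (z + c'))) * Real.exp (-c' * z - c' ^ 2 / 2)) =
        fun z => Real.exp (x * g (y + x * d * c + s * z) + (-c' * z + -(c' ^ 2 / 2))) := by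
      funext z
      rw [← Real.exp_add]
      congr 1
      have : y + s * (z + c') = y + x * d * c + s * z := by rw [hc', ← hsd]; ring
      rw [this]; ring
    rw [e2]
    have hi1 := hg.gint (y + x * d * c) s
    have hid : Integrable (fun z : ℝ => -c' * z) (gaussianReal 0 1) :=
      ((memLp_id_gaussianReal' 1 (by simp)).integrable le_rfl).const_mul (-c')
    have hi2 : Integrable (fun z : ℝ => -c' * z + -(c' ^ 2 / 2)) (gaussianReal 0 1) :=
      hid.add (integrable_const _)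
    have hW : Integrable (fun z => x * g (y + x * d * c + s * z) + (-c' * z + -(c' ^ 2 / 2)))
        (gaussianReal 0 1) := (hi1.const_mul x).add hi2
    have hE := exp_gint hg.cont hK hx (y + x * d * c) s (-c') (-(c' ^ 2 / 2))
    have hJ := convexOn_exp.map_integral_le Real.continuous_exp.continuousOn isClosed_univ
        (by simp) hW hE
    have hI : ∫ z, (x * g (y + x * d * c + s * z) + (-c' * z + -(c' ^ 2 / 2))) ∂gaussianReal 0 1 =
        x * (∫ z, g (y + x * d * c + s * z) ∂gaussianReal 0 1) - c' ^ 2 / 2 := by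
      rw [integral_add (hi1.const_mul x) hi2, integral_const_mul, integral_add hid
        (integrable_const _), integral_const_mul, integral_id_gaussianReal]
      simp
      ring
    rw [hI] at hJ
    have hL := Real.log_le_log (Real.exp_pos _) hJ
    rw [Real.log_exp] at hL
    have h3 : (∫ w, g (y + x * d * c + s * w) ∂gaussianReal 0 1) - x / 2 * (d * c ^ 2) =
        x⁻¹ * (x * (∫ z, g (y + x * d * c + s * z) ∂gaussianReal 0 1) - c' ^ 2 / 2) := by
      rw [hc', ← hsd]
      field_simp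
    rw [h3]
    exact mul_le_mul_of_nonneg_left hL (by positivity)

theorem gaussOp_le {g : ℝ → ℝ} (hg : Continuous g) {K : ℝ} (hK : ∀ x, g x ≤ K)
    (hgi : ∀ y s, Integrable (fun w => g (y + s * w)) (gaussianReal 0 1)) {x : ℝ} (hx : 0 ≤ x)
    (d y : ℝ) : gaussOp x d g y ≤ K := by
  rcases hx.eq_or_lt with hx0 | hx0
  · rw [← hx0, R164.GC.gaussOp_zero]
    have := integral_mono (hgi y (Real.sqrt d)) (integrable_const K) fun w => hK _
    simpa [H] using this
  · rw [R164.GC.gaussOp_ne hx0.ne']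
    unfold H
    have h1 : ∫ w, Real.exp (x * g (y + Real.sqrt d * w)) ∂gaussianReal 0 1 ≤ Real.exp (x * K) := by
      have := integral_mono (μ := gaussianReal 0 1)
        (f := fun w => Real.exp (x * g (y + Real.sqrt d * w))) (g := fun _ => Real.exp (x * K))
        (by simpa using exp_gint hg hK hx y (Real.sqrt d) 0 0) (integrable_const _)
        fun w => Real.exp_le_exp.2 (mul_le_mul_of_nonneg_left (hK _) hx)
      simpa using this
    have h0 : 0 < ∫ w, Real.exp (x * g (y + Real.sqrt d * w)) ∂gaussianReal 0 1 := by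
      have hi : Integrable (fun w => Real.exp (x * g (y + Real.sqrt d * w))) (gaussianReal 0 1) := by
        simpa using exp_gint hg hK hx y (Real.sqrt d) 0 0
      exact integral_exp_pos hi
    have h2 := Real.log_le_log h0 h1
    rw [Real.log_exp] at h2
    calc x⁻¹ * Real.log _ ≤ x⁻¹ * (x * K) := mul_le_mul_of_nonneg_left h2 (inv_nonneg.2 hx)
      _ = K := by field_simp

end Gauss

end Crest.Agent.R146.Br_256
end
end

-- ▼ part R146/Br2_256

/-!
# Row 146, R3 bridge (helper256), file 2: `QL` functions of `L2` variables, one step on `Ω`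
-/

set_option autoImplicit false

noncomputable section

open MeasureTheory Set Filter Topology ProbabilityTheory
open scoped InnerProductSpace RealInnerProductSpace NNReal ENNReal

namespace Crest.Agent.R146.Br_256

open Crest.ProbabilityR.Perceptron Crest.ProbabilityR.InvariantGlass
open Crest.Agent.R146.DualQ_256 Crest.Agent.R146.DualC1_256 Crest.Agent.R146.DualV_256
  Crest.Agent.R146.DualL_256 Crest.Agent.R146.DualG_256 Crest.Agent.R146.CtlC_130
open Crest.Agent.R164.GC (H)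

variable {Ω : Type*} [mΩ : MeasurableSpace Ω] {P : Measure Ω} [IsProbabilityMeasure P]

theorem norm_cst_one : ‖cst P (1 : ℝ)‖ = 1 := by
  have h : ‖cst P (1 : ℝ)‖ ^ 2 = 1 := by
    rw [norm_sq_eq]
    have : ∫ ω, (cst P (1 : ℝ)) ω ^ 2 ∂P = ∫ _, (1 : ℝ) ∂P := by
      refine integral_congr_ae ?_
      filter_upwards [cst_coe (P := P) 1] with ω h
      rw [h]; norm_num
    rw [this]; simp
  have h0 := norm_nonneg (cst P (1 : ℝ))
  nlinarith

theorem QG.int_of {g : ℝ → ℝ} {A : ℝ} (h : QG g A) {Y : Ω → ℝ} (hY : MemLp Y 2 P) :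
    Integrable (fun ω => g (Y ω)) P := by
  have h1 : Integrable (fun ω => A + A * Y ω ^ 2) P :=
    (integrable_const _).add (hY.integrable_sq.const_mul _)
  refine h1.mono' (h.cont.comp_aestronglyMeasurable hY.1) (ae_of_all _ fun ω => ?_)
  rw [Real.norm_eq_abs]; exact h.bd _

theorem QG.int {g : ℝ → ℝ} {A : ℝ} (h : QG g A) (Y : Ω →₂[P] ℝ) :
    Integrable (fun ω => g (Y ω)) P := h.int_of (Lp.memLp Y)

theorem QL.int {g : ℝ → ℝ} {C : ℝ} (h : QL g C) (Y : Ω →₂[P] ℝ) :
    Integrable (fun ω => g (Y ω)) P := h.qg.int Y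

theorem QL.dist {g : ℝ → ℝ} {C : ℝ} (h : QL g C) (X Y : Ω →₂[P] ℝ) :
    |∫ ω, g (X ω) ∂P - ∫ ω, g (Y ω) ∂P| ≤ C * (1 + ‖X‖ + ‖Y‖) * ‖X - Y‖ := by
  rw [← integral_sub (h.int X) (h.int Y)]
  set W : Ω →₂[P] ℝ := cst P 1 + |X| + |Y| with hW
  have hWn : ‖W‖ ≤ 1 + ‖X‖ + ‖Y‖ := by
    refine (norm_add_le _ _).trans ?_
    rw [norm_abs_eq_norm]
    have := norm_add_le (cst P 1) |X|
    rw [norm_abs_eq_norm, norm_cst_one] at this
    linarith
  have hi : Integrable (fun ω => C * (W ω * |X - Y| ω)) P := (integrable_mul W |X - Y|).const_mul C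
  have h1 : |∫ ω, (g (X ω) - g (Y ω)) ∂P| ≤ ∫ ω, C * (W ω * |X - Y| ω) ∂P := by
    refine abs_integral_le_integral_abs.trans (integral_mono_ae ((h.int X).sub (h.int Y)).abs hi ?_)
    filter_upwards [Lp.coeFn_add (cst P 1 + |X|) |Y|, Lp.coeFn_add (cst P 1) |X|,
      Lp.coeFn_abs X, Lp.coeFn_abs Y, Lp.coeFn_abs (X - Y), Lp.coeFn_sub X Y,
      cst_coe (P := P) 1] with ω a1 a2 a3 a4 a5 a6 a7
    have e1 : W ω = 1 + |X ω| + |Y ω| := by
      rw [hW, a1, Pi.add_apply, a2, Pi.add_apply, a3, a4, a7]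
    have e2 : |X - Y| ω = |X ω - Y ω| := by rw [a5, a6, Pi.sub_apply]
    rw [e1, e2]
    have := h.lip (X ω) (Y ω)
    rw [mul_assoc] at this
    exact this
  refine h1.trans ?_
  rw [integral_const_mul, ← inner_eq, mul_assoc]
  refine mul_le_mul_of_nonneg_left ?_ h.nonneg
  refine (real_inner_le_norm _ _).trans ?_
  rw [norm_abs_eq_norm]
  exact mul_le_mul_of_nonneg_right hWn (norm_nonneg _)

theorem QL.tendsto {g : ℝ → ℝ} {C : ℝ} (h : QL g C) {ι : Type*} {l : Filter ι}
    {Yn : ι → Ω →₂[P] ℝ} {Y : Ω →₂[P] ℝ} (hY : Tendsto Yn l (𝓝 Y)) :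
    Tendsto (fun n => ∫ ω, g (Yn n ω) ∂P) l (𝓝 (∫ ω, g (Y ω) ∂P)) := by
  rw [tendsto_iff_norm_sub_tendsto_zero]
  have h1 : Tendsto (fun n => C * (1 + ‖Yn n‖ + ‖Y‖) * ‖Yn n - Y‖) l
      (𝓝 (C * (1 + ‖Y‖ + ‖Y‖) * 0)) := by
    have h2 := tendsto_iff_norm_sub_tendsto_zero.1 hY
    exact (((hY.norm.const_add 1).add_const ‖Y‖).const_mul C).mul h2
  rw [mul_zero] at h1
  exact squeeze_zero (fun _ => norm_nonneg _) (fun n => by
    rw [Real.norm_eq_abs]; exact h.dist _ _) h1

/-! ### freezing -/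

section Brownian

variable {B : ℝ≥0 → Ω → ℝ} (hBm : ∀ t, Measurable (B t)) (hB : IsBrownianReal B P)

theorem H_int_of {g : ℝ → ℝ} {A : ℝ} (hg : QG g A) {Y : Ω → ℝ} (hY : MemLp Y 2 P) (s : ℝ) :
    Integrable (fun ω => H s g (Y ω)) P := by
  have h1 : Integrable (fun ω => A + A * (2 * Y ω ^ 2 + 2 * s ^ 2)) P :=
    (integrable_const _).add (((hY.integrable_sq.const_mul 2).add (integrable_const _)).const_mul _)
  have hm : Measurable (H s g) := CtlB_130.H_meas hg.cont.measurable s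
  refine h1.mono' (hm.comp_aemeasurable hY.1.aemeasurable).aestronglyMeasurable
    (ae_of_all _ fun ω => ?_)
  rw [Real.norm_eq_abs]
  unfold H
  refine abs_integral_le_integral_abs.trans ?_
  have h2 : Integrable (fun w : ℝ => A + A * (2 * Y ω ^ 2 + 2 * s ^ 2 * w ^ 2))
      (gaussianReal 0 1) :=
    (integrable_const _).add
      (((integrable_const _).add (gauss_sq_int.const_mul _)).const_mul _)
  refine (integral_mono (hg.gint (Y ω) s).abs h2 fun w => ?_).trans (le_of_eq ?_)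
  · refine (hg.bd _).trans ?_
    have h2 : (Y ω + s * w) ^ 2 ≤ 2 * Y ω ^ 2 + 2 * s ^ 2 * w ^ 2 := by
      nlinarith [sq_nonneg (Y ω - s * w)]
    have h3 := mul_le_mul_of_nonneg_left h2 hg.nonneg
    linarith
  · have e : ∫ w : ℝ, w ^ 2 ∂gaussianReal 0 1 = 1 := by
      have h3 := variance_fun_id_gaussianReal (μ := 0) (v := 1)
      rw [variance_eq_integral (by fun_prop)] at h3
      simpa using h3
    have j1 : Integrable (fun w : ℝ => 2 * s ^ 2 * w ^ 2) (gaussianReal 0 1) :=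
      gauss_sq_int.const_mul _
    have j2 : Integrable (fun w : ℝ => 2 * Y ω ^ 2 + 2 * s ^ 2 * w ^ 2) (gaussianReal 0 1) :=
      (integrable_const _).add j1
    have j3 : Integrable (fun w : ℝ => A * (2 * Y ω ^ 2 + 2 * s ^ 2 * w ^ 2))
      (gaussianReal 0 1) := j2.const_mul _
    rw [integral_add (integrable_const _) j3, integral_const_mul,
      integral_add (integrable_const _) j1, integral_const_mul, integral_const_mul, e]
    simp

include hBm hB in
/-- integrating out one increment, functions of quadratic growth -/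
theorem int_incr_QL {s t : ℝ} (hs : 0 ≤ s) (h : s ≤ t) {Y : Ω → ℝ}
    (hY : Measurable[F hBm s] Y) (hY2 : MemLp Y 2 P) {g : ℝ → ℝ} {A : ℝ} (hg : QG g A) :
    ∫ ω, g (Y ω + (B t.toNNReal ω - B s.toNNReal ω)) ∂P =
      ∫ ω, H (Real.sqrt (t - s)) g (Y ω) ∂P := by
  have hYm : Measurable Y := hY.mono (F_le hBm s) le_rfl
  have hDm : Measurable (fun ω => B t.toNNReal ω - B s.toNNReal ω) := (hBm _).sub (hBm _)
  have hind := indep_incr hBm hB hs h hY
  have hprod := (indepFun_iff_map_prod_eq_prod_map_map hYm.aemeasurable hDm.aemeasurable).1 hind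
  have hg2 : Measurable (fun p : ℝ × ℝ => g (p.1 + p.2)) := hg.cont.measurable.comp (by fun_prop)
  have e1 : ∫ ω, g (Y ω + (B t.toNNReal ω - B s.toNNReal ω)) ∂P =
      ∫ p, g (p.1 + p.2) ∂(P.map fun ω => (Y ω, B t.toNNReal ω - B s.toNNReal ω)) := by
    rw [integral_map (hYm.prodMk hDm).aemeasurable hg2.aestronglyMeasurable]
  have : IsProbabilityMeasure (P.map Y) := Measure.isProbabilityMeasure_map hYm.aemeasurable
  rw [e1, hprod, law_incr hB hs h, integral_prod]
  · rw [integral_map hYm.aemeasurable]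
    · refine integral_congr_ae (ae_of_all _ fun ω => ?_)
      simp only
      rw [CtlB_130.H_eq hg.cont.measurable (by linarith)]
    · exact (hg2.stronglyMeasurable.integral_prod_right).aestronglyMeasurable
  · have i1 : Integrable (fun y : ℝ => y ^ 2) (P.map Y) := by
      rw [integrable_map_measure (by fun_prop) hYm.aemeasurable]
      exact hY2.integrable_sq
    have i2 : Integrable (fun y : ℝ => y ^ 2) (gaussianReal 0 (t - s).toNNReal) :=
      (memLp_id_gaussianReal' 2 (by simp)).integrable_sq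
    have i3 : Integrable (fun p : ℝ × ℝ => A + A * (2 * p.1 ^ 2 + 2 * p.2 ^ 2))
        ((P.map Y).prod (gaussianReal 0 (t - s).toNNReal)) := by
      refine (integrable_const _).add ((Integrable.add ?_ ?_).const_mul _)
      · exact (i1.comp_fst _).const_mul 2
      · exact (i2.comp_snd _).const_mul 2
    refine i3.mono' hg2.aestronglyMeasurable (ae_of_all _ fun p => ?_)
    rw [Real.norm_eq_abs]
    refine (hg.bd _).trans ?_
    have h2 : (p.1 + p.2) ^ 2 ≤ 2 * p.1 ^ 2 + 2 * p.2 ^ 2 := by nlinarith [sq_nonneg (p.1 - p.2)]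
    have h3 := mul_le_mul_of_nonneg_left h2 hg.nonneg
    linarith

theorem gaussOp_meas {g : ℝ → ℝ} (hg : Continuous g) (x d : ℝ) : Measurable (gaussOp x d g) := by
  unfold gaussOp
  by_cases hx : x = 0
  · simp only [hx, if_true]
    exact CtlB_130.H_meas hg.measurable (Real.sqrt d)
  · simp only [hx, if_false]
    have h1 : Measurable (H (Real.sqrt d) (fun u => Real.exp (x * g u))) :=
      CtlB_130.H_meas (by fun_prop) (Real.sqrt d)
    exact (Real.measurable_log.comp h1).const_mul _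

theorem gaussOp_int_of {g : ℝ → ℝ} {A K : ℝ} (hg : QG g A) (hK : ∀ x, g x ≤ K) {x : ℝ}
    (hx : 0 ≤ x) {d : ℝ} (hd : 0 ≤ d) {Y : Ω → ℝ} (hY : MemLp Y 2 P) :
    Integrable (fun ω => gaussOp x d g (Y ω)) P := by
  have i1 := H_int_of hg hY (Real.sqrt d)
  have hm : AEStronglyMeasurable (fun ω => gaussOp x d g (Y ω)) P :=
    ((gaussOp_meas hg.cont x d).comp_aemeasurable hY.1.aemeasurable).aestronglyMeasurable
  refine (i1.abs.add (integrable_const |K|)).mono' hm (ae_of_all _ fun ω => ?_)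
  rw [Real.norm_eq_abs, Pi.add_apply]
  have h1 := gaussOp_le hg.cont hK hg.gint hx d (Y ω)
  have h2 := step_le hg hK hx hd (Y ω) 0
  simp only [mul_zero, add_zero, ne_eq, OfNat.ofNat_ne_zero, not_false_eq_true, zero_pow,
    sub_zero] at h2
  have h3 : H (Real.sqrt d) g (Y ω) ≤ gaussOp x d g (Y ω) := h2
  rw [abs_le]
  constructor
  · have := neg_abs_le (H (Real.sqrt d) g (Y ω))
    have := abs_nonneg K
    linarith
  · have := le_abs_self K
    have := abs_nonneg (H (Real.sqrt d) g (Y ω))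
    linarith

include hBm hB in
/-- one step on `Ω`, functions -/
theorem cstep_fun {s t : ℝ} (hs : 0 ≤ s) (h : s ≤ t) {Y c : Ω → ℝ}
    (hY : Measurable[F hBm s] Y) (hY2 : MemLp Y 2 P) (hc : Measurable[F hBm s] c)
    (hc2 : MemLp c 2 P) {g : ℝ → ℝ} {A K : ℝ} (hg : QG g A) (hK : ∀ x, g x ≤ K) {x : ℝ}
    (hx : 0 ≤ x) :
    ∫ ω, g (Y ω + x * (t - s) * c ω + (B t.toNNReal ω - B s.toNNReal ω)) ∂P -
      x / 2 * ((t - s) * ∫ ω, c ω ^ 2 ∂P) ≤ ∫ ω, gaussOp x (t - s) g (Y ω) ∂P := by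
  have hd : 0 ≤ t - s := by linarith
  have hYc : Measurable[F hBm s] (fun ω => Y ω + x * (t - s) * c ω) :=
    Measurable.add hY (Measurable.const_mul hc _)
  have hYc2 : MemLp (fun ω => Y ω + x * (t - s) * c ω) 2 P := hY2.add (hc2.const_mul _)
  rw [int_incr_QL hBm hB hs h hYc hYc2 hg]
  have hi1 := H_int_of hg hYc2 (Real.sqrt (t - s))
  have hi2 : Integrable (fun ω => x / 2 * ((t - s) * c ω ^ 2)) P :=
    (hc2.integrable_sq.const_mul _).const_mul _
  have e : x / 2 * ((t - s) * ∫ ω, c ω ^ 2 ∂P) = ∫ ω, x / 2 * ((t - s) * c ω ^ 2) ∂P := by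
    rw [integral_const_mul, integral_const_mul]
  rw [e, ← integral_sub hi1 hi2]
  refine integral_mono (hi1.sub hi2) (gaussOp_int_of hg hK hx hd hY2) fun ω => ?_
  have := step_le hg hK hx hd (Y ω) (c ω)
  simpa [H] using this

/-- representative measurable at time `s` -/
theorem exists_rep {s : ℝ} {Y : Ω →₂[P] ℝ}
    (hY : condPi (brownianFiltration B hBm) P s Y = Y) :
    ∃ Y' : Ω → ℝ, Measurable[F hBm s] Y' ∧ (Y : Ω → ℝ) =ᵐ[P] Y' ∧ MemLp Y' 2 P := by
  have h := condPi_meas (brownianFiltration B hBm) s Y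
  rw [hY] at h
  refine ⟨h.mk _, h.stronglyMeasurable_mk.measurable, h.ae_eq_mk, ?_⟩
  exact (memLp_congr_ae h.ae_eq_mk).1 (Lp.memLp Y)

/-- freezing in `L2` form -/
theorem freeze {s t : ℝ} (hs : 0 ≤ s) (h : s ≤ t) {Y : Ω →₂[P] ℝ}
    (hY : condPi (brownianFiltration B hBm) P s Y = Y) {g : ℝ → ℝ} {A : ℝ} (hg : QG g A) :
    ∫ ω, g ((Y + (Zt hB t.toNNReal - Zt hB s.toNNReal) : Ω →₂[P] ℝ) ω) ∂P =
      ∫ ω, H (Real.sqrt (t - s)) g (Y ω) ∂P := by
  obtain ⟨Y', h1, h2, h3⟩ := exists_rep hBm hY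
  have e1 : ∫ ω, g ((Y + (Zt hB t.toNNReal - Zt hB s.toNNReal) : Ω →₂[P] ℝ) ω) ∂P =
      ∫ ω, g (Y' ω + (B t.toNNReal ω - B s.toNNReal ω)) ∂P := by
    refine integral_congr_ae ?_
    filter_upwards [Lp.coeFn_add Y (Zt hB t.toNNReal - Zt hB s.toNNReal),
      Lp.coeFn_sub (Zt hB t.toNNReal) (Zt hB s.toNNReal), Zt_coe hB t.toNNReal,
      Zt_coe hB s.toNNReal, h2] with ω a1 a2 a3 a4 a5
    simp only [a1, Pi.add_apply, a2, Pi.sub_apply, a3, a4, a5]
  have e2 : ∫ ω, H (Real.sqrt (t - s)) g (Y ω) ∂P = ∫ ω, H (Real.sqrt (t - s)) g (Y' ω) ∂P := by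
    refine integral_congr_ae ?_
    filter_upwards [h2] with ω a
    simp only [a]
  rw [e1, e2]
  exact int_incr_QL hBm hB hs h h1 h3 hg

/-- **one step** in `L2` form -/
theorem cstep {s t : ℝ} (hs : 0 ≤ s) (h : s ≤ t) {Y c : Ω →₂[P] ℝ}
    (hY : condPi (brownianFiltration B hBm) P s Y = Y)
    (hc : condPi (brownianFiltration B hBm) P s c = c) {g : ℝ → ℝ} {A K : ℝ} (hg : QG g A)
    (hK : ∀ x, g x ≤ K) {x : ℝ} (hx : 0 ≤ x) :
    ∫ ω, g ((Y + (x * (t - s)) • c + (Zt hB t.toNNReal - Zt hB s.toNNReal) : Ω →₂[P] ℝ) ω) ∂P -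
      x / 2 * ((t - s) * ‖c‖ ^ 2) ≤ ∫ ω, gaussOp x (t - s) g (Y ω) ∂P := by
  obtain ⟨Y', h1, h2, h3⟩ := exists_rep hBm hY
  obtain ⟨c', k1, k2, k3⟩ := exists_rep hBm hc
  have e1 : ∫ ω, g ((Y + (x * (t - s)) • c + (Zt hB t.toNNReal - Zt hB s.toNNReal) :
      Ω →₂[P] ℝ) ω) ∂P =
      ∫ ω, g (Y' ω + x * (t - s) * c' ω + (B t.toNNReal ω - B s.toNNReal ω)) ∂P := by
    refine integral_congr_ae ?_
    filter_upwards [Lp.coeFn_add (Y + (x * (t - s)) • c) (Zt hB t.toNNReal - Zt hB s.toNNReal),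
      Lp.coeFn_add Y ((x * (t - s)) • c), Lp.coeFn_smul (x * (t - s)) c,
      Lp.coeFn_sub (Zt hB t.toNNReal) (Zt hB s.toNNReal), Zt_coe hB t.toNNReal,
      Zt_coe hB s.toNNReal, h2, k2] with ω a1 b1 b2 a2 a3 a4 a5 b5
    simp only [a1, Pi.add_apply, b1, b2, Pi.smul_apply, a2, Pi.sub_apply, a3, a4, a5, b5,
      smul_eq_mul]
  have e2 : ∫ ω, gaussOp x (t - s) g (Y ω) ∂P = ∫ ω, gaussOp x (t - s) g (Y' ω) ∂P := by
    refine integral_congr_ae ?_
    filter_upwards [h2] with ω a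
    simp only [a]
  have e3 : ‖c‖ ^ 2 = ∫ ω, c' ω ^ 2 ∂P := by
    rw [norm_sq_eq]
    refine integral_congr_ae ?_
    filter_upwards [k2] with ω a
    simp only [a]
  rw [e1, e2, e3]
  exact cstep_fun hBm hB hs h h1 h3 k1 k3 hg hK hx

end Brownian

end Crest.Agent.R146.Br_256
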