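import Crest.Agent.R146.CtlC_130
import Crest.Agent.R146.S6Def_988

-- ▼ part R146/CtlD_130
section

/-!
Row 146, S0206 node (V), part D (helper130): upper bound on one cell for bounded progressive
controls.
-/

set_option autoImplicit false

namespace Crest.Agent.R146.CtlD_130

open MeasureTheory ProbabilityTheory Filter Topology Set
open Crest.ProbabilityR.InvariantGlass
open Crest.ProbabilityR.Perceptron
open Crest.Agent.R164.GC (H)
open Crest.Agent.R146.CtlA_130 Crest.Agent.R146.CtlB_130 Crest.Agent.R146.CtlC_130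
open scoped NNReal

noncomputable section

variable {Ω : Type*} [mΩ : MeasurableSpace Ω] {P : Measure Ω}
variable {B : ℝ≥0 → Ω → ℝ} {hBm : ∀ t, Measurable (B t)}

theorem _root_.Crest.Agent.R146.CtlC_130.Ctl.iv {M : ℝ} {v : ℝ≥0 → Ω → ℝ} (hv : Ctl hBm M v) {s t : ℝ} (hst : s ≤ t) (ω : Ω) :
    IntervalIntegrable (fun r => v r.toNNReal ω) volume s t := by
  have := hv.intv (m := fun _ => 1) measurable_const (c := 1) (s := s) (t := t)
    (fun r _ => by simp) hst ω
  simpa using this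

theorem _root_.Crest.Agent.R146.CtlC_130.Ctl.iv2 {M : ℝ} {v : ℝ≥0 → Ω → ℝ} (hv : Ctl hBm M v) {s t : ℝ} (hst : s ≤ t) (ω : Ω) :
    IntervalIntegrable (fun r => v r.toNNReal ω ^ 2) volume s t := by
  have := hv.intv2 (m := fun _ => 1) measurable_const (c := 1) (s := s) (t := t)
    (fun r _ => by simp) hst ω
  simpa using this

theorem _root_.Crest.Agent.R146.CtlC_130.Ctl.bd_int {M : ℝ} {v : ℝ≥0 → Ω → ℝ} (hv : Ctl hBm M v) {s t : ℝ} (hst : s ≤ t) (ω : Ω) :
    |∫ r in s..t, v r.toNNReal ω| ≤ M * (t - s) := by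
  have := intervalIntegral.norm_integral_le_of_norm_le_const (a := s) (b := t)
    (f := fun r => v r.toNNReal ω) (C := M) (fun r _ => by simpa using hv.bd _ _)
  rwa [abs_of_nonneg (by linarith : 0 ≤ t - s), Real.norm_eq_abs] at this

theorem _root_.Crest.Agent.R146.CtlC_130.Ctl.bd_int2 {M : ℝ} {v : ℝ≥0 → Ω → ℝ} (hv : Ctl hBm M v) {s t : ℝ} (hst : s ≤ t) (ω : Ω) :
    |∫ r in s..t, v r.toNNReal ω ^ 2| ≤ M ^ 2 * (t - s) := by
  have := intervalIntegral.norm_integral_le_of_norm_le_const (a := s) (b := t)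
    (f := fun r => v r.toNNReal ω ^ 2) (C := M ^ 2) (fun r _ => by
      rw [Real.norm_eq_abs, abs_pow]; exact pow_le_pow_left₀ (abs_nonneg _) (hv.bd _ _) 2)
  rwa [abs_of_nonneg (by linarith : 0 ≤ t - s), Real.norm_eq_abs] at this

theorem _root_.Crest.Agent.R146.CtlC_130.Ctl.meas_int {M : ℝ} {v : ℝ≥0 → Ω → ℝ} (hv : Ctl hBm M v) {s t : ℝ} (hst : s ≤ t) :
    Measurable[F hBm t] (fun ω => ∫ r in s..t, v r.toNNReal ω) :=
  CtlC_130.meas_int hv.prog hst (g := fun _ y => y) measurable_snd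

theorem _root_.Crest.Agent.R146.CtlC_130.Ctl.meas_int2 {M : ℝ} {v : ℝ≥0 → Ω → ℝ} (hv : Ctl hBm M v) {s t : ℝ} (hst : s ≤ t) :
    Measurable[F hBm t] (fun ω => ∫ r in s..t, v r.toNNReal ω ^ 2) :=
  CtlC_130.meas_int hv.prog hst (g := fun _ y => y ^ 2) (measurable_snd.pow_const 2)

/-- Jensen on one piece -/
theorem jensen {g : ℝ → ℝ} {s t : ℝ} (hst : s < t) (h1 : IntervalIntegrable g volume s t)
    (h2 : IntervalIntegrable (fun r => g r ^ 2) volume s t) :
    (t - s) * (((t - s)⁻¹ * ∫ r in s..t, g r) ^ 2) ≤ ∫ r in s..t, g r ^ 2 := by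
  set c := (t - s)⁻¹ * ∫ r in s..t, g r with hc
  have hpos : 0 < t - s := by linarith
  have h3 : 0 ≤ ∫ r in s..t, (g r - c) ^ 2 :=
    intervalIntegral.integral_nonneg hst.le fun r _ => sq_nonneg _
  have e : ∫ r in s..t, (g r - c) ^ 2 = ∫ r in s..t, (g r ^ 2 - (2 * c) * g r + c ^ 2) := by
    congr 1; funext r; ring
  rw [e, intervalIntegral.integral_add (h2.sub (h1.const_mul _)) (by simp),
    intervalIntegral.integral_sub h2 (h1.const_mul _), intervalIntegral.integral_const_mul,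
    intervalIntegral.integral_const, smul_eq_mul] at h3
  have e2 : ∫ r in s..t, g r = (t - s) * c := by rw [hc]; field_simp
  rw [e2] at h3
  nlinarith

variable [IsProbabilityMeasure P]

/-- the chain of one-step bounds inside a cell -/
theorem chain_le (hB : IsBrownianReal B P) {s d : ℝ} (hs : 0 ≤ s) (hd : 0 ≤ d) (n : ℕ)
    {X : Ω → ℝ} (hX : Measurable[F hBm s] X) {c : ℕ → Ω → ℝ} {M : ℝ}
    (hc : ∀ i : ℕ, Measurable[F hBm (s + i * d)] (c i)) (hcM : ∀ i ω, |c i ω| ≤ M)
    {φ : ℝ → ℝ} {K : ℝ} (hφ : BM φ K) {x : ℝ} (hx : 0 ≤ x) (k : ℕ) (hk : k ≤ n) :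
    ∫ ω, gaussOp x (((n - k : ℕ) : ℝ) * d) φ (X ω + x * ∑ i ∈ Finset.range k, d * c i ω +
      (B (s + k * d).toNNReal ω - B s.toNNReal ω)) ∂P -
      x / 2 * ∑ i ∈ Finset.range k, d * ∫ ω, c i ω ^ 2 ∂P ≤
    ∫ ω, gaussOp x (n * d) φ (X ω) ∂P := by
  induction k with
  | zero => simp
  | succ k ih =>
    refine le_trans ?_ (ih (by omega))
    have hsk : s ≤ s + k * d := by have : 0 ≤ (k:ℝ) * d := by positivity
                                   linarith
    have hk1 : s + (k + 1 : ℕ) * d = (s + k * d) + d := by push_cast; ring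
    have hXk : Measurable[F hBm (s + k * d)] (fun ω => X ω + x * ∑ i ∈ Finset.range k, d * c i ω +
        (B (s + k * d).toNNReal ω - B s.toNNReal ω)) := by
      refine Measurable.add (Measurable.add (hX.mono (F_mono hBm hsk) le_rfl) ?_) ?_
      · refine Measurable.const_mul ?_ _
        refine Finset.measurable_sum _ fun i hi => ?_
        refine Measurable.const_mul ?_ _
        refine (hc i).mono (F_mono hBm ?_) le_rfl
        have : (i:ℝ) ≤ k := by exact_mod_cast (Finset.mem_range.1 hi).le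
        nlinarith
      · exact Measurable.sub (F_adapted hBm _ _ le_rfl) (F_adapted hBm _ _ hsk)
    have hψ : BM (gaussOp x (((n - (k + 1) : ℕ) : ℝ) * d) φ) K := gaussOp_BM hφ hx _
    have h1 := cstep_le hBm hB (s := s + k * d) (t := s + k * d + d) (by linarith) (by linarith)
      hXk (hc k) (hcM k) hψ hx
    have e1 : s + k * d + d - (s + k * d) = d := by ring
    rw [e1] at h1
    have e2 : ∀ y, gaussOp x d (gaussOp x (((n - (k + 1) : ℕ) : ℝ) * d) φ) y =
        gaussOp x (((n - k : ℕ) : ℝ) * d) φ y := by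
      intro y
      rw [gaussOp_semi hφ hx hd (by positivity)]
      congr 1
      have : ((n - k : ℕ) : ℝ) = ((n - (k + 1) : ℕ) : ℝ) + 1 := by
        have : n - k = n - (k + 1) + 1 := by omega
        rw [this]; push_cast; ring
      rw [this]; ring
    simp only [e2] at h1
    have e3 : ∀ ω, X ω + x * ∑ i ∈ Finset.range (k + 1), d * c i ω +
        (B (s + (k + 1 : ℕ) * d).toNNReal ω - B s.toNNReal ω) =
        X ω + x * ∑ i ∈ Finset.range k, d * c i ω +
        (B (s + k * d).toNNReal ω - B s.toNNReal ω) + x * d * c k ω +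
        (B (s + k * d + d).toNNReal ω - B (s + k * d).toNNReal ω) := by
      intro ω
      rw [Finset.sum_range_succ, hk1]
      ring
    simp only [e3]
    rw [Finset.sum_range_succ]
    linarith

/-- upper bound on one cell -/
theorem cell_le (hB : IsBrownianReal B P) {s t : ℝ} (hs : 0 ≤ s) (hst : s ≤ t)
    {X : Ω → ℝ} (hX : Measurable[F hBm s] X) {v : ℝ≥0 → Ω → ℝ} {M : ℝ} (hv : Ctl hBm M v)
    {φ : ℝ → ℝ} {K : ℝ} (hφ : BM φ K) (hφc : Continuous φ) {x : ℝ} (hx : 0 ≤ x) :
    ∫ ω, φ (X ω + (B t.toNNReal ω - B s.toNNReal ω) + x * ∫ r in s..t, v r.toNNReal ω) ∂P -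
      x / 2 * ∫ ω, (∫ r in s..t, v r.toNNReal ω ^ 2) ∂P ≤ ∫ ω, gaussOp x (t - s) φ (X ω) ∂P := by
  rcases hst.eq_or_lt with h0 | hlt
  · subst h0
    simp [gaussOp_var0]
  -- the bound with the last piece removed
  have hXm : Measurable X := hX.mono (F_le hBm s) le_rfl
  have hM0 : 0 ≤ M := by
    rcases isEmpty_or_nonempty Ω with h | ⟨⟨ω⟩⟩
    · exact absurd (inferInstance : IsProbabilityMeasure P).measure_univ (by simp [Set.univ_eq_empty_iff.2 h])
    · exact (abs_nonneg _).trans (hv.bd 0 ω)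
  have key : ∀ n : ℕ, ∫ ω, φ (X ω + (B t.toNNReal ω - B s.toNNReal ω) +
      x * ∫ r in s..(t - (t - s) / (n + 1 : ℕ)), v r.toNNReal ω) ∂P -
      x / 2 * ∫ ω, (∫ r in s..t, v r.toNNReal ω ^ 2) ∂P ≤ ∫ ω, gaussOp x (t - s) φ (X ω) ∂P := by
    intro n
    set d := (t - s) / (n + 1 : ℕ) with hd
    have hd0 : 0 < d := div_pos (by linarith) (by positivity)
    have hnd : ((n + 1 : ℕ) : ℝ) * d = t - s := by rw [hd]; field_simp
    set c : ℕ → Ω → ℝ := fun i ω => d⁻¹ * ∫ r in (s + ((i - 1 : ℕ) : ℝ) * d)..(s + i * d),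
      v r.toNNReal ω with hcdef
    have hii : ∀ i : ℕ, s + ((i - 1 : ℕ) : ℝ) * d ≤ s + i * d := by
      intro i
      have : ((i - 1 : ℕ) : ℝ) ≤ i := by exact_mod_cast Nat.sub_le i 1
      nlinarith
    have hss : ∀ i : ℕ, s ≤ s + (i:ℝ) * d := by
      intro i
      have : 0 ≤ (i:ℝ) * d := by positivity
      linarith
    have hc : ∀ i : ℕ, Measurable[F hBm (s + i * d)] (c i) := fun i =>
      Measurable.const_mul (hv.meas_int (hii i)) _
    have hlen : ∀ i : ℕ, s + i * d - (s + ((i - 1 : ℕ) : ℝ) * d) ≤ d := by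
      intro i
      have : (i:ℝ) ≤ ((i - 1 : ℕ) : ℝ) + 1 := by
        have : i ≤ (i - 1) + 1 := by omega
        exact_mod_cast this
      nlinarith
    have hcM : ∀ i ω, |c i ω| ≤ M := by
      intro i ω
      rw [hcdef]
      simp only
      rw [abs_mul, abs_of_pos (inv_pos.2 hd0)]
      have h1 := hv.bd_int (hii i) ω
      calc d⁻¹ * |∫ r in (s + ((i - 1 : ℕ) : ℝ) * d)..(s + i * d), v r.toNNReal ω| ≤
            d⁻¹ * (M * d) := by
            refine mul_le_mul_of_nonneg_left (h1.trans ?_) (inv_pos.2 hd0).le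
            exact mul_le_mul_of_nonneg_left (hlen i) hM0
        _ = M := by field_simp
    have hch := chain_le (P := P) hB hs hd0.le (n + 1) hX hc hcM hφ hx (n + 1) le_rfl
    -- sums
    have hsum : ∀ (k : ℕ) (ω : Ω), ∑ i ∈ Finset.range k, d * c i ω =
        ∫ r in s..(s + ((k - 1 : ℕ) : ℝ) * d), v r.toNNReal ω := by
      intro k ω
      induction k with
      | zero => simp
      | succ k ih =>
        rw [Finset.sum_range_succ, ih, hcdef]
        simp only
        rw [mul_inv_cancel_left₀ hd0.ne', Nat.add_sub_cancel]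
        exact intervalIntegral.integral_add_adjacent_intervals
          (hv.iv (hss _) ω) (hv.iv (hii k) ω)
    have hsum2 : ∀ (k : ℕ) (ω : Ω), ∑ i ∈ Finset.range k, d * c i ω ^ 2 ≤
        ∫ r in s..(s + ((k - 1 : ℕ) : ℝ) * d), v r.toNNReal ω ^ 2 := by
      intro k ω
      induction k with
      | zero => simp
      | succ k ih =>
        rw [Finset.sum_range_succ, Nat.add_sub_cancel,
          ← intervalIntegral.integral_add_adjacent_intervals
          (hv.iv2 (hss (k - 1)) ω) (hv.iv2 (hii k) ω)]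
        refine add_le_add ih ?_
        rcases Nat.eq_zero_or_pos k with h0 | hk
        · subst h0; simp [hcdef]
        · have e : s + k * d - (s + ((k - 1 : ℕ) : ℝ) * d) = d := by
            have : ((k - 1 : ℕ) : ℝ) = k - 1 := by
              rw [Nat.cast_sub hk]; simp
            rw [this]; ring
          have := jensen (s := s + ((k - 1 : ℕ) : ℝ) * d) (t := s + k * d) (by linarith)
            (hv.iv (hii k) ω) (hv.iv2 (hii k) ω)
          rw [e] at this
          exact this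
    have e1 : s + ((n + 1 : ℕ) : ℝ) * d = t := by rw [hnd]; ring
    have e2 : s + ((n + 1 - 1 : ℕ) : ℝ) * d = t - d := by
      rw [Nat.add_sub_cancel]
      have : (n:ℝ) * d = (t - s) - d := by rw [← hnd]; push_cast; ring
      rw [this]; ring
    rw [Nat.sub_self, Nat.cast_zero, zero_mul] at hch
    simp only [gaussOp_var0, hsum, e2, hnd, add_sub_cancel] at hch
    have e4 : ∫ ω, φ (X ω + (B t.toNNReal ω - B s.toNNReal ω) +
        x * ∫ r in s..(t - d), v r.toNNReal ω) ∂P = ∫ ω, φ (X ω +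
        (x * ∫ r in s..(t - d), v r.toNNReal ω) + (B t.toNNReal ω - B s.toNNReal ω)) ∂P := by
      congr 1; funext ω; congr 1; ring
    rw [e4]
    refine le_trans ?_ hch
    suffices hsuf : ∑ i ∈ Finset.range (n + 1), d * ∫ ω, c i ω ^ 2 ∂P ≤
        ∫ ω, (∫ r in s..t, v r.toNNReal ω ^ 2) ∂P by
      have := mul_le_mul_of_nonneg_left hsuf (by positivity : 0 ≤ x / 2)
      linarith
    have hci : ∀ i, Integrable (fun ω => d * c i ω ^ 2) P := by
      intro i
      refine Integrable.const_mul ?_ _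
      refine CtlC_130.bd_int (K := M ^ 2) (((hc i).mono (F_le hBm _) le_rfl).pow_const 2) fun ω => ?_
      rw [abs_pow]
      exact pow_le_pow_left₀ (abs_nonneg _) (hcM i ω) 2
    have e5 : ∑ i ∈ Finset.range (n + 1), d * ∫ ω, c i ω ^ 2 ∂P =
        ∫ ω, ∑ i ∈ Finset.range (n + 1), d * c i ω ^ 2 ∂P := by
      rw [integral_finsetSum _ fun i _ => hci i]
      simp only [integral_const_mul]
    rw [e5]
    refine integral_mono (integrable_finsetSum _ fun i _ => hci i) ?_ fun ω => ?_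
    · refine CtlC_130.bd_int (K := M ^ 2 * (t - s)) ((hv.meas_int2 hst).mono (F_le hBm _) le_rfl)
        fun ω => hv.bd_int2 hst ω
    · refine (hsum2 (n + 1) ω).trans ?_
      rw [e2]
      have htd : s ≤ t - d := by
        have h2 := hss n
        have h3 : s + (n:ℝ) * d = t - d := by rw [← e2, Nat.add_sub_cancel]
        linarith
      rw [← intervalIntegral.integral_add_adjacent_intervals
          (hv.iv2 htd ω) (hv.iv2 (by linarith : t - d ≤ t) ω)]
      have : 0 ≤ ∫ r in (t - d)..t, v r.toNNReal ω ^ 2 :=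
        intervalIntegral.integral_nonneg (by linarith) fun r _ => sq_nonneg _
      linarith
  -- the limit
  have hlim : Tendsto (fun n : ℕ => ∫ ω, φ (X ω + (B t.toNNReal ω - B s.toNNReal ω) +
      x * ∫ r in s..(t - (t - s) / (n + 1 : ℕ)), v r.toNNReal ω) ∂P) atTop
      (𝓝 (∫ ω, φ (X ω + (B t.toNNReal ω - B s.toNNReal ω) + x * ∫ r in s..t, v r.toNNReal ω) ∂P)) := by
    have hdn : ∀ n : ℕ, 0 ≤ (t - s) / (n + 1 : ℕ) := fun n => div_nonneg (by linarith) (by positivity)
    have hdn' : ∀ n : ℕ, (t - s) / (n + 1 : ℕ) ≤ t - s := fun n =>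
      div_le_self (by linarith) (by push_cast; linarith [(Nat.cast_nonneg n : (0:ℝ) ≤ n)])
    refine tendsto_integral_of_dominated_convergence (fun _ => K) (fun n => ?_)
      (integrable_const _) (fun n => ae_of_all _ fun ω => by
        simpa [Real.norm_eq_abs] using hφ.bd _) (ae_of_all _ fun ω => ?_)
    · refine (hφ.meas.comp ?_).aestronglyMeasurable
      refine (hXm.add ((hBm _).sub (hBm _))).add (Measurable.const_mul ?_ _)
      exact (hv.meas_int (by have := hdn' n; linarith)).mono (F_le hBm _) le_rfl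
    · refine (hφc.tendsto _).comp ?_
      refine Tendsto.const_add _ (Tendsto.const_mul _ ?_)
      have hz : Tendsto (fun n : ℕ => (t - s) / ((n + 1 : ℕ) : ℝ)) atTop (𝓝 0) := by
        have := tendsto_const_div_atTop_nhds_zero_nat (t - s)
        exact (tendsto_add_atTop_iff_nat 1).2 this
      rw [tendsto_iff_norm_sub_tendsto_zero]
      refine squeeze_zero (fun _ => norm_nonneg _) (fun n => ?_) (by simpa using hz.const_mul M)
      have hle : s ≤ t - (t - s) / (n + 1 : ℕ) := by have := hdn' n; linarith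
      have e := intervalIntegral.integral_add_adjacent_intervals
          (hv.iv hle ω) (hv.iv (by have := hdn n; linarith : t - (t - s) / (n + 1 : ℕ) ≤ t) ω)
      rw [← e]
      have h5 := hv.bd_int (by have := hdn n; linarith : t - (t - s) / (n + 1 : ℕ) ≤ t) ω
      rw [Real.norm_eq_abs, sub_add_cancel_left, abs_neg]
      calc _ ≤ _ := h5
        _ = _ := by push_cast; ring
  exact le_of_tendsto' (hlim.sub_const _) key

end

end Crest.Agent.R146.CtlD_130
end

-- ▼ part R146/CtlE_130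

/-!
Row 146, S0206 node (V), part E (helper130): the value of a step profile over bounded progressive
controls is the nested Gaussian recursion.
-/

set_option autoImplicit false

namespace Crest.Agent.R146.CtlE_130

open MeasureTheory ProbabilityTheory Filter Topology Set
open Crest.ProbabilityR.InvariantGlass
open Crest.ProbabilityR.Perceptron
open Crest.Agent.R164.GC (H)
open Crest.Agent.R146.CtlA_130 Crest.Agent.R146.CtlB_130 Crest.Agent.R146.CtlC_130
open Crest.Agent.R146.S6Def_988 (recV)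
open scoped NNReal

noncomputable section

variable {Ω : Type*} [mΩ : MeasurableSpace Ω]
variable {B : ℝ≥0 → Ω → ℝ} {hBm : ∀ t, Measurable (B t)}

/-- bounded profile functions -/
structure Prof (m : ℝ → ℝ) : Prop where
  meas : Measurable m
  bd : ∀ r ∈ Icc (0:ℝ) 1, 0 ≤ m r ∧ m r ≤ 1

theorem Prof.abs {m : ℝ → ℝ} (h : Prof m) {s t : ℝ} (hs : 0 ≤ s) (ht : t ≤ 1) :
    ∀ r ∈ Ioc s t, |m r| ≤ 1 := by
  intro r hr
  have := h.bd r ⟨hs.trans hr.1.le, hr.2.trans ht⟩
  rw [abs_of_nonneg this.1]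
  exact this.2

/-- value of a control from time `s` on -/
def val (P : Measure Ω) (B : ℝ≥0 → Ω → ℝ) (m : ℝ → ℝ) (f : ℝ → ℝ) (s : ℝ) (X : Ω → ℝ)
    (v : ℝ≥0 → Ω → ℝ) : ℝ :=
  ∫ ω, f (X ω + (B (1:ℝ).toNNReal ω - B s.toNNReal ω) + ∫ r in s..1, m r * v r.toNNReal ω) ∂P -
    1 / 2 * ∫ ω, (∫ r in s..1, m r * v r.toNNReal ω ^ 2) ∂P

theorem meas_mv {M : ℝ} {v : ℝ≥0 → Ω → ℝ} (hv : Ctl hBm M v) {m : ℝ → ℝ} (hm : Prof m)
    {s t : ℝ} (hst : s ≤ t) :
    Measurable[F hBm t] (fun ω => ∫ r in s..t, m r * v r.toNNReal ω) :=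
  CtlC_130.meas_int hv.prog hst (g := fun r y => m r * y)
    ((hm.meas.comp measurable_fst).mul measurable_snd)

theorem meas_mv2 {M : ℝ} {v : ℝ≥0 → Ω → ℝ} (hv : Ctl hBm M v) {m : ℝ → ℝ} (hm : Prof m)
    {s t : ℝ} (hst : s ≤ t) :
    Measurable[F hBm t] (fun ω => ∫ r in s..t, m r * v r.toNNReal ω ^ 2) :=
  CtlC_130.meas_int hv.prog hst (g := fun r y => m r * y ^ 2)
    ((hm.meas.comp measurable_fst).mul (measurable_snd.pow_const 2))

theorem bd_mv2 {M : ℝ} {v : ℝ≥0 → Ω → ℝ} (hv : Ctl hBm M v) {m : ℝ → ℝ} (hm : Prof m)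
    {s t : ℝ} (hs : 0 ≤ s) (hst : s ≤ t) (ht : t ≤ 1) (ω : Ω) :
    |∫ r in s..t, m r * v r.toNNReal ω ^ 2| ≤ M ^ 2 := by
  have := intervalIntegral.norm_integral_le_of_norm_le_const (a := s) (b := t)
    (f := fun r => m r * v r.toNNReal ω ^ 2) (C := M ^ 2) (fun r hr => by
      rw [uIoc_of_le hst] at hr
      rw [Real.norm_eq_abs, abs_mul, abs_pow]
      calc |m r| * |v r.toNNReal ω| ^ 2 ≤ 1 * M ^ 2 :=
            mul_le_mul (hm.abs hs ht r hr) (pow_le_pow_left₀ (abs_nonneg _) (hv.bd _ _) 2)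
              (by positivity) zero_le_one
        _ = M ^ 2 := one_mul _)
  rw [abs_of_nonneg (by linarith : 0 ≤ t - s), Real.norm_eq_abs] at this
  refine this.trans ?_
  have h2 : 0 ≤ M ^ 2 := sq_nonneg M
  nlinarith

variable {P : Measure Ω} [IsProbabilityMeasure P]

theorem int_mv2 {M : ℝ} {v : ℝ≥0 → Ω → ℝ} (hv : Ctl hBm M v) {m : ℝ → ℝ} (hm : Prof m)
    {s t : ℝ} (hs : 0 ≤ s) (hst : s ≤ t) (ht : t ≤ 1) :
    Integrable (fun ω => ∫ r in s..t, m r * v r.toNNReal ω ^ 2) P :=
  CtlC_130.bd_int ((meas_mv2 hv hm hst).mono (F_le hBm _) le_rfl) fun ω => bd_mv2 hv hm hs hst ht ω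

/-- splitting the value at an intermediate time -/
theorem val_split {M : ℝ} {v : ℝ≥0 → Ω → ℝ} (hv : Ctl hBm M v) {m : ℝ → ℝ} (hm : Prof m)
    (f : ℝ → ℝ) {s t : ℝ} (hs : 0 ≤ s) (hst : s ≤ t) (ht : t ≤ 1) (X : Ω → ℝ) :
    val P B m f s X v = val P B m f t (fun ω => X ω + (B t.toNNReal ω - B s.toNNReal ω) +
      ∫ r in s..t, m r * v r.toNNReal ω) v -
      1 / 2 * ∫ ω, (∫ r in s..t, m r * v r.toNNReal ω ^ 2) ∂P := by
  unfold val
  have e1 : ∀ ω, ∫ r in s..1, m r * v r.toNNReal ω =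
      (∫ r in s..t, m r * v r.toNNReal ω) + ∫ r in t..1, m r * v r.toNNReal ω := fun ω =>
    (intervalIntegral.integral_add_adjacent_intervals
      (hv.intv hm.meas (hm.abs hs ht) hst ω)
      (hv.intv hm.meas (hm.abs (hs.trans hst) le_rfl) ht ω)).symm
  have e2 : ∀ ω, ∫ r in s..1, m r * v r.toNNReal ω ^ 2 =
      (∫ r in s..t, m r * v r.toNNReal ω ^ 2) + ∫ r in t..1, m r * v r.toNNReal ω ^ 2 := fun ω =>
    (intervalIntegral.integral_add_adjacent_intervals
      (hv.intv2 hm.meas (hm.abs hs ht) hst ω)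
      (hv.intv2 hm.meas (hm.abs (hs.trans hst) le_rfl) ht ω)).symm
  simp only [e1, e2]
  rw [integral_add (int_mv2 hv hm hs hst ht) (int_mv2 hv hm (hs.trans hst) ht le_rfl)]
  have e3 : ∀ ω, X ω + (B (1:ℝ).toNNReal ω - B s.toNNReal ω) +
      ((∫ r in s..t, m r * v r.toNNReal ω) + ∫ r in t..1, m r * v r.toNNReal ω) =
      X ω + (B t.toNNReal ω - B s.toNNReal ω) + (∫ r in s..t, m r * v r.toNNReal ω) +
      (B (1:ℝ).toNNReal ω - B t.toNNReal ω) + ∫ r in t..1, m r * v r.toNNReal ω := fun ω => by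
    ring
  simp only [e3]
  ring

omit mΩ [IsProbabilityMeasure P] in
/-- a constant exponent comes out of the integral -/
theorem cell_const {m : ℝ → ℝ} {s t x : ℝ} (hst : s ≤ t) (hx : ∀ r ∈ Ioo s t, m r = x)
    (g : ℝ → ℝ) : ∫ r in s..t, m r * g r = x * ∫ r in s..t, g r := by
  rw [← intervalIntegral.integral_const_mul]
  rw [intervalIntegral.integral_of_le hst, intervalIntegral.integral_of_le hst,
    integral_Ioc_eq_integral_Ioo, integral_Ioc_eq_integral_Ioo]
  exact setIntegral_congr_fun measurableSet_Ioo fun r hr => by simp only [hx r hr]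

/-- the data of a step profile -/
structure Cells (m : ℝ → ℝ) (t a : ℕ → ℝ) (n : ℕ) : Prop where
  prof : Prof m
  t0 : 0 ≤ t 0
  tn : t n = 1
  mono : ∀ i < n, t i ≤ t (i + 1)
  a0 : ∀ i < n, 0 ≤ a i
  a1 : ∀ i < n, a i ≤ 1
  eq : ∀ i < n, ∀ r ∈ Ioo (t i) (t (i + 1)), m r = a i

theorem Cells.nonneg {m : ℝ → ℝ} {t a : ℕ → ℝ} {n : ℕ} (h : Cells m t a n) (i : ℕ) (hi : i ≤ n) :
    0 ≤ t i := by
  induction i with
  | zero => exact h.t0
  | succ i ih => exact (ih (by omega)).trans (h.mono i (by omega))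

theorem Cells.le_one {m : ℝ → ℝ} {t a : ℕ → ℝ} {n : ℕ} (h : Cells m t a n) (j : ℕ) (hj : j ≤ n) :
    t (n - j) ≤ 1 := by
  induction j with
  | zero => simp [h.tn]
  | succ j ih =>
    have h1 := h.mono (n - (j + 1)) (by omega)
    have h2 : n - (j + 1) + 1 = n - j := by omega
    rw [h2] at h1
    exact h1.trans (ih (by omega))

/-- regularity of the recursion -/
theorem recV_reg {m : ℝ → ℝ} {t a : ℕ → ℝ} {n : ℕ} (h : Cells m t a n) {f f1 f2 : ℝ → ℝ}
    {K L C : ℝ} (hf : Reg f f1 f2 K L C) (hL : 0 < L) (j : ℕ) (hj : j ≤ n) :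
    ∃ w1 w2 C', Reg (recV f t a n j) w1 w2 K L C' := by
  induction j with
  | zero => exact ⟨f1, f2, C, hf⟩
  | succ j ih =>
    obtain ⟨w1, w2, C', hw⟩ := ih (by omega)
    obtain ⟨w1', w2', hw'⟩ := gaussOp_reg hw hL (h.a0 (n - 1 - j) (by omega))
      (h.a1 (n - 1 - j) (by omega)) (t (n - j) - t (n - 1 - j))
    exact ⟨w1', w2', _, hw'⟩

/-- upper bound over all cells -/
theorem val_le (hB : IsBrownianReal B P) {m : ℝ → ℝ} {t a : ℕ → ℝ} {n : ℕ} (h : Cells m t a n)
    {f f1 f2 : ℝ → ℝ} {K L C : ℝ} (hf : Reg f f1 f2 K L C) (hL : 0 < L) {M : ℝ}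
    {v : ℝ≥0 → Ω → ℝ} (hv : Ctl hBm M v) (j : ℕ) (hj : j ≤ n) (X : Ω → ℝ)
    (hX : Measurable[F hBm (t (n - j))] X) :
    val P B m f (t (n - j)) X v ≤ ∫ ω, recV f t a n j (X ω) ∂P := by
  induction j generalizing X with
  | zero =>
    rw [Nat.sub_zero, h.tn]
    unfold val recV
    simp
  | succ j ih =>
    have hi : n - (j + 1) = n - 1 - j := by omega
    have hi1 : n - 1 - j + 1 = n - j := by omega
    rw [hi] at hX ⊢
    set s := t (n - 1 - j) with hs
    set t' := t (n - j) with ht'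
    have hs0 : 0 ≤ s := h.nonneg _ (by omega)
    have hst : s ≤ t' := by
      have := h.mono (n - 1 - j) (by omega)
      rwa [hi1] at this
    have ht1 : t' ≤ 1 := h.le_one j (by omega)
    have hx : ∀ r ∈ Ioo s t', m r = a (n - 1 - j) := by
      have := h.eq (n - 1 - j) (by omega)
      rwa [hi1] at this
    set x := a (n - 1 - j) with hxdef
    have hx0 : 0 ≤ x := h.a0 _ (by omega)
    rw [val_split hv h.prof f hs0 hst ht1]
    have e1 : ∀ ω, ∫ r in s..t', m r * v r.toNNReal ω = x * ∫ r in s..t', v r.toNNReal ω :=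
      fun ω => cell_const hst hx _
    have e2 : ∀ ω, ∫ r in s..t', m r * v r.toNNReal ω ^ 2 =
      x * ∫ r in s..t', v r.toNNReal ω ^ 2 := fun ω => cell_const hst hx _
    simp only [e1, e2]
    have hX' : Measurable[F hBm t'] (fun ω => X ω + (B t'.toNNReal ω - B s.toNNReal ω) +
        x * ∫ r in s..t', v r.toNNReal ω) := by
      refine Measurable.add (Measurable.add (hX.mono (F_mono hBm hst) le_rfl) ?_) ?_
      · exact Measurable.sub (F_adapted hBm _ _ le_rfl) (F_adapted hBm _ _ hst)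
      · exact Measurable.const_mul (hv.meas_int hst) _
    have h1 := ih (by omega) _ hX'
    obtain ⟨w1, w2, C', hw⟩ := recV_reg h hf hL j (by omega)
    have h2 := CtlD_130.cell_le hB hs0 hst hX hv hw.BM
      (continuous_iff_continuousAt.2 fun y => (hw.d1 y).continuousAt) hx0
    rw [integral_const_mul]
    change _ ≤ ∫ ω, gaussOp x (t' - s) (recV f t a n j) (X ω) ∂P
    have e3 : x / 2 * ∫ ω, (∫ r in s..t', v r.toNNReal ω ^ 2) ∂P =
      1 / 2 * (x * ∫ ω, (∫ r in s..t', v r.toNNReal ω ^ 2) ∂P) := by ring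
    rw [e3] at h2
    linarith

/-- glue a constant control before a control -/
def glue (s t : ℝ) (c : Ω → ℝ) (v : ℝ≥0 → Ω → ℝ) : ℝ≥0 → Ω → ℝ := fun r ω =>
  if s ≤ (r:ℝ) ∧ (r:ℝ) < t then c ω else v r ω

theorem glue_ctl {s t : ℝ} {c : Ω → ℝ} (hc : Measurable[F hBm s] c) {L : ℝ}
    (hcL : ∀ ω, |c ω| ≤ L) {v : ℝ≥0 → Ω → ℝ} (hv : Ctl hBm L v) : Ctl hBm L (glue s t c v) := by
  constructor
  · intro i
    have hvi := hv.prog i
    by_cases his : s ≤ (i:ℝ)
    · have hsi : F hBm s ≤ brownianFiltration B hBm i := by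
        refine (brownianFiltration B hBm).mono ?_
        rw [Real.toNNReal_le_iff_le_coe]
        exact his
      unfold glue
      refine Measurable.ite ?_ ?_ hvi
      · have h1 : MeasurableSet {q : Set.Iic i | s ≤ ((q : ℝ≥0) : ℝ) ∧ ((q : ℝ≥0) : ℝ) < t} := by
          have h2 : Measurable (fun q : Set.Iic i => ((q : ℝ≥0) : ℝ)) :=
            measurable_coe_nnreal_real.comp measurable_subtype_coe
          exact (measurableSet_le measurable_const h2).inter (measurableSet_lt h2 measurable_const)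
        exact (@measurable_fst _ _ _ (brownianFiltration B hBm i)) h1
      · exact (hc.mono hsi le_rfl).comp (@measurable_snd _ _ _ (brownianFiltration B hBm i))
    · have e : (fun p : Set.Iic i × Ω => glue s t c v p.1 p.2) =
          fun p : Set.Iic i × Ω => v p.1 p.2 := by
        funext p
        unfold glue
        rw [if_neg]
        rintro ⟨h1, _⟩
        have : ((p.1 : ℝ≥0) : ℝ) ≤ i := by exact_mod_cast p.1.2
        exact his (h1.trans this)
      rw [e]
      exact hvi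
  · intro r ω
    unfold glue
    split_ifs
    · exact hcL ω
    · exact hv.bd r ω

/-- value of a glued control -/
theorem val_glue {s t : ℝ} (hs : 0 ≤ s) (hst : s ≤ t) (ht : t ≤ 1) {c : Ω → ℝ}
    (hc : Measurable[F hBm s] c) {L : ℝ} (hcL : ∀ ω, |c ω| ≤ L) {v : ℝ≥0 → Ω → ℝ}
    (hv : Ctl hBm L v) {m : ℝ → ℝ} (hm : Prof m) {x : ℝ} (hx : ∀ r ∈ Ioo s t, m r = x)
    (f : ℝ → ℝ) (X : Ω → ℝ) :
    val P B m f s X (glue s t c v) = val P B m f t (fun ω => X ω + x * (t - s) * c ω +
      (B t.toNNReal ω - B s.toNNReal ω)) v - x / 2 * ((t - s) * ∫ ω, c ω ^ 2 ∂P) := by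
  have hg := glue_ctl (t := t) hc hcL hv
  rw [val_split hg hm f hs hst ht]
  have hin : ∀ r ∈ Ioo s t, ∀ ω, glue s t c v r.toNNReal ω = c ω := by
    intro r hr ω
    unfold glue
    rw [Real.coe_toNNReal r (hs.trans hr.1.le), if_pos ⟨hr.1.le, hr.2⟩]
  have e1 : ∀ ω, ∫ r in s..t, m r * glue s t c v r.toNNReal ω = x * (t - s) * c ω := by
    intro ω
    rw [cell_const hst hx, intervalIntegral.integral_of_le hst, integral_Ioc_eq_integral_Ioo,
      setIntegral_congr_fun measurableSet_Ioo (fun r hr => hin r hr ω),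
      ← integral_Ioc_eq_integral_Ioo, ← intervalIntegral.integral_of_le hst,
      intervalIntegral.integral_const, smul_eq_mul, mul_assoc]
  have e2 : ∀ ω, ∫ r in s..t, m r * glue s t c v r.toNNReal ω ^ 2 =
      x * ((t - s) * c ω ^ 2) := by
    intro ω
    rw [cell_const hst hx, intervalIntegral.integral_of_le hst, integral_Ioc_eq_integral_Ioo,
      setIntegral_congr_fun measurableSet_Ioo (fun r hr => by
        rw [hin r hr ω]),
      ← integral_Ioc_eq_integral_Ioo, ← intervalIntegral.integral_of_le hst,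
      intervalIntegral.integral_const, smul_eq_mul]
  have e3 : ∀ ω, ∫ r in t..1, m r * glue s t c v r.toNNReal ω =
      ∫ r in t..1, m r * v r.toNNReal ω := by
    intro ω
    refine intervalIntegral.integral_congr_ae (ae_of_all _ fun r hr => ?_)
    rw [uIoc_of_le ht] at hr
    unfold glue
    rw [Real.coe_toNNReal r ((hs.trans hst).trans hr.1.le), if_neg]
    rintro ⟨_, h2⟩
    exact absurd h2 (not_lt.2 hr.1.le)
  have e4 : ∀ ω, ∫ r in t..1, m r * glue s t c v r.toNNReal ω ^ 2 =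
      ∫ r in t..1, m r * v r.toNNReal ω ^ 2 := by
    intro ω
    refine intervalIntegral.integral_congr_ae (ae_of_all _ fun r hr => ?_)
    rw [uIoc_of_le ht] at hr
    unfold glue
    rw [Real.coe_toNNReal r ((hs.trans hst).trans hr.1.le), if_neg]
    rintro ⟨_, h2⟩
    exact absurd h2 (not_lt.2 hr.1.le)
  have e5 : 1 / 2 * ∫ ω, (∫ r in s..t, m r * glue s t c v r.toNNReal ω ^ 2) ∂P =
      x / 2 * ((t - s) * ∫ ω, c ω ^ 2 ∂P) := by
    simp only [e2]
    rw [integral_const_mul, integral_const_mul]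
    ring
  rw [e5]
  unfold val
  simp only [e1, e3, e4]
  have e6 : ∀ ω, X ω + (B t.toNNReal ω - B s.toNNReal ω) + x * (t - s) * c ω =
      X ω + x * (t - s) * c ω + (B t.toNNReal ω - B s.toNNReal ω) := fun ω => by ring
  simp only [e6]

theorem ctl_zero {L : ℝ} (hL : 0 ≤ L) : Ctl hBm L (fun _ _ => (0:ℝ)) :=
  ⟨isProgressive_const _ 0, fun _ _ => by simpa using hL⟩

/-- lower bound over all cells -/
theorem val_ge (hB : IsBrownianReal B P) {m : ℝ → ℝ} {t a : ℕ → ℝ} {n : ℕ} (h : Cells m t a n)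
    {f f1 f2 : ℝ → ℝ} {K L C : ℝ} (hf : Reg f f1 f2 K L C) (hL : 0 < L) (j : ℕ) (hj : j ≤ n) :
    ∀ ε : ℝ, 0 < ε → ∀ X : Ω → ℝ, Measurable[F hBm (t (n - j))] X →
      ∃ v : ℝ≥0 → Ω → ℝ, Ctl hBm L v ∧
        ∫ ω, recV f t a n j (X ω) ∂P - ε ≤ val P B m f (t (n - j)) X v := by
  induction j with
  | zero =>
    intro ε hε X hX
    refine ⟨fun _ _ => 0, ctl_zero hL.le, ?_⟩
    rw [Nat.sub_zero, h.tn]
    unfold val recV
    simp
    exact hε.le
  | succ j ih =>
    intro ε hε X hX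
    have hi : n - (j + 1) = n - 1 - j := by omega
    have hi1 : n - 1 - j + 1 = n - j := by omega
    rw [hi] at hX ⊢
    set s := t (n - 1 - j) with hs
    set t' := t (n - j) with ht'
    have hs0 : 0 ≤ s := h.nonneg _ (by omega)
    have hst : s ≤ t' := by
      have := h.mono (n - 1 - j) (by omega)
      rwa [hi1] at this
    have ht1 : t' ≤ 1 := h.le_one j (by omega)
    have hx : ∀ r ∈ Ioo s t', m r = a (n - 1 - j) := by
      have := h.eq (n - 1 - j) (by omega)
      rwa [hi1] at this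
    set x := a (n - 1 - j) with hxdef
    have hx0 : 0 ≤ x := h.a0 _ (by omega)
    have hx1 : x ≤ 1 := h.a1 _ (by omega)
    obtain ⟨w1, w2, C', hw⟩ := recV_reg h hf hL j (by omega)
    set Φ := recV f t a n j with hΦ
    have hgoal : recV f t a n (j + 1) = gaussOp x (t' - s) Φ := rfl
    rw [hgoal]
    set D := MC L (C' + L ^ 2) with hD
    have hD0 : 0 ≤ D := MC_nonneg _ _
    -- number of pieces
    obtain ⟨N, hN⟩ := exists_nat_gt (2 * D / ε)
    have hN1 : (0:ℝ) < N + 1 := by positivity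
    set d := (t' - s) / (N + 1 : ℕ) with hd
    have hd0 : 0 ≤ d := div_nonneg (by linarith) (by positivity)
    have hnd : ((N + 1 : ℕ) : ℝ) * d = t' - s := by rw [hd]; field_simp
    have hd1 : d ≤ 1 / (N + 1) := by
      rw [hd]; push_cast
      exact div_le_div_of_nonneg_right (by linarith) hN1.le
    have hd1' : d ≤ 1 := by
      refine hd1.trans ?_
      rw [div_le_one hN1]
      have : (0:ℝ) ≤ N := Nat.cast_nonneg N
      linarith
    have inner : ∀ k : ℕ, k ≤ N + 1 → ∀ X : Ω → ℝ, Measurable[F hBm (t' - k * d)] X →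
        ∃ v : ℝ≥0 → Ω → ℝ, Ctl hBm L v ∧
          ∫ ω, gaussOp x (k * d) Φ (X ω) ∂P - ε / 2 - k * (D * d ^ 2) ≤
            val P B m f (t' - k * d) X v := by
      intro k
      induction k with
      | zero =>
        intro _ X hX
        have e0 : t' - ((0 : ℕ) : ℝ) * d = t' := by simp
        rw [e0] at hX ⊢
        obtain ⟨v, hv, h1⟩ := ih (by omega) (ε / 2) (by linarith) X hX
        refine ⟨v, hv, ?_⟩
        simpa [gaussOp_var0] using h1
      | succ k ihk =>
        intro hk X hX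
        set s1 := t' - ((k + 1 : ℕ) : ℝ) * d with hs1
        have hs2 : t' - k * d = s1 + d := by rw [hs1]; push_cast; ring
        have hs1s : s ≤ s1 := by
          rw [hs1]
          have : ((k + 1 : ℕ) : ℝ) ≤ ((N + 1 : ℕ) : ℝ) := by exact_mod_cast hk
          nlinarith
        have hs2t : s1 + d ≤ t' := by
          rw [← hs2]
          have : 0 ≤ (k:ℝ) * d := by positivity
          linarith
        obtain ⟨u1, u2, hu⟩ := gaussOp_reg hw hL hx0 hx1 (k * d)
        set ψ := gaussOp x (k * d) Φ with hψ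
        have hu1m : Measurable u1 :=
          (continuous_iff_continuousAt.2 fun y => (hu.d2 y).continuousAt).measurable
        have hc : Measurable[F hBm s1] (fun ω => u1 (X ω)) := hu1m.comp hX
        have hcL : ∀ ω, |u1 (X ω)| ≤ L := fun ω => hu.bL _
        have hX' : Measurable[F hBm (t' - k * d)] (fun ω => X ω + x * (s1 + d - s1) * u1 (X ω) +
            (B (s1 + d).toNNReal ω - B s1.toNNReal ω)) := by
          rw [hs2]
          have h12 : F hBm s1 ≤ F hBm (s1 + d) := F_mono hBm (by linarith)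
          refine Measurable.add (Measurable.add (hX.mono h12 le_rfl)
            (Measurable.const_mul (hc.mono h12 le_rfl) _)) ?_
          exact Measurable.sub (F_adapted hBm _ _ le_rfl) (F_adapted hBm _ _ (by linarith))
        obtain ⟨v, hv, h1⟩ := ihk (by omega) _ hX'
        refine ⟨glue s1 (s1 + d) (fun ω => u1 (X ω)) v, glue_ctl hc hcL hv, ?_⟩
        rw [val_glue (by linarith) (by linarith) (by linarith) hc hcL hv h.prof
          (fun r hr => hx r ⟨lt_of_le_of_lt hs1s hr.1, lt_of_lt_of_le hr.2 hs2t⟩)]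
        rw [hs2] at h1
        have h2 := cstep_ge hBm hB (s := s1) (t := s1 + d) (by linarith) (by linarith)
          (by linarith) hX hu hx0 hx1
        have e1 : s1 + d - s1 = d := by ring
        rw [e1] at h2 h1 ⊢
        have e2 : ∀ y, gaussOp x d ψ y = gaussOp x (((k + 1 : ℕ) : ℝ) * d) Φ y := by
          intro y
          rw [hψ, gaussOp_semi hw.BM hx0 hd0 (by positivity)]
          congr 1
          push_cast; ring
        simp only [e2] at h2
        push_cast at h2 ⊢
        linarith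
    have e5 : t' - (t' - s) = s := by ring
    have h3 := inner (N + 1) le_rfl X (by rw [hnd, e5]; exact hX)
    rw [hnd, e5] at h3
    obtain ⟨v, hv, h4⟩ := h3
    refine ⟨v, hv, ?_⟩
    refine le_trans ?_ h4
    have h5 : ((N + 1 : ℕ) : ℝ) * (D * d ^ 2) ≤ ε / 2 := by
      have h6 : ((N + 1 : ℕ) : ℝ) * (D * d ^ 2) = D * (t' - s) * d := by
        rw [← hnd]; ring
      rw [h6]
      have h7 : D * (t' - s) * d ≤ D * 1 * (1 / (N + 1)) := by
        refine mul_le_mul (mul_le_mul_of_nonneg_left (by linarith) hD0) hd1 hd0 (by linarith)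
      have h8 : 2 * D ≤ N * ε := by
        rw [div_lt_iff₀ hε] at hN
        exact hN.le
      have h9 : D * 1 * (1 / ((N:ℝ) + 1)) ≤ ε / 2 := by
        rw [mul_one, mul_one_div, div_le_iff₀ hN1]
        nlinarith
      linarith
    linarith

end

end Crest.Agent.R146.CtlE_130
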