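import Mathlib
import Crest.Prelude.Def_SphericalPressure

-- ▼ part R146/DualQ_256
section

/-!
# Row 146, package DUAL (helper256), file 1: quadratic programmes for a family of projections

`H` a real Hilbert space with an increasing family of orthogonal projections `Pi t` (`t : ℝ`).
For a weight `m : ℝ → ℝ` (nonnegative, integrable on `[0,1]`)

* `F.bil m x y = ∫_0^1 m t * ⟪Pi t x, y⟫ dt`, `F.op m` the operator with `⟪F.op m x, y⟫ = F.bil m x y`;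
* `F.Q c m g x = ⟪g, x⟫ + c/2 * ‖x‖² + 1/2 * F.bil m x x`;
* for a nonempty closed convex cone `K` and `c > 0`: unique minimiser, KKT conditions, growth.
-/

set_option autoImplicit false

noncomputable section

open MeasureTheory Set Filter Topology
open scoped InnerProductSpace RealInnerProductSpace

namespace Crest.Agent.R146.DualQ_256

variable {H : Type*} [NormedAddCommGroup H] [InnerProductSpace ℝ H]

/-- increasing family of orthogonal projections -/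
structure PF (H : Type*) [NormedAddCommGroup H] [InnerProductSpace ℝ H] where
  /-- the projection at time `t` -/
  Pi : ℝ → H →L[ℝ] H
  sa : ∀ t x y, ⟪Pi t x, y⟫_ℝ = ⟪x, Pi t y⟫_ℝ
  comp : ∀ s t, s ≤ t → ∀ x, Pi s (Pi t x) = Pi s x

namespace PF

variable (F : PF H)

theorem idem (t : ℝ) (x : H) : F.Pi t (F.Pi t x) = F.Pi t x := F.comp t t le_rfl x

theorem comp' {s t : ℝ} (h : s ≤ t) (x : H) : F.Pi t (F.Pi s x) = F.Pi s x := by
  refine ext_inner_right ℝ fun y => ?_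
  rw [F.sa, F.sa, F.comp s t h, ← F.sa]

/-- the increasing function `q_x(t) = ‖Pi t x‖²` -/
def q (x : H) (t : ℝ) : ℝ := ⟪F.Pi t x, x⟫_ℝ

theorem q_eq (x : H) (t : ℝ) : F.q x t = ‖F.Pi t x‖ ^ 2 := by
  rw [q, ← real_inner_self_eq_norm_sq]
  conv_lhs => rw [← F.idem t x]
  rw [F.sa]

theorem q_nonneg (x : H) (t : ℝ) : 0 ≤ F.q x t := by rw [q_eq]; positivity

theorem norm_Pi_le (t : ℝ) (x : H) : ‖F.Pi t x‖ ≤ ‖x‖ := by
  by_cases h : ‖F.Pi t x‖ = 0
  · rw [h]; exact norm_nonneg _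
  · have h0 : 0 < ‖F.Pi t x‖ := lt_of_le_of_ne (norm_nonneg _) (Ne.symm h)
    have h1 : ‖F.Pi t x‖ ^ 2 ≤ ‖F.Pi t x‖ * ‖x‖ := by
      rw [← F.q_eq, q]; exact real_inner_le_norm _ _
    rw [pow_two] at h1
    exact le_of_mul_le_mul_left h1 h0

theorem q_le (x : H) (t : ℝ) : F.q x t ≤ ‖x‖ ^ 2 := by
  rw [q_eq]; exact pow_le_pow_left₀ (norm_nonneg _) (F.norm_Pi_le t x) 2

theorem q_mono (x : H) : Monotone (F.q x) := by
  intro s t h
  rw [q_eq, q_eq]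
  have : F.Pi s x = F.Pi s (F.Pi t x) := (F.comp s t h x).symm
  rw [this]
  exact pow_le_pow_left₀ (norm_nonneg _) (F.norm_Pi_le s _) 2

theorem inner_symm (t : ℝ) (x y : H) : ⟪F.Pi t x, y⟫_ℝ = ⟪F.Pi t y, x⟫_ℝ := by
  rw [F.sa, real_inner_comm]

theorem inner_eq_q (t : ℝ) (x y : H) :
    ⟪F.Pi t x, y⟫_ℝ = (F.q (x + y) t - F.q (x - y) t) / 4 := by
  have h := F.inner_symm t x y
  simp only [q, map_add, map_sub, inner_add_left, inner_add_right, inner_sub_left,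
    inner_sub_right]
  rw [← h]; ring

theorem norm_sub_sq {s t : ℝ} (h : s ≤ t) (x : H) :
    ‖F.Pi t x - F.Pi s x‖ ^ 2 = F.q x t - F.q x s := by
  have e1 : ⟪F.Pi t x, F.Pi s x⟫_ℝ = F.q x s := by
    rw [F.sa, F.comp' h, q, real_inner_comm]
  rw [← real_inner_self_eq_norm_sq]
  simp only [inner_sub_left, inner_sub_right]
  rw [real_inner_comm (F.Pi t x) (F.Pi s x)] 
  rw [e1, real_inner_self_eq_norm_sq, real_inner_self_eq_norm_sq, ← F.q_eq, ← F.q_eq]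
  ring

theorem abs_inner_le (t : ℝ) (x y : H) : |⟪F.Pi t x, y⟫_ℝ| ≤ ‖x‖ * ‖y‖ :=
  (abs_real_inner_le_norm _ _).trans
    (mul_le_mul_of_nonneg_right (F.norm_Pi_le t x) (norm_nonneg _))

theorem measurable_q (x : H) : Measurable (F.q x) := (F.q_mono x).measurable

theorem measurable_inner (x y : H) : Measurable fun t => ⟪F.Pi t x, y⟫_ℝ := by
  have : (fun t => ⟪F.Pi t x, y⟫_ℝ) = fun t => (F.q (x + y) t - F.q (x - y) t) / 4 := by
    funext t; exact F.inner_eq_q t x y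
  rw [this]
  exact ((F.measurable_q _).sub (F.measurable_q _)).div_const 4

/-- a weight: integrable on `[0,1]`, nonnegative there -/
structure IsWeight (m : ℝ → ℝ) : Prop where
  int : IntegrableOn m (Icc 0 1)
  nonneg : ∀ t ∈ Icc (0 : ℝ) 1, 0 ≤ m t

/-- the bilinear form -/
def bil (m : ℝ → ℝ) (x y : H) : ℝ := ∫ t in Icc (0 : ℝ) 1, m t * ⟪F.Pi t x, y⟫_ℝ

theorem integrable_bil {m : ℝ → ℝ} (hm : IntegrableOn m (Icc 0 1)) (x y : H) :
    IntegrableOn (fun t => m t * ⟪F.Pi t x, y⟫_ℝ) (Icc 0 1) :=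
  Integrable.mul_bdd hm (F.measurable_inner x y).aestronglyMeasurable
    (Eventually.of_forall fun t => by rw [Real.norm_eq_abs]; exact F.abs_inner_le t x y)

theorem bil_symm (m : ℝ → ℝ) (x y : H) : F.bil m x y = F.bil m y x := by
  unfold bil; congr 1; funext t; rw [F.inner_symm]

theorem bil_add_left {m : ℝ → ℝ} (hm : IntegrableOn m (Icc 0 1)) (x x' y : H) :
    F.bil m (x + x') y = F.bil m x y + F.bil m x' y := by
  unfold bil
  rw [← integral_add (F.integrable_bil hm x y) (F.integrable_bil hm x' y)]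
  congr 1; funext t; rw [map_add, inner_add_left]; ring

theorem bil_smul_left (m : ℝ → ℝ) (c : ℝ) (x y : H) :
    F.bil m (c • x) y = c * F.bil m x y := by
  unfold bil
  rw [← integral_const_mul]
  congr 1; funext t; rw [map_smul, real_inner_smul_left]; ring

theorem bil_add_right {m : ℝ → ℝ} (hm : IntegrableOn m (Icc 0 1)) (x y y' : H) :
    F.bil m x (y + y') = F.bil m x y + F.bil m x y' := by
  rw [F.bil_symm m x, F.bil_add_left hm, F.bil_symm m y, F.bil_symm m y']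

theorem bil_smul_right (m : ℝ → ℝ) (c : ℝ) (x y : H) :
    F.bil m x (c • y) = c * F.bil m x y := by
  rw [F.bil_symm, bil_smul_left, F.bil_symm m y]

theorem bil_sub_left {m : ℝ → ℝ} (hm : IntegrableOn m (Icc 0 1)) (x x' y : H) :
    F.bil m (x - x') y = F.bil m x y - F.bil m x' y := by
  rw [sub_eq_add_neg, F.bil_add_left hm, ← neg_one_smul ℝ x', bil_smul_left]; ring

theorem bil_sub_right {m : ℝ → ℝ} (hm : IntegrableOn m (Icc 0 1)) (x y y' : H) :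
    F.bil m x (y - y') = F.bil m x y - F.bil m x y' := by
  rw [F.bil_symm m x, F.bil_sub_left hm, F.bil_symm m y, F.bil_symm m y']

theorem bil_self (m : ℝ → ℝ) (x : H) :
    F.bil m x x = ∫ t in Icc (0 : ℝ) 1, m t * F.q x t := rfl

theorem bil_self_nonneg {m : ℝ → ℝ} (hm : ∀ t ∈ Icc (0 : ℝ) 1, 0 ≤ m t) (x : H) :
    0 ≤ F.bil m x x := by
  rw [bil_self]
  exact setIntegral_nonneg measurableSet_Icc fun t ht => mul_nonneg (hm t ht) (F.q_nonneg x t)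

theorem abs_bil_le {m : ℝ → ℝ} (hm : IsWeight m) (x y : H) :
    |F.bil m x y| ≤ (∫ t in Icc (0 : ℝ) 1, m t) * (‖x‖ * ‖y‖) := by
  unfold bil
  rw [← integral_mul_const]
  refine abs_integral_le_integral_abs.trans ?_
  refine setIntegral_mono_on (F.integrable_bil hm.int x y).abs (hm.int.mul_const _)
    measurableSet_Icc fun t ht => ?_
  rw [abs_mul, abs_of_nonneg (hm.nonneg t ht)]
  exact mul_le_mul_of_nonneg_left (F.abs_inner_le t x y) (hm.nonneg t ht)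

theorem mass_nonneg {m : ℝ → ℝ} (hm : IsWeight m) : 0 ≤ ∫ t in Icc (0 : ℝ) 1, m t :=
  setIntegral_nonneg measurableSet_Icc hm.nonneg

/-- the continuous bilinear form of a weight -/
def bilC {m : ℝ → ℝ} (hm : IsWeight m) : H →L[ℝ] H →L[ℝ] ℝ :=
  LinearMap.mkContinuous₂
    { toFun := fun x =>
        { toFun := fun y => F.bil m x y
          map_add' := fun y y' => F.bil_add_right hm.int x y y'
          map_smul' := fun c y => F.bil_smul_right m c x y }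
      map_add' := fun x x' => by ext y; exact F.bil_add_left hm.int x x' y
      map_smul' := fun c x => by ext y; exact F.bil_smul_left m c x y }
    (∫ t in Icc (0 : ℝ) 1, m t)
    (fun x y => by
      rw [Real.norm_eq_abs, mul_assoc]
      exact F.abs_bil_le hm x y)

@[simp] theorem bilC_apply {m : ℝ → ℝ} (hm : IsWeight m) (x y : H) :
    F.bilC hm x y = F.bil m x y := rfl

section complete
variable [CompleteSpace H]

/-- the operator `A_m = ∫ m(t) Pi_t dt` -/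
def op {m : ℝ → ℝ} (hm : IsWeight m) : H →L[ℝ] H :=
  InnerProductSpace.continuousLinearMapOfBilin (𝕜 := ℝ) (F.bilC hm)

theorem inner_op {m : ℝ → ℝ} (hm : IsWeight m) (x y : H) :
    ⟪F.op hm x, y⟫_ℝ = F.bil m x y := by
  unfold op
  rw [InnerProductSpace.continuousLinearMapOfBilin_apply]
  rfl

theorem norm_op_le {m : ℝ → ℝ} (hm : IsWeight m) (x : H) :
    ‖F.op hm x‖ ≤ (∫ t in Icc (0 : ℝ) 1, m t) * ‖x‖ := by
  by_cases h : ‖F.op hm x‖ = 0
  · rw [h]; exact mul_nonneg (mass_nonneg hm) (norm_nonneg _)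
  · have h0 : 0 < ‖F.op hm x‖ := lt_of_le_of_ne (norm_nonneg _) (Ne.symm h)
    have h1 : ‖F.op hm x‖ * ‖F.op hm x‖ ≤
        ‖F.op hm x‖ * ((∫ t in Icc (0 : ℝ) 1, m t) * ‖x‖) := by
      rw [← real_inner_self_eq_norm_mul_norm, F.inner_op hm]
      refine (le_abs_self _).trans ((F.abs_bil_le hm _ _).trans (le_of_eq ?_))
      ring
    exact le_of_mul_le_mul_left h1 h0

end complete

/-- the quadratic functional -/
def Q (c : ℝ) (m : ℝ → ℝ) (g x : H) : ℝ := ⟪g, x⟫_ℝ + c / 2 * ‖x‖ ^ 2 + F.bil m x x / 2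

/-- parallelogram identity for `Q` -/
theorem Q_mid (c : ℝ) {m : ℝ → ℝ} (hm : IntegrableOn m (Icc 0 1)) (g x y : H) :
    F.Q c m g ((1 / 2 : ℝ) • (x + y)) =
      F.Q c m g x / 2 + F.Q c m g y / 2 -
        (c * ‖x - y‖ ^ 2 + F.bil m (x - y) (x - y)) / 8 := by
  unfold Q
  have h1 : ‖(1 / 2 : ℝ) • (x + y)‖ ^ 2 = (1 / 4) * ‖x + y‖ ^ 2 := by
    rw [norm_smul]; norm_num; ring
  have h2 := parallelogram_law_with_norm ℝ x y
  rw [h1, real_inner_smul_right, inner_add_right, F.bil_smul_left, F.bil_smul_right,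
    F.bil_add_left hm, F.bil_add_right hm, F.bil_add_right hm, F.bil_sub_left hm,
    F.bil_sub_right hm, F.bil_sub_right hm, F.bil_symm m y x]
  have h3 : ‖x + y‖ ^ 2 = 2 * (‖x‖ ^ 2 + ‖y‖ ^ 2) - ‖x - y‖ ^ 2 := by nlinarith [h2]
  rw [h3]; ring

/-- expansion of `Q` -/
theorem Q_add (c : ℝ) {m : ℝ → ℝ} (hm : IntegrableOn m (Icc 0 1)) (g x d : H) :
    F.Q c m g (x + d) = F.Q c m g x + (⟪g, d⟫_ℝ + c * ⟪x, d⟫_ℝ + F.bil m x d) +
      (c * ‖d‖ ^ 2 + F.bil m d d) / 2 := by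
  unfold Q
  rw [inner_add_right, norm_add_sq_real, F.bil_add_left hm, F.bil_add_right hm,
    F.bil_add_right hm, F.bil_symm m d x]
  ring

theorem Q_lower {c : ℝ} (hc : 0 < c) {m : ℝ → ℝ} (hm : IsWeight m) (g x : H) :
    -(‖g‖ ^ 2 / (2 * c)) ≤ F.Q c m g x := by
  unfold Q
  have h1 : -(‖g‖ * ‖x‖) ≤ ⟪g, x⟫_ℝ := by
    have := abs_real_inner_le_norm g x
    exact (neg_le_neg this).trans (neg_abs_le _)
  have h2 := F.bil_self_nonneg hm.nonneg x
  have h3 : ‖g‖ * ‖x‖ ≤ ‖g‖ ^ 2 / (2 * c) + c / 2 * ‖x‖ ^ 2 := by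
    have : 0 ≤ (‖g‖ - c * ‖x‖) ^ 2 / (2 * c) := by positivity
    have e : (‖g‖ - c * ‖x‖) ^ 2 / (2 * c) =
        ‖g‖ ^ 2 / (2 * c) + c / 2 * ‖x‖ ^ 2 - ‖g‖ * ‖x‖ := by
      field_simp; ring
    linarith
  linarith

theorem continuous_Q (c : ℝ) {m : ℝ → ℝ} (hm : IsWeight m) (g : H) :
    Continuous (F.Q c m g) := by
  have h : Continuous fun x => F.bilC hm x x := by fun_prop
  unfold Q
  have h' : (fun x => ⟪g, x⟫_ℝ + c / 2 * ‖x‖ ^ 2 + F.bil m x x / 2) =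
      fun x => ⟪g, x⟫_ℝ + c / 2 * ‖x‖ ^ 2 + F.bilC hm x x / 2 := by
    funext x; rw [bilC_apply]
  rw [h']
  fun_prop

section minimiser
variable [CompleteSpace H]

/-- **existence of the minimiser** on a nonempty closed convex set -/
theorem exists_min {c : ℝ} (hc : 0 < c) {m : ℝ → ℝ} (hm : IsWeight m) (g : H)
    {K : Set H} (hK : IsClosed K) (hKc : Convex ℝ K) (hKn : K.Nonempty) :
    ∃ x ∈ K, ∀ y ∈ K, F.Q c m g x ≤ F.Q c m g y := by
  classical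
  set I : ℝ := sInf (F.Q c m g '' K) with hI
  have hbdd : BddBelow (F.Q c m g '' K) :=
    ⟨-(‖g‖ ^ 2 / (2 * c)), by rintro _ ⟨x, _, rfl⟩; exact F.Q_lower hc hm g x⟩
  have hne : (F.Q c m g '' K).Nonempty := hKn.image _
  have hIle : ∀ y ∈ K, I ≤ F.Q c m g y := fun y hy => csInf_le hbdd ⟨y, hy, rfl⟩
  have hex : ∀ n : ℕ, ∃ x ∈ K, F.Q c m g x < I + 1 / ((n : ℝ) + 1) := by
    intro n
    have : I < I + 1 / ((n : ℝ) + 1) := by
      have : (0 : ℝ) < 1 / ((n : ℝ) + 1) := by positivity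
      linarith
    obtain ⟨_, ⟨x, hx, rfl⟩, hlt⟩ := exists_lt_of_csInf_lt hne this
    exact ⟨x, hx, hlt⟩
  choose x hxK hx using hex
  have key : ∀ i j : ℕ, c * ‖x i - x j‖ ^ 2 ≤ 4 * (1 / ((i : ℝ) + 1) + 1 / ((j : ℝ) + 1)) := by
    intro i j
    have hmid : (1 / 2 : ℝ) • (x i + x j) ∈ K := by
      have := hKc (hxK i) (hxK j) (show (0 : ℝ) ≤ 1 / 2 by norm_num)
        (show (0 : ℝ) ≤ 1 / 2 by norm_num) (by norm_num)
      rwa [← smul_add] at this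
    have h1 := hIle _ hmid
    rw [F.Q_mid c hm.int] at h1
    have h2 := F.bil_self_nonneg hm.nonneg (x i - x j)
    have h3 := hx i
    have h4 := hx j
    linarith
  have hcau : CauchySeq x := by
    rw [Metric.cauchySeq_iff']
    intro ε hε
    obtain ⟨N, hN⟩ := exists_nat_gt (8 / (c * ε ^ 2))
    refine ⟨N, fun n hn => ?_⟩
    rw [dist_eq_norm]
    have h1 := key n N
    have hNpos : (0 : ℝ) < (N : ℝ) + 1 := by positivity
    have h2 : 1 / ((n : ℝ) + 1) ≤ 1 / ((N : ℝ) + 1) := by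
      apply one_div_le_one_div_of_le hNpos
      have : (N : ℝ) ≤ n := by exact_mod_cast hn
      linarith
    have h3 : 8 * (1 / ((N : ℝ) + 1)) < c * ε ^ 2 := by
      have hcε : 0 < c * ε ^ 2 := by positivity
      rw [mul_one_div, div_lt_iff₀ hNpos]
      rw [div_lt_iff₀ hcε] at hN
      nlinarith
    have h4 : c * ‖x n - x N‖ ^ 2 < c * ε ^ 2 := by linarith
    have h5 : ‖x n - x N‖ ^ 2 < ε ^ 2 := lt_of_mul_lt_mul_left h4 hc.le
    exact lt_of_pow_lt_pow_left₀ 2 hε.le h5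
  obtain ⟨z, hz⟩ := cauchySeq_tendsto_of_complete hcau
  refine ⟨z, hK.mem_of_tendsto hz (Eventually.of_forall hxK), fun y hy => ?_⟩
  have hQ : Tendsto (fun n => F.Q c m g (x n)) atTop (𝓝 (F.Q c m g z)) :=
    ((F.continuous_Q c hm g).tendsto z).comp hz
  have hlim : Tendsto (fun n : ℕ => I + 1 / ((n : ℝ) + 1)) atTop (𝓝 (I + 0)) :=
    tendsto_const_nhds.add tendsto_one_div_add_atTop_nhds_zero_nat
  have := le_of_tendsto_of_tendsto hQ hlim (Eventually.of_forall fun n => (hx n).le)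
  rw [add_zero] at this
  exact this.trans (hIle y hy)

end minimiser

/-- first order condition at a minimiser on a convex set -/
theorem first_order {c : ℝ} (hc : 0 ≤ c) {m : ℝ → ℝ} (hm : IsWeight m) (g : H)
    {K : Set H} (hKc : Convex ℝ K) {x : H} (hx : x ∈ K)
    (hmin : ∀ y ∈ K, F.Q c m g x ≤ F.Q c m g y) {y : H} (hy : y ∈ K) :
    0 ≤ ⟪g, y - x⟫_ℝ + c * ⟪x, y - x⟫_ℝ + F.bil m x (y - x) := by
  set L : ℝ := ⟪g, y - x⟫_ℝ + c * ⟪x, y - x⟫_ℝ + F.bil m x (y - x) with hL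
  set S : ℝ := c * ‖y - x‖ ^ 2 + F.bil m (y - x) (y - x) with hS
  have hS0 : 0 ≤ S := by
    have := F.bil_self_nonneg hm.nonneg (y - x)
    positivity
  have key : ∀ t : ℝ, 0 < t → t ≤ 1 → 0 ≤ L + t * S / 2 := by
    intro t ht ht1
    have hmem : x + t • (y - x) ∈ K := by
      have := hKc hx hy (show 0 ≤ 1 - t by linarith) ht.le (by ring)
      have e : (1 - t) • x + t • y = x + t • (y - x) := by
        rw [sub_smul, one_smul, smul_sub]; abel
      rwa [e] at this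
    have h := hmin _ hmem
    rw [F.Q_add c hm.int, real_inner_smul_right, real_inner_smul_right, F.bil_smul_right,
      F.bil_smul_left, F.bil_smul_right, norm_smul, Real.norm_eq_abs, mul_pow, sq_abs] at h
    have h2 : 0 ≤ t * (L + t * S / 2) := by
      rw [hL, hS]; nlinarith
    exact nonneg_of_mul_nonneg_right h2 ht
  by_contra hneg
  push_neg at hneg
  by_cases hS' : S = 0
  · have := key 1 one_pos le_rfl
    rw [hS'] at this; linarith
  · have hSp : 0 < S := lt_of_le_of_ne hS0 (Ne.symm hS')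
    have h := key (min 1 (-L / S)) (lt_min one_pos (div_pos (by linarith) hSp)) (min_le_left _ _)
    have h1 : min 1 (-L / S) * S ≤ -L := by
      calc min 1 (-L / S) * S ≤ (-L / S) * S := mul_le_mul_of_nonneg_right (min_le_right _ _) hS0
        _ = -L := by field_simp
    linarith

/-- quadratic growth at a minimiser -/
theorem growth {c : ℝ} (hc : 0 ≤ c) {m : ℝ → ℝ} (hm : IsWeight m) (g : H)
    {K : Set H} (hKc : Convex ℝ K) {x : H} (hx : x ∈ K)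
    (hmin : ∀ y ∈ K, F.Q c m g x ≤ F.Q c m g y) {y : H} (hy : y ∈ K) :
    F.Q c m g x + (c * ‖y - x‖ ^ 2 + F.bil m (y - x) (y - x)) / 2 ≤ F.Q c m g y := by
  have h := F.first_order hc hm g hKc hx hmin hy
  have e : F.Q c m g y = F.Q c m g (x + (y - x)) := by rw [add_sub_cancel]
  rw [e, F.Q_add c hm.int]
  linarith

/-- complementarity on a cone -/
theorem compl {c : ℝ} (hc : 0 ≤ c) {m : ℝ → ℝ} (hm : IsWeight m) (g : H)
    {K : Set H} (hKc : Convex ℝ K) (hcone : ∀ r : ℝ, 0 ≤ r → ∀ x ∈ K, r • x ∈ K)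
    {x : H} (hx : x ∈ K) (hmin : ∀ y ∈ K, F.Q c m g x ≤ F.Q c m g y) :
    ⟪g, x⟫_ℝ + c * ‖x‖ ^ 2 + F.bil m x x = 0 := by
  have h0 := F.first_order hc hm g hKc hx hmin (hcone 0 le_rfl x hx)
  have h2 := F.first_order hc hm g hKc hx hmin (hcone 2 (by norm_num) x hx)
  rw [zero_smul, zero_sub, inner_neg_right, inner_neg_right, ← neg_one_smul ℝ x,
    F.bil_smul_right, real_inner_self_eq_norm_sq] at h0
  have e : (2 : ℝ) • x - x = x := by rw [two_smul]; abel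
  rw [e, real_inner_self_eq_norm_sq] at h2
  linarith

/-- the gradient is in the dual cone -/
theorem dual_cone {c : ℝ} (hc : 0 ≤ c) {m : ℝ → ℝ} (hm : IsWeight m) (g : H)
    {K : Set H} (hKc : Convex ℝ K) (hadd : ∀ x ∈ K, ∀ y ∈ K, x + y ∈ K)
    {x : H} (hx : x ∈ K) (hmin : ∀ y ∈ K, F.Q c m g x ≤ F.Q c m g y) {y : H} (hy : y ∈ K) :
    0 ≤ ⟪g, y⟫_ℝ + c * ⟪x, y⟫_ℝ + F.bil m x y := by
  have h := F.first_order hc hm g hKc hx hmin (hadd x hx y hy)
  rwa [add_sub_cancel_left] at h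


end PF

end Crest.Agent.R146.DualQ_256
end
end

-- ▼ part R146/DualC1_256
section

/-!
# Row 146, package DUAL (helper256), file 2: conditional expectations and controls

* `fam 𝓕 P` : the family of conditional expectations on `L2(P)` as a `PF`;
* `wm w` : the finite measure `w(t) dt` on `[0,1]`;
* for a progressive `v` of finite cost: `II`, `⟪lam, II⟫ = ∫ E[lam v_t] w(t) dt`, and
  `norm_II_sub_sq_le` :
  `‖I(v) - A_w lam‖² ≤ (∫ w) (B_w(lam,lam) + cost(v) - 2⟪lam, I(v)⟫)`.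
-/

set_option autoImplicit false

noncomputable section

open MeasureTheory Set Filter Topology
open scoped InnerProductSpace RealInnerProductSpace NNReal ENNReal

namespace Crest.Agent.R146.DualC1_256

open Crest.Agent.R146.DualQ_256

variable {Ω : Type*} [mΩ : MeasurableSpace Ω] {P : Measure Ω} [IsProbabilityMeasure P]

/-! ### projections -/

/-- conditional expectation on `𝓕 t` as an operator of `L2` -/
def condPi (𝓕 : Filtration ℝ≥0 mΩ) (P : Measure Ω) (t : ℝ) : (Ω →₂[P] ℝ) →L[ℝ] (Ω →₂[P] ℝ) :=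
  (lpMeas ℝ ℝ (𝓕 t.toNNReal) 2 P).subtypeL.comp (condExpL2 ℝ ℝ (𝓕.le t.toNNReal))

theorem condPi_apply (𝓕 : Filtration ℝ≥0 mΩ) (t : ℝ) (x : Ω →₂[P] ℝ) :
    condPi 𝓕 P t x = (condExpL2 ℝ ℝ (𝓕.le t.toNNReal) x : Ω →₂[P] ℝ) := rfl

theorem condPi_meas (𝓕 : Filtration ℝ≥0 mΩ) (t : ℝ) (x : Ω →₂[P] ℝ) :
    AEStronglyMeasurable[𝓕 t.toNNReal] (condPi 𝓕 P t x : Ω → ℝ) P := by
  rw [condPi_apply]; exact aestronglyMeasurable_condExpL2 _ _

theorem condPi_sa (𝓕 : Filtration ℝ≥0 mΩ) (t : ℝ) (x y : Ω →₂[P] ℝ) :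
    ⟪condPi 𝓕 P t x, y⟫_ℝ = ⟪x, condPi 𝓕 P t y⟫_ℝ := by
  rw [condPi_apply, condPi_apply]; exact inner_condExpL2_left_eq_right _

theorem condPi_inner_of_meas (𝓕 : Filtration ℝ≥0 mΩ) (t : ℝ) (x y : Ω →₂[P] ℝ)
    (hy : AEStronglyMeasurable[𝓕 t.toNNReal] (y : Ω → ℝ) P) :
    ⟪condPi 𝓕 P t x, y⟫_ℝ = ⟪x, y⟫_ℝ := by
  rw [condPi_apply]; exact inner_condExpL2_eq_inner_fun _ x y hy

theorem condPi_of_meas (𝓕 : Filtration ℝ≥0 mΩ) (t : ℝ) (y : Ω →₂[P] ℝ)
    (hy : AEStronglyMeasurable[𝓕 t.toNNReal] (y : Ω → ℝ) P) :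
    condPi 𝓕 P t y = y := by
  refine ext_inner_left ℝ fun x => ?_
  rw [← condPi_sa, condPi_inner_of_meas 𝓕 t x y hy]

theorem condPi_comp (𝓕 : Filtration ℝ≥0 mΩ) (s t : ℝ) (h : s ≤ t) (x : Ω →₂[P] ℝ) :
    condPi 𝓕 P s (condPi 𝓕 P t x) = condPi 𝓕 P s x := by
  refine ext_inner_right ℝ fun y => ?_
  rw [condPi_sa, condPi_sa, condPi_sa]
  congr 1
  apply condPi_of_meas
  exact (condPi_meas 𝓕 s y).mono (𝓕.mono (Real.toNNReal_le_toNNReal h))

/-- the family of conditional expectations -/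
def fam (𝓕 : Filtration ℝ≥0 mΩ) (P : Measure Ω) [IsProbabilityMeasure P] :
    PF (Ω →₂[P] ℝ) where
  Pi := condPi 𝓕 P
  sa := condPi_sa 𝓕
  comp := condPi_comp 𝓕

@[simp] theorem fam_Pi (𝓕 : Filtration ℝ≥0 mΩ) (t : ℝ) :
    (fam 𝓕 P).Pi t = condPi 𝓕 P t := rfl

/-! ### weights as measures -/

/-- a weight: measurable, integrable on `[0,1]`, nonnegative there -/
structure Wt (w : ℝ → ℝ) : Prop where
  meas : Measurable w
  int : IntegrableOn w (Icc 0 1)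
  nonneg : ∀ t ∈ Icc (0 : ℝ) 1, 0 ≤ w t

theorem Wt.isWeight {w : ℝ → ℝ} (hw : Wt w) : PF.IsWeight w := ⟨hw.int, hw.nonneg⟩

/-- the measure `w(t) dt` on `[0,1]` -/
def wm (w : ℝ → ℝ) : Measure ℝ :=
  (volume.restrict (Icc (0 : ℝ) 1)).withDensity fun t => ENNReal.ofReal (w t)

theorem wm_lintegral {w : ℝ → ℝ} (hw : Wt w) {f : ℝ → ℝ≥0∞} (hf : Measurable f) :
    ∫⁻ t, f t ∂wm w = ∫⁻ t in Icc (0 : ℝ) 1, ENNReal.ofReal (w t) * f t := by
  unfold wm
  rw [lintegral_withDensity_eq_lintegral_mul _ hw.meas.ennreal_ofReal hf]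
  rfl

theorem wm_integral {w : ℝ → ℝ} (hw : Wt w) (f : ℝ → ℝ) :
    ∫ t, f t ∂wm w = ∫ t in Icc (0 : ℝ) 1, w t * f t := by
  unfold wm
  rw [integral_withDensity_eq_integral_toReal_smul hw.meas.ennreal_ofReal
    (Eventually.of_forall fun _ => ENNReal.ofReal_lt_top)]
  refine setIntegral_congr_fun measurableSet_Icc fun t ht => ?_
  simp only [smul_eq_mul]
  rw [ENNReal.toReal_ofReal (hw.nonneg t ht)]

theorem wm_univ {w : ℝ → ℝ} (hw : Wt w) :
    wm w univ = ENNReal.ofReal (∫ t in Icc (0 : ℝ) 1, w t) := by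
  rw [ofReal_integral_eq_lintegral_ofReal hw.int
    ((ae_restrict_iff' measurableSet_Icc).2 (Eventually.of_forall fun t ht => hw.nonneg t ht))]
  have := wm_lintegral hw (f := fun _ => 1) measurable_const
  simpa using this

theorem isFinite_wm {w : ℝ → ℝ} (hw : Wt w) : IsFiniteMeasure (wm w) :=
  ⟨by rw [wm_univ hw]; exact ENNReal.ofReal_lt_top⟩

theorem wm_real_univ {w : ℝ → ℝ} (hw : Wt w) :
    (wm w).real univ = ∫ t in Icc (0 : ℝ) 1, w t := by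
  rw [Measure.real, wm_univ hw, ENNReal.toReal_ofReal]
  exact setIntegral_nonneg measurableSet_Icc hw.nonneg

theorem wm_ae_mem (w : ℝ → ℝ) : ∀ᵐ t ∂wm w, t ∈ Icc (0 : ℝ) 1 := by
  unfold wm
  exact (withDensity_absolutelyContinuous _ _).ae_le
    ((ae_restrict_mem measurableSet_Icc))

/-- Cauchy-Schwarz for a finite measure -/
theorem sq_integral_le {α : Type*} [MeasurableSpace α] (ν : Measure α) [IsFiniteMeasure ν]
    {f : α → ℝ} (hf : MemLp f 2 ν) :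
    (∫ x, f x ∂ν) ^ 2 ≤ ν.real univ * ∫ x, f x ^ 2 ∂ν := by
  have hi : Integrable f ν := hf.integrable one_le_two
  have hs : Integrable (fun x => f x ^ 2) ν := hf.integrable_sq
  rcases eq_or_ne (ν.real univ) 0 with h0 | h0
  · have : ν = 0 := by
      rw [Measure.real, ENNReal.toReal_eq_zero_iff] at h0
      rcases h0 with h0 | h0
      · exact Measure.measure_univ_eq_zero.1 h0
      · exact absurd h0 (measure_ne_top _ _)
    subst this
    simp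
  · have hp : 0 < ν.real univ := lt_of_le_of_ne measureReal_nonneg (Ne.symm h0)
    set M := ν.real univ
    set c := (∫ x, f x ∂ν) / M with hc
    have h1 : 0 ≤ ∫ x, (f x - c) ^ 2 ∂ν := integral_nonneg fun x => sq_nonneg _
    have h2 : ∫ x, (f x - c) ^ 2 ∂ν = (∫ x, f x ^ 2 ∂ν) - 2 * c * (∫ x, f x ∂ν) + c ^ 2 * M := by
      have e : (fun x => (f x - c) ^ 2) = fun x => f x ^ 2 - 2 * c * f x + c ^ 2 := by
        funext x; ring
      have i1 : Integrable (fun x => f x ^ 2 - 2 * c * f x) ν := hs.sub (hi.const_mul _)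
      rw [e, integral_add i1 (integrable_const _),
        integral_sub hs (hi.const_mul _), integral_const_mul, integral_const]
      simp only [smul_eq_mul]
      ring
    rw [h2] at h1
    have h3 : c * M = ∫ x, f x ∂ν := by rw [hc]; field_simp
    have h4 : 0 ≤ M * ((∫ x, f x ^ 2 ∂ν) - 2 * c * (∫ x, f x ∂ν) + c ^ 2 * M) :=
      mul_nonneg hp.le h1
    nlinarith

/-! ### controls -/

/-- admissible controls for a weight -/
structure Adm (𝓕 : Filtration ℝ≥0 mΩ) (P : Measure Ω) (w : ℝ → ℝ) (v : ℝ≥0 → Ω → ℝ) : Prop where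
  prog : IsProgressive 𝓕 v
  fin : ∫⁻ ω, ∫⁻ t in Icc (0 : ℝ) 1,
    ENNReal.ofReal (w t * v (Real.toNNReal t) ω ^ 2) ∂volume ∂P < ⊤

/-- the truncated control as a function on `ℝ × Ω` -/
def vh (v : ℝ≥0 → Ω → ℝ) (p : ℝ × Ω) : ℝ := v (min p.1 1).toNNReal p.2

theorem vh_eq {v : ℝ≥0 → Ω → ℝ} {t : ℝ} (ht : t ∈ Icc (0 : ℝ) 1) (ω : Ω) :
    vh v (t, ω) = v t.toNNReal ω := by
  unfold vh; simp only; rw [min_eq_left ht.2]

theorem measurable_vh1 {𝓕 : Filtration ℝ≥0 mΩ} {v : ℝ≥0 → Ω → ℝ} (hv : IsProgressive 𝓕 v) :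
    @Measurable _ _ (@Prod.instMeasurableSpace _ _ _ (𝓕 1)) _ (vh v) := by
  have h := hv 1
  have hle : ∀ t : ℝ, (min t 1).toNNReal ∈ Iic (1 : ℝ≥0) := by
    intro t
    rw [mem_Iic, Real.toNNReal_le_one]
    exact min_le_right _ _
  have e : vh v = (fun p : Iic (1 : ℝ≥0) × Ω => v p.1 p.2) ∘
      fun p : ℝ × Ω => (⟨(min p.1 1).toNNReal, hle p.1⟩, p.2) := rfl
  rw [e]
  refine h.comp ?_
  refine Measurable.prodMk ?_ measurable_snd
  refine Measurable.subtype_mk ?_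
  exact (measurable_fst.min measurable_const).real_toNNReal

theorem measurable_vh {𝓕 : Filtration ℝ≥0 mΩ} {v : ℝ≥0 → Ω → ℝ} (hv : IsProgressive 𝓕 v) :
    Measurable (vh v) := by
  refine (measurable_vh1 hv).mono ?_ le_rfl
  exact sup_le_sup le_rfl (MeasurableSpace.comap_mono (𝓕.le 1))

theorem vh_adapted {𝓕 : Filtration ℝ≥0 mΩ} {v : ℝ≥0 → Ω → ℝ} (hv : IsProgressive 𝓕 v)
    {t : ℝ} (ht : t ∈ Icc (0 : ℝ) 1) :
    Measurable[𝓕 t.toNNReal] fun ω => vh v (t, ω) := by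
  have : (fun ω => vh v (t, ω)) = v t.toNNReal := by funext ω; exact vh_eq ht ω
  rw [this]
  exact hv.adapted _

theorem memLp_vh {𝓕 : Filtration ℝ≥0 mΩ} {w : ℝ → ℝ} (hw : Wt w) {v : ℝ≥0 → Ω → ℝ}
    (hv : Adm 𝓕 P w v) : MemLp (vh v) 2 ((wm w).prod P) := by
  have := isFinite_wm hw
  have hm := measurable_vh hv.prog
  rw [memLp_two_iff_integrable_sq hm.aestronglyMeasurable]
  refine ⟨(hm.pow_const 2).aestronglyMeasurable, ?_⟩
  rw [hasFiniteIntegral_iff_ofReal (Eventually.of_forall fun _ => sq_nonneg _)]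
  rw [lintegral_prod_symm _ (hm.pow_const 2).ennreal_ofReal.aemeasurable]
  refine lt_of_le_of_lt (lintegral_mono fun ω => ?_) hv.fin
  rw [wm_lintegral hw (f := fun t => ENNReal.ofReal (vh v (t, ω) ^ 2))
    ((hm.comp measurable_prodMk_right).pow_const 2).ennreal_ofReal]
  refine setLIntegral_mono' measurableSet_Icc fun t ht => ?_
  rw [vh_eq ht, ← ENNReal.ofReal_mul (hw.nonneg t ht)]

/-- the cost as a real number -/
def cost (P : Measure Ω) (w : ℝ → ℝ) (v : ℝ≥0 → Ω → ℝ) : ℝ :=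
  (∫⁻ ω, ∫⁻ t in Icc (0 : ℝ) 1,
    ENNReal.ofReal (w t * v (Real.toNNReal t) ω ^ 2) ∂volume ∂P).toReal

theorem cost_nonneg (P : Measure Ω) (w : ℝ → ℝ) (v : ℝ≥0 → Ω → ℝ) : 0 ≤ cost P w v :=
  ENNReal.toReal_nonneg

theorem cost_eq {𝓕 : Filtration ℝ≥0 mΩ} {w : ℝ → ℝ} (hw : Wt w) {v : ℝ≥0 → Ω → ℝ}
    (hv : Adm 𝓕 P w v) : cost P w v = ∫ p, vh v p ^ 2 ∂(wm w).prod P := by
  have := isFinite_wm hw
  have hm := measurable_vh hv.prog
  rw [integral_eq_lintegral_of_nonneg_ae (Eventually.of_forall fun _ => sq_nonneg _)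
    (hm.pow_const 2).aestronglyMeasurable,
    lintegral_prod_symm _ (hm.pow_const 2).ennreal_ofReal.aemeasurable]
  unfold cost
  congr 1
  refine lintegral_congr fun ω => ?_
  rw [wm_lintegral hw (f := fun t => ENNReal.ofReal (vh v (t, ω) ^ 2))
    ((hm.comp measurable_prodMk_right).pow_const 2).ennreal_ofReal]
  refine setLIntegral_congr_fun measurableSet_Icc fun t ht => ?_
  show ENNReal.ofReal (w t * v t.toNNReal ω ^ 2) =
    ENNReal.ofReal (w t) * ENNReal.ofReal (vh v (t, ω) ^ 2)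
  rw [vh_eq ht, ENNReal.ofReal_mul (hw.nonneg t ht)]

/-- the integrated control -/
def II (w : ℝ → ℝ) (v : ℝ≥0 → Ω → ℝ) (ω : Ω) : ℝ := ∫ t, vh v (t, ω) ∂wm w

theorem II_eq {w : ℝ → ℝ} (hw : Wt w) (v : ℝ≥0 → Ω → ℝ) (ω : Ω) :
    II w v ω = ∫ t in (0 : ℝ)..1, w t * v (Real.toNNReal t) ω := by
  unfold II
  rw [wm_integral hw, intervalIntegral.integral_of_le zero_le_one, ← integral_Icc_eq_integral_Ioc]
  refine setIntegral_congr_fun measurableSet_Icc fun t ht => ?_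
  show w t * vh v (t, ω) = _
  rw [vh_eq ht]

theorem sm_int {Ω' : Type*} [MeasurableSpace Ω'] {f : ℝ × Ω' → ℝ} (hf : Measurable f)
    (ν : Measure ℝ) [SFinite ν] : StronglyMeasurable fun ω => ∫ t, f (t, ω) ∂ν :=
  hf.stronglyMeasurable.integral_prod_left'

theorem measurable_II1 {𝓕 : Filtration ℝ≥0 mΩ} {w : ℝ → ℝ} (hw : Wt w) {v : ℝ≥0 → Ω → ℝ}
    (hv : IsProgressive 𝓕 v) : StronglyMeasurable[𝓕 1] (II w v) := by
  have := isFinite_wm hw
  have h := measurable_vh1 hv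
  exact @sm_int Ω (𝓕 1) (vh v) h (wm w) _

theorem measurable_II {𝓕 : Filtration ℝ≥0 mΩ} {w : ℝ → ℝ} (hw : Wt w) {v : ℝ≥0 → Ω → ℝ}
    (hv : IsProgressive 𝓕 v) : StronglyMeasurable (II w v) :=
  (measurable_II1 hw hv).mono (𝓕.le 1)

theorem memLp_II {𝓕 : Filtration ℝ≥0 mΩ} {w : ℝ → ℝ} (hw : Wt w) {v : ℝ≥0 → Ω → ℝ}
    (hv : Adm 𝓕 P w v) : MemLp (II w v) 2 P := by
  have := isFinite_wm hw
  have hL := memLp_vh hw hv
  have hi : Integrable (fun p => vh v p ^ 2) ((wm w).prod P) := hL.integrable_sq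
  have hm := measurable_II hw hv.prog
  rw [memLp_two_iff_integrable_sq hm.aestronglyMeasurable]
  have h1 : Integrable (fun ω => (wm w).real univ * ∫ t, vh v (t, ω) ^ 2 ∂wm w) P :=
    (hi.integral_prod_right).const_mul _
  refine h1.mono' (hm.aestronglyMeasurable.pow 2) ?_
  filter_upwards [hi.prod_left_ae] with ω hω
  rw [Real.norm_eq_abs, abs_of_nonneg (sq_nonneg _)]
  have hmω : Measurable fun t => vh v (t, ω) := (measurable_vh hv.prog).comp measurable_prodMk_right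
  exact sq_integral_le _ ((memLp_two_iff_integrable_sq hmω.aestronglyMeasurable).2 hω)

/-- the integrated control as an element of `L2` -/
def IL {𝓕 : Filtration ℝ≥0 mΩ} {w : ℝ → ℝ} (hw : Wt w) {v : ℝ≥0 → Ω → ℝ}
    (hv : Adm 𝓕 P w v) : Ω →₂[P] ℝ := (memLp_II hw hv).toLp _

theorem IL_coe {𝓕 : Filtration ℝ≥0 mΩ} {w : ℝ → ℝ} (hw : Wt w) {v : ℝ≥0 → Ω → ℝ}
    (hv : Adm 𝓕 P w v) : (IL hw hv : Ω → ℝ) =ᵐ[P] II w v := (memLp_II hw hv).coeFn_toLp

/-- Fubini: `⟪lam, I(v)⟫ = ∫ E[lam v_t] w(t) dt` -/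
theorem inner_IL {𝓕 : Filtration ℝ≥0 mΩ} {w : ℝ → ℝ} (hw : Wt w) {v : ℝ≥0 → Ω → ℝ}
    (hv : Adm 𝓕 P w v) (x : Ω →₂[P] ℝ) :
    ⟪x, IL hw hv⟫_ℝ = ∫ t, (∫ ω, x ω * vh v (t, ω) ∂P) ∂wm w := by
  have := isFinite_wm hw
  have hL := memLp_vh hw hv
  have hx : MemLp (fun p : ℝ × Ω => x p.2) 2 ((wm w).prod P) := (Lp.memLp x).comp_snd _
  have hi : Integrable (fun p : ℝ × Ω => x p.2 * vh v p) ((wm w).prod P) :=
    MemLp.integrable_mul hx hL
  have hi' : Integrable (Function.uncurry fun (t : ℝ) (ω : Ω) => x ω * vh v (t, ω))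
      ((wm w).prod P) := hi
  rw [integral_integral_swap hi', L2.inner_def]
  refine integral_congr_ae ?_
  filter_upwards [IL_coe hw hv] with ω hω
  rw [integral_const_mul, hω]
  simp only [RCLike.inner_apply, conj_trivial]
  rw [mul_comm]; rfl

theorem integrable_inner {𝓕 : Filtration ℝ≥0 mΩ} {w : ℝ → ℝ} (hw : Wt w) {v : ℝ≥0 → Ω → ℝ}
    (hv : Adm 𝓕 P w v) (x : Ω →₂[P] ℝ) :
    Integrable (fun t => ∫ ω, x ω * vh v (t, ω) ∂P) (wm w) := by
  have := isFinite_wm hw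
  have hL := memLp_vh hw hv
  have hx : MemLp (fun p : ℝ × Ω => x p.2) 2 ((wm w).prod P) := (Lp.memLp x).comp_snd _
  have hi : Integrable (fun p : ℝ × Ω => x p.2 * vh v p) ((wm w).prod P) :=
    MemLp.integrable_mul hx hL
  exact hi.integral_prod_left

theorem integrable_wm_of_bdd {w : ℝ → ℝ} (hw : Wt w) {f : ℝ → ℝ} (hf : Measurable f) (C : ℝ)
    (hC : ∀ t, |f t| ≤ C) : Integrable f (wm w) := by
  have := isFinite_wm hw
  exact Integrable.of_bound hf.aestronglyMeasurable C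
    (Eventually.of_forall fun t => by rw [Real.norm_eq_abs]; exact hC t)

theorem bil_eq_wm (𝓕 : Filtration ℝ≥0 mΩ) {w : ℝ → ℝ} (hw : Wt w) (x y : Ω →₂[P] ℝ) :
    (fam 𝓕 P).bil w x y = ∫ t, ⟪condPi 𝓕 P t x, y⟫_ℝ ∂wm w := by
  rw [wm_integral hw]; rfl

/-- pointwise Cauchy-Schwarz -/
theorem key_pt {𝓕 : Filtration ℝ≥0 mΩ} {v : ℝ≥0 → Ω → ℝ} (hv : IsProgressive 𝓕 v)
    {t : ℝ} (ht : t ∈ Icc (0 : ℝ) 1) (hL : MemLp (fun ω => vh v (t, ω)) 2 P)
    (x y : Ω →₂[P] ℝ) :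
    ((∫ ω, y ω * vh v (t, ω) ∂P) - ⟪condPi 𝓕 P t x, y⟫_ℝ) ^ 2 ≤
      ‖y‖ ^ 2 * ((∫ ω, vh v (t, ω) ^ 2 ∂P) - 2 * (∫ ω, x ω * vh v (t, ω) ∂P) +
        (fam 𝓕 P).q x t) := by
  set u : Ω →₂[P] ℝ := hL.toLp _ with hu
  have huc : (u : Ω → ℝ) =ᵐ[P] fun ω => vh v (t, ω) := hL.coeFn_toLp
  have hum : AEStronglyMeasurable[𝓕 t.toNNReal] (u : Ω → ℝ) P :=
    ⟨fun ω => vh v (t, ω), (vh_adapted hv ht).stronglyMeasurable, huc⟩
  have e1 : ∀ z : Ω →₂[P] ℝ, ∫ ω, z ω * vh v (t, ω) ∂P = ⟪z, u⟫_ℝ := by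
    intro z
    rw [L2.inner_def]
    refine integral_congr_ae ?_
    filter_upwards [huc] with ω hω
    simp only [RCLike.inner_apply, conj_trivial]
    rw [hω, mul_comm]
  have e2 : ∫ ω, vh v (t, ω) ^ 2 ∂P = ‖u‖ ^ 2 := by
    rw [← real_inner_self_eq_norm_sq, L2.inner_def]
    refine integral_congr_ae ?_
    filter_upwards [huc] with ω hω
    simp only [RCLike.inner_apply, conj_trivial]
    rw [hω, sq]
  have e3 : ⟪x, u⟫_ℝ = ⟪condPi 𝓕 P t x, u⟫_ℝ := (condPi_inner_of_meas 𝓕 t x u hum).symm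
  rw [e1, e1, e2]
  have e4 : ‖u‖ ^ 2 - 2 * ⟪x, u⟫_ℝ + (fam 𝓕 P).q x t = ‖u - condPi 𝓕 P t x‖ ^ 2 := by
    rw [(fam 𝓕 P).q_eq, fam_Pi, norm_sub_sq_real, real_inner_comm (condPi 𝓕 P t x) u, e3]
  rw [e4]
  have e5 : ⟪y, u⟫_ℝ - ⟪condPi 𝓕 P t x, y⟫_ℝ = ⟪y, u - condPi 𝓕 P t x⟫_ℝ := by
    rw [inner_sub_right, real_inner_comm (condPi 𝓕 P t x) y]
  rw [e5, ← mul_pow, ← sq_abs]
  exact pow_le_pow_left₀ (abs_nonneg _) (abs_real_inner_le_norm _ _) 2

/-- **the fundamental inequality** -/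
theorem norm_IL_sub_sq_le {𝓕 : Filtration ℝ≥0 mΩ} {w : ℝ → ℝ} (hw : Wt w) {v : ℝ≥0 → Ω → ℝ}
    (hv : Adm 𝓕 P w v) (x : Ω →₂[P] ℝ) :
    ‖IL hw hv - (fam 𝓕 P).op hw.isWeight x‖ ^ 2 ≤
      (∫ t in Icc (0 : ℝ) 1, w t) *
        ((fam 𝓕 P).bil w x x + cost P w v - 2 * ⟪x, IL hw hv⟫_ℝ) := by
  have := isFinite_wm hw
  have hL := memLp_vh hw hv
  have hsq : Integrable (fun p => vh v p ^ 2) ((wm w).prod P) := hL.integrable_sq
  set y := IL hw hv - (fam 𝓕 P).op hw.isWeight x with hy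
  set f : ℝ → ℝ := fun t => (∫ ω, y ω * vh v (t, ω) ∂P) - ⟪condPi 𝓕 P t x, y⟫_ℝ with hf
  set r : ℝ → ℝ := fun t => (∫ ω, vh v (t, ω) ^ 2 ∂P) - 2 * (∫ ω, x ω * vh v (t, ω) ∂P) +
        (fam 𝓕 P).q x t with hr
  have hi2 : Integrable (fun t => ⟪condPi 𝓕 P t x, y⟫_ℝ) (wm w) :=
    integrable_wm_of_bdd hw ((fam 𝓕 P).measurable_inner x y) (‖x‖ * ‖y‖)
      fun t => (fam 𝓕 P).abs_inner_le t x y
  have hi3 : Integrable ((fam 𝓕 P).q x) (wm w) :=
    integrable_wm_of_bdd hw ((fam 𝓕 P).measurable_q x) (‖x‖ ^ 2) fun t => by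
      rw [abs_of_nonneg ((fam 𝓕 P).q_nonneg x t)]; exact (fam 𝓕 P).q_le x t
  have hfi : Integrable f (wm w) := (integrable_inner hw hv y).sub hi2
  have hsq1 : Integrable (fun t => ∫ ω, vh v (t, ω) ^ 2 ∂P) (wm w) := hsq.integral_prod_left
  have hri : Integrable r (wm w) :=
    (hsq1.sub ((integrable_inner hw hv x).const_mul 2)).add hi3
  have hfr : ∀ᵐ t ∂wm w, f t ^ 2 ≤ ‖y‖ ^ 2 * r t := by
    filter_upwards [wm_ae_mem w, hsq.prod_right_ae] with t ht h2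
    have hmt : Measurable fun ω => vh v (t, ω) := (measurable_vh hv.prog).comp measurable_prodMk_left
    exact key_pt hv.prog ht ((memLp_two_iff_integrable_sq hmt.aestronglyMeasurable).2 h2) x y
  have hf2 : Integrable (fun t => f t ^ 2) (wm w) := by
    refine (hri.const_mul (‖y‖ ^ 2)).mono' (hfi.aestronglyMeasurable.pow 2) ?_
    filter_upwards [hfr] with t ht
    rw [Real.norm_eq_abs, abs_of_nonneg (sq_nonneg _)]; exact ht
  have hfL : MemLp f 2 (wm w) := (memLp_two_iff_integrable_sq hfi.aestronglyMeasurable).2 hf2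
  have h1 : ∫ t, f t ∂wm w = ‖y‖ ^ 2 := by
    rw [hf, integral_sub (integrable_inner hw hv y) hi2, ← inner_IL hw hv y, ← bil_eq_wm 𝓕 hw,
      ← (fam 𝓕 P).inner_op hw.isWeight, ← real_inner_self_eq_norm_sq,
      real_inner_comm y ((fam 𝓕 P).op hw.isWeight x), ← inner_sub_right]
  have h2 : ∫ t, r t ∂wm w = (fam 𝓕 P).bil w x x + cost P w v - 2 * ⟪x, IL hw hv⟫_ℝ := by
    have i1 : Integrable (fun t => (∫ ω, vh v (t, ω) ^ 2 ∂P) - 2 * (∫ ω, x ω * vh v (t, ω) ∂P))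
        (wm w) := hsq1.sub ((integrable_inner hw hv x).const_mul 2)
    rw [hr]
    simp only
    rw [integral_add i1 hi3,
      integral_sub hsq1 ((integrable_inner hw hv x).const_mul 2), integral_const_mul,
      ← inner_IL hw hv x, ← integral_prod _ hsq, ← cost_eq hw hv]
    have : ∫ t, (fam 𝓕 P).q x t ∂wm w = (fam 𝓕 P).bil w x x := by
      rw [bil_eq_wm 𝓕 hw]; rfl
    rw [this]; ring
  have h3 := sq_integral_le (wm w) hfL
  rw [h1, wm_real_univ hw] at h3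
  have h4 : ∫ t, f t ^ 2 ∂wm w ≤ ‖y‖ ^ 2 * ∫ t, r t ∂wm w := by
    rw [← integral_const_mul]
    exact integral_mono_ae hf2 (hri.const_mul _) hfr
  rw [h2] at h4
  set R := (fam 𝓕 P).bil w x x + cost P w v - 2 * ⟪x, IL hw hv⟫_ℝ
  have hM : 0 ≤ ∫ t in Icc (0 : ℝ) 1, w t := setIntegral_nonneg measurableSet_Icc hw.nonneg
  by_cases hy0 : ‖y‖ = 0
  · have hR : 0 ≤ ∫ t, r t ∂wm w := by
      refine integral_nonneg_of_ae ?_
      filter_upwards [wm_ae_mem w, hsq.prod_right_ae] with t ht h2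
      have hmt : Measurable fun ω => vh v (t, ω) :=
        (measurable_vh hv.prog).comp measurable_prodMk_left
      have hLt := (memLp_two_iff_integrable_sq (μ := P) hmt.aestronglyMeasurable).2 h2
      by_cases hx0 : x = 0
      · subst hx0
        have hz : ∫ ω, (0 : Ω →₂[P] ℝ) ω * vh v (t, ω) ∂P = 0 := by
          rw [integral_eq_zero_of_ae]
          filter_upwards [Lp.coeFn_zero ℝ 2 P] with ω hω
          rw [hω]; simp
        simp only [hr, hz]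
        have := (fam 𝓕 P).q_nonneg (0 : Ω →₂[P] ℝ) t
        have h9 : 0 ≤ ∫ ω, vh v (t, ω) ^ 2 ∂P := integral_nonneg fun ω => sq_nonneg _
        simp only [Pi.zero_apply]
        nlinarith
      · have hk := key_pt hv.prog ht hLt x x
        have hxp : 0 < ‖x‖ ^ 2 := by
          have := norm_pos_iff.2 hx0; positivity
        by_contra hneg
        have hneg' : r t < 0 := not_le.1 hneg
        have : ‖x‖ ^ 2 * r t < 0 := mul_neg_of_pos_of_neg hxp hneg'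
        exact absurd (le_trans (sq_nonneg _) hk) (not_le.2 this)
    rw [h2] at hR
    rw [hy0]
    have := mul_nonneg hM hR
    simpa using this
  · have hyp : 0 < ‖y‖ ^ 2 := by
      have := lt_of_le_of_ne (norm_nonneg y) (Ne.symm hy0); positivity
    have h5 : ‖y‖ ^ 2 * ‖y‖ ^ 2 ≤ ‖y‖ ^ 2 * ((∫ t in Icc (0 : ℝ) 1, w t) * R) := by
      have h6 := mul_le_mul_of_nonneg_left h4 hM
      nlinarith [h3, h6]
    exact le_of_mul_le_mul_left h5 hyp

end Crest.Agent.R146.DualC1_256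
end
end

-- ▼ part R146/DualC2_256
section

/-!
# Row 146, package DUAL (helper256), file 3: step controls `v_t = E[lam | F_{floor(nt)/n}]`

* `stepCtl 𝓕 P n x` : the piecewise constant control;
* `adm_step`, `inner_step`, `cost_step`, and the limits
  `IL_step_tendsto : I(v^n) -> A_w lam` in `L2`, `cost_step_tendsto : cost(v^n) -> B_w(lam,lam)`.
-/

set_option autoImplicit false

noncomputable section

open MeasureTheory Set Filter Topology
open scoped InnerProductSpace RealInnerProductSpace NNReal ENNReal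

namespace Crest.Agent.R146.DualC2_256

open Crest.Agent.R146.DualQ_256 Crest.Agent.R146.DualC1_256

variable {Ω : Type*} [mΩ : MeasurableSpace Ω] {P : Measure Ω} [IsProbabilityMeasure P]

/-- the grid point `⌊n t⌋ / n` (capped at `n - 1`) -/
def grid (n : ℕ) (t : ℝ) : ℝ := (min ⌊(n : ℝ) * t⌋₊ (n - 1) : ℕ) / n

theorem grid_le (n : ℕ) {t : ℝ} (ht : 0 ≤ t) : grid n t ≤ t := by
  unfold grid
  rcases Nat.eq_zero_or_pos n with rfl | hn
  · simpa using ht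
  · have hn' : (0 : ℝ) < n := by exact_mod_cast hn
    rw [div_le_iff₀ hn']
    have h1 : ((min ⌊(n : ℝ) * t⌋₊ (n - 1) : ℕ) : ℝ) ≤ (⌊(n : ℝ) * t⌋₊ : ℝ) := by
      exact_mod_cast min_le_left _ _
    have h2 : (⌊(n : ℝ) * t⌋₊ : ℝ) ≤ n * t := Nat.floor_le (by positivity)
    linarith



theorem grid_gt (n : ℕ) (hn : 0 < n) {t : ℝ} (ht1 : t < 1) :
    t - 1 / n < grid n t := by
  unfold grid
  have hn' : (0 : ℝ) < n := by exact_mod_cast hn
  by_cases h0 : 0 ≤ t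
  · have h1 : ⌊(n : ℝ) * t⌋₊ ≤ n - 1 := by
      have : ⌊(n : ℝ) * t⌋₊ < n := by
        rw [Nat.floor_lt (by positivity)]
        nlinarith
      omega
    rw [min_eq_left h1, lt_div_iff₀ hn', sub_mul, one_div, inv_mul_cancel₀ hn'.ne']
    have := Nat.lt_floor_add_one ((n : ℝ) * t)
    linarith
  · push Not at h0
    have h2 : (0 : ℝ) ≤ ((min ⌊(n : ℝ) * t⌋₊ (n - 1) : ℕ) : ℝ) / n := by positivity
    have h3 : (0 : ℝ) < 1 / n := by positivity
    linarith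

theorem measurable_grid (n : ℕ) : Measurable (grid n) := by
  unfold grid
  refine Measurable.div_const ?_ _
  refine measurable_from_nat.comp ?_
  exact (Nat.measurable_floor.comp (measurable_id.const_mul _)).min measurable_const


theorem grid_tendsto {t : ℝ} (ht : 0 ≤ t) (ht1 : t < 1) :
    Tendsto (fun n : ℕ => grid n t) atTop (𝓝 t) := by
  have h1 : Tendsto (fun n : ℕ => t - 1 / (n : ℝ)) atTop (𝓝 (t - 0)) :=
    tendsto_const_nhds.sub tendsto_one_div_atTop_nhds_zero_nat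
  rw [sub_zero] at h1
  refine tendsto_of_tendsto_of_tendsto_of_le_of_le' h1 tendsto_const_nhds ?_ ?_
  · filter_upwards [eventually_gt_atTop 0] with n hn using (grid_gt n hn ht1).le
  · exact Eventually.of_forall fun n => grid_le n ht

/-- a measurable representative of `E[x | F_{k/n}]` -/
def rep (𝓕 : Filtration ℝ≥0 mΩ) (P : Measure Ω) [IsProbabilityMeasure P] (x : Ω →₂[P] ℝ)
    (s : ℝ) : Ω → ℝ := (condPi_meas 𝓕 s x).mk

theorem rep_meas (𝓕 : Filtration ℝ≥0 mΩ) (x : Ω →₂[P] ℝ) (s : ℝ) :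
    StronglyMeasurable[𝓕 s.toNNReal] (rep 𝓕 P x s) := (condPi_meas 𝓕 s x).stronglyMeasurable_mk

theorem rep_ae (𝓕 : Filtration ℝ≥0 mΩ) (x : Ω →₂[P] ℝ) (s : ℝ) :
    (condPi 𝓕 P s x : Ω → ℝ) =ᵐ[P] rep 𝓕 P x s := (condPi_meas 𝓕 s x).ae_eq_mk

/-- the step control -/
def stepCtl (𝓕 : Filtration ℝ≥0 mΩ) (P : Measure Ω) [IsProbabilityMeasure P] (n : ℕ)
    (x : Ω →₂[P] ℝ) (t : ℝ≥0) (ω : Ω) : ℝ := rep 𝓕 P x (grid n t) ω

theorem stepCtl_eq_sum (𝓕 : Filtration ℝ≥0 mΩ) {n : ℕ} (hn : 0 < n) (x : Ω →₂[P] ℝ) (t : ℝ≥0)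
    (ω : Ω) : stepCtl 𝓕 P n x t ω =
      ∑ k ∈ Finset.range n, if min ⌊(n : ℝ) * t⌋₊ (n - 1) = k then
        rep 𝓕 P x ((k : ℝ) / n) ω else 0 := by
  rw [Finset.sum_ite_eq]
  have : min ⌊(n : ℝ) * t⌋₊ (n - 1) ∈ Finset.range n := by
    rw [Finset.mem_range]
    have := min_le_right ⌊(n : ℝ) * t⌋₊ (n - 1)
    omega
  rw [if_pos this]
  rfl

theorem prog_step (𝓕 : Filtration ℝ≥0 mΩ) {n : ℕ} (hn : 0 < n) (x : Ω →₂[P] ℝ) :
    IsProgressive 𝓕 (stepCtl 𝓕 P n x) := by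
  have e : stepCtl 𝓕 P n x = fun t ω => ∑ k ∈ Finset.range n,
      (fun (k : ℕ) (t : ℝ≥0) (ω : Ω) => if min ⌊(n : ℝ) * t⌋₊ (n - 1) = k then
        rep 𝓕 P x ((k : ℝ) / n) ω else 0) k t ω := by
    funext t ω; exact stepCtl_eq_sum 𝓕 hn x t ω
  rw [e]
  refine IsProgressive.finsetSum fun k hk => ?_
  intro i
  have hn' : (0 : ℝ) < n := by exact_mod_cast hn
  by_cases hki : (k : ℝ) / n ≤ i
  · have hm : Measurable[𝓕 i] (rep 𝓕 P x ((k : ℝ) / n)) := by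
      refine ((rep_meas 𝓕 x ((k : ℝ) / n)).measurable).mono (𝓕.mono ?_) le_rfl
      rw [Real.toNNReal_le_iff_le_coe]; exact hki
    refine Measurable.ite ?_ ?_ measurable_const
    · have h1 : Measurable fun t : Iic i => min ⌊(n : ℝ) * ((t : ℝ≥0) : ℝ)⌋₊ (n - 1) := by
        refine Measurable.min ?_ measurable_const
        exact Nat.measurable_floor.comp ((measurable_subtype_coe.coe_nnreal_real).const_mul _)
      exact (h1 (measurableSet_singleton k)).preimage measurable_fst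
    · exact hm.comp measurable_snd
  · have : (fun p : Iic i × Ω => if min ⌊(n : ℝ) * ((p.1 : ℝ≥0) : ℝ)⌋₊ (n - 1) = k then
        rep 𝓕 P x ((k : ℝ) / n) p.2 else 0) = fun _ => 0 := by
      funext p
      rw [if_neg]
      intro h
      apply hki
      have h2 : (p.1 : ℝ≥0) ≤ i := p.1.2
      have h3 : grid n ((p.1 : ℝ≥0) : ℝ) = (k : ℝ) / n := by unfold grid; rw [h]
      rw [← h3]
      exact (grid_le n (p.1 : ℝ≥0).coe_nonneg).trans (by exact_mod_cast h2)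
    rw [this]
    exact measurable_const

/-- joint lower integral of the squared step control at a fixed time -/
theorem lintegral_rep_sq (𝓕 : Filtration ℝ≥0 mΩ) (x : Ω →₂[P] ℝ) (s : ℝ) :
    ∫⁻ ω, ENNReal.ofReal (rep 𝓕 P x s ω ^ 2) ∂P = ENNReal.ofReal ((fam 𝓕 P).q x s) := by
  have hL : MemLp (condPi 𝓕 P s x : Ω → ℝ) 2 P := Lp.memLp _
  have h1 : ∫⁻ ω, ENNReal.ofReal (rep 𝓕 P x s ω ^ 2) ∂P =
      ∫⁻ ω, ENNReal.ofReal ((condPi 𝓕 P s x : Ω → ℝ) ω ^ 2) ∂P := by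
    refine lintegral_congr_ae ?_
    filter_upwards [rep_ae 𝓕 x s] with ω hω
    rw [hω]
  rw [h1, ← ofReal_integral_eq_lintegral_ofReal hL.integrable_sq
    (Eventually.of_forall fun _ => sq_nonneg _)]
  congr 1
  rw [(fam 𝓕 P).q_eq, fam_Pi, ← real_inner_self_eq_norm_sq, L2.inner_def]
  refine integral_congr_ae (Eventually.of_forall fun ω => ?_)
  simp only [RCLike.inner_apply, conj_trivial]
  rw [sq]

theorem integral_mul_rep (𝓕 : Filtration ℝ≥0 mΩ) (y x : Ω →₂[P] ℝ) (s : ℝ) :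
    ∫ ω, y ω * rep 𝓕 P x s ω ∂P = ⟪condPi 𝓕 P s x, y⟫_ℝ := by
  rw [L2.inner_def]
  refine integral_congr_ae ?_
  filter_upwards [rep_ae 𝓕 x s] with ω hω
  simp only [RCLike.inner_apply, conj_trivial]
  rw [hω]

theorem measurable_stepfun (𝓕 : Filtration ℝ≥0 mΩ) {n : ℕ} (hn : 0 < n) (x : Ω →₂[P] ℝ) :
    Measurable (vh (stepCtl 𝓕 P n x)) := measurable_vh (prog_step 𝓕 hn x)

theorem vh_step (𝓕 : Filtration ℝ≥0 mΩ) (n : ℕ) (x : Ω →₂[P] ℝ) {t : ℝ}
    (ht : t ∈ Icc (0 : ℝ) 1) (ω : Ω) :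
    vh (stepCtl 𝓕 P n x) (t, ω) = rep 𝓕 P x (grid n t) ω := by
  rw [vh_eq ht]; unfold stepCtl; rw [Real.coe_toNNReal t ht.1]

theorem lcost_step (𝓕 : Filtration ℝ≥0 mΩ) {w : ℝ → ℝ} (hw : Wt w) {n : ℕ} (hn : 0 < n)
    (x : Ω →₂[P] ℝ) :
    ∫⁻ ω, ∫⁻ t in Icc (0 : ℝ) 1,
      ENNReal.ofReal (w t * stepCtl 𝓕 P n x (Real.toNNReal t) ω ^ 2) ∂volume ∂P =
    ENNReal.ofReal (∫ t in Icc (0 : ℝ) 1, w t * (fam 𝓕 P).q x (grid n t)) := by
  have hfin := isFinite_wm hw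
  have hm := measurable_stepfun 𝓕 hn x
  have hq : Measurable fun t => (fam 𝓕 P).q x (grid n t) :=
    ((fam 𝓕 P).measurable_q x).comp (measurable_grid n)
  have h1 : ∫⁻ ω, ∫⁻ t in Icc (0 : ℝ) 1,
      ENNReal.ofReal (w t * stepCtl 𝓕 P n x (Real.toNNReal t) ω ^ 2) ∂volume ∂P =
      ∫⁻ ω, ∫⁻ t, ENNReal.ofReal (vh (stepCtl 𝓕 P n x) (t, ω) ^ 2) ∂wm w ∂P := by
    refine lintegral_congr fun ω => ?_
    rw [wm_lintegral hw (f := fun t => ENNReal.ofReal (vh (stepCtl 𝓕 P n x) (t, ω) ^ 2))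
      ((hm.comp measurable_prodMk_right).pow_const 2).ennreal_ofReal]
    refine setLIntegral_congr_fun measurableSet_Icc fun t ht => ?_
    show ENNReal.ofReal (w t * stepCtl 𝓕 P n x t.toNNReal ω ^ 2) =
      ENNReal.ofReal (w t) * ENNReal.ofReal (vh (stepCtl 𝓕 P n x) (t, ω) ^ 2)
    rw [vh_eq ht, ENNReal.ofReal_mul (hw.nonneg t ht)]
  rw [h1, lintegral_lintegral_swap
    ((hm.comp measurable_swap).pow_const 2).ennreal_ofReal.aemeasurable]
  have h2 : ∫⁻ t, ∫⁻ ω, ENNReal.ofReal (vh (stepCtl 𝓕 P n x) (t, ω) ^ 2) ∂P ∂wm w =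
      ∫⁻ t, ENNReal.ofReal ((fam 𝓕 P).q x (grid n t)) ∂wm w := by
    refine lintegral_congr_ae ?_
    filter_upwards [wm_ae_mem w] with t ht
    rw [← lintegral_rep_sq 𝓕 x (grid n t)]
    refine lintegral_congr fun ω => ?_
    rw [vh_step 𝓕 n x ht]
  have hi : Integrable (fun t => (fam 𝓕 P).q x (grid n t)) (wm w) :=
    integrable_wm_of_bdd hw hq (‖x‖ ^ 2) fun t => by
      rw [abs_of_nonneg ((fam 𝓕 P).q_nonneg x _)]; exact (fam 𝓕 P).q_le x _
  rw [h2, ← ofReal_integral_eq_lintegral_ofReal hi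
    (Eventually.of_forall fun t => (fam 𝓕 P).q_nonneg x _), wm_integral hw]

theorem adm_step (𝓕 : Filtration ℝ≥0 mΩ) {w : ℝ → ℝ} (hw : Wt w) {n : ℕ} (hn : 0 < n)
    (x : Ω →₂[P] ℝ) : Adm 𝓕 P w (stepCtl 𝓕 P n x) :=
  ⟨prog_step 𝓕 hn x, by rw [lcost_step 𝓕 hw hn x]; exact ENNReal.ofReal_lt_top⟩

theorem cost_step (𝓕 : Filtration ℝ≥0 mΩ) {w : ℝ → ℝ} (hw : Wt w) {n : ℕ} (hn : 0 < n)
    (x : Ω →₂[P] ℝ) : cost P w (stepCtl 𝓕 P n x) =
      ∫ t in Icc (0 : ℝ) 1, w t * (fam 𝓕 P).q x (grid n t) := by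
  unfold cost
  rw [lcost_step 𝓕 hw hn x, ENNReal.toReal_ofReal]
  exact setIntegral_nonneg measurableSet_Icc fun t ht =>
    mul_nonneg (hw.nonneg t ht) ((fam 𝓕 P).q_nonneg x _)

theorem inner_step (𝓕 : Filtration ℝ≥0 mΩ) {w : ℝ → ℝ} (hw : Wt w) {n : ℕ} (hn : 0 < n)
    (x : Ω →₂[P] ℝ) : ⟪x, IL hw (adm_step 𝓕 hw hn x)⟫_ℝ =
      ∫ t in Icc (0 : ℝ) 1, w t * (fam 𝓕 P).q x (grid n t) := by
  rw [inner_IL, ← wm_integral hw]
  refine integral_congr_ae ?_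
  filter_upwards [wm_ae_mem w] with t ht
  have : ∫ ω, x ω * vh (stepCtl 𝓕 P n x) (t, ω) ∂P = ∫ ω, x ω * rep 𝓕 P x (grid n t) ω ∂P := by
    refine integral_congr_ae (Eventually.of_forall fun ω => ?_)
    show x ω * vh (stepCtl 𝓕 P n x) (t, ω) = x ω * rep 𝓕 P x (grid n t) ω
    rw [vh_step 𝓕 n x ht]
  rw [this, integral_mul_rep]
  rfl

/-- convergence of the step costs -/
theorem cost_step_tendsto (𝓕 : Filtration ℝ≥0 mΩ) {w : ℝ → ℝ} (hw : Wt w) (x : Ω →₂[P] ℝ) :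
    Tendsto (fun n : ℕ => ∫ t in Icc (0 : ℝ) 1, w t * (fam 𝓕 P).q x (grid n t)) atTop
      (𝓝 ((fam 𝓕 P).bil w x x)) := by
  rw [(fam 𝓕 P).bil_self]
  have hq : ∀ n : ℕ, Measurable fun t => (fam 𝓕 P).q x (grid n t) := fun n =>
    ((fam 𝓕 P).measurable_q x).comp (measurable_grid n)
  refine tendsto_integral_of_dominated_convergence (fun t => |w t| * ‖x‖ ^ 2)
    (fun n => (hw.meas.mul (hq n)).aestronglyMeasurable) (hw.int.abs.mul_const _) ?_ ?_
  · intro n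
    refine Eventually.of_forall fun t => ?_
    rw [norm_mul, Real.norm_eq_abs, Real.norm_eq_abs, abs_of_nonneg ((fam 𝓕 P).q_nonneg x _)]
    exact mul_le_mul_of_nonneg_left ((fam 𝓕 P).q_le x _) (abs_nonneg _)
  · have hc : Set.Countable {t | ¬ ContinuousAt ((fam 𝓕 P).q x) t} :=
      ((fam 𝓕 P).q_mono x).countable_not_continuousAt
    have h1 : ∀ᵐ t ∂(volume : Measure ℝ), ContinuousAt ((fam 𝓕 P).q x) t := by
      rw [ae_iff]; exact hc.measure_zero _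
    have h2 : ∀ᵐ t ∂(volume : Measure ℝ), t ≠ 1 := by
      rw [ae_iff]; simp
    filter_upwards [ae_restrict_of_ae h1, ae_restrict_of_ae h2,
      ae_restrict_mem measurableSet_Icc] with t ht ht1 hmem
    exact ((ht.tendsto).comp (grid_tendsto hmem.1 (lt_of_le_of_ne hmem.2 ht1))).const_mul _

/-- convergence of the integrated step controls -/
theorem IL_step_tendsto (𝓕 : Filtration ℝ≥0 mΩ) {w : ℝ → ℝ} (hw : Wt w) (x : Ω →₂[P] ℝ) :
    Tendsto (fun n : ℕ => IL hw (adm_step 𝓕 hw (Nat.succ_pos n) x)) atTop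
      (𝓝 ((fam 𝓕 P).op hw.isWeight x)) := by
  rw [tendsto_iff_norm_sub_tendsto_zero]
  have h0 : Tendsto (fun n : ℕ => (∫ t in Icc (0 : ℝ) 1, w t) *
      ((fam 𝓕 P).bil w x x - ∫ t in Icc (0 : ℝ) 1, w t * (fam 𝓕 P).q x (grid (n + 1) t)))
      atTop (𝓝 0) := by
    have := ((cost_step_tendsto 𝓕 hw x).comp (tendsto_add_atTop_nat 1)).const_sub
      ((fam 𝓕 P).bil w x x)
    rw [sub_self] at this
    simpa using this.const_mul (∫ t in Icc (0 : ℝ) 1, w t)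
  have hsq : ∀ n : ℕ, ‖IL hw (adm_step 𝓕 hw (Nat.succ_pos n) x) -
      (fam 𝓕 P).op hw.isWeight x‖ ^ 2 ≤ (∫ t in Icc (0 : ℝ) 1, w t) *
      ((fam 𝓕 P).bil w x x - ∫ t in Icc (0 : ℝ) 1, w t * (fam 𝓕 P).q x (grid (n + 1) t)) := by
    intro n
    have h := norm_IL_sub_sq_le hw (adm_step 𝓕 hw (Nat.succ_pos n) x) x
    rw [inner_step 𝓕 hw (Nat.succ_pos n) x, cost_step 𝓕 hw (Nat.succ_pos n) x] at h
    refine h.trans (le_of_eq ?_)
    simp only [Nat.succ_eq_add_one]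
    ring
  have hs : Tendsto (fun n : ℕ => ‖IL hw (adm_step 𝓕 hw (Nat.succ_pos n) x) -
      (fam 𝓕 P).op hw.isWeight x‖ ^ 2) atTop (𝓝 0) :=
    squeeze_zero (fun n => sq_nonneg _) hsq h0
  have := hs.sqrt
  rw [Real.sqrt_zero] at this
  refine this.congr fun n => ?_
  rw [Real.sqrt_sq (norm_nonneg _)]

end Crest.Agent.R146.DualC2_256
end
end

-- ▼ part R146/DualV_256
section

/-!
# Row 146, package DUAL (helper256), file 4: the value of the quadratic control problem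

`fbk b k x = -(b/2) * (max (k - x) 0)^2`.  `Z : L2(P)` (e.g. `B_1`), `w` a weight.
* `pay f Z w v` : payoff `E f(Z + I(v)) - cost/2`;
* `QQ b k Z w x = ⟪Z-k, x⟫ + ‖x‖²/(2b) + B_w(x,x)/2`; `lam*` its minimiser on `x >= 0`;
* `pay_le` (upper bound with growth), `pay_step_tendsto` (attained in the limit by step controls);
* `kkt : lam* = b (k - X*)_+` a.e., `X* = Z + A_w lam*`.
-/

set_option autoImplicit false

noncomputable section

open MeasureTheory Set Filter Topology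
open scoped InnerProductSpace RealInnerProductSpace NNReal ENNReal

namespace Crest.Agent.R146.DualV_256

open Crest.Agent.R146.DualQ_256 Crest.Agent.R146.DualC1_256 Crest.Agent.R146.DualC2_256

variable {Ω : Type*} [mΩ : MeasurableSpace Ω] {P : Measure Ω} [IsProbabilityMeasure P]

/-- the quadratic penalty -/
def fbk (b k x : ℝ) : ℝ := -(b / 2) * (max (k - x) 0) ^ 2





/-- Fenchel inequality -/
theorem fbk_le {b : ℝ} (hb : 0 < b) (k x l : ℝ) (hl : 0 ≤ l) :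
    fbk b k x ≤ l * (x - k) + l ^ 2 / (2 * b) := by
  unfold fbk
  rcases le_total (k - x) 0 with h | h
  · rw [max_eq_right h]
    have h1 : 0 ≤ l * (x - k) := mul_nonneg hl (by linarith)
    have h2 : 0 ≤ l ^ 2 / (2 * b) := by positivity
    simp only [ne_eq, OfNat.ofNat_ne_zero, not_false_eq_true, zero_pow, mul_zero]
    linarith
  · rw [max_eq_left h]
    have h1 : 0 ≤ (b * (k - x) - l) ^ 2 / (2 * b) := by positivity
    have h2 : (b * (k - x) - l) ^ 2 / (2 * b) =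
        b / 2 * (k - x) ^ 2 - l * (k - x) + l ^ 2 / (2 * b) := by field_simp; ring
    nlinarith

theorem fbk_eq {b : ℝ} (hb : 0 < b) (k x : ℝ) :
    fbk b k x = (b * max (k - x) 0) * (x - k) + (b * max (k - x) 0) ^ 2 / (2 * b) := by
  unfold fbk
  rcases le_total (k - x) 0 with h | h
  · rw [max_eq_right h]; simp
  · rw [max_eq_left h]; field_simp; ring

/-- payoff -/
def pay (P : Measure Ω) (f : ℝ → ℝ) (Z : Ω → ℝ) (w : ℝ → ℝ) (v : ℝ≥0 → Ω → ℝ) : ℝ :=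
  (∫ ω, f (Z ω + II w v ω) ∂P) - cost P w v / 2

/-- constants in `L2` -/
def cst (P : Measure Ω) [IsProbabilityMeasure P] (k : ℝ) : Ω →₂[P] ℝ :=
  (memLp_const (μ := P) (p := 2) k).toLp _

theorem cst_coe (k : ℝ) : (cst P k : Ω → ℝ) =ᵐ[P] fun _ => k := MemLp.coeFn_toLp _

/-- the quadratic functional -/
def QQ (𝓕 : Filtration ℝ≥0 mΩ) (w : ℝ → ℝ) (b k : ℝ) (Z x : Ω →₂[P] ℝ) : ℝ :=
  (fam 𝓕 P).Q (1 / b) w (Z - cst P k) x

theorem QQ_def (𝓕 : Filtration ℝ≥0 mΩ) (w : ℝ → ℝ) (b k : ℝ) (Z x : Ω →₂[P] ℝ) :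
    QQ 𝓕 w b k Z x = ⟪Z - cst P k, x⟫_ℝ + 1 / b / 2 * ‖x‖ ^ 2 + (fam 𝓕 P).bil w x x / 2 := rfl

/-- the cone of nonnegative elements -/
def cone (P : Measure Ω) : Set (Ω →₂[P] ℝ) := {x | 0 ≤ x}

theorem mem_cone {x : Ω →₂[P] ℝ} : x ∈ cone P ↔ 0 ≤ᵐ[P] (x : Ω → ℝ) := by
  show (0 : Ω →₂[P] ℝ) ≤ x ↔ _; rw [Lp.coeFn_nonneg]

theorem cone_closed : IsClosed (cone P) := isClosed_le continuous_const continuous_id

theorem cone_nonempty : (cone P).Nonempty :=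
  ⟨0, show (0 : Ω →₂[P] ℝ) ≤ 0 from le_refl _⟩

theorem cone_smul (r : ℝ) (hr : 0 ≤ r) (x : Ω →₂[P] ℝ) (hx : x ∈ cone P) : r • x ∈ cone P := by
  rw [mem_cone] at *
  filter_upwards [hx, Lp.coeFn_smul r x] with ω h1 h2
  rw [h2]; exact mul_nonneg hr h1

theorem cone_add (x : Ω →₂[P] ℝ) (hx : x ∈ cone P) (y : Ω →₂[P] ℝ) (hy : y ∈ cone P) :
    x + y ∈ cone P := by
  rw [mem_cone] at *
  filter_upwards [hx, hy, Lp.coeFn_add x y] with ω h1 h2 h3
  rw [h3]; exact add_nonneg h1 h2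

theorem cone_convex : Convex ℝ (cone P) := by
  intro x hx y hy a b ha hb _
  exact cone_add _ (cone_smul a ha x hx) _ (cone_smul b hb y hy)

/-- `∫ x y dP` as an inner product -/
theorem inner_eq (x y : Ω →₂[P] ℝ) : ⟪x, y⟫_ℝ = ∫ ω, x ω * y ω ∂P := by
  rw [L2.inner_def]
  refine integral_congr_ae (Eventually.of_forall fun ω => ?_)
  simp only [RCLike.inner_apply, conj_trivial]
  rw [mul_comm]

theorem norm_sq_eq (x : Ω →₂[P] ℝ) : ‖x‖ ^ 2 = ∫ ω, x ω ^ 2 ∂P := by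
  rw [← real_inner_self_eq_norm_sq, inner_eq]
  refine integral_congr_ae (Eventually.of_forall fun ω => ?_)
  show x ω * x ω = x ω ^ 2
  ring

theorem integrable_mul (x y : Ω →₂[P] ℝ) : Integrable (fun ω => x ω * y ω) P :=
  MemLp.integrable_mul (Lp.memLp x) (Lp.memLp y)

theorem integrable_sq (x : Ω →₂[P] ℝ) : Integrable (fun ω => x ω ^ 2) P :=
  (Lp.memLp x).integrable_sq

/-- the value of the quadratic penalty on `L2` -/
def Fq (b k : ℝ) (Y : Ω →₂[P] ℝ) : ℝ := -(b / 2) * ‖Lp.posPart (cst P k - Y)‖ ^ 2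

theorem continuous_Fq (b k : ℝ) : Continuous (Fq (P := P) b k) := by
  unfold Fq
  have h : Continuous fun Y : Ω →₂[P] ℝ => Lp.posPart (cst P k - Y) :=
    Lp.continuous_posPart.comp (continuous_const.sub continuous_id)
  fun_prop

theorem posPart_coe (k : ℝ) (Y : Ω →₂[P] ℝ) :
    (Lp.posPart (cst P k - Y) : Ω → ℝ) =ᵐ[P] fun ω => max (k - Y ω) 0 := by
  filter_upwards [Lp.coeFn_posPart (cst P k - Y), Lp.coeFn_sub (cst P k) Y, cst_coe (P := P) k]
    with ω h1 h2 h3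
  rw [h1, h2, Pi.sub_apply, h3]

theorem integral_fbk (b k : ℝ) (Y : Ω →₂[P] ℝ) : ∫ ω, fbk b k (Y ω) ∂P = Fq b k Y := by
  unfold Fq fbk
  rw [norm_sq_eq, integral_const_mul]
  congr 1
  refine integral_congr_ae ?_
  filter_upwards [posPart_coe k Y] with ω h
  rw [h]

theorem integrable_fbk (b k : ℝ) (Y : Ω →₂[P] ℝ) : Integrable (fun ω => fbk b k (Y ω)) P := by
  unfold fbk
  refine Integrable.const_mul ?_ _
  refine (integrable_sq (Lp.posPart (cst P k - Y))).congr ?_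
  filter_upwards [posPart_coe k Y] with ω h
  rw [h]

/-- the terminal variable as an element of `L2` -/
theorem coe_add_IL {𝓕 : Filtration ℝ≥0 mΩ} {w : ℝ → ℝ} (hw : Wt w) {v : ℝ≥0 → Ω → ℝ}
    (hv : Adm 𝓕 P w v) {Zf : Ω → ℝ} {Z : Ω →₂[P] ℝ} (hZ : (Z : Ω → ℝ) =ᵐ[P] Zf) :
    ((Z + IL hw hv : Ω →₂[P] ℝ) : Ω → ℝ) =ᵐ[P] fun ω => Zf ω + II w v ω := by
  filter_upwards [hZ, IL_coe hw hv, Lp.coeFn_add Z (IL hw hv)] with ω h1 h2 h3
  rw [h3, Pi.add_apply, h1, h2]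

theorem integral_comp_eq {𝓕 : Filtration ℝ≥0 mΩ} {w : ℝ → ℝ} (hw : Wt w) {v : ℝ≥0 → Ω → ℝ}
    (hv : Adm 𝓕 P w v) {Zf : Ω → ℝ} {Z : Ω →₂[P] ℝ} (hZ : (Z : Ω → ℝ) =ᵐ[P] Zf) (f : ℝ → ℝ) :
    ∫ ω, f (Zf ω + II w v ω) ∂P = ∫ ω, f ((Z + IL hw hv : Ω →₂[P] ℝ) ω) ∂P := by
  refine integral_congr_ae ?_
  filter_upwards [coe_add_IL hw hv hZ] with ω h
  rw [h]

/-- **upper bound (completing the square)** -/
theorem pay_le_aux {𝓕 : Filtration ℝ≥0 mΩ} {w : ℝ → ℝ} (hw : Wt w) {v : ℝ≥0 → Ω → ℝ}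
    (hv : Adm 𝓕 P w v) {Zf : Ω → ℝ} {Z : Ω →₂[P] ℝ} (hZ : (Z : Ω → ℝ) =ᵐ[P] Zf)
    {b : ℝ} (hb : 0 < b) (k : ℝ) {x : Ω →₂[P] ℝ} (hx : x ∈ cone P) :
    pay P (fbk b k) Zf w v ≤
      ⟪Z - cst P k, x⟫_ℝ + 1 / b / 2 * ‖x‖ ^ 2 + ⟪x, IL hw hv⟫_ℝ - cost P w v / 2 := by
  unfold pay
  rw [integral_comp_eq hw hv hZ]
  have h1 : ∫ ω, fbk b k ((Z + IL hw hv : Ω →₂[P] ℝ) ω) ∂P ≤
      ∫ ω, (x ω * ((Z - cst P k) + IL hw hv : Ω →₂[P] ℝ) ω + 1 / b / 2 * x ω ^ 2) ∂P := by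
    refine integral_mono_ae (integrable_fbk b k _)
      ((integrable_mul _ _).add ((integrable_sq x).const_mul _)) ?_
    filter_upwards [mem_cone.1 hx, Lp.coeFn_add Z (IL hw hv),
      Lp.coeFn_add (Z - cst P k) (IL hw hv), Lp.coeFn_sub Z (cst P k), cst_coe (P := P) k]
      with ω h1 h2 h3 h4 h5
    have h := fbk_le hb k ((Z + IL hw hv : Ω →₂[P] ℝ) ω) (x ω) h1
    rw [h3, Pi.add_apply, h4, Pi.sub_apply, h5]
    rw [h2, Pi.add_apply] at h ⊢
    refine h.trans (le_of_eq ?_)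
    field_simp
    ring
  have h2 : ∫ ω, (x ω * ((Z - cst P k) + IL hw hv : Ω →₂[P] ℝ) ω + 1 / b / 2 * x ω ^ 2) ∂P =
      ⟪Z - cst P k, x⟫_ℝ + 1 / b / 2 * ‖x‖ ^ 2 + ⟪x, IL hw hv⟫_ℝ := by
    rw [integral_add (integrable_mul _ _) ((integrable_sq x).const_mul _), integral_const_mul,
      ← inner_eq, ← norm_sq_eq, inner_add_right, real_inner_comm x (Z - cst P k)]
    ring
  linarith

/-- **upper bound with growth** -/
theorem growth {𝓕 : Filtration ℝ≥0 mΩ} {w : ℝ → ℝ} (hw : Wt w) {v : ℝ≥0 → Ω → ℝ}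
    (hv : Adm 𝓕 P w v) {Zf : Ω → ℝ} {Z : Ω →₂[P] ℝ} (hZ : (Z : Ω → ℝ) =ᵐ[P] Zf)
    {b : ℝ} (hb : 0 < b) (k : ℝ) {x : Ω →₂[P] ℝ} (hx : x ∈ cone P) :
    ‖IL hw hv - (fam 𝓕 P).op hw.isWeight x‖ ^ 2 ≤
      2 * (∫ t in Icc (0 : ℝ) 1, w t) * (QQ 𝓕 w b k Z x - pay P (fbk b k) Zf w v) := by
  have h1 := norm_IL_sub_sq_le hw hv x
  have h2 := pay_le_aux hw hv hZ hb k hx
  rw [QQ_def]
  have hM : 0 ≤ ∫ t in Icc (0 : ℝ) 1, w t := setIntegral_nonneg measurableSet_Icc hw.nonneg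
  refine h1.trans ?_
  have h3 : (fam 𝓕 P).bil w x x + cost P w v - 2 * ⟪x, IL hw hv⟫_ℝ ≤
      2 * (⟪Z - cst P k, x⟫_ℝ + 1 / b / 2 * ‖x‖ ^ 2 + (fam 𝓕 P).bil w x x / 2 -
        pay P (fbk b k) Zf w v) := by linarith
  calc _ ≤ (∫ t in Icc (0 : ℝ) 1, w t) *
      (2 * (⟪Z - cst P k, x⟫_ℝ + 1 / b / 2 * ‖x‖ ^ 2 + (fam 𝓕 P).bil w x x / 2 -
        pay P (fbk b k) Zf w v)) := mul_le_mul_of_nonneg_left h3 hM
    _ = _ := by ring

/-- **upper bound** -/
theorem pay_le {𝓕 : Filtration ℝ≥0 mΩ} {w : ℝ → ℝ} (hw : Wt w) {v : ℝ≥0 → Ω → ℝ}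
    (hv : Adm 𝓕 P w v) {Zf : Ω → ℝ} {Z : Ω →₂[P] ℝ} (hZ : (Z : Ω → ℝ) =ᵐ[P] Zf)
    {b : ℝ} (hb : 0 < b) (k : ℝ) {x : Ω →₂[P] ℝ} (hx : x ∈ cone P) :
    pay P (fbk b k) Zf w v ≤ QQ 𝓕 w b k Z x := by
  have h2 := pay_le_aux hw hv hZ hb k hx
  rw [QQ_def]
  have h1 : 0 ≤ (fam 𝓕 P).bil w x x + cost P w v - 2 * ⟪x, IL hw hv⟫_ℝ := by
    have h3 := norm_IL_sub_sq_le hw hv x
    have hM : 0 ≤ ∫ t in Icc (0 : ℝ) 1, w t := setIntegral_nonneg measurableSet_Icc hw.nonneg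
    rcases hM.lt_or_eq with hM | hM
    · by_contra hneg
      push Not at hneg
      have : (∫ t in Icc (0 : ℝ) 1, w t) *
          ((fam 𝓕 P).bil w x x + cost P w v - 2 * ⟪x, IL hw hv⟫_ℝ) < 0 :=
        mul_neg_of_pos_of_neg hM hneg
      have h4 := sq_nonneg ‖IL hw hv - (fam 𝓕 P).op hw.isWeight x‖
      linarith
    · rw [← hM, zero_mul] at h3
      have h4 : IL hw hv - (fam 𝓕 P).op hw.isWeight x = 0 := by
        rw [← norm_eq_zero]
        have := sq_nonneg ‖IL hw hv - (fam 𝓕 P).op hw.isWeight x‖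
        exact pow_eq_zero_iff (two_ne_zero) |>.1 (le_antisymm h3 this)
      have h5 : IL hw hv = (fam 𝓕 P).op hw.isWeight x := sub_eq_zero.1 h4
      have h6 := (fam 𝓕 P).norm_op_le hw.isWeight x
      rw [← hM, zero_mul] at h6
      have h7 : (fam 𝓕 P).op hw.isWeight x = 0 := norm_eq_zero.1 (le_antisymm h6 (norm_nonneg _))
      rw [h5, h7, inner_zero_right]
      have := (fam 𝓕 P).bil_self_nonneg hw.nonneg x
      have := cost_nonneg P w v
      linarith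
  linarith

/-! ### the minimiser -/

theorem exists_lam (𝓕 : Filtration ℝ≥0 mΩ) {w : ℝ → ℝ} (hw : Wt w) {b : ℝ} (hb : 0 < b) (k : ℝ)
    (Z : Ω →₂[P] ℝ) : ∃ x ∈ cone P, ∀ y ∈ cone P, QQ 𝓕 w b k Z x ≤ QQ 𝓕 w b k Z y :=
  (fam 𝓕 P).exists_min (by positivity) hw.isWeight _ cone_closed cone_convex cone_nonempty

/-- the minimiser -/
def lam (𝓕 : Filtration ℝ≥0 mΩ) {w : ℝ → ℝ} (hw : Wt w) {b : ℝ} (hb : 0 < b) (k : ℝ)
    (Z : Ω →₂[P] ℝ) : Ω →₂[P] ℝ := (exists_lam 𝓕 hw hb k Z).choose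

theorem lam_mem (𝓕 : Filtration ℝ≥0 mΩ) {w : ℝ → ℝ} (hw : Wt w) {b : ℝ} (hb : 0 < b) (k : ℝ)
    (Z : Ω →₂[P] ℝ) : lam 𝓕 hw hb k Z ∈ cone P := (exists_lam 𝓕 hw hb k Z).choose_spec.1

theorem lam_min (𝓕 : Filtration ℝ≥0 mΩ) {w : ℝ → ℝ} (hw : Wt w) {b : ℝ} (hb : 0 < b) (k : ℝ)
    (Z : Ω →₂[P] ℝ) : ∀ y ∈ cone P, QQ 𝓕 w b k Z (lam 𝓕 hw hb k Z) ≤ QQ 𝓕 w b k Z y :=
  (exists_lam 𝓕 hw hb k Z).choose_spec.2

/-- KKT for any minimiser: `x = b (k - X)_+`, `X = Z + A x` -/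
theorem kkt {𝓕 : Filtration ℝ≥0 mΩ} {w : ℝ → ℝ} (hw : Wt w) {b : ℝ} (hb : 0 < b) (k : ℝ)
    {Z x : Ω →₂[P] ℝ} (hx : x ∈ cone P) (hmin : ∀ y ∈ cone P, QQ 𝓕 w b k Z x ≤ QQ 𝓕 w b k Z y) :
    (x : Ω → ℝ) =ᵐ[P] fun ω =>
      b * max (k - (Z + (fam 𝓕 P).op hw.isWeight x : Ω →₂[P] ℝ) ω) 0 := by
  have hc : (0 : ℝ) ≤ 1 / b := by positivity
  set g : Ω →₂[P] ℝ := Z - cst P k with hg
  set h : Ω →₂[P] ℝ := g + (1 / b) • x + (fam 𝓕 P).op hw.isWeight x with hh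
  have inner_h : ∀ y : Ω →₂[P] ℝ,
      ⟪h, y⟫_ℝ = ⟪g, y⟫_ℝ + 1 / b * ⟪x, y⟫_ℝ + (fam 𝓕 P).bil w x y := by
    intro y
    rw [hh, inner_add_left, inner_add_left, real_inner_smul_left, (fam 𝓕 P).inner_op]
  have h1 : ∀ y ∈ cone P, 0 ≤ ⟪h, y⟫_ℝ := by
    intro y hy
    rw [inner_h]
    exact (fam 𝓕 P).dual_cone hc hw.isWeight g cone_convex cone_add hx hmin hy
  have h2 : ⟪h, x⟫_ℝ = 0 := by
    rw [inner_h, real_inner_self_eq_norm_sq]
    exact (fam 𝓕 P).compl hc hw.isWeight g cone_convex cone_smul hx hmin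
  -- `h ≥ 0`
  have hneg : Lp.negPart h ∈ cone P := by
    rw [mem_cone]
    filter_upwards [Lp.coeFn_negPart_eq_max h] with ω hω
    rw [hω]; exact le_max_right _ _
  have h3 : Lp.negPart h = 0 := by
    have e : ⟪h, Lp.negPart h⟫_ℝ = -‖Lp.negPart h‖ ^ 2 := by
      rw [inner_eq, norm_sq_eq, ← integral_neg]
      refine integral_congr_ae ?_
      filter_upwards [Lp.coeFn_negPart_eq_max h] with ω hω
      rw [hω]
      rcases le_total (h ω) 0 with h0 | h0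
      · rw [max_eq_left (by linarith)]; ring
      · rw [max_eq_right (by linarith)]; ring
    have h4 := h1 _ hneg
    rw [e] at h4
    have h5 : ‖Lp.negPart h‖ ^ 2 = 0 := le_antisymm (by linarith) (sq_nonneg _)
    exact norm_eq_zero.1 (pow_eq_zero_iff two_ne_zero |>.1 h5)
  have hpos : ∀ᵐ ω ∂P, 0 ≤ h ω := by
    filter_upwards [Lp.coeFn_negPart_eq_max h, Lp.coeFn_zero ℝ 2 P] with ω hω h0
    rw [h3, h0] at hω
    simp only [Pi.zero_apply] at hω
    have := le_max_left (-(h ω)) 0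
    rw [← hω] at this
    linarith
  have hprod : ∀ᵐ ω ∂P, h ω * x ω = 0 := by
    have hi := integrable_mul h x
    rw [inner_eq] at h2
    have hnn : 0 ≤ᵐ[P] fun ω => h ω * x ω := by
      filter_upwards [hpos, mem_cone.1 hx] with ω ha hb'
      exact mul_nonneg ha hb'
    exact (integral_eq_zero_iff_of_nonneg_ae hnn hi).1 h2
  filter_upwards [hpos, hprod, mem_cone.1 hx,
    Lp.coeFn_add (g + (1 / b) • x) ((fam 𝓕 P).op hw.isWeight x),
    Lp.coeFn_add g ((1 / b) • x), Lp.coeFn_smul (1 / b) x, Lp.coeFn_sub Z (cst P k),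
    cst_coe (P := P) k, Lp.coeFn_add Z ((fam 𝓕 P).op hw.isWeight x)]
    with ω e1 e2 e3 e4 e5 e6 e7 e8 e9
  have e10 : h ω = (Z + (fam 𝓕 P).op hw.isWeight x : Ω →₂[P] ℝ) ω - k + 1 / b * x ω := by
    rw [hh, e4, Pi.add_apply, e5, Pi.add_apply, e6, Pi.smul_apply, smul_eq_mul, hg, e7,
      Pi.sub_apply, e8, e9, Pi.add_apply]
    ring
  set X : ℝ := (Z + (fam 𝓕 P).op hw.isWeight x : Ω →₂[P] ℝ) ω
  rw [e10] at e1 e2
  simp only [Pi.zero_apply] at e3
  rcases e3.lt_or_eq with hx0 | hx0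
  · have h0 : X - k + 1 / b * x ω = 0 := by
      rcases mul_eq_zero.1 e2 with h | h
      · exact h
      · exact absurd h hx0.ne'
    have h6 : 1 / b * x ω = k - X := by linarith
    have h7 : 0 ≤ k - X := by rw [← h6]; positivity
    rw [max_eq_left h7, ← h6]
    field_simp
  · rw [← hx0] at e1 ⊢
    rw [mul_zero, add_zero] at e1
    rw [max_eq_right (by linarith), mul_zero]

/-- value at the minimiser -/
theorem Fq_min {𝓕 : Filtration ℝ≥0 mΩ} {w : ℝ → ℝ} (hw : Wt w) {b : ℝ} (hb : 0 < b) (k : ℝ)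
    {Z x : Ω →₂[P] ℝ} (hx : x ∈ cone P) (hmin : ∀ y ∈ cone P, QQ 𝓕 w b k Z x ≤ QQ 𝓕 w b k Z y) :
    Fq b k (Z + (fam 𝓕 P).op hw.isWeight x) - (fam 𝓕 P).bil w x x / 2 = QQ 𝓕 w b k Z x := by
  have hk := kkt hw hb k hx hmin
  set X : Ω →₂[P] ℝ := Z + (fam 𝓕 P).op hw.isWeight x with hX
  have h1 : Fq b k X = ⟪X - cst P k, x⟫_ℝ + 1 / b / 2 * ‖x‖ ^ 2 := by
    rw [← integral_fbk, inner_eq, norm_sq_eq, ← integral_const_mul, ← integral_add
      (integrable_mul _ _) ((integrable_sq x).const_mul _)]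
    refine integral_congr_ae ?_
    filter_upwards [hk, Lp.coeFn_sub X (cst P k), cst_coe (P := P) k] with ω e1 e2 e3
    rw [e2, Pi.sub_apply, e3, fbk_eq hb k (X ω), ← e1]
    field_simp
  have h2 : ⟪X - cst P k, x⟫_ℝ = ⟪Z - cst P k, x⟫_ℝ + (fam 𝓕 P).bil w x x := by
    have : X - cst P k = (Z - cst P k) + (fam 𝓕 P).op hw.isWeight x := by rw [hX]; abel
    rw [this, inner_add_left, (fam 𝓕 P).inner_op]
  rw [h1, h2, QQ_def]; ring

/-- the step controls of the minimiser are asymptotically optimal -/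
theorem pay_step_tendsto {𝓕 : Filtration ℝ≥0 mΩ} {w : ℝ → ℝ} (hw : Wt w) {b : ℝ} (hb : 0 < b)
    (k : ℝ) {Zf : Ω → ℝ} {Z x : Ω →₂[P] ℝ} (hZ : (Z : Ω → ℝ) =ᵐ[P] Zf) (hx : x ∈ cone P)
    (hmin : ∀ y ∈ cone P, QQ 𝓕 w b k Z x ≤ QQ 𝓕 w b k Z y) :
    Tendsto (fun n : ℕ => pay P (fbk b k) Zf w (stepCtl 𝓕 P (n + 1) x)) atTop
      (𝓝 (QQ 𝓕 w b k Z x)) := by
  rw [← Fq_min hw hb k hx hmin]
  have h1 : Tendsto (fun n : ℕ => Fq b k (Z + IL hw (adm_step 𝓕 hw (Nat.succ_pos n) x))) atTop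
      (𝓝 (Fq b k (Z + (fam 𝓕 P).op hw.isWeight x))) :=
    ((continuous_Fq b k).tendsto _).comp ((IL_step_tendsto 𝓕 hw x).const_add Z)
  have h2 := (((cost_step_tendsto 𝓕 hw x).comp (tendsto_add_atTop_nat 1)).div_const 2)
  refine (h1.sub h2).congr fun n => ?_
  unfold pay
  rw [integral_comp_eq hw (adm_step 𝓕 hw (Nat.succ_pos n) x) hZ, integral_fbk,
    cost_step 𝓕 hw (Nat.succ_pos n) x]
  rfl

end Crest.Agent.R146.DualV_256
end
end

-- ▼ part R146/DualL_256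

/-!
# Row 146, package DUAL (helper256), file 5: the literal control value

For `m : OverlapProfile`, `B` a Brownian motion with measurable coordinates:
* `value_fbk` : `controlValue P B hBm (fbk b k) m = QQ .. (lam ..)` (D1);
* `value_pert_ge`, `value_pert_le` : perturbation by `h * psi` (D3);
* `value_trunc` : truncation (D4).
-/

set_option autoImplicit false

noncomputable section

open MeasureTheory Set Filter Topology ProbabilityTheory
open scoped InnerProductSpace RealInnerProductSpace NNReal ENNReal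

namespace Crest.Agent.R146.DualL_256

open Crest.ProbabilityR.Perceptron
open Crest.Agent.R146.DualQ_256 Crest.Agent.R146.DualC1_256 Crest.Agent.R146.DualC2_256
  Crest.Agent.R146.DualV_256

variable {Ω : Type*} [mΩ : MeasurableSpace Ω] {P : Measure Ω} [IsProbabilityMeasure P]

/-! ### profiles as weights -/

theorem wt_profile (m : OverlapProfile) : Wt m.toFun where
  meas := m.mono.measurable
  int := by
    refine Measure.integrableOn_of_bounded (M := 1) (by simp) m.mono.measurable.aestronglyMeasurable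
      ((ae_restrict_iff' measurableSet_Icc).2 (Eventually.of_forall fun t ht => ?_))
    rw [Real.norm_eq_abs, abs_of_nonneg (m.nonneg t ht)]; exact m.le_one t ht
  nonneg := m.nonneg

theorem mass_le_one (m : OverlapProfile) : ∫ t in Icc (0 : ℝ) 1, m.toFun t ≤ 1 := by
  calc ∫ t in Icc (0 : ℝ) 1, m.toFun t ≤ ∫ t in Icc (0 : ℝ) 1, (1 : ℝ) :=
        setIntegral_mono_on (wt_profile m).int (by simp) measurableSet_Icc m.le_one
    _ = 1 := by simp


/-! ### admissibility and payoff -/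

theorem adm_iff {B : ℝ≥0 → Ω → ℝ} (hBm : ∀ t, Measurable (B t)) (m : OverlapProfile)
    (v : ℝ≥0 → Ω → ℝ) :
    IsAdmissibleControl P B hBm m v ↔ Adm (brownianFiltration B hBm) P m.toFun v :=
  ⟨fun h => ⟨h.1, h.2⟩, fun h => ⟨h.prog, h.fin⟩⟩

theorem payoff_eq (B : ℝ≥0 → Ω → ℝ) (f : ℝ → ℝ) (m : OverlapProfile) (v : ℝ≥0 → Ω → ℝ) :
    controlPayoff P B f m v = pay P f (B 1) m.toFun v := by
  unfold controlPayoff pay
  congr 1
  refine integral_congr_ae (Eventually.of_forall fun ω => ?_)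
  simp only
  rw [II_eq (wt_profile m)]

/-- the set of payoffs -/
def payoffs (P : Measure Ω) (B : ℝ≥0 → Ω → ℝ) (hBm : ∀ t, Measurable (B t)) (f : ℝ → ℝ)
    (m : OverlapProfile) : Set ℝ :=
  {x | ∃ v, Adm (brownianFiltration B hBm) P m.toFun v ∧ x = pay P f (B 1) m.toFun v}

theorem controlValue_eq (B : ℝ≥0 → Ω → ℝ) (hBm : ∀ t, Measurable (B t)) (f : ℝ → ℝ)
    (m : OverlapProfile) : controlValue P B hBm f m = sSup (payoffs P B hBm f m) := by
  unfold controlValue payoffs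
  congr 1
  ext x
  constructor
  · rintro ⟨v, hv, rfl⟩; exact ⟨v, (adm_iff hBm m v).1 hv, payoff_eq B f m v⟩
  · rintro ⟨v, hv, rfl⟩; exact ⟨v, (adm_iff hBm m v).2 hv, (payoff_eq B f m v).symm⟩

theorem payoffs_nonempty (B : ℝ≥0 → Ω → ℝ) (hBm : ∀ t, Measurable (B t)) (f : ℝ → ℝ)
    (m : OverlapProfile) : (payoffs P B hBm f m).Nonempty :=
  ⟨_, _, adm_step (brownianFiltration B hBm) (wt_profile m) one_pos 0, rfl⟩

theorem value_le {B : ℝ≥0 → Ω → ℝ} {hBm : ∀ t, Measurable (B t)} {f : ℝ → ℝ}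
    {m : OverlapProfile} {C : ℝ}
    (h : ∀ v, Adm (brownianFiltration B hBm) P m.toFun v → pay P f (B 1) m.toFun v ≤ C) :
    controlValue P B hBm f m ≤ C := by
  rw [controlValue_eq]
  refine csSup_le (payoffs_nonempty B hBm f m) ?_
  rintro _ ⟨v, hv, rfl⟩
  exact h v hv

theorem le_value {B : ℝ≥0 → Ω → ℝ} {hBm : ∀ t, Measurable (B t)} {f : ℝ → ℝ}
    {m : OverlapProfile} (hb : BddAbove (payoffs P B hBm f m)) {v : ℝ≥0 → Ω → ℝ}
    (hv : Adm (brownianFiltration B hBm) P m.toFun v) :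
    pay P f (B 1) m.toFun v ≤ controlValue P B hBm f m := by
  rw [controlValue_eq]
  exact le_csSup hb ⟨v, hv, rfl⟩

/-! ### the endpoint of the Brownian motion in `L2` -/

theorem memLp_B {B : ℝ≥0 → Ω → ℝ} (hB : IsBrownianReal B P) (t : ℝ≥0) : MemLp (B t) 2 P :=
  (hB.toIsPreBrownianReal.isGaussianProcess.hasGaussianLaw_eval t).memLp_two

/-- `B_1` in `L2` -/
def ZB {B : ℝ≥0 → Ω → ℝ} (hB : IsBrownianReal B P) : Ω →₂[P] ℝ := (memLp_B hB 1).toLp _

theorem ZB_coe {B : ℝ≥0 → Ω → ℝ} (hB : IsBrownianReal B P) : (ZB hB : Ω → ℝ) =ᵐ[P] B 1 :=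
  MemLp.coeFn_toLp _

variable {B : ℝ≥0 → Ω → ℝ} (hBm : ∀ t, Measurable (B t)) (hB : IsBrownianReal B P)

/-- the optimal dual variable of a profile -/
def lamP (m : OverlapProfile) {b : ℝ} (hb : 0 < b) (k : ℝ) : Ω →₂[P] ℝ :=
  lam (brownianFiltration B hBm) (wt_profile m) hb k (ZB hB)

/-- the value `min_{x >= 0} QQ` -/
def valP (m : OverlapProfile) {b : ℝ} (hb : 0 < b) (k : ℝ) : ℝ :=
  QQ (brownianFiltration B hBm) m.toFun b k (ZB hB) (lamP hBm hB m hb k)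

/-- the optimal terminal variable `X* = B_1 + A_m lam*` -/
def XP (m : OverlapProfile) {b : ℝ} (hb : 0 < b) (k : ℝ) : Ω →₂[P] ℝ :=
  ZB hB + (fam (brownianFiltration B hBm) P).op (wt_profile m).isWeight (lamP hBm hB m hb k)

theorem lamP_mem (m : OverlapProfile) {b : ℝ} (hb : 0 < b) (k : ℝ) :
    lamP hBm hB m hb k ∈ cone P := lam_mem _ _ _ _ _

theorem lamP_min (m : OverlapProfile) {b : ℝ} (hb : 0 < b) (k : ℝ) :
    ∀ y ∈ cone P, valP hBm hB m hb k ≤ QQ (brownianFiltration B hBm) m.toFun b k (ZB hB) y :=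
  lam_min _ _ _ _ _

/-- KKT: `lam* = b (k - X*)_+` -/
theorem lamP_kkt (m : OverlapProfile) {b : ℝ} (hb : 0 < b) (k : ℝ) :
    (lamP hBm hB m hb k : Ω → ℝ) =ᵐ[P] fun ω => b * max (k - XP hBm hB m hb k ω) 0 :=
  kkt (wt_profile m) hb k (lamP_mem hBm hB m hb k) (lamP_min hBm hB m hb k)

theorem pay_le_val (m : OverlapProfile) {b : ℝ} (hb : 0 < b) (k : ℝ) {v : ℝ≥0 → Ω → ℝ}
    (hv : Adm (brownianFiltration B hBm) P m.toFun v) :
    pay P (fbk b k) (B 1) m.toFun v ≤ valP hBm hB m hb k :=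
  pay_le (wt_profile m) hv (ZB_coe hB) hb k (lamP_mem hBm hB m hb k)

include hBm hB in
theorem bdd_fbk (m : OverlapProfile) {b : ℝ} (hb : 0 < b) (k : ℝ) :
    BddAbove (payoffs P B hBm (fbk b k) m) :=
  ⟨valP hBm hB m hb k, by rintro _ ⟨v, hv, rfl⟩; exact pay_le_val hBm hB m hb k hv⟩

/-- **(D1)** the control value of the quadratic penalty -/
theorem value_fbk (m : OverlapProfile) {b : ℝ} (hb : 0 < b) (k : ℝ) :
    controlValue P B hBm (fbk b k) m = valP hBm hB m hb k := by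
  refine le_antisymm (value_le fun v hv => pay_le_val hBm hB m hb k hv) ?_
  have h := pay_step_tendsto (wt_profile m) hb k (ZB_coe hB) (lamP_mem hBm hB m hb k)
    (lamP_min hBm hB m hb k)
  exact le_of_tendsto' h fun n => le_value (bdd_fbk hBm hB m hb k)
    (adm_step (brownianFiltration B hBm) (wt_profile m) (Nat.succ_pos n) _)

/-- **(D1)** as an infimum: lower bound for the dual -/
theorem value_fbk_le (m : OverlapProfile) {b : ℝ} (hb : 0 < b) (k : ℝ) {y : Ω →₂[P] ℝ}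
    (hy : y ∈ cone P) : controlValue P B hBm (fbk b k) m ≤
      QQ (brownianFiltration B hBm) m.toFun b k (ZB hB) y := by
  rw [value_fbk hBm hB m hb k]; exact lamP_min hBm hB m hb k y hy

/-! ### perturbation -/

/-- terminal variable of a control in `L2` -/
def XV (m : OverlapProfile) {v : ℝ≥0 → Ω → ℝ}
    (hv : Adm (brownianFiltration B hBm) P m.toFun v) : Ω →₂[P] ℝ :=
  ZB hB + IL (wt_profile m) hv

theorem XV_dist (m : OverlapProfile) {b : ℝ} (hb : 0 < b) (k : ℝ) {v : ℝ≥0 → Ω → ℝ}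
    (hv : Adm (brownianFiltration B hBm) P m.toFun v) :
    ‖XV hBm hB m hv - XP hBm hB m hb k‖ ^ 2 ≤
      2 * (valP hBm hB m hb k - pay P (fbk b k) (B 1) m.toFun v) := by
  have h := growth (wt_profile m) hv (ZB_coe hB) hb k (lamP_mem hBm hB m hb k)
  have h0 := pay_le_val hBm hB m hb k hv
  unfold XV XP
  rw [add_sub_add_left_eq_sub]
  refine h.trans ?_
  have h1 := mass_le_one m
  have h2 : 0 ≤ valP hBm hB m hb k - pay P (fbk b k) (B 1) m.toFun v := by linarith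
  have h3 := mul_le_mul_of_nonneg_right h1 h2
  show 2 * (∫ t in Icc (0 : ℝ) 1, m.toFun t) *
    (valP hBm hB m hb k - pay P (fbk b k) (B 1) m.toFun v) ≤ _
  linarith

theorem integrable_psi {psi : ℝ → ℝ} (hpsi : Measurable psi) {C : ℝ} (hC : ∀ x, |psi x| ≤ C)
    (Y : Ω →₂[P] ℝ) : Integrable (fun ω => psi (Y ω)) P :=
  Integrable.of_bound (hpsi.comp_aemeasurable (Lp.aestronglyMeasurable Y).aemeasurable
    |>.aestronglyMeasurable) C (Eventually.of_forall fun ω => by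
      rw [Real.norm_eq_abs]; exact hC _)

theorem pay_add (m : OverlapProfile) (b k h : ℝ) {psi : ℝ → ℝ} (hpsi : Measurable psi)
    {C : ℝ} (hC : ∀ x, |psi x| ≤ C) {v : ℝ≥0 → Ω → ℝ}
    (hv : Adm (brownianFiltration B hBm) P m.toFun v) :
    pay P (fun x => fbk b k x + h * psi x) (B 1) m.toFun v =
      pay P (fbk b k) (B 1) m.toFun v + h * ∫ ω, psi (XV hBm hB m hv ω) ∂P := by
  unfold pay
  rw [integral_comp_eq (wt_profile m) hv (ZB_coe hB) (fun x => fbk b k x + h * psi x),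
    integral_comp_eq (wt_profile m) hv (ZB_coe hB) (fbk b k),
    integral_add (integrable_fbk b k _) ((integrable_psi hpsi hC _).const_mul h),
    integral_const_mul]
  unfold XV
  ring

theorem abs_integral_psi_le {psi : ℝ → ℝ} {C : ℝ} (hC : ∀ x, |psi x| ≤ C) (Y : Ω → ℝ) :
    |∫ ω, psi (Y ω) ∂P| ≤ C := by
  have := norm_integral_le_of_norm_le_const (μ := P) (f := fun ω => psi (Y ω)) (C := C)
    (Eventually.of_forall fun ω => by rw [Real.norm_eq_abs]; exact hC _)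
  simpa using this

include hBm hB in
theorem bdd_pert (m : OverlapProfile) {b : ℝ} (hb : 0 < b) (k h : ℝ) {psi : ℝ → ℝ}
    (hpsi : Measurable psi) {C : ℝ} (hC : ∀ x, |psi x| ≤ C) :
    BddAbove (payoffs P B hBm (fun x => fbk b k x + h * psi x) m) := by
  refine ⟨valP hBm hB m hb k + |h| * C, ?_⟩
  rintro _ ⟨v, hv, rfl⟩
  rw [pay_add hBm hB m b k h hpsi hC hv]
  have h1 := pay_le_val hBm hB m hb k hv
  have h2 : h * ∫ ω, psi (XV hBm hB m hv ω) ∂P ≤ |h| * C := by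
    refine (le_abs_self _).trans ?_
    rw [abs_mul]
    exact mul_le_mul_of_nonneg_left (abs_integral_psi_le hC _) (abs_nonneg h)
  linarith

/-- convergence of `∫ psi(Y_n)` under `L2` convergence, `psi` bounded continuous -/
theorem tendsto_integral_psi {psi : ℝ → ℝ} (hpsi : Continuous psi) {C : ℝ}
    (hC : ∀ x, |psi x| ≤ C) {Y : Ω →₂[P] ℝ} {Yn : ℕ → Ω →₂[P] ℝ}
    (hY : Tendsto Yn atTop (𝓝 Y)) :
    Tendsto (fun n => ∫ ω, psi (Yn n ω) ∂P) atTop (𝓝 (∫ ω, psi (Y ω) ∂P)) := by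
  refine tendsto_of_subseq_tendsto fun ns hns => ?_
  have h1 : TendstoInMeasure P (fun n => (Yn (ns n) : Ω → ℝ)) atTop (Y : Ω → ℝ) :=
    tendstoInMeasure_of_tendsto_Lp (hY.comp hns)
  obtain ⟨ms, _, hms⟩ := h1.exists_seq_tendsto_ae
  refine ⟨ms, ?_⟩
  refine tendsto_integral_of_dominated_convergence (fun _ => C)
    (fun n => (integrable_psi hpsi.measurable hC _).aestronglyMeasurable) (integrable_const C)
    (fun n => Eventually.of_forall fun ω => by rw [Real.norm_eq_abs]; exact hC _) ?_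
  filter_upwards [hms] with ω hω
  exact (hpsi.tendsto _).comp hω

/-- **(D3) lower bound** -/
theorem value_pert_ge (m : OverlapProfile) {b : ℝ} (hb : 0 < b) (k h : ℝ) {psi : ℝ → ℝ}
    (hpsi : Continuous psi) {C : ℝ} (hC : ∀ x, |psi x| ≤ C) :
    valP hBm hB m hb k + h * ∫ ω, psi (XP hBm hB m hb k ω) ∂P ≤
      controlValue P B hBm (fun x => fbk b k x + h * psi x) m := by
  have h1 := pay_step_tendsto (wt_profile m) hb k (ZB_coe hB) (lamP_mem hBm hB m hb k)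
    (lamP_min hBm hB m hb k)
  have h2 : Tendsto (fun n : ℕ => XV hBm hB m
      (adm_step (brownianFiltration B hBm) (wt_profile m) (Nat.succ_pos n)
        (lamP hBm hB m hb k))) atTop (𝓝 (XP hBm hB m hb k)) :=
    (IL_step_tendsto (brownianFiltration B hBm) (wt_profile m) (lamP hBm hB m hb k)).const_add _
  have h3 := h1.add ((tendsto_integral_psi hpsi hC h2).const_mul h)
  refine le_of_tendsto' h3 fun n => ?_
  rw [← pay_add hBm hB m b k h hpsi.measurable hC]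
  exact le_value (bdd_pert hBm hB m hb k h hpsi.measurable hC)
    (adm_step (brownianFiltration B hBm) (wt_profile m) (Nat.succ_pos n) _)

/-- **(D3) upper bound, general modulus** -/
theorem value_pert_le (m : OverlapProfile) {b : ℝ} (hb : 0 < b) (k h : ℝ) {psi : ℝ → ℝ}
    (hpsi : Measurable psi) {C : ℝ} (hC : ∀ x, |psi x| ≤ C) {rho : ℝ}
    (hrho : ∀ Y : Ω →₂[P] ℝ, ‖Y - XP hBm hB m hb k‖ ^ 2 ≤ 4 * |h| * C →
      |∫ ω, psi (Y ω) ∂P - ∫ ω, psi (XP hBm hB m hb k ω) ∂P| ≤ rho) :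
    controlValue P B hBm (fun x => fbk b k x + h * psi x) m ≤
      valP hBm hB m hb k + h * (∫ ω, psi (XP hBm hB m hb k ω) ∂P) + |h| * rho := by
  have hC0 : 0 ≤ C := (abs_nonneg _).trans (hC 0)
  have hhC : 0 ≤ |h| * C := mul_nonneg (abs_nonneg h) hC0
  have hrho0 : 0 ≤ rho := by
    have := hrho (XP hBm hB m hb k) (by rw [sub_self, norm_zero]; nlinarith)
    rw [sub_self, abs_zero] at this; exact this
  refine value_le fun v hv => ?_
  rw [pay_add hBm hB m b k h hpsi hC hv]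
  have h0 := pay_le_val hBm hB m hb k hv
  by_cases hcase : pay P (fbk b k) (B 1) m.toFun v ≤ valP hBm hB m hb k - 2 * (|h| * C)
  · have h1 : h * ∫ ω, psi (XV hBm hB m hv ω) ∂P ≤ |h| * C := by
      refine (le_abs_self _).trans ?_
      rw [abs_mul]
      exact mul_le_mul_of_nonneg_left (abs_integral_psi_le hC _) (abs_nonneg h)
    have h2 : -(|h| * C) ≤ h * ∫ ω, psi (XP hBm hB m hb k ω) ∂P := by
      refine le_trans ?_ (neg_abs_le _)
      rw [abs_mul]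
      exact neg_le_neg (mul_le_mul_of_nonneg_left (abs_integral_psi_le hC _) (abs_nonneg h))
    have h3 := mul_nonneg (abs_nonneg h) hrho0
    linarith
  · push Not at hcase
    have h1 := XV_dist hBm hB m hb k hv
    have h2 := hrho (XV hBm hB m hv) (h1.trans (by linarith))
    have h3 : h * (∫ ω, psi (XV hBm hB m hv ω) ∂P) -
        h * (∫ ω, psi (XP hBm hB m hb k ω) ∂P) ≤ |h| * rho := by
      rw [← mul_sub]
      refine (le_abs_self _).trans ?_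
      rw [abs_mul]
      exact mul_le_mul_of_nonneg_left h2 (abs_nonneg h)
    linarith

/-- Lipschitz modulus -/
theorem lip_modulus {psi : ℝ → ℝ} {l : ℝ} (hl : ∀ x y, |psi x - psi y| ≤ l * |x - y|)
    {C : ℝ} (hC : ∀ x, |psi x| ≤ C) (X Y : Ω →₂[P] ℝ) :
    |∫ ω, psi (Y ω) ∂P - ∫ ω, psi (X ω) ∂P| ≤ l * ‖Y - X‖ := by
  have hl0 : 0 ≤ l := by
    have := (abs_nonneg _).trans (hl 1 0)
    simpa using this
  have hcont : Continuous psi := by
    refine LipschitzWith.continuous (K := l.toNNReal) (LipschitzWith.of_dist_le_mul fun x y => ?_)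
    rw [Real.dist_eq, Real.dist_eq, Real.coe_toNNReal l hl0]; exact hl x y
  have hi : ∀ Y : Ω →₂[P] ℝ, Integrable (fun ω => psi (Y ω)) P :=
    fun Y => integrable_psi hcont.measurable hC Y
  rw [← integral_sub (hi Y) (hi X)]
  have h1 : |∫ ω, (psi (Y ω) - psi (X ω)) ∂P| ≤ ∫ ω, l * |(Y - X : Ω →₂[P] ℝ) ω| ∂P := by
    refine abs_integral_le_integral_abs.trans (integral_mono_ae ((hi Y).sub (hi X)).abs
      ((((Lp.memLp (Y - X)).integrable one_le_two).abs).const_mul l) ?_)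
    filter_upwards [Lp.coeFn_sub Y X] with ω hω
    rw [hω]; exact hl _ _
  refine h1.trans ?_
  rw [integral_const_mul]
  refine mul_le_mul_of_nonneg_left ?_ hl0
  have h2 := sq_integral_le P (f := fun ω => |(Y - X : Ω →₂[P] ℝ) ω|) (Lp.memLp (Y - X)).abs
  have h3 : ∫ ω, |(Y - X : Ω →₂[P] ℝ) ω| ^ 2 ∂P = ‖Y - X‖ ^ 2 := by
    rw [norm_sq_eq]
    refine integral_congr_ae (Eventually.of_forall fun ω => ?_)
    simp only [sq_abs]
  rw [h3, probReal_univ, one_mul] at h2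
  have h4 : 0 ≤ ∫ ω, |(Y - X : Ω →₂[P] ℝ) ω| ∂P := integral_nonneg fun ω => abs_nonneg _
  exact (abs_le_of_sq_le_sq' h2 (norm_nonneg _)).2

/-- **(D3) upper bound, Lipschitz observable** -/
theorem value_pert_le_lip (m : OverlapProfile) {b : ℝ} (hb : 0 < b) (k h : ℝ) {psi : ℝ → ℝ}
    {l : ℝ} (hl : ∀ x y, |psi x - psi y| ≤ l * |x - y|) {C : ℝ} (hC : ∀ x, |psi x| ≤ C) :
    controlValue P B hBm (fun x => fbk b k x + h * psi x) m ≤
      valP hBm hB m hb k + h * (∫ ω, psi (XP hBm hB m hb k ω) ∂P) +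
        |h| * (l * Real.sqrt (4 * |h| * C)) := by
  have hl0 : 0 ≤ l := by
    have := (abs_nonneg _).trans (hl 1 0)
    simpa using this
  have hcont : Continuous psi := by
    refine LipschitzWith.continuous (K := l.toNNReal) (LipschitzWith.of_dist_le_mul fun x y => ?_)
    rw [Real.dist_eq, Real.dist_eq, Real.coe_toNNReal l hl0]; exact hl x y
  refine value_pert_le hBm hB m hb k h hcont.measurable hC fun Y hY => ?_
  refine (lip_modulus hl hC _ _).trans (mul_le_mul_of_nonneg_left ?_ hl0)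
  exact Real.le_sqrt_of_sq_le hY

end Crest.Agent.R146.DualL_256
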