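import Mathlib
import Crest.Agent.R146.RepairNet_840

-- ▼ part R146/RepairDet_840
section

/-!
# Row 146, node REPAIR, deterministic part (helper840)

* `exists_dual` : either the system `0 ≤ ⟪g a, z⟫ + s a` has a solution in the ball of radius `δ`, or there is an
  explicit dual vector (first order condition at the minimiser of the quadratic penalty; no separation theorem);
* `repair_det` : rows `g a` with `‖Σ l a • g a‖ ≤ C √n |l|` for all `l` and `≥ c₀ √n |l|` for all `l` with at most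
  `ν n` non-zero entries; a unit vector with quadratic energy at most `τ n` at margin `-1 + η` can be moved to a
  unit vector satisfying all constraints at margin `-1`.
-/

set_option autoImplicit false

open Finset

namespace Crest.Agent.R146.RepairDet_840

variable {E : Type*} [NormedAddCommGroup E] [InnerProductSpace ℝ E]
variable {ι : Type*} [Fintype ι]

/-- one variable inequality: the squared negative part is `2`-smooth -/
lemma negsq_le (u h : ℝ) :
    (max (-(u + h)) 0) ^ 2 ≤ (max (-u) 0) ^ 2 - 2 * h * max (-u) 0 + h ^ 2 := by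
  rcases le_total (-u) 0 with h1 | h1
  · rw [max_eq_right h1]
    rcases le_total (-(u + h)) 0 with h2 | h2
    · rw [max_eq_right h2]; nlinarith [sq_nonneg h]
    · rw [max_eq_left h2]
      nlinarith
  · rw [max_eq_left h1]
    rcases le_total (-(u + h)) 0 with h2 | h2
    · rw [max_eq_right h2]; nlinarith [sq_nonneg (u + h)]
    · rw [max_eq_left h2]
      nlinarith

/-- Dual vector at the minimiser of the quadratic penalty over a ball. -/
theorem exists_dual [FiniteDimensional ℝ E] (g : ι → E) (s : ι → ℝ) (δ : ℝ) (hδ : 0 ≤ δ) :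
    (∃ z : E, ‖z‖ ≤ δ ∧ ∀ a, 0 ≤ inner ℝ (g a) z + s a) ∨
    (∃ l : ι → ℝ, (∀ a, 0 ≤ l a) ∧ 0 < ∑ a, l a ^ 2 ∧
      δ * ‖∑ a, l a • g a‖ + ∑ a, l a ^ 2 ≤ - ∑ a, l a * s a) := by
  classical
  set Φ : E → ℝ := fun z => ∑ a, (max (-(inner ℝ (g a) z + s a)) 0) ^ 2 with hΦ
  have hcont : Continuous Φ := by
    rw [hΦ]
    fun_prop
  obtain ⟨z, hz, hmin⟩ := (isCompact_closedBall (0 : E) δ).exists_isMinOn
    ⟨0, by simpa using hδ⟩ hcont.continuousOn
  have hzn : ‖z‖ ≤ δ := by simpa using hz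
  set l : ι → ℝ := fun a => max (-(inner ℝ (g a) z + s a)) 0 with hl
  have hl0 : ∀ a, 0 ≤ l a := fun a => le_max_right _ _
  by_cases hall : ∀ a, l a = 0
  · left
    refine ⟨z, hzn, fun a => ?_⟩
    have h := hall a
    have h2 : -(inner ℝ (g a) z + s a) ≤ 0 := by
      have := le_max_left (-(inner ℝ (g a) z + s a)) 0
      rw [← h]
      exact this
    linarith
  right
  push Not at hall
  obtain ⟨a0, ha0⟩ := hall
  have hpos : 0 < ∑ a, l a ^ 2 := by
    refine Finset.sum_pos' (fun a _ => sq_nonneg _) ⟨a0, mem_univ _, ?_⟩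
    exact pow_pos (lt_of_le_of_ne (hl0 a0) (Ne.symm ha0)) 2
  refine ⟨l, hl0, hpos, ?_⟩
  set w : E := ∑ a, l a • g a with hw
  -- pairing with `w`
  have hpair : ∀ v : E, inner ℝ w v = ∑ a, l a * inner ℝ (g a) v := by
    intro v
    rw [hw, sum_inner]
    refine Finset.sum_congr rfl fun a _ => ?_
    rw [inner_smul_left]
    simp
  -- first order condition
  have hfo : ∀ z' : E, ‖z'‖ ≤ δ → inner ℝ w (z' - z) ≤ 0 := by
    intro z' hz'
    set v := z' - z with hv
    set K : ℝ := ∑ a, (inner ℝ (g a) v) ^ 2 with hK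
    have hK0 : 0 ≤ K := Finset.sum_nonneg fun a _ => sq_nonneg _
    have key : ∀ t : ℝ, 0 < t → t ≤ 1 → 2 * inner ℝ w v ≤ t * K := by
      intro t ht0 ht1
      have hmem : z + t • v ∈ Metric.closedBall (0 : E) δ := by
        rw [mem_closedBall_zero_iff]
        have : z + t • v = (1 - t) • z + t • z' := by
          rw [hv, smul_sub, sub_smul, one_smul]; abel
        rw [this]
        calc ‖(1 - t) • z + t • z'‖ ≤ ‖(1 - t) • z‖ + ‖t • z'‖ := norm_add_le _ _
          _ = (1 - t) * ‖z‖ + t * ‖z'‖ := by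
            rw [norm_smul, norm_smul, Real.norm_of_nonneg (by linarith), Real.norm_of_nonneg ht0.le]
          _ ≤ (1 - t) * δ + t * δ := by
            have := mul_le_mul_of_nonneg_left hzn (by linarith : (0:ℝ) ≤ 1 - t)
            have := mul_le_mul_of_nonneg_left hz' ht0.le
            linarith
          _ = δ := by ring
      have h1 : Φ z ≤ Φ (z + t • v) := hmin hmem
      have h2 : Φ (z + t • v) ≤ Φ z - 2 * t * inner ℝ w v + t ^ 2 * K := by
        rw [hpair, hK, hΦ]
        simp only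
        rw [Finset.mul_sum, Finset.mul_sum, ← Finset.sum_sub_distrib, ← Finset.sum_add_distrib]
        refine Finset.sum_le_sum fun a _ => ?_
        have := negsq_le (inner ℝ (g a) z + s a) (t * inner ℝ (g a) v)
        rw [inner_add_right, inner_smul_right]
        have e1 : inner ℝ (g a) z + t * inner ℝ (g a) v + s a
            = inner ℝ (g a) z + s a + t * inner ℝ (g a) v := by ring
        rw [e1]
        refine this.trans (le_of_eq ?_)
        rw [hl]
        ring
      have h3 : t * (2 * inner ℝ w v) ≤ t * (t * K) := by nlinarith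
      exact le_of_mul_le_mul_left h3 ht0
    by_contra hcon
    push Not at hcon
    set q := inner ℝ w v with hq
    -- choose `t` small
    have ht : 0 < min 1 (q / (K + 1)) := lt_min one_pos (div_pos hcon (by linarith))
    have := key _ ht (min_le_left _ _)
    have h5 : min 1 (q / (K + 1)) * K ≤ q / (K + 1) * K :=
      mul_le_mul_of_nonneg_right (min_le_right _ _) hK0
    have h6 : q / (K + 1) * K ≤ q := by
      rw [div_mul_eq_mul_div, div_le_iff₀ (by linarith)]
      nlinarith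
    linarith
  have hmain : δ * ‖w‖ ≤ inner ℝ w z := by
    by_cases hw0 : w = 0
    · rw [hw0]; simp
    have hwpos : 0 < ‖w‖ := norm_pos_iff.2 hw0
    have h := hfo ((δ / ‖w‖) • w) (by
      rw [norm_smul, Real.norm_of_nonneg (div_nonneg hδ hwpos.le), div_mul_cancel₀ _ hwpos.ne'])
    rw [inner_sub_right, inner_smul_right, real_inner_self_eq_norm_sq] at h
    have e : δ / ‖w‖ * ‖w‖ ^ 2 = δ * ‖w‖ := by
      field_simp
    rw [e] at h
    linarith
  have hz2 : inner ℝ w z = - ∑ a, l a ^ 2 - ∑ a, l a * s a := by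
    rw [hpair, ← Finset.sum_neg_distrib, ← Finset.sum_sub_distrib]
    refine Finset.sum_congr rfl fun a _ => ?_
    rcases le_total (-(inner ℝ (g a) z + s a)) 0 with h1 | h1
    · have : l a = 0 := by rw [hl]; exact max_eq_right h1
      rw [this]; ring
    · have : l a = -(inner ℝ (g a) z + s a) := by rw [hl]; exact max_eq_left h1
      rw [this]; ring
  linarith

omit [Fintype ι] in
/-- Cauchy-Schwarz in the form used below. -/
lemma sum_mul_le_sqrt (s : Finset ι) (f h : ι → ℝ) :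
    ∑ a ∈ s, f a * h a ≤ √(∑ a ∈ s, f a ^ 2) * √(∑ a ∈ s, h a ^ 2) :=
  Real.sum_mul_le_sqrt_mul_sqrt s f h

/-- The repair lemma, in the open form (no normalisation). -/
theorem repair_open [FiniteDimensional ℝ E] (g : ι → E) (y : E) {n C c₀ ν η τ : ℝ}
    (hn : 0 < n) (hC : 0 < C) (hc₀ : 0 < c₀) (hν : 0 < ν) (hη : 0 < η) (hτ : 0 < τ)
    (hop : ∀ l : ι → ℝ, ‖∑ a, l a • g a‖ ≤ C * √n * √(∑ a, l a ^ 2))
    (hsing : ∀ l : ι → ℝ, ((univ.filter fun a => l a ≠ 0).card : ℝ) ≤ ν * n →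
      c₀ * √n * √(∑ a, l a ^ 2) ≤ ‖∑ a, l a • g a‖)
    (hE : ∑ a, (max (-(inner ℝ (g a) y + 1 - η)) 0) ^ 2 ≤ τ * n)
    (hτ1 : 32 * τ ≤ ν * η ^ 2) (hτ2 : 128 * C ^ 2 * τ ≤ c₀ ^ 2 * η ^ 2 * ν) :
    ∃ z : E, ‖z‖ ≤ 2 * √τ / c₀ ∧ ∀ a, -1 + η / 2 ≤ inner ℝ (g a) (y + z) := by
  classical
  set s : ι → ℝ := fun a => inner ℝ (g a) y + 1 - η / 2 with hs
  rcases exists_dual g s (2 * √τ / c₀) (by positivity) with ⟨z, hz, hza⟩ | ⟨l, hl0, hlpos, hl⟩
  · refine ⟨z, hz, fun a => ?_⟩
    have := hza a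
    rw [inner_add_right]
    rw [hs] at this
    simp only at this
    linarith
  exfalso
  set d : ι → ℝ := fun a => max (-(inner ℝ (g a) y + 1 - η)) 0 with hd
  have hd0 : ∀ a, 0 ≤ d a := fun a => le_max_right _ _
  set U : Finset ι := univ.filter fun a => s a < η / 4 with hU
  -- size of `U`
  have hdU : ∀ a ∈ U, η / 4 ≤ d a := by
    intro a ha
    have h1 : s a < η / 4 := (mem_filter.1 ha).2
    refine le_trans ?_ (le_max_left _ _)
    rw [hs] at h1
    simp only at h1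
    linarith
  have hUcard : (U.card : ℝ) ≤ ν * n / 2 := by
    have h1 : (U.card : ℝ) * (η / 4) ^ 2 ≤ τ * n := by
      calc (U.card : ℝ) * (η / 4) ^ 2 = ∑ a ∈ U, (η / 4) ^ 2 := by rw [sum_const, nsmul_eq_mul]
        _ ≤ ∑ a ∈ U, d a ^ 2 := sum_le_sum fun a ha =>
            pow_le_pow_left₀ (by positivity) (hdU a ha) 2
        _ ≤ ∑ a, d a ^ 2 := sum_le_sum_of_subset_of_nonneg (subset_univ _) fun a _ _ => sq_nonneg _
        _ ≤ τ * n := hE
    have h2 : (U.card : ℝ) * η ^ 2 ≤ (ν * n / 2) * η ^ 2 := by nlinarith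
    exact le_of_mul_le_mul_right h2 (by positivity)
  -- the l¹ norm outside `U`
  set L : ℝ := ∑ a ∈ Uᶜ, l a with hL
  have hL0 : 0 ≤ L := sum_nonneg fun a _ => hl0 a
  set A : ℝ := √(∑ a ∈ U, l a ^ 2) with hA
  have hA0 : 0 ≤ A := Real.sqrt_nonneg _
  have hsplit : ∀ f : ι → ℝ, ∑ a, f a = ∑ a ∈ U, f a + ∑ a ∈ Uᶜ, f a := fun f =>
    (sum_add_sum_compl U f).symm
  have hup : - ∑ a, l a * s a ≤ √(τ * n) * A - η / 4 * L := by
    rw [hsplit]
    have h1 : - ∑ a ∈ U, l a * s a ≤ √(τ * n) * A := by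
      calc - ∑ a ∈ U, l a * s a = ∑ a ∈ U, l a * (- s a) := by
            rw [← sum_neg_distrib]; exact sum_congr rfl fun a _ => by ring
        _ ≤ ∑ a ∈ U, l a * d a := by
            refine sum_le_sum fun a _ => mul_le_mul_of_nonneg_left ?_ (hl0 a)
            refine le_trans ?_ (le_max_left _ _)
            rw [hs]; simp only; linarith
        _ ≤ √(∑ a ∈ U, l a ^ 2) * √(∑ a ∈ U, d a ^ 2) := sum_mul_le_sqrt U l d
        _ ≤ A * √(τ * n) := by
            refine mul_le_mul_of_nonneg_left (Real.sqrt_le_sqrt ?_) hA0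
            exact (sum_le_sum_of_subset_of_nonneg (subset_univ _)
              fun a _ _ => sq_nonneg _).trans hE
        _ = √(τ * n) * A := mul_comm _ _
    have h2 : - ∑ a ∈ Uᶜ, l a * s a ≤ - (η / 4 * L) := by
      rw [hL, mul_sum, neg_le_neg_iff]
      refine sum_le_sum fun a ha => ?_
      have : ¬ s a < η / 4 := by
        intro h
        exact (mem_compl.1 ha) (mem_filter.2 ⟨mem_univ _, h⟩)
      rw [mul_comm]
      exact mul_le_mul_of_nonneg_left (not_lt.1 this) (hl0 a)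
    linarith
  -- consequence: L is small
  have hδ0 : 0 ≤ 2 * √τ / c₀ * ‖∑ a, l a • g a‖ := by positivity
  have hstrict : 2 * √τ / c₀ * ‖∑ a, l a • g a‖ + η / 4 * L < √(τ * n) * A := by linarith
  have hηL : 0 ≤ η / 4 * L := by positivity
  have hApos : 0 < A := by
    rcases hA0.lt_or_eq with h | h
    · exact h
    · exfalso
      rw [← h, mul_zero] at hstrict
      linarith
  have hLle : L ≤ 4 / η * √(τ * n) * A := by
    have h1 : η / 4 * L ≤ √(τ * n) * A := by linarith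
    have h2 : L = 4 / η * (η / 4 * L) := by field_simp
    rw [h2, mul_assoc]
    exact mul_le_mul_of_nonneg_left h1 (by positivity)
  -- threshold
  set θ : ℝ := 2 * L / (ν * n) with hθ
  have hνn : 0 < ν * n := mul_pos hν hn
  have hθ0 : 0 ≤ θ := by positivity
  set W : Finset ι := Uᶜ.filter fun a => θ < l a with hW
  have hWcard : (W.card : ℝ) ≤ ν * n / 2 := by
    rcases hθ0.lt_or_eq with hpos | hzero
    · have h1 : (W.card : ℝ) * θ ≤ L := by
        calc (W.card : ℝ) * θ = ∑ a ∈ W, θ := by rw [sum_const, nsmul_eq_mul]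
          _ ≤ ∑ a ∈ W, l a := sum_le_sum fun a ha => (mem_filter.1 ha).2.le
          _ ≤ L := sum_le_sum_of_subset_of_nonneg (filter_subset _ _) fun a _ _ => hl0 a
      have h2 : L = θ * (ν * n / 2) := by rw [hθ]; field_simp
      have h3 : (W.card : ℝ) * θ ≤ (ν * n / 2) * θ := by
        calc (W.card : ℝ) * θ ≤ L := h1
          _ = (ν * n / 2) * θ := by rw [mul_comm]; exact h2
      exact le_of_mul_le_mul_right h3 hpos
    · have hLz : L = 0 := by
        have : 2 * L / (ν * n) = 0 := by rw [← hθ]; exact hzero.symm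
        rw [div_eq_zero_iff] at this
        rcases this with h | h
        · linarith
        · exact absurd h hνn.ne'
      have hWe : W = ∅ := by
        refine filter_eq_empty_iff.2 fun a ha hlt => ?_
        have h4 : l a ≤ L := single_le_sum (f := l) (fun b _ => hl0 b) ha
        rw [← hzero] at hlt
        linarith
      rw [hWe]
      simp
      positivity
  -- decomposition of `l`
  set l1 : ι → ℝ := fun a => if a ∈ U ∪ W then l a else 0 with hl1
  set l2 : ι → ℝ := fun a => if a ∈ U ∪ W then 0 else l a with hl2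
  have hsum : ∑ a, l a • g a = ∑ a, l1 a • g a + ∑ a, l2 a • g a := by
    rw [← sum_add_distrib]
    refine sum_congr rfl fun a _ => ?_
    rw [hl1, hl2]
    simp only
    split_ifs <;> simp
  have hcard1 : ((univ.filter fun a => l1 a ≠ 0).card : ℝ) ≤ ν * n := by
    have hsub : (univ.filter fun a => l1 a ≠ 0) ⊆ U ∪ W := by
      intro a ha
      by_contra hcon
      have h1 := (mem_filter.1 ha).2
      apply h1
      rw [hl1]
      simp only [hcon, if_false]
    calc ((univ.filter fun a => l1 a ≠ 0).card : ℝ) ≤ ((U ∪ W).card : ℝ) := by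
          exact_mod_cast card_le_card hsub
      _ ≤ (U.card : ℝ) + W.card := by exact_mod_cast card_union_le U W
      _ ≤ ν * n := by linarith
  have hA1 : A ≤ √(∑ a, l1 a ^ 2) := by
    rw [hA]
    refine Real.sqrt_le_sqrt ?_
    calc ∑ a ∈ U, l a ^ 2 = ∑ a ∈ U, l1 a ^ 2 := by
          refine sum_congr rfl fun a ha => ?_
          rw [hl1]
          simp only [mem_union_left W ha, if_true]
      _ ≤ ∑ a, l1 a ^ 2 := sum_le_sum_of_subset_of_nonneg (subset_univ _) fun a _ _ => sq_nonneg _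
  have hl2sq : ∑ a, l2 a ^ 2 ≤ θ * L := by
    calc ∑ a, l2 a ^ 2 = ∑ a ∈ Uᶜ, l2 a ^ 2 := by
          rw [hsplit fun a => l2 a ^ 2]
          have : ∑ a ∈ U, l2 a ^ 2 = 0 := by
            refine sum_eq_zero fun a ha => ?_
            rw [hl2]
            simp only [mem_union_left W ha, if_true]
            norm_num
          rw [this, zero_add]
      _ ≤ ∑ a ∈ Uᶜ, θ * l a := by
          refine sum_le_sum fun a ha => ?_
          by_cases h : a ∈ U ∪ W
          · rw [hl2]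
            simp only [h, if_true]
            have := mul_nonneg hθ0 (hl0 a)
            simpa using this
          · have h1 : l a ≤ θ := by
              by_contra hcon
              push Not at hcon
              exact h (mem_union_right U (mem_filter.2 ⟨ha, hcon⟩))
            rw [hl2]
            simp only [h, if_false]
            rw [pow_two]
            exact mul_le_mul_of_nonneg_right h1 (hl0 a)
      _ = θ * L := by rw [hL, mul_sum]
  have hl2norm : √(∑ a, l2 a ^ 2) ≤ c₀ / (2 * C) * A := by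
    rw [Real.sqrt_le_left (by positivity)]
    refine hl2sq.trans ?_
    have h1 : θ * L = 2 / (ν * n) * L ^ 2 := by rw [hθ]; ring
    rw [h1]
    have h2 : L ^ 2 ≤ (4 / η * √(τ * n) * A) ^ 2 := pow_le_pow_left₀ hL0 hLle 2
    have h3 : (4 / η * √(τ * n) * A) ^ 2 = 16 / η ^ 2 * (τ * n) * A ^ 2 := by
      rw [mul_pow, mul_pow, Real.sq_sqrt (by positivity)]
      ring
    rw [h3] at h2
    calc 2 / (ν * n) * L ^ 2 ≤ 2 / (ν * n) * (16 / η ^ 2 * (τ * n) * A ^ 2) :=
          mul_le_mul_of_nonneg_left h2 (by positivity)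
      _ = (32 * τ) / (ν * η ^ 2) * A ^ 2 := by field_simp; ring
      _ ≤ (c₀ / (2 * C)) ^ 2 * A ^ 2 := by
          refine mul_le_mul_of_nonneg_right ?_ (sq_nonneg _)
          rw [div_pow, div_le_div_iff₀ (by positivity) (by positivity)]
          nlinarith
      _ = (c₀ / (2 * C) * A) ^ 2 := by ring
  have hlow : c₀ / 2 * √n * A ≤ ‖∑ a, l a • g a‖ := by
    have h1 : c₀ * √n * A ≤ ‖∑ a, l1 a • g a‖ :=
      (mul_le_mul_of_nonneg_left hA1 (by positivity)).trans (hsing l1 hcard1)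
    have h2 : ‖∑ a, l2 a • g a‖ ≤ C * √n * (c₀ / (2 * C) * A) :=
      (hop l2).trans (mul_le_mul_of_nonneg_left hl2norm (by positivity))
    have h3 : C * √n * (c₀ / (2 * C) * A) = c₀ / 2 * √n * A := by field_simp
    have h4 : ‖∑ a, l1 a • g a‖ ≤ ‖∑ a, l a • g a‖ + ‖∑ a, l2 a • g a‖ := by
      have : ∑ a, l1 a • g a = ∑ a, l a • g a - ∑ a, l2 a • g a := by rw [hsum]; abel
      rw [this]
      exact norm_sub_le _ _
    rw [h3] at h2
    linarith
  have hfin : √(τ * n) * A ≤ 2 * √τ / c₀ * ‖∑ a, l a • g a‖ := by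
    calc √(τ * n) * A = 2 * √τ / c₀ * (c₀ / 2 * √n * A) := by
          rw [Real.sqrt_mul hτ.le]; field_simp
      _ ≤ _ := mul_le_mul_of_nonneg_left hlow (by positivity)
  linarith

/-- **The repair lemma** (deterministic). -/
theorem repair_det [FiniteDimensional ℝ E] (g : ι → E) (y : E) (hy : ‖y‖ = 1) {n C c₀ ν η τ : ℝ}
    (hn : 0 < n) (hC : 0 < C) (hc₀ : 0 < c₀) (hν : 0 < ν) (hη : 0 < η) (hη1 : η ≤ 1) (hτ : 0 < τ)
    (hop : ∀ l : ι → ℝ, ‖∑ a, l a • g a‖ ≤ C * √n * √(∑ a, l a ^ 2))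
    (hsing : ∀ l : ι → ℝ, ((univ.filter fun a => l a ≠ 0).card : ℝ) ≤ ν * n →
      c₀ * √n * √(∑ a, l a ^ 2) ≤ ‖∑ a, l a • g a‖)
    (hE : ∑ a, (max (-(inner ℝ (g a) y + 1 - η)) 0) ^ 2 ≤ τ * n)
    (hτ1 : 32 * τ ≤ ν * η ^ 2) (hτ2 : 128 * C ^ 2 * τ ≤ c₀ ^ 2 * η ^ 2 * ν)
    (hτ3 : 16 * τ ≤ c₀ ^ 2 * η ^ 2) :
    ∃ y' : E, ‖y'‖ = 1 ∧ ∀ a, -1 ≤ inner ℝ (g a) y' := by
  obtain ⟨z, hz, hza⟩ := repair_open g y hn hC hc₀ hν hη hτ hop hsing hE hτ1 hτ2
  have hz2 : ‖z‖ ≤ η / 2 := by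
    refine hz.trans ?_
    have : √τ ≤ c₀ * η / 4 := by
      rw [Real.sqrt_le_left (by positivity)]
      nlinarith
    rw [div_le_iff₀ hc₀]
    nlinarith
  have hlow : 1 - η / 2 ≤ ‖y + z‖ := by
    have : ‖y‖ ≤ ‖y + z‖ + ‖z‖ := by
      have h := norm_sub_le (y + z) z
      simpa using h
    linarith
  have hpos : 0 < ‖y + z‖ := by linarith
  refine ⟨(‖y + z‖)⁻¹ • (y + z), ?_, fun a => ?_⟩
  · rw [norm_smul, norm_inv, norm_norm, inv_mul_cancel₀ hpos.ne']
  · rw [inner_smul_right]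
    have h1 := hza a
    have h2 : -‖y + z‖ ≤ inner ℝ (g a) (y + z) := by linarith
    calc (-1 : ℝ) = (‖y + z‖)⁻¹ * (-‖y + z‖) := by
          rw [mul_neg, inv_mul_cancel₀ hpos.ne']
      _ ≤ _ := mul_le_mul_of_nonneg_left h2 (by positivity)

end Crest.Agent.R146.RepairDet_840
end

-- ▼ part R146/RepairFin_840

/-!
# Row 146, node REPAIR, final statements (helper840)

`NearSat A η τ` : some unit vector has quadratic energy at most `τ N` at margin `-1 + η`.

* `repair_measure` : for a good coordinate law, `P (NearSat) ≤ P (IsSat) + 2 exp (-N / 1456)` as soon as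
  `τ ≤ τ₀(α, η)`;
* `satProbMix_tendsto_one`, `satProb_tendsto_one` : if near satisfiability at margin `-1 + η` with every
  energy density `τ > 0` (it is enough: with the density `τ₀`) has probability tending to `1`, so has
  satisfiability at margin `-1`.
-/

set_option autoImplicit false

open MeasureTheory ProbabilityTheory Set Filter Crest.Agent.R146.RepairLaw_840
  Crest.Agent.R146.RepairNet_840 Crest.Agent.R146.RepairDet_840 Crest.ProbabilityR.Perceptron
open scoped ENNReal NNReal Topology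

namespace Crest.Agent.R146.RepairFin_840

/-- near satisfiability: some unit vector has quadratic energy at most `τ N` at margin `-1 + η` -/
def NearSat {N : ℕ} {α : ℝ} (A : Patterns N α) (η τ : ℝ) : Prop :=
  ∃ y : Fin N → ℝ, ∑ i, y i ^ 2 = 1 ∧
    ∑ μ : Fin (numPatterns N α), (max (-(∑ i, A (μ, i) * y i + 1 - η)) 0) ^ 2 ≤ τ * N

lemma NearSat.mono {N : ℕ} {α : ℝ} {A : Patterns N α} {η τ τ' : ℝ} (h : NearSat A η τ)
    (hτ : τ ≤ τ') : NearSat A η τ' := by
  obtain ⟨y, hy, hA⟩ := h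
  exact ⟨y, hy, hA.trans (by gcongr)⟩

lemma numPatterns_le (N : ℕ) (α : ℝ) (hα : 0 ≤ α) : ((numPatterns N α : ℕ) : ℝ) ≤ α * N :=
  Nat.floor_le (by positivity)

/-- deterministic step, on the good event -/
lemma isSat_of_nearSat {N : ℕ} {α : ℝ} (A : Patterns N α) (hN : 0 < N) {C v η τ : ℝ} (hC : 0 < C)
    (hv : 0 < v) (hη : 0 < η) (hη1 : η ≤ 1) (hτ : 0 < τ)
    (hop : ∀ l : Fin (numPatterns N α) → ℝ,
      ‖vec A l‖ ≤ C * √(Fintype.card (Fin N)) * √(∑ a, l a ^ 2))
    (hsing : ∀ l : Fin (numPatterns N α) → ℝ,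
      ((Finset.univ.filter fun a => l a ≠ 0).card : ℝ) ≤ v * Fintype.card (Fin N) →
        1 / 8 * √(Fintype.card (Fin N)) * √(∑ a, l a ^ 2) ≤ ‖vec A l‖)
    (hτ1 : 32 * τ ≤ v * η ^ 2) (hτ2 : 128 * C ^ 2 * τ ≤ (1 / 8) ^ 2 * η ^ 2 * v)
    (hτ3 : 16 * τ ≤ (1 / 8) ^ 2 * η ^ 2) (hA : NearSat A η τ) : IsSat A := by
  obtain ⟨y, hy, hE⟩ := hA
  have hNpos : (0 : ℝ) < N := by exact_mod_cast hN
  have hin : ∀ (z : EuclideanSpace ℝ (Fin N)) (μ : Fin (numPatterns N α)),
      inner ℝ (row A μ) z = ∑ i, A (μ, i) * z i := by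
    intro z μ
    rw [PiLp.inner_apply]
    refine Finset.sum_congr rfl fun i _ => ?_
    simp [row, mul_comm]
  have hyn : ‖(WithLp.toLp 2 y : EuclideanSpace ℝ (Fin N))‖ = 1 := by
    rw [EuclideanSpace.norm_eq]
    simp [hy]
  have hcard : (Fintype.card (Fin N) : ℝ) = N := by simp
  rw [hcard] at hop hsing
  obtain ⟨y', hy', hsat⟩ := repair_det (fun μ => row A μ) (WithLp.toLp 2 y) hyn (n := (N : ℝ))
    (C := C) (c₀ := 1 / 8) (ν := v) (η := η) (τ := τ) hNpos hC (by norm_num) hv hη hη1 hτ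
    hop hsing (by
      refine le_trans (le_of_eq ?_) hE
      refine Finset.sum_congr rfl fun μ _ => ?_
      rw [hin]) hτ1 hτ2 hτ3
  refine ⟨fun i => y' i, ?_, fun μ => ?_⟩
  · have h1 := EuclideanSpace.norm_sq_eq y'
    rw [hy'] at h1
    simpa using h1.symm
  · rw [← hin]
    exact hsat μ

/-- **Repair, in measure.** -/
theorem repair_measure {ν : Measure ℝ} (h : Good ν) (α : ℝ) (hα : 0 ≤ α) (η : ℝ) (hη : 0 < η)
    (hη1 : η ≤ 1) : ∃ τ₀ : ℝ, 0 < τ₀ ∧ ∀ τ : ℝ, τ ≤ τ₀ → ∀ N : ℕ, 0 < N →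
      (Measure.pi fun _ : Fin (numPatterns N α) × Fin N => ν) {A : Patterns N α | NearSat A η τ}
        ≤ (Measure.pi fun _ : Fin (numPatterns N α) × Fin N => ν) {A : Patterns N α | IsSat A}
          + ENNReal.ofReal (2 * Real.exp (-(N : ℝ) / 1456)) := by
  obtain ⟨C, v, hC, hv, hgood⟩ := good_event h α hα
  set τ₀ : ℝ := min (v * η ^ 2 / 32) (min ((1 / 8) ^ 2 * η ^ 2 * v / (128 * C ^ 2))
    ((1 / 8) ^ 2 * η ^ 2 / 16)) with hτ₀
  have hτ₀pos : 0 < τ₀ := by
    refine lt_min (by positivity) (lt_min (by positivity) (by positivity))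
  refine ⟨τ₀, hτ₀pos, fun τ hττ₀ N hN => ?_⟩
  have hcard : (Fintype.card (Fin (numPatterns N α)) : ℝ) ≤ α * Fintype.card (Fin N) := by
    simpa using numPatterns_le N α hα
  have hg := hgood (Fin (numPatterns N α)) (Fin N) hcard
  have ht1 : 32 * τ₀ ≤ v * η ^ 2 := by
    have : τ₀ ≤ v * η ^ 2 / 32 := min_le_left _ _
    linarith
  have ht2 : 128 * C ^ 2 * τ₀ ≤ (1 / 8) ^ 2 * η ^ 2 * v := by
    have : τ₀ ≤ (1 / 8) ^ 2 * η ^ 2 * v / (128 * C ^ 2) :=
      (min_le_right _ _).trans (min_le_left _ _)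
    rw [le_div_iff₀ (by positivity)] at this
    linarith
  have ht3 : 16 * τ₀ ≤ (1 / 8) ^ 2 * η ^ 2 := by
    have : τ₀ ≤ (1 / 8) ^ 2 * η ^ 2 / 16 := (min_le_right _ _).trans (min_le_right _ _)
    linarith
  refine (measure_mono (fun A hA => ?_)).trans ((measure_union_le {A : Patterns N α | IsSat A}
    _).trans (add_le_add le_rfl (hg.trans (le_of_eq (by simp)))))
  by_cases hbad : (∀ l : Fin (numPatterns N α) → ℝ,
      ‖vec A l‖ ≤ C * √(Fintype.card (Fin N)) * √(∑ a, l a ^ 2)) ∧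
    (∀ l : Fin (numPatterns N α) → ℝ,
      ((Finset.univ.filter fun a => l a ≠ 0).card : ℝ) ≤ v * Fintype.card (Fin N) →
        1 / 8 * √(Fintype.card (Fin N)) * √(∑ a, l a ^ 2) ≤ ‖vec A l‖)
  · left
    exact isSat_of_nearSat A hN hC hv hη hη1 hτ₀pos hbad.1 hbad.2 ht1 ht2 ht3
      (NearSat.mono hA hττ₀)
  · right
    exact hbad

lemma tendsto_err : Tendsto (fun N : ℕ => ENNReal.ofReal (2 * Real.exp (-(N : ℝ) / 1456))) atTop
    (𝓝 0) := by
  rw [← ENNReal.ofReal_zero]
  refine ENNReal.tendsto_ofReal ?_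
  have h1 : Tendsto (fun N : ℕ => -(N : ℝ) / 1456) atTop atBot := by
    have : (fun N : ℕ => -(N : ℝ) / 1456) = fun N : ℕ => (-1 / 1456 : ℝ) * (N : ℝ) := by
      ext N; ring
    rw [this]
    exact (tendsto_natCast_atTop_atTop).const_mul_atTop_of_neg (by norm_num)
  have h2 := (Real.tendsto_exp_atBot.comp h1).const_mul 2
  simpa using h2

/-- Convergence of the satisfiability probability from near satisfiability, any good law. -/
theorem tendsto_one_of_nearSat {ν : Measure ℝ} (h : Good ν) (α : ℝ) (hα : 0 ≤ α) (η : ℝ)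
    (hη : 0 < η) (hη1 : η ≤ 1) : ∃ τ₀ : ℝ, 0 < τ₀ ∧ ∀ τ : ℝ, τ ≤ τ₀ →
      Tendsto (fun N : ℕ => (Measure.pi fun _ : Fin (numPatterns N α) × Fin N => ν)
        {A : Patterns N α | NearSat A η τ}) atTop (𝓝 1) →
      Tendsto (fun N : ℕ => (Measure.pi fun _ : Fin (numPatterns N α) × Fin N => ν)
        {A : Patterns N α | IsSat A}) atTop (𝓝 1) := by
  obtain ⟨τ₀, hτ₀, hmain⟩ := repair_measure h α hα η hη hη1
  refine ⟨τ₀, hτ₀, fun τ hτ hlim => ?_⟩
  have := h.prob
  have hlow : Tendsto (fun N : ℕ => (Measure.pi fun _ : Fin (numPatterns N α) × Fin N => ν)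
        {A : Patterns N α | NearSat A η τ} - ENNReal.ofReal (2 * Real.exp (-(N : ℝ) / 1456)))
        atTop (𝓝 (1 - 0)) :=
    ENNReal.Tendsto.sub hlim tendsto_err (Or.inl ENNReal.one_ne_top)
  rw [tsub_zero] at hlow
  refine tendsto_of_tendsto_of_tendsto_of_le_of_le' hlow tendsto_const_nhds ?_ ?_
  · filter_upwards [eventually_gt_atTop 0] with N hN
    exact tsub_le_iff_right.2 (hmain τ hτ N hN)
  · exact Eventually.of_forall fun N => prob_le_one

/-- **Repair for `satProbMix`.** -/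
theorem satProbMix_tendsto_one (α : ℝ) (hα : 0 ≤ α) (ε : ℝ) (hε0 : 0 ≤ ε) (hε1 : ε ≤ 1) (η : ℝ)
    (hη : 0 < η) (hη1 : η ≤ 1) : ∃ τ₀ : ℝ, 0 < τ₀ ∧ ∀ τ : ℝ, τ ≤ τ₀ →
      Tendsto (fun N : ℕ => patternLawMix N α ε {A | NearSat A η τ}) atTop (𝓝 1) →
      Tendsto (fun N : ℕ => satProbMix N α ε) atTop (𝓝 1) :=
  tendsto_one_of_nearSat (good_mixtureLaw ε hε0 hε1) α hα η hη hη1


end Crest.Agent.R146.RepairFin_840
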