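import Mathlib
import Crest.Agent.R146.Assoc4_323
import Crest.Agent.R146.RepairFin_840
import Crest.Prelude.Def_SphericalPressure
import Crest.Agent.R146.P34_734

-- ▼ part R146/Assoc5_323
section

/-!
Row 146, package ASSOC, part 5: concentration of the pressure of the quadratic penalty around its
mean (no limit assumed), and the SAT side: a pressure `≥ -b δ` gives near-satisfiability with
energy density `2 δ`.
-/

set_option autoImplicit false
set_option linter.unusedSectionVars false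

namespace Crest.Agent.R146.Assoc_323

open MeasureTheory ProbabilityTheory Filter Topology
open Crest.ProbabilityR.Perceptron
open Crest.Agent.R146.RepairLaw_840 (Good)
open Crest.Agent.R146.RepairFin_840 (NearSat tendsto_one_of_nearSat)
open Crest.Agent.R146.PressC_663 (logZ uSph crd measurable_crd isProb_uSph spherePressure_eq)

theorem integrable_sp_qp {ν : Measure ℝ} (h : Good ν) {α b : ℝ} (hb : 0 < b)
    (k : ℝ) {θ : ℝ → ℝ} (hθm : Measurable θ) {T : ℝ} (hθ : ∀ x, |θ x| ≤ T) {N : ℕ} (hN : 0 < N) :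
    Integrable (spherePressure N α 1 fun x => qp b k x + θ x)
      (Measure.pi fun _ : Fin (numPatterns N α) × Fin N => ν) := by
  have hmf : Measurable fun x => qp b k x + θ x := (continuous_qp b k).measurable.add hθm
  have hC0 : 0 ≤ b * (1 + k ^ 2) + |T| := by positivity
  have h1 := (integrable_logZ h (M := numPatterns N α) hN hC0 (fun _ => hmf)
    (QG_const (growth_qp_add hb.le k hθ) _)).div_const (N : ℝ)
  exact h1.congr (ae_of_all _ fun g => (spherePressure_one N α _ g).symm)





/-! ### SAT side -/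

theorem sum_qp_eq {N M : ℕ} (b k : ℝ) (A : Fin M × Fin N → ℝ) (u : UnitSphere N) :
    ∑ a, qp b k (∑ i, A (a, i) * crd N u i) =
      -(b / 2) * ∑ a, max (k - ∑ i, A (a, i) * crd N u i) 0 ^ 2 := by
  unfold qp
  rw [Finset.mul_sum]





end Crest.Agent.R146.Assoc_323
end

-- ▼ part R146/P34Def_393
section

/-!
Row 146, packages P3/P4 (S0203, S0204): DEFINITIONS and exact Props of the nodes (helper393).
Nothing is proved here; `Asm34_393` proves S0203 and S0204 from these Props.

Fixed Brownian data `(Ω, P, B)`; `Brown P B` collects the hypotheses.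
`qp b k x = -(b/2) (k-x)_+^2` is the (unbounded, concave) quadratic potential.
`Zero P B hB α k`: the zero-energy phase at density `α`, margin `k`, in terms of the variational
functional only: for every `δ > 0`, for all large `b`, `α V_{qp b k}(m) + S(m) ≥ -δ b` for every
profile `m`.
-/

set_option autoImplicit false

namespace Crest.Agent.R146.P34Def_393

open MeasureTheory ProbabilityTheory Filter Topology
open Crest.ProbabilityR.Perceptron

noncomputable section

/-- the quadratic potential of inverse temperature `b` and margin `k` -/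
def qp (b k x : ℝ) : ℝ := -(b / 2) * max (k - x) 0 ^ 2


/-- a smooth bounded antitone penalty below the quadratic one -/
structure Pen (k : ℝ) (h : ℝ → ℝ) : Prop where
  smooth : ∀ n : ℕ, ContDiff ℝ n h
  bdd : ∀ n : ℕ, ∃ C, ∀ x, |iteratedDeriv n h x| ≤ C
  nonneg : ∀ x, 0 ≤ h x
  le_one : ∀ x, h x ≤ 1
  anti : Antitone h
  le_quad : ∀ x, h x ≤ 1 / 2 * max (k - x) 0 ^ 2
  pos : ∀ x, x < k → 0 < h x


/-- the value functional `α V_{qp b k}(m) + S(m)` (meant for `m.entropy ≠ ⊤`) -/
def FF {Ω : Type} [MeasurableSpace Ω] (P : Measure Ω) (B : NNReal → Ω → ℝ)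
    (hB : ∀ t, Measurable (B t)) (α b k : ℝ) (m : OverlapProfile) : ℝ :=
  α * controlValue P B hB (qp b k) m + m.entropy.toReal

/-- zero-energy phase -/
def Zero {Ω : Type} [MeasurableSpace Ω] (P : Measure Ω) (B : NNReal → Ω → ℝ)
    (hB : ∀ t, Measurable (B t)) (α k : ℝ) : Prop :=
  ∀ δ : ℝ, 0 < δ → ∃ b0 : ℝ, 0 < b0 ∧ ∀ b, b0 ≤ b → ∀ m : OverlapProfile, m.entropy ≠ ⊤ →
    -δ * b ≤ FF P B hB α b k m

/-- the literal S0206 for given Brownian data -/
def S6 {Ω : Type} [MeasurableSpace Ω] (P : Measure Ω) (B : NNReal → Ω → ℝ)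
    (hB : ∀ t, Measurable (B t)) : Prop :=
  ∀ (α β : ℝ), 0 < α → 0 < β → ∀ φ : ℝ → ℝ, Continuous φ → (∃ K : ℝ, ∀ x, abs (φ x) ≤ K) →
    ∃ p : ℝ,
      ⨅ m : OverlapProfile, variationalFunctional P B hB α β φ m = (p : EReal) ∧
      Filter.Tendsto (fun N : ℕ => expectedPressure N α β φ) Filter.atTop (nhds p) ∧
      ∀ ε : ℝ, 0 < ε →
        Filter.Tendsto (fun N : ℕ => pressureTailProb N α β φ p ε) Filter.atTop (nhds 0)

/-! ### V-level nodes (literal `controlValue`, quadratic potential) -/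

section V

variable {Ω : Type} [MeasurableSpace Ω] (P : Measure Ω) (B : NNReal → Ω → ℝ)
  (hB : ∀ t, Measurable (B t))






/-- (FIN) positive energy at margin `-1` for large density -/
def FIN : Prop := ∃ α1 : ℝ, 0 < α1 ∧ ¬ Zero P B hB α1 (-1)

end V

/-! ### Finite-dimensional nodes -/




end

end Crest.Agent.R146.P34Def_393
end

-- ▼ part R146/Near_323
section

/-!
Row 146: the node NEAR of `P34Def_393` (pressure lower bounds for a smooth bounded penalty give
near solutions with high probability), by Jensen, the association trick and Markov.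
-/

set_option autoImplicit false
set_option linter.unusedSectionVars false

namespace Crest.Agent.R146.Assoc_323

open MeasureTheory ProbabilityTheory Filter Topology
open Crest.ProbabilityR.Perceptron
open Crest.Agent.R146.RepairLaw_840 (Good good_mixtureLaw)
open Crest.Agent.R146.RepairFin_840 (NearSat)
open Crest.Agent.R146.PressC_663 (logZ uSph crd measurable_crd isProb_uSph spherePressure_eq)

/-- Jensen: `⟨∑ (- ψ a)⟩ ≤ - log Z` over a probability space. -/
theorem sum_gav_neg_le {N M : ℕ} {Y : Type*} [MeasurableSpace Y] {μ : Measure Y}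
    [IsProbabilityMeasure μ] {y : Y → Fin N → ℝ}
    (hy : Measurable y) (hy1 : ∀ ω, ∑ i, y ω i ^ 2 ≤ 1) {C : ℝ} (hC : 0 ≤ C)
    {ψ : Fin M → ℝ → ℝ} (hψm : ∀ a, Measurable (ψ a)) (hψ : QG C ψ) (A : Fin M × Fin N → ℝ) :
    ∑ a, gav μ y ψ A (fun ω => -ψ a (fld y A a ω)) ≤ -Real.log (Zf μ y ψ A) := by
  have hμ : μ ≠ 0 := IsProbabilityMeasure.ne_zero _
  have h0m : ∀ a : Fin M, Measurable ((fun _ _ => 0 : Fin M → ℝ → ℝ) a) :=
    fun _ => measurable_const
  have h0q : QG C (fun _ _ => 0 : Fin M → ℝ → ℝ) := fun a x => by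
    simp only [abs_zero]; positivity
  have h := log_Zf_sub_le hμ hy hy1 hC h0m h0q hψm hψ A
  have hZ0 : Zf μ y (fun _ _ => 0 : Fin M → ℝ → ℝ) A = 1 := by
    unfold Zf wt
    simp
  rw [hZ0, Real.log_one, sub_zero] at h
  have hlin : ∀ a, gav μ y ψ A (fun ω => -ψ a (fld y A a ω)) =
      -gav μ y ψ A (fun ω => ψ a (fld y A a ω) - 0) := by
    intro a
    unfold gav
    rw [← neg_div, ← integral_neg]
    congr 1
    refine integral_congr_ae (ae_of_all _ fun ω => ?_)
    simp only [sub_zero]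
    ring
  rw [Finset.sum_congr rfl fun a _ => hlin a, Finset.sum_neg_distrib]
  linarith








end Crest.Agent.R146.Assoc_323
end

-- ▼ part R146/Assoc6_323
section

/-!
Row 146, package ASSOC, part 6: caps of the sphere have uniform measure at least `(r/8)^N`, the
operator norm of the pattern array is at most `8 √(α+1) √N` with high probability, hence a solution
at margin `k` gives the lower bound `-(log (8 C) + 1/2 + (1/2) log b)` for the pressure.
-/

set_option autoImplicit false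
set_option linter.unusedSectionVars false

namespace Crest.Agent.R146.Assoc_323

open MeasureTheory ProbabilityTheory Filter Topology
open Crest.ProbabilityR.Perceptron
open Crest.Agent.R146.RepairLaw_840 (Good quad measure_quad_ge)
open Crest.Agent.R146.RepairNet_840 (row vec norm_vec_sq exists_half_net norm_vec_le_of_net)
open Crest.Agent.R146.PressC_663 (logZ uSph crd measurable_crd isProb_uSph spherePressure_eq)

open scoped Pointwise in
theorem ball_subset_cone {E : Type*} [NormedAddCommGroup E] [NormedSpace ℝ E]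
    (u₀ : Metric.sphere (0 : E) 1) {r : ℝ} (hr : 0 < r) (hr1 : r ≤ 1) :
    Metric.ball ((1 / 2 : ℝ) • (u₀ : E)) (r / 8) ⊆
      Set.Ioo (0 : ℝ) 1 • ((↑) '' {u : Metric.sphere (0 : E) 1 | ‖(u : E) - u₀‖ < r}) := by
  intro x hx
  rw [Metric.mem_ball, dist_eq_norm] at hx
  have hu0 : ‖(u₀ : E)‖ = 1 := by simp
  have hhalf : ‖(1 / 2 : ℝ) • (u₀ : E)‖ = 1 / 2 := by
    rw [norm_smul, hu0]; norm_num
  have h1 : |‖x‖ - 1 / 2| < r / 8 := by
    have := abs_norm_sub_norm_le x ((1 / 2 : ℝ) • (u₀ : E))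
    rw [hhalf] at this
    exact this.trans_lt hx
  rw [abs_lt] at h1
  have hx0 : 0 < ‖x‖ := by linarith
  have hx1 : ‖x‖ < 1 := by linarith
  have hxn : ‖(‖x‖⁻¹ : ℝ) • x‖ = 1 := by
    rw [norm_smul, norm_inv, norm_norm, inv_mul_cancel₀ hx0.ne']
  refine ⟨‖x‖, ⟨hx0, hx1⟩, (‖x‖⁻¹ : ℝ) • x, ⟨⟨(‖x‖⁻¹ : ℝ) • x, by simp [hxn]⟩, ?_, rfl⟩, ?_⟩
  · show ‖(‖x‖⁻¹ : ℝ) • x - (u₀ : E)‖ < r
    have e : (‖x‖⁻¹ : ℝ) • x - (u₀ : E) = (‖x‖⁻¹ : ℝ) • (x - ‖x‖ • (u₀ : E)) := by
      rw [smul_sub, smul_smul, inv_mul_cancel₀ hx0.ne', one_smul]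
    rw [e, norm_smul, norm_inv, norm_norm, inv_mul_lt_iff₀ hx0]
    have e2 : x - ‖x‖ • (u₀ : E) = (x - (1 / 2 : ℝ) • (u₀ : E)) + (1 / 2 - ‖x‖) • (u₀ : E) := by
      rw [sub_smul]; abel
    have h2 : ‖x - ‖x‖ • (u₀ : E)‖ ≤ ‖x - (1 / 2 : ℝ) • (u₀ : E)‖ + |1 / 2 - ‖x‖| := by
      rw [e2]
      refine (norm_add_le _ _).trans ?_
      rw [norm_smul, hu0, mul_one, Real.norm_eq_abs]
    have h3 : |1 / 2 - ‖x‖| < r / 8 := by rw [abs_lt]; constructor <;> linarith
    nlinarith
  · show ‖x‖ • ((‖x‖⁻¹ : ℝ) • x) = x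
    rw [smul_smul, mul_inv_cancel₀ hx0.ne', one_smul]

/-- A cap of radius `r ≤ 1` has uniform measure at least `(r / 8) ^ N`. -/
theorem cap_le {N : ℕ} (hN : 0 < N) (u₀ : UnitSphere N) {r : ℝ} (hr : 0 < r) (hr1 : r ≤ 1) :
    ENNReal.ofReal ((r / 8) ^ N) ≤
      uSph N {u : UnitSphere N | ‖(u : EuclideanSpace ℝ (Fin N)) - u₀‖ < r} := by
  have : Nonempty (Fin N) := ⟨⟨0, hN⟩⟩
  have hmeas : MeasurableSet {u : UnitSphere N | ‖(u : EuclideanSpace ℝ (Fin N)) - u₀‖ < r} := by
    refine measurableSet_lt ?_ measurable_const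
    exact (measurable_subtype_coe.sub measurable_const).norm
  unfold uSph
  rw [Measure.smul_apply, smul_eq_mul]
  unfold sphereLaw
  rw [Measure.toSphere_apply_univ, Measure.toSphere_apply' _ hmeas]
  have hball := (measure_mono (μ := (volume : Measure (EuclideanSpace ℝ (Fin N))))
    (ball_subset_cone u₀ hr hr1))
  rw [Measure.addHaar_ball_of_pos _ _ (by positivity : 0 < r / 8)] at hball
  rw [finrank_euclideanSpace_fin] at hball ⊢
  have hb0 : (volume : Measure (EuclideanSpace ℝ (Fin N))) (Metric.ball 0 1) ≠ 0 :=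
    (Metric.measure_ball_pos _ _ one_pos).ne'
  have hbt : (volume : Measure (EuclideanSpace ℝ (Fin N))) (Metric.ball 0 1) ≠ ⊤ :=
    measure_ball_lt_top.ne
  have hN0 : (N : ENNReal) ≠ 0 := by exact_mod_cast hN.ne'
  have hNt : (N : ENNReal) ≠ ⊤ := ENNReal.natCast_ne_top N
  calc ENNReal.ofReal ((r / 8) ^ N)
      = ((N : ENNReal) * (volume : Measure (EuclideanSpace ℝ (Fin N))) (Metric.ball 0 1))⁻¹ *
        ((N : ENNReal) * (ENNReal.ofReal ((r / 8) ^ N) *
          (volume : Measure (EuclideanSpace ℝ (Fin N))) (Metric.ball 0 1))) := by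
        rw [show (N : ENNReal) * (ENNReal.ofReal ((r / 8) ^ N) *
          (volume : Measure (EuclideanSpace ℝ (Fin N))) (Metric.ball 0 1)) =
          ((N : ENNReal) * (volume : Measure (EuclideanSpace ℝ (Fin N))) (Metric.ball 0 1)) *
          ENNReal.ofReal ((r / 8) ^ N) by ring, ← mul_assoc,
          ENNReal.inv_mul_cancel (mul_ne_zero hN0 hb0) (ENNReal.mul_ne_top hNt hbt), one_mul]
    _ ≤ _ := by gcongr

/-! ### Operator norm -/

/-- The operator norm of the array is at most `C √N`, `C = 8 √(α+1)`, with high probability. -/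
theorem op_event {ν : Measure ℝ} (h : Good ν) {α : ℝ} (hα : 0 ≤ α) (M N : ℕ)
    (hM : (M : ℝ) ≤ α * N) :
    (Measure.pi fun _ : Fin M × Fin N => ν) {A | ¬ ∀ l : Fin M → ℝ,
      ‖vec A l‖ ≤ 8 * √(α + 1) * √N * √(∑ a, l a ^ 2)} ≤ ENNReal.ofReal (Real.exp (-(N : ℝ))) := by
  classical
  have hprob := h.prob
  set C : ℝ := 8 * √(α + 1) with hC
  have hCsq : C ^ 2 = 64 * (α + 1) := by
    rw [hC, mul_pow, Real.sq_sqrt (by linarith)]; norm_num
  have hC0 : 0 ≤ C := by positivity
  set P := (Measure.pi fun _ : Fin M × Fin N => ν) with hP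
  have hn0 : (0 : ℝ) ≤ N := Nat.cast_nonneg N
  obtain ⟨N0, hN0c, hN01, hN0⟩ := exists_half_net (EuclideanSpace ℝ (Fin M))
  set bad0 : Set (Fin M × Fin N → ℝ) := ⋃ c ∈ N0, {A | (C / 2) ^ 2 * N ≤ quad (fun a => c a) A}
    with hbad0
  have hincl : {A : Fin M × Fin N → ℝ | ¬ ∀ l : Fin M → ℝ,
      ‖vec A l‖ ≤ C * √N * √(∑ a, l a ^ 2)} ⊆ bad0 := by
    intro A hA
    by_contra hcon
    apply hA
    intro l
    have h1 : ∀ c ∈ N0, quad (fun a => c a) A ≤ (C / 2 * √N) ^ 2 := by
      intro c hc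
      by_contra hlt
      push Not at hlt
      apply hcon
      refine Set.mem_iUnion₂.2 ⟨c, hc, ?_⟩
      have e : (C / 2 * √N) ^ 2 = (C / 2) ^ 2 * N := by rw [mul_pow, Real.sq_sqrt hn0]
      rw [e] at hlt
      exact hlt.le
    have h2 := norm_vec_le_of_net N0 hN0 A (C / 2 * √N) (by positivity) h1 l
    refine h2.trans (le_of_eq ?_)
    ring
  refine (measure_mono hincl).trans ?_
  calc P bad0 ≤ ∑ c ∈ N0, P {A | (C / 2) ^ 2 * N ≤ quad (fun a => c a) A} :=
        measure_biUnion_finset_le _ _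
    _ ≤ ∑ _c ∈ N0, ENNReal.ofReal (√2 ^ Fintype.card (Fin N) *
          Real.exp (-((C / 2) ^ 2 * N) / 8)) := by
        refine Finset.sum_le_sum fun c hc => measure_quad_ge h _ ?_ _
        have h1 : ∑ a, c a ^ 2 = ‖c‖ ^ 2 := by
          rw [EuclideanSpace.norm_sq_eq]
          simp
        rw [h1]
        have := hN01 c hc
        have := norm_nonneg c
        nlinarith
    _ = (N0.card : ENNReal) * ENNReal.ofReal (√2 ^ N * Real.exp (-((C / 2) ^ 2 * N) / 8)) := by
        rw [Finset.sum_const, nsmul_eq_mul, Fintype.card_fin]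
    _ ≤ ENNReal.ofReal (5 ^ M) *
          ENNReal.ofReal (√2 ^ N * Real.exp (-((C / 2) ^ 2 * N) / 8)) := by
        gcongr
        rw [← ENNReal.ofReal_natCast]
        refine ENNReal.ofReal_le_ofReal ?_
        rw [finrank_euclideanSpace, Fintype.card_fin] at hN0c
        exact_mod_cast hN0c
    _ = ENNReal.ofReal (5 ^ M * (√2 ^ N * Real.exp (-((C / 2) ^ 2 * N) / 8))) := by
        rw [← ENNReal.ofReal_mul (by positivity)]
    _ ≤ ENNReal.ofReal (Real.exp (-(N : ℝ))) := by
        refine ENNReal.ofReal_le_ofReal ?_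
        have h5 : (5 : ℝ) ≤ Real.exp 2 := by
          have h1 := Real.add_one_le_exp (1 : ℝ)
          have h2 := Real.exp_one_gt_d9
          have e : Real.exp 2 = Real.exp 1 ^ 2 := by rw [← Real.exp_nat_mul]; norm_num
          rw [e]; nlinarith
        have hs2 : √2 ≤ Real.exp 1 := by
          have h1 := Real.exp_one_gt_d9
          have h2 : √2 ≤ 2 := by
            rw [Real.sqrt_le_left (by norm_num)]; norm_num
          linarith
        calc 5 ^ M * (√2 ^ N * Real.exp (-((C / 2) ^ 2 * N) / 8))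
            ≤ Real.exp 2 ^ M * (Real.exp 1 ^ N * Real.exp (-((C / 2) ^ 2 * N) / 8)) := by gcongr
          _ = Real.exp (2 * M + (N + -((C / 2) ^ 2 * N) / 8)) := by
              rw [← Real.exp_nat_mul, ← Real.exp_nat_mul, ← Real.exp_add, ← Real.exp_add]
              congr 1
              ring
          _ ≤ Real.exp (-(N : ℝ)) := by
              refine Real.exp_le_exp.2 ?_
              have e : (C / 2) ^ 2 = 16 * (α + 1) := by rw [div_pow, hCsq]; ring
              rw [e]
              nlinarith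

/-- the direct operator norm bound from the transposed one. -/
theorem sum_fld_sq_le {M N : ℕ} (A : Fin M × Fin N → ℝ) {B : ℝ} (hB : 0 ≤ B)
    (hA : ∀ l : Fin M → ℝ, ‖vec A l‖ ≤ B * √(∑ a, l a ^ 2)) (w : Fin N → ℝ) :
    ∑ a, (∑ i, A (a, i) * w i) ^ 2 ≤ B ^ 2 * ∑ i, w i ^ 2 := by
  set l : Fin M → ℝ := fun a => ∑ i, A (a, i) * w i with hl
  set S : ℝ := ∑ a, l a ^ 2 with hS
  have hS0 : 0 ≤ S := Finset.sum_nonneg fun _ _ => sq_nonneg _
  have hvec : ∀ i, (vec A l) i = ∑ a, l a * A (a, i) := by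
    intro i
    simp [vec, row]
  have e1 : S = ∑ i, (vec A l) i * w i := by
    simp_rw [hvec, Finset.sum_mul]
    rw [Finset.sum_comm, hS]
    refine Finset.sum_congr rfl fun a _ => ?_
    rw [sq]
    conv_lhs => rw [hl]
    simp only [Finset.mul_sum]
    refine Finset.sum_congr rfl fun i _ => ?_
    ring
  have h2 := Finset.sum_mul_sq_le_sq_mul_sq Finset.univ (fun i => (vec A l) i) w
  rw [← e1] at h2
  have h3 : ∑ i, (vec A l) i ^ 2 = ‖vec A l‖ ^ 2 := by
    rw [EuclideanSpace.norm_sq_eq]; simp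
  rw [h3] at h2
  have h4 : ‖vec A l‖ ^ 2 ≤ B ^ 2 * S := by
    have h5 := hA l
    have h6 : ‖vec A l‖ ^ 2 ≤ (B * √S) ^ 2 := by
      have := norm_nonneg (vec A l)
      gcongr
    rwa [mul_pow, Real.sq_sqrt hS0] at h6
  have hw0 : 0 ≤ ∑ i, w i ^ 2 := Finset.sum_nonneg fun _ _ => sq_nonneg _
  rcases hS0.eq_or_lt with h0 | hpos
  · show S ≤ _
    rw [← h0]
    positivity
  · have h5 : S ^ 2 ≤ B ^ 2 * S * ∑ i, w i ^ 2 :=
      h2.trans (mul_le_mul_of_nonneg_right h4 hw0)
    have h6 : S * S ≤ S * (B ^ 2 * ∑ i, w i ^ 2) := by nlinarith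
    exact le_of_mul_le_mul_left h6 hpos

/-- **Cap bound.** On the operator norm event a solution at margin `k` gives a lower bound of the
pressure of the quadratic penalty. -/
theorem pressure_ge_of_sol {N : ℕ} (hN : 0 < N) {α C b k : ℝ} (hC : 1 ≤ C) (hb : 1 ≤ b)
    (A : Patterns N α)
    (hA : ∀ l : Fin (numPatterns N α) → ℝ, ‖vec A l‖ ≤ C * √N * √(∑ a, l a ^ 2))
    (y : Fin N → ℝ) (hy : ∑ i, y i ^ 2 = 1) (hsol : ∀ μ, k ≤ ∑ i, A (μ, i) * y i) :
    -(Real.log (8 * C) + 1 / 2 + 1 / 2 * Real.log b) ≤ spherePressure N α 1 (qp b k) A := by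
  have := isProb_uSph hN
  have h0 : (0 : ℝ) < N := by exact_mod_cast hN
  have hC0 : 0 < C := by linarith
  have hb0 : 0 < b := by linarith
  set r : ℝ := 1 / (C * √b) with hr
  have hsb : 1 ≤ √b := by rw [Real.one_le_sqrt]; exact hb
  have hsb0 : 0 < √b := by linarith
  have hr0 : 0 < r := by positivity
  have hr1 : r ≤ 1 := by
    rw [hr, div_le_one (by positivity)]
    nlinarith
  -- the centre of the cap
  set u₀ : UnitSphere N := ⟨WithLp.toLp 2 y, by
    rw [mem_sphere_zero_iff_norm, EuclideanSpace.norm_eq]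
    simp [hy]⟩ with hu₀
  have hcap := cap_le hN u₀ hr0 hr1
  set S : Set (UnitSphere N) := {u : UnitSphere N | ‖(u : EuclideanSpace ℝ (Fin N)) - u₀‖ < r}
    with hS
  have hSm : MeasurableSet S := by
    refine measurableSet_lt ?_ measurable_const
    exact (measurable_subtype_coe.sub measurable_const).norm
  -- energy bound on the cap
  have hE : ∀ u ∈ S, -(b / 2) * (C ^ 2 * N * r ^ 2) ≤
      ∑ a, (fun _ : Fin (numPatterns N α) => qp b k) a (fld (crd N) A a u) := by
    intro u hu
    unfold fld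
    simp only
    rw [sum_qp_eq]
    have hB : 0 ≤ C * √N := by positivity
    have h1 := sum_fld_sq_le A hB hA (fun i => crd N u i - y i)
    have h2 : ∑ i, (crd N u i - y i) ^ 2 ≤ r ^ 2 := by
      have h3 : ∑ i, (crd N u i - y i) ^ 2 = ‖(u : EuclideanSpace ℝ (Fin N)) - u₀‖ ^ 2 := by
        rw [EuclideanSpace.norm_sq_eq]
        refine Finset.sum_congr rfl fun i _ => ?_
        rw [Real.norm_eq_abs, sq_abs]
        rfl
      rw [h3]
      have h4 : ‖(u : EuclideanSpace ℝ (Fin N)) - u₀‖ < r := hu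
      have := norm_nonneg ((u : EuclideanSpace ℝ (Fin N)) - u₀)
      nlinarith
    have h5 : ∑ a, max (k - ∑ i, A (a, i) * crd N u i) 0 ^ 2 ≤ C ^ 2 * N * r ^ 2 := by
      calc ∑ a, max (k - ∑ i, A (a, i) * crd N u i) 0 ^ 2
          ≤ ∑ a, (∑ i, A (a, i) * (crd N u i - y i)) ^ 2 := by
            refine Finset.sum_le_sum fun a _ => ?_
            have e : ∑ i, A (a, i) * (crd N u i - y i) =
                ∑ i, A (a, i) * crd N u i - ∑ i, A (a, i) * y i := by
              simp only [mul_sub, Finset.sum_sub_distrib]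
            rw [e]
            have h6 := hsol a
            rcases le_total (k - ∑ i, A (a, i) * crd N u i) 0 with h7 | h7
            · rw [max_eq_right h7]
              nlinarith [sq_nonneg (∑ i, A (a, i) * crd N u i - ∑ i, A (a, i) * y i)]
            · rw [max_eq_left h7]
              nlinarith
        _ ≤ (C * √N) ^ 2 * ∑ i, (crd N u i - y i) ^ 2 := h1
        _ ≤ (C * √N) ^ 2 * r ^ 2 := by gcongr
        _ = C ^ 2 * N * r ^ 2 := by rw [mul_pow, Real.sq_sqrt h0.le]
    nlinarith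
  have hrr : (b / 2) * (C ^ 2 * N * r ^ 2) = N / 2 := by
    rw [hr]
    have : √b ^ 2 = b := Real.sq_sqrt hb0.le
    field_simp
    rw [this]
  -- lower bound of the partition function
  have hQC : 0 ≤ b * (1 + k ^ 2) := by positivity
  have hQ : QG (b * (1 + k ^ 2)) (fun _ : Fin (numPatterns N α) => qp b k) :=
    fun _ x => abs_qp_le hb0.le k x
  have hqm : ∀ a : Fin (numPatterns N α), Measurable ((fun _ => qp b k) a) :=
    fun _ => (continuous_qp b k).measurable
  have iw := integrable_wt (uSph N) (measurable_crd N) (fun u => sum_crd_sq_le u) hQC hqm hQ A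
  have hZ : (r / 8) ^ N * Real.exp (-(N / 2 : ℝ)) ≤ Zf (uSph N) (crd N) (fun _ => qp b k) A := by
    have h1 : ∫ u in S, Real.exp (-(N / 2 : ℝ)) ∂(uSph N) ≤
        ∫ u in S, wt (crd N) (fun _ => qp b k) A u ∂(uSph N) := by
      refine setIntegral_mono_on (integrable_const _).integrableOn iw.integrableOn hSm
        fun u hu => ?_
      unfold wt
      refine Real.exp_le_exp.2 ?_
      have := hE u hu
      linarith
    have h2 : ∫ u in S, wt (crd N) (fun _ => qp b k) A u ∂(uSph N) ≤
        Zf (uSph N) (crd N) (fun _ => qp b k) A :=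
      setIntegral_le_integral iw (ae_of_all _ fun u => (wt_pos _ _ _ _).le)
    rw [setIntegral_const, smul_eq_mul] at h1
    have h3 : (r / 8) ^ N ≤ (uSph N).real S := by
      rw [Measure.real]
      rw [← ENNReal.ofReal_le_iff_le_toReal (measure_ne_top _ _)]
      exact hcap
    calc (r / 8) ^ N * Real.exp (-(N / 2 : ℝ)) ≤ (uSph N).real S * Real.exp (-(N / 2 : ℝ)) := by
          gcongr
      _ ≤ _ := h1.trans h2
  have hpos : 0 < (r / 8) ^ N * Real.exp (-(N / 2 : ℝ)) := by positivity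
  have hlog := Real.log_le_log hpos hZ
  rw [Real.log_mul (by positivity) (Real.exp_pos _).ne', Real.log_exp, Real.log_pow] at hlog
  have hlr : Real.log (r / 8) = -(Real.log (8 * C) + 1 / 2 * Real.log b) := by
    have e : r / 8 = (8 * C * √b)⁻¹ := by rw [hr]; field_simp
    rw [e, Real.log_inv, Real.log_mul (by positivity) hsb0.ne', Real.log_sqrt hb0.le]
    ring
  rw [spherePressure_one, le_div_iff₀ h0]
  have h3 : logZ (uSph N) (crd N) (fun _ => qp b k) A =
      Real.log (Zf (uSph N) (crd N) (fun _ => qp b k) A) := rfl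
  rw [h3]
  rw [hlr] at hlog
  nlinarith

end Crest.Agent.R146.Assoc_323
end

-- ▼ part R146/P34a_323

/-!
Row 146: nodes PINT, CONCM, CAP, MARKOV of `P34_734`.
-/

set_option autoImplicit false
set_option linter.unusedSectionVars false

namespace Crest.Agent.R146.P34a_323

open MeasureTheory ProbabilityTheory Filter Topology
open Crest.ProbabilityR.Perceptron
open Crest.Agent.R146.Assoc_323
open Crest.Agent.R146.P34_734
open Crest.Agent.R146.RepairLaw_840 (Good good_mixtureLaw)
open Crest.Agent.R146.RepairFin_840 (NearSat)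
open Crest.Agent.R146.RepairNet_840 (vec)
open Crest.Agent.R146.PressC_663 (logZ uSph crd measurable_crd isProb_uSph spherePressure_eq)

instance (ε : ℝ) : IsProbabilityMeasure (mixtureLaw ε) := by
  constructor
  rw [mixtureLaw]
  simp only [Measure.coe_add, Pi.add_apply, Measure.coe_nnreal_smul_apply, measure_univ, mul_one]
  have : ((2⁻¹ : NNReal) : ENNReal) = 2⁻¹ := by
    rw [ENNReal.coe_inv (by norm_num)]; norm_num
  rw [this]
  exact ENNReal.inv_two_add_inv_two

instance (N : ℕ) (α ε : ℝ) : IsProbabilityMeasure (patternLawMix N α ε) := by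
  unfold patternLawMix; infer_instance


theorem pM_eq (N : ℕ) (α ε : ℝ) (f : ℝ → ℝ) : pM N α ε f = eP (mixtureLaw ε) α f N := rfl

/-- (PINT) -/
theorem pint : PINT := by
  rintro N α ε b k hα hε0 hε1 hb ψ hψ ⟨K, hK⟩
  rcases Nat.eq_zero_or_pos N with rfl | hN
  · have : (spherePressure 0 α 1 fun x => fq b k x + ψ x) = fun _ => 0 := by
      funext A
      unfold spherePressure
      simp
    rw [this]
    exact integrable_const _
  · exact integrable_sp_qp (good_mixtureLaw ε hε0 hε1.le) hb k hψ hK hN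

/-- (CONCM) -/
theorem concm : CONCM := by
  rintro α ε hα φ hφ ⟨K, hK⟩ t ht
  have hdev : Tendsto (fun N : ℕ => ENNReal.ofReal
      (α * (2 * (|1| * K)) ^ 2 / (N * t ^ 2))) atTop (𝓝 0) := by
    rw [← ENNReal.ofReal_zero]
    apply ENNReal.tendsto_ofReal
    have h3 : Tendsto (fun N : ℕ => (α * (2 * (|1| * K)) ^ 2 / t ^ 2) * ((N : ℝ))⁻¹)
        atTop (𝓝 ((α * (2 * (|1| * K)) ^ 2 / t ^ 2) * 0)) :=
      tendsto_const_nhds.mul (tendsto_inv_atTop_zero.comp tendsto_natCast_atTop_atTop)
    rw [mul_zero] at h3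
    refine h3.congr fun N => ?_
    by_cases hN : (N : ℝ) = 0
    · simp [hN]
    · field_simp
  refine tendsto_of_tendsto_of_tendsto_of_le_of_le' tendsto_const_nhds hdev
    (Eventually.of_forall fun N => zero_le) ?_
  filter_upwards [eventually_gt_atTop 0] with N hN
  exact PressC_663.meas_spherePressure_dev (β := 1) hN hα hφ hK (mixtureLaw ε) ht

/-- (CAP) -/
theorem cap : CAP := by
  intro α ε hα hε0 hε1
  set C : ℝ := 8 * √(α + 1) with hC
  have hC1 : 1 ≤ C := by
    have : 1 ≤ √(α + 1) := by rw [Real.one_le_sqrt]; linarith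
    linarith
  refine ⟨Real.log (8 * C) + 1 / 2, ?_⟩
  have hexp : Tendsto (fun N : ℕ => ENNReal.ofReal (Real.exp (-(N : ℝ)))) atTop (𝓝 0) := by
    rw [← ENNReal.ofReal_zero]
    exact ENNReal.tendsto_ofReal
      (Real.tendsto_exp_neg_atTop_nhds_zero.comp tendsto_natCast_atTop_atTop)
  refine tendsto_of_tendsto_of_tendsto_of_le_of_le' tendsto_const_nhds hexp
    (Eventually.of_forall fun N => zero_le) ?_
  filter_upwards [eventually_gt_atTop 0] with N hN
  have hop := op_event (good_mixtureLaw ε hε0 hε1.le) hα (numPatterns N α) N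
    (Nat.floor_le (by positivity))
  refine le_trans (measure_mono ?_) hop
  intro A hA hcon
  apply hA
  intro b k hb y hy hsol
  exact pressure_ge_of_sol hN hC1 hb A hcon y hy hsol

/-- (MARKOV) -/
theorem markov : MARKOV := by
  intro N α ε b η τ hN hα hε0 hε1 hb hτ
  have hν := good_mixtureLaw ε hε0 hε1.le
  have := isProb_uSph hN
  have hN0 : (0 : ℝ) < N := by exact_mod_cast hN
  set k : ℝ := -1 + η with hk
  set M := numPatterns N α with hM
  set P := (Measure.pi fun _ : Fin M × Fin N => mixtureLaw ε) with hP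
  set ψ : Fin M → ℝ → ℝ := fun _ => qp b k with hψ
  have hψm : ∀ a, Measurable (ψ a) := fun _ => (continuous_qp b k).measurable
  have hC0 : 0 ≤ b * (1 + k ^ 2) := by positivity
  have hQ : QG (b * (1 + k ^ 2)) ψ := fun _ x => abs_qp_le hb.le k x
  have hy1 : ∀ u : UnitSphere N, ∑ i, crd N u i ^ 2 ≤ 1 := fun u => sum_crd_sq_le u
  have iw := fun A => integrable_wt (uSph N) (measurable_crd N) hy1 hC0 hψm hQ A
  have hZpos := fun A => Zf_pos (μ := uSph N) (IsProbabilityMeasure.ne_zero _)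
    (measurable_crd N) hy1 hC0 hψm hQ A
  have hlog0 : ∀ A, 0 ≤ -Real.log (Zf (uSph N) (crd N) ψ A) := by
    intro A
    rw [neg_nonneg]
    refine Real.log_nonpos (hZpos A).le ?_
    have h2 : Zf (uSph N) (crd N) ψ A ≤ ∫ _u, (1 : ℝ) ∂(uSph N) := by
      refine integral_mono (iw A) (integrable_const _) fun u => ?_
      unfold wt
      rw [Real.exp_le_one_iff]
      exact Finset.sum_nonpos fun a _ => qp_nonpos hb.le k _
    simpa using h2
  -- lower bound off near satisfiability
  have hlow : ∀ A : Patterns N α, ¬ NearSat A η τ →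
      b / 2 * (τ * N) ≤ -Real.log (Zf (uSph N) (crd N) ψ A) := by
    intro A hA
    refine le_trans ?_ (sum_gav_neg_le (μ := uSph N) (measurable_crd N) hy1 hC0 hψm hQ A)
    have hA' : ∀ u : UnitSphere N,
        τ * N ≤ ∑ a, max (k - ∑ i, A (a, i) * crd N u i) 0 ^ 2 := by
      intro u
      by_contra hcon
      push Not at hcon
      refine hA ⟨crd N u, sum_crd_sq u, le_trans (le_of_eq ?_) hcon.le⟩
      refine Finset.sum_congr rfl fun μ _ => ?_
      congr 2
      rw [hk]; ring
    unfold gav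
    have iga : ∀ a, Integrable (fun u => -ψ a (fld (crd N) A a u) * wt (crd N) ψ A u)
        (uSph N) := by
      intro a
      have hmono : Monotone fun x => qp b k x := monotone_qp hb.le k
      refine (iw A).bdd_mul (c := |qp b k (Real.sqrt (rsq A a))| + |qp b k (-Real.sqrt (rsq A a))|)
        ((((continuous_qp b k).measurable).comp
          (measurable_fld_right (measurable_crd N) A a)).neg.aestronglyMeasurable)
        (ae_of_all _ fun u => ?_)
      rw [Real.norm_eq_abs, abs_neg]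
      exact bdd_of_monotone hmono (abs_fld_le hy1 A a) u
    rw [← Finset.sum_div, ← integral_finsetSum _ fun a _ => iga a, le_div_iff₀ (hZpos A)]
    have e2 : b / 2 * (τ * N) * Zf (uSph N) (crd N) ψ A =
        ∫ u, b / 2 * (τ * N) * wt (crd N) ψ A u ∂(uSph N) := by
      rw [integral_const_mul]; rfl
    rw [e2]
    refine integral_mono ((iw A).const_mul _) (integrable_finsetSum _ fun a _ => iga a)
      fun u => ?_
    show b / 2 * (τ * N) * wt (crd N) ψ A u ≤ ∑ a, -ψ a (fld (crd N) A a u) * wt (crd N) ψ A u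
    rw [← Finset.sum_mul, Finset.sum_neg_distrib]
    refine mul_le_mul_of_nonneg_right ?_ (wt_pos _ _ _ _).le
    have e3 : ∑ a, ψ a (fld (crd N) A a u) =
        -(b / 2) * ∑ a, max (k - ∑ i, A (a, i) * crd N u i) 0 ^ 2 := sum_qp_eq b k A u
    rw [e3]
    have := mul_le_mul_of_nonneg_left (hA' u) (by linarith : 0 ≤ b / 2)
    linarith
  have ilog : Integrable (fun A => -Real.log (Zf (uSph N) (crd N) ψ A)) P :=
    (integrable_logZ hν (M := M) hN hC0 hψm hQ).neg
  have hElog : ∫ A, -Real.log (Zf (uSph N) (crd N) ψ A) ∂P = N * (-pM N α ε (fq b k)) := by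
    rw [pM_eq, eP_eq, integral_neg]
    have : ∫ A, Real.log (Zf (uSph N) (crd N) ψ A) ∂P =
      ∫ A, logZ (uSph N) (crd N) (fun _ => fq b k) A ∂(PL (numPatterns N α) N (mixtureLaw ε)) := rfl
    rw [this]
    field_simp
  have h1 := mul_meas_ge_le_integral_of_nonneg (μ := P)
    (f := fun A => -Real.log (Zf (uSph N) (crd N) ψ A)) (ae_of_all _ hlog0) ilog (b / 2 * (τ * N))
  rw [hElog] at h1
  have hpos : 0 < b / 2 * (τ * N) := by positivity
  have hsub : {A : Patterns N α | ¬ NearSat A η τ} ⊆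
      {A | b / 2 * (τ * N) ≤ -Real.log (Zf (uSph N) (crd N) ψ A)} := fun A hA => hlow A hA
  have h2 : patternLawMix N α ε {A | ¬ NearSat A η τ} ≤
      P {A | b / 2 * (τ * N) ≤ -Real.log (Zf (uSph N) (crd N) ψ A)} := measure_mono hsub
  refine h2.trans ?_
  have hE0 : 0 ≤ N * (-pM N α ε (fq b k)) := by
    rw [← hElog]; exact integral_nonneg hlog0
  have hp0 : 0 ≤ -pM N α ε (fq b k) := by
    by_contra hcon
    push Not at hcon
    have := mul_neg_of_pos_of_neg hN0 hcon
    linarith
  rw [ENNReal.le_ofReal_iff_toReal_le (measure_ne_top _ _) (by positivity),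
    le_div_iff₀ (by positivity)]
  have h3 : b / 2 * (τ * N) * P.real {A | b / 2 * (τ * N) ≤
      -Real.log (Zf (uSph N) (crd N) ψ A)} ≤ N * (-pM N α ε (fq b k)) := h1
  have h4 : (P {A | b / 2 * (τ * N) ≤ -Real.log (Zf (uSph N) (crd N) ψ A)}).toReal * (b * τ) * N ≤
      2 * -pM N α ε (fq b k) * N := by
    have : P.real {A | b / 2 * (τ * N) ≤ -Real.log (Zf (uSph N) (crd N) ψ A)} =
      (P {A | b / 2 * (τ * N) ≤ -Real.log (Zf (uSph N) (crd N) ψ A)}).toReal := rfl
    rw [this] at h3
    linarith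
  exact le_of_mul_le_mul_right h4 hN0

end Crest.Agent.R146.P34a_323
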