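import Crest.Agent.R146.BrIf_256
import Crest.Agent.R146.Back_847
import Crest.Agent.R146.P34_734
import Crest.Agent.R146.P34a_323
import Crest.Agent.R146.CtlE_130
import Crest.Agent.R146.DualL_256
import Crest.Agent.R146.StepDef_791
import Crest.Agent.R146.Br2_256

-- ▼ part R146/Br4_256
section

/-!
# Row 146, R3 bridge (helper256), file 4: the inequality on a cell
-/

set_option autoImplicit false

noncomputable section

open MeasureTheory Set Filter Topology ProbabilityTheory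
open scoped InnerProductSpace RealInnerProductSpace NNReal ENNReal

namespace Crest.Agent.R146.Br_256

open Crest.ProbabilityR.Perceptron Crest.ProbabilityR.InvariantGlass
open Crest.Agent.R146.DualQ_256 Crest.Agent.R146.DualC1_256 Crest.Agent.R146.DualV_256
  Crest.Agent.R146.DualL_256 Crest.Agent.R146.DualG_256 Crest.Agent.R146.CtlC_130
open Crest.Agent.R146.StepDef_791 Crest.Agent.R146.Cell_534 Crest.Agent.R146.PD_534
open Crest.Agent.R164.GC (H)

variable {Ω : Type*} [mΩ : MeasurableSpace Ω] {P : Measure Ω} [IsProbabilityMeasure P]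
  {B : ℝ≥0 → Ω → ℝ} (hBm : ∀ t, Measurable (B t)) (hB : IsBrownianReal B P)

theorem dZ_self (s : ℝ) : dZ hB s s = 0 := by unfold dZ; rw [sub_self]

theorem dZ_add (s t u : ℝ) : dZ hB s t + dZ hB t u = dZ hB s u := by unfold dZ; abel

theorem Zt_fix' {s t : ℝ} (hs : 0 ≤ s) (hst : s ≤ t) :
    condPi (brownianFiltration B hBm) P t (Zt hB s.toNNReal) = Zt hB s.toNNReal := by
  have h1 := Zt_fix hBm hB s.toNNReal
  rw [Real.coe_toNNReal s hs] at h1
  have h2 := (FB P B hBm).comp' hst (Zt hB s.toNNReal)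
  change condPi _ P t (condPi _ P s _) = condPi _ P s _ at h2
  rw [h1] at h2
  exact h2

theorem dZ_fix {s t u : ℝ} (hs : 0 ≤ s) (hst : s ≤ t) (htu : t ≤ u) :
    condPi (brownianFiltration B hBm) P u (dZ hB s t) = dZ hB s t := by
  unfold dZ
  rw [map_sub, Zt_fix' hBm hB (hs.trans hst) htu, Zt_fix' hBm hB hs (hst.trans htu)]

theorem fix_mono {s t : ℝ} (hst : s ≤ t) {Y : Ω →₂[P] ℝ}
    (hY : condPi (brownianFiltration B hBm) P s Y = Y) :
    condPi (brownianFiltration B hBm) P t Y = Y := by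
  have h2 := (FB P B hBm).comp' hst Y
  change condPi _ P t (condPi _ P s _) = condPi _ P s _ at h2
  rw [hY] at h2
  exact h2

theorem condPi_idem (s : ℝ) (x : Ω →₂[P] ℝ) :
    condPi (brownianFiltration B hBm) P s (condPi (brownianFiltration B hBm) P s x) =
      condPi (brownianFiltration B hBm) P s x := (FB P B hBm).idem s x

/-- the polygon -/
def Pg (z : ℝ) (s : ℕ → ℝ) (Y lam : Ω →₂[P] ℝ) (k : ℕ) : Ω →₂[P] ℝ :=
  Y + dZ hB (s 0) (s k) + ∑ i ∈ Finset.range k, (z * (s (i + 1) - s i)) •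
    condPi (brownianFiltration B hBm) P (s i) lam

theorem Pg_fix {z : ℝ} {s : ℕ → ℝ} (hs : Monotone s) (h0 : 0 ≤ s 0) {Y : Ω →₂[P] ℝ}
    (hY : condPi (brownianFiltration B hBm) P (s 0) Y = Y) (lam : Ω →₂[P] ℝ) (k : ℕ) :
    condPi (brownianFiltration B hBm) P (s k) (Pg hBm hB z s Y lam k) =
      Pg hBm hB z s Y lam k := by
  unfold Pg
  rw [map_add, map_add, fix_mono hBm (hs (Nat.zero_le k)) hY,
    dZ_fix hBm hB h0 (hs (Nat.zero_le k)) le_rfl, map_sum]
  congr 1
  refine Finset.sum_congr rfl fun i hi => ?_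
  rw [map_smul, fix_mono hBm (hs (Finset.mem_range.1 hi).le) (condPi_idem hBm _ _)]

theorem Pg_succ (z : ℝ) (s : ℕ → ℝ) (Y lam : Ω →₂[P] ℝ) (k : ℕ) :
    Pg hBm hB z s Y lam (k + 1) = Pg hBm hB z s Y lam k + (z * (s (k + 1) - s k)) •
      condPi (brownianFiltration B hBm) P (s k) lam +
        (Zt hB (s (k + 1)).toNNReal - Zt hB (s k).toNNReal) := by
  unfold Pg
  rw [Finset.sum_range_succ, ← dZ_add hB (s 0) (s k) (s (k + 1))]
  have : dZ hB (s k) (s (k + 1)) = Zt hB (s (k + 1)).toNNReal - Zt hB (s k).toNNReal := rfl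
  rw [this]
  abel

/-- the chain of one-step inequalities -/
theorem chain {z : ℝ} (hz : 0 < z) {s : ℕ → ℝ} (hs : Monotone s) (h0 : 0 ≤ s 0) {n : ℕ}
    (hn : s n ≤ 1) {g : ℝ → ℝ} {A K : ℝ} (hg : QG g A) (hK : ∀ x, g x ≤ K) {Y : Ω →₂[P] ℝ}
    (hY : condPi (brownianFiltration B hBm) P (s 0) Y = Y) (lam : Ω →₂[P] ℝ) (k : ℕ) (hk : k ≤ n) :
    ∫ ω, gaussOp z (s n - s k) g ((Pg hBm hB z s Y lam k : Ω →₂[P] ℝ) ω) ∂P -
      1 / 2 * ∑ i ∈ Finset.range k, z * ((s (i + 1) - s i) * (FB P B hBm).q lam (s i)) ≤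
      ∫ ω, gaussOp z (s n - s 0) g (Y ω) ∂P := by
  induction k with
  | zero =>
    have e : Pg hBm hB z s Y lam 0 = Y := by
      unfold Pg; rw [dZ_self]; simp
    rw [e]; simp
  | succ k ih =>
    have ih' := ih (by omega)
    have hkk : s k ≤ s (k + 1) := hs (Nat.le_succ k)
    have hkn : s (k + 1) ≤ s n := hs hk
    have hk0 : 0 ≤ s k := h0.trans (hs (Nat.zero_le k))
    have hd0 : 0 ≤ s n - s (k + 1) := by linarith
    have hd1 : s n - s (k + 1) ≤ 1 := by linarith
    have hG := hg.gaussOp hK hz hd0 hd1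
    have hGK := fun x => gaussOp_le hg.cont hK hg.gint hz.le (s n - s (k + 1)) x
    have h1 := cstep hBm hB hk0 hkk (Pg_fix hBm hB (z := z) hs h0 hY lam k)
      (condPi_idem hBm (s k) lam) hG hGK hz.le
    rw [← Pg_succ] at h1
    have e1 : ∀ y, gaussOp z (s (k + 1) - s k) (gaussOp z (s n - s (k + 1)) g) y =
        gaussOp z (s n - s k) g y := by
      intro y
      rw [gaussOp_semi hg.cont hK hz (by linarith) hd0]
      congr 1; ring
    simp only [e1] at h1
    rw [Finset.sum_range_succ]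
    have e2 : (FB P B hBm).q lam (s k) = ‖condPi (brownianFiltration B hBm) P (s k) lam‖ ^ 2 :=
      (FB P B hBm).q_eq lam (s k)
    rw [e2]
    linarith

/-! ### Riemann sums -/

section PF

variable {E : Type*} [NormedAddCommGroup E] [InnerProductSpace ℝ E] [CompleteSpace E]
variable (F : PF E) {w : ℝ → ℝ} (hw : PF.IsWeight w)

theorem OO_sum {s : ℕ → ℝ} (hs : Monotone s) (h0 : 0 ≤ s 0) (x : E) (k : ℕ) (hk : s k ≤ 1) :
    OO F hw (s 0) (s k) x = ∑ i ∈ Finset.range k, OO F hw (s i) (s (i + 1)) x := by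
  induction k with
  | zero => rw [OO_self F hw h0 hk]; simp
  | succ k ih =>
    have hkk : s k ≤ s (k + 1) := hs (Nat.le_succ k)
    rw [Finset.sum_range_succ, ← ih (hkk.trans hk), OO_add F hw h0 (hs (Nat.zero_le k)) hkk hk]

theorem riemann_le {a b z : ℝ} (ha : 0 ≤ a) (hab : a < b) (hb : b ≤ 1) (hz : 0 ≤ z)
    (hwz : ∀ r ∈ Ioo a b, w r = z) (x : E) (n : ℕ) (hn : 0 < n) :
    ‖OO F hw a b x - ∑ i ∈ Finset.range n,
      (z * ((a + (i + 1 : ℕ) * ((b - a) / n)) - (a + (i : ℕ) * ((b - a) / n)))) •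
        F.Pi (a + (i : ℕ) * ((b - a) / n)) x‖ ≤
      z * ((b - a) + (F.q x b - F.q x a)) / 2 * Real.sqrt ((b - a) / n) := by
  set δ := (b - a) / n with hδ
  have hn' : (0:ℝ) < n := by exact_mod_cast hn
  have hδ0 : 0 < δ := div_pos (by linarith) hn'
  set s : ℕ → ℝ := fun i => a + (i : ℕ) * δ with hs
  have hsn : s n = b := by simp only [hs, hδ]; field_simp; ring
  have hs0 : s 0 = a := by simp [hs]
  have hmono : Monotone s := fun i j hij => by
    simp only [hs]
    have : (i:ℝ) ≤ j := by exact_mod_cast hij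
    nlinarith
  have hinc : ∀ i, s (i + 1) - s i = δ := fun i => by simp only [hs]; push_cast; ring
  have h1 := OO_sum F hw hmono (by rw [hs0]; exact ha) x n (by rw [hsn]; exact hb)
  rw [hsn, hs0] at h1
  change ‖OO F hw a b x - ∑ i ∈ Finset.range n, (z * (s (i + 1) - s i)) • F.Pi (s i) x‖ ≤ _
  rw [h1, ← Finset.sum_sub_distrib]
  refine (norm_sum_le _ _).trans ?_
  set κ := Real.sqrt δ with hκ
  have hκ0 : 0 < κ := Real.sqrt_pos.2 hδ0
  have hκ2 : κ ^ 2 = δ := Real.sq_sqrt hδ0.le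
  have h2 : ∀ i ∈ Finset.range n,
      ‖OO F hw (s i) (s (i + 1)) x - (z * (s (i + 1) - s i)) • F.Pi (s i) x‖ ≤
        z * κ / 2 * (δ + (F.q x (s (i + 1)) - F.q x (s i))) := by
    intro i hi
    have hi' : i + 1 ≤ n := Finset.mem_range.1 hi
    have hsi : a ≤ s i := by rw [← hs0]; exact hmono (Nat.zero_le i)
    have hsi1 : s (i + 1) ≤ b := by rw [← hsn]; exact hmono hi'
    refine (norm_OO_sub_le F hw (ha.trans hsi) (hmono (Nat.le_succ i)) (hsi1.trans hb) hz
      (fun r hr => hwz r ⟨lt_of_le_of_lt hsi hr.1, lt_of_lt_of_le hr.2 hsi1⟩) x).trans ?_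
    rw [hinc]
    set u := F.q x (s (i + 1)) - F.q x (s i) with hu
    have hu0 : 0 ≤ u := sub_nonneg.2 (F.q_mono x (hmono (Nat.le_succ i)))
    have h3 : 2 * (κ * Real.sqrt u) ≤ δ + u := by
      have h4 := Real.sq_sqrt hu0
      nlinarith [sq_nonneg (κ - Real.sqrt u)]
    have h5 : z * δ * Real.sqrt u = z * κ / 2 * (2 * (κ * Real.sqrt u)) := by
      rw [← hκ2]; ring
    rw [h5]
    exact mul_le_mul_of_nonneg_left h3 (by positivity)
  refine (Finset.sum_le_sum h2).trans (le_of_eq ?_)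
  rw [← Finset.mul_sum, Finset.sum_add_distrib, Finset.sum_range_sub (fun i => F.q x (s i)),
    Finset.sum_const, Finset.card_range, hsn, hs0]
  have h6 : n • δ = b - a := by rw [nsmul_eq_mul, hδ]; field_simp
  rw [h6]; ring

omit [CompleteSpace E] in
include hw in
theorem ii_q {s t : ℝ} (hs : 0 ≤ s) (hst : s ≤ t) (ht : t ≤ 1) (x : E) :
    IntervalIntegrable (fun r => w r * F.q x r) volume s t := ii_w F hw hs hst ht x x

omit [CompleteSpace E] in
include hw in
theorem cost_le {a b z : ℝ} (ha : 0 ≤ a) (hb : b ≤ 1) (hz : 0 ≤ z)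
    (hwz : ∀ r ∈ Ioo a b, w r = z) {s : ℕ → ℝ} (hs : Monotone s) (x : E) (n : ℕ)
    (hs0 : s 0 = a) (hsn : s n = b) :
    ∑ i ∈ Finset.range n, z * ((s (i + 1) - s i) * F.q x (s i)) ≤
      ∫ r in a..b, w r * F.q x r := by
  have h1 : ∑ i ∈ Finset.range n, ∫ r in s i..s (i + 1), w r * F.q x r =
      ∫ r in s 0..s n, w r * F.q x r := by
    refine intervalIntegral.sum_integral_adjacent_intervals fun i hi => ?_
    refine ii_q F hw ?_ (hs (Nat.le_succ i)) ?_ x
    · exact ha.trans (by rw [← hs0]; exact hs (Nat.zero_le i))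
    · refine le_trans ?_ hb
      rw [← hsn]; exact hs hi
  rw [← hs0, ← hsn, ← h1]
  refine Finset.sum_le_sum fun i hi => ?_
  have hi' : i + 1 ≤ n := Finset.mem_range.1 hi
  have hsi : a ≤ s i := by rw [← hs0]; exact hs (Nat.zero_le i)
  have hsi1 : s (i + 1) ≤ b := by rw [← hsn]; exact hs hi'
  have hii : s i ≤ s (i + 1) := hs (Nat.le_succ i)
  have h2 : z * ((s (i + 1) - s i) * F.q x (s i)) = ∫ r in s i..s (i + 1), z * F.q x (s i) := by
    rw [intervalIntegral.integral_const, smul_eq_mul]; ring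
  rw [h2, intervalIntegral.integral_of_le hii, intervalIntegral.integral_of_le hii,
    integral_Ioc_eq_integral_Ioo, integral_Ioc_eq_integral_Ioo]
  have i1 := ii_q F hw (ha.trans hsi) hii (hsi1.trans hb) x
  rw [intervalIntegrable_iff_integrableOn_Ioc_of_le hii] at i1
  refine setIntegral_mono_on ?_ (i1.mono_set Ioo_subset_Ioc_self) measurableSet_Ioo fun r hr => ?_
  · exact (continuous_const.integrableOn_Icc (a := s i) (b := s (i + 1))).mono_set Ioo_subset_Icc_self
  · rw [hwz r ⟨lt_of_le_of_lt hsi hr.1, lt_of_lt_of_le hr.2 hsi1⟩]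
    exact mul_le_mul_of_nonneg_left (F.q_mono x hr.1.le) hz

end PF

/-- **CELL** -/
theorem cell : CELL hBm hB := by
  intro A lam a b z ha hab hbT hz hm Y hY g C K hg hK
  have hb1 : b ≤ 1 := hbT.trans A.hT1.le
  rcases hab.eq_or_lt with h | h
  · subst h
    have e1 : Go hBm hB A lam a a Y = Y := by
      unfold Go; rw [dZ_self, OO_self _ _ ha hb1]; simp
    have e2 : Cq hBm A lam a a = 0 := by unfold Cq; exact intervalIntegral.integral_same
    rw [e1, e2, sub_self]
    simp only [CtlB_130.gaussOp_var0]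
    simp
  · have hqg := hg.qg
    set F := FB P B hBm with hF
    have key : ∀ n : ℕ, 0 < n →
        ∫ ω, g ((Pg hBm hB z (fun i : ℕ => a + (i : ℕ) * ((b - a) / n)) Y lam n : Ω →₂[P] ℝ) ω) ∂P -
          1 / 2 * Cq hBm A lam a b ≤ ∫ ω, gaussOp z (b - a) g (Y ω) ∂P := by
      intro n hn
      set s : ℕ → ℝ := fun i : ℕ => a + (i : ℕ) * ((b - a) / n) with hs
      have hn' : (0:ℝ) < n := by exact_mod_cast hn
      have hδ0 : 0 < (b - a) / n := div_pos (by linarith) hn'
      have hsn : s n = b := by simp only [hs]; field_simp; ring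
      have hs0 : s 0 = a := by simp [hs]
      have hmono : Monotone s := fun i j hij => by
        simp only [hs]
        have : (i:ℝ) ≤ j := by exact_mod_cast hij
        nlinarith
      have h1 := chain hBm hB hz hmono (by rw [hs0]; exact ha) (n := n) (by rw [hsn]; exact hb1)
        hqg hK (Y := Y) (by rw [hs0]; exact hY) lam n le_rfl
      rw [sub_self, hsn, hs0] at h1
      simp only [CtlB_130.gaussOp_var0] at h1
      have h2 := cost_le F (wA A) ha hb1 hz.le hm hmono lam n hs0 hsn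
      have h3 : Cq hBm A lam a b = ∫ r in a..b, A.m r * F.q lam r := rfl
      rw [h3]
      linarith
    have hlim : Tendsto (fun n : ℕ =>
        Pg hBm hB z (fun i : ℕ => a + (i : ℕ) * ((b - a) / n)) Y lam n) atTop
        (𝓝 (Go hBm hB A lam a b Y)) := by
      rw [tendsto_iff_norm_sub_tendsto_zero]
      have h4 : Tendsto (fun n : ℕ => z * ((b - a) + (F.q lam b - F.q lam a)) / 2 *
          Real.sqrt ((b - a) / n)) atTop (𝓝 0) := by
        have h5 : Tendsto (fun n : ℕ => Real.sqrt ((b - a) / n)) atTop (𝓝 0) := by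
          have h6 : Tendsto (fun n : ℕ => (b - a) / (n : ℝ)) atTop (𝓝 0) :=
            tendsto_const_div_atTop_nhds_zero_nat (b - a)
          have h7 := (Real.continuous_sqrt.tendsto 0).comp h6
          rw [Real.sqrt_zero] at h7
          exact h7
        simpa using h5.const_mul (z * ((b - a) + (F.q lam b - F.q lam a)) / 2)
      refine squeeze_zero' (Eventually.of_forall fun _ => norm_nonneg _) ?_ h4
      filter_upwards [eventually_gt_atTop 0] with n hn
      refine le_trans (le_of_eq ?_) (riemann_le F (wA A) ha h hb1 hz.le hm lam n hn)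
      rw [norm_sub_rev]
      congr 1
      have hn' : (n : ℝ) ≠ 0 := by exact_mod_cast hn.ne'
      have e3 : a + ((n : ℕ) : ℝ) * ((b - a) / n) = b := by field_simp; ring
      have e4 : a + ((0 : ℕ) : ℝ) * ((b - a) / n) = a := by simp
      unfold Go Pg
      simp only [e3, e4]
      have e5 : ∀ u v w : Ω →₂[P] ℝ, u + v - (u + w) = v - w := fun u v w => by abel
      rw [e5]
      rfl
    have h8 := (hg.tendsto hlim).sub_const (1 / 2 * Cq hBm A lam a b)
    refine le_of_tendsto h8 ?_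
    filter_upwards [eventually_gt_atTop 0] with n hn
    exact key n hn

end Crest.Agent.R146.Br_256
end
end

-- ▼ part R146/BrUp_52
section

/-!
# Row 146, R3 bridge: `CELL → UP` (helper52)
-/

set_option autoImplicit false

noncomputable section

open MeasureTheory Set Filter Topology ProbabilityTheory
open scoped InnerProductSpace RealInnerProductSpace NNReal ENNReal

namespace Crest.Agent.R146.BrUp_52

open Crest.ProbabilityR.Perceptron Crest.ProbabilityR.InvariantGlass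
open Crest.Agent.R146.DualQ_256 Crest.Agent.R146.DualC1_256 Crest.Agent.R146.DualV_256
  Crest.Agent.R146.DualL_256 Crest.Agent.R146.DualG_256 Crest.Agent.R146.CtlC_130
open Crest.Agent.R146.StepDef_791 Crest.Agent.R146.Cell_534 Crest.Agent.R146.PD_534
open Crest.Agent.R146.Br_256

/-! ### the Parisi function -/

/-- `ψ_t` is locally Lipschitz with a constant of linear growth -/
theorem psi_QL (A : SD) {t : ℝ} (ht : t ∈ Icc 0 A.T) : ∃ C, QL (A.psi t) C := by
  have hB := Back_847.back A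
  obtain ⟨M, hM⟩ := hB.bsys
  have hD := A.D_pos t
  have hu : ∀ x y, |A.u t x - A.u t y| ≤ 1 * |x - y| := by
    intro x y
    have h := (convex_univ : Convex ℝ (univ : Set ℝ)).norm_image_sub_le_of_norm_hasDerivWithin_le
      (f := A.u t) (f' := fun z => A.V t z - 1) (C := 1)
      (fun z _ => (hB.u_x t ht z).hasDerivWithinAt) (fun z _ => by
        rw [Real.norm_eq_abs, abs_le]
        have h1 := hM.V_pos t ht z
        have h2 := hM.V_lt t ht z
        constructor <;> linarith) (mem_univ y) (mem_univ x)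
    simpa [Real.norm_eq_abs] using h
  refine ⟨_, QL.of_deriv (g1 := fun x => A.u t x / A.D t) (fun x => psi_x hB ht x)
    (L := (A.D t)⁻¹) (inv_pos.2 hD).le fun x y => ?_⟩
  rw [← sub_div, abs_div, abs_of_pos hD, div_eq_inv_mul]
  refine mul_le_mul_of_nonneg_left ?_ (inv_pos.2 hD).le
  simpa using hu x y

theorem psi_semi (A : SD) {a b z : ℝ} (hc : IsCell A a b z) {s t : ℝ} (hs : s ∈ Icc a b)
    (ht : t ∈ Icc a b) (hst : s ≤ t) : gaussOp z (t - s) (A.psi t) = A.psi s := by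
  have hB := Back_847.back A
  funext x
  obtain ⟨C, hC⟩ := psi_QL A (hc.mem hc.bI)
  rw [hc.psi_eq t ht, hc.psi_eq s hs]
  rw [gaussOp_semi hC.cont (hB.psi_nonpos b (hc.mem hc.bI)) hc.z0 (by linarith)
    (by linarith [ht.2]) x]
  congr 1
  ring

theorem fA_QG {d : ℝ} (hd : 0 < d) : QG (fA d) (1 / (2 * d)) where
  nonneg := by positivity
  cont := by unfold fA; fun_prop
  bd := fun x => by
    unfold fA
    have h0 : 0 < 1 / (2 * d) := by positivity
    rw [abs_mul, abs_neg, abs_of_pos h0, abs_of_nonneg (sq_nonneg _)]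
    have h1 : (max (-x) 0) ^ 2 ≤ x ^ 2 := by
      rcases le_total (-x) 0 with h | h
      · rw [max_eq_right h]; nlinarith [sq_nonneg x]
      · rw [max_eq_left h]; nlinarith
    nlinarith [sq_nonneg x]

theorem psi_T (A : SD) (x : ℝ) :
    R164.GC.H (Real.sqrt (1 - A.T)) (fA A.d) x = A.psi A.T x := by
  have e : A.psi A.T = startPsi A.d A.dl := Psc_self A.hv _
  rw [e]
  unfold startPsi R164.GC.H fA Hg_534.H
  rw [← integral_const_mul]
  rfl

section

variable {Ω : Type*} [mΩ : MeasurableSpace Ω] {P : Measure Ω} [IsProbabilityMeasure P]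
  {B : ℝ≥0 → Ω → ℝ} (hBm : ∀ t, Measurable (B t)) (hB : IsBrownianReal B P)

/-! ### the process -/

theorem dZ_add (r s t : ℝ) : dZ hB r s + dZ hB s t = dZ hB r t := by
  unfold dZ; abel

theorem dZ_self (s : ℝ) : dZ hB s s = 0 := by
  unfold dZ; rw [sub_self]

theorem Go_Go (A : SD) (lam Y : Ω →₂[P] ℝ) {s t u : ℝ} (hs : 0 ≤ s) (hst : s ≤ t) (htu : t ≤ u)
    (hu : u ≤ 1) : Go hBm hB A lam t u (Go hBm hB A lam s t Y) = Go hBm hB A lam s u Y := by
  unfold Go
  rw [← OO_add (FB P B hBm) (wA A) hs hst htu hu lam, ← dZ_add hB s t u]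
  abel

theorem Go_self (A : SD) (lam Y : Ω →₂[P] ℝ) {s : ℝ} (hs : 0 ≤ s) (hs1 : s ≤ 1) :
    Go hBm hB A lam s s Y = Y := by
  unfold Go
  rw [dZ_self, OO_self (FB P B hBm) (wA A) hs hs1, add_zero, add_zero]

theorem fix_mono {s t : ℝ} (hst : s ≤ t) {Y : Ω →₂[P] ℝ}
    (hY : condPi (brownianFiltration B hBm) P s Y = Y) :
    condPi (brownianFiltration B hBm) P t Y = Y := by
  have h := (FB P B hBm).comp' hst Y
  have e : (FB P B hBm).Pi s Y = Y := hY
  rw [e] at h
  exact h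

theorem Zt_fix' {s t : ℝ} (hs : 0 ≤ s) (hst : s ≤ t) :
    condPi (brownianFiltration B hBm) P t (Zt hB s.toNNReal) = Zt hB s.toNNReal := by
  refine fix_mono hBm hst ?_
  have h := Zt_fix hBm hB s.toNNReal
  rwa [Real.coe_toNNReal s hs] at h

theorem Go_fix (A : SD) (lam : Ω →₂[P] ℝ) {s t : ℝ} (hs : 0 ≤ s) (hst : s ≤ t) (ht : t ≤ 1)
    {Y : Ω →₂[P] ℝ} (hY : condPi (brownianFiltration B hBm) P s Y = Y) :
    condPi (brownianFiltration B hBm) P t (Go hBm hB A lam s t Y) = Go hBm hB A lam s t Y := by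
  unfold Go dZ
  have h1 : condPi (brownianFiltration B hBm) P t (OO (FB P B hBm) (wA A) s t lam) =
      OO (FB P B hBm) (wA A) s t lam := Pi_OO (FB P B hBm) (wA A) hs hst ht le_rfl lam
  rw [map_add, map_add, map_sub, fix_mono hBm hst hY, Zt_fix' hBm hB (hs.trans hst) le_rfl,
    Zt_fix' hBm hB hs hst, h1]

theorem Cq_ii (A : SD) (lam : Ω →₂[P] ℝ) {s t : ℝ} (hs : 0 ≤ s) (hst : s ≤ t) (ht : t ≤ 1) :
    IntervalIntegrable (fun r => A.m r * (FB P B hBm).q lam r) volume s t :=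
  ii_w (FB P B hBm) (wA A) hs hst ht lam lam

theorem Cq_add (A : SD) (lam : Ω →₂[P] ℝ) {s t u : ℝ} (hs : 0 ≤ s) (hst : s ≤ t) (htu : t ≤ u)
    (hu : u ≤ 1) : Cq hBm A lam s t + Cq hBm A lam t u = Cq hBm A lam s u := by
  unfold Cq
  exact intervalIntegral.integral_add_adjacent_intervals
    (Cq_ii hBm A lam hs hst (htu.trans hu)) (Cq_ii hBm A lam (hs.trans hst) htu hu)

theorem Cq_self (A : SD) (lam : Ω →₂[P] ℝ) (s : ℝ) : Cq hBm A lam s s = 0 := by
  unfold Cq; rw [intervalIntegral.integral_same]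

theorem OO_end (A : SD) (lam : Ω →₂[P] ℝ) : OO (FB P B hBm) (wA A) A.T 1 lam = 0 := by
  refine ext_inner_right ℝ fun y => ?_
  rw [inner_OO (FB P B hBm) (wA A) A.hT0.le A.hT1.le le_rfl, inner_zero_left]
  rw [intervalIntegral.integral_congr (g := fun _ => (0 : ℝ)) fun r hr => ?_]
  · simp
  · rw [uIcc_of_le A.hT1.le] at hr
    simp only
    rw [StepClk_900.m_of_ge A hr.1, zero_mul]

theorem Cq_end (A : SD) (lam : Ω →₂[P] ℝ) : Cq hBm A lam A.T 1 = 0 := by
  unfold Cq
  rw [intervalIntegral.integral_congr (g := fun _ => (0 : ℝ)) fun r hr => ?_]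
  · simp
  · rw [uIcc_of_le A.hT1.le] at hr
    simp only
    rw [StepClk_900.m_of_ge A hr.1, zero_mul]

/-- the last stretch `[T,1]` -/
theorem last (A : SD) (lam : Ω →₂[P] ℝ) {Y : Ω →₂[P] ℝ}
    (hY : condPi (brownianFiltration B hBm) P A.T Y = Y) :
    ∫ ω, fA A.d ((Go hBm hB A lam A.T 1 Y : Ω →₂[P] ℝ) ω) ∂P = ∫ ω, A.psi A.T (Y ω) ∂P := by
  have e : Go hBm hB A lam A.T 1 Y =
      Y + (Zt hB (1 : ℝ).toNNReal - Zt hB A.T.toNNReal) := by
    unfold Go dZ
    rw [OO_end, add_zero]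
  rw [e, freeze hBm hB A.hT0.le A.hT1.le hY (fA_QG A.hd)]
  exact integral_congr_ae (ae_of_all _ fun ω => psi_T A (Y ω))

/-! ### the two inequalities -/

/-- inequality between the times `s` and `t` -/
def Stp (A : SD) (lam : Ω →₂[P] ℝ) (s t : ℝ) : Prop :=
  ∀ Y : Ω →₂[P] ℝ, condPi (brownianFiltration B hBm) P s Y = Y →
    ∫ ω, A.psi t ((Go hBm hB A lam s t Y : Ω →₂[P] ℝ) ω) ∂P - 1 / 2 * Cq hBm A lam s t ≤
      ∫ ω, A.psi s (Y ω) ∂P

theorem Stp.trans {A : SD} {lam : Ω →₂[P] ℝ} {s t u : ℝ} (hs : 0 ≤ s) (hst : s ≤ t) (htu : t ≤ u)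
    (hu : u ≤ 1) (h1 : Stp hBm hB A lam s t) (h2 : Stp hBm hB A lam t u) :
    Stp hBm hB A lam s u := by
  intro Y hY
  have a1 := h1 Y hY
  have a2 := h2 _ (Go_fix hBm hB A lam hs hst (htu.trans hu) hY)
  rw [Go_Go hBm hB A lam Y hs hst htu hu] at a2
  rw [← Cq_add hBm A lam hs hst htu hu]
  linarith

theorem stp_cell (hC : CELL (P := P) hBm hB) {A : SD} (lam : Ω →₂[P] ℝ) {a b z : ℝ}
    (hc : IsCell A a b z) {s t : ℝ} (hs : a ≤ s) (hst : s ≤ t) (ht : t ≤ b) :
    Stp hBm hB A lam s t := by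
  intro Y hY
  have hsm : s ∈ Icc a b := ⟨hs, hst.trans ht⟩
  have htm : t ∈ Icc a b := ⟨hs.trans hst, ht⟩
  obtain ⟨C, hQ⟩ := psi_QL A (hc.mem htm)
  have h := hC A lam s t z (hc.a0.trans hs) hst (ht.trans hc.bT) hc.z0
    (fun r hr => hc.m_eq r ⟨hs.trans hr.1.le, hr.2.trans_le ht⟩) Y hY (A.psi t) C 0 hQ
    ((Back_847.back A).psi_nonpos t (hc.mem htm))
  rwa [psi_semi A hc hsm htm hst] at h

theorem stp_all (hC : CELL (P := P) hBm hB) (A : SD) (lam : Ω →₂[P] ℝ) :
    ∀ s t : ℝ, 0 ≤ s → s ≤ t → t ≤ A.T → Stp hBm hB A lam s t := by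
  refine cells_induct A 0 (fun c => ∀ s t : ℝ, 0 ≤ s → s ≤ t → t ≤ c → Stp hBm hB A lam s t) ?_ ?_
  · intro s t hs hst ht Y _
    have e1 : s = 0 := le_antisymm (hst.trans ht) hs
    have e2 : t = 0 := le_antisymm ht (hs.trans hst)
    subst e1 e2
    rw [Go_self hBm hB A lam Y le_rfl zero_le_one, Cq_self]
    simp
  · intro a b z hc _ ih s t hs hst ht
    rcases le_or_gt t a with h | h
    · exact ih s t hs hst h
    · rcases le_or_gt a s with h' | h'
      · exact stp_cell hBm hB hC lam hc h' hst ht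
      · exact Stp.trans hBm hB hs h'.le h.le (ht.trans (hc.bT.trans A.hT1.le))
          (ih s a hs h'.le le_rfl) (stp_cell hBm hB hC lam hc le_rfl h.le ht)

/-- **`CELL → UP`** -/
theorem up (hC : CELL (P := P) hBm hB) : UP (P := P) hBm hB := by
  intro A lam
  refine ⟨fun s t hs hst ht => stp_all hBm hB hC A lam s t hs hst ht, ?_⟩
  intro s hs hsT Y hY
  have h1 := stp_all hBm hB hC A lam s A.T hs hsT le_rfl Y hY
  have h2 := last hBm hB A lam (Go_fix hBm hB A lam hs hsT A.hT1.le hY)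
  rw [Go_Go hBm hB A lam Y hs hsT A.hT1.le le_rfl] at h2
  rw [h2, ← Cq_add hBm A lam hs hsT A.hT1.le le_rfl, Cq_end, add_zero]
  exact h1

end

end Crest.Agent.R146.BrUp_52
end
end

-- ▼ part R146/SmoothApx_323
section

/-!
Row 146: smooth bounded approximants from above of the quadratic penalty `fq b k`, with
nonincreasing difference, and the comparison of the pressures for every mixture law.
-/

set_option autoImplicit false
set_option linter.unusedSectionVars false

namespace Crest.Agent.R146.SmoothApx_323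

open MeasureTheory ProbabilityTheory Filter Topology
open Crest.ProbabilityR.Perceptron
open Crest.Agent.R146.Assoc_323
open Crest.Agent.R146.P34_734
open Crest.Agent.R146.P34a_323
open Crest.Agent.R146.RepairLaw_840 (Good good_mixtureLaw)
open Crest.Agent.R146.PressC_663 (logZ uSph crd measurable_crd isProb_uSph spherePressure_eq)
open Real (smoothTransition)

/-- a smooth compactly supported function, equal to `s` on `[2d, R]`, between `0` and `s₊`. -/
noncomputable def gchi (d R s : ℝ) : ℝ :=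
  s * (smoothTransition ((s - d) / d) * smoothTransition (R + 1 - s))

theorem contDiff_gchi (d R : ℝ) (n : ℕ∞) : ContDiff ℝ n (gchi d R) := by
  unfold gchi
  refine contDiff_id.mul (ContDiff.mul ?_ ?_)
  · exact Real.smoothTransition.contDiff.comp ((contDiff_id.sub contDiff_const).div_const d)
  · exact Real.smoothTransition.contDiff.comp (contDiff_const.sub contDiff_id)

theorem continuous_gchi (d R : ℝ) : Continuous (gchi d R) := (contDiff_gchi d R 0).continuous

theorem gchi_of_le {d : ℝ} (hd : 0 < d) (R : ℝ) {s : ℝ} (hs : s ≤ d) : gchi d R s = 0 := by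
  unfold gchi
  rw [Real.smoothTransition.zero_of_nonpos (div_nonpos_of_nonpos_of_nonneg (by linarith) hd.le)]
  ring

theorem gchi_of_ge (d : ℝ) {R s : ℝ} (hs : R + 1 ≤ s) : gchi d R s = 0 := by
  unfold gchi
  rw [Real.smoothTransition.zero_of_nonpos (by linarith : R + 1 - s ≤ 0)]
  ring

theorem gchi_nonneg {d : ℝ} (hd : 0 < d) (R s : ℝ) : 0 ≤ gchi d R s := by
  rcases le_total s d with h | h
  · rw [gchi_of_le hd R h]
  · unfold gchi
    exact mul_nonneg (hd.le.trans h) (mul_nonneg (Real.smoothTransition.nonneg _)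
      (Real.smoothTransition.nonneg _))

theorem gchi_le {d : ℝ} (hd : 0 < d) (R s : ℝ) : gchi d R s ≤ max s 0 := by
  rcases le_total s d with h | h
  · rw [gchi_of_le hd R h]; exact le_max_right _ _
  · have hs : 0 ≤ s := hd.le.trans h
    rw [max_eq_left hs]
    unfold gchi
    have h1 := Real.smoothTransition.le_one ((s - d) / d)
    have h2 := Real.smoothTransition.le_one (R + 1 - s)
    have h3 := Real.smoothTransition.nonneg ((s - d) / d)
    have h4 := Real.smoothTransition.nonneg (R + 1 - s)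
    have h5 : smoothTransition ((s - d) / d) * smoothTransition (R + 1 - s) ≤ 1 := by nlinarith
    nlinarith

theorem gchi_eq {d : ℝ} (hd : 0 < d) {R s : ℝ} (h1 : 2 * d ≤ s) (h2 : s ≤ R) :
    gchi d R s = s := by
  unfold gchi
  rw [Real.smoothTransition.one_of_one_le (by rw [le_div_iff₀ hd]; linarith),
    Real.smoothTransition.one_of_one_le (by linarith)]
  ring

theorem sub_gchi_le {d : ℝ} (hd : 0 < d) (R : ℝ) {s : ℝ} :
    s - gchi d R s ≤ 2 * d * Real.exp (2 * d - s) + Real.exp (2 * s - R) := by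
  have e1 := Real.exp_pos (2 * d - s)
  have e2 := Real.exp_pos (2 * s - R)
  have h0 := gchi_nonneg hd R s
  rcases le_total s (2 * d) with h | h
  · have h1 : 1 ≤ Real.exp (2 * d - s) := Real.one_le_exp (by linarith)
    nlinarith
  · rcases le_total s R with h2 | h2
    · rw [gchi_eq hd h h2]
      have : 0 ≤ 2 * d * Real.exp (2 * d - s) := by positivity
      linarith
    · have h3 : s ≤ Real.exp (2 * s - R) := by
        have := Real.add_one_le_exp (2 * s - R)
        linarith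
      have : 0 ≤ 2 * d * Real.exp (2 * d - s) := by positivity
      linarith

/-- the primitive of `gchi`. -/
noncomputable def Gp (d R t : ℝ) : ℝ := ∫ s in (0 : ℝ)..t, gchi d R s

theorem hasDerivAt_Gp (d R t : ℝ) : HasDerivAt (Gp d R) (gchi d R t) t :=
  intervalIntegral.integral_hasDerivAt_right
    ((continuous_gchi d R).intervalIntegrable _ _)
    ((continuous_gchi d R).stronglyMeasurableAtFilter _ _) (continuous_gchi d R).continuousAt

theorem Gp_of_nonpos {d : ℝ} (hd : 0 < d) (R : ℝ) {t : ℝ} (ht : t ≤ 0) : Gp d R t = 0 := by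
  unfold Gp
  have : ∫ s in (0 : ℝ)..t, gchi d R s = ∫ _s in (0 : ℝ)..t, (0 : ℝ) := by
    refine intervalIntegral.integral_congr fun s hs => ?_
    rw [Set.uIcc_of_ge ht] at hs
    exact gchi_of_le hd R (hs.2.trans hd.le)
  rw [this]
  simp

/-- the difference `t₊²/2 - Gp t` as an integral. -/
theorem diff_eq (d R t : ℝ) :
    max t 0 ^ 2 / 2 - Gp d R t = ∫ s in (0 : ℝ)..t, (max s 0 - gchi d R s) := by
  have hc : Continuous fun s : ℝ => max s 0 := continuous_id.max continuous_const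
  rw [intervalIntegral.integral_sub (hc.intervalIntegrable _ _)
    ((continuous_gchi d R).intervalIntegrable _ _)]
  have h1 : ∫ s in (0 : ℝ)..t, max s 0 = max t 0 ^ 2 / 2 := by
    rcases le_total t 0 with h | h
    · have : ∫ s in (0 : ℝ)..t, max s 0 = ∫ _s in (0 : ℝ)..t, (0 : ℝ) := by
        refine intervalIntegral.integral_congr fun s hs => ?_
        rw [Set.uIcc_of_ge h] at hs
        exact max_eq_right hs.2
      rw [this, max_eq_right h]
      simp
    · have : ∫ s in (0 : ℝ)..t, max s 0 = ∫ s in (0 : ℝ)..t, s := by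
        refine intervalIntegral.integral_congr fun s hs => ?_
        rw [Set.uIcc_of_le h] at hs
        exact max_eq_left hs.1
      rw [this, integral_id, max_eq_left h]
      ring
  rw [h1]
  rfl

theorem diff_mono {d : ℝ} (hd : 0 < d) (R : ℝ) :
    Monotone fun t : ℝ => max t 0 ^ 2 / 2 - Gp d R t := by
  intro t t' h
  have hc : Continuous fun s : ℝ => max s 0 - gchi d R s :=
    (continuous_id.max continuous_const).sub (continuous_gchi d R)
  simp only [diff_eq]
  rw [← sub_nonneg, intervalIntegral.integral_interval_sub_left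
    (hc.intervalIntegrable _ _) (hc.intervalIntegrable _ _)]
  exact intervalIntegral.integral_nonneg h fun s _ => sub_nonneg.2 (gchi_le hd R s)

theorem diff_nonneg {d : ℝ} (hd : 0 < d) (R t : ℝ) : 0 ≤ max t 0 ^ 2 / 2 - Gp d R t := by
  rcases le_total t 0 with h | h
  · rw [Gp_of_nonpos hd R h, max_eq_right h]
    simp
  · rw [diff_eq]
    exact intervalIntegral.integral_nonneg h fun s _ => sub_nonneg.2 (gchi_le hd R s)

theorem diff_le {d : ℝ} (hd : 0 < d) (R t : ℝ) :
    max t 0 ^ 2 / 2 - Gp d R t ≤ 2 * d * Real.exp (2 * d) + Real.exp (2 * t - R) / 2 := by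
  rcases le_total t 0 with h | h
  · rw [Gp_of_nonpos hd R h, max_eq_right h]
    have := Real.exp_pos (2 * d)
    have := Real.exp_pos (2 * t - R)
    simp only [ne_eq, OfNat.ofNat_ne_zero, not_false_eq_true, zero_pow, zero_div, sub_zero]
    positivity
  · rw [diff_eq]
    have hc : Continuous fun s : ℝ => max s 0 - gchi d R s :=
      (continuous_id.max continuous_const).sub (continuous_gchi d R)
    have hc2 : Continuous fun s : ℝ => 2 * d * Real.exp (2 * d - s) + Real.exp (2 * s - R) := by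
      fun_prop
    have h1 : ∫ s in (0 : ℝ)..t, (max s 0 - gchi d R s) ≤
        ∫ s in (0 : ℝ)..t, (2 * d * Real.exp (2 * d - s) + Real.exp (2 * s - R)) := by
      refine intervalIntegral.integral_mono_on h (hc.intervalIntegrable _ _)
        (hc2.intervalIntegrable _ _) fun s hs => ?_
      rw [max_eq_left hs.1]
      exact sub_gchi_le hd R
    have hder : ∀ s : ℝ, HasDerivAt
        (fun s => -(2 * d * Real.exp (2 * d - s)) + Real.exp (2 * s - R) / 2)
        (2 * d * Real.exp (2 * d - s) + Real.exp (2 * s - R)) s := by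
      intro s
      have h2 : HasDerivAt (fun s : ℝ => 2 * d - s) (-1) s := by
        simpa using (hasDerivAt_id s).const_sub (2 * d)
      have h3 : HasDerivAt (fun s : ℝ => 2 * s - R) 2 s := by
        simpa using ((hasDerivAt_id s).const_mul 2).sub_const R
      have h4 := (h2.exp.const_mul (2 * d)).neg
      have h5 := h3.exp.div_const 2
      exact (h4.add h5).congr_deriv (by ring)
    rw [intervalIntegral.integral_eq_sub_of_hasDerivAt (fun s _ => hder s)
      (hc2.intervalIntegrable _ _)] at h1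
    refine h1.trans ?_
    have e1 := Real.exp_pos (2 * d - t)
    have e2 := Real.exp_pos (2 * 0 - R)
    have e3 : Real.exp (2 * d - 0) = Real.exp (2 * d) := by rw [sub_zero]
    rw [e3]
    have e4 : 0 ≤ 2 * d * Real.exp (2 * d - t) := by positivity
    generalize Real.exp (2 * d - t) = E1 at *
    generalize Real.exp (2 * 0 - R) = E2 at *
    generalize Real.exp (2 * t - R) = E3 at *
    generalize Real.exp (2 * d) = E4 at *
    nlinarith

/-- the smooth approximant. -/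
noncomputable def phi0 (d R b k x : ℝ) : ℝ := -(b * Gp d R (k - x))

theorem hasDerivAt_phi0 (d R b k x : ℝ) :
    HasDerivAt (phi0 d R b k) (b * gchi d R (k - x)) x := by
  have h1 : HasDerivAt (fun x : ℝ => k - x) (-1) x := by
    simpa using (hasDerivAt_id x).const_sub k
  have h2 := (((hasDerivAt_Gp d R (k - x)).comp x h1).const_mul b).neg
  exact h2.congr_deriv (by ring)

theorem deriv_phi0 (d R b k : ℝ) : deriv (phi0 d R b k) = fun x => b * gchi d R (k - x) :=
  funext fun x => (hasDerivAt_phi0 d R b k x).deriv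

theorem contDiff_dphi0 (d R b k : ℝ) (n : ℕ∞) :
    ContDiff ℝ n fun x => b * gchi d R (k - x) :=
  contDiff_const.mul ((contDiff_gchi d R n).comp (contDiff_const.sub contDiff_id))

theorem contDiff_phi0 (d R b k : ℝ) : ContDiff ℝ (⊤ : ℕ∞) (phi0 d R b k) := by
  rw [contDiff_infty_iff_deriv]
  refine ⟨fun x => (hasDerivAt_phi0 d R b k x).differentiableAt, ?_⟩
  rw [deriv_phi0]
  exact contDiff_dphi0 d R b k ⊤

theorem test_phi0 {d : ℝ} (hd : 0 < d) (R b k : ℝ) : Test (phi0 d R b k) where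
  smooth n := (contDiff_phi0 d R b k).of_le (by exact_mod_cast le_top)
  bd n := by
    rcases n with _ | n
    · -- bounded
      have hc : Continuous (phi0 d R b k) := (contDiff_phi0 d R b k).continuous
      obtain ⟨C, hC⟩ := (isCompact_Icc (a := k - |R + 1|) (b := k)).exists_bound_of_continuousOn
        hc.continuousOn
      refine ⟨C, fun x => ?_⟩
      rw [iteratedDeriv_zero, ← Real.norm_eq_abs]
      have hk0 : |R + 1| ≥ 0 := abs_nonneg _
      rcases le_total x k with h | h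
      · rcases le_total (k - |R + 1|) x with h2 | h2
        · exact hC x ⟨h2, h⟩
        · -- constant to the left
          have e : phi0 d R b k x = phi0 d R b k (k - |R + 1|) := by
            unfold phi0
            congr 2
            unfold Gp
            have e1 : k - (k - |R + 1|) = |R + 1| := by ring
            rw [e1]
            have hint : ∀ a c : ℝ, IntervalIntegrable (gchi d R) volume a c := fun a c =>
              (continuous_gchi d R).intervalIntegrable a c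
            rw [← intervalIntegral.integral_add_adjacent_intervals (hint 0 |R + 1|)
              (hint |R + 1| (k - x))]
            have : ∫ s in |R + 1|..(k - x), gchi d R s = ∫ _s in |R + 1|..(k - x), (0 : ℝ) := by
              refine intervalIntegral.integral_congr fun s hs => ?_
              rw [Set.uIcc_of_le (by linarith)] at hs
              exact gchi_of_ge d ((le_abs_self _).trans hs.1)
            rw [this]
            simp
          rw [e]
          exact hC _ ⟨le_rfl, by linarith⟩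
      · have e : phi0 d R b k x = 0 := by
          unfold phi0
          rw [Gp_of_nonpos hd R (by linarith : k - x ≤ 0)]
          ring
        rw [e, norm_zero]
        exact (norm_nonneg _).trans (hC k ⟨by linarith, le_rfl⟩)
    · rw [iteratedDeriv_succ', deriv_phi0]
      set g : ℝ → ℝ := fun x => b * gchi d R (k - x) with hg
      have hcs : HasCompactSupport g := by
        refine HasCompactSupport.intro (isCompact_Icc (a := k - (R + 1)) (b := k)) fun x hx => ?_
        rw [Set.mem_Icc, not_and_or, not_le, not_le] at hx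
        rcases hx with h | h
        · simp only [hg]
          rw [gchi_of_ge d (by linarith)]; ring
        · simp only [hg]
          rw [gchi_of_le hd R (by linarith)]; ring
      have h1 := hcs.iteratedFDeriv (𝕜 := ℝ) n
      have h2 : Continuous (iteratedFDeriv ℝ n g) :=
        (contDiff_dphi0 d R b k ⊤).continuous_iteratedFDeriv (by exact_mod_cast le_top)
      obtain ⟨C, hC⟩ := h1.exists_bound_of_continuous h2
      refine ⟨C, fun x => ?_⟩
      rw [← Real.norm_eq_abs, ← norm_iteratedFDeriv_eq_norm_iteratedDeriv]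
      exact hC x

theorem monotone_phi0 {d : ℝ} (hd : 0 < d) (R : ℝ) {b : ℝ} (hb : 0 ≤ b) (k : ℝ) :
    Monotone (phi0 d R b k) := by
  refine monotone_of_deriv_nonneg (fun x => (hasDerivAt_phi0 d R b k x).differentiableAt)
    fun x => ?_
  rw [deriv_phi0]
  exact mul_nonneg hb (gchi_nonneg hd R _)

theorem phi0_sub {d R b k : ℝ} (x : ℝ) :
    phi0 d R b k x - fq b k x = b * (max (k - x) 0 ^ 2 / 2 - Gp d R (k - x)) := by
  unfold phi0 fq
  ring

theorem le_phi0 {d : ℝ} (hd : 0 < d) (R : ℝ) {b : ℝ} (hb : 0 ≤ b) (k x : ℝ) :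
    fq b k x ≤ phi0 d R b k x := by
  rw [← sub_nonneg, phi0_sub]
  exact mul_nonneg hb (diff_nonneg hd R _)

theorem antitone_phi0_sub {d : ℝ} (hd : 0 < d) (R : ℝ) {b : ℝ} (hb : 0 ≤ b) (k : ℝ) :
    Antitone fun x => phi0 d R b k x - fq b k x := by
  intro x z h
  simp only [phi0_sub]
  exact mul_le_mul_of_nonneg_left (diff_mono hd R (by linarith : k - z ≤ k - x)) hb

theorem phi0_sub_le {d : ℝ} (hd : 0 < d) (R : ℝ) {b : ℝ} (hb : 0 ≤ b) (k x : ℝ) :
    phi0 d R b k x - fq b k x ≤ (b * (2 * d * Real.exp (2 * d) + Real.exp (2 * k - R))) *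
      (Real.exp (2 * x) + Real.exp (-(2 * x))) := by
  rw [phi0_sub, mul_assoc]
  refine mul_le_mul_of_nonneg_left ?_ hb
  refine (diff_le hd R (k - x)).trans ?_
  have h1 : 1 ≤ Real.exp (2 * x) + Real.exp (-(2 * x)) := by
    rcases le_total 0 x with h | h
    · have := Real.one_le_exp (by linarith : 0 ≤ 2 * x)
      have := Real.exp_pos (-(2 * x))
      linarith
    · have := Real.one_le_exp (by linarith : 0 ≤ -(2 * x))
      have := Real.exp_pos (2 * x)
      linarith
  have h2 : Real.exp (2 * (k - x) - R) = Real.exp (2 * k - R) * Real.exp (-(2 * x)) := by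
    rw [← Real.exp_add]; congr 1; ring
  rw [h2]
  have e1 := Real.exp_pos (2 * k - R)
  have e2 := Real.exp_pos (2 * x)
  have e3 := Real.exp_pos (-(2 * x))
  have e4 : 0 ≤ 2 * d * Real.exp (2 * d) := by positivity
  have h3 := mul_le_mul_of_nonneg_left h1 e4
  have h4 : Real.exp (2 * k - R) * Real.exp (-(2 * x)) ≤
      Real.exp (2 * k - R) * (Real.exp (2 * x) + Real.exp (-(2 * x))) :=
    mul_le_mul_of_nonneg_left (by linarith) e1.le
  have h5 : 0 ≤ Real.exp (2 * k - R) * Real.exp (-(2 * x)) := by positivity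
  nlinarith

/-- **Smooth approximation from above**: for every `c > 0` there is a smooth bounded `φ ≥ fq b k`
with `φ - fq b k` nonincreasing and at most `c (e^{2x} + e^{-2x})`. -/
theorem exists_smooth_above {b : ℝ} (hb : 0 ≤ b) (k : ℝ) {c : ℝ} (hc : 0 < c) :
    ∃ φ : ℝ → ℝ, Test φ ∧ (∀ x, fq b k x ≤ φ x) ∧ (Antitone fun x => φ x - fq b k x) ∧
      Monotone φ ∧ (∀ x, φ x ≤ 0) ∧ ∀ x, φ x - fq b k x ≤ c * (Real.exp (2 * x) + Real.exp (-(2 * x))) := by
  have hlim1 : Tendsto (fun d : ℝ => b * (2 * d * Real.exp (2 * d))) (𝓝 0) (𝓝 0) := by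
    have : Continuous fun d : ℝ => b * (2 * d * Real.exp (2 * d)) := by fun_prop
    simpa using this.tendsto 0
  have hev := (hlim1.eventually_lt_const (show (0 : ℝ) < c / 2 by positivity))
  obtain ⟨r, hr, hball⟩ := Metric.eventually_nhds_iff.1 hev
  have hd : 0 < r / 2 := by positivity
  have hd1 : b * (2 * (r / 2) * Real.exp (2 * (r / 2))) < c / 2 :=
    hball (by rw [Real.dist_eq, sub_zero, abs_of_pos hd]; linarith)
  have hlim2 : Tendsto (fun R : ℝ => b * Real.exp (2 * k - R)) atTop (𝓝 0) := by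
    have h1 := (Real.tendsto_exp_neg_atTop_nhds_zero).const_mul (b * Real.exp (2 * k))
    rw [mul_zero] at h1
    refine h1.congr fun R => ?_
    rw [mul_assoc, ← Real.exp_add]
    congr 2
  obtain ⟨R, hR⟩ := (hlim2.eventually_lt_const (show (0 : ℝ) < c / 2 by positivity)).exists
  refine ⟨phi0 (r / 2) R b k, test_phi0 hd R b k, le_phi0 hd R hb k, antitone_phi0_sub hd R hb k,
    monotone_phi0 hd R hb k, fun x => ?_, fun x => ?_⟩
  · -- `Gp ≥ 0`
    unfold phi0
    have : 0 ≤ Gp (r / 2) R (k - x) := by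
      rcases le_total (k - x) 0 with h | h
      · rw [Gp_of_nonpos hd R h]
      · exact intervalIntegral.integral_nonneg h fun s _ => gchi_nonneg hd R s
    have := mul_nonneg hb this
    linarith
  · refine (phi0_sub_le hd R hb k x).trans ?_
    have : 0 ≤ Real.exp (2 * x) + Real.exp (-(2 * x)) := by positivity
    refine mul_le_mul_of_nonneg_right ?_ this
    rw [mul_add]
    linarith


end Crest.Agent.R146.SmoothApx_323
end

-- ▼ part R146/BrLBa_952
section

/-!
Row 146, R3 bridge (task 154 of helper256), leaf BR-LB (helper952): weak duality for the step system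
of `StepDef_791`, part a: the recursion as a fold over the cells, near-optimal bounded controls.
-/

set_option autoImplicit false

namespace Crest.Agent.R146.BrLBa_952

open MeasureTheory ProbabilityTheory Filter Topology Set
open Crest.ProbabilityR.InvariantGlass
open Crest.ProbabilityR.Perceptron
open Crest.Agent.R146.CtlA_130 Crest.Agent.R146.CtlB_130 Crest.Agent.R146.CtlC_130
open Crest.Agent.R146.CtlE_130 (val Prof val_split val_glue glue glue_ctl)
open Crest.Agent.R146.StepDef_791 (Valid mrc Psc startPsi SD)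
open scoped NNReal

noncomputable section

/-! ### the recursion -/

/-- measurable nonpositive functions -/
structure NM (f : ℝ → ℝ) : Prop where
  meas : Measurable f
  np : ∀ x, f x ≤ 0

lemma NM.exp_le {f : ℝ → ℝ} (h : NM f) {a : ℝ} (ha : 0 ≤ a) (y : ℝ) : Real.exp (a * f y) ≤ 1 := by
  rw [← Real.exp_zero]
  exact Real.exp_le_exp.2 (mul_nonpos_of_nonneg_of_nonpos ha (h.np y))

lemma NM.exp_int {f : ℝ → ℝ} (h : NM f) {a : ℝ} (ha : 0 ≤ a) (t x : ℝ) :
    Integrable (fun g => Real.exp (a * f (x + t * g))) (gaussianReal 0 1) := by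
  refine Integrable.of_bound
    ((h.meas.comp (by fun_prop)).const_mul a).exp.aestronglyMeasurable 1 ?_
  refine ae_of_all _ fun g => ?_
  rw [Real.norm_eq_abs, abs_of_pos (Real.exp_pos _)]
  exact h.exp_le ha _

lemma gaussOp_pos {f : ℝ → ℝ} {a : ℝ} (ha : 0 < a) (v z : ℝ) :
    gaussOp a v f z = a⁻¹ * Real.log (∫ g, Real.exp (a * f (z + Real.sqrt v * g))
      ∂gaussianReal 0 1) := by
  unfold gaussOp
  rw [if_neg ha.ne']

lemma gaussOp_nm {f : ℝ → ℝ} (h : NM f) {a : ℝ} (ha : 0 < a) (v : ℝ) : NM (gaussOp a v f) := by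
  have e : gaussOp a v f = fun z => a⁻¹ * Real.log (∫ g, Real.exp (a * f (z + Real.sqrt v * g))
      ∂gaussianReal 0 1) := funext fun z => gaussOp_pos ha v z
  rw [e]
  constructor
  · have h1 : StronglyMeasurable (fun p : ℝ × ℝ => Real.exp (a * f (p.1 + Real.sqrt v * p.2))) :=
      (((h.meas.comp (by fun_prop)).const_mul a).exp).stronglyMeasurable
    exact ((h1.integral_prod_right (ν := gaussianReal 0 1)).measurable.log).const_mul _
  · intro x
    refine mul_nonpos_of_nonneg_of_nonpos (inv_nonneg.2 ha.le) (Real.log_nonpos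
      (integral_nonneg fun g => (Real.exp_pos _).le) ?_)
    have := integral_mono (h.exp_int ha.le (Real.sqrt v) x)
      (integrable_const (1 : ℝ) (μ := gaussianReal 0 1)) fun g => h.exp_le ha.le _
    simpa using this

lemma gaussOp_mono {f g : ℝ → ℝ} (hf : NM f) (hg : NM g) (hfg : ∀ x, f x ≤ g x) {a : ℝ}
    (ha : 0 < a) (v x : ℝ) : gaussOp a v f x ≤ gaussOp a v g x := by
  rw [gaussOp_pos ha, gaussOp_pos ha]
  refine mul_le_mul_of_nonneg_left ?_ (inv_nonneg.2 ha.le)
  refine Real.log_le_log (integral_exp_pos (hf.exp_int ha.le _ _)) ?_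
  exact integral_mono (hf.exp_int ha.le _ _) (hg.exp_int ha.le _ _) fun y =>
    Real.exp_le_exp.2 (mul_le_mul_of_nonneg_left (hfg _) ha.le)

/-- scaling -/
lemma gaussOp_scale {f : ℝ → ℝ} {a M : ℝ} (ha : 0 < a) (hM : 0 < M) (v x : ℝ) :
    gaussOp (a / M) v (fun y => M * f y) x = M * gaussOp a v f x := by
  rw [gaussOp_pos ha, gaussOp_pos (div_pos ha hM)]
  have e : ∀ g : ℝ, a / M * (M * f (x + Real.sqrt v * g)) = a * f (x + Real.sqrt v * g) := by
    intro g; field_simp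
  simp only [e]
  rw [inv_div]
  field_simp

/-- the recursion down to time `0` -/
def Fold : ℝ → (ℝ → ℝ) → StepDef_791.Cells → ℝ → ℝ
  | _, f, [] => f
  | T, f, c :: cs => Fold c.1 (gaussOp c.2 (T - c.1) f) cs

lemma Psc_zero : ∀ {cs : StepDef_791.Cells} {T : ℝ} (f : ℝ → ℝ), Valid T cs →
    Psc T f cs 0 = Fold T f cs
  | [], _, _, _ => rfl
  | c :: cs, T, f, h => by
    unfold Psc Fold
    split_ifs with h1
    · have h2 : c.1 = 0 := le_antisymm h1 h.2.2.nonneg
      cases cs with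
      | nil => rw [h2]; rfl
      | cons c' cs' =>
        exfalso
        have h3 := h.2.2
        rw [h2] at h3
        exact absurd h3.2.2.nonneg (not_le.2 h3.1)
    · exact Psc_zero _ h.2.2

lemma Fold_mono : ∀ {cs : StepDef_791.Cells} {T : ℝ} {f g : ℝ → ℝ}, Valid T cs → NM f → NM g →
    (∀ x, f x ≤ g x) → ∀ x, Fold T f cs x ≤ Fold T g cs x
  | [], _, _, _, _, _, _, h, x => h x
  | c :: cs, T, f, g, hv, hf, hg, h, x => by
    unfold Fold
    exact Fold_mono hv.2.2 (gaussOp_nm hf hv.2.1 _) (gaussOp_nm hg hv.2.1 _)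
      (fun y => gaussOp_mono hf hg h hv.2.1 _ y) x

/-! ### the weight -/

lemma measurable_mrc : ∀ (cs : StepDef_791.Cells) (T : ℝ), Measurable (mrc T cs)
  | [], _ => measurable_const
  | c :: cs, T => by
    have e : mrc T (c :: cs) = fun t => if c.1 ≤ t then (if t < T then c.2 else 0) else
        mrc c.1 cs t := by funext t; rw [mrc]
    rw [e]
    refine Measurable.ite measurableSet_Ici ?_ (measurable_mrc cs c.1)
    exact Measurable.ite measurableSet_Iio measurable_const measurable_const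

lemma mrc_le : ∀ {cs : StepDef_791.Cells} {T M : ℝ}, 0 ≤ M → (∀ c ∈ cs, c.2 ≤ M) → ∀ t,
    mrc T cs t ≤ M
  | [], _, _, hM, _, _ => hM
  | c :: cs, T, M, hM, h, t => by
    unfold mrc
    split_ifs
    · exact h c (by simp)
    · exact hM
    · exact mrc_le hM (fun c' hc' => h c' (List.mem_cons_of_mem _ hc')) t

lemma exists_M : ∀ cs : StepDef_791.Cells, ∃ M : ℝ, 1 ≤ M ∧ ∀ c ∈ cs, c.2 ≤ M
  | [] => ⟨1, le_rfl, by simp⟩
  | c :: cs => by
    obtain ⟨M, h1, h2⟩ := exists_M cs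
    refine ⟨max M c.2, h1.trans (le_max_left _ _), ?_⟩
    intro c' hc'
    rcases List.mem_cons.1 hc' with h | h
    · rw [h]; exact le_max_right _ _
    · exact (h2 c' h).trans (le_max_left _ _)

lemma mrc_of_ge {cs : StepDef_791.Cells} {T t : ℝ} (hv : Valid T cs) (h : T ≤ t) :
    mrc T cs t = 0 := by
  cases cs with
  | nil => rfl
  | cons c cs =>
    unfold mrc
    rw [if_pos (hv.1.le.trans h), if_neg (not_lt.2 h)]

lemma wt_m (A : SD) : DualC1_256.Wt A.m := by
  obtain ⟨M, h1, h2⟩ := exists_M A.cs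
  have hm : Measurable A.m := measurable_mrc _ _
  refine ⟨hm, ?_, fun t _ => A.m_nonneg t⟩
  refine Measure.integrableOn_of_bounded (M := M) (by simp) hm.aestronglyMeasurable ?_
  refine ae_of_all _ fun t => ?_
  rw [Real.norm_eq_abs, abs_of_nonneg (A.m_nonneg t)]
  exact mrc_le (by linarith) h2 t

/-! ### one cell -/

variable {Ω : Type*} [mΩ : MeasurableSpace Ω]
variable {B : ℝ≥0 → Ω → ℝ} {hBm : ∀ t, Measurable (B t)}
variable {P : Measure Ω} [IsProbabilityMeasure P]

/-- near-optimal bounded controls from time `T` on -/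
def Near (P : Measure Ω) (B : ℝ≥0 → Ω → ℝ) (hBm : ∀ t, Measurable (B t)) (L : ℝ) (m F : ℝ → ℝ)
    (T : ℝ) (Ψ : ℝ → ℝ) : Prop :=
  ∀ ε : ℝ, 0 < ε → ∀ X : Ω → ℝ, Measurable[CtlC_130.F hBm T] X →
    ∃ v : ℝ≥0 → Ω → ℝ, Ctl hBm L v ∧ ∫ ω, Ψ (X ω) ∂P - ε ≤ val P B m F T X v

theorem cell_ge (hB : IsBrownianReal B P) {m : ℝ → ℝ} (hm : Prof m) {F0 : ℝ → ℝ}
    {Φ Φ1 Φ2 : ℝ → ℝ} {K L C : ℝ} (hw : Reg Φ Φ1 Φ2 K L C) (hL : 0 < L) {s t' x : ℝ}
    (hs0 : 0 ≤ s) (hst : s ≤ t') (ht1 : t' ≤ 1) (hx : ∀ r ∈ Ioo s t', m r = x) (hx0 : 0 ≤ x)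
    (hx1 : x ≤ 1) (ih : Near P B hBm L m F0 t' Φ) :
    Near P B hBm L m F0 s (gaussOp x (t' - s) Φ) := by
  intro ε hε X hX
  set D := MC L (C + L ^ 2) with hD
  have hD0 : 0 ≤ D := MC_nonneg _ _
  obtain ⟨N, hN⟩ := exists_nat_gt (2 * D / ε)
  have hN1 : (0:ℝ) < N + 1 := by positivity
  set d := (t' - s) / (N + 1 : ℕ) with hd
  have hd0 : 0 ≤ d := div_nonneg (by linarith) (by positivity)
  have hnd : ((N + 1 : ℕ) : ℝ) * d = t' - s := by rw [hd]; field_simp
  have hd1 : d ≤ 1 / (N + 1) := by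
    rw [hd]; push_cast
    exact div_le_div_of_nonneg_right (by linarith) hN1.le
  have hd1' : d ≤ 1 := by
    refine hd1.trans ?_
    rw [div_le_one hN1]
    have : (0:ℝ) ≤ N := Nat.cast_nonneg N
    linarith
  have inner : ∀ k : ℕ, k ≤ N + 1 → ∀ X : Ω → ℝ, Measurable[CtlC_130.F hBm (t' - k * d)] X →
      ∃ v : ℝ≥0 → Ω → ℝ, Ctl hBm L v ∧
        ∫ ω, gaussOp x (k * d) Φ (X ω) ∂P - ε / 2 - k * (D * d ^ 2) ≤
          val P B m F0 (t' - k * d) X v := by
    intro k
    induction k with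
    | zero =>
      intro _ X hX
      have e0 : t' - ((0 : ℕ) : ℝ) * d = t' := by simp
      rw [e0] at hX ⊢
      obtain ⟨v, hv, h1⟩ := ih (ε / 2) (by linarith) X hX
      refine ⟨v, hv, ?_⟩
      simpa [gaussOp_var0] using h1
    | succ k ihk =>
      intro hk X hX
      set s1 := t' - ((k + 1 : ℕ) : ℝ) * d with hs1
      have hs2 : t' - k * d = s1 + d := by rw [hs1]; push_cast; ring
      have hs1s : s ≤ s1 := by
        rw [hs1]
        have : ((k + 1 : ℕ) : ℝ) ≤ ((N + 1 : ℕ) : ℝ) := by exact_mod_cast hk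
        nlinarith
      have hs2t : s1 + d ≤ t' := by
        rw [← hs2]
        have : 0 ≤ (k:ℝ) * d := by positivity
        linarith
      obtain ⟨u1, u2, hu⟩ := gaussOp_reg hw hL hx0 hx1 (k * d)
      set ψ := gaussOp x (k * d) Φ with hψ
      have hu1m : Measurable u1 :=
        (continuous_iff_continuousAt.2 fun y => (hu.d2 y).continuousAt).measurable
      have hc : Measurable[CtlC_130.F hBm s1] (fun ω => u1 (X ω)) := hu1m.comp hX
      have hcL : ∀ ω, |u1 (X ω)| ≤ L := fun ω => hu.bL _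
      have hX' : Measurable[CtlC_130.F hBm (t' - k * d)]
          (fun ω => X ω + x * (s1 + d - s1) * u1 (X ω) +
          (B (s1 + d).toNNReal ω - B s1.toNNReal ω)) := by
        rw [hs2]
        have h12 : CtlC_130.F hBm s1 ≤ CtlC_130.F hBm (s1 + d) := F_mono hBm (by linarith)
        refine Measurable.add (Measurable.add (hX.mono h12 le_rfl)
          (Measurable.const_mul (hc.mono h12 le_rfl) _)) ?_
        exact Measurable.sub (F_adapted hBm _ _ le_rfl) (F_adapted hBm _ _ (by linarith))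
      obtain ⟨v, hv, h1⟩ := ihk (by omega) _ hX'
      refine ⟨glue s1 (s1 + d) (fun ω => u1 (X ω)) v, glue_ctl hc hcL hv, ?_⟩
      rw [val_glue (by linarith) (by linarith) (by linarith) hc hcL hv hm
        (fun r hr => hx r ⟨lt_of_le_of_lt hs1s hr.1, lt_of_lt_of_le hr.2 hs2t⟩)]
      rw [hs2] at h1
      have h2 := cstep_ge hBm hB (s := s1) (t := s1 + d) (by linarith) (by linarith)
        (by linarith) hX hu hx0 hx1
      have e1 : s1 + d - s1 = d := by ring
      rw [e1] at h2 h1 ⊢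
      have e2 : ∀ y, gaussOp x d ψ y = gaussOp x (((k + 1 : ℕ) : ℝ) * d) Φ y := by
        intro y
        rw [hψ, gaussOp_semi hw.BM hx0 hd0 (by positivity)]
        congr 1
        push_cast; ring
      simp only [e2] at h2
      push_cast at h2 ⊢
      linarith
  have e5 : t' - (t' - s) = s := by ring
  have h3 := inner (N + 1) le_rfl X (by rw [hnd, e5]; exact hX)
  rw [hnd, e5] at h3
  obtain ⟨v, hv, h4⟩ := h3
  refine ⟨v, hv, ?_⟩
  refine le_trans ?_ h4
  have h5 : ((N + 1 : ℕ) : ℝ) * (D * d ^ 2) ≤ ε / 2 := by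
    have h6 : ((N + 1 : ℕ) : ℝ) * (D * d ^ 2) = D * (t' - s) * d := by
      rw [← hnd]; ring
    rw [h6]
    have h7 : D * (t' - s) * d ≤ D * 1 * (1 / (N + 1)) := by
      refine mul_le_mul (mul_le_mul_of_nonneg_left (by linarith) hD0) hd1 hd0 (by linarith)
    have h8 : 2 * D ≤ N * ε := by
      rw [div_lt_iff₀ hε] at hN
      exact hN.le
    have h9 : D * 1 * (1 / ((N:ℝ) + 1)) ≤ ε / 2 := by
      rw [mul_one, mul_one_div, div_le_iff₀ hN1]
      nlinarith
    linarith
  linarith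

/-! ### all cells -/

theorem fold_ge (hB : IsBrownianReal B P) {m : ℝ → ℝ} (hm : Prof m) {F0 : ℝ → ℝ} {M K L : ℝ}
    (hM : 0 < M) (hL : 0 < L) : ∀ {cs : StepDef_791.Cells} {T : ℝ} {Φ Φ1 Φ2 : ℝ → ℝ} {C : ℝ},
    Valid T cs → T ≤ 1 → (∀ c ∈ cs, c.2 ≤ M) → (∀ r, r < T → m r = mrc T cs r / M) →
    Reg (fun y => M * Φ y) Φ1 Φ2 K L C → Near P B hBm L m F0 T (fun y => M * Φ y) →
    Near P B hBm L m F0 0 (fun y => M * Fold T Φ cs y)
  | [], T, Φ, _, _, _, hv, _, _, _, _, hn => by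
    have h0 : T = 0 := hv
    rw [h0] at hn
    exact hn
  | c :: cs, T, Φ, Φ1, Φ2, C, hv, hT, hc, hmr, hr, hn => by
    have hx0 : 0 < c.2 / M := div_pos hv.2.1 hM
    have hx1 : c.2 / M ≤ 1 := (div_le_one hM).2 (hc c (by simp))
    have e : gaussOp (c.2 / M) (T - c.1) (fun y => M * Φ y) =
        fun y => M * gaussOp c.2 (T - c.1) Φ y :=
      funext fun y => gaussOp_scale hv.2.1 hM _ _
    have h1 := cell_ge (s := c.1) (x := c.2 / M) hB hm hr hL hv.2.2.nonneg hv.1.le hT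
      (fun r hr' => by
        rw [hmr r hr'.2]
        unfold mrc
        rw [if_pos hr'.1.le, if_pos hr'.2]) hx0.le hx1 hn
    obtain ⟨w1, w2, hw⟩ := gaussOp_reg hr hL hx0.le hx1 (T - c.1)
    rw [e] at h1 hw
    unfold Fold
    refine fold_ge hB hm hM hL hv.2.2 (hv.1.le.trans hT)
      (fun c' hc' => hc c' (List.mem_cons_of_mem _ hc')) (fun r hr' => ?_) hw h1
    rw [hmr r (hr'.trans hv.1)]
    conv_lhs => unfold mrc
    rw [if_neg (not_le.2 hr')]

end

end Crest.Agent.R146.BrLBa_952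
private theorem rz_dce4c59b0f : type_of% @_root_.Crest.Agent.R146.BrLBa_952.Fold.eq_def := @_root_.Crest.Agent.R146.BrLBa_952.Fold.eq_def -- L84
end

-- ▼ part R146/BrLB_952
section

/-!
Row 146, R3 bridge (task 154 of helper256), leaf BR-LB (helper952): weak duality for the step system
of `StepDef_791`.

* `ctl_ge`    : `ψ(0,x0) - ε ≤ pay (fbk (1/d) (-x0)) (B 1) m v` for some admissible control `v`;
* `psi_le_QQ` : `ψ(0,x0) ≤ QQ m (1/d) (-x0) Z x` for every `x ≥ 0`.
-/

set_option autoImplicit false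

namespace Crest.Agent.R146.BrLB_952

open MeasureTheory ProbabilityTheory Filter Topology Set
open Crest.ProbabilityR.InvariantGlass
open Crest.ProbabilityR.Perceptron
open Crest.Agent.R146.CtlA_130 Crest.Agent.R146.CtlB_130 Crest.Agent.R146.CtlC_130
open Crest.Agent.R146.CtlE_130 (val Prof ctl_zero int_mv2)
open Crest.Agent.R146.StepDef_791 (Valid mrc Psc startPsi SD)
open Crest.Agent.R146.BrLBa_952 Crest.Agent.R146.DualC1_256 Crest.Agent.R146.DualV_256
open Crest.Agent.R146.P34_734 (fq Test)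
open scoped NNReal InnerProductSpace

noncomputable section

/-! ### the start profile -/

lemma start_eq (d δ x : ℝ) : startPsi d δ x =
    ∫ g, fq (1 / d) 0 (x + Real.sqrt δ * g) ∂gaussianReal 0 1 := by
  unfold startPsi Hg_534.H fq
  rw [← integral_const_mul]
  congr 1
  funext g
  rw [zero_sub]
  have : -(1 / (2 * d)) = -(1 / d / 2) := by rw [div_div, mul_comm]
  rw [this]

lemma fq_nonpos {d : ℝ} (hd : 0 < d) (x : ℝ) : fq (1 / d) 0 x ≤ 0 := by
  unfold fq
  have h1 : 0 ≤ 1 / d / 2 := by positivity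
  have h2 : 0 ≤ max (0 - x) 0 ^ 2 := sq_nonneg _
  nlinarith [mul_nonneg h1 h2]

lemma continuous_fq (b : ℝ) : Continuous (fq b 0) := by unfold fq; fun_prop

lemma int_fq (b δ x : ℝ) :
    Integrable (fun g => fq b 0 (x + Real.sqrt δ * g)) (gaussianReal 0 1) := by
  have : PB_534.PG (fq b 0) := by
    refine ⟨continuous_fq b, |b / 2|, 2, abs_nonneg _, fun y => ?_⟩
    unfold fq
    rw [abs_mul, abs_neg, abs_pow]
    refine mul_le_mul_of_nonneg_left ?_ (abs_nonneg _)
    refine pow_le_pow_left₀ (abs_nonneg _) ?_ 2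
    rw [zero_sub, abs_of_nonneg (le_max_right _ _)]
    refine max_le ((neg_le_abs y).trans (by linarith)) ?_
    positivity
  exact this.eg.int _ _

lemma start_nm {d : ℝ} (hd : 0 < d) (δ : ℝ) : NM (startPsi d δ) := by
  have e : startPsi d δ = fun x => ∫ g, fq (1 / d) 0 (x + Real.sqrt δ * g) ∂gaussianReal 0 1 :=
    funext fun x => start_eq d δ x
  rw [e]
  constructor
  · have h1 : StronglyMeasurable (fun p : ℝ × ℝ => fq (1 / d) 0 (p.1 + Real.sqrt δ * p.2)) :=
      ((continuous_fq (1 / d)).comp (by fun_prop)).stronglyMeasurable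
    exact (h1.integral_prod_right (ν := gaussianReal 0 1)).measurable
  · exact fun x => integral_nonpos fun g => fq_nonpos hd _

lemma gaussOp0 (v : ℝ) (f : ℝ → ℝ) (x : ℝ) :
    gaussOp 0 v f x = ∫ g, f (x + Real.sqrt v * g) ∂gaussianReal 0 1 := by
  unfold gaussOp
  rw [if_pos rfl]

lemma start_le {d : ℝ} (δ : ℝ) {φ : ℝ → ℝ} {K : ℝ} (hφ : BM φ K)
    (hle : ∀ x, fq (1 / d) 0 x ≤ φ x) (x : ℝ) : startPsi d δ x ≤ gaussOp 0 δ φ x := by
  rw [start_eq, gaussOp0]
  exact integral_mono (int_fq _ _ _) (hφ.int _ _ _) fun g => hle _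

lemma gaussOp0_nm {φ : ℝ → ℝ} {K : ℝ} (hφ : BM φ K) (h0 : ∀ x, φ x ≤ 0) (δ : ℝ) :
    NM (gaussOp 0 δ φ) := by
  refine ⟨(gaussOp_BM hφ le_rfl δ).meas, fun x => ?_⟩
  rw [gaussOp0]
  exact integral_nonpos fun g => h0 _

lemma gaussOp0_scale (φ : ℝ → ℝ) (M δ : ℝ) :
    gaussOp 0 δ (fun y => M * φ y) = fun x => M * gaussOp 0 δ φ x := by
  funext x
  rw [gaussOp0, gaussOp0, integral_const_mul]

lemma test_reg {φ : ℝ → ℝ} (h : Test φ) {M : ℝ} (hM : 0 < M) : ∃ K L C : ℝ, 0 < L ∧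
    (∀ x, |φ x| ≤ K) ∧
    Reg (fun y => M * φ y) (fun y => M * deriv φ y) (fun y => M * deriv (deriv φ) y)
      (M * K) (M * L) (M * C) := by
  obtain ⟨K, hK⟩ := h.bd 0
  obtain ⟨L, hL⟩ := h.bd 1
  obtain ⟨C, hC⟩ := h.bd 2
  simp only [iteratedDeriv_zero, iteratedDeriv_one] at hK hL
  have hC' : ∀ x, |deriv (deriv φ) x| ≤ C := by
    intro x
    have := hC x
    rw [show (2 : ℕ) = 1 + 1 from rfl, iteratedDeriv_succ, iteratedDeriv_one] at this
    exact this
  have s2 : ContDiff ℝ 2 φ := by exact_mod_cast h.smooth 2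
  have s3 : ContDiff ℝ 1 (deriv φ) :=
    ((contDiff_succ_iff_deriv (n := 1)).1 (by rw [one_add_one_eq_two]; exact s2)).2.2
  have d1 : Differentiable ℝ φ := s2.differentiable (by norm_num)
  have d2 : Differentiable ℝ (deriv φ) := s3.differentiable (by norm_num)
  have c2 : Continuous (deriv (deriv φ)) := s3.continuous_deriv (by norm_num)
  have ab : ∀ z : ℝ, |M * z| = M * |z| := fun z => by rw [abs_mul, abs_of_pos hM]
  refine ⟨K, max L 1, C, by positivity, hK, ?_⟩
  exact {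
    d1 := fun y => (d1 y).hasDerivAt.const_mul M
    d2 := fun y => (d2 y).hasDerivAt.const_mul M
    c2 := by fun_prop
    bK := fun y => by rw [ab]; exact mul_le_mul_of_nonneg_left (hK y) hM.le
    bL := fun y => by
      rw [ab]; exact mul_le_mul_of_nonneg_left ((hL y).trans (le_max_left _ _)) hM.le
    bC := fun y => by rw [ab]; exact mul_le_mul_of_nonneg_left (hC' y) hM.le }

/-! ### controls -/

variable {Ω : Type*} [mΩ : MeasurableSpace Ω]
variable {B : ℝ≥0 → Ω → ℝ} {hBm : ∀ t, Measurable (B t)}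
variable {P : Measure Ω} [IsProbabilityMeasure P]

/-- positive part of a control -/
lemma ctl_pos {L : ℝ} {v : ℝ≥0 → Ω → ℝ} (hv : Ctl hBm L v) :
    Ctl hBm L (fun r ω => max (v r ω) 0) := by
  constructor
  · intro i
    exact (hv.prog i).max measurable_const
  · intro r ω
    have h1 := hv.bd r ω
    rw [abs_of_nonneg (le_max_right _ _)]
    exact max_le ((le_abs_self _).trans h1) ((abs_nonneg _).trans h1)

lemma ctl_div {L : ℝ} {v : ℝ≥0 → Ω → ℝ} (hv : Ctl hBm L v) {M : ℝ} (hM : 0 < M) :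
    Ctl hBm (L / M) (fun r ω => v r ω / M) := by
  constructor
  · intro i
    exact (hv.prog i).div_const M
  · intro r ω
    rw [abs_div, abs_of_pos hM]
    exact div_le_div_of_nonneg_right (hv.bd r ω) hM.le

lemma adm_of_ctl {w : ℝ → ℝ} (hw : Wt w) {M L : ℝ} (hwM : ∀ t, w t ≤ M) {v : ℝ≥0 → Ω → ℝ}
    (hv : Ctl hBm L v) : Adm (brownianFiltration B hBm) P w v := by
  refine ⟨hv.prog, ?_⟩
  have h1 : ∀ ω, ∫⁻ t in Icc (0 : ℝ) 1, ENNReal.ofReal (w t * v (Real.toNNReal t) ω ^ 2) ≤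
      ENNReal.ofReal (M * L ^ 2) := by
    intro ω
    have h2 : ∫⁻ t in Icc (0 : ℝ) 1, ENNReal.ofReal (w t * v (Real.toNNReal t) ω ^ 2) ≤
        ∫⁻ _ in Icc (0 : ℝ) 1, ENNReal.ofReal (M * L ^ 2) := by
      refine setLIntegral_mono' measurableSet_Icc fun t ht => ENNReal.ofReal_le_ofReal ?_
      have h3 : v (Real.toNNReal t) ω ^ 2 ≤ L ^ 2 := by
        rw [← sq_abs]
        exact pow_le_pow_left₀ (abs_nonneg _) (hv.bd _ _) 2
      have h4 := hw.nonneg t ht
      exact mul_le_mul (hwM t) h3 (sq_nonneg _) (h4.trans (hwM t))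
    simpa using h2
  refine lt_of_le_of_lt (lintegral_mono h1) ?_
  simp

/-- the cost as an iterated integral -/
lemma cost_iter {𝓕 : Filtration ℝ≥0 mΩ} {w : ℝ → ℝ} (hw : Wt w) {v : ℝ≥0 → Ω → ℝ}
    (hv : Adm 𝓕 P w v) :
    cost P w v = ∫ ω, (∫ t in (0 : ℝ)..1, w t * v (Real.toNNReal t) ω ^ 2) ∂P := by
  have := isFinite_wm hw
  rw [cost_eq hw hv, integral_prod_symm _ (memLp_vh hw hv).integrable_sq]
  congr 1
  funext ω
  rw [wm_integral hw, intervalIntegral.integral_of_le zero_le_one, ← integral_Icc_eq_integral_Ioc]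
  refine setIntegral_congr_fun measurableSet_Icc fun t ht => ?_
  show w t * vh v (t, ω) ^ 2 = _
  rw [vh_eq ht]

/-- replacing a control by its positive part increases the value of a monotone function -/
lemma val_pos {L : ℝ} {v : ℝ≥0 → Ω → ℝ} (hv : Ctl hBm L v) {m : ℝ → ℝ} (hm : Prof m)
    {F0 : ℝ → ℝ} {K : ℝ} (hF : BM F0 K) (hmono : Monotone F0) {X : Ω → ℝ} (hX : Measurable X) :
    val P B m F0 0 X v ≤ val P B m F0 0 X (fun r ω => max (v r ω) 0) := by
  have hv' := ctl_pos hv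
  unfold val
  have e1 : ∀ ω, ∫ r in (0 : ℝ)..1, m r * v r.toNNReal ω ≤
      ∫ r in (0 : ℝ)..1, m r * max (v r.toNNReal ω) 0 := fun ω =>
    intervalIntegral.integral_mono_on zero_le_one
      (hv.intv hm.meas (hm.abs le_rfl le_rfl) zero_le_one ω)
      (hv'.intv hm.meas (hm.abs le_rfl le_rfl) zero_le_one ω) fun r hr =>
        mul_le_mul_of_nonneg_left (le_max_left _ _) (hm.bd r hr).1
  have e2 : ∀ ω, ∫ r in (0 : ℝ)..1, m r * max (v r.toNNReal ω) 0 ^ 2 ≤
      ∫ r in (0 : ℝ)..1, m r * v r.toNNReal ω ^ 2 := fun ω =>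
    intervalIntegral.integral_mono_on zero_le_one
      (hv'.intv2 hm.meas (hm.abs le_rfl le_rfl) zero_le_one ω)
      (hv.intv2 hm.meas (hm.abs le_rfl le_rfl) zero_le_one ω) fun r hr => by
        refine mul_le_mul_of_nonneg_left ?_ (hm.bd r hr).1
        rw [← sq_abs (v r.toNNReal ω)]
        refine pow_le_pow_left₀ (le_max_right _ _) ?_ 2
        exact max_le (le_abs_self _) (abs_nonneg _)
  have mI : ∀ {u : ℝ≥0 → Ω → ℝ}, Ctl hBm L u →
      Measurable (fun ω => X ω + (B (1 : ℝ).toNNReal ω - B (0 : ℝ).toNNReal ω) +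
        ∫ r in (0 : ℝ)..1, m r * u r.toNNReal ω) := by
    intro u hu
    have h1 := (CtlE_130.meas_mv hu hm zero_le_one).mono (CtlC_130.F_le hBm 1) le_rfl
    exact (hX.add ((hBm _).sub (hBm _))).add h1
  have h1 : ∫ ω, F0 (X ω + (B (1 : ℝ).toNNReal ω - B (0 : ℝ).toNNReal ω) +
      ∫ r in (0 : ℝ)..1, m r * v r.toNNReal ω) ∂P ≤
      ∫ ω, F0 (X ω + (B (1 : ℝ).toNNReal ω - B (0 : ℝ).toNNReal ω) +
      ∫ r in (0 : ℝ)..1, m r * max (v r.toNNReal ω) 0) ∂P :=
    integral_mono (bm_int hF (mI hv)) (bm_int hF (mI hv')) fun ω =>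
      hmono (by have := e1 ω; linarith)
  have h2 : ∫ ω, (∫ r in (0 : ℝ)..1, m r * max (v r.toNNReal ω) 0 ^ 2) ∂P ≤
      ∫ ω, (∫ r in (0 : ℝ)..1, m r * v r.toNNReal ω ^ 2) ∂P :=
    integral_mono (int_mv2 hv' hm le_rfl zero_le_one le_rfl)
      (int_mv2 hv hm le_rfl zero_le_one le_rfl) e2
  linarith

/-! ### exponential moments of the Brownian motion -/

omit [IsProbabilityMeasure P] in
lemma int_exp_W (hBm : ∀ t, Measurable (B t)) (hB : IsBrownianReal B P) (x0 : ℝ) :
    Integrable (fun ω =>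
      Real.exp (2 * (x0 + (B (1 : ℝ).toNNReal ω - B (0 : ℝ).toNNReal ω))) +
      Real.exp (-(2 * (x0 + (B (1 : ℝ).toNNReal ω - B (0 : ℝ).toNNReal ω))))) P := by
  set W : Ω → ℝ := fun ω => B (1 : ℝ).toNNReal ω - B (0 : ℝ).toNNReal ω with hW
  have hWm : Measurable W := (hBm _).sub (hBm _)
  have hl : P.map W = gaussianReal 0 (1 - 0 : ℝ).toNNReal := law_incr hB le_rfl zero_le_one
  have hi : Integrable (fun y => Real.exp (2 * (x0 + y)) + Real.exp (-(2 * (x0 + y))))
      (P.map W) := by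
    rw [hl]
    have e : (fun y => Real.exp (2 * (x0 + y)) + Real.exp (-(2 * (x0 + y)))) = fun y =>
        Real.exp (2 * x0) * Real.exp (2 * y) + Real.exp (-(2 * x0)) * Real.exp (-2 * y) := by
      funext y
      rw [← Real.exp_add, ← Real.exp_add]
      congr 2 <;> ring
    rw [e]
    exact ((integrable_exp_mul_gaussianReal 2).const_mul _).add
      ((integrable_exp_mul_gaussianReal (-2)).const_mul _)
  exact (integrable_map_measure (by fun_prop) hWm.aemeasurable).1 hi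

/-! ### main statements -/

theorem ctl_ge (hBm : ∀ t, Measurable (B t)) (hB : IsBrownianReal B P) (A : SD) (x0 : ℝ)
    {eps : ℝ} (heps : 0 < eps) : ∃ v, Adm (brownianFiltration B hBm) P A.m v ∧
      A.psi 0 x0 - eps ≤ pay P (fbk (1 / A.d) (-x0)) (B 1) A.m v := by
  obtain ⟨M, hM1, hMc⟩ := exists_M A.cs
  have hM : 0 < M := by linarith
  have hmM : ∀ t, A.m t ≤ M := fun t => mrc_le hM.le hMc t
  have hmm : Measurable A.m := measurable_mrc _ _
  set m' : ℝ → ℝ := fun r => A.m r / M with hm'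
  have hP : Prof m' := ⟨hmm.div_const M, fun r _ =>
    ⟨div_nonneg (A.m_nonneg r) hM.le, (div_le_one hM).2 (hmM r)⟩⟩
  -- the exponential moment
  set W : Ω → ℝ := fun ω => B (1 : ℝ).toNNReal ω - B (0 : ℝ).toNNReal ω with hW
  have hGi := int_exp_W hBm hB x0
  set I0 : ℝ := ∫ ω, (Real.exp (2 * (x0 + W ω)) + Real.exp (-(2 * (x0 + W ω)))) ∂P with hI0
  have hI0n : 0 ≤ I0 := integral_nonneg fun ω => by positivity
  set c : ℝ := eps / (2 * (I0 + 1)) with hc
  have hc0 : 0 < c := by positivity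
  have hcI : c * I0 ≤ eps / 2 := by
    rw [hc, div_mul_eq_mul_div, div_le_div_iff₀ (by positivity) (by norm_num)]
    nlinarith
  -- the smooth majorant
  have hd := A.hd
  obtain ⟨φ, hT, hle, hanti, hmono, hφ0, hφb⟩ := SmoothApx_323.exists_smooth_above
    (b := 1 / A.d) (by positivity) 0 hc0
  obtain ⟨K, L, C, hL, hK, hr⟩ := test_reg hT hM
  have hφc : Continuous φ := (hT.smooth 0).continuous
  have hBM : BM φ K := ⟨hφc.measurable, hK⟩
  have hL' : 0 < M * L := mul_pos hM hL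
  set F0 : ℝ → ℝ := fun y => M * φ y with hF0
  -- controls
  have n1 : Near P B hBm (M * L) m' F0 1 F0 := by
    intro ε hε X hX
    refine ⟨fun _ _ => 0, ctl_zero hL'.le, ?_⟩
    unfold val
    simp
    exact hε.le
  have n2 := cell_ge (s := A.T) (x := 0) hB hP hr hL' A.hT0.le A.hT1.le le_rfl
    (fun r hr' => by
      show A.m r / M = 0
      have : A.m r = 0 := mrc_of_ge A.hv hr'.1.le
      rw [this, zero_div]) le_rfl zero_le_one n1
  obtain ⟨w1, w2, hw⟩ := gaussOp_reg hr hL' le_rfl zero_le_one (1 - A.T)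
  rw [gaussOp0_scale] at n2 hw
  have n3 := fold_ge hB hP hM hL' A.hv A.hT1.le hMc (fun r _ => rfl) hw n2
  obtain ⟨v, hv, h1⟩ := n3 (M * (eps / 2)) (by positivity) (fun _ => x0) measurable_const
  rw [integral_const, probReal_univ, one_smul] at h1
  -- monotonicity of the recursion
  have h2 : A.psi 0 x0 ≤ Fold A.T (gaussOp 0 (1 - A.T) φ) A.cs x0 := by
    unfold SD.psi
    rw [Psc_zero _ A.hv]
    exact Fold_mono A.hv (start_nm hd _) (gaussOp0_nm hBM hφ0 _)
      (fun x => start_le _ hBM hle x) x0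
  -- positive part
  have hvp := ctl_pos hv
  have hF0 : BM F0 (M * K) := hr.BM
  have h3 := val_pos (P := P) hv hP hF0 (fun x y h => mul_le_mul_of_nonneg_left (hmono h) hM.le)
    (X := fun _ => x0) measurable_const
  set v1 : ℝ≥0 → Ω → ℝ := fun r ω => max (v r ω) 0 with hv1
  -- the final control
  set u : ℝ≥0 → Ω → ℝ := fun r ω => v1 r ω / M with hu
  have hwt := wt_m A
  have hadm : Adm (brownianFiltration B hBm) P A.m u := adm_of_ctl hwt hmM (ctl_div hvp hM)
  refine ⟨u, hadm, ?_⟩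
  -- terminal variable
  set I1 : Ω → ℝ := fun ω => ∫ r in (0 : ℝ)..1, m' r * v1 r.toNNReal ω with hI1
  have hI1n : ∀ ω, 0 ≤ I1 ω := fun ω =>
    intervalIntegral.integral_nonneg zero_le_one fun r hr =>
      mul_nonneg (hP.bd r hr).1 (le_max_right _ _)
  have hI1m : Measurable I1 :=
    (CtlE_130.meas_mv hvp hP zero_le_one).mono (CtlC_130.F_le hBm 1) le_rfl
  have hWm : Measurable W := (hBm _).sub (hBm _)
  set Y : Ω → ℝ := fun ω => x0 + W ω + I1 ω with hY
  have hYm : Measurable Y := (hWm.const_add x0).add hI1m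
  have hII : ∀ ω, II A.m u ω = I1 ω := by
    intro ω
    rw [II_eq hwt, hI1]
    refine intervalIntegral.integral_congr fun r _ => ?_
    simp only [hu, hm']
    ring
  have hcost : cost P A.m u = 1 / M * ∫ ω, (∫ r in (0 : ℝ)..1, m' r * v1 r.toNNReal ω ^ 2) ∂P := by
    rw [cost_iter hwt hadm, ← integral_const_mul]
    congr 1
    funext ω
    rw [← intervalIntegral.integral_const_mul]
    refine intervalIntegral.integral_congr fun r _ => ?_
    simp only [hu, hm']
    field_simp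
  have hval : val P B m' F0 0 (fun _ => x0) v1 = M * ((∫ ω, φ (Y ω) ∂P) - cost P A.m u / 2) := by
    rw [hcost]
    unfold val
    have e1 : ∫ ω, F0 (x0 + (B (1 : ℝ).toNNReal ω - B (0 : ℝ).toNNReal ω) +
        ∫ r in (0 : ℝ)..1, m' r * v1 r.toNNReal ω) ∂P = M * ∫ ω, φ (Y ω) ∂P := by
      rw [← integral_const_mul]
    rw [e1]
    field_simp
  -- comparison of the terminal functions
  set G : Ω → ℝ := fun ω => Real.exp (2 * (x0 + W ω)) + Real.exp (-(2 * (x0 + W ω))) with hG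
  have hdiff : ∀ ω, φ (Y ω) - fq (1 / A.d) 0 (Y ω) ≤ c * G ω := by
    intro ω
    have a1 : x0 + W ω ≤ Y ω := by have := hI1n ω; simp only [hY]; linarith
    exact (hanti a1).trans (hφb _)
  have hφi : Integrable (fun ω => φ (Y ω)) P := bm_int hBM hYm
  have hfi : Integrable (fun ω => fq (1 / A.d) 0 (Y ω)) P := by
    refine (hφi.abs.add (hGi.const_mul c)).mono'
      ((continuous_fq (1 / A.d)).measurable.comp hYm).aestronglyMeasurable ?_
    refine ae_of_all _ fun ω => ?_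
    rw [Real.norm_eq_abs, abs_le]
    have a1 := hdiff ω
    have a2 := hle (Y ω)
    have a3 := neg_abs_le (φ (Y ω))
    have a4 := le_abs_self (φ (Y ω))
    have a5 : 0 ≤ c * G ω := by positivity
    show -(|φ (Y ω)| + c * G ω) ≤ _ ∧ _ ≤ |φ (Y ω)| + c * G ω
    constructor <;> linarith
  have h4 : ∫ ω, φ (Y ω) ∂P ≤ (∫ ω, fq (1 / A.d) 0 (Y ω) ∂P) + c * I0 := by
    rw [hI0, ← integral_const_mul, ← integral_add hfi (hGi.const_mul c)]
    exact integral_mono hφi (hfi.add (hGi.const_mul c)) fun ω => by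
      have := hdiff ω
      show φ (Y ω) ≤ fq (1 / A.d) 0 (Y ω) + c * G ω
      linarith
  have hpay : pay P (fbk (1 / A.d) (-x0)) (B 1) A.m u =
      (∫ ω, fq (1 / A.d) 0 (Y ω) ∂P) - cost P A.m u / 2 := by
    unfold pay
    congr 1
    refine integral_congr_ae ?_
    filter_upwards [hB.toIsPreBrownianReal.eval_zero_ae_eq_zero] with ω hω
    rw [hII]
    have hWω : W ω = B 1 ω := by
      simp only [hW]
      rw [Real.toNNReal_one, Real.toNNReal_zero, hω, sub_zero]
    simp only [hY]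
    rw [hWω]
    unfold fbk fq
    have e : -x0 - (B 1 ω + I1 ω) = 0 - (x0 + B 1 ω + I1 ω) := by ring
    rw [e]
  rw [hpay]
  rw [hval] at h3
  have h5 : M * (A.psi 0 x0 - eps / 2) ≤ M * ((∫ ω, φ (Y ω) ∂P) - cost P A.m u / 2) := by
    have := mul_le_mul_of_nonneg_left h2 hM.le
    linarith
  have h6 := le_of_mul_le_mul_left h5 hM
  linarith

/-- **weak duality** for the step system -/
theorem psi_le_QQ (hBm : ∀ t, Measurable (B t)) (hB : IsBrownianReal B P) (A : SD) (x0 : ℝ)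
    {x : Ω →₂[P] ℝ} (hx : x ∈ cone P) :
    A.psi 0 x0 ≤ QQ (brownianFiltration B hBm) A.m (1 / A.d) (-x0) (DualL_256.ZB hB) x := by
  refine le_of_forall_pos_le_add fun eps heps => ?_
  obtain ⟨v, hv, h1⟩ := ctl_ge hBm hB A x0 heps
  have h2 := pay_le (wt_m A) hv (DualL_256.ZB_coe hB) (b := 1 / A.d)
    (by have := A.hd; positivity) (-x0) hx
  linarith

end

end Crest.Agent.R146.BrLB_952
end

-- ▼ part R146/BrEq_151
section

/-!
Row 146, R3 bridge, edge `(UP, LB) → EQT` of helper256 (post 1362), helper151.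

* basic facts on `Xp`, `Go`, `Cq`: adaptedness, composition, additivity;
* `QQ` at the optimal dual variable;
* `eqt_of : UP hBm hB → LB hB → EQT hBm hB`.
-/

set_option autoImplicit false

noncomputable section

open MeasureTheory Set Filter Topology ProbabilityTheory
open scoped InnerProductSpace RealInnerProductSpace NNReal ENNReal

namespace Crest.Agent.R146.BrEq_151

open Crest.ProbabilityR.Perceptron Crest.ProbabilityR.InvariantGlass
open Crest.Agent.R146.DualQ_256 Crest.Agent.R146.DualC1_256 Crest.Agent.R146.DualV_256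
  Crest.Agent.R146.DualL_256 Crest.Agent.R146.DualG_256 Crest.Agent.R146.CtlC_130
open Crest.Agent.R146.StepDef_791 Crest.Agent.R146.Br_256

variable {Ω : Type*} [mΩ : MeasurableSpace Ω] {P : Measure Ω} [IsProbabilityMeasure P]
  {B : ℝ≥0 → Ω → ℝ} (hBm : ∀ t, Measurable (B t)) (hB : IsBrownianReal B P)

/-- `B_0 = 0` -/
theorem Zt_zero : Zt hB 0 = 0 := by
  refine Lp.ext ?_
  filter_upwards [Zt_coe hB 0, Lp.coeFn_zero ℝ 2 P,
    hB.toIsPreBrownianReal.eval_zero_ae_eq_zero] with ω h1 h2 h3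
  rw [h1, h2, h3]
  rfl

theorem dZ_add (s t u : ℝ) : dZ hB s t + dZ hB t u = dZ hB s u := by
  unfold dZ; abel

theorem dZ_zero_one : dZ hB 0 1 = ZB hB := by
  unfold dZ
  rw [Real.toNNReal_one, Real.toNNReal_zero, Zt_zero, sub_zero, Zt_one]

/-- adaptedness -/
theorem condPi_Xp (A : SD) (x0 : ℝ) (lam : Ω →₂[P] ℝ) {t : ℝ} (h0 : 0 ≤ t) (h1 : t ≤ 1) :
    condPi (brownianFiltration B hBm) P t (Xp hBm hB A x0 lam t) = Xp hBm hB A x0 lam t := by
  unfold Xp Go dZ
  rw [Real.toNNReal_zero, Zt_zero, sub_zero, map_add, map_add, cst_fix]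
  have h2 : condPi (brownianFiltration B hBm) P t (Zt hB t.toNNReal) = Zt hB t.toNNReal := by
    have := Zt_fix hBm hB t.toNNReal
    rwa [Real.coe_toNNReal _ h0] at this
  have h3 := Pi_OO (FB P B hBm) (wA A) le_rfl h0 h1 (le_refl t) lam
  rw [h2]
  congr 1

/-- composition -/
theorem Go_Xp (A : SD) (x0 : ℝ) (lam : Ω →₂[P] ℝ) {t u : ℝ} (h0 : 0 ≤ t) (h1 : t ≤ u)
    (h2 : u ≤ 1) : Go hBm hB A lam t u (Xp hBm hB A x0 lam t) = Xp hBm hB A x0 lam u := by
  unfold Xp Go
  rw [← OO_add (FB P B hBm) (wA A) le_rfl h0 h1 h2 lam, ← dZ_add hB 0 t u]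
  abel

theorem ii_q (A : SD) (lam : Ω →₂[P] ℝ) {s t : ℝ} (hs : 0 ≤ s) (hst : s ≤ t) (ht : t ≤ 1) :
    IntervalIntegrable (fun r => A.m r * (FB P B hBm).q lam r) volume s t :=
  ii_w (FB P B hBm) (wA A) hs hst ht lam lam

theorem Cq_add (A : SD) (lam : Ω →₂[P] ℝ) {s t u : ℝ} (hs : 0 ≤ s) (hst : s ≤ t) (htu : t ≤ u)
    (hu : u ≤ 1) : Cq hBm A lam s t + Cq hBm A lam t u = Cq hBm A lam s u :=
  intervalIntegral.integral_add_adjacent_intervals (ii_q hBm A lam hs hst (htu.trans hu))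
    (ii_q hBm A lam (hs.trans hst) htu hu)

theorem Cq_bil (A : SD) (lam : Ω →₂[P] ℝ) : (FB P B hBm).bil A.m lam lam = Cq hBm A lam 0 1 := by
  unfold Cq
  rw [PF.bil_self, intervalIntegral.integral_of_le zero_le_one, integral_Icc_eq_integral_Ioc]

/-- `X_1` -/
theorem Xp_one (A : SD) (x0 : ℝ) (lam : Ω →₂[P] ℝ) :
    Xp hBm hB A x0 lam 1 = (ZB hB - cst P (-x0)) + OO (FB P B hBm) (wA A) 0 1 lam := by
  unfold Xp Go
  rw [dZ_zero_one]
  have : cst P x0 = - cst P (-x0) := by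
    refine Lp.ext ?_
    filter_upwards [cst_coe (P := P) x0, Lp.coeFn_neg (cst P (-x0)), cst_coe (P := P) (-x0)]
      with ω h1 h2 h3
    rw [h1, h2, Pi.neg_apply, h3, neg_neg]
  rw [this]
  abel

theorem inner_X1 (A : SD) (x0 : ℝ) (lam : Ω →₂[P] ℝ) :
    ⟪Xp hBm hB A x0 lam 1, lam⟫_ℝ = ⟪ZB hB - cst P (-x0), lam⟫_ℝ + Cq hBm A lam 0 1 := by
  rw [Xp_one, inner_add_left, inner_OO (FB P B hBm) (wA A) le_rfl zero_le_one le_rfl]
  rfl

variable {hBm hB}

/-- `⟪X_1, lam⟫ = -d ‖lam‖²` -/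
theorem inner_kkt {A : SD} {x0 : ℝ} {lam : Ω →₂[P] ℝ} (h : LK hBm hB A x0 lam) :
    ⟪Xp hBm hB A x0 lam 1, lam⟫_ℝ = -(A.d * ‖lam‖ ^ 2) := by
  rw [inner_eq, norm_sq_eq, ← integral_const_mul, ← integral_neg]
  refine integral_congr_ae ?_
  filter_upwards [h.kkt] with ω hω
  have hd := A.hd.ne'
  set X := (Xp hBm hB A x0 lam 1 : Ω →₂[P] ℝ) ω
  rw [hω]
  rcases le_total (-X) 0 with h0 | h0
  · rw [max_eq_right h0]; ring
  · rw [max_eq_left h0]; field_simp

/-- `E fA(X_1) = -(d/2) ‖lam‖²` -/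
theorem int_fA {A : SD} {x0 : ℝ} {lam : Ω →₂[P] ℝ} (h : LK hBm hB A x0 lam) :
    ∫ ω, fA A.d ((Xp hBm hB A x0 lam 1 : Ω →₂[P] ℝ) ω) ∂P = -(A.d / 2 * ‖lam‖ ^ 2) := by
  rw [norm_sq_eq, ← integral_const_mul, ← integral_neg]
  refine integral_congr_ae ?_
  filter_upwards [h.kkt] with ω hω
  have hd := A.hd.ne'
  set X := (Xp hBm hB A x0 lam 1 : Ω →₂[P] ℝ) ω
  rw [hω]
  unfold fA
  field_simp

/-- `QQ` at the optimal dual variable -/
theorem QQ_eq {A : SD} {x0 : ℝ} {lam : Ω →₂[P] ℝ} (h : LK hBm hB A x0 lam) :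
    QQ (brownianFiltration B hBm) A.m (1 / A.d) (-x0) (ZB hB) lam =
      ∫ ω, fA A.d ((Xp hBm hB A x0 lam 1 : Ω →₂[P] ℝ) ω) ∂P - 1 / 2 * Cq hBm A lam 0 1 := by
  have h1 := inner_kkt h
  rw [inner_X1] at h1
  rw [QQ_def, int_fA h]
  have h2 := Cq_bil hBm A lam
  have h3 : (fam (brownianFiltration B hBm) P).bil A.m lam lam = Cq hBm A lam 0 1 := h2
  rw [h3]
  have h4 : 1 / (1 / A.d) / 2 = A.d / 2 := by
    have := A.hd.ne'
    field_simp
  rw [h4]
  linarith

theorem int_cst (f : ℝ → ℝ) (x0 : ℝ) : ∫ ω, f ((cst P x0 : Ω →₂[P] ℝ) ω) ∂P = f x0 := by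
  have : ∫ ω, f ((cst P x0 : Ω →₂[P] ℝ) ω) ∂P = ∫ _ω, f x0 ∂P := by
    refine integral_congr_ae ?_
    filter_upwards [cst_coe (P := P) x0] with ω hω
    rw [hω]
  rw [this]
  simp

/-- **edge `(UP, LB) → EQT`** -/
theorem eqt_of (hU : UP hBm hB) (hL : LB hBm hB) : EQT hBm hB := by
  intro A x0 lam h t ht
  have hT1 := A.hT1.le
  have ht1 : t ≤ 1 := ht.2.trans hT1
  obtain ⟨u1, u2⟩ := hU A lam
  have a1 := u1 0 t le_rfl ht.1 ht.2 (cst P x0) (cst_fix 0 x0)
  have a2 := u2 t ht.1 ht.2 (Xp hBm hB A x0 lam t) (condPi_Xp hBm hB A x0 lam ht.1 ht1)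
  rw [Go_Xp hBm hB A x0 lam ht.1 ht1 le_rfl] at a2
  rw [int_cst] at a1
  have a3 := hL A x0 lam h.mem
  rw [QQ_eq h, ← Cq_add hBm A lam le_rfl ht.1 ht1 le_rfl] at a3
  have e : Xp hBm hB A x0 lam t = Go hBm hB A lam 0 t (cst P x0) := rfl
  rw [← e] at a1
  constructor <;> linarith

end Crest.Agent.R146.BrEq_151
end
end

-- ▼ part R146/BrId_109
section

/-!
# Row 146, R3 bridge (helper109): `UP`, `EQT` imply `IDT` (`E_t lam = ψ_x(t, X_t)`)
-/

set_option autoImplicit false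

noncomputable section

open MeasureTheory Set Filter Topology ProbabilityTheory
open scoped InnerProductSpace RealInnerProductSpace NNReal ENNReal

namespace Crest.Agent.R146.BrId_109

open Crest.ProbabilityR.Perceptron Crest.ProbabilityR.InvariantGlass
open Crest.Agent.R146.DualQ_256 Crest.Agent.R146.DualC1_256 Crest.Agent.R146.DualV_256
  Crest.Agent.R146.DualL_256 Crest.Agent.R146.DualG_256 Crest.Agent.R146.Br_256
open Crest.Agent.R146.StepDef_791

/-! ### pointwise inequalities -/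

/-- tangent parabola below the soft wall -/
theorem fA_ge {d : ℝ} (hd : 0 < d) (y h : ℝ) :
    fA d y + h * (1 / d * max (-y) 0) - h ^ 2 / (2 * d) ≤ fA d (y + h) := by
  unfold fA
  have h1 : (max (-(y + h)) 0) ^ 2 ≤ (max (-y) 0 - h) ^ 2 := by
    rcases le_total (-(y + h)) 0 with h2 | h2
    · rw [max_eq_right h2]; nlinarith [sq_nonneg (max (-y) 0 - h)]
    · rw [max_eq_left h2]
      have h3 : -y ≤ max (-y) 0 := le_max_left _ _
      have h4 : -(y + h) ≤ max (-y) 0 - h := by linarith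
      exact pow_le_pow_left₀ h2 h4 2
  have h2 : 0 < 1 / (2 * d) := by positivity
  have h3 := mul_le_mul_of_nonneg_left h1 h2.le
  have h4 : 1 / (2 * d) * (max (-y) 0 - h) ^ 2 =
      1 / (2 * d) * (max (-y) 0) ^ 2 - h * (1 / d * max (-y) 0) + h ^ 2 / (2 * d) := by
    field_simp
    ring
  linarith

/-- tangent line above a concave function -/
theorem tangent_le {f f1 : ℝ → ℝ} (hf : ∀ x, HasDerivAt f (f1 x) x) (hanti : Antitone f1)
    (y h : ℝ) : f (y + h) ≤ f y + h * f1 y := by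
  have hd : ∀ x, HasDerivAt (fun x => f x - f1 y * x) (f1 x - f1 y) x := fun x => by
    have := (hf x).sub ((hasDerivAt_id' x).const_mul (f1 y))
    rw [mul_one] at this
    exact this
  rcases le_total 0 h with h0 | h0
  · have hA : AntitoneOn (fun x => f x - f1 y * x) (Ici y) := by
      apply antitoneOn_of_deriv_nonpos (convex_Ici y)
      · exact fun x _ => (hd x).continuousAt.continuousWithinAt
      · exact fun x _ => (hd x).differentiableAt.differentiableWithinAt
      · intro x hx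
        rw [interior_Ici] at hx
        rw [(hd x).deriv]
        have := hanti (le_of_lt hx)
        linarith
    have := hA (mem_Ici.2 le_rfl) (mem_Ici.2 (by linarith : y ≤ y + h)) (by linarith)
    simp only at this
    linarith
  · have hA : MonotoneOn (fun x => f x - f1 y * x) (Iic y) := by
      apply monotoneOn_of_deriv_nonneg (convex_Iic y)
      · exact fun x _ => (hd x).continuousAt.continuousWithinAt
      · exact fun x _ => (hd x).differentiableAt.differentiableWithinAt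
      · intro x hx
        rw [interior_Iic] at hx
        rw [(hd x).deriv]
        have := hanti (le_of_lt hx)
        linarith
    have := hA (mem_Iic.2 (by linarith : y + h ≤ y)) (mem_Iic.2 le_rfl) (by linarith)
    simp only at this
    linarith

/-- the soft wall is `QL` -/
theorem fA_QL {d : ℝ} (hd : 0 < d) : QL (fA d) (1 / (2 * d)) where
  nonneg := by positivity
  lip := fun x y => by
    unfold fA
    have h1 : |max (-x) 0 - max (-y) 0| ≤ |x - y| := by
      have := abs_max_sub_max_le_abs (-x) (-y) 0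
      have e : |(-x) - (-y)| = |x - y| := by rw [neg_sub_neg, abs_sub_comm]
      rwa [e] at this
    have h2 : |max (-x) 0 + max (-y) 0| ≤ |x| + |y| := by
      have e1 : max (-x) 0 ≤ |x| := max_le (neg_le_abs x) (abs_nonneg x)
      have e2 : max (-y) 0 ≤ |y| := max_le (neg_le_abs y) (abs_nonneg y)
      have e3 : 0 ≤ max (-x) 0 := le_max_right _ _
      have e4 : 0 ≤ max (-y) 0 := le_max_right _ _
      rw [abs_of_nonneg (by linarith)]
      linarith
    have e : -(1 / (2 * d)) * max (-x) 0 ^ 2 - -(1 / (2 * d)) * max (-y) 0 ^ 2 =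
        -(1 / (2 * d)) * ((max (-x) 0 + max (-y) 0) * (max (-x) 0 - max (-y) 0)) := by ring
    rw [e, abs_mul, abs_mul, abs_neg, abs_of_pos (by positivity : 0 < 1 / (2 * d)), mul_assoc]
    refine mul_le_mul_of_nonneg_left ?_ (by positivity)
    exact mul_le_mul (by linarith) h1 (abs_nonneg _) (by positivity)

section

variable {Ω : Type*} [mΩ : MeasurableSpace Ω] {P : Measure Ω} [IsProbabilityMeasure P]
  {B : ℝ≥0 → Ω → ℝ} (hBm : ∀ t, Measurable (B t)) (hB : IsBrownianReal B P)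

/-- time-measurable functions of a time-measurable variable -/
theorem fix_comp {s : ℝ} {X G : Ω →₂[P] ℝ} (hX : condPi (brownianFiltration B hBm) P s X = X)
    {g : ℝ → ℝ} (hg : Continuous g) (hG : (G : Ω → ℝ) =ᵐ[P] fun ω => g (X ω)) :
    condPi (brownianFiltration B hBm) P s G = G := by
  apply condPi_of_meas
  obtain ⟨X', h1, h2, -⟩ := exists_rep hBm hX
  refine ⟨fun ω => g (X' ω), ?_, ?_⟩
  · exact (hg.measurable.comp h1).stronglyMeasurable
  · filter_upwards [hG, h2] with ω a b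
    rw [a, b]

/-- fixed at an earlier time implies fixed at a later time -/
theorem fix_mono {s t : ℝ} (hst : s ≤ t) {Y : Ω →₂[P] ℝ}
    (hY : condPi (brownianFiltration B hBm) P s Y = Y) :
    condPi (brownianFiltration B hBm) P t Y = Y := by
  have h := (FB P B hBm).comp' hst Y
  simp only [fam_Pi] at h
  rw [hY] at h
  exact h

theorem Z_fix {s t : ℝ} (hs : 0 ≤ s) (hst : s ≤ t) :
    condPi (brownianFiltration B hBm) P t (Zt hB s.toNNReal) = Zt hB s.toNNReal := by
  refine fix_mono hBm hst ?_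
  have := Zt_fix hBm hB s.toNNReal
  rwa [Real.coe_toNNReal s hs] at this

theorem X_fix (A : SD) (x0 : ℝ) (lam : Ω →₂[P] ℝ) {t : ℝ} (ht : 0 ≤ t) (ht1 : t ≤ 1) :
    condPi (brownianFiltration B hBm) P t (Xp hBm hB A x0 lam t) = Xp hBm hB A x0 lam t := by
  unfold Xp Go dZ
  rw [map_add, map_add, map_sub, cst_fix, Z_fix hBm hB ht le_rfl, Z_fix hBm hB le_rfl ht]
  congr 1
  exact Pi_OO (FB P B hBm) (wA A) le_rfl ht ht1 le_rfl lam

theorem Go_comp (A : SD) (x0 : ℝ) (lam Y : Ω →₂[P] ℝ) {t : ℝ} (ht : 0 ≤ t) (ht1 : t ≤ 1) :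
    Go hBm hB A lam t 1 (Xp hBm hB A x0 lam t + Y) = Xp hBm hB A x0 lam 1 + Y := by
  unfold Xp Go dZ
  rw [← OO_add (FB P B hBm) (wA A) le_rfl ht ht1 le_rfl lam]
  abel

theorem int_fA_ge {d : ℝ} (hd : 0 < d) {X lam W : Ω →₂[P] ℝ}
    (hl : (lam : Ω → ℝ) =ᵐ[P] fun ω => 1 / d * max (-(X ω)) 0) (e : ℝ) :
    ∫ ω, fA d (X ω) ∂P + e * ⟪lam, W⟫_ℝ - e ^ 2 * (‖W‖ ^ 2 / (2 * d)) ≤
      ∫ ω, fA d ((X + e • W : Ω →₂[P] ℝ) ω) ∂P := by
  have i1 := (fA_QL hd).int X
  have i2 := (fA_QL hd).int (X + e • W)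
  have i3 : Integrable (fun ω => e * (lam ω * W ω)) P := (integrable_mul lam W).const_mul e
  have i4 : Integrable (fun ω => e ^ 2 / (2 * d) * (W ω) ^ 2) P := (integrable_sq W).const_mul _
  have i5 : Integrable (fun ω => fA d (X ω) + e * (lam ω * W ω)) P := i1.add i3
  have e1 : ∫ ω, fA d (X ω) ∂P + e * ⟪lam, W⟫_ℝ - e ^ 2 * (‖W‖ ^ 2 / (2 * d)) =
      ∫ ω, (fA d (X ω) + e * (lam ω * W ω) - e ^ 2 / (2 * d) * (W ω) ^ 2) ∂P := by
    rw [integral_sub i5 i4, integral_add i1 i3, integral_const_mul, integral_const_mul,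
      inner_eq, norm_sq_eq]
    ring
  rw [e1]
  refine integral_mono_ae (i5.sub i4) i2 ?_
  filter_upwards [hl, Lp.coeFn_add X (e • W), Lp.coeFn_smul e W] with ω a1 a2 a3
  rw [a2, Pi.add_apply, a3, Pi.smul_apply, smul_eq_mul, a1]
  have := fA_ge hd (X ω) (e * W ω)
  have e2 : (e * W ω) ^ 2 / (2 * d) = e ^ 2 / (2 * d) * (W ω) ^ 2 := by ring
  rw [e2] at this
  linarith

theorem int_psi_le {f f1 : ℝ → ℝ} (hf : ∀ x, HasDerivAt f (f1 x) x) (hanti : Antitone f1)
    {C : ℝ} (hQ : QL f C) {X G W : Ω →₂[P] ℝ} (hG : (G : Ω → ℝ) =ᵐ[P] fun ω => f1 (X ω))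
    (e : ℝ) :
    ∫ ω, f ((X + e • W : Ω →₂[P] ℝ) ω) ∂P ≤ ∫ ω, f (X ω) ∂P + e * ⟪G, W⟫_ℝ := by
  have i1 := hQ.int X
  have i2 := hQ.int (X + e • W)
  have i3 : Integrable (fun ω => e * (G ω * W ω)) P := (integrable_mul G W).const_mul e
  have e1 : ∫ ω, f (X ω) ∂P + e * ⟪G, W⟫_ℝ = ∫ ω, (f (X ω) + e * (G ω * W ω)) ∂P := by
    rw [integral_add i1 i3, integral_const_mul, inner_eq]
  rw [e1]
  refine integral_mono_ae i2 (i1.add i3) ?_
  filter_upwards [hG, Lp.coeFn_add X (e • W), Lp.coeFn_smul e W] with ω a1 a2 a3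
  rw [a2, Pi.add_apply, a3, Pi.smul_apply, smul_eq_mul, a1]
  have := tangent_le hf hanti (X ω) (e * W ω)
  linarith

theorem eq_zero_of_quad {a K : ℝ} (hK : 0 ≤ K) (h : ∀ e : ℝ, e * a ≤ e ^ 2 * K) : a = 0 := by
  by_contra ha
  have h1 := h (a / (K + 1))
  have hK1 : 0 < K + 1 := by linarith
  have ha2 : 0 < a ^ 2 := by positivity
  have h2 : a ^ 2 * (K + 1) ≤ a ^ 2 * K := by
    have e1 : a / (K + 1) * a = a ^ 2 * (K + 1) / (K + 1) ^ 2 := by field_simp
    have e2 : (a / (K + 1)) ^ 2 * K = a ^ 2 * K / (K + 1) ^ 2 := by field_simp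
    rw [e1, e2, div_le_div_iff_of_pos_right (by positivity)] at h1
    exact h1
  nlinarith

/-- Lipschitz functions of an `L2` variable are in `L2` -/
theorem memLp_lip {g : ℝ → ℝ} {K : ℝ} (hgc : Continuous g)
    (hlip : ∀ x y, |g x - g y| ≤ K * |x - y|) (X : Ω →₂[P] ℝ) :
    MemLp (fun ω => g (X ω)) 2 P := by
  have h1 : MemLp (fun ω => |g 0| + K * |X ω|) 2 P :=
    (memLp_const |g 0|).add ((Lp.memLp X).abs.const_mul K)
  refine h1.mono (hgc.comp_aestronglyMeasurable (Lp.memLp X).1) (ae_of_all _ fun ω => ?_)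
  rw [Real.norm_eq_abs, Real.norm_eq_abs]
  have h2 := hlip (X ω) 0
  rw [sub_zero] at h2
  have h3 := abs_add_le (g 0) (g (X ω) - g 0)
  rw [add_sub_cancel] at h3
  exact (h3.trans (by linarith)).trans (le_abs_self _)

/-- **IDT** from `UP` and `EQT` -/
theorem idt_of (hU : UP hBm hB) (hE : EQT hBm hB) : IDT hBm hB := by
  intro A x0 lam hL t ht
  have hT1 : t ≤ 1 := ht.2.trans A.hT1.le
  have hbk := Back_847.back A
  obtain ⟨M, hM⟩ := hbk.bsys
  have hD := A.D_pos t
  have hd := A.hd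
  -- derivatives of psi
  set g : ℝ → ℝ := fun x => A.u t x / A.D t with hg
  have hpsi : ∀ x, HasDerivAt (A.psi t) (g x) x := fun x => by
    have h1 := (hbk.sm t ht).hd x
    have h2 : deriv (A.psi t) x = g x := by
      simp only [hg, SD.u]
      field_simp
    rwa [h2] at h1
  have hgd : ∀ x, HasDerivAt g ((A.V t x - 1) / A.D t) x := fun x => (hbk.u_x t ht x).div_const _
  have hanti : Antitone g := by
    refine antitone_of_hasDerivAt_nonpos (f' := fun x => (A.V t x - 1) / A.D t) hgd (fun x => ?_)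
    have := hM.V_lt t ht x
    simp only [Pi.zero_apply]
    exact div_nonpos_of_nonpos_of_nonneg (by linarith) hD.le
  have hlip : ∀ x y, |g x - g y| ≤ 1 / A.D t * |x - y| := fun x y => by
    have := convex_univ.norm_image_sub_le_of_norm_hasDerivWithin_le (s := univ)
      (f := g) (f' := fun x => (A.V t x - 1) / A.D t) (C := 1 / A.D t)
      (fun x _ => (hgd x).hasDerivWithinAt) (fun x _ => by
        have h1 := hM.V_lt t ht x
        have h2 := hM.V_pos t ht x
        rw [Real.norm_eq_abs, abs_div, abs_of_pos hD]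
        refine div_le_div_of_nonneg_right ?_ hD.le
        rw [abs_le]; constructor <;> linarith) (mem_univ y) (mem_univ x)
    simpa [Real.norm_eq_abs] using this
  have hgc : Continuous g := continuous_iff_continuousAt.2 fun x => (hgd x).continuousAt
  have hQ := QL.of_deriv hpsi (by positivity : 0 ≤ 1 / A.D t) hlip
  -- the variable `G`
  set X := Xp hBm hB A x0 lam t with hX
  have hmem : MemLp (fun ω => g (X ω)) 2 P := memLp_lip hgc hlip X
  set G : Ω →₂[P] ℝ := hmem.toLp _ with hGdef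
  have hG : (G : Ω → ℝ) =ᵐ[P] fun ω => g (X ω) := hmem.coeFn_toLp
  have hXf : condPi (brownianFiltration B hBm) P t X = X := X_fix hBm hB A x0 lam ht.1 hT1
  have hGf : condPi (brownianFiltration B hBm) P t G = G := fix_comp hBm hXf hgc hG
  -- the key identity
  have key : ∀ W : Ω →₂[P] ℝ, condPi (brownianFiltration B hBm) P t W = W →
      ⟪lam, W⟫_ℝ = ⟪G, W⟫_ℝ := by
    intro W hW
    have h0 : ⟪lam, W⟫_ℝ - ⟪G, W⟫_ℝ = 0 := by
      refine eq_zero_of_quad (K := ‖W‖ ^ 2 / (2 * A.d)) (by positivity) (fun e => ?_)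
      have h1 := (hU A lam).2 t ht.1 ht.2 (X + e • W) (by rw [map_add, map_smul, hXf, hW])
      rw [hX, Go_comp hBm hB A x0 lam (e • W) ht.1 hT1, ← hX] at h1
      have h2 := (hE A x0 lam hL t ht).2
      rw [← hX] at h2
      have h3 := int_fA_ge hd (W := W) hL.kkt e
      have h4 := int_psi_le hpsi hanti hQ (W := W) hG e
      nlinarith
    linarith
  -- conclusion
  have hW : condPi (brownianFiltration B hBm) P t lam = G := by
    set W := condPi (brownianFiltration B hBm) P t lam - G with hWd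
    have hWf : condPi (brownianFiltration B hBm) P t W = W := by
      rw [hWd, map_sub, hGf, condPi_comp _ t t le_rfl]
    have h1 := key W hWf
    have h2 : ⟪condPi (brownianFiltration B hBm) P t lam, W⟫_ℝ = ⟪lam, W⟫_ℝ := by
      rw [condPi_sa, hWf]
    have h3 : ⟪W, W⟫_ℝ = 0 := by
      nth_rewrite 1 [hWd]
      rw [inner_sub_left, h2, h1, sub_self]
    exact sub_eq_zero.1 (inner_self_eq_zero.1 h3)
  rw [hW]
  exact hG

end

end Crest.Agent.R146.BrId_109
end
end

-- ▼ part R146/BrLaw_52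
section

/-!
Row 146, R3 bridge (helper52 for helper256): the law of the next step from the variational identity
with perturbed potentials (`law_step`).
-/

set_option autoImplicit false

noncomputable section

open MeasureTheory Set Filter Topology ProbabilityTheory

namespace Crest.Agent.R146.BrLaw_52

open Crest.ProbabilityR.InvariantGlass
open Crest.Agent.R146.Br_256
open Crest.Agent.R164.GC (H)

theorem log_upper {u : ℝ} (h : |u| ≤ 1 / 2) : Real.log (1 + u) ≤ u := by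
  have h1 := abs_le.1 h
  have := Real.log_le_sub_one_of_pos (x := 1 + u) (by linarith)
  linarith

theorem log_lower {u : ℝ} (h : |u| ≤ 1 / 2) : u - 2 * u ^ 2 ≤ Real.log (1 + u) := by
  have h1 := abs_le.1 h
  have hp : 0 < 1 + u := by linarith
  have h2 := Real.one_sub_inv_le_log_of_pos hp
  refine le_trans ?_ h2
  have h3 : 1 - (1 + u)⁻¹ - (u - 2 * u ^ 2) = u ^ 2 * (1 + 2 * u) / (1 + u) := by
    field_simp
    ring
  have h4 : 0 ≤ u ^ 2 * (1 + 2 * u) / (1 + u) :=
    div_nonneg (mul_nonneg (sq_nonneg _) (by linarith)) hp.le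
  linarith

theorem log_lip {a b : ℝ} (ha : 1 / 2 ≤ a) (hb : 1 / 2 ≤ b) :
    |Real.log a - Real.log b| ≤ 2 * |a - b| := by
  have key : ∀ a b : ℝ, 1 / 2 ≤ a → 1 / 2 ≤ b → Real.log a - Real.log b ≤ 2 * |a - b| := by
    intro a b ha hb
    have ha0 : 0 < a := by linarith
    have hb0 : 0 < b := by linarith
    rw [← Real.log_div ha0.ne' hb0.ne']
    have h1 := Real.log_le_sub_one_of_pos (div_pos ha0 hb0)
    have h2 : a / b - 1 = (a - b) / b := by field_simp
    have h3 : (a - b) / b ≤ 2 * |a - b| := by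
      rw [div_le_iff₀ hb0]
      have := le_abs_self (a - b)
      have := abs_nonneg (a - b)
      nlinarith
    linarith
  rw [abs_le]
  constructor
  · have := key b a hb ha
    rw [abs_sub_comm] at this
    linarith
  · exact key a b ha hb

variable {z d : ℝ} {ψ θ : ℝ → ℝ}

/-- the perturbation -/
def ph (z ε : ℝ) (θ : ℝ → ℝ) (y : ℝ) : ℝ := z⁻¹ * Real.log (1 + ε * θ y)

theorem eth_le {ε : ℝ} (hε : |ε| ≤ 1 / 2) (hb : ∀ x, |θ x| ≤ 1) (y : ℝ) : |ε * θ y| ≤ 1 / 2 := by
  rw [abs_mul]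
  calc |ε| * |θ y| ≤ 1 / 2 * 1 := mul_le_mul hε (hb y) (abs_nonneg _) (by norm_num)
    _ = _ := by norm_num

theorem ph_lip (hz : 0 < z) {ε : ℝ} (hε : |ε| ≤ 1 / 2) (hl : ∃ l, ∀ x y, |θ x - θ y| ≤ l * |x - y|)
    (hb : ∀ x, |θ x| ≤ 1) : ∃ l, ∀ x y, |ph z ε θ x - ph z ε θ y| ≤ l * |x - y| := by
  obtain ⟨l, hl⟩ := hl
  refine ⟨z⁻¹ * l, fun x y => ?_⟩
  unfold ph
  rw [← mul_sub, abs_mul, abs_of_pos (inv_pos.2 hz), mul_assoc]
  refine mul_le_mul_of_nonneg_left ?_ (inv_pos.2 hz).le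
  have h1 := abs_le.1 (eth_le hε hb x)
  have h2 := abs_le.1 (eth_le hε hb y)
  refine (log_lip (by linarith) (by linarith)).trans ?_
  have h3 : 1 + ε * θ x - (1 + ε * θ y) = ε * (θ x - θ y) := by ring
  rw [h3, abs_mul]
  have h4 := hl x y
  have h5 := mul_le_mul hε h4 (abs_nonneg _) (by norm_num : (0:ℝ) ≤ 1 / 2)
  linarith

theorem log_abs_le {u : ℝ} (h : |u| ≤ 1 / 2) : |Real.log (1 + u)| ≤ 1 := by
  have h1 := abs_le.1 h
  have h2 := log_upper h
  have h3 := log_lower h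
  rw [abs_le]
  constructor
  · nlinarith
  · linarith

theorem ph_bdd (hz : 0 < z) {ε : ℝ} (hε : |ε| ≤ 1 / 2) (hb : ∀ x, |θ x| ≤ 1) :
    ∃ K, ∀ x, |ph z ε θ x| ≤ K := by
  refine ⟨z⁻¹, fun x => ?_⟩
  unfold ph
  rw [abs_mul, abs_of_pos (inv_pos.2 hz)]
  have := mul_le_mul_of_nonneg_left (log_abs_le (eth_le hε hb x)) (inv_pos.2 hz).le
  linarith

/-- the kernel average of `θ` -/
def kth (z d : ℝ) (ψ θ : ℝ → ℝ) (x : ℝ) : ℝ :=
  H (Real.sqrt d) (fun y => θ y * Real.exp (z * ψ y)) x /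
    H (Real.sqrt d) (fun y => Real.exp (z * ψ y)) x

theorem exp_int (hz : 0 < z) (hψ : Continuous ψ) (h0 : ∀ y, ψ y ≤ 0) (x : ℝ) :
    Integrable (fun g => Real.exp (z * ψ (x + Real.sqrt d * g))) (gaussianReal 0 1) := by
  refine Integrable.of_bound (Continuous.aestronglyMeasurable (by fun_prop)) 1
    (ae_of_all _ fun g => ?_)
  rw [Real.norm_eq_abs, abs_of_pos (Real.exp_pos _), Real.exp_le_one_iff]
  exact mul_nonpos_of_nonneg_of_nonpos hz.le (h0 _)

theorem th_exp_int (hz : 0 < z) (hψ : Continuous ψ) (h0 : ∀ y, ψ y ≤ 0) (hθ : Continuous θ)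
    (hb : ∀ x, |θ x| ≤ 1) (x : ℝ) : Integrable (fun g => θ (x + Real.sqrt d * g) *
      Real.exp (z * ψ (x + Real.sqrt d * g))) (gaussianReal 0 1) := by
  refine (exp_int (d := d) hz hψ h0 x).mono' (Continuous.aestronglyMeasurable (by fun_prop))
    (ae_of_all _ fun g => ?_)
  rw [Real.norm_eq_abs, abs_mul, abs_of_pos (Real.exp_pos _)]
  have := mul_le_mul_of_nonneg_right (hb (x + Real.sqrt d * g))
    (Real.exp_pos (z * ψ (x + Real.sqrt d * g))).le
  linarith

theorem D_pos (hz : 0 < z) (hψ : Continuous ψ) (h0 : ∀ y, ψ y ≤ 0) (x : ℝ) :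
    0 < H (Real.sqrt d) (fun y => Real.exp (z * ψ y)) x :=
  integral_exp_pos (exp_int hz hψ h0 x)

theorem kth_abs_le (hz : 0 < z) (hψ : Continuous ψ) (h0 : ∀ y, ψ y ≤ 0) (hθ : Continuous θ)
    (hb : ∀ x, |θ x| ≤ 1) (x : ℝ) : |kth z d ψ θ x| ≤ 1 := by
  unfold kth
  have hD := D_pos (d := d) hz hψ h0 x
  rw [abs_div, abs_of_pos hD, div_le_one hD]
  unfold H
  refine abs_integral_le_integral_abs.trans ?_
  refine integral_mono (th_exp_int hz hψ h0 hθ hb x).abs (exp_int hz hψ h0 x) fun g => ?_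
  simp only [abs_mul, abs_of_pos (Real.exp_pos _)]
  have := mul_le_mul_of_nonneg_right (hb (x + Real.sqrt d * g))
    (Real.exp_pos (z * ψ (x + Real.sqrt d * g))).le
  linarith

theorem kth_meas (hψ : Continuous ψ) (hθ : Continuous θ) : Measurable (kth z d ψ θ) := by
  unfold kth
  exact (CtlB_130.H_meas (by fun_prop) (Real.sqrt d)).div
    (CtlB_130.H_meas (by fun_prop) (Real.sqrt d))

/-- the operator on the perturbed potential -/
theorem gaussOp_ph (hz : 0 < z) (hψ : Continuous ψ) (h0 : ∀ y, ψ y ≤ 0) (hθ : Continuous θ)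
    (hb : ∀ x, |θ x| ≤ 1) {ε : ℝ} (hε : |ε| ≤ 1 / 2) (x : ℝ) :
    gaussOp z d (fun y => ψ y + ph z ε θ y) x =
      gaussOp z d ψ x + z⁻¹ * Real.log (1 + ε * kth z d ψ θ x) := by
  rw [R164.GC.gaussOp_ne hz.ne', R164.GC.gaussOp_ne hz.ne', ← mul_add]
  congr 1
  have hD := D_pos (d := d) hz hψ h0 x
  have hk := abs_le.1 (eth_le hε (fun x => kth_abs_le (d := d) hz hψ h0 hθ hb x) x)
  rw [← Real.log_mul hD.ne' (by linarith)]
  congr 1
  have e1 : (fun y => Real.exp (z * (ψ y + ph z ε θ y))) =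
      fun y => Real.exp (z * ψ y) + ε * (θ y * Real.exp (z * ψ y)) := by
    funext y
    have h1 := abs_le.1 (eth_le hε hb y)
    have h2 : z * ph z ε θ y = Real.log (1 + ε * θ y) := by
      unfold ph; field_simp
    rw [mul_add, h2, Real.exp_add, Real.exp_log (by linarith)]
    ring
  rw [e1]
  unfold H
  rw [integral_add (exp_int hz hψ h0 x) ((th_exp_int hz hψ h0 hθ hb x).const_mul ε),
    integral_const_mul]
  have h3 : kth z d ψ θ x * H (Real.sqrt d) (fun y => Real.exp (z * ψ y)) x =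
      H (Real.sqrt d) (fun y => θ y * Real.exp (z * ψ y)) x := by
    unfold kth
    rw [div_mul_cancel₀ _ hD.ne']
  unfold H at h3
  rw [← h3]
  ring

theorem law_step {Ω : Type*} [MeasurableSpace Ω] {P : Measure Ω} [IsProbabilityMeasure P]
    {z d c A : ℝ} (hz : 0 < z) (hd : 0 ≤ d) {ψ : ℝ → ℝ} (hψ : QG ψ A) (h0 : ∀ y, ψ y ≤ 0)
    {X Y : Ω → ℝ} (hX : MemLp X 2 P) (hY : MemLp Y 2 P)
    (hle : ∀ φ : ℝ → ℝ, (∃ l, ∀ x y, |φ x - φ y| ≤ l * |x - y|) → (∃ K, ∀ x, |φ x| ≤ K) →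
      (∫ w, (ψ (Y w) + φ (Y w)) ∂P) - c ≤ ∫ w, gaussOp z d (fun y => ψ y + φ y) (X w) ∂P)
    (heq : (∫ w, ψ (Y w) ∂P) - c = ∫ w, gaussOp z d ψ (X w) ∂P)
    {θ : ℝ → ℝ} (hl : ∃ l, ∀ x y, |θ x - θ y| ≤ l * |x - y|) (hb : ∀ x, |θ x| ≤ 1) :
    ∫ w, θ (Y w) ∂P = ∫ w, H (Real.sqrt d) (fun y => θ y * Real.exp (z * ψ y)) (X w) /
      H (Real.sqrt d) (fun y => Real.exp (z * ψ y)) (X w) ∂P := by
  have hθ : Continuous θ := by
    obtain ⟨l, hl⟩ := hl
    have hl' : ∀ x y, |θ x - θ y| ≤ |l| * |x - y| := fun x y =>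
      (hl x y).trans (mul_le_mul_of_nonneg_right (le_abs_self l) (abs_nonneg _))
    exact (QL.of_lip (abs_nonneg l) hl').cont
  change ∫ w, θ (Y w) ∂P = ∫ w, kth z d ψ θ (X w) ∂P
  have hYm := hY.1
  have hXm := hX.1
  have iθ : Integrable (fun w => θ (Y w)) P :=
    Integrable.of_bound (hθ.comp_aestronglyMeasurable hYm) 1 (ae_of_all _ fun w => by
      rw [Real.norm_eq_abs]; exact hb _)
  have iκ : Integrable (fun w => kth z d ψ θ (X w)) P :=
    Integrable.of_bound ((kth_meas hψ.cont hθ).comp_aemeasurable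
      hXm.aemeasurable).aestronglyMeasurable 1 (ae_of_all _ fun w => by
      rw [Real.norm_eq_abs]; exact kth_abs_le hz hψ.cont h0 hθ hb _)
  -- the basic inequality
  have key : ∀ ε : ℝ, |ε| ≤ 1 / 2 →
      ε * ((∫ w, θ (Y w) ∂P) - ∫ w, kth z d ψ θ (X w) ∂P) ≤ 2 * ε ^ 2 := by
    intro ε hε
    have h1 := hle (ph z ε θ) (ph_lip hz hε hl hb) (ph_bdd hz hε hb)
    have ilog : Integrable (fun w => Real.log (1 + ε * θ (Y w))) P := by
      refine Integrable.of_bound ?_ 1 (ae_of_all _ fun w => by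
        rw [Real.norm_eq_abs]; exact log_abs_le (eth_le hε hb _))
      exact (Real.measurable_log.comp_aemeasurable ((aemeasurable_const.add
        ((hθ.comp_aestronglyMeasurable hYm).aemeasurable.const_mul ε)))).aestronglyMeasurable
    have iph : Integrable (fun w => ph z ε θ (Y w)) P := ilog.const_mul z⁻¹
    have iklog : Integrable (fun w => Real.log (1 + ε * kth z d ψ θ (X w))) P := by
      refine Integrable.of_bound ?_ 1 (ae_of_all _ fun w => by
        rw [Real.norm_eq_abs]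
        exact log_abs_le (eth_le hε (fun x => kth_abs_le (d := d) hz hψ.cont h0 hθ hb x) _))
      exact (Real.measurable_log.comp_aemeasurable ((aemeasurable_const.add
        (((kth_meas hψ.cont hθ).comp_aemeasurable hXm.aemeasurable).const_mul
          ε)))).aestronglyMeasurable
    have iψ : Integrable (fun w => ψ (Y w)) P := hψ.int_of hY
    have iG : Integrable (fun w => gaussOp z d ψ (X w)) P := gaussOp_int_of hψ h0 hz.le hd hX
    have e1 : ∫ w, (ψ (Y w) + ph z ε θ (Y w)) ∂P =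
        (∫ w, ψ (Y w) ∂P) + z⁻¹ * ∫ w, Real.log (1 + ε * θ (Y w)) ∂P := by
      rw [integral_add iψ iph, ← integral_const_mul]
      rfl
    have e2 : ∫ w, gaussOp z d (fun y => ψ y + ph z ε θ y) (X w) ∂P =
        (∫ w, gaussOp z d ψ (X w) ∂P) + z⁻¹ * ∫ w, Real.log (1 + ε * kth z d ψ θ (X w)) ∂P := by
      simp only [gaussOp_ph hz hψ.cont h0 hθ hb hε]
      rw [integral_add iG (iklog.const_mul _), integral_const_mul]
    rw [e1, e2, ← heq] at h1
    have h2 : z⁻¹ * ∫ w, Real.log (1 + ε * θ (Y w)) ∂P ≤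
        z⁻¹ * ∫ w, Real.log (1 + ε * kth z d ψ θ (X w)) ∂P := by linarith
    have h3 := le_of_mul_le_mul_left h2 (inv_pos.2 hz)
    have h4 : ∫ w, (ε * θ (Y w) - 2 * ε ^ 2) ∂P ≤ ∫ w, Real.log (1 + ε * θ (Y w)) ∂P := by
      refine integral_mono ((iθ.const_mul ε).sub (integrable_const _)) ilog fun w => ?_
      have h5 := log_lower (eth_le hε hb (Y w))
      have h6 : (ε * θ (Y w)) ^ 2 ≤ ε ^ 2 := by
        rw [mul_pow]
        have h7 : θ (Y w) ^ 2 ≤ 1 := by
          rw [← sq_abs]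
          have := pow_le_pow_left₀ (abs_nonneg _) (hb (Y w)) 2
          linarith
        nlinarith [sq_nonneg ε]
      show ε * θ (Y w) - 2 * ε ^ 2 ≤ _
      linarith
    have h5 : ∫ w, Real.log (1 + ε * kth z d ψ θ (X w)) ∂P ≤
        ∫ w, ε * kth z d ψ θ (X w) ∂P := by
      refine integral_mono iklog (iκ.const_mul ε) fun w => ?_
      exact log_upper (eth_le hε (fun x => kth_abs_le (d := d) hz hψ.cont h0 hθ hb x) _)
    rw [integral_sub (iθ.const_mul ε) (integrable_const _), integral_const_mul] at h4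
    rw [integral_const_mul] at h5
    simp only [integral_const, probReal_univ, one_smul] at h4
    linarith
  set a := ∫ w, θ (Y w) ∂P
  set b := ∫ w, kth z d ψ θ (X w) ∂P
  have k1 : a - b ≤ 0 := by
    refine le_of_forall_pos_le_add fun ε hε => ?_
    set η := min (ε / 2) (1 / 2) with hη
    have hη0 : 0 < η := lt_min (by positivity) (by norm_num)
    have hη1 : η ≤ ε / 2 := min_le_left _ _
    have hη2 : η ≤ 1 / 2 := min_le_right _ _
    have h := key η (by rw [abs_of_pos hη0]; exact hη2)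
    have h2 : η * (a - b) ≤ η * (2 * η) := by linarith
    have h3 := le_of_mul_le_mul_left h2 hη0
    linarith
  have k2 : b - a ≤ 0 := by
    refine le_of_forall_pos_le_add fun ε hε => ?_
    set η := min (ε / 2) (1 / 2) with hη
    have hη0 : 0 < η := lt_min (by positivity) (by norm_num)
    have hη1 : η ≤ ε / 2 := min_le_left _ _
    have hη2 : η ≤ 1 / 2 := min_le_right _ _
    have h := key (-η) (by rw [abs_neg, abs_of_pos hη0]; exact hη2)
    have h2 : η * (b - a) ≤ η * (2 * η) := by nlinarith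
    have h3 := le_of_mul_le_mul_left h2 hη0
    linarith
  linarith

end Crest.Agent.R146.BrLaw_52
end
end

-- ▼ part R146/BrLt_168
section

/-!
Row 146, R3 bridge (helper168 for helper256): the law of the process at the optimal dual variable.

`lawt_of : CELL hBm hB → EQT hBm hB → LAWT hBm hB`.
-/

set_option autoImplicit false

noncomputable section

open MeasureTheory Set Filter Topology ProbabilityTheory
open scoped InnerProductSpace RealInnerProductSpace NNReal ENNReal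

namespace Crest.Agent.R146.BrLt_168

open Crest.ProbabilityR.Perceptron Crest.ProbabilityR.InvariantGlass
open Crest.Agent.R146.DualQ_256 Crest.Agent.R146.DualC1_256 Crest.Agent.R146.DualV_256
  Crest.Agent.R146.DualL_256 Crest.Agent.R146.DualG_256 Crest.Agent.R146.CtlC_130
open Crest.Agent.R146.StepDef_791 Crest.Agent.R146.Cell_534 Crest.Agent.R146.PD_534
open Crest.Agent.R146.TiltB_534 Crest.Agent.R146.TiltC_534 Crest.Agent.R146.PB_534
open Crest.Agent.R146.Br_256

/-! ### measures from bounded Lipschitz functions -/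

theorem cexp_int (ρ : Measure ℝ) [IsProbabilityMeasure ρ] (t : ℝ) :
    ∫ x : ℝ, Complex.exp (t * x * Complex.I) ∂ρ =
      ((∫ x, Real.cos (t * x) ∂ρ : ℝ) : ℂ) + ((∫ x, Real.sin (t * x) ∂ρ : ℝ) : ℂ) * Complex.I := by
  have h1 : (fun x : ℝ => Complex.exp (t * x * Complex.I)) =
      fun x : ℝ => ((Real.cos (t * x) : ℝ) : ℂ) + ((Real.sin (t * x) : ℝ) : ℂ) * Complex.I := by
    funext x
    rw [Complex.exp_mul_I]
    push_cast
    rfl
  have ic : Integrable (fun x : ℝ => ((Real.cos (t * x) : ℝ) : ℂ)) ρ := by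
    refine Integrable.of_bound (Continuous.aestronglyMeasurable (by fun_prop)) 1
      (ae_of_all _ fun x => ?_)
    rw [Complex.norm_real, Real.norm_eq_abs]
    exact Real.abs_cos_le_one _
  have is : Integrable (fun x : ℝ => ((Real.sin (t * x) : ℝ) : ℂ)) ρ := by
    refine Integrable.of_bound (Continuous.aestronglyMeasurable (by fun_prop)) 1
      (ae_of_all _ fun x => ?_)
    rw [Complex.norm_real, Real.norm_eq_abs]
    exact Real.abs_sin_le_one _
  rw [h1, integral_add ic (is.mul_const _), integral_mul_const, integral_complex_ofReal,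
    integral_complex_ofReal]

theorem ext_of_lip {μ ν : Measure ℝ} [IsProbabilityMeasure μ] [IsProbabilityMeasure ν]
    (h : ∀ θ : ℝ → ℝ, (∃ l, ∀ x y, |θ x - θ y| ≤ l * |x - y|) → (∀ x, |θ x| ≤ 1) →
      ∫ x, θ x ∂μ = ∫ x, θ x ∂ν) : μ = ν := by
  refine Measure.ext_of_charFun ?_
  funext t
  rw [charFun_apply_real, charFun_apply_real, cexp_int μ t, cexp_int ν t]
  have hc := h (fun x => Real.cos (t * x)) ⟨|t|, fun x y => by
    rw [← abs_mul, mul_sub]
    exact Real.abs_cos_sub_cos_le _ _⟩ fun x => Real.abs_cos_le_one _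
  have hs := h (fun x => Real.sin (t * x)) ⟨|t|, fun x y => by
    rw [← abs_mul, mul_sub]
    exact Real.abs_sin_sub_sin_le _ _⟩ fun x => Real.abs_sin_le_one _
  rw [hc, hs]

theorem lip_cont {θ : ℝ → ℝ} (hl : ∃ l, ∀ x y, |θ x - θ y| ≤ l * |x - y|) : Continuous θ := by
  obtain ⟨l, hl⟩ := hl
  exact (QL.of_lip (abs_nonneg l) fun x y =>
    (hl x y).trans (mul_le_mul_of_nonneg_right (le_abs_self l) (abs_nonneg _))).cont

theorem lip_pg {θ : ℝ → ℝ} (hl : ∃ l, ∀ x y, |θ x - θ y| ≤ l * |x - y|) (hb : ∀ x, |θ x| ≤ 1) :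
    PG θ := ⟨lip_cont hl, 1, 0, zero_le_one, fun x => by simpa using hb x⟩

/-! ### the backward potential -/

theorem psi_ql (A : SD) {t : ℝ} (ht : t ∈ Icc 0 A.T) : ∃ C, QL (A.psi t) C := by
  have hB := Back_847.back A
  obtain ⟨M, hb⟩ := hB.bsys
  have hD := A.D_pos t
  refine ⟨_, QL.of_deriv (g1 := fun x => A.u t x / A.D t) (fun x => psi_x hB ht x)
    (L := 1 / A.D t) (by positivity) fun x y => ?_⟩
  rw [← sub_div, abs_div, abs_of_pos hD, div_mul_eq_mul_div, one_mul]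
  refine div_le_div_of_nonneg_right ?_ hD.le
  have h1 := convex_univ.norm_image_sub_le_of_norm_hasDerivWithin_le (f := A.u t)
    (f' := fun x => A.V t x - 1) (C := 1) (s := (univ : Set ℝ))
    (fun z _ => (hB.u_x t ht z).hasDerivWithinAt) (fun z _ => by
      rw [Real.norm_eq_abs, abs_le]
      have := hb.V_pos t ht z
      have := hb.V_lt t ht z
      constructor <;> linarith) (mem_univ y) (mem_univ x)
  simpa [Real.norm_eq_abs] using h1

/-- `ψ_a = gaussOp z (t-a) ψ_t` on a cell -/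
theorem psi_semi {A : SD} {a b z : ℝ} (hc : IsCell A a b z) {t : ℝ} (ht : t ∈ Icc a b) (x : ℝ) :
    gaussOp z (t - a) (A.psi t) x = A.psi a x := by
  have hB := Back_847.back A
  rw [hc.psi_eq a hc.aI, hc.psi_eq t ht]
  rw [gaussOp_semi (K := 0) (hB.sm b (hc.mem hc.bI)).cont
    (hB.psi_nonpos b (hc.mem hc.bI)) hc.z0 (by linarith [ht.1]) (by linarith [ht.2])]
  congr 1
  ring

/-- the kernel of `law_step` is `tv` -/
theorem kth_tv {A : SD} {a b z : ℝ} (hc : IsCell A a b z) {t : ℝ} (ht : t ∈ Icc a b)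
    (θ : ℝ → ℝ) (x : ℝ) :
    R164.GC.H (Real.sqrt (t - a)) (fun y => θ y * Real.exp (z * A.psi t y)) x /
      R164.GC.H (Real.sqrt (t - a)) (fun y => Real.exp (z * A.psi t y)) x = tv A z a t θ x := by
  unfold tv
  have h1 := congrFun (Gz_semi (Back_847.back A) hc hc.aI ht ht.1) x
  rw [← h1]
  rfl

section

variable {Ω : Type*} [mΩ : MeasurableSpace Ω] {P : Measure Ω} [IsProbabilityMeasure P]
  {B : ℝ≥0 → Ω → ℝ} (hBm : ∀ t, Measurable (B t)) (hB : IsBrownianReal B P)

/-! ### algebra of the process -/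

theorem Go_add (A : SD) (lam : Ω →₂[P] ℝ) {s t u : ℝ} (hs : 0 ≤ s) (hst : s ≤ t) (htu : t ≤ u)
    (hu : u ≤ 1) (Y : Ω →₂[P] ℝ) :
    Go hBm hB A lam t u (Go hBm hB A lam s t Y) = Go hBm hB A lam s u Y := by
  unfold Go dZ
  rw [← OO_add (FB P B hBm) (wA A) hs hst htu hu lam]
  abel

theorem Go_self (A : SD) (lam : Ω →₂[P] ℝ) {s : ℝ} (hs : 0 ≤ s) (hs1 : s ≤ 1) (Y : Ω →₂[P] ℝ) :
    Go hBm hB A lam s s Y = Y := by
  unfold Go dZ
  rw [OO_self (FB P B hBm) (wA A) hs hs1, sub_self, add_zero, add_zero]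

theorem Zt_fix' {s t : ℝ} (h : s ≤ t) :
    condPi (brownianFiltration B hBm) P t (Zt hB s.toNNReal) = Zt hB s.toNNReal := by
  refine condPi_of_meas _ _ _ ?_
  refine AEStronglyMeasurable.congr ?_ (Zt_coe hB s.toNNReal).symm
  have h1 : StronglyMeasurable[brownianFiltration B hBm s.toNNReal] (B s.toNNReal) :=
    Filtration.stronglyAdapted_natural (fun t => (hBm t).stronglyMeasurable) s.toNNReal
  exact (h1.mono ((brownianFiltration B hBm).mono
    (Real.toNNReal_le_toNNReal h))).aestronglyMeasurable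

theorem Go_fix (A : SD) (lam : Ω →₂[P] ℝ) {s t : ℝ} (hs : 0 ≤ s) (hst : s ≤ t) (ht : t ≤ 1)
    {Y : Ω →₂[P] ℝ} (hY : condPi (brownianFiltration B hBm) P s Y = Y) :
    condPi (brownianFiltration B hBm) P t (Go hBm hB A lam s t Y) = Go hBm hB A lam s t Y := by
  have h1 : condPi (brownianFiltration B hBm) P t Y = Y := by
    have := (FB P B hBm).comp' hst Y
    simp only [fam_Pi] at this
    rw [hY] at this
    exact this
  have h2 := Pi_OO (FB P B hBm) (wA A) hs hst ht le_rfl lam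
  simp only [fam_Pi] at h2
  unfold Go dZ
  rw [map_add, map_add, map_sub, h1, Zt_fix' hBm hB le_rfl, Zt_fix' hBm hB hst, h2]

theorem Xp_fix (A : SD) (x0 : ℝ) (lam : Ω →₂[P] ℝ) {t : ℝ} (h0 : 0 ≤ t) (ht : t ≤ 1) :
    condPi (brownianFiltration B hBm) P t (Xp hBm hB A x0 lam t) = Xp hBm hB A x0 lam t :=
  Go_fix hBm hB A lam le_rfl h0 ht (cst_fix 0 x0)

theorem Xp_add (A : SD) (x0 : ℝ) (lam : Ω →₂[P] ℝ) {s t : ℝ} (hs : 0 ≤ s) (hst : s ≤ t)
    (ht : t ≤ 1) :
    Go hBm hB A lam s t (Xp hBm hB A x0 lam s) = Xp hBm hB A x0 lam t :=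
  Go_add hBm hB A lam le_rfl hs hst ht _

theorem Xp_zero (A : SD) (x0 : ℝ) (lam : Ω →₂[P] ℝ) : Xp hBm hB A x0 lam 0 = cst P x0 :=
  Go_self hBm hB A lam le_rfl zero_le_one _

theorem Cq_add (A : SD) (lam : Ω →₂[P] ℝ) {s t u : ℝ} (hs : 0 ≤ s) (hst : s ≤ t) (htu : t ≤ u)
    (hu : u ≤ 1) : Cq hBm A lam s t + Cq hBm A lam t u = Cq hBm A lam s u := by
  unfold Cq
  exact intervalIntegral.integral_add_adjacent_intervals
    (ii_w (FB P B hBm) (wA A) hs hst (htu.trans hu) lam lam)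
    (ii_w (FB P B hBm) (wA A) (hs.trans hst) htu hu lam lam)

/-! ### one step -/

theorem step_theta (hC : CELL hBm hB) (hE : EQT hBm hB) {A : SD} {x0 : ℝ} {lam : Ω →₂[P] ℝ}
    (hL : LK hBm hB A x0 lam) {a b z : ℝ} (hc : IsCell A a b z) {t : ℝ} (ht : t ∈ Icc a b)
    {θ : ℝ → ℝ} (hl : ∃ l, ∀ x y, |θ x - θ y| ≤ l * |x - y|) (hb : ∀ x, |θ x| ≤ 1) :
    ∫ ω, θ ((Xp hBm hB A x0 lam t : Ω →₂[P] ℝ) ω) ∂P =
      ∫ ω, tv A z a t θ ((Xp hBm hB A x0 lam a : Ω →₂[P] ℝ) ω) ∂P := by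
  have hBk := Back_847.back A
  have haT := hc.mem hc.aI
  have htT := hc.mem ht
  have ht1 : t ≤ 1 := htT.2.trans A.hT1.le
  obtain ⟨C, hQ⟩ := psi_ql A htT
  have h0 := hBk.psi_nonpos t htT
  have hadd := Xp_add hBm hB A x0 lam haT.1 ht.1 ht1
  have hfix := Xp_fix hBm hB A x0 lam haT.1 (haT.2.trans A.hT1.le)
  have key := BrLaw_52.law_step (P := P) (z := z) (d := t - a)
    (c := 1 / 2 * Cq hBm A lam a t) hc.z0 (by linarith [ht.1]) hQ.qg h0
    (X := fun ω => (Xp hBm hB A x0 lam a : Ω →₂[P] ℝ) ω)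
    (Y := fun ω => (Xp hBm hB A x0 lam t : Ω →₂[P] ℝ) ω)
    (Lp.memLp _) (Lp.memLp _) ?_ ?_ hl hb
  · rw [key]
    refine integral_congr_ae (ae_of_all _ fun ω => ?_)
    exact kth_tv hc ht θ _
  · rintro φ ⟨l, hφ⟩ ⟨K, hK⟩
    have hφQ : QL φ |l| := QL.of_lip (abs_nonneg l) fun x y =>
      (hφ x y).trans (mul_le_mul_of_nonneg_right (le_abs_self l) (abs_nonneg _))
    have h1 := hC A lam a t z haT.1 ht.1 htT.2 hc.z0
      (fun r hr => hc.m_eq r ⟨hr.1.le, hr.2.trans_le ht.2⟩) (Xp hBm hB A x0 lam a) hfix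
      (fun y => A.psi t y + φ y) _ K (hQ.add hφQ) (fun x => by
        have := h0 x
        have := (abs_le.1 (hK x)).2
        linarith)
    rw [hadd] at h1
    exact h1
  · have e1 := (hE A x0 lam hL t htT).1
    have e2 := (hE A x0 lam hL a haT).1
    have e3 := Cq_add hBm A lam le_rfl haT.1 ht.1 ht1
    have e4 : ∫ w, gaussOp z (t - a) (A.psi t) ((Xp hBm hB A x0 lam a : Ω →₂[P] ℝ) w) ∂P =
        ∫ w, A.psi a ((Xp hBm hB A x0 lam a : Ω →₂[P] ℝ) w) ∂P :=
      integral_congr_ae (ae_of_all _ fun ω => psi_semi hc ht _)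
    rw [e4]
    linarith

theorem map_prob (Y : Ω →₂[P] ℝ) : IsProbabilityMeasure (P.map fun ω => Y ω) :=
  Measure.isProbabilityMeasure_map (Lp.memLp Y).1.aemeasurable

theorem law_cell (hC : CELL hBm hB) (hE : EQT hBm hB) {A : SD} {x0 : ℝ} {lam : Ω →₂[P] ℝ}
    (hL : LK hBm hB A x0 lam) {a b z : ℝ} (hc : IsCell A a b z) (hp : PCell A x0 a b z)
    (ih : P.map (fun ω => (Xp hBm hB A x0 lam a : Ω →₂[P] ℝ) ω) = muA A x0 a) {t : ℝ}
    (ht : t ∈ Icc a b) :
    P.map (fun ω => (Xp hBm hB A x0 lam t : Ω →₂[P] ℝ) ω) = muA A x0 t := by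
  have hBk := Back_847.back A
  have htT := hc.mem ht
  have := map_prob (P := P) (Xp hBm hB A x0 lam t)
  have := (muA_mom hBk x0 t htT).1
  refine ext_of_lip fun θ hl hb => ?_
  have hθ := lip_cont hl
  rw [integral_map (Lp.memLp _).1.aemeasurable hθ.aestronglyMeasurable,
    step_theta hBm hB hC hE hL hc ht hl hb, int_muA hBk x0 htT, base hBk hc hp ht (lip_pg hl hb)]
  unfold ev
  rw [← ih, integral_map (Lp.memLp _).1.aemeasurable
    (tv_continuous hBk hc (lip_pg hl hb) ht).aestronglyMeasurable]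

theorem law_zero (A : SD) (x0 : ℝ) (lam : Ω →₂[P] ℝ) :
    P.map (fun ω => (Xp hBm hB A x0 lam 0 : Ω →₂[P] ℝ) ω) = muA A x0 0 := by
  rw [Xp_zero]
  unfold muA
  rw [if_pos le_rfl, Measure.map_congr (cst_coe (P := P) x0), Measure.map_const]
  simp

/-- **the law of the process** -/
theorem lawt_of (hC : CELL hBm hB) (hE : EQT hBm hB) : LAWT hBm hB := by
  intro A x0 lam hL
  refine cells_induct A x0 (fun s => ∀ t ∈ Icc 0 s,
    P.map (fun ω => (Xp hBm hB A x0 lam t : Ω →₂[P] ℝ) ω) = muA A x0 t) ?_ ?_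
  · intro t ht
    have h : t = 0 := le_antisymm ht.2 ht.1
    rw [h]
    exact law_zero hBm hB A x0 lam
  · intro a b z hc hp ih t ht
    rcases le_or_gt t a with h | h
    · exact ih t ⟨ht.1, h⟩
    · exact law_cell hBm hB hC hE hL hc hp (ih a ⟨hc.a0, le_rfl⟩) ⟨h.le, ht.2⟩

end

end Crest.Agent.R146.BrLt_168
end
end

-- ▼ part R146/BrEx_952
section

/-!
# Row 146, R3 bridge: leaf EXL (helper952)

Existence of the optimal dual variable in the Hilbert space of the Brownian filtration.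
-/

set_option autoImplicit false

noncomputable section

open MeasureTheory Set Filter Topology ProbabilityTheory
open scoped InnerProductSpace RealInnerProductSpace NNReal ENNReal

namespace Crest.Agent.R146.BrEx_952

open Crest.ProbabilityR.Perceptron Crest.ProbabilityR.InvariantGlass
open Crest.Agent.R146.DualQ_256 Crest.Agent.R146.DualC1_256 Crest.Agent.R146.DualV_256
  Crest.Agent.R146.DualL_256 Crest.Agent.R146.DualG_256 Crest.Agent.R146.CtlC_130
open Crest.Agent.R146.StepDef_791 Crest.Agent.R146.Br_256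

variable {Ω : Type*} [mΩ : MeasurableSpace Ω] {P : Measure Ω} [IsProbabilityMeasure P]
  {B : ℝ≥0 → Ω → ℝ} (hBm : ∀ t, Measurable (B t)) (hB : IsBrownianReal B P)

/-! ### the martingale property -/

/-- the increment is orthogonal to the past -/
theorem inner_dZ {s t : ℝ} (hs : 0 ≤ s) (hst : s ≤ t) {Y : Ω →₂[P] ℝ}
    (hY : condPi (brownianFiltration B hBm) P s Y = Y) : ⟪dZ hB s t, Y⟫_ℝ = 0 := by
  obtain ⟨Y', h1, h2, h3⟩ := exists_rep hBm hY
  have e1 : ⟪dZ hB s t, Y⟫_ℝ = ∫ ω, (Y' * fun ω => B t.toNNReal ω - B s.toNNReal ω) ω ∂P := by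
    rw [inner_eq]
    refine integral_congr_ae ?_
    filter_upwards [Lp.coeFn_sub (Zt hB t.toNNReal) (Zt hB s.toNNReal), Zt_coe hB t.toNNReal,
      Zt_coe hB s.toNNReal, h2] with ω a1 a2 a3 a4
    unfold dZ
    simp only [Pi.mul_apply, a1, Pi.sub_apply, a2, a3, a4]
    ring
  have hind := indep_incr hBm hB hs hst h1
  have hD : MemLp (fun ω => B t.toNNReal ω - B s.toNNReal ω) 2 P :=
    (memLp_B hB t.toNNReal).sub (memLp_B hB s.toNNReal)
  have e2 : ∫ ω, (B t.toNNReal ω - B s.toNNReal ω) ∂P = 0 := by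
    have hDm : Measurable (fun ω => B t.toNNReal ω - B s.toNNReal ω) := (hBm _).sub (hBm _)
    have h5 : ∫ ω, (B t.toNNReal ω - B s.toNNReal ω) ∂P =
        ∫ x, x ∂(P.map fun ω => B t.toNNReal ω - B s.toNNReal ω) := by
      rw [integral_map hDm.aemeasurable (by fun_prop)]
    rw [h5, law_incr hB hs hst]
    exact integral_id_gaussianReal
  rw [e1, hind.integral_mul_eq_mul_integral h3.1 hD.1, e2, mul_zero]

theorem condPi_dZ {s t : ℝ} (hs : 0 ≤ s) (hst : s ≤ t) :
    condPi (brownianFiltration B hBm) P s (dZ hB s t) = 0 := by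
  refine ext_inner_right ℝ fun y => ?_
  rw [condPi_sa, inner_dZ hBm hB hs hst (condPi_idem hBm s y), inner_zero_left]

/-- `E_t (B_1 - B_0) = B_t - B_0` -/
theorem condPi_dZ_one {t : ℝ} (ht : t ∈ Icc (0 : ℝ) 1) :
    condPi (brownianFiltration B hBm) P t (dZ hB 0 1) = dZ hB 0 t := by
  rw [← dZ_add hB 0 t 1, map_add, condPi_dZ hBm hB ht.1 ht.2, add_zero,
    dZ_fix hBm hB le_rfl ht.1 le_rfl]

theorem Zt_zero : Zt hB 0 = 0 := by
  refine Lp.ext ?_
  filter_upwards [Zt_coe hB 0, Lp.coeFn_zero ℝ 2 P, hB.toIsPreBrownianReal.eval_zero_ae_eq_zero]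
    with ω h1 h2 h3
  rw [h1, h2, h3]; rfl

theorem dZ_zero_one : dZ hB 0 1 = ZB hB := by
  unfold dZ
  rw [Real.toNNReal_zero, Real.toNNReal_one, Zt_zero, sub_zero, Zt_one]

/-! ### the operator -/

theorem OO_eq_op (A : SD) (x : Ω →₂[P] ℝ) :
    OO (FB P B hBm) (wA A) 0 1 x = (FB P B hBm).op (wA A) x := by
  refine ext_inner_right ℝ fun y => ?_
  rw [inner_OO (FB P B hBm) (wA A) le_rfl zero_le_one le_rfl, (FB P B hBm).inner_op,
    intervalIntegral.integral_of_le zero_le_one, ← integral_Icc_eq_integral_Ioc]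
  rfl

theorem op_mem (A : SD) (x : Ω →₂[P] ℝ) :
    (FB P B hBm).op (wA A) x ∈ HH P B hBm := by
  set F := FB P B hBm
  set K := HH P B hBm
  have hc : IsClosed (K : Set (Ω →₂[P] ℝ)) := HB_closed
  rw [← K.orthogonal_orthogonal, Submodule.mem_orthogonal]
  intro y hy
  rw [Submodule.mem_orthogonal] at hy
  rw [real_inner_comm, PF.inner_op]
  unfold PF.bil
  have h1 : ∀ᵐ t ∂(volume.restrict (Icc (0 : ℝ) 1)), t ≠ 1 := by
    refine ae_restrict_of_ae ?_
    rw [ae_iff]; simp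
  refine integral_eq_zero_of_ae ?_
  filter_upwards [h1, ae_restrict_mem measurableSet_Icc] with t ht1 ht2
  have ht : t < 1 := lt_of_le_of_ne ht2.2 ht1
  have h2 := hy (condPi (brownianFiltration B hBm) P t x) (condPi_mem ht x)
  show A.m t * ⟪condPi (brownianFiltration B hBm) P t x, y⟫_ℝ = 0
  rw [h2, mul_zero]

/-- `D t = d + ∫_t^1 m` -/
theorem D_eq (A : SD) (t : ℝ) : A.D t = A.d + ∫ s in t..1, A.m s := by
  have h1 := StepClk_900.D_sub_eq A t 1
  rw [StepClk_900.D_of_ge A A.hT1.le] at h1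
  linarith

theorem inner_Dop (A : SD) (x y : HH P B hBm) :
    ⟪y, (RB P B hBm).Dop A.D x⟫_ℝ =
      (FB P B hBm).bil A.m (x : Ω →₂[P] ℝ) (y : Ω →₂[P] ℝ) + A.d * ⟪y, x⟫_ℝ := by
  have h := (RB P B hBm).inner_Dop_eq_integral (D := A.D) (m := A.m) (d := A.d)
    (StepClk_900.D_cont A).continuousOn (StepClk_900.m_intble A 0 1) (fun t _ => D_eq A t) x y
  rw [h, intervalIntegral.integral_of_le zero_le_one, ← integral_Icc_eq_integral_Ioc]
  congr 1
  unfold PF.bil
  refine integral_congr_ae (Eventually.of_forall fun t => ?_)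
  simp only
  rw [Submodule.coe_inner, real_inner_comm]
  rfl

theorem Dop_eq (A : SD) (x : HH P B hBm) :
    (((RB P B hBm).Dop A.D x : HH P B hBm) : Ω →₂[P] ℝ) =
      (FB P B hBm).op (wA A) (x : Ω →₂[P] ℝ) + A.d • (x : Ω →₂[P] ℝ) := by
  set z : HH P B hBm := ⟨_, op_mem hBm A (x : Ω →₂[P] ℝ)⟩ with hz
  have h1 : z + A.d • x = (RB P B hBm).Dop A.D x := by
    refine ext_inner_left ℝ fun y => ?_
    have e1 : ⟪y, A.d • x⟫_ℝ = A.d * ⟪y, x⟫_ℝ := by
      rw [Submodule.coe_inner, Submodule.coe_inner, Submodule.coe_smul, real_inner_smul_right]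
    rw [inner_Dop, inner_add_right, e1]
    congr 1
    rw [Submodule.coe_inner, real_inner_comm]
    exact PF.inner_op _ _ _ _
  rw [← h1]
  rfl

/-! ### conditional expectation of the operator -/

/-- `E_t (∫_0^1 m_r E_r x dr) = ∫_0^t m_r E_r x dr + (∫_t^1 m) E_t x` -/
theorem condPi_op (A : SD) {t : ℝ} (ht : t ∈ Icc (0 : ℝ) 1) (x : Ω →₂[P] ℝ) :
    condPi (brownianFiltration B hBm) P t ((FB P B hBm).op (wA A) x) =
      OO (FB P B hBm) (wA A) 0 t x +
        (∫ s in t..1, A.m s) • condPi (brownianFiltration B hBm) P t x := by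
  rw [← OO_eq_op, ← OO_add (FB P B hBm) (wA A) le_rfl ht.1 ht.2 le_rfl x, map_add]
  congr 1
  · exact Pi_OO (FB P B hBm) (wA A) le_rfl ht.1 ht.2 le_rfl x
  · refine ext_inner_right ℝ fun y => ?_
    rw [condPi_sa, inner_OO (FB P B hBm) (wA A) ht.1 ht.2 le_rfl, real_inner_smul_left,
      ← intervalIntegral.integral_mul_const]
    refine intervalIntegral.integral_congr fun r hr => ?_
    rw [uIcc_of_le ht.2] at hr
    congr 1
    have h1 := (FB P B hBm).sa r x (condPi (brownianFiltration B hBm) P t y)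
    have h2 : (FB P B hBm).Pi r (condPi (brownianFiltration B hBm) P t y) =
        condPi (brownianFiltration B hBm) P t y := (FB P B hBm).comp' hr.1 y
    rw [h1, h2, condPi_sa]

/-! ### the dual variable -/

/-- the optimal dual variable -/
def lA (A : SD) (x0 : ℝ) : Ω →₂[P] ℝ :=
  lam (brownianFiltration B hBm) (wA_wt A) (b := 1 / A.d) (one_div_pos.2 A.hd) (-x0) (ZB hB)

theorem lA_mem (A : SD) (x0 : ℝ) : lA hBm hB A x0 ∈ cone P :=
  lam_mem (brownianFiltration B hBm) (wA_wt A) _ _ _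

theorem lA_kkt (A : SD) (x0 : ℝ) : (lA hBm hB A x0 : Ω → ℝ) =ᵐ[P] fun ω =>
    1 / A.d * max (-x0 - (ZB hB + (FB P B hBm).op (wA A) (lA hBm hB A x0) : Ω →₂[P] ℝ) ω) 0 :=
  kkt (wA_wt A) (one_div_pos.2 A.hd) (-x0) (lam_mem (brownianFiltration B hBm) (wA_wt A) _ _ _)
    (lam_min (brownianFiltration B hBm) (wA_wt A) _ _ _)

theorem lA_HB (A : SD) (x0 : ℝ) : lA hBm hB A x0 ∈ HH P B hBm :=
  kkt_mem ((HH P B hBm).add_mem (ZB_mem hBm hB) (op_mem hBm A _)) (lA_kkt hBm hB A x0)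

theorem Xp_one (A : SD) (x0 : ℝ) (l : Ω →₂[P] ℝ) :
    Xp hBm hB A x0 l 1 = cst P x0 + ZB hB + (FB P B hBm).op (wA A) l := by
  unfold Xp Go
  rw [dZ_zero_one, OO_eq_op]

theorem lA_LK (A : SD) (x0 : ℝ) : LK hBm hB A x0 (lA hBm hB A x0) where
  mem := lA_mem hBm hB A x0
  kkt := by
    filter_upwards [lA_kkt hBm hB A x0, Lp.coeFn_add (cst P x0 + ZB hB)
      ((FB P B hBm).op (wA A) (lA hBm hB A x0)), Lp.coeFn_add (cst P x0) (ZB hB),
      Lp.coeFn_add (ZB hB) ((FB P B hBm).op (wA A) (lA hBm hB A x0)), cst_coe (P := P) x0]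
      with ω h1 h2 h3 h4 h5
    rw [Xp_one, h1, h2, h4, Pi.add_apply, Pi.add_apply, h3, Pi.add_apply, h5]
    congr 2
    ring

/-- the terminal variable `h = X_1 + d l` -/
theorem hterm (A : SD) (x0 : ℝ) (l : HH P B hBm) :
    ((xi hBm hB x0 + (RB P B hBm).Dop A.D l : HH P B hBm) : Ω →₂[P] ℝ) =
      Xp hBm hB A x0 (l : Ω →₂[P] ℝ) 1 + A.d • (l : Ω →₂[P] ℝ) := by
  rw [Xp_one, Submodule.coe_add, Dop_eq]
  show cst P x0 + ZB hB + _ = _
  abel

theorem hterm_ae (A : SD) (x0 : ℝ) (l : HH P B hBm) (hl : LK hBm hB A x0 (l : Ω →₂[P] ℝ)) :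
    (((xi hBm hB x0 + (RB P B hBm).Dop A.D l : HH P B hBm) : Ω →₂[P] ℝ) : Ω → ℝ) =ᵐ[P]
      fun ω => max ((Xp hBm hB A x0 (l : Ω →₂[P] ℝ) 1 : Ω →₂[P] ℝ) ω) 0 := by
  rw [hterm]
  filter_upwards [Lp.coeFn_add (Xp hBm hB A x0 (l : Ω →₂[P] ℝ) 1) (A.d • (l : Ω →₂[P] ℝ)),
    Lp.coeFn_smul A.d (l : Ω →₂[P] ℝ), hl.kkt] with ω h1 h2 h3
  rw [h1, Pi.add_apply, h2, Pi.smul_apply, h3, smul_eq_mul]
  have hd := A.hd
  generalize (Xp hBm hB A x0 (l : Ω →₂[P] ℝ) 1 : Ω →₂[P] ℝ) ω = X
  have e : A.d * (1 / A.d * max (-X) 0) = max (-X) 0 := by field_simp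
  rw [e]
  rcases le_total X 0 with h | h
  · rw [max_eq_left (by linarith), max_eq_right h]; ring
  · rw [max_eq_right (by linarith), max_eq_left h]; ring

theorem kktH (A : SD) (x0 : ℝ) (l : HH P B hBm) (hl : LK hBm hB A x0 (l : Ω →₂[P] ℝ)) :
    PtHlim_45.Kkt (RB P B hBm) (KB P B hBm) (xi hBm hB x0) A.D l where
  mem := hl.mem
  nonneg := fun y hy => by
    rw [Submodule.coe_inner, inner_eq]
    refine integral_nonneg_of_ae ?_
    filter_upwards [hterm_ae hBm hB A x0 l hl, mem_cone.1 (show (y : Ω →₂[P] ℝ) ∈ cone P from hy)]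
      with ω h1 h2
    rw [Pi.zero_apply, h1]
    exact mul_nonneg h2 (le_max_right _ _)
  zero := by
    rw [Submodule.coe_inner, inner_eq]
    refine integral_eq_zero_of_ae ?_
    filter_upwards [hterm_ae hBm hB A x0 l hl, hl.kkt] with ω h1 h2
    rw [Pi.zero_apply, h1, h2]
    rcases le_total ((Xp hBm hB A x0 (l : Ω →₂[P] ℝ) 1 : Ω →₂[P] ℝ) ω) 0 with h | h
    · rw [max_eq_right h, mul_zero]
    · rw [max_eq_right (by linarith : -((Xp hBm hB A x0 (l : Ω →₂[P] ℝ) 1 : Ω →₂[P] ℝ) ω) ≤ 0)]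
      simp

theorem Ph (A : SD) (x0 : ℝ) (l : HH P B hBm) {t : ℝ} (ht : t ∈ Icc (0 : ℝ) 1) :
    (((RB P B hBm).P t (xi hBm hB x0 + (RB P B hBm).Dop A.D l) : HH P B hBm) : Ω →₂[P] ℝ) =
      Xp hBm hB A x0 (l : Ω →₂[P] ℝ) t +
        A.D t • condPi (brownianFiltration B hBm) P t (l : Ω →₂[P] ℝ) := by
  rw [resB_coe, hterm, Xp_one, map_add, map_add, map_add, cst_fix, ← dZ_zero_one hB,
    condPi_dZ_one hBm hB ht, condPi_op hBm A ht, map_smul, D_eq A t, add_smul]
  unfold Xp Go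
  abel

/-- **EXL** -/
theorem exl : EXL (P := P) hBm hB := by
  intro A x0
  refine ⟨⟨lA hBm hB A x0, lA_HB hBm hB A x0⟩, lA_LK hBm hB A x0,
    kktH hBm hB A x0 _ (lA_LK hBm hB A x0), fun t ht => ?_⟩
  exact Ph hBm hB A x0 ⟨lA hBm hB A x0, lA_HB hBm hB A x0⟩ ht

end Crest.Agent.R146.BrEx_952
end
end

-- ▼ part R146/BrFin_861

/-!
# Row 146, R3 bridge (split 1362 of helper256), edge `(EXL, IDT, LAWT) → FIN` (helper861)

`‖P_t l‖² = E[(u/D)²](t, X_t) = Lams` and `⟪P_t h, l⟫ = E[(X_t + u) u / D] = Cs`.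
-/

set_option autoImplicit false

noncomputable section

open MeasureTheory Set Filter Topology ProbabilityTheory
open scoped InnerProductSpace RealInnerProductSpace NNReal ENNReal

namespace Crest.Agent.R146.BrFin_861

open Crest.ProbabilityR.Perceptron Crest.ProbabilityR.InvariantGlass
open Crest.Agent.R146.DualQ_256 Crest.Agent.R146.DualC1_256 Crest.Agent.R146.DualV_256
  Crest.Agent.R146.DualL_256 Crest.Agent.R146.DualG_256 Crest.Agent.R146.CtlC_130
open Crest.Agent.R146.StepDef_791 Crest.Agent.R146.Cell_534 Crest.Agent.R146.PD_534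
open Crest.Agent.R146.Br_256

theorem u_cont (A : SD) {t : ℝ} (ht : t ∈ Icc 0 A.T) : Continuous (A.u t) :=
  continuous_iff_continuousAt.2 fun x => ((Back_847.back A).u_x t ht x).continuousAt

theorem w_cont (A : SD) {t : ℝ} (ht : t ∈ Icc 0 A.T) : Continuous (A.w t) :=
  continuous_id.add (u_cont A ht)

section

variable {Ω : Type*} [mΩ : MeasurableSpace Ω] {P : Measure Ω} [IsProbabilityMeasure P]
  {B : ℝ≥0 → Ω → ℝ} (hBm : ∀ t, Measurable (B t)) (hB : IsBrownianReal B P)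

include hBm in
/-- integrals of functions of `X_t` -/
theorem int_law (hL : LAWT hBm hB) {A : SD} {x0 : ℝ} {lam : Ω →₂[P] ℝ} (h : LK hBm hB A x0 lam)
    {t : ℝ} (ht : t ∈ Icc 0 A.T) {f : ℝ → ℝ} (hf : Continuous f) :
    ∫ ω, f ((Xp hBm hB A x0 lam t : Ω →₂[P] ℝ) ω) ∂P = ex x0 (pd A x0) t f := by
  rw [← int_muA (Back_847.back A) x0 ht f, ← hL A x0 lam h t ht]
  exact (integral_map (Lp.aestronglyMeasurable _).aemeasurable hf.aestronglyMeasurable).symm

/-- **FIN** from EXL, IDT, LAWT -/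
theorem fin_of (hX : EXL hBm hB) (hI : IDT hBm hB) (hL : LAWT hBm hB) : FIN hBm hB := by
  intro A x0
  obtain ⟨l, hLK, hK, hP⟩ := hX A x0
  have hT1 : A.T ≤ 1 := A.hT1.le
  refine ⟨l, hK, fun t ht => ?_, fun t ht => ?_⟩
  · have h1 : ‖(RB P B hBm).P t l‖ ^ 2 =
        ‖condPi (brownianFiltration B hBm) P t (l : Ω →₂[P] ℝ)‖ ^ 2 := rfl
    rw [h1, norm_sq_eq]
    have h2 : ∫ ω, (condPi (brownianFiltration B hBm) P t (l : Ω →₂[P] ℝ) : Ω →₂[P] ℝ) ω ^ 2 ∂P =
        ∫ ω, A.E t ^ 2 * A.u t ((Xp hBm hB A x0 (l : Ω →₂[P] ℝ) t : Ω →₂[P] ℝ) ω) ^ 2 ∂P := by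
      refine integral_congr_ae ?_
      filter_upwards [hI A x0 _ hLK t ht] with ω h
      rw [h]
      unfold SD.E
      ring
    rw [h2, integral_const_mul, int_law hBm hB hL hLK ht (f := fun x => A.u t x ^ 2)
      ((u_cont A ht).pow 2)]
    rfl
  · have ht1 : t ∈ Icc (0:ℝ) 1 := ⟨ht.1, ht.2.trans hT1⟩
    have h0 := hP t ht1
    have h1 : ⟪(RB P B hBm).P t (xi hBm hB x0 + (RB P B hBm).Dop A.D l), l⟫_ℝ =
        ⟪(RB P B hBm).P t (xi hBm hB x0 + (RB P B hBm).Dop A.D l), (RB P B hBm).P t l⟫_ℝ := by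
      rw [← (RB P B hBm).symm t ((RB P B hBm).P t (xi hBm hB x0 + (RB P B hBm).Dop A.D l)) l,
        (RB P B hBm).mul t t le_rfl]
    rw [h1, Submodule.coe_inner, h0]
    have h2 : (((RB P B hBm).P t l : HH P B hBm) : Ω →₂[P] ℝ) =
        condPi (brownianFiltration B hBm) P t (l : Ω →₂[P] ℝ) := rfl
    rw [h2, inner_eq]
    have h3 : ∫ ω, (Xp hBm hB A x0 (l : Ω →₂[P] ℝ) t +
          A.D t • condPi (brownianFiltration B hBm) P t (l : Ω →₂[P] ℝ) : Ω →₂[P] ℝ) ω *
          (condPi (brownianFiltration B hBm) P t (l : Ω →₂[P] ℝ) : Ω →₂[P] ℝ) ω ∂P =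
        ∫ ω, A.E t * (A.w t ((Xp hBm hB A x0 (l : Ω →₂[P] ℝ) t : Ω →₂[P] ℝ) ω) *
          A.u t ((Xp hBm hB A x0 (l : Ω →₂[P] ℝ) t : Ω →₂[P] ℝ) ω)) ∂P := by
      refine integral_congr_ae ?_
      filter_upwards [hI A x0 _ hLK t ht,
        Lp.coeFn_add (Xp hBm hB A x0 (l : Ω →₂[P] ℝ) t)
          (A.D t • condPi (brownianFiltration B hBm) P t (l : Ω →₂[P] ℝ)),
        Lp.coeFn_smul (A.D t) (condPi (brownianFiltration B hBm) P t (l : Ω →₂[P] ℝ))]
        with ω h h4 h5
      rw [h4, Pi.add_apply, h5, Pi.smul_apply, h, smul_eq_mul]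
      have hD := (A.D_pos t).ne'
      unfold SD.E SD.w
      field_simp
    rw [h3, integral_const_mul, int_law hBm hB hL hLK ht (f := fun x => A.w t x * A.u t x)
      ((w_cont A ht).mul (u_cont A ht))]
    rfl

end

end Crest.Agent.R146.BrFin_861
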