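import Crest.Agent.R146.SG_534

/-!
Row 146 (PT-STEP, helper534): tools for tilted Gaussian averages: joint continuity with parameters,
moment bound under a log-concave tilt, diagonal derivative.
-/

set_option autoImplicit false

namespace Crest.Agent.R146.TiltA_534

open MeasureTheory ProbabilityTheory Filter Topology Set
open Crest.Agent.R146.Hg_534 Crest.Agent.R146.PB_534

noncomputable section


theorem pow_le_pow_base {x : ℝ} {n m : ℕ} (h : n ≤ m) : (1 + |x|) ^ n ≤ (1 + |x|) ^ m :=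
  pow_le_pow_right₀ (one_le_base x) h

theorem int_poly (T : ℝ) (n : ℕ) :
    Integrable (fun g : ℝ => (1 + |T| * |g|) ^ n) (gaussianReal 0 1) := by
  have hp : PG (fun g : ℝ => (1 + |T| * |g|) ^ n) :=
    PG.pow ((PG.const 1).add (PG.id.abs.const_mul |T|)) n
  have := hp.eg.int 1 0
  simpa using this

/-- Gaussian moment constant -/
def mc (n : ℕ) (T : ℝ) : ℝ := ∫ g, (1 + |T| * |g|) ^ n ∂gaussianReal 0 1

theorem mc_nonneg (n : ℕ) (T : ℝ) : 0 ≤ mc n T := integral_nonneg fun g => by positivity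

theorem shift_poly {x t X T : ℝ} (hx : |x| ≤ X) (ht : |t| ≤ |T|) (g : ℝ) (n : ℕ) :
    (1 + |x + t * g|) ^ n ≤ (1 + X) ^ n * (1 + |T| * |g|) ^ n := by
  rw [← mul_pow]
  refine pow_le_pow_left₀ (by positivity) ?_ n
  have h1 : |x + t * g| ≤ X + |T| * |g| := by
    refine (abs_add_le _ _).trans (add_le_add hx ?_)
    rw [abs_mul]
    exact mul_le_mul_of_nonneg_right ht (abs_nonneg g)
  have h2 : 0 ≤ X := (abs_nonneg x).trans hx
  have h3 : 0 ≤ |T| * |g| := by positivity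
  nlinarith [mul_nonneg h2 h3]

theorem H_poly {φ : ℝ → ℝ} {C : ℝ} {n : ℕ} (hC : 0 ≤ C)
    (h : ∀ x, |φ x| ≤ C * (1 + |x|) ^ n) {t T : ℝ} (ht : |t| ≤ |T|) (x : ℝ) :
    |H t φ x| ≤ C * mc n T * (1 + |x|) ^ n := by
  unfold H mc
  rw [← Real.norm_eq_abs, mul_right_comm, ← integral_const_mul]
  refine norm_integral_le_of_norm_le ((int_poly T n).const_mul _) (Eventually.of_forall fun g => ?_)
  rw [Real.norm_eq_abs, mul_assoc]
  exact (h _).trans (mul_le_mul_of_nonneg_left (shift_poly (le_refl |x|) ht g n) hC)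

/-- **joint continuity with a parameter** -/
theorem H_cont_param {S : Set ℝ} {Φ : ℝ → ℝ → ℝ} {C : ℝ} {n : ℕ} {s0 x0 τ0 : ℝ} (hC : 0 ≤ C)
    (hc : ∀ s ∈ S, Continuous (Φ s))
    (hj : ∀ y, ContinuousWithinAt (fun q : ℝ × ℝ => Φ q.1 q.2) (S ×ˢ univ) (s0, y))
    (hb : ∀ s ∈ S, ∀ y, |Φ s y| ≤ C * (1 + |y|) ^ n) :
    ContinuousWithinAt (fun q : ℝ × ℝ × ℝ => H q.1 (Φ q.2.1) q.2.2) (univ ×ˢ S ×ˢ univ)
      (τ0, s0, x0) := by
  unfold H
  have hN : ∀ᶠ q : ℝ × ℝ × ℝ in 𝓝[univ ×ˢ S ×ˢ univ] (τ0, s0, x0),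
      |q.1| ≤ |τ0| + 1 ∧ |q.2.2| ≤ |x0| + 1 := by
    have h1 : ∀ᶠ q : ℝ × ℝ × ℝ in 𝓝 (τ0, s0, x0), |q.1| < |τ0| + 1 ∧ |q.2.2| < |x0| + 1 := by
      have c1 : Continuous fun q : ℝ × ℝ × ℝ => |q.1| := by fun_prop
      have c2 : Continuous fun q : ℝ × ℝ × ℝ => |q.2.2| := by fun_prop
      exact ((c1.tendsto _).eventually (gt_mem_nhds (by simp))).and
        ((c2.tendsto _).eventually (gt_mem_nhds (by simp)))
    filter_upwards [nhdsWithin_le_nhds h1] with q hq
    exact ⟨hq.1.le, hq.2.le⟩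
  refine continuousWithinAt_of_dominated (bound := fun g =>
    C * ((1 + (|x0| + 1)) ^ n * (1 + |(|τ0| + 1)| * |g|) ^ n)) ?_ ?_ ?_ ?_
  · filter_upwards [self_mem_nhdsWithin] with q hq
    have := hc q.2.1 hq.2.1
    exact (by fun_prop : Continuous fun g : ℝ => Φ q.2.1 (q.2.2 + q.1 * g)).aestronglyMeasurable
  · filter_upwards [self_mem_nhdsWithin, hN] with q hq hq2
    refine Eventually.of_forall fun g => ?_
    rw [Real.norm_eq_abs]
    refine (hb _ hq.2.1 _).trans (mul_le_mul_of_nonneg_left ?_ hC)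
    refine shift_poly hq2.2 ?_ g n
    rw [abs_of_nonneg (by positivity : (0:ℝ) ≤ |τ0| + 1)]
    exact hq2.1
  · exact ((int_poly (|τ0| + 1) n).const_mul _).const_mul _
  · refine Eventually.of_forall fun g => ?_
    have hm : ContinuousWithinAt (fun q : ℝ × ℝ × ℝ => ((q.2.1, q.2.2 + q.1 * g) : ℝ × ℝ))
        (univ ×ˢ S ×ˢ univ) (τ0, s0, x0) := by fun_prop
    have hmt : MapsTo (fun q : ℝ × ℝ × ℝ => ((q.2.1, q.2.2 + q.1 * g) : ℝ × ℝ))
        (univ ×ˢ S ×ˢ univ) (S ×ˢ univ) := fun q hq => ⟨hq.2.1, mem_univ _⟩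
    exact ContinuousWithinAt.comp (x := ((τ0, s0, x0) : ℝ × ℝ × ℝ))
      (f := fun q : ℝ × ℝ × ℝ => ((q.2.1, q.2.2 + q.1 * g) : ℝ × ℝ))
      (g := fun q : ℝ × ℝ => Φ q.1 q.2) (hj (x0 + τ0 * g)) hm hmt

/-- even moments under a log-concave tilt -/
def ce : ℕ → ℝ
  | 0 => 1
  | n + 1 => 2 * (2 * n + 1) * ce n + 2 ^ (2 * n + 2)

theorem ce_nonneg : ∀ n, 0 ≤ ce n
  | 0 => zero_le_one
  | n + 1 => by
    have := ce_nonneg n
    unfold ce
    positivity

theorem sm_sub_pow (x : ℝ) (n : ℕ) : Sm (fun y => (y - x) ^ n) := (Sm.id.sub_const x).pow n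

theorem tilt_even {G : ℝ → ℝ} (hG : Sm G) (hpos : ∀ y, 0 < G y) {L : ℝ → ℝ}
    (hL : ∀ y, HasDerivAt G (L y * G y) y) (hLa : Antitone L) (hL0 : ∀ y, 0 ≤ L y) {τ : ℝ}
    (hτ : τ ^ 2 ≤ 1) (x : ℝ) : ∀ n : ℕ,
    H τ (fun y => (y - x) ^ (2 * n) * G y) x ≤ ce n * (1 + L x) ^ (2 * n) * H τ G x
  | 0 => by
    simp [ce]
  | n + 1 => by
    have ih := tilt_even hG hpos hL hLa hL0 hτ x n
    have hGd : deriv G = fun y => L y * G y := by
      funext y; exact (hL y).deriv
    have hN0 : 0 < H τ G x := H_pos hG.pg.eg hpos τ x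
    set N := H τ (fun y => (y - x) ^ (2 * n) * G y) x with hN
    set N' := H τ (fun y => (y - x) ^ (2 * (n + 1)) * G y) x with hN'
    set c := 2 * τ ^ 2 * L x with hc
    have hc0 : 0 ≤ c := by have := hL0 x; positivity
    -- Stein
    have hS1 : Sm (fun y => (y - x) ^ (2 * n + 1) * G y) := (sm_sub_pow x _).mul hG
    have hd : ∀ y, HasDerivAt (fun y => (y - x) ^ (2 * n + 1) * G y)
        ((2 * n + 1) * ((y - x) ^ (2 * n) * G y) + (y - x) ^ (2 * n + 1) * (L y * G y)) y := by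
      intro y
      have h1 : HasDerivAt (fun y : ℝ => (y - x) ^ (2 * n + 1))
          ((2 * n + 1) * (y - x) ^ (2 * n)) y := by
        have := ((hasDerivAt_id' y).sub_const x).fun_pow (2 * n + 1)
        simpa using this
      refine (h1.fun_mul (hL y)).congr_deriv ?_
      ring
    have hI1 : Sm (fun y => (y - x) ^ (2 * n) * G y) := (sm_sub_pow x _).mul hG
    have hI2 : Sm (fun y => (y - x) ^ (2 * n + 1) * (L y * G y)) := by
      have h0 := (sm_sub_pow x (2 * n + 1)).mul hG.deriv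
      rwa [hGd] at h0
    have hS2 : Sm (fun y => (2 * n + 1) * ((y - x) ^ (2 * n) * G y) +
        (y - x) ^ (2 * n + 1) * (L y * G y)) := (hI1.const_mul (2 * n + 1)).add hI2
    have hst := stein hS1.pg.eg hS2.pg.eg hd τ x
    have e1 : N' = τ * ∫ g, g * ((x + τ * g - x) ^ (2 * n + 1) * G (x + τ * g))
        ∂gaussianReal 0 1 := by
      rw [hN']
      unfold H
      rw [← integral_const_mul]
      refine integral_congr_ae (Eventually.of_forall fun g => ?_)
      simp only []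
      ring
    rw [hst] at e1
    have e2 : H τ (fun y => (2 * n + 1) * ((y - x) ^ (2 * n) * G y) +
        (y - x) ^ (2 * n + 1) * (L y * G y)) x =
        (2 * n + 1) * N + H τ (fun y => (y - x) ^ (2 * n + 1) * (L y * G y)) x := by
      rw [H_add (hI1.const_mul (2 * n + 1)).pg.eg hI2.pg.eg, H_const_mul]
    rw [e2] at e1
    have hI3 : Sm (fun y => (y - x) ^ (2 * (n + 1)) * G y) := (sm_sub_pow x _).mul hG
    -- pointwise bound
    have hpt : ∀ y, τ ^ 2 * ((y - x) ^ (2 * n + 1) * (L y * G y)) ≤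
        1 / 2 * ((y - x) ^ (2 * (n + 1)) * G y) + 1 / 2 * c ^ (2 * n + 2) * G y := by
      intro y
      set h := y - x with hh
      have hτ0 : 0 ≤ τ ^ 2 := sq_nonneg τ
      have key : τ ^ 2 * (h ^ (2 * n + 1) * L y) ≤
          1 / 2 * h ^ (2 * (n + 1)) + 1 / 2 * c ^ (2 * n + 2) := by
        have hev : 0 ≤ h ^ (2 * (n + 1)) := by rw [pow_mul]; positivity
        have hcp : 0 ≤ c ^ (2 * n + 2) := by positivity
        rcases le_or_gt h 0 with h0 | h0
        · have h1 : h ^ (2 * n + 1) ≤ 0 := by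
            rw [pow_succ, pow_mul]
            exact mul_nonpos_of_nonneg_of_nonpos (by positivity) h0
          have h2 : h ^ (2 * n + 1) * L y ≤ 0 := mul_nonpos_of_nonpos_of_nonneg h1 (hL0 y)
          have h3 : τ ^ 2 * (h ^ (2 * n + 1) * L y) ≤ 0 :=
            mul_nonpos_of_nonneg_of_nonpos hτ0 h2
          linarith
        · have h1 : L y ≤ L x := hLa (by linarith [hh] : x ≤ y)
          have h2 : 0 ≤ h ^ (2 * n + 1) := by positivity
          have h3 : τ ^ 2 * (h ^ (2 * n + 1) * L y) ≤ c / 2 * h ^ (2 * n + 1) := by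
            have h4 : h ^ (2 * n + 1) * L y ≤ h ^ (2 * n + 1) * L x :=
              mul_le_mul_of_nonneg_left h1 h2
            have h5 := mul_le_mul_of_nonneg_left h4 hτ0
            rw [hc]
            linarith
          rcases le_or_gt h c with h4 | h4
          · have h5 : h ^ (2 * n + 1) ≤ c ^ (2 * n + 1) := pow_le_pow_left₀ h0.le h4 _
            have h6 : c / 2 * h ^ (2 * n + 1) ≤ c / 2 * c ^ (2 * n + 1) :=
              mul_le_mul_of_nonneg_left h5 (by positivity)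
            have h7 : c / 2 * c ^ (2 * n + 1) = 1 / 2 * c ^ (2 * n + 2) := by ring
            linarith
          · have h6 : c / 2 * h ^ (2 * n + 1) ≤ h / 2 * h ^ (2 * n + 1) :=
              mul_le_mul_of_nonneg_right (by linarith) h2
            have h7 : h / 2 * h ^ (2 * n + 1) = 1 / 2 * h ^ (2 * (n + 1)) := by ring
            linarith
      have := mul_le_mul_of_nonneg_right key (hpos y).le
      linarith
    have hH : H τ (fun y => τ ^ 2 * ((y - x) ^ (2 * n + 1) * (L y * G y))) x ≤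
        H τ (fun y => 1 / 2 * ((y - x) ^ (2 * (n + 1)) * G y) + 1 / 2 * c ^ (2 * n + 2) * G y) x :=
      H_mono (hI2.const_mul _).pg.eg ((hI3.const_mul _).add (hG.const_mul _)).pg.eg hpt τ x
    rw [H_const_mul, H_add (hI3.const_mul _).pg.eg (hG.const_mul _).pg.eg, H_const_mul,
      H_const_mul] at hH
    have hcL : c ^ (2 * n + 2) ≤ 2 ^ (2 * n + 2) * (1 + L x) ^ (2 * (n + 1)) := by
      have h1 : c ≤ 2 * (1 + L x) := by
        have := hL0 x
        rw [hc]
        nlinarith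
      calc c ^ (2 * n + 2) ≤ (2 * (1 + L x)) ^ (2 * n + 2) := pow_le_pow_left₀ hc0 h1 _
        _ = _ := by rw [mul_pow]; ring_nf
    have hN0' : 0 ≤ N := by
      rw [hN]
      have : H τ (fun _ => (0:ℝ)) x ≤ H τ (fun y => (y - x) ^ (2 * n) * G y) x := by
        refine H_mono (EG.const 0) hI1.pg.eg (fun y => ?_) τ x
        have := hpos y
        rw [pow_mul]
        positivity
      rwa [H_const] at this
    have hmono : (1 + L x) ^ (2 * n) ≤ (1 + L x) ^ (2 * (n + 1)) :=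
      pow_le_pow_right₀ (by have := hL0 x; linarith) (by omega)
    have hce := ce_nonneg n
    -- N' ≤ 2(2n+1) τ² N + c^{2n+2} H G
    have step : N' ≤ 2 * (2 * n + 1) * N + c ^ (2 * n + 2) * H τ G x := by
      have h1 : N' = τ ^ 2 * ((2 * n + 1) * N) +
          τ ^ 2 * H τ (fun y => (y - x) ^ (2 * n + 1) * (L y * G y)) x := by
        rw [e1]; ring
      have h2 : τ ^ 2 * ((2 * n + 1) * N) ≤ 1 * ((2 * n + 1) * N) :=
        mul_le_mul_of_nonneg_right hτ (by positivity)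
      rw [← hN'] at hH
      linarith
    have s1 : 2 * (2 * n + 1) * N ≤
        2 * (2 * n + 1) * (ce n * (1 + L x) ^ (2 * (n + 1)) * H τ G x) := by
      refine mul_le_mul_of_nonneg_left (ih.trans ?_) (by positivity)
      exact mul_le_mul_of_nonneg_right (mul_le_mul_of_nonneg_left hmono hce) hN0.le
    have s2 : c ^ (2 * n + 2) * H τ G x ≤
        2 ^ (2 * n + 2) * (1 + L x) ^ (2 * (n + 1)) * H τ G x :=
      mul_le_mul_of_nonneg_right hcL hN0.le
    calc N' ≤ 2 * (2 * n + 1) * N + c ^ (2 * n + 2) * H τ G x := step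
      _ ≤ 2 * (2 * n + 1) * (ce n * (1 + L x) ^ (2 * (n + 1)) * H τ G x) +
          2 ^ (2 * n + 2) * (1 + L x) ^ (2 * (n + 1)) * H τ G x := add_le_add s1 s2
      _ = ce (n + 1) * (1 + L x) ^ (2 * (n + 1)) * H τ G x := by
          have : ce (n + 1) = 2 * (2 * n + 1) * ce n + 2 ^ (2 * n + 2) := rfl
          rw [this]; ring

/-- polynomial bound for tilted averages -/
theorem tilt_poly {G : ℝ → ℝ} (hG : Sm G) (hpos : ∀ y, 0 < G y) {L : ℝ → ℝ}
    (hL : ∀ y, HasDerivAt G (L y * G y) y) (hLa : Antitone L) (hL0 : ∀ y, 0 ≤ L y) {M : ℝ}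
    (hLM : ∀ y, L y ≤ M * (1 + |y|)) {τ : ℝ}
    (hτ : τ ^ 2 ≤ 1) {φ : ℝ → ℝ} (hφ : Continuous φ) {C : ℝ} {n : ℕ} (hC : 0 ≤ C)
    (hb : ∀ y, |φ y| ≤ C * (1 + |y|) ^ n) (x : ℝ) :
    H τ (fun y => |φ y * G y|) x ≤
      C * (2 ^ n * (1 + ce n * (1 + M) ^ (2 * n))) * (1 + |x|) ^ (3 * n) * H τ G x := by
  have hM : 0 ≤ M := by
    have h1 := hL0 0
    have h2 := hLM 0
    simp at h2
    linarith
  have hpg : PG φ := ⟨hφ, C, n, hC, hb⟩
  have hI : Sm (fun y => (y - x) ^ (2 * n) * G y) := (sm_sub_pow x _).mul hG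
  have hN0 : 0 < H τ G x := H_pos hG.pg.eg hpos τ x
  have h1 : ∀ y, |φ y * G y| ≤
      C * 2 ^ n * (1 + |x|) ^ n * (G y + (y - x) ^ (2 * n) * G y) := by
    intro y
    rw [abs_mul, abs_of_pos (hpos y)]
    have h2 : (1 + |y|) ^ n ≤ (1 + |x|) ^ n * (1 + |y - x|) ^ n := by
      rw [← mul_pow]
      refine pow_le_pow_left₀ (by positivity) ?_ n
      have h3 : |y| ≤ |x| + |y - x| := by
        have := abs_add_le x (y - x)
        rwa [add_sub_cancel] at this
      have h4 : 0 ≤ |x| * |y - x| := by positivity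
      nlinarith
    have h5 : (1 + |y - x|) ^ n ≤ 2 ^ n * (1 + (y - x) ^ (2 * n)) := by
      rcases le_total |y - x| 1 with h6 | h6
      · have h7 : (1 + |y - x|) ^ n ≤ 2 ^ n := pow_le_pow_left₀ (by positivity) (by linarith) n
        have h8 : 0 ≤ (y - x) ^ (2 * n) := by rw [pow_mul]; positivity
        have h9 : (0:ℝ) < 2 ^ n := by positivity
        nlinarith
      · have h7 : (1 + |y - x|) ^ n ≤ (2 * |y - x|) ^ n :=
          pow_le_pow_left₀ (by positivity) (by linarith) n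
        rw [mul_pow] at h7
        have h8 : |y - x| ^ n ≤ |y - x| ^ (2 * n) := pow_le_pow_right₀ h6 (by omega)
        have h9 : |y - x| ^ (2 * n) = (y - x) ^ (2 * n) := by
          rw [pow_mul, pow_mul, sq_abs]
        rw [h9] at h8
        have h10 : (0:ℝ) < 2 ^ n := by positivity
        nlinarith
    have h6 : |φ y| ≤ C * ((1 + |x|) ^ n * (2 ^ n * (1 + (y - x) ^ (2 * n)))) :=
      (hb y).trans (mul_le_mul_of_nonneg_left (h2.trans
        (mul_le_mul_of_nonneg_left h5 (by positivity))) hC)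
    have h7 := mul_le_mul_of_nonneg_right h6 (hpos y).le
    calc |φ y| * G y ≤ C * ((1 + |x|) ^ n * (2 ^ n * (1 + (y - x) ^ (2 * n)))) * G y := h7
      _ = _ := by ring
  have h2 : H τ (fun y => |φ y * G y|) x ≤
      H τ (fun y => C * 2 ^ n * (1 + |x|) ^ n * (G y + (y - x) ^ (2 * n) * G y)) x :=
    H_mono (hpg.mul hG.pg).abs.eg ((hG.add hI).const_mul _).pg.eg h1 τ x
  rw [H_const_mul, H_add hG.pg.eg hI.pg.eg] at h2
  have h3 := tilt_even hG hpos hL hLa hL0 hτ x n
  have h4 : (1 + L x) ^ (2 * n) ≤ (1 + M) ^ (2 * n) * (1 + |x|) ^ (2 * n) := by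
    rw [← mul_pow]
    refine pow_le_pow_left₀ (by have := hL0 x; linarith) ?_ _
    have h5 := hLM x
    have h6 := abs_nonneg x
    nlinarith
  have hce := ce_nonneg n
  have h5 : ce n * (1 + L x) ^ (2 * n) * H τ G x ≤
      ce n * ((1 + M) ^ (2 * n) * (1 + |x|) ^ (2 * n)) * H τ G x :=
    mul_le_mul_of_nonneg_right (mul_le_mul_of_nonneg_left h4 hce) hN0.le
  have h6 : (1:ℝ) ≤ (1 + |x|) ^ (2 * n) := one_le_pow₀ (one_le_base x)
  have h7 : H τ G x ≤ (1 + |x|) ^ (2 * n) * H τ G x := by nlinarith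
  have h8 : H τ G x + H τ (fun y => (y - x) ^ (2 * n) * G y) x ≤
      (1 + ce n * (1 + M) ^ (2 * n)) * (1 + |x|) ^ (2 * n) * H τ G x := by
    calc H τ G x + H τ (fun y => (y - x) ^ (2 * n) * G y) x
        ≤ (1 + |x|) ^ (2 * n) * H τ G x +
          ce n * ((1 + M) ^ (2 * n) * (1 + |x|) ^ (2 * n)) * H τ G x :=
          add_le_add h7 (h3.trans h5)
      _ = _ := by ring
  have h9 : 0 ≤ C * 2 ^ n * (1 + |x|) ^ n := by positivity
  have h10 := mul_le_mul_of_nonneg_left h8 h9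
  refine h2.trans (h10.trans_eq ?_)
  have e : (1 + |x|) ^ (3 * n) = (1 + |x|) ^ n * (1 + |x|) ^ (2 * n) := by
    rw [← pow_add]; congr 1; ring
  rw [e]
  ring

/-- derivative along the diagonal -/
theorem hasDerivAt_diag {K Kr : ℝ → ℝ → ℝ} {Ks c r0 s0 : ℝ}
    (hr : ∀ᶠ q : ℝ × ℝ in 𝓝 (r0, s0), HasDerivAt (fun r => K r q.2) (Kr q.1 q.2) q.1)
    (hs : HasDerivAt (fun s => K r0 s) Ks s0)
    (hc : ContinuousAt (fun q : ℝ × ℝ => Kr q.1 q.2) (r0, s0)) (hrs : r0 = s0 - c) :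
    HasDerivAt (fun s => K (s - c) s) (Kr r0 s0 + Ks) s0 := by
  have h1 : HasDerivAt (fun s => K (s - c) s - K r0 s) (Kr r0 s0) s0 := by
    rw [hasDerivAt_iff_isLittleO, Asymptotics.isLittleO_iff]
    intro ε hε
    have h2 : ∀ᶠ q : ℝ × ℝ in 𝓝 (r0, s0),
        HasDerivAt (fun r => K r q.2) (Kr q.1 q.2) q.1 ∧ |Kr q.1 q.2 - Kr r0 s0| ≤ ε := by
      refine hr.and ?_
      have := (Metric.continuousAt_iff.1 hc) ε hε
      obtain ⟨δ, hδ, h3⟩ := this
      filter_upwards [Metric.ball_mem_nhds _ hδ] with q hq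
      have := h3 hq
      rw [Real.dist_eq] at this
      exact this.le
    obtain ⟨δ, hδ, h3⟩ := Metric.eventually_nhds_iff.1 h2
    filter_upwards [Metric.ball_mem_nhds s0 hδ] with s hs
    rw [Metric.mem_ball, Real.dist_eq] at hs
    have e0 : s0 - c = r0 := hrs.symm
    rw [e0, sub_self, sub_zero, Real.norm_eq_abs, Real.norm_eq_abs, smul_eq_mul]
    -- mean value on the segment between r0 and s - c
    have hconv : Convex ℝ (uIcc r0 (s - c)) := convex_uIcc _ _
    have key := hconv.norm_image_sub_le_of_norm_hasDerivWithin_le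
      (f := fun r => K r s - r * Kr r0 s0) (f' := fun r => Kr r s - Kr r0 s0) (C := ε)
      (x := r0) (y := s - c) ?_ ?_ left_mem_uIcc right_mem_uIcc
    · rw [Real.norm_eq_abs, Real.norm_eq_abs] at key
      have e1 : K (s - c) s - (s - c) * Kr r0 s0 - (K r0 s - r0 * Kr r0 s0) =
          K (s - c) s - K r0 s - (s - s0) * Kr r0 s0 := by rw [hrs]; ring
      have e2 : s - c - r0 = s - s0 := by rw [hrs]; ring
      rw [e1, e2] at key
      exact key
    · intro r hr'
      have hd : dist (r, s) (r0, s0) < δ := by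
        rw [Prod.dist_eq]
        refine max_lt ?_ (by rw [Real.dist_eq]; exact hs)
        rw [Real.dist_eq]
        have := abs_sub_left_of_mem_uIcc hr'
        have e2 : s - c - r0 = s - s0 := by rw [hrs]; ring
        rw [e2] at this
        exact lt_of_le_of_lt this hs
      have h4 := (h3 hd).1
      have h5 : HasDerivAt (fun r => r * Kr r0 s0) (Kr r0 s0) r := by
        have := (hasDerivAt_id r).mul_const (Kr r0 s0)
        simpa using this
      exact (h4.sub h5).hasDerivWithinAt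
    · intro r hr'
      have hd : dist (r, s) (r0, s0) < δ := by
        rw [Prod.dist_eq]
        refine max_lt ?_ (by rw [Real.dist_eq]; exact hs)
        rw [Real.dist_eq]
        have := abs_sub_left_of_mem_uIcc hr'
        have e2 : s - c - r0 = s - s0 := by rw [hrs]; ring
        rw [e2] at this
        exact lt_of_le_of_lt this hs
      rw [Real.norm_eq_abs]
      exact (h3 hd).2
  have h2 := h1.add hs
  refine h2.congr_of_eventuallyEq (Eventually.of_forall fun s => ?_)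
  simp only [Pi.add_apply]
  ring

end

end Crest.Agent.R146.TiltA_534
private theorem rz_2f2eeb23cb : type_of% @_root_.Crest.Agent.R146.TiltA_534.ce.eq_def := @_root_.Crest.Agent.R146.TiltA_534.ce.eq_def -- L95
private theorem rz_23141e7c18 : type_of% @_root_.Crest.Agent.R146.TiltA_534.ce.eq_1 := @_root_.Crest.Agent.R146.TiltA_534.ce.eq_1 -- L95
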