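import Crest.Agent.R146.Cell_534
import Crest.Agent.R146.TiltA_534

-- ▼ part R146/TiltB_534
section

/-!
Row 146 (PT-STEP, helper534): tilted averages on a cell of a step datum:
`tv A z a s φ x = H_{√(s-a)} (φ e^{zψ(s,·)}) (x) / e^{zψ(a,x)}`; bounds, continuity, time derivative.
-/

set_option autoImplicit false

namespace Crest.Agent.R146.TiltB_534

open MeasureTheory ProbabilityTheory Filter Topology Set
open Crest.ProbabilityR.InvariantGlass
open Crest.Agent.R146.Hg_534 Crest.Agent.R146.PB_534 Crest.Agent.R146.GG_534 Crest.Agent.R146.SG_534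
open Crest.Agent.R146.StepDef_791 Crest.Agent.R146.Cell_534 Crest.Agent.R146.TiltA_534

noncomputable section

/-- heat extension of the terminal exponential and its derivatives -/
def hk (k : ℝ → ℝ) (b s y : ℝ) : ℝ := H (Real.sqrt (b - s)) k y

theorem hk_cont {k : ℝ → ℝ} (hk' : PG k) (b : ℝ) :
    Continuous (fun q : ℝ × ℝ => hk k b q.1 q.2) := by
  unfold hk
  exact (H_continuous hk'.eg).comp (by fun_prop :
    Continuous fun q : ℝ × ℝ => ((Real.sqrt (b - q.1), q.2) : ℝ × ℝ))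

theorem hk_x {k : ℝ → ℝ} (h : Sm k) (b s y : ℝ) :
    HasDerivAt (hk k b s) (hk (deriv k) b s y) y :=
  Hg_534.H_deriv_x h.pg.eg h.deriv.pg.eg h.hd _ y

theorem hk_t {k : ℝ → ℝ} (h : Sm k) {b s : ℝ} (hs : s < b) (y : ℝ) :
    HasDerivAt (fun s => hk k b s y) (-(1 / 2) * hk (deriv (deriv k)) b s y) s := by
  have h1 := Hg_534.H_deriv_v h.pg.eg h.deriv.pg.eg h.deriv.deriv.pg.eg h.hd h.deriv.hd
    (v := b - s) (by linarith) y
  have h2 : HasDerivAt (fun s : ℝ => b - s) (-1) s := by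
    simpa using (hasDerivAt_id s).const_sub b
  have h3 := h1.comp s h2
  refine h3.congr_deriv ?_
  unfold hk
  ring

theorem hk_bd {k : ℝ → ℝ} (h : PG k) : ∃ (C : ℝ) (n : ℕ), 0 ≤ C ∧
    ∀ b s, b - s ≤ 1 → ∀ y, |hk k b s y| ≤ C * (1 + |y|) ^ n := by
  obtain ⟨C, n, hC, hb⟩ := h.bd
  refine ⟨C * mc n 1, n, mul_nonneg hC (mc_nonneg _ _), fun b s hbs y => ?_⟩
  refine H_poly hC hb ?_ y
  rw [abs_of_nonneg (Real.sqrt_nonneg _), abs_one, ← Real.sqrt_one]
  exact Real.sqrt_le_sqrt hbs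

/-- tilted average over the time interval `[a,s]` of a cell of weight `z` -/
def tv (A : SD) (z a s : ℝ) (φ : ℝ → ℝ) (x : ℝ) : ℝ :=
  H (Real.sqrt (s - a)) (fun y => φ y * Gz A z s y) x / Gz A z a x

section cell

variable {A : SD} {a b z : ℝ}

theorem IsCell.len (hc : IsCell A a b z) {s t : ℝ} (hs : s ∈ Icc a b) (ht : t ∈ Icc a b) :
    t - s ≤ 1 := by
  have h1 := hc.a0
  have h2 := hc.bT
  have h3 := A.hT1
  linarith [hs.1, ht.2]

theorem Gz_hk (hB : Back A) (hc : IsCell A a b z) {s : ℝ} (hs : s ∈ Icc a b) :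
    Gz A z s = hk (Gz A z b) b s := Gz_cell hB hc hs

theorem hk1 (hB : Back A) (hc : IsCell A a b z) {s : ℝ} (hs : s ∈ Icc a b) (y : ℝ) :
    hk (deriv (Gz A z b)) b s y = z / A.D s * A.u s y * Gz A z s y := by
  have h1 := hk_x (Gz_sm hB hc.z0.le (hc.mem hc.bI)) b s y
  rw [← Gz_hk hB hc hs] at h1
  exact h1.unique (Gz_x hB z (hc.mem hs) y)

/-- `D ≥ d` gives an upper bound of the tilt -/
theorem exists_M (hB : Back A) : ∃ M, 0 ≤ M ∧ ∀ t ∈ Icc 0 A.T, ∀ x, A.u t x ≤ M * (1 + |x|) := by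
  obtain ⟨M, h⟩ := hB.bsys
  refine ⟨M, ?_, fun t ht x => h.u_le t ht x⟩
  have h1 := h.u_le 0 ⟨le_rfl, A.hT0.le⟩ 0
  have h2 := h.u_nonneg 0 ⟨le_rfl, A.hT0.le⟩ 0
  simp at h1
  linarith

theorem u_anti (hB : Back A) {t : ℝ} (ht : t ∈ Icc 0 A.T) : Antitone (A.u t) := by
  obtain ⟨M, h⟩ := hB.bsys
  refine antitone_of_deriv_nonpos (fun x => (hB.u_x t ht x).differentiableAt) fun x => ?_
  rw [(hB.u_x t ht x).deriv]
  linarith [h.V_lt t ht x]

theorem ratio_le (hc : IsCell A a b z) (s : ℝ) : z / A.D s ≤ z / A.d :=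
  div_le_div_of_nonneg_left hc.z0.le A.hd (A.d_le_D s)

/-- **polynomial bound**, uniform on the cell -/
theorem tv_abs (hB : Back A) (hc : IsCell A a b z) (n : ℕ) : ∃ K, 0 ≤ K ∧ ∀ (C : ℝ), 0 ≤ C →
    ∀ φ : ℝ → ℝ, Continuous φ → (∀ y, |φ y| ≤ C * (1 + |y|) ^ n) → ∀ s ∈ Icc a b, ∀ x,
      H (Real.sqrt (s - a)) (fun y => |φ y * Gz A z s y|) x ≤
        C * K * (1 + |x|) ^ (3 * n) * Gz A z a x := by
  obtain ⟨M, hM, hu⟩ := exists_M hB
  set M' := z / A.d * M with hM'
  have hM0 : 0 ≤ M' := mul_nonneg (div_nonneg hc.z0.le A.hd.le) hM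
  refine ⟨2 ^ n * (1 + ce n * (1 + M') ^ (2 * n)), ?_, fun C hC φ hφ hb s hs x => ?_⟩
  · have := ce_nonneg n
    positivity
  have hm := hc.mem hs
  have hr0 : 0 ≤ z / A.D s := div_nonneg hc.z0.le (A.D_pos s).le
  obtain ⟨M2, h⟩ := hB.bsys
  have h1 := tilt_poly (Gz_sm hB hc.z0.le hm) (fun y => Gz_pos A z s y)
    (L := fun y => z / A.D s * A.u s y) (fun y => Gz_x hB z hm y)
    (fun y y' hy => mul_le_mul_of_nonneg_left (u_anti hB hm hy) hr0)
    (fun y => mul_nonneg hr0 (h.u_nonneg s hm y)) (M := M')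
    (fun y => by
      have h2 := mul_le_mul (ratio_le hc s) (hu s hm y) (h.u_nonneg s hm y)
        (div_nonneg hc.z0.le A.hd.le)
      rw [hM', mul_assoc]
      exact h2)
    (τ := Real.sqrt (s - a)) (by
      rw [Real.sq_sqrt (by linarith [hs.1])]
      exact IsCell.len hc hc.aI hs) hφ hC hb x
  rw [Gz_semi hB hc hc.aI hs hs.1] at h1
  exact h1

theorem tv_bd (hB : Back A) (hc : IsCell A a b z) (n : ℕ) : ∃ K, 0 ≤ K ∧ ∀ (C : ℝ), 0 ≤ C →
    ∀ φ : ℝ → ℝ, Continuous φ → (∀ y, |φ y| ≤ C * (1 + |y|) ^ n) → ∀ s ∈ Icc a b, ∀ x,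
      |tv A z a s φ x| ≤ C * K * (1 + |x|) ^ (3 * n) := by
  obtain ⟨K, hK, h⟩ := tv_abs hB hc n
  refine ⟨K, hK, fun C hC φ hφ hb s hs x => ?_⟩
  have h1 := h C hC φ hφ hb s hs x
  unfold tv
  rw [abs_div, abs_of_pos (Gz_pos A z a x), div_le_iff₀ (Gz_pos A z a x)]
  refine le_trans ?_ h1
  unfold H
  exact abs_integral_le_integral_abs

/-- joint continuity in time and position -/
theorem tv_cont (hB : Back A) (hc : IsCell A a b z) {S : Set ℝ} (hS : S ⊆ Icc a b)
    {Φ : ℝ → ℝ → ℝ} {C : ℝ} {n : ℕ} {s0 : ℝ} (hs0 : s0 ∈ Icc a b) (hC : 0 ≤ C)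
    (hcΦ : ∀ s ∈ S, Continuous (Φ s))
    (hj : ∀ y, ContinuousWithinAt (fun q : ℝ × ℝ => Φ q.1 q.2) (S ×ˢ univ) (s0, y))
    (hb : ∀ s ∈ S, ∀ y, |Φ s y| ≤ C * (1 + |y|) ^ n) (x : ℝ) :
    ContinuousWithinAt (fun s => tv A z a s (Φ s) x) S s0 := by
  unfold tv
  refine ContinuousWithinAt.div_const ?_ _
  have hG : Continuous (fun q : ℝ × ℝ => hk (Gz A z b) b q.1 q.2) :=
    hk_cont (Gz_sm hB hc.z0.le (hc.mem hc.bI)).pg b
  have h1 := H_cont_param (S := S) (Φ := fun s y => Φ s y * hk (Gz A z b) b s y) (C := C) (n := n)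
    (s0 := s0) (x0 := x) (τ0 := Real.sqrt (s0 - a)) hC
    (fun s hs => (hcΦ s hs).mul (hG.comp (by fun_prop : Continuous fun y : ℝ => ((s, y) : ℝ × ℝ))))
    (fun y => (hj y).mul hG.continuousWithinAt) ?_
  · have hm : ContinuousWithinAt (fun s : ℝ => ((Real.sqrt (s - a), s, x) : ℝ × ℝ × ℝ)) S s0 := by
      fun_prop
    have hmt : MapsTo (fun s : ℝ => ((Real.sqrt (s - a), s, x) : ℝ × ℝ × ℝ)) S
        (univ ×ˢ S ×ˢ univ) := fun s hs => ⟨mem_univ _, hs, mem_univ _⟩
    have h2 := ContinuousWithinAt.comp (x := s0)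
      (f := fun s : ℝ => ((Real.sqrt (s - a), s, x) : ℝ × ℝ × ℝ))
      (g := fun q : ℝ × ℝ × ℝ => H q.1 (fun y => Φ q.2.1 y * hk (Gz A z b) b q.2.1 y) q.2.2)
      h1 hm hmt
    refine h2.congr (fun s hs => ?_) ?_
    · simp only [Function.comp]
      rw [Gz_hk hB hc (hS hs)]
    · simp only [Function.comp]
      rw [Gz_hk hB hc hs0]
  · intro s hs y
    rw [abs_mul, ← Gz_hk hB hc (hS hs), abs_of_pos (Gz_pos A z s y)]
    have h3 := Gz_le_one hB hc.z0.le (hc.mem (hS hs)) y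
    have h4 := hb s hs y
    have h5 := abs_nonneg (Φ s y)
    calc |Φ s y| * Gz A z s y ≤ |Φ s y| * 1 := mul_le_mul_of_nonneg_left h3 h5
      _ ≤ _ := by rw [mul_one]; exact h4

/-- **time derivative of the tilted average of a fixed function** -/
theorem tv_deriv (hB : Back A) (hc : IsCell A a b z) {φ φ1 φ2 : ℝ → ℝ} (hφ : PG φ) (hφ1 : PG φ1)
    (hφ2 : PG φ2) (hd : ∀ y, HasDerivAt φ (φ1 y) y) (hd1 : ∀ y, HasDerivAt φ1 (φ2 y) y)
    {s0 : ℝ} (hs0 : s0 ∈ Ioo a b) (x : ℝ) :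
    HasDerivAt (fun s => tv A z a s φ x)
      (tv A z a s0 (fun y => φ2 y / 2 + z / A.D s0 * A.u s0 y * φ1 y) x) s0 := by
  have hsm := Gz_sm hB hc.z0.le (hc.mem hc.bI)
  set k := Gz A z b with hk0
  have hI0 : s0 ∈ Icc a b := ⟨hs0.1.le, hs0.2.le⟩
  have hr0 : 0 < s0 - a := by linarith [hs0.1]
  -- bounds
  obtain ⟨C0, n0, hC0, hb0⟩ := hk_bd hsm.pg
  obtain ⟨C2, n2, hC2, hb2⟩ := hk_bd hsm.deriv.deriv.pg
  -- the two partial derivatives
  have hpr : ∀ r s : ℝ, 0 < r → HasDerivAt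
      (fun r => H (Real.sqrt r) (fun y => φ y * hk k b s y) x)
      (1 / 2 * H (Real.sqrt r) (fun y => φ2 y * hk k b s y + 2 * (φ1 y * hk (deriv k) b s y) +
        φ y * hk (deriv (deriv k)) b s y) x) r := by
    intro r s hr
    have s0' : Sm (hk k b s) := Sm.H hsm _
    have s1' : Sm (hk (deriv k) b s) := Sm.H hsm.deriv _
    have s2' : Sm (hk (deriv (deriv k)) b s) := Sm.H hsm.deriv.deriv _
    refine Hg_534.H_deriv_v (φ := fun y => φ y * hk k b s y)
      (φ1 := fun y => φ1 y * hk k b s y + φ y * hk (deriv k) b s y)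
      (φ2 := fun y => φ2 y * hk k b s y + 2 * (φ1 y * hk (deriv k) b s y) +
        φ y * hk (deriv (deriv k)) b s y)
      (hφ.mul s0'.pg).eg ((hφ1.mul s0'.pg).add (hφ.mul s1'.pg)).eg
      (((hφ2.mul s0'.pg).add ((hφ1.mul s1'.pg).const_mul 2)).add (hφ.mul s2'.pg)).eg ?_ ?_ hr x
    · intro y
      exact ((hd y).fun_mul (hk_x hsm b s y))
    · intro y
      refine (((hd1 y).fun_mul (hk_x hsm b s y)).fun_add
        ((hd y).fun_mul (hk_x hsm.deriv b s y))).congr_deriv ?_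
      ring
  have hps : HasDerivAt (fun s => H (Real.sqrt (s0 - a)) (fun y => φ y * hk k b s y) x)
      (H (Real.sqrt (s0 - a)) (fun y => φ y * (-(1 / 2) * hk (deriv (deriv k)) b s0 y)) x) s0 := by
    obtain ⟨C, n, hC, hbφ⟩ := hφ.bd
    have hτ : |Real.sqrt (s0 - a)| ≤ |(1:ℝ)| := by
      rw [abs_of_nonneg (Real.sqrt_nonneg _), abs_one, ← Real.sqrt_one]
      exact Real.sqrt_le_sqrt (IsCell.len hc hc.aI hI0)
    refine (hasDerivAt_integral_of_dominated_loc_of_deriv_le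
      (F := fun s g => φ (x + Real.sqrt (s0 - a) * g) * hk k b s (x + Real.sqrt (s0 - a) * g))
      (F' := fun s g => φ (x + Real.sqrt (s0 - a) * g) *
        (-(1 / 2) * hk (deriv (deriv k)) b s (x + Real.sqrt (s0 - a) * g)))
      (bound := fun g => C * C2 * ((1 + |x|) ^ (n + n2) * (1 + |(1:ℝ)| * |g|) ^ (n + n2)))
      (Ioo_mem_nhds hs0.1 hs0.2) ?_ ?_ ?_ ?_ ?_ ?_).2
    · refine Eventually.of_forall fun s => ?_
      have h1 := hφ.cont
      have h2 : Continuous (hk k b s) := (Sm.H hsm _).cont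
      exact (by fun_prop : Continuous fun g : ℝ => φ (x + Real.sqrt (s0 - a) * g) *
        hk k b s (x + Real.sqrt (s0 - a) * g)).aestronglyMeasurable
    · exact (hφ.mul (Sm.H hsm (Real.sqrt (b - s0))).pg).eg.int _ x
    · have h1 := hφ.cont
      have h2 : Continuous (hk (deriv (deriv k)) b s0) := (Sm.H hsm.deriv.deriv _).cont
      exact (by fun_prop : Continuous fun g : ℝ => φ (x + Real.sqrt (s0 - a) * g) *
        (-(1 / 2) * hk (deriv (deriv k)) b s0 (x + Real.sqrt (s0 - a) * g))).aestronglyMeasurable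
    · refine Eventually.of_forall fun g s hs => ?_
      rw [Real.norm_eq_abs, abs_mul, abs_mul]
      set y := x + Real.sqrt (s0 - a) * g with hy
      have h1 := hbφ y
      have h2 := hb2 b s (IsCell.len hc ⟨hs.1.le, hs.2.le⟩ hc.bI) y
      have h3 : |(-(1 / 2) : ℝ)| = 1 / 2 := by norm_num
      rw [h3]
      have h4 := shift_poly (le_refl |x|) hτ g (n + n2)
      have h5 : 1 / 2 * |hk (deriv (deriv k)) b s y| ≤ C2 * (1 + |y|) ^ n2 := by
        have := abs_nonneg (hk (deriv (deriv k)) b s y)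
        linarith
      calc |φ y| * (1 / 2 * |hk (deriv (deriv k)) b s y|)
          ≤ (C * (1 + |y|) ^ n) * (C2 * (1 + |y|) ^ n2) :=
            mul_le_mul h1 h5 (by positivity) (by positivity)
        _ = C * C2 * (1 + |y|) ^ (n + n2) := by rw [pow_add]; ring
        _ ≤ _ := mul_le_mul_of_nonneg_left h4 (by positivity)
    · exact ((int_poly 1 (n + n2)).const_mul _).const_mul _
    · refine Eventually.of_forall fun g s hs => ?_
      exact (hk_t hsm hs.2 _).const_mul _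
  -- continuity of the first partial derivative
  have hct : ContinuousAt (fun q : ℝ × ℝ => 1 / 2 * H (Real.sqrt q.1)
      (fun y => φ2 y * hk k b q.2 y + 2 * (φ1 y * hk (deriv k) b q.2 y) +
        φ y * hk (deriv (deriv k)) b q.2 y) x) (s0 - a, s0) := by
    have g0 := hk_cont hsm.pg b
    have g1 := hk_cont hsm.deriv.pg b
    have g2 := hk_cont hsm.deriv.deriv.pg b
    obtain ⟨C1, n1, hC1, hb1⟩ := hk_bd hsm.deriv.pg
    obtain ⟨D0, m0, hD0, hbD0⟩ := hφ.bd
    obtain ⟨D1, m1, hD1, hbD1⟩ := hφ1.bd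
    obtain ⟨D2, m2, hD2, hbD2⟩ := hφ2.bd
    have c0 := hφ.cont
    have c1 := hφ1.cont
    have c2 := hφ2.cont
    have h1 := H_cont_param (S := Ioo a b)
      (Φ := fun s y => φ2 y * hk k b s y + 2 * (φ1 y * hk (deriv k) b s y) +
        φ y * hk (deriv (deriv k)) b s y)
      (C := D2 * C0 + 2 * (D1 * C1) + D0 * C2) (n := m2 + n0 + (m1 + n1) + (m0 + n2))
      (s0 := s0) (x0 := x) (τ0 := Real.sqrt (s0 - a)) (by positivity)
      (fun s hs => by
        have e0 : Continuous (hk k b s) := (Sm.H hsm _).cont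
        have e1 : Continuous (hk (deriv k) b s) := (Sm.H hsm.deriv _).cont
        have e2 : Continuous (hk (deriv (deriv k)) b s) := (Sm.H hsm.deriv.deriv _).cont
        fun_prop)
      (fun y => by
        refine Continuous.continuousWithinAt ?_
        exact (((c2.comp continuous_snd).mul g0).add
          (continuous_const.mul ((c1.comp continuous_snd).mul g1))).add
          ((c0.comp continuous_snd).mul g2))
      (fun s hs y => by
        have hsl := IsCell.len hc (s := s) ⟨hs.1.le, hs.2.le⟩ hc.bI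
        have e0 := hb0 b s hsl y
        have e1 := hb1 b s hsl y
        have e2 := hb2 b s hsl y
        have p0 : |φ2 y * hk k b s y| ≤
            D2 * C0 * (1 + |y|) ^ (m2 + n0 + (m1 + n1) + (m0 + n2)) := by
          rw [abs_mul]
          calc |φ2 y| * |hk k b s y| ≤ (D2 * (1 + |y|) ^ m2) * (C0 * (1 + |y|) ^ n0) :=
                mul_le_mul (hbD2 y) e0 (abs_nonneg _) (by positivity)
            _ = D2 * C0 * (1 + |y|) ^ (m2 + n0) := by rw [pow_add]; ring
            _ ≤ _ := mul_le_mul_of_nonneg_left (pow_le_pow_base (by omega)) (by positivity)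
        have p1 : |φ1 y * hk (deriv k) b s y| ≤
            D1 * C1 * (1 + |y|) ^ (m2 + n0 + (m1 + n1) + (m0 + n2)) := by
          rw [abs_mul]
          calc |φ1 y| * |hk (deriv k) b s y| ≤ (D1 * (1 + |y|) ^ m1) * (C1 * (1 + |y|) ^ n1) :=
                mul_le_mul (hbD1 y) e1 (abs_nonneg _) (by positivity)
            _ = D1 * C1 * (1 + |y|) ^ (m1 + n1) := by rw [pow_add]; ring
            _ ≤ _ := mul_le_mul_of_nonneg_left (pow_le_pow_base (by omega)) (by positivity)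
        have p2 : |φ y * hk (deriv (deriv k)) b s y| ≤
            D0 * C2 * (1 + |y|) ^ (m2 + n0 + (m1 + n1) + (m0 + n2)) := by
          rw [abs_mul]
          calc |φ y| * |hk (deriv (deriv k)) b s y| ≤
                (D0 * (1 + |y|) ^ m0) * (C2 * (1 + |y|) ^ n2) :=
                mul_le_mul (hbD0 y) e2 (abs_nonneg _) (by positivity)
            _ = D0 * C2 * (1 + |y|) ^ (m0 + n2) := by rw [pow_add]; ring
            _ ≤ _ := mul_le_mul_of_nonneg_left (pow_le_pow_base (by omega)) (by positivity)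
        have p3 : |2 * (φ1 y * hk (deriv k) b s y)| = 2 * |φ1 y * hk (deriv k) b s y| := by
          rw [abs_mul, abs_of_pos (by norm_num : (0:ℝ) < 2)]
        calc |φ2 y * hk k b s y + 2 * (φ1 y * hk (deriv k) b s y) +
              φ y * hk (deriv (deriv k)) b s y|
            ≤ |φ2 y * hk k b s y| + |2 * (φ1 y * hk (deriv k) b s y)| +
              |φ y * hk (deriv (deriv k)) b s y| :=
              (abs_add_le _ _).trans (add_le_add (abs_add_le _ _) le_rfl)
          _ ≤ D2 * C0 * (1 + |y|) ^ (m2 + n0 + (m1 + n1) + (m0 + n2)) +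
              2 * (D1 * C1 * (1 + |y|) ^ (m2 + n0 + (m1 + n1) + (m0 + n2))) +
              D0 * C2 * (1 + |y|) ^ (m2 + n0 + (m1 + n1) + (m0 + n2)) := by
              rw [p3]
              exact add_le_add (add_le_add p0 (mul_le_mul_of_nonneg_left p1 (by norm_num))) p2
          _ = _ := by ring)
    have h2 : ContinuousAt (fun q : ℝ × ℝ × ℝ => H q.1 (fun y => φ2 y * hk k b q.2.1 y +
        2 * (φ1 y * hk (deriv k) b q.2.1 y) + φ y * hk (deriv (deriv k)) b q.2.1 y) q.2.2)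
        (Real.sqrt (s0 - a), s0, x) :=
      h1.continuousAt (prod_mem_nhds univ_mem (prod_mem_nhds (Ioo_mem_nhds hs0.1 hs0.2) univ_mem))
    have hm : ContinuousAt (fun q : ℝ × ℝ => ((Real.sqrt q.1, q.2, x) : ℝ × ℝ × ℝ))
        (s0 - a, s0) := by fun_prop
    exact (ContinuousAt.comp (x := ((s0 - a, s0) : ℝ × ℝ))
      (f := fun q : ℝ × ℝ => ((Real.sqrt q.1, q.2, x) : ℝ × ℝ × ℝ))
      (g := fun q : ℝ × ℝ × ℝ => H q.1 (fun y => φ2 y * hk k b q.2.1 y +
        2 * (φ1 y * hk (deriv k) b q.2.1 y) + φ y * hk (deriv (deriv k)) b q.2.1 y) q.2.2)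
      h2 hm).const_mul (1 / 2)
  have hdiag := hasDerivAt_diag
    (K := fun r s => H (Real.sqrt r) (fun y => φ y * hk k b s y) x)
    (Kr := fun r s => 1 / 2 * H (Real.sqrt r) (fun y => φ2 y * hk k b s y +
      2 * (φ1 y * hk (deriv k) b s y) + φ y * hk (deriv (deriv k)) b s y) x)
    (c := a) (r0 := s0 - a) (s0 := s0) ?_ hps hct rfl
  · have hq := hdiag.div_const (Gz A z a x)
    -- identify the function near s0
    have hev : (fun s => tv A z a s φ x) =ᶠ[𝓝 s0]
        fun s => H (Real.sqrt (s - a)) (fun y => φ y * hk k b s y) x / Gz A z a x := by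
      filter_upwards [Ioo_mem_nhds hs0.1 hs0.2] with s hs
      unfold tv
      rw [Gz_hk hB hc ⟨hs.1.le, hs.2.le⟩]
    refine (hq.congr_of_eventuallyEq hev).congr_deriv ?_
    -- identify the derivative
    unfold tv
    congr 1
    have s0' : Sm (hk k b s0) := Sm.H hsm _
    have s1' : Sm (hk (deriv k) b s0) := Sm.H hsm.deriv _
    have s2' : Sm (hk (deriv (deriv k)) b s0) := Sm.H hsm.deriv.deriv _
    have i0 := (hφ2.mul s0'.pg).eg
    have i1 := (hφ1.mul s1'.pg).eg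
    have i2 := (hφ.mul s2'.pg).eg
    have e1 : H (Real.sqrt (s0 - a)) (fun y => φ2 y * hk k b s0 y +
        2 * (φ1 y * hk (deriv k) b s0 y) + φ y * hk (deriv (deriv k)) b s0 y) x =
        H (Real.sqrt (s0 - a)) (fun y => φ2 y * hk k b s0 y) x +
        2 * H (Real.sqrt (s0 - a)) (fun y => φ1 y * hk (deriv k) b s0 y) x +
        H (Real.sqrt (s0 - a)) (fun y => φ y * hk (deriv (deriv k)) b s0 y) x := by
      rw [Hg_534.H_add (i0.add (i1.const_mul 2)) i2, Hg_534.H_add i0 (i1.const_mul 2),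
        H_const_mul]
    have e2 : H (Real.sqrt (s0 - a)) (fun y => φ y * (-(1 / 2) * hk (deriv (deriv k)) b s0 y)) x =
        -(1 / 2) * H (Real.sqrt (s0 - a)) (fun y => φ y * hk (deriv (deriv k)) b s0 y) x := by
      rw [← H_const_mul]
      congr 1
      funext y
      ring
    have e3 : H (Real.sqrt (s0 - a)) (fun y => (φ2 y / 2 + z / A.D s0 * A.u s0 y * φ1 y) *
        Gz A z s0 y) x =
        1 / 2 * H (Real.sqrt (s0 - a)) (fun y => φ2 y * hk k b s0 y) x +
        H (Real.sqrt (s0 - a)) (fun y => φ1 y * hk (deriv k) b s0 y) x := by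
      rw [← H_const_mul, ← Hg_534.H_add (i0.const_mul (1 / 2)) i1]
      congr 1
      funext y
      rw [hk1 hB hc hI0, ← Gz_hk hB hc hI0]
      ring
    rw [e1, e2, e3]
    ring
  · have h1 : ∀ᶠ q : ℝ × ℝ in 𝓝 (s0 - a, s0), 0 < q.1 :=
      (continuous_fst.tendsto ((s0 - a, s0) : ℝ × ℝ)).eventually (lt_mem_nhds hr0)
    filter_upwards [h1] with q hq
    exact hpr q.1 q.2 hq

end cell

end

end Crest.Agent.R146.TiltB_534
end

-- ▼ part R146/TiltC_534
section

/-!
Row 146 (PT-STEP, helper534): integrated tilted averages `∫ tv A z a s φ dμ`: bounds, joint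
continuity, derivative in time (closed cell), one-sided derivatives for time dependent functions.
-/

set_option autoImplicit false

namespace Crest.Agent.R146.TiltC_534

open MeasureTheory ProbabilityTheory Filter Topology Set
open Crest.ProbabilityR.InvariantGlass
open Crest.Agent.R146.Hg_534 Crest.Agent.R146.PB_534 Crest.Agent.R146.GG_534 Crest.Agent.R146.SG_534
open Crest.Agent.R146.StepDef_791 Crest.Agent.R146.Cell_534 Crest.Agent.R146.TiltA_534
open Crest.Agent.R146.TiltB_534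

noncomputable section

/-! ### mean value inequalities and difference quotients -/

theorem norm_sub_le_right {f f' : ℝ → ℝ} {a b C : ℝ} (hf : ContinuousOn f (Icc a b)) (hab : a ≤ b)
    (hf' : ∀ x ∈ Ico a b, HasDerivWithinAt f (f' x) (Ici x) x)
    (bound : ∀ x ∈ Ico a b, |f' x| ≤ C) : |f b - f a| ≤ C * (b - a) := by
  have := norm_image_sub_le_of_norm_deriv_right_le_segment (C := C) hf hf'
    (fun x hx => by rw [Real.norm_eq_abs]; exact bound x hx) b ⟨hab, le_rfl⟩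
  rwa [Real.norm_eq_abs] at this

theorem norm_sub_le_left {f f' : ℝ → ℝ} {a b C : ℝ} (hf : ContinuousOn f (Icc a b)) (hab : a ≤ b)
    (hf' : ∀ x ∈ Ioc a b, HasDerivWithinAt f (f' x) (Iic x) x)
    (bound : ∀ x ∈ Ioc a b, |f' x| ≤ C) : |f b - f a| ≤ C * (b - a) := by
  have h1 : ContinuousOn (fun x => f (-x)) (Icc (-b) (-a)) :=
    hf.comp (by fun_prop) (fun x hx => ⟨by linarith [hx.2], by linarith [hx.1]⟩)
  have h2 := norm_sub_le_right (f := fun x => f (-x)) (f' := fun x => -f' (-x)) (C := C) h1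
    (by linarith) ?_ ?_
  · have e : |f (- -a) - f (- -b)| = |f b - f a| := by
      rw [neg_neg, neg_neg, abs_sub_comm]
    rw [e] at h2
    linarith
  · intro x hx
    have h3 := hf' (-x) ⟨by linarith [hx.2], by linarith [hx.1]⟩
    have h4 : HasDerivWithinAt (fun x : ℝ => -x) (-1) (Ici x) x := (hasDerivAt_neg x).hasDerivWithinAt
    have h5 : MapsTo (fun x : ℝ => -x) (Ici x) (Iic (-x)) := fun y hy => neg_le_neg (mem_Ici.1 hy)
    have h6 := HasDerivWithinAt.comp x h3 h4 h5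
    refine h6.congr_deriv ?_
    ring
  · intro x hx
    rw [abs_neg]
    exact bound (-x) ⟨by linarith [hx.2], by linarith [hx.1]⟩

/-- the difference quotient, completed at `s0` -/
def dq (F Fd : ℝ → ℝ → ℝ) (s0 s y : ℝ) : ℝ :=
  if s = s0 then Fd s0 y else (s - s0)⁻¹ * (F s y - F s0 y)

theorem dq_abs_le {F Fd : ℝ → ℝ → ℝ} {s0 s y B c : ℝ} (hs : s ≠ s0)
    (h : |F s y - F s0 y - (s - s0) * c| ≤ B * |s - s0|) : |dq F Fd s0 s y - c| ≤ B := by
  unfold dq
  rw [if_neg hs]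
  have h0 : 0 < |s - s0| := abs_pos.2 (sub_ne_zero.2 hs)
  have e : (s - s0)⁻¹ * (F s y - F s0 y) - c = (F s y - F s0 y - (s - s0) * c) / (s - s0) := by
    have := sub_ne_zero.2 hs
    field_simp
  rw [e, abs_div, div_le_iff₀ h0]
  exact h

theorem dq_right {F Fr : ℝ → ℝ → ℝ} {s0 t1 C : ℝ} {n : ℕ} (h01 : s0 < t1)
    (hcF : ∀ y, ContinuousOn (fun s => F s y) (Icc s0 t1))
    (hr : ∀ t ∈ Ico s0 t1, ∀ y, HasDerivWithinAt (fun s => F s y) (Fr t y) (Ici t) t)
    (cr : ∀ y, ContinuousWithinAt (fun q : ℝ × ℝ => Fr q.1 q.2) (Ici s0 ×ˢ univ) (s0, y))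
    (hb : ∀ t ∈ Ico s0 t1, ∀ y, |Fr t y| ≤ C * (1 + |y|) ^ n) :
    (∀ y, ContinuousWithinAt (fun q : ℝ × ℝ => dq F Fr s0 q.1 q.2) (Icc s0 t1 ×ˢ univ) (s0, y)) ∧
    ∀ s ∈ Icc s0 t1, ∀ y, |dq F Fr s0 s y| ≤ C * (1 + |y|) ^ n := by
  constructor
  · intro y
    rw [Metric.continuousWithinAt_iff]
    intro ε hε
    obtain ⟨δ, hδ, h⟩ := Metric.continuousWithinAt_iff.1 (cr y) (ε / 2) (by positivity)
    refine ⟨δ, hδ, fun q hq hd => ?_⟩
    have e0 : dq F Fr s0 s0 y = Fr s0 y := by unfold dq; rw [if_pos rfl]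
    rw [Real.dist_eq]
    change |dq F Fr s0 q.1 q.2 - dq F Fr s0 s0 y| < ε
    rw [e0]
    rcases eq_or_ne q.1 s0 with h1 | h1
    · have h2 := h (x := q) ⟨by rw [h1]; exact mem_Ici.2 le_rfl, mem_univ _⟩ hd
      rw [Real.dist_eq] at h2
      unfold dq
      rw [if_pos h1]
      have e1 : Fr s0 q.2 = Fr q.1 q.2 := by rw [h1]
      rw [e1]
      linarith [h2]
    · have hlt : s0 < q.1 := lt_of_le_of_ne hq.1.1 (Ne.symm h1)
      rw [Prod.dist_eq, max_lt_iff] at hd
      have h2 : |F q.1 q.2 - F s0 q.2 - (q.1 - s0) * Fr s0 y| ≤ ε / 2 * |q.1 - s0| := by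
        have h3 := norm_sub_le_right (f := fun s => F s q.2 - s * Fr s0 y)
          (f' := fun s => Fr s q.2 - Fr s0 y) (a := s0) (b := q.1) (C := ε / 2) ?_ hlt.le ?_ ?_
        · rw [abs_of_pos (sub_pos.2 hlt)]
          have e : F q.1 q.2 - F s0 q.2 - (q.1 - s0) * Fr s0 y =
              F q.1 q.2 - q.1 * Fr s0 y - (F s0 q.2 - s0 * Fr s0 y) := by ring
          rw [e]
          exact h3
        · exact ((hcF q.2).mono (Icc_subset_Icc le_rfl hq.1.2)).sub (by fun_prop)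
        · intro s hs
          have h4 : HasDerivWithinAt (fun s => s * Fr s0 y) (Fr s0 y) (Ici s) s := by
            have := ((hasDerivAt_id s).mul_const (Fr s0 y)).hasDerivWithinAt (s := Ici s)
            simpa using this
          exact (hr s ⟨hs.1, hs.2.trans_le hq.1.2⟩ q.2).sub h4
        · intro s hs
          have h5 : dist (s, q.2) (s0, y) < δ := by
            rw [Prod.dist_eq]
            refine max_lt ?_ hd.2
            rw [Real.dist_eq, abs_of_nonneg (sub_nonneg.2 hs.1)]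
            have := hd.1
            rw [Real.dist_eq, abs_of_pos (sub_pos.2 hlt)] at this
            linarith [hs.2]
          have h6 := h (x := (s, q.2)) ⟨mem_Ici.2 hs.1, mem_univ _⟩ h5
          rw [Real.dist_eq] at h6
          exact h6.le
      have := dq_abs_le (Fd := Fr) h1 h2
      linarith
  · intro s hs y
    rcases eq_or_ne s s0 with h1 | h1
    · unfold dq
      rw [if_pos h1]
      exact hb s0 ⟨le_rfl, h01⟩ y
    · have hlt : s0 < s := lt_of_le_of_ne hs.1 (Ne.symm h1)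
      have h2 : |F s y - F s0 y - (s - s0) * 0| ≤ C * (1 + |y|) ^ n * |s - s0| := by
        rw [mul_zero, sub_zero, abs_of_pos (sub_pos.2 hlt)]
        exact norm_sub_le_right (f := fun s => F s y) (f' := fun s => Fr s y)
          ((hcF y).mono (Icc_subset_Icc le_rfl hs.2)) hlt.le
          (fun t ht => hr t ⟨ht.1, ht.2.trans_le hs.2⟩ y)
          (fun t ht => hb t ⟨ht.1, ht.2.trans_le hs.2⟩ y)
      have := dq_abs_le (Fd := Fr) h1 h2
      rwa [sub_zero] at this

theorem dq_left {F Fl : ℝ → ℝ → ℝ} {s0 t1 C : ℝ} {n : ℕ} (h01 : t1 < s0)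
    (hcF : ∀ y, ContinuousOn (fun s => F s y) (Icc t1 s0))
    (hr : ∀ t ∈ Ioc t1 s0, ∀ y, HasDerivWithinAt (fun s => F s y) (Fl t y) (Iic t) t)
    (cr : ∀ y, ContinuousWithinAt (fun q : ℝ × ℝ => Fl q.1 q.2) (Iic s0 ×ˢ univ) (s0, y))
    (hb : ∀ t ∈ Ioc t1 s0, ∀ y, |Fl t y| ≤ C * (1 + |y|) ^ n) :
    (∀ y, ContinuousWithinAt (fun q : ℝ × ℝ => dq F Fl s0 q.1 q.2) (Icc t1 s0 ×ˢ univ) (s0, y)) ∧
    ∀ s ∈ Icc t1 s0, ∀ y, |dq F Fl s0 s y| ≤ C * (1 + |y|) ^ n := by
  constructor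
  · intro y
    rw [Metric.continuousWithinAt_iff]
    intro ε hε
    obtain ⟨δ, hδ, h⟩ := Metric.continuousWithinAt_iff.1 (cr y) (ε / 2) (by positivity)
    refine ⟨δ, hδ, fun q hq hd => ?_⟩
    have e0 : dq F Fl s0 s0 y = Fl s0 y := by unfold dq; rw [if_pos rfl]
    rw [Real.dist_eq]
    change |dq F Fl s0 q.1 q.2 - dq F Fl s0 s0 y| < ε
    rw [e0]
    rcases eq_or_ne q.1 s0 with h1 | h1
    · have h2 := h (x := q) ⟨by rw [h1]; exact mem_Iic.2 le_rfl, mem_univ _⟩ hd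
      rw [Real.dist_eq] at h2
      unfold dq
      rw [if_pos h1]
      have e1 : Fl s0 q.2 = Fl q.1 q.2 := by rw [h1]
      rw [e1]
      linarith [h2]
    · have hlt : q.1 < s0 := lt_of_le_of_ne hq.1.2 h1
      rw [Prod.dist_eq, max_lt_iff] at hd
      have h2 : |F q.1 q.2 - F s0 q.2 - (q.1 - s0) * Fl s0 y| ≤ ε / 2 * |q.1 - s0| := by
        have h3 := norm_sub_le_left (f := fun s => F s q.2 - s * Fl s0 y)
          (f' := fun s => Fl s q.2 - Fl s0 y) (a := q.1) (b := s0) (C := ε / 2) ?_ hlt.le ?_ ?_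
        · rw [abs_of_neg (sub_neg.2 hlt)]
          have e : |F q.1 q.2 - F s0 q.2 - (q.1 - s0) * Fl s0 y| =
              |F s0 q.2 - s0 * Fl s0 y - (F q.1 q.2 - q.1 * Fl s0 y)| := by
            rw [← abs_neg]
            congr 1
            ring
          rw [e, neg_sub]
          exact h3
        · exact ((hcF q.2).mono (Icc_subset_Icc hq.1.1 le_rfl)).sub (by fun_prop)
        · intro s hs
          have h4 : HasDerivWithinAt (fun s => s * Fl s0 y) (Fl s0 y) (Iic s) s := by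
            have := ((hasDerivAt_id s).mul_const (Fl s0 y)).hasDerivWithinAt (s := Iic s)
            simpa using this
          exact (hr s ⟨lt_of_le_of_lt hq.1.1 hs.1, hs.2⟩ q.2).sub h4
        · intro s hs
          have h5 : dist (s, q.2) (s0, y) < δ := by
            rw [Prod.dist_eq]
            refine max_lt ?_ hd.2
            rw [Real.dist_eq, abs_of_nonpos (sub_nonpos.2 hs.2)]
            have := hd.1
            rw [Real.dist_eq, abs_of_neg (sub_neg.2 hlt)] at this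
            linarith [hs.1]
          have h6 := h (x := (s, q.2)) ⟨mem_Iic.2 hs.2, mem_univ _⟩ h5
          rw [Real.dist_eq] at h6
          exact h6.le
      have := dq_abs_le (Fd := Fl) h1 h2
      linarith
  · intro s hs y
    rcases eq_or_ne s s0 with h1 | h1
    · unfold dq
      rw [if_pos h1]
      exact hb s0 ⟨h01, le_rfl⟩ y
    · have hlt : s < s0 := lt_of_le_of_ne hs.2 h1
      have h2 : |F s y - F s0 y - (s - s0) * 0| ≤ C * (1 + |y|) ^ n * |s - s0| := by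
        rw [mul_zero, sub_zero, abs_of_neg (sub_neg.2 hlt), neg_sub, abs_sub_comm]
        exact norm_sub_le_left (f := fun s => F s y) (f' := fun s => Fl s y)
          ((hcF y).mono (Icc_subset_Icc hs.1 le_rfl)) hlt.le
          (fun t ht => hr t ⟨lt_of_le_of_lt hs.1 ht.1, ht.2⟩ y)
          (fun t ht => hb t ⟨lt_of_le_of_lt hs.1 ht.1, ht.2⟩ y)
      have := dq_abs_le (Fd := Fl) h1 h2
      rwa [sub_zero] at this

/-! ### integrated averages -/

/-- integrated tilted average -/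
def ev (A : SD) (z a : ℝ) (μ : Measure ℝ) (s : ℝ) (φ : ℝ → ℝ) : ℝ := ∫ x, tv A z a s φ x ∂μ

section cell

variable {A : SD} {a b z : ℝ} {μ : Measure ℝ}

theorem tv_continuous (hB : Back A) (hc : IsCell A a b z) {φ : ℝ → ℝ} (hφ : PG φ) {s : ℝ}
    (hs : s ∈ Icc a b) : Continuous (fun x => tv A z a s φ x) := by
  unfold tv
  have hG := Gz_sm hB hc.z0.le (hc.mem hs)
  have hGa := Gz_sm hB hc.z0.le (hc.mem hc.aI)
  exact (((H_continuous (hφ.mul hG.pg).eg).comp (by fun_prop :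
    Continuous fun x : ℝ => ((Real.sqrt (s - a), x) : ℝ × ℝ)))).div hGa.cont
    fun x => (Gz_pos A z a x).ne'

theorem tv_int (hB : Back A) (hc : IsCell A a b z)
    (hμ : ∀ n : ℕ, Integrable (fun x => (1 + |x|) ^ n) μ) {φ : ℝ → ℝ} (hφ : PG φ) {s : ℝ}
    (hs : s ∈ Icc a b) : Integrable (fun x => tv A z a s φ x) μ := by
  obtain ⟨C, n, hC, hb⟩ := hφ.bd
  obtain ⟨K, hK, h⟩ := tv_bd hB hc n
  refine Integrable.mono' ((hμ (3 * n)).const_mul (C * K))
    (tv_continuous hB hc hφ hs).aestronglyMeasurable (Eventually.of_forall fun x => ?_)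
  rw [Real.norm_eq_abs]
  exact h C hC φ hφ.cont hb s hs x

theorem ev_add (hB : Back A) (hc : IsCell A a b z)
    (hμ : ∀ n : ℕ, Integrable (fun x => (1 + |x|) ^ n) μ) {φ ψ : ℝ → ℝ} (hφ : PG φ) (hψ : PG ψ)
    {s : ℝ} (hs : s ∈ Icc a b) :
    ev A z a μ s (fun y => φ y + ψ y) = ev A z a μ s φ + ev A z a μ s ψ := by
  unfold ev
  rw [← integral_add (tv_int hB hc hμ hφ hs) (tv_int hB hc hμ hψ hs)]
  congr 1
  funext x
  have hG := Gz_sm hB hc.z0.le (hc.mem hs)
  unfold tv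
  rw [← add_div, ← Hg_534.H_add (hφ.mul hG.pg).eg (hψ.mul hG.pg).eg]
  congr 2
  funext y
  ring

theorem ev_const_mul (φ : ℝ → ℝ) (c s : ℝ) :
    ev A z a μ s (fun y => c * φ y) = c * ev A z a μ s φ := by
  unfold ev
  rw [← integral_const_mul]
  congr 1
  funext x
  unfold tv
  rw [← mul_div_assoc, ← H_const_mul]
  congr 2
  funext y
  ring

/-- **joint continuity** -/
theorem ev_cont (hB : Back A) (hc : IsCell A a b z)
    (hμ : ∀ n : ℕ, Integrable (fun x => (1 + |x|) ^ n) μ) {S : Set ℝ} (hS : S ⊆ Icc a b)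
    {Φ : ℝ → ℝ → ℝ} {C : ℝ} {n : ℕ} {s0 : ℝ} (hs0 : s0 ∈ Icc a b) (hC : 0 ≤ C)
    (hcΦ : ∀ s ∈ S, Continuous (Φ s))
    (hj : ∀ y, ContinuousWithinAt (fun q : ℝ × ℝ => Φ q.1 q.2) (S ×ˢ univ) (s0, y))
    (hb : ∀ s ∈ S, ∀ y, |Φ s y| ≤ C * (1 + |y|) ^ n) :
    ContinuousWithinAt (fun s => ev A z a μ s (Φ s)) S s0 := by
  obtain ⟨K, hK, h⟩ := tv_bd hB hc n
  unfold ev
  refine continuousWithinAt_of_dominated (bound := fun x => C * K * (1 + |x|) ^ (3 * n)) ?_ ?_
    ((hμ (3 * n)).const_mul (C * K)) ?_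
  · filter_upwards [self_mem_nhdsWithin] with s hs
    exact (tv_continuous hB hc ⟨hcΦ s hs, C, n, hC, hb s hs⟩ (hS hs)).aestronglyMeasurable
  · filter_upwards [self_mem_nhdsWithin] with s hs
    refine Eventually.of_forall fun x => ?_
    rw [Real.norm_eq_abs]
    exact h C hC (Φ s) (hcΦ s hs) (hb s hs) s (hS hs) x
  · exact Eventually.of_forall fun x => tv_cont hB hc hS hs0 hC hcΦ hj hb x

/-- the drift on a cell -/
theorem D_cont_cell (hc : IsCell A a b z) : ContinuousOn A.D (Icc a b) := by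
  have h : ContinuousOn (fun t => A.D b + z * (b - t)) (Icc a b) := by fun_prop
  exact h.congr fun t ht => hc.D_eq t ht

theorem gen_cont (hB : Back A) (hc : IsCell A a b z) {φ1 φ2 : ℝ → ℝ} (hφ1 : PG φ1) (hφ2 : PG φ2) :
    ContinuousOn (fun q : ℝ × ℝ => φ2 q.2 / 2 + z / A.D q.1 * A.u q.1 q.2 * φ1 q.2)
      (Icc a b ×ˢ univ) := by
  obtain ⟨M, h⟩ := hB.bsys
  have hD : ContinuousOn (fun q : ℝ × ℝ => A.D q.1) (Icc a b ×ˢ univ) :=
    (D_cont_cell hc).comp continuousOn_fst (fun q hq => hq.1)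
  have hu : ContinuousOn (fun q : ℝ × ℝ => A.u q.1 q.2) (Icc a b ×ˢ univ) :=
    h.cu.mono (fun q hq => ⟨hc.mem hq.1, mem_univ _⟩)
  have h1 : ContinuousOn (fun q : ℝ × ℝ => φ1 q.2) (Icc a b ×ˢ univ) :=
    (hφ1.cont.comp continuous_snd).continuousOn
  have h2 : ContinuousOn (fun q : ℝ × ℝ => φ2 q.2) (Icc a b ×ˢ univ) :=
    (hφ2.cont.comp continuous_snd).continuousOn
  exact (h2.div_const 2).add (((continuousOn_const.div hD
    (fun q _ => (A.D_pos q.1).ne')).mul hu).mul h1)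

theorem gen_bd (hB : Back A) (hc : IsCell A a b z) {φ1 φ2 : ℝ → ℝ} (hφ1 : PG φ1) (hφ2 : PG φ2) :
    ∃ (C : ℝ) (n : ℕ), 0 ≤ C ∧ ∀ s ∈ Icc a b, ∀ y,
      |φ2 y / 2 + z / A.D s * A.u s y * φ1 y| ≤ C * (1 + |y|) ^ n := by
  obtain ⟨M, hM, hu⟩ := exists_M hB
  obtain ⟨M2, h⟩ := hB.bsys
  obtain ⟨D1, m1, hD1, hb1⟩ := hφ1.bd
  obtain ⟨D2, m2, hD2, hb2⟩ := hφ2.bd
  have hzd : 0 ≤ z / A.d := div_nonneg hc.z0.le A.hd.le
  refine ⟨D2 + z / A.d * M * D1, m2 + (1 + m1), by positivity, fun s hs y => ?_⟩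
  have h1 : |φ2 y / 2| ≤ D2 * (1 + |y|) ^ (m2 + (1 + m1)) := by
    rw [abs_div, abs_of_pos (by norm_num : (0:ℝ) < 2)]
    have h2 := hb2 y
    have h3 := abs_nonneg (φ2 y)
    have h4 : D2 * (1 + |y|) ^ m2 ≤ D2 * (1 + |y|) ^ (m2 + (1 + m1)) :=
      mul_le_mul_of_nonneg_left (pow_le_pow_base (by omega)) hD2
    linarith
  have h2 : |z / A.D s * A.u s y * φ1 y| ≤
      z / A.d * M * D1 * (1 + |y|) ^ (m2 + (1 + m1)) := by
    have hr0 : 0 ≤ z / A.D s := div_nonneg hc.z0.le (A.D_pos s).le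
    have hu0 := h.u_nonneg s (hc.mem hs) y
    rw [abs_mul, abs_of_nonneg (mul_nonneg hr0 hu0)]
    have h3 : z / A.D s * A.u s y ≤ z / A.d * (M * (1 + |y|)) :=
      mul_le_mul (ratio_le hc s) (hu s (hc.mem hs) y) hu0 hzd
    calc z / A.D s * A.u s y * |φ1 y| ≤ z / A.d * (M * (1 + |y|)) * (D1 * (1 + |y|) ^ m1) :=
          mul_le_mul h3 (hb1 y) (abs_nonneg _) (by positivity)
      _ = z / A.d * M * D1 * (1 + |y|) ^ (1 + m1) := by rw [pow_add]; ring
      _ ≤ _ := mul_le_mul_of_nonneg_left (pow_le_pow_base (by omega)) (by positivity)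
  calc |φ2 y / 2 + z / A.D s * A.u s y * φ1 y| ≤ |φ2 y / 2| + |z / A.D s * A.u s y * φ1 y| :=
        abs_add_le _ _
    _ ≤ _ := by rw [add_mul]; exact add_le_add h1 h2

theorem gen_pg (hB : Back A) (hc : IsCell A a b z) {φ1 φ2 : ℝ → ℝ} (hφ1 : PG φ1) (hφ2 : PG φ2)
    {s : ℝ} (hs : s ∈ Icc a b) : PG (fun y => φ2 y / 2 + z / A.D s * A.u s y * φ1 y) := by
  obtain ⟨C, n, hC, h⟩ := gen_bd hB hc hφ1 hφ2
  refine ⟨?_, C, n, hC, h s hs⟩
  have h1 := gen_cont hB hc hφ1 hφ2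
  have h2 : Continuous (fun y : ℝ => ((s, y) : ℝ × ℝ)) := by fun_prop
  exact continuousOn_univ.1 (h1.comp h2.continuousOn (fun y _ => ⟨hs, mem_univ _⟩))

theorem ev_gen_cont (hB : Back A) (hc : IsCell A a b z)
    (hμ : ∀ n : ℕ, Integrable (fun x => (1 + |x|) ^ n) μ) {φ1 φ2 : ℝ → ℝ} (hφ1 : PG φ1)
    (hφ2 : PG φ2) : ContinuousOn (fun s => ev A z a μ s
      (fun y => φ2 y / 2 + z / A.D s * A.u s y * φ1 y)) (Icc a b) := by
  intro s0 hs0
  obtain ⟨C, n, hC, h⟩ := gen_bd hB hc hφ1 hφ2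
  exact ev_cont hB hc hμ (Subset.refl _) (Φ := fun s y => φ2 y / 2 + z / A.D s * A.u s y * φ1 y)
    hs0 hC (fun s hs => (gen_pg hB hc hφ1 hφ2 hs).cont)
    (fun y => gen_cont hB hc hφ1 hφ2 (s0, y) ⟨hs0, mem_univ _⟩) h

theorem ev_fix_cont (hB : Back A) (hc : IsCell A a b z)
    (hμ : ∀ n : ℕ, Integrable (fun x => (1 + |x|) ^ n) μ) {φ : ℝ → ℝ} (hφ : PG φ) :
    ContinuousOn (fun s => ev A z a μ s φ) (Icc a b) := by
  intro s0 hs0
  obtain ⟨C, n, hC, h⟩ := hφ.bd
  exact ev_cont hB hc hμ (Subset.refl _) (Φ := fun _ y => φ y) hs0 hC (fun s hs => hφ.cont)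
    (fun y => (hφ.cont.comp continuous_snd).continuousWithinAt) (fun _ _ => h)

/-- derivative of the integrated average of a fixed function, interior -/
theorem ev_deriv_int (hB : Back A) (hc : IsCell A a b z)
    (hμ : ∀ n : ℕ, Integrable (fun x => (1 + |x|) ^ n) μ) {φ φ1 φ2 : ℝ → ℝ} (hφ : PG φ)
    (hφ1 : PG φ1) (hφ2 : PG φ2) (hd : ∀ y, HasDerivAt φ (φ1 y) y)
    (hd1 : ∀ y, HasDerivAt φ1 (φ2 y) y) {s0 : ℝ} (hs0 : s0 ∈ Ioo a b) :
    HasDerivAt (fun s => ev A z a μ s φ)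
      (ev A z a μ s0 (fun y => φ2 y / 2 + z / A.D s0 * A.u s0 y * φ1 y)) s0 := by
  obtain ⟨C, n, hC, h⟩ := gen_bd hB hc hφ1 hφ2
  obtain ⟨K, hK, hK2⟩ := tv_bd hB hc n
  refine (hasDerivAt_integral_of_dominated_loc_of_deriv_le
    (F := fun s x => tv A z a s φ x)
    (F' := fun s x => tv A z a s (fun y => φ2 y / 2 + z / A.D s * A.u s y * φ1 y) x)
    (bound := fun x => C * K * (1 + |x|) ^ (3 * n)) (Ioo_mem_nhds hs0.1 hs0.2) ?_ ?_ ?_ ?_ ?_ ?_).2
  · filter_upwards [Ioo_mem_nhds hs0.1 hs0.2] with s hs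
    exact (tv_continuous hB hc hφ ⟨hs.1.le, hs.2.le⟩).aestronglyMeasurable
  · exact tv_int hB hc hμ hφ ⟨hs0.1.le, hs0.2.le⟩
  · exact (tv_continuous hB hc (gen_pg hB hc hφ1 hφ2 ⟨hs0.1.le, hs0.2.le⟩)
      ⟨hs0.1.le, hs0.2.le⟩).aestronglyMeasurable
  · refine Eventually.of_forall fun x s hs => ?_
    rw [Real.norm_eq_abs]
    have hs' : s ∈ Icc a b := ⟨hs.1.le, hs.2.le⟩
    exact hK2 C hC _ (gen_pg hB hc hφ1 hφ2 hs').cont (h s hs') s hs' x
  · exact (hμ (3 * n)).const_mul (C * K)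
  · exact Eventually.of_forall fun x s hs => tv_deriv hB hc hφ hφ1 hφ2 hd hd1 hs x

/-- derivative of the integrated average of a fixed function, closed cell -/
theorem ev_deriv (hB : Back A) (hc : IsCell A a b z)
    (hμ : ∀ n : ℕ, Integrable (fun x => (1 + |x|) ^ n) μ) {φ φ1 φ2 : ℝ → ℝ} (hφ : PG φ)
    (hφ1 : PG φ1) (hφ2 : PG φ2) (hd : ∀ y, HasDerivAt φ (φ1 y) y)
    (hd1 : ∀ y, HasDerivAt φ1 (φ2 y) y) {s0 : ℝ} (hs0 : s0 ∈ Icc a b) :
    HasDerivWithinAt (fun s => ev A z a μ s φ)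
      (ev A z a μ s0 (fun y => φ2 y / 2 + z / A.D s0 * A.u s0 y * φ1 y)) (Icc a b) s0 := by
  have hdiff : ∀ s ∈ Ioo a b, HasDerivAt (fun s => ev A z a μ s φ)
      (ev A z a μ s (fun y => φ2 y / 2 + z / A.D s * A.u s y * φ1 y)) s :=
    fun s hs => ev_deriv_int hB hc hμ hφ hφ1 hφ2 hd hd1 hs
  have hcont := ev_fix_cont hB hc hμ hφ
  have hgc := ev_gen_cont hB hc hμ hφ1 hφ2
  rcases eq_or_lt_of_le hs0.1 with h1 | h1
  · -- left end
    subst h1
    have h2 := hasDerivWithinAt_Ici_of_tendsto_deriv (s := Ioo a b)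
      (f := fun s => ev A z a μ s φ)
      (e := ev A z a μ a (fun y => φ2 y / 2 + z / A.D a * A.u a y * φ1 y))
      (fun s hs => (hdiff s hs).differentiableAt.differentiableWithinAt)
      ((hcont a hc.aI).mono Ioo_subset_Icc_self) (Ioo_mem_nhdsGT hc.ab) ?_
    · exact h2.mono (fun x hx => hx.1)
    · have h3 : Tendsto (fun s => ev A z a μ s (fun y => φ2 y / 2 + z / A.D s * A.u s y * φ1 y))
          (𝓝[>] a) (𝓝 (ev A z a μ a (fun y => φ2 y / 2 + z / A.D a * A.u a y * φ1 y))) := by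
        have h4 := (hgc a hc.aI).mono Ioo_subset_Icc_self
        unfold ContinuousWithinAt at h4
        rwa [nhdsWithin_Ioo_eq_nhdsGT hc.ab] at h4
      refine h3.congr' ?_
      filter_upwards [Ioo_mem_nhdsGT hc.ab] with s hs
      exact (hdiff s hs).deriv.symm
  · rcases eq_or_lt_of_le hs0.2 with h2 | h2
    · subst h2
      have h2 := hasDerivWithinAt_Iic_of_tendsto_deriv (s := Ioo a s0)
        (f := fun s => ev A z a μ s φ)
        (e := ev A z a μ s0 (fun y => φ2 y / 2 + z / A.D s0 * A.u s0 y * φ1 y))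
        (fun s hs => (hdiff s hs).differentiableAt.differentiableWithinAt)
        ((hcont s0 hc.bI).mono Ioo_subset_Icc_self) (Ioo_mem_nhdsLT hc.ab) ?_
      · exact h2.mono (fun x hx => hx.2)
      · have h3 : Tendsto (fun s => ev A z a μ s (fun y => φ2 y / 2 + z / A.D s * A.u s y * φ1 y))
            (𝓝[<] s0) (𝓝 (ev A z a μ s0 (fun y => φ2 y / 2 + z / A.D s0 * A.u s0 y * φ1 y))) := by
          have h4 := (hgc s0 hc.bI).mono Ioo_subset_Icc_self
          unfold ContinuousWithinAt at h4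
          rwa [nhdsWithin_Ioo_eq_nhdsLT hc.ab] at h4
        refine h3.congr' ?_
        filter_upwards [Ioo_mem_nhdsLT hc.ab] with s hs
        exact (hdiff s hs).deriv.symm
    · exact (hdiff s0 ⟨h1, h2⟩).hasDerivWithinAt

/-- **one-sided derivative for a time dependent function** (abstract form: `S` is the one-sided
neighbourhood, `Fd` the one-sided time derivative, packaged as the difference quotient) -/
theorem ev_time (hB : Back A) (hc : IsCell A a b z)
    (hμ : ∀ n : ℕ, Integrable (fun x => (1 + |x|) ^ n) μ) {F Fd : ℝ → ℝ → ℝ} {φ1 φ2 : ℝ → ℝ}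
    {s0 : ℝ} {S : Set ℝ} (hS : S ⊆ Icc a b) (hs0 : s0 ∈ S) (hF : ∀ s ∈ S, PG (F s))
    (hFd : Continuous (Fd s0))
    (hφ1 : PG φ1) (hφ2 : PG φ2) (hd : ∀ y, HasDerivAt (F s0) (φ1 y) y)
    (hd1 : ∀ y, HasDerivAt φ1 (φ2 y) y) {C : ℝ} {n : ℕ} (hC : 0 ≤ C)
    (hq : ∀ y, ContinuousWithinAt (fun q : ℝ × ℝ => dq F Fd s0 q.1 q.2) (S ×ˢ univ) (s0, y))
    (hb : ∀ s ∈ S, ∀ y, |dq F Fd s0 s y| ≤ C * (1 + |y|) ^ n) :
    HasDerivWithinAt (fun s => ev A z a μ s (F s))
      (ev A z a μ s0 (fun y => Fd s0 y + φ2 y / 2 + z / A.D s0 * A.u s0 y * φ1 y)) S s0 := by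
  have hs0' := hS hs0
  have hFd0 : PG (Fd s0) := ⟨hFd, C, n, hC, fun y => by
    have := hb s0 hs0 y
    unfold dq at this
    rwa [if_pos rfl] at this⟩
  have hdqc : ∀ s ∈ S, Continuous (dq F Fd s0 s) := by
    intro s hs
    unfold dq
    rcases eq_or_ne s s0 with h | h
    · simp only [if_pos h]
      exact hFd
    · simp only [if_neg h]
      exact continuous_const.mul ((hF s hs).cont.sub (hF s0 hs0).cont)
  have hdqp : ∀ s ∈ S, PG (dq F Fd s0 s) := fun s hs => ⟨hdqc s hs, C, n, hC, hb s hs⟩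
  have h1 := ev_cont hB hc hμ hS (Φ := dq F Fd s0) hs0' hC hdqc hq hb
  have h2 : HasDerivWithinAt (fun s => (s - s0) * ev A z a μ s (dq F Fd s0 s))
      (ev A z a μ s0 (Fd s0)) S s0 := by
    rw [hasDerivWithinAt_iff_tendsto_slope]
    have e1 : dq F Fd s0 s0 = Fd s0 := by
      funext y
      unfold dq
      rw [if_pos rfl]
    have h3 : Tendsto (fun s => ev A z a μ s (dq F Fd s0 s)) (𝓝[S \ {s0}] s0)
        (𝓝 (ev A z a μ s0 (Fd s0))) := by
      have h4 := h1.mono (sdiff_subset : S \ {s0} ⊆ S)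
      unfold ContinuousWithinAt at h4
      beta_reduce at h4
      rwa [e1] at h4
    refine h3.congr' ?_
    filter_upwards [self_mem_nhdsWithin] with s hs
    have hne : s - s0 ≠ 0 := sub_ne_zero.2 hs.2
    rw [slope_def_field, sub_self, zero_mul, sub_zero]
    field_simp
  have h3 := (ev_deriv hB hc hμ (hF s0 hs0) hφ1 hφ2 hd hd1 hs0').mono hS
  have h4 := h2.add h3
  have e2 : ev A z a μ s0 (Fd s0) +
      ev A z a μ s0 (fun y => φ2 y / 2 + z / A.D s0 * A.u s0 y * φ1 y) =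
      ev A z a μ s0 (fun y => Fd s0 y + φ2 y / 2 + z / A.D s0 * A.u s0 y * φ1 y) := by
    rw [← ev_add hB hc hμ hFd0 (gen_pg hB hc hφ1 hφ2 hs0') hs0']
    congr 1
    funext y
    ring
  rw [e2] at h4
  have key : ∀ s ∈ S, ev A z a μ s (F s) = (s - s0) * ev A z a μ s (dq F Fd s0 s) +
      ev A z a μ s (F s0) := by
    intro s hs
    rw [← ev_const_mul, ← ev_add hB hc hμ ((hdqp s hs).const_mul _) (hF s0 hs0) (hS hs)]
    congr 1
    funext y
    unfold dq
    rcases eq_or_ne s s0 with h | h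
    · rw [if_pos h, h]
      ring
    · rw [if_neg h]
      have hne : s - s0 ≠ 0 := sub_ne_zero.2 h
      field_simp
      ring
  exact h4.congr key (key s0 hs0)

end cell

end

end Crest.Agent.R146.TiltC_534
end

-- ▼ part R146/PD_534

/-!
Row 146 (PT-STEP, helper534): the density `pd A x0 t`: smooth (`SG 0`), positive, mass one, moments,
base formula on a cell.
-/

set_option autoImplicit false

namespace Crest.Agent.R146.PD_534

open MeasureTheory ProbabilityTheory Filter Topology Set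
open Crest.ProbabilityR.InvariantGlass
open Crest.Agent.R146.Hg_534 Crest.Agent.R146.PB_534 Crest.Agent.R146.GG_534 Crest.Agent.R146.SG_534
open Crest.Agent.R146.StepDef_791 Crest.Agent.R146.Cell_534 Crest.Agent.R146.TiltA_534
open Crest.Agent.R146.TiltB_534 Crest.Agent.R146.TiltC_534

noncomputable section

/-! ### growth of `ψ` -/

/-- `ψ(t,x) = -(min x 0)²/(2D) + O(1+|x|)` -/
theorem psi_quad {A : SD} (hB : Back A) {t : ℝ} (ht : t ∈ Icc 0 A.T) (x : ℝ) :
    |A.psi t x + (min x 0) ^ 2 / (2 * A.D t)| ≤ |A.psi t 0| + A.u t 0 / A.D t * |x| := by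
  have hD := A.D_pos t
  obtain ⟨M, hb⟩ := hB.bsys
  have hu0 := hB.u_pos t ht
  have hanti := u_anti hB ht
  have hw : Monotone (A.w t) := by
    have hwd : ∀ x, HasDerivAt (A.w t) (A.V t x) x := by
      intro x
      have h1 := (hasDerivAt_id' x).add (hB.u_x t ht x)
      have e : (1:ℝ) + (A.V t x - 1) = A.V t x := by ring
      rw [e] at h1
      exact h1
    refine monotone_of_deriv_nonneg (fun x => (hwd x).differentiableAt) fun x => ?_
    rw [(hwd x).deriv]
    exact (hb.V_pos t ht x).le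
  rcases le_total x 0 with hx | hx
  · rw [min_eq_left hx]
    have hd : ∀ y ∈ Iic (0:ℝ), HasDerivWithinAt (fun y => A.psi t y + y ^ 2 / (2 * A.D t))
        (A.w t y / A.D t) (Iic 0) y := by
      intro y _
      have h1 := psi_x hB ht y
      have h2 : HasDerivAt (fun y : ℝ => y ^ 2 / (2 * A.D t)) (y / A.D t) y := by
        have h3 := ((hasDerivAt_id' y).fun_pow 2).div_const (2 * A.D t)
        refine h3.congr_deriv ?_
        simp only [Nat.cast_ofNat, Nat.add_one_sub_one, pow_one, mul_one]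
        field_simp
      refine ((h1.add h2).congr_deriv ?_).hasDerivWithinAt
      unfold SD.w
      field_simp
      ring
    have hbd : ∀ y ∈ Iic (0:ℝ), ‖A.w t y / A.D t‖ ≤ A.u t 0 / A.D t := by
      intro y hy
      rw [Real.norm_eq_abs, abs_div, abs_of_pos hD, abs_of_pos (hB.w_pos t ht y)]
      refine div_le_div_of_nonneg_right ?_ hD.le
      have h1 := hw (mem_Iic.1 hy)
      have h2 : A.w t 0 = A.u t 0 := by unfold SD.w; ring
      linarith
    have h1 := (convex_Iic (0:ℝ)).norm_image_sub_le_of_norm_hasDerivWithin_le hd hbd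
      (mem_Iic.2 le_rfl) (mem_Iic.2 hx)
    rw [Real.norm_eq_abs, Real.norm_eq_abs] at h1
    have h2 : A.psi t x + x ^ 2 / (2 * A.D t) = A.psi t 0 +
        (A.psi t x + x ^ 2 / (2 * A.D t) - (A.psi t 0 + 0 ^ 2 / (2 * A.D t))) := by ring
    rw [h2]
    refine (abs_add_le _ _).trans (add_le_add le_rfl ?_)
    rwa [sub_zero] at h1
  · rw [min_eq_right hx]
    have hd : ∀ y ∈ Ici (0:ℝ), HasDerivWithinAt (A.psi t) (A.u t y / A.D t) (Ici 0) y :=
      fun y _ => (psi_x hB ht y).hasDerivWithinAt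
    have hbd : ∀ y ∈ Ici (0:ℝ), ‖A.u t y / A.D t‖ ≤ A.u t 0 / A.D t := by
      intro y hy
      rw [Real.norm_eq_abs, abs_div, abs_of_pos hD, abs_of_pos (hu0 y)]
      exact div_le_div_of_nonneg_right (hanti (mem_Ici.1 hy)) hD.le
    have h1 := (convex_Ici (0:ℝ)).norm_image_sub_le_of_norm_hasDerivWithin_le hd hbd
      (mem_Ici.2 le_rfl) (mem_Ici.2 hx)
    rw [Real.norm_eq_abs, Real.norm_eq_abs, sub_zero] at h1
    have h2 : A.psi t x + 0 ^ 2 / (2 * A.D t) = A.psi t 0 + (A.psi t x - A.psi t 0) := by ring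
    rw [h2]
    exact (abs_add_le _ _).trans (add_le_add le_rfl h1)

theorem exp_psi_sg {A : SD} (hB : Back A) {t : ℝ} (ht : t ∈ Icc 0 A.T) (c : ℝ) :
    SG (-c / A.D t) (fun x => Real.exp (c * A.psi t x)) := by
  refine SG.exp ((hB.sm t ht).const_mul c) ⟨Real.exp (|c| * |A.psi t 0|),
    |c| * (A.u t 0 / A.D t), (Real.exp_pos _).le, ?_, fun x => ?_⟩
  · have := (hB.u_pos t ht 0).le
    have := (A.D_pos t).le
    positivity
  · unfold wt
    rw [← Real.exp_add]
    refine Real.exp_le_exp.2 ?_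
    have h1 := psi_quad hB ht x
    have h2 : c * (A.psi t x + (min x 0) ^ 2 / (2 * A.D t)) ≤
        |c| * (|A.psi t 0| + A.u t 0 / A.D t * |x|) := by
      calc c * (A.psi t x + (min x 0) ^ 2 / (2 * A.D t))
          ≤ |c * (A.psi t x + (min x 0) ^ 2 / (2 * A.D t))| := le_abs_self _
        _ = |c| * |A.psi t x + (min x 0) ^ 2 / (2 * A.D t)| := abs_mul _ _
        _ ≤ _ := mul_le_mul_of_nonneg_left h1 (abs_nonneg c)
    have hD := A.D_pos t
    have h3 : -c / A.D t / 2 * (min x 0) ^ 2 = -(c * ((min x 0) ^ 2 / (2 * A.D t))) := by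
      field_simp
    rw [h3]
    linarith

theorem gaussPDF_sg {x0 : ℝ} {v : NNReal} (hv : v ≠ 0) : SG 0 (gaussianPDFReal x0 v) := by
  have h1 : Sm (fun x : ℝ => -(x - x0) ^ 2 / (2 * (v : ℝ))) := by
    have h2 := (((Sm.id.sub_const x0).pow 2).neg).const_mul ((2 * (v : ℝ))⁻¹)
    refine (congrArg Sm ?_).mp h2
    funext x
    rw [div_eq_inv_mul]
  have h2 : Sm (fun x : ℝ => Real.exp (-(x - x0) ^ 2 / (2 * (v : ℝ)))) := by
    refine Sm.exp h1 (c := 0) fun x => ?_
    have : 0 ≤ (x - x0) ^ 2 / (2 * (v : ℝ)) := by positivity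
    have e : -(x - x0) ^ 2 / (2 * (v : ℝ)) = -((x - x0) ^ 2 / (2 * (v : ℝ))) := neg_div _ _
    rw [e]
    linarith
  have h3 := (SG.of_sm h2).const_mul ((√(2 * Real.pi * v))⁻¹)
  exact h3

/-! ### regularity and positivity of the density -/

section cell

variable {A : SD} {x0 a b z : ℝ}

/-- the free part at the left end of a cell -/
def qa (A : SD) (x0 z a y : ℝ) : ℝ := pd A x0 a y / Gz A z a y

theorem qa_sg (hB : Back A) (hc : IsCell A a b z) (h : SG 0 (pd A x0 a)) :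
    SG (z / A.D a) (qa A x0 z a) := by
  have h1 := h.mul (exp_psi_sg hB (hc.mem hc.aI) (-z))
  rw [zero_add, neg_neg] at h1
  refine (congrArg (SG (z / A.D a)) ?_).mp h1
  funext y
  unfold qa Gz
  rw [neg_mul, Real.exp_neg, div_eq_mul_inv]

theorem kappa_lt (hc : IsCell A a b z) {t : ℝ} (ht : t ∈ Icc a b) :
    z / A.D a * Real.sqrt (t - a) ^ 2 < 1 := by
  rw [Real.sq_sqrt (by linarith [ht.1]), div_mul_eq_mul_div, div_lt_one (A.D_pos a),
    hc.D_eq a hc.aI]
  have h1 := A.D_pos b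
  have h2 := mul_le_mul_of_nonneg_left (by linarith [ht.2] : t - a ≤ b - a) hc.z0.le
  linarith

theorem kappa_nonneg (hc : IsCell A a b z) : 0 ≤ z / A.D a := div_nonneg hc.z0.le (A.D_pos a).le

theorem kappa_eq (hc : IsCell A a b z) {t : ℝ} (ht : t ∈ Icc a b) :
    z / A.D a / (1 - z / A.D a * Real.sqrt (t - a) ^ 2) = z / A.D t := by
  have h1 := kappa_lt hc ht
  have hDa := A.D_pos a
  have hDt := A.D_pos t
  have e : A.D a - z * (t - a) = A.D t := by
    rw [hc.D_eq a hc.aI, hc.D_eq t ht]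
    ring
  rw [Real.sq_sqrt (by linarith [ht.1])] at h1 ⊢
  have h2 : 1 - z / A.D a * (t - a) = A.D t / A.D a := by
    rw [← e]
    field_simp
  rw [h2]
  field_simp

theorem pd_sg_cell (hB : Back A) (hc : IsCell A a b z) (hp : PCell A x0 a b z)
    (ih : 0 < a → SG 0 (pd A x0 a) ∧ ∀ x, 0 < pd A x0 a x) {t : ℝ} (ht : t ∈ Ioc a b) :
    SG 0 (pd A x0 t) ∧ ∀ x, 0 < pd A x0 t x := by
  have htI : t ∈ Icc a b := ⟨ht.1.le, ht.2⟩
  rcases eq_or_lt_of_le hc.a0 with h0 | h0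
  · have h1 := hp.zero h0.symm t ht
    have htp : 0 < t := by linarith [ht.1, hc.a0]
    have hv : Real.toNNReal t ≠ 0 := (Real.toNNReal_pos.2 htp).ne'
    constructor
    · have h2 := (SG.of_sm (Gz_sm hB hc.z0.le (hc.mem htI))).mul
        ((gaussPDF_sg (x0 := x0) hv).const_mul ((Gz A z 0 x0)⁻¹))
      rw [zero_add] at h2
      refine (congrArg (SG 0) ?_).mp h2
      funext x
      rw [h1 x]
      field_simp
    · intro x
      rw [h1 x]
      have h3 := gaussianPDFReal_pos x0 _ x hv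
      have h4 := Gz_pos A z t x
      have h5 := Gz_pos A z 0 x0
      positivity
  · obtain ⟨hsg, hpos⟩ := ih h0
    have h1 := hp.pos h0 t ht
    have hq := qa_sg (z := z) hB hc hsg
    have hk := kappa_lt hc htI
    constructor
    · have h2 := SG.H (kappa_nonneg hc) hk hq
      rw [kappa_eq hc htI] at h2
      have h3 := (exp_psi_sg hB (hc.mem htI) z).mul h2
      have e : -z / A.D t + z / A.D t = 0 := by ring
      rw [e] at h3
      refine (congrArg (SG 0) ?_).mp h3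
      funext x
      rw [h1 x]
      rfl
    · intro x
      rw [h1 x]
      refine mul_pos (Gz_pos A z t x) ?_
      exact GG_534.H_pos (kappa_nonneg hc) hq.gg
        (fun y => div_pos (hpos y) (Gz_pos A z a y)) hk x

end cell

theorem pd_sg {A : SD} (hB : Back A) (x0 : ℝ) : ∀ t ∈ Ioc 0 A.T,
    SG 0 (pd A x0 t) ∧ ∀ x, 0 < pd A x0 t x := by
  refine cells_induct A x0 (fun s => ∀ t ∈ Ioc 0 s, SG 0 (pd A x0 t) ∧ ∀ x, 0 < pd A x0 t x) ?_ ?_
  · intro t ht
    exact absurd ht.1 (not_lt.2 ht.2)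
  · intro a b z hc hp ih t ht
    rcases le_or_gt t a with h | h
    · exact ih t ⟨ht.1, h⟩
    · exact pd_sg_cell hB hc hp (fun ha => ih a ⟨ha, le_rfl⟩) ⟨h, ht.2⟩

/-! ### the law as a measure, base formula -/

/-- the law at time `t` -/
def muA (A : SD) (x0 t : ℝ) : Measure ℝ :=
  if t ≤ 0 then Measure.dirac x0 else volume.withDensity (fun x => ENNReal.ofReal (pd A x0 t x))

theorem int_muA {A : SD} (hB : Back A) (x0 : ℝ) {t : ℝ} (ht : t ∈ Icc 0 A.T) (f : ℝ → ℝ) :
    ∫ x, f x ∂muA A x0 t = ex x0 (pd A x0) t f := by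
  unfold muA ex
  split_ifs with h
  · exact integral_dirac f x0
  · have hm := pd_sg hB x0 t ⟨not_le.1 h, ht.2⟩
    have e := integral_withDensity_eq_integral_toReal_smul (μ := volume)
      (f := fun x => ENNReal.ofReal (pd A x0 t x)) (by
        exact (hm.1.cont.measurable).ennreal_ofReal)
      (Eventually.of_forall fun x => ENNReal.ofReal_lt_top) f
    rw [e]
    refine integral_congr_ae (Eventually.of_forall fun x => ?_)
    simp only [smul_eq_mul]
    rw [ENNReal.toReal_ofReal (hm.2 x).le]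

theorem integrable_muA {A : SD} (hB : Back A) (x0 : ℝ) {t : ℝ} (ht : t ∈ Ioc 0 A.T) (f : ℝ → ℝ) :
    Integrable f (muA A x0 t) ↔ Integrable (fun x => pd A x0 t x * f x) volume := by
  have hm := pd_sg hB x0 t ht
  unfold muA
  rw [if_neg (not_le.2 ht.1)]
  rw [integrable_withDensity_iff_integrable_smul₀' (hm.1.cont.measurable.ennreal_ofReal).aemeasurable
    (Eventually.of_forall fun x => ENNReal.ofReal_lt_top)]
  have e : (fun x => (ENNReal.ofReal (pd A x0 t x)).toReal • f x) =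
      fun x => pd A x0 t x * f x := by
    funext x
    rw [ENNReal.toReal_ofReal (hm.2 x).le, smul_eq_mul]
  rw [e]

section cell

variable {A : SD} {x0 a b z : ℝ}

theorem tv_self (_hc : IsCell A a b z) (φ : ℝ → ℝ) (x : ℝ) : tv A z a a φ x = φ x := by
  unfold tv
  rw [sub_self, Real.sqrt_zero, H_zero]
  field_simp [(Gz_pos A z a x).ne']

/-- base formula and integrability on a cell with positive left end -/
theorem base_pos (hB : Back A) (hc : IsCell A a b z) (hp : PCell A x0 a b z) (ha : 0 < a)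
    (hmom : ∀ n : ℕ, Integrable (fun x => pd A x0 a x * (1 + |x|) ^ n) volume) {t : ℝ}
    (ht : t ∈ Ioc a b) {φ : ℝ → ℝ} (hφ : PG φ) :
    Integrable (fun x => pd A x0 t x * φ x) volume ∧
      ∫ x, pd A x0 t x * φ x = ∫ x, pd A x0 a x * tv A z a t φ x := by
  have htI : t ∈ Icc a b := ⟨ht.1.le, ht.2⟩
  have haT : a ∈ Ioc 0 A.T := ⟨ha, hc.ab.le.trans hc.bT⟩
  obtain ⟨hsg, hpos⟩ := pd_sg hB x0 a haT
  have hq := qa_sg (z := z) hB hc hsg
  have hG := Gz_sm hB hc.z0.le (hc.mem htI)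
  obtain ⟨C, n, hC, hb⟩ := hφ.bd
  obtain ⟨K, hK, hK2⟩ := tv_abs hB hc n
  have hφG : PG (fun y => φ y * Gz A z t y) := hφ.mul hG.pg
  have hi : Integrable (fun x => |qa A x0 z a x| *
      H (Real.sqrt (t - a)) (fun y => |φ y * Gz A z t y|) x) volume := by
    refine Integrable.mono' ((hmom (3 * n)).const_mul (C * K)) ?_ (Eventually.of_forall fun x => ?_)
    · have h1 : Continuous (fun x => H (Real.sqrt (t - a)) (fun y => |φ y * Gz A z t y|) x) :=
        (H_continuous hφG.abs.eg).comp (by fun_prop :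
          Continuous fun x : ℝ => ((Real.sqrt (t - a), x) : ℝ × ℝ))
      exact (hq.cont.abs.mul h1).aestronglyMeasurable
    · have h1 := hK2 C hC φ hφ.cont hb t htI x
      have h0 : 0 ≤ H (Real.sqrt (t - a)) (fun y => |φ y * Gz A z t y|) x := by
        unfold H
        exact integral_nonneg fun g => abs_nonneg _
      rw [Real.norm_eq_abs, abs_mul, abs_abs, abs_of_nonneg h0]
      have hqp : 0 < qa A x0 z a x := div_pos (hpos x) (Gz_pos A z a x)
      rw [abs_of_pos hqp]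
      calc qa A x0 z a x * H (Real.sqrt (t - a)) (fun y => |φ y * Gz A z t y|) x
          ≤ qa A x0 z a x * (C * K * (1 + |x|) ^ (3 * n) * Gz A z a x) :=
            mul_le_mul_of_nonneg_left h1 hqp.le
        _ = C * K * (pd A x0 a x * (1 + |x|) ^ (3 * n)) := by
            unfold qa
            field_simp [(Gz_pos A z a x).ne']
  have hf := fubini hq.cont hφG.cont (Real.sqrt (t - a)) (fun x => hφG.eg.int _ x) hi
  have e1 : (fun y => H (Real.sqrt (t - a)) (qa A x0 z a) y * (φ y * Gz A z t y)) =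
      fun y => pd A x0 t y * φ y := by
    funext y
    rw [hp.pos ha t ht y]
    have e0 : (fun y => pd A x0 a y / Gz A z a y) = qa A x0 z a := rfl
    rw [e0]
    ring
  rw [e1] at hf
  refine ⟨hf.1, ?_⟩
  rw [← hf.2]
  refine integral_congr_ae (Eventually.of_forall fun x => ?_)
  simp only []
  unfold tv qa
  ring

/-- base formula on the first cell -/
theorem base_zero (hB : Back A) (hc : IsCell A a b z) (hp : PCell A x0 a b z) (ha : a = 0)
    {t : ℝ} (ht : t ∈ Ioc a b) {φ : ℝ → ℝ} (hφ : PG φ) :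
    Integrable (fun x => pd A x0 t x * φ x) volume ∧
      ∫ x, pd A x0 t x * φ x = tv A z a t φ x0 := by
  have htI : t ∈ Icc a b := ⟨ht.1.le, ht.2⟩
  have htp : 0 < t := by rw [ha] at ht; exact ht.1
  have hv : Real.toNNReal t ≠ 0 := (Real.toNNReal_pos.2 htp).ne'
  have hG := Gz_sm hB hc.z0.le (hc.mem htI)
  have hφG : PG (fun y => φ y * Gz A z t y) := hφ.mul hG.pg
  have hs : Real.sqrt (Real.toNNReal t) = Real.sqrt (t - a) := by
    rw [Real.coe_toNNReal t htp.le, ha, sub_zero]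
  have h1 := H_density (F := fun y => φ y * Gz A z t y) hφG.cont hv x0
  have h2 := H_density_int (F := fun y => φ y * Gz A z t y) hφG.cont hv x0 (hφG.eg.int _ x0)
  have e1 : (fun x => pd A x0 t x * φ x) = fun y => (Gz A z a x0)⁻¹ *
      (gaussianPDFReal x0 (Real.toNNReal t) y * (φ y * Gz A z t y)) := by
    funext y
    rw [hp.zero ha t ht y, ha]
    field_simp
  rw [e1]
  refine ⟨h2.const_mul _, ?_⟩
  rw [integral_const_mul, h1, hs]
  unfold tv
  rw [div_eq_inv_mul]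

end cell

/-- the law is a probability measure with all moments, uniformly in time -/
theorem muA_mom {A : SD} (hB : Back A) (x0 : ℝ) : ∀ t ∈ Icc 0 A.T,
    IsProbabilityMeasure (muA A x0 t) ∧
    ∀ n : ℕ, Integrable (fun x : ℝ => (1 + |x|) ^ n) (muA A x0 t) := by
  have hdir : IsProbabilityMeasure (muA A x0 0) ∧
      ∀ n : ℕ, Integrable (fun x : ℝ => (1 + |x|) ^ n) (muA A x0 0) := by
    unfold muA
    rw [if_pos le_rfl]
    refine ⟨inferInstance, fun n => ?_⟩
    exact integrable_dirac (by finiteness)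
  refine cells_induct A x0 (fun s => ∀ t ∈ Icc 0 s, IsProbabilityMeasure (muA A x0 t) ∧
    ∀ n : ℕ, Integrable (fun x : ℝ => (1 + |x|) ^ n) (muA A x0 t)) ?_ ?_
  · intro t ht
    have : t = 0 := le_antisymm ht.2 ht.1
    rw [this]
    exact hdir
  · intro a b z hc hp ih t ht
    rcases le_or_gt t a with h | h
    · exact ih t ⟨ht.1, h⟩
    · have htI : t ∈ Icc a b := ⟨h.le, ht.2⟩
      have htp : 0 < t := lt_of_le_of_lt hc.a0 h
      have htT : t ∈ Ioc 0 A.T := ⟨htp, ht.2.trans hc.bT⟩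
      have hpg : ∀ n : ℕ, PG (fun x : ℝ => (1 + |x|) ^ n) := fun n =>
        PG.pow ((PG.const 1).add PG.id.abs) n
      have hone : ∀ x, tv A z a t (fun _ => 1) x = 1 := by
        intro x
        unfold tv
        have e : (fun y => (1:ℝ) * Gz A z t y) = Gz A z t := by funext y; ring
        rw [e, Gz_semi hB hc hc.aI htI h.le, div_self (Gz_pos A z a x).ne']
      have key : (∀ φ : ℝ → ℝ, PG φ → Integrable (fun x => pd A x0 t x * φ x) volume) ∧
          ∫ x, pd A x0 t x * (1:ℝ) = 1 := by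
        rcases eq_or_lt_of_le hc.a0 with h0 | h0
        · refine ⟨fun φ hφ => (base_zero hB hc hp h0.symm ⟨h, ht.2⟩ hφ).1, ?_⟩
          rw [(base_zero hB hc hp h0.symm ⟨h, ht.2⟩ (PG.const 1)).2, hone]
        · have haT : a ∈ Ioc 0 A.T := ⟨h0, hc.ab.le.trans hc.bT⟩
          obtain ⟨ip, im⟩ := ih a ⟨h0.le, le_rfl⟩
          have hmom : ∀ n : ℕ, Integrable (fun x => pd A x0 a x * (1 + |x|) ^ n) volume :=
            fun n => (integrable_muA hB x0 haT _).1 (im n)
          refine ⟨fun φ hφ => (base_pos hB hc hp h0 hmom ⟨h, ht.2⟩ hφ).1, ?_⟩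
          rw [(base_pos hB hc hp h0 hmom ⟨h, ht.2⟩ (PG.const 1)).2]
          simp only [hone]
          have e1 := int_muA hB x0 (t := a) ⟨h0.le, haT.2⟩ (fun _ => (1:ℝ))
          unfold ex at e1
          rw [if_neg (not_le.2 h0)] at e1
          rw [← e1]
          simp
      constructor
      · have e1 := int_muA hB x0 (t := t) ⟨htp.le, htT.2⟩ (fun _ => (1:ℝ))
        unfold ex at e1
        rw [if_neg (not_le.2 htp), key.2] at e1
        -- total mass
        have hfin : Integrable (fun _ : ℝ => (1:ℝ)) (muA A x0 t) :=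
          (integrable_muA hB x0 htT _).2 (key.1 _ (PG.const 1))
        have hfm : IsFiniteMeasure (muA A x0 t) := by
          rcases (integrable_const_iff.1 hfin) with h1 | h1
          · exact absurd h1 one_ne_zero
          · exact h1
        refine ⟨?_⟩
        rw [integral_const, smul_eq_mul, mul_one] at e1
        have h2 : (muA A x0 t univ).toReal = 1 := e1
        rw [← ENNReal.ofReal_toReal (measure_ne_top (muA A x0 t) univ), h2, ENNReal.ofReal_one]
      · intro n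
        exact (integrable_muA hB x0 htT _).2 (key.1 _ (hpg n))

/-- **base formula** -/
theorem base {A : SD} {x0 a b z : ℝ} (hB : Back A) (hc : IsCell A a b z) (hp : PCell A x0 a b z)
    {t : ℝ} (ht : t ∈ Icc a b) {φ : ℝ → ℝ} (hφ : PG φ) :
    ex x0 (pd A x0) t φ = ev A z a (muA A x0 a) t φ := by
  have haT : a ∈ Icc 0 A.T := hc.mem hc.aI
  rcases eq_or_lt_of_le ht.1 with h | h
  · subst h
    unfold ev
    simp only [tv_self hc]
    rw [int_muA hB x0 haT]
  · have htp : 0 < t := lt_of_le_of_lt hc.a0 h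
    unfold ev
    rw [int_muA hB x0 haT]
    rcases eq_or_lt_of_le hc.a0 with h0 | h0
    · unfold ex
      rw [if_neg (not_le.2 htp), if_pos h0.symm.le,
        (base_zero hB hc hp h0.symm ⟨h, ht.2⟩ hφ).2]
    · unfold ex
      rw [if_neg (not_le.2 htp), if_neg (not_le.2 h0)]
      refine (base_pos hB hc hp h0 ?_ ⟨h, ht.2⟩ hφ).2
      intro n
      exact (integrable_muA hB x0 ⟨h0, haT.2⟩ _).1 ((muA_mom hB x0 a haT).2 n)

end

end Crest.Agent.R146.PD_534
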