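import Crest.Agent.R146.Br2_256
import Crest.Agent.R146.PD_534
import Crest.Agent.R146.StepClk_900
import Crest.Agent.R146.PtHlim_45

-- ▼ part R146/Br3_256
section

/-!
# Row 146, R3 bridge (helper256), file 3: `gaussOp` on functions bounded above, restricted weights
-/

set_option autoImplicit false

noncomputable section

open MeasureTheory Set Filter Topology ProbabilityTheory
open scoped InnerProductSpace RealInnerProductSpace NNReal ENNReal

namespace Crest.Agent.R146.Br_256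

open Crest.ProbabilityR.Perceptron Crest.ProbabilityR.InvariantGlass
open Crest.Agent.R146.DualQ_256 Crest.Agent.R146.DualC1_256 Crest.Agent.R146.DualV_256
  Crest.Agent.R146.DualL_256 Crest.Agent.R146.DualG_256 Crest.Agent.R146.CtlC_130
open Crest.Agent.R146.CtlA_130 (BM)
open Crest.Agent.R164.GC (H)

/-! ### `gaussOp` -/

theorem exp_bm {g : ℝ → ℝ} (hg : Continuous g) {K : ℝ} (hK : ∀ x, g x ≤ K) {z : ℝ} (hz : 0 ≤ z) :
    BM (fun u => Real.exp (z * g u)) (Real.exp (z * K)) where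
  meas := (Real.continuous_exp.comp (continuous_const.mul hg)).measurable
  bd := fun x => by
    rw [abs_of_pos (Real.exp_pos _)]
    exact Real.exp_le_exp.2 (mul_le_mul_of_nonneg_left (hK x) hz)

theorem H_cont {φ : ℝ → ℝ} (hφ : Continuous φ) {K : ℝ} (hK : ∀ x, |φ x| ≤ K) (s : ℝ) :
    Continuous (H s φ) := by
  unfold H
  refine continuous_of_dominated (F := fun x g => φ (x + s * g)) (bound := fun _ => K)
    (fun x => (hφ.comp (by fun_prop)).aestronglyMeasurable)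
    (fun x => ae_of_all _ fun g => by rw [Real.norm_eq_abs]; exact hK _) (integrable_const _)
    (ae_of_all _ fun g => hφ.comp (by fun_prop))

theorem expH_pos {g : ℝ → ℝ} (hg : Continuous g) {K : ℝ} (hK : ∀ x, g x ≤ K) {z : ℝ}
    (hz : 0 ≤ z) (s x : ℝ) : 0 < H s (fun u => Real.exp (z * g u)) x := by
  unfold H
  have hi : Integrable (fun w => Real.exp (z * g (x + s * w))) (gaussianReal 0 1) := by
    simpa using exp_gint hg hK hz x s 0 0
  exact integral_exp_pos hi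

theorem exp_gaussOp {g : ℝ → ℝ} (hg : Continuous g) {K : ℝ} (hK : ∀ x, g x ≤ K) {z : ℝ}
    (hz : 0 < z) (d x : ℝ) :
    Real.exp (z * gaussOp z d g x) = H (Real.sqrt d) (fun u => Real.exp (z * g u)) x := by
  rw [R164.GC.gaussOp_ne hz.ne']
  rw [show z * (z⁻¹ * Real.log (H (Real.sqrt d) (fun u => Real.exp (z * g u)) x)) =
      Real.log (H (Real.sqrt d) (fun u => Real.exp (z * g u)) x) by field_simp]
  exact Real.exp_log (expH_pos hg hK hz.le _ _)

theorem gaussOp_cont {g : ℝ → ℝ} (hg : Continuous g) {K : ℝ} (hK : ∀ x, g x ≤ K) {z : ℝ}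
    (hz : 0 < z) (d : ℝ) : Continuous (gaussOp z d g) := by
  have e : gaussOp z d g =
      fun x => z⁻¹ * Real.log (H (Real.sqrt d) (fun u => Real.exp (z * g u)) x) :=
    funext fun x => R164.GC.gaussOp_ne hz.ne' d g x
  rw [e]
  refine continuous_const.mul (Continuous.log ?_ fun x => (expH_pos hg hK hz.le _ _).ne')
  exact H_cont (Real.continuous_exp.comp (continuous_const.mul hg)) (exp_bm hg hK hz.le).bd _

theorem H_sq {A y d : ℝ} (hd : 0 ≤ d) :
    ∫ w : ℝ, (A + A * (2 * y ^ 2 + 2 * (Real.sqrt d) ^ 2 * w ^ 2)) ∂gaussianReal 0 1 =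
      A + A * (2 * y ^ 2 + 2 * d) := by
  have e : ∫ w : ℝ, w ^ 2 ∂gaussianReal 0 1 = 1 := by
    have h3 := variance_fun_id_gaussianReal (μ := 0) (v := 1)
    rw [variance_eq_integral (by fun_prop)] at h3
    simpa using h3
  rw [Real.sq_sqrt hd]
  have j1 : Integrable (fun w : ℝ => 2 * d * w ^ 2) (gaussianReal 0 1) :=
    gauss_sq_int.const_mul _
  have j2 : Integrable (fun w : ℝ => 2 * y ^ 2 + 2 * d * w ^ 2) (gaussianReal 0 1) :=
    (integrable_const _).add j1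
  have j3 : Integrable (fun w : ℝ => A * (2 * y ^ 2 + 2 * d * w ^ 2))
    (gaussianReal 0 1) := j2.const_mul _
  have k1 : ∫ w : ℝ, (2 * y ^ 2 + 2 * d * w ^ 2) ∂gaussianReal 0 1 = 2 * y ^ 2 + 2 * d := by
    rw [integral_add (integrable_const _) j1, integral_const_mul (2 * d), e]; simp
  rw [integral_add (integrable_const _) j3, integral_const_mul, k1]
  simp

theorem QG.H_bd {g : ℝ → ℝ} {A : ℝ} (hg : QG g A) {d : ℝ} (hd : 0 ≤ d) (y : ℝ) :
    |H (Real.sqrt d) g y| ≤ A + A * (2 * y ^ 2 + 2 * d) := by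
  rw [← H_sq hd]
  unfold H
  have h1 : Integrable (fun w : ℝ => A + A * (2 * y ^ 2 + 2 * (Real.sqrt d) ^ 2 * w ^ 2))
      (gaussianReal 0 1) :=
    (integrable_const _).add
      (((integrable_const _).add (gauss_sq_int.const_mul _)).const_mul _)
  refine abs_integral_le_integral_abs.trans (integral_mono (hg.gint y _).abs h1 fun w => ?_)
  refine (hg.bd _).trans ?_
  have h2 : (y + Real.sqrt d * w) ^ 2 ≤ 2 * y ^ 2 + 2 * (Real.sqrt d) ^ 2 * w ^ 2 := by
    nlinarith [sq_nonneg (y - Real.sqrt d * w)]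
  have h3 := mul_le_mul_of_nonneg_left h2 hg.nonneg
  linarith

theorem QG.mono {g : ℝ → ℝ} {A A' : ℝ} (hg : QG g A) (h : A ≤ A') : QG g A' where
  nonneg := hg.nonneg.trans h
  cont := hg.cont
  bd := fun x => (hg.bd x).trans (by nlinarith [sq_nonneg x])

/-- the class is stable, uniformly for variances in `[0,1]` -/
theorem QG.gaussOp {g : ℝ → ℝ} {A K : ℝ} (hg : QG g A) (hK : ∀ x, g x ≤ K) {z : ℝ} (hz : 0 < z)
    {d : ℝ} (hd : 0 ≤ d) (hd1 : d ≤ 1) : QG (gaussOp z d g) (3 * A + |K|) where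
  nonneg := by have := hg.nonneg; positivity
  cont := gaussOp_cont hg.cont hK hz d
  bd := fun x => by
    have h1 := gaussOp_le hg.cont hK hg.gint hz.le d x
    have h2 := step_le hg hK hz.le hd x 0
    simp only [mul_zero, add_zero, ne_eq, OfNat.ofNat_ne_zero, not_false_eq_true, zero_pow,
      sub_zero] at h2
    have h3 : H (Real.sqrt d) g x ≤ Crest.ProbabilityR.InvariantGlass.gaussOp z d g x := h2
    have h4 := (abs_le.1 (hg.H_bd hd x)).1
    have hA := hg.nonneg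
    have h5 : A * d ≤ A := by nlinarith
    have h6 := mul_nonneg (abs_nonneg K) (sq_nonneg x)
    have h7 := mul_nonneg hA (sq_nonneg x)
    rw [abs_le]
    constructor
    · have := abs_nonneg K; nlinarith
    · have := le_abs_self K; nlinarith

theorem gaussOp_semi {g : ℝ → ℝ} (hg : Continuous g) {K : ℝ} (hK : ∀ x, g x ≤ K) {z : ℝ}
    (hz : 0 < z) {d1 d2 : ℝ} (h1 : 0 ≤ d1) (h2 : 0 ≤ d2) (x : ℝ) :
    gaussOp z d1 (gaussOp z d2 g) x = gaussOp z (d1 + d2) g x := by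
  rw [R164.GC.gaussOp_ne hz.ne', R164.GC.gaussOp_ne hz.ne']
  congr 2
  rw [← CtlB_130.H_semi (exp_bm hg hK hz.le) h1 h2 x]
  congr 1
  funext y
  exact exp_gaussOp hg hK hz d2 y


/-! ### restricted weights -/

/-- the weight `w` restricted to `(s,t]` -/
def wr (w : ℝ → ℝ) (s t : ℝ) : ℝ → ℝ := (Ioc s t).indicator w

theorem wr_isWeight {w : ℝ → ℝ} (hw : PF.IsWeight w) (s t : ℝ) : PF.IsWeight (wr w s t) where
  int := hw.int.indicator measurableSet_Ioc
  nonneg := fun r hr => by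
    unfold wr
    by_cases h : r ∈ Ioc s t
    · rw [indicator_of_mem h]; exact hw.nonneg r hr
    · rw [indicator_of_notMem h]

section PF

variable {E : Type*} [NormedAddCommGroup E] [InnerProductSpace ℝ E] [CompleteSpace E]
variable (F : PF E) {w : ℝ → ℝ} (hw : PF.IsWeight w)

/-- `∫_s^t w_r Pi_r dr` -/
def OO (s t : ℝ) : E →L[ℝ] E := F.op (wr_isWeight hw s t)

theorem inner_OO {s t : ℝ} (hs : 0 ≤ s) (hst : s ≤ t) (ht : t ≤ 1) (x y : E) :
    ⟪OO F hw s t x, y⟫_ℝ = ∫ r in s..t, w r * ⟪F.Pi r x, y⟫_ℝ := by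
  unfold OO
  rw [F.inner_op, intervalIntegral.integral_of_le hst]
  unfold PF.bil wr
  have e : (fun r => (Ioc s t).indicator w r * ⟪F.Pi r x, y⟫_ℝ) =
      (Ioc s t).indicator (fun r => w r * ⟪F.Pi r x, y⟫_ℝ) := by
    funext r
    by_cases h : r ∈ Ioc s t
    · rw [indicator_of_mem h, indicator_of_mem h]
    · rw [indicator_of_notMem h, indicator_of_notMem h, zero_mul]
  rw [e, setIntegral_indicator measurableSet_Ioc]
  congr 2
  rw [inter_eq_right]
  exact fun r hr => ⟨hs.trans hr.1.le, hr.2.trans ht⟩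

omit [CompleteSpace E] in
include hw in
theorem ii_w {s t : ℝ} (hs : 0 ≤ s) (hst : s ≤ t) (ht : t ≤ 1) (x y : E) :
    IntervalIntegrable (fun r => w r * ⟪F.Pi r x, y⟫_ℝ) volume s t := by
  rw [intervalIntegrable_iff_integrableOn_Ioc_of_le hst]
  exact (F.integrable_bil hw.int x y).mono_set fun r hr => ⟨hs.trans hr.1.le, hr.2.trans ht⟩

theorem OO_self {s : ℝ} (hs : 0 ≤ s) (hs1 : s ≤ 1) (x : E) : OO F hw s s x = 0 := by
  refine ext_inner_right ℝ fun y => ?_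
  rw [inner_OO F hw hs le_rfl hs1, intervalIntegral.integral_same, inner_zero_left]

theorem OO_add {s t u : ℝ} (hs : 0 ≤ s) (hst : s ≤ t) (htu : t ≤ u) (hu : u ≤ 1) (x : E) :
    OO F hw s t x + OO F hw t u x = OO F hw s u x := by
  refine ext_inner_right ℝ fun y => ?_
  rw [inner_add_left, inner_OO F hw hs hst (htu.trans hu), inner_OO F hw (hs.trans hst) htu hu,
    inner_OO F hw hs (hst.trans htu) hu]
  exact intervalIntegral.integral_add_adjacent_intervals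
    (ii_w F hw hs hst (htu.trans hu) x y) (ii_w F hw (hs.trans hst) htu hu x y)

theorem Pi_OO {s t : ℝ} (hs : 0 ≤ s) (hst : s ≤ t) (ht : t ≤ 1) {t' : ℝ} (htt : t ≤ t') (x : E) :
    F.Pi t' (OO F hw s t x) = OO F hw s t x := by
  refine ext_inner_right ℝ fun y => ?_
  rw [F.sa, inner_OO F hw hs hst ht, inner_OO F hw hs hst ht]
  refine intervalIntegral.integral_congr fun r hr => ?_
  rw [uIcc_of_le hst] at hr
  rw [← F.sa, F.comp' (hr.2.trans htt)]


/-- constant weight: Riemann approximation of `∫ Pi_r dr` by the left end -/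
theorem norm_OO_sub_le {s t z : ℝ} (hs : 0 ≤ s) (hst : s ≤ t) (ht : t ≤ 1) (hz : 0 ≤ z)
    (hwz : ∀ r ∈ Ioo s t, w r = z) (x : E) :
    ‖OO F hw s t x - (z * (t - s)) • F.Pi s x‖ ≤ z * (t - s) * Real.sqrt (F.q x t - F.q x s) := by
  set v := OO F hw s t x - (z * (t - s)) • F.Pi s x with hv
  set κ := Real.sqrt (F.q x t - F.q x s) with hκ
  have h1 : ‖v‖ ^ 2 ≤ z * (t - s) * κ * ‖v‖ := by
    rw [← real_inner_self_eq_norm_sq]
    have e1 : ⟪v, v⟫_ℝ = ∫ r in s..t, z * ⟪F.Pi r x - F.Pi s x, v⟫_ℝ := by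
      conv_lhs => rw [hv]
      rw [inner_sub_left, inner_OO F hw hs hst ht, real_inner_smul_left]
      have e2 : ∫ r in s..t, w r * ⟪F.Pi r x, v⟫_ℝ = ∫ r in s..t, z * ⟪F.Pi r x, v⟫_ℝ := by
        rw [intervalIntegral.integral_of_le hst, intervalIntegral.integral_of_le hst,
          integral_Ioc_eq_integral_Ioo, integral_Ioc_eq_integral_Ioo]
        exact setIntegral_congr_fun measurableSet_Ioo fun r hr => by rw [hwz r hr]
      have e3 : z * (t - s) * ⟪F.Pi s x, v⟫_ℝ = ∫ r in s..t, z * ⟪F.Pi s x, v⟫_ℝ := by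
        rw [intervalIntegral.integral_const, smul_eq_mul]; ring
      have i1 : IntervalIntegrable (fun r => z * ⟪F.Pi r x, v⟫_ℝ) volume s t := by
        have := (((F.q_mono (x + v)).intervalIntegrable (μ := volume) (a := s) (b := t)).sub
          ((F.q_mono (x - v)).intervalIntegrable (μ := volume) (a := s) (b := t))).const_mul (z / 4)
        refine this.congr fun r _ => ?_
        rw [F.inner_eq_q]; ring
      rw [e2, e3, ← intervalIntegral.integral_sub i1 intervalIntegrable_const]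
      refine intervalIntegral.integral_congr fun r _ => ?_
      rw [inner_sub_left]; ring
    rw [e1]
    have h2 := intervalIntegral.norm_integral_le_of_norm_le_const (a := s) (b := t)
      (f := fun r => z * ⟪F.Pi r x - F.Pi s x, v⟫_ℝ) (C := z * (κ * ‖v‖)) (fun r hr => by
        rw [uIoc_of_le hst] at hr
        rw [Real.norm_eq_abs, abs_mul, abs_of_nonneg hz]
        refine mul_le_mul_of_nonneg_left ?_ hz
        refine (abs_real_inner_le_norm _ _).trans (mul_le_mul_of_nonneg_right ?_ (norm_nonneg _))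
        refine Real.le_sqrt_of_sq_le ?_
        rw [F.norm_sub_sq hr.1.le]
        have := F.q_mono x hr.2
        linarith)
    rw [Real.norm_eq_abs, abs_of_nonneg (by linarith : 0 ≤ t - s)] at h2
    have h3 := le_abs_self (∫ r in s..t, z * ⟪F.Pi r x - F.Pi s x, v⟫_ℝ)
    calc _ ≤ _ := h3
      _ ≤ _ := h2
      _ = _ := by ring
  by_cases h0 : ‖v‖ = 0
  · rw [h0]; have : 0 ≤ t - s := by linarith
    positivity
  · have hp : 0 < ‖v‖ := lt_of_le_of_ne (norm_nonneg _) (Ne.symm h0)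
    rw [pow_two] at h1
    exact le_of_mul_le_mul_right h1 hp

end PF

end Crest.Agent.R146.Br_256
end
end

-- ▼ part R146/BrIf_256

/-!
# Row 146, R3 bridge (helper256): INTERFACE

`A : SD`, a Brownian space, `lam : L2`.  Notation:
* `EP t = condPi (brownianFiltration B hBm) P t` conditional expectation at time `t` on `L2`;
* `Go A lam s t Y = Y + (B_t - B_s) + ∫_s^t m_r E_r lam dr`, `Xp A x0 lam t = Go A lam 0 t x0`;
* `Cq A lam s t = ∫_s^t m_r ‖E_r lam‖² dr`;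
* `fA d x = -(x_-)²/(2d)`.

PROPS (leaves): `CELL`, `UP`, `LB`, `EQT`, `IDT`, `LAWT`, `FIN`.
-/

set_option autoImplicit false

noncomputable section

open MeasureTheory Set Filter Topology ProbabilityTheory
open scoped InnerProductSpace RealInnerProductSpace NNReal ENNReal

namespace Crest.Agent.R146.Br_256

open Crest.ProbabilityR.Perceptron Crest.ProbabilityR.InvariantGlass
open Crest.Agent.R146.DualQ_256 Crest.Agent.R146.DualC1_256 Crest.Agent.R146.DualV_256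
  Crest.Agent.R146.DualL_256 Crest.Agent.R146.DualG_256 Crest.Agent.R146.CtlC_130
open Crest.Agent.R146.StepDef_791 Crest.Agent.R146.Cell_534 Crest.Agent.R146.PD_534
open Crest.Agent.R164.GC (H)

theorem wA_wt (A : SD) : Wt A.m where
  meas := StepClk_900.mrc_meas A.cs A.T
  int := by
    have := StepClk_900.m_intble A 0 1
    rw [intervalIntegrable_iff_integrableOn_Icc_of_le zero_le_one] at this
    exact this
  nonneg := fun t _ => A.m_nonneg t

theorem wA (A : SD) : PF.IsWeight A.m := (wA_wt A).isWeight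

/-- terminal function (soft wall) -/
def fA (d x : ℝ) : ℝ := -(1 / (2 * d)) * (max (-x) 0) ^ 2

section

variable {Ω : Type*} [mΩ : MeasurableSpace Ω] {P : Measure Ω} [IsProbabilityMeasure P]
  {B : ℝ≥0 → Ω → ℝ} (hBm : ∀ t, Measurable (B t)) (hB : IsBrownianReal B P)

/-- the family of conditional expectations on `L2` -/
abbrev FB (P : Measure Ω) [IsProbabilityMeasure P] (B : ℝ≥0 → Ω → ℝ)
    (hBm : ∀ t, Measurable (B t)) : PF (Ω →₂[P] ℝ) := fam (brownianFiltration B hBm) P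

/-- the increment `B_t - B_s` -/
def dZ (s t : ℝ) : Ω →₂[P] ℝ := Zt hB t.toNNReal - Zt hB s.toNNReal

/-- `Y + (B_t - B_s) + ∫_s^t m_r E_r lam dr` -/
def Go (A : SD) (lam : Ω →₂[P] ℝ) (s t : ℝ) (Y : Ω →₂[P] ℝ) : Ω →₂[P] ℝ :=
  Y + dZ hB s t + OO (FB P B hBm) (wA A) s t lam

/-- the process -/
def Xp (A : SD) (x0 : ℝ) (lam : Ω →₂[P] ℝ) (t : ℝ) : Ω →₂[P] ℝ := Go hBm hB A lam 0 t (cst P x0)

/-- the cost -/
def Cq (A : SD) (lam : Ω →₂[P] ℝ) (s t : ℝ) : ℝ := ∫ r in s..t, A.m r * (FB P B hBm).q lam r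

/-- **CELL** (helper256) -/
def CELL : Prop := ∀ (A : SD) (lam : Ω →₂[P] ℝ) (a b z : ℝ), 0 ≤ a → a ≤ b → b ≤ A.T → 0 < z →
  (∀ r ∈ Ioo a b, A.m r = z) → ∀ Y : Ω →₂[P] ℝ, condPi (brownianFiltration B hBm) P a Y = Y →
  ∀ (g : ℝ → ℝ) (C K : ℝ), QL g C → (∀ x, g x ≤ K) →
    ∫ ω, g ((Go hBm hB A lam a b Y : Ω →₂[P] ℝ) ω) ∂P - 1 / 2 * Cq hBm A lam a b ≤
      ∫ ω, gaussOp z (b - a) g (Y ω) ∂P

/-- **UP** -/
def UP : Prop := ∀ (A : SD) (lam : Ω →₂[P] ℝ),
  (∀ s t : ℝ, 0 ≤ s → s ≤ t → t ≤ A.T → ∀ Y : Ω →₂[P] ℝ,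
    condPi (brownianFiltration B hBm) P s Y = Y →
    ∫ ω, A.psi t ((Go hBm hB A lam s t Y : Ω →₂[P] ℝ) ω) ∂P - 1 / 2 * Cq hBm A lam s t ≤
      ∫ ω, A.psi s (Y ω) ∂P) ∧
  (∀ s : ℝ, 0 ≤ s → s ≤ A.T → ∀ Y : Ω →₂[P] ℝ,
    condPi (brownianFiltration B hBm) P s Y = Y →
    ∫ ω, fA A.d ((Go hBm hB A lam s 1 Y : Ω →₂[P] ℝ) ω) ∂P - 1 / 2 * Cq hBm A lam s 1 ≤
      ∫ ω, A.psi s (Y ω) ∂P)

/-- **LB** (helper952 / helper522, `psi_le_QQ`) -/
def LB : Prop := ∀ (A : SD) (x0 : ℝ) (x : Ω →₂[P] ℝ),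
  x ∈ cone P →
  A.psi 0 x0 ≤ QQ (brownianFiltration B hBm) A.m (1 / A.d) (-x0) (ZB hB) x

/-- the optimal dual variable: `lam ≥ 0`, `lam` = negative part of `X_1` divided by `d` -/
structure LK (A : SD) (x0 : ℝ) (lam : Ω →₂[P] ℝ) : Prop where
  mem : lam ∈ cone P
  kkt : (lam : Ω → ℝ) =ᵐ[P] fun ω => 1 / A.d * max (-((Xp hBm hB A x0 lam 1 : Ω →₂[P] ℝ) ω)) 0

/-- **EQT**: equality at every time -/
def EQT : Prop := ∀ (A : SD) (x0 : ℝ) (lam : Ω →₂[P] ℝ), LK hBm hB A x0 lam →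
  ∀ t ∈ Icc 0 A.T,
    (∫ ω, A.psi t ((Xp hBm hB A x0 lam t : Ω →₂[P] ℝ) ω) ∂P - 1 / 2 * Cq hBm A lam 0 t =
      A.psi 0 x0) ∧
    (∫ ω, fA A.d ((Xp hBm hB A x0 lam 1 : Ω →₂[P] ℝ) ω) ∂P - 1 / 2 * Cq hBm A lam t 1 =
      ∫ ω, A.psi t ((Xp hBm hB A x0 lam t : Ω →₂[P] ℝ) ω) ∂P)

/-- **IDT**: `E_t lam = ψ_x(t, X_t)` -/
def IDT : Prop := ∀ (A : SD) (x0 : ℝ) (lam : Ω →₂[P] ℝ), LK hBm hB A x0 lam →
  ∀ t ∈ Icc 0 A.T, (condPi (brownianFiltration B hBm) P t lam : Ω → ℝ) =ᵐ[P]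
    fun ω => A.u t ((Xp hBm hB A x0 lam t : Ω →₂[P] ℝ) ω) / A.D t

/-- **LAWT**: the law of `X_t` is `muA` (density `pd`) -/
def LAWT : Prop := ∀ (A : SD) (x0 : ℝ) (lam : Ω →₂[P] ℝ), LK hBm hB A x0 lam →
  ∀ t ∈ Icc 0 A.T, P.map (fun ω => (Xp hBm hB A x0 lam t : Ω →₂[P] ℝ) ω) = muA A x0 t

/-- **EXL**: existence of the optimal dual variable in the frame -/
def EXL : Prop := ∀ (A : SD) (x0 : ℝ), ∃ l : HH P B hBm,
  LK hBm hB A x0 (l : Ω →₂[P] ℝ) ∧
  PtHlim_45.Kkt (RB P B hBm) (KB P B hBm) (xi hBm hB x0) A.D l ∧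
  ∀ t ∈ Icc (0 : ℝ) 1, (((RB P B hBm).P t (xi hBm hB x0 + (RB P B hBm).Dop A.D l) :
      HH P B hBm) : Ω →₂[P] ℝ) =
    Xp hBm hB A x0 (l : Ω →₂[P] ℝ) t + A.D t • condPi (brownianFiltration B hBm) P t l

/-- **FIN**: the bridge -/
def FIN : Prop := ∀ (A : SD) (x0 : ℝ), ∃ l : HH P B hBm,
  PtHlim_45.Kkt (RB P B hBm) (KB P B hBm) (xi hBm hB x0) A.D l ∧
  (∀ t ∈ Icc 0 A.T, ‖(RB P B hBm).P t l‖ ^ 2 = Lams A x0 (pd A x0) t) ∧
  (∀ t ∈ Icc 0 A.T, ⟪(RB P B hBm).P t (xi hBm hB x0 + (RB P B hBm).Dop A.D l), l⟫_ℝ =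
    Cs A x0 (pd A x0) t)

end

end Crest.Agent.R146.Br_256
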