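import Crest.Agent.R146.MaxPCmp2_371

/-!
Slope barriers with transients in a general clock (row 146, helper371).

Clock factor `s(t) > 0` with `s' = (1 + ω y)/2 s³`, `y = b/s²`:
`ω = 0`: `s = τ^{-1/2}`, `y = ν = τ b`;  `ω = 1`: `s = χ^{-1/2}`, `y = Y = m K0 = χ b`.
Stationary inequality: `(1+ω y)K/2 + K²K''/2 + y (v(1-v)K' - (2-3v)K) ≤ 0` (resp. `≥ 0`) for the values `y` taken.
Transient `e' = κ e s²` (so `e ~ exp(-κ (r₁ - r))` in the clock `dr = s² dt`).
-/

set_option autoImplicit false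

open Set Filter Topology

namespace Crest.Agent.R146.SlopeT_371

open MaxP_371 MaxP2_371 MaxPCmp_371

variable {t0 t1 : ℝ} {b : ℝ → ℝ} {u V P Px Pxx : ℝ → ℝ → ℝ} {M : ℝ}

/-- the stationary expression -/
noncomputable def Stat (ω y v K K1 K2 : ℝ) : ℝ :=
  (1 + ω * y) * K / 2 + K ^ 2 * K2 / 2 + y * (v * (1 - v) * K1 - (2 - 3 * v) * K)



end Crest.Agent.R146.SlopeT_371
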