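import Crest.Agent.R146.PP4_454
import Crest.Agent.R146.C1D_445

-- ▼ part R146/C2Eng_454
section

/-!
# Row 146, helper454: nine vertex test with shared coefficients

`E = c00 + r c01 + δ (c10 + r c11 + r² c12) + δ² (c20 + r c21)` for `δ ∈ [a/2^12, b/2^12]` and
`r = s M`, `s ∈ [0,1]`: positive if positive at the nine vertices (Bernstein). `chk9` is the test on the
pieces meeting `(lo/8, hi/8]`; the vertex expressions share their subterms (cheap for the kernel).
-/

set_option autoImplicit false

namespace Crest.Agent.R146.C2Eng_454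

open Crest.Agent.R146.PP865 Crest.Agent.R146.PP4_454

structure C9 where
  c00 : Ex
  c01 : Ex
  c10 : Ex
  c11 : Ex
  c12 : Ex
  c20 : Ex
  c21 : Ex

/-- the value at `(δ, r)` -/
noncomputable def C9.val (C : C9) (v : ℕ → ℝ) (d r : ℝ) : ℝ :=
  C.c00.evR v + r * C.c01.evR v + d * (C.c10.evR v + r * C.c11.evR v + r ^ 2 * C.c12.evR v)
    + d ^ 2 * (C.c20.evR v + r * C.c21.evR v)

/-- coefficients at the vertex `r = 0` (`0`), `r = M` (`1`), `(M/2, 0)` (`2`) -/
def C9.a0 (C : C9) (M : Ex) : ℕ → Ex
  | 0 => C.c00
  | 1 => C.c00 + M * C.c01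
  | _ => C.c00 + .cst 1 1 * (M * C.c01)

def C9.a1 (C : C9) (M : Ex) : ℕ → Ex
  | 0 => C.c10
  | 1 => C.c10 + M * (C.c11 + M * C.c12)
  | _ => C.c10 + .cst 1 1 * (M * C.c11)

def C9.a2 (C : C9) (M : Ex) : ℕ → Ex
  | 0 => C.c20
  | 1 => C.c20 + M * C.c21
  | _ => C.c20 + .cst 1 1 * (M * C.c21)

/-- vertex expression: `x = d`, `y = d²` (or the middle vertex) -/
def vx (A0 A1 A2 x y : Ex) : Ex := A0 + (x * A1 + y * A2)

def C9.vs (C : C9) (M : Ex) (a b : ℤ) : List Ex :=
  [vx (C.a0 M 0) (C.a1 M 0) (C.a2 M 0) (.cst a 12) (.cst (a * a) 24),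
   vx (C.a0 M 0) (C.a1 M 0) (C.a2 M 0) (.cst b 12) (.cst (b * b) 24),
   vx (C.a0 M 0) (C.a1 M 0) (C.a2 M 0) (.cst (a + b) 13) (.cst (a * b) 24),
   vx (C.a0 M 1) (C.a1 M 1) (C.a2 M 1) (.cst a 12) (.cst (a * a) 24),
   vx (C.a0 M 1) (C.a1 M 1) (C.a2 M 1) (.cst b 12) (.cst (b * b) 24),
   vx (C.a0 M 1) (C.a1 M 1) (C.a2 M 1) (.cst (a + b) 13) (.cst (a * b) 24),
   vx (C.a0 M 2) (C.a1 M 2) (C.a2 M 2) (.cst a 12) (.cst (a * a) 24),
   vx (C.a0 M 2) (C.a1 M 2) (C.a2 M 2) (.cst b 12) (.cst (b * b) 24),
   vx (C.a0 M 2) (C.a1 M 2) (C.a2 M 2) (.cst (a + b) 13) (.cst (a * b) 24)]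

def chk9 (P n dg pr m : ℕ) (err : ℕ → ℕ) (lo hi a b : ℤ) (C : C9) (M : Ex) (p : Pc)
    (ps : List Pc) : Bool :=
  (C.vs M a b).all (fun e => e.bnd m) &&
    (p :: ps).all fun q => !(inO lo hi q) ||
      (C.vs M a b).all fun e => TM.posT n (e.evT dg pr (q.envT P err))

theorem chk9_iff {P n dg pr m : ℕ} {err : ℕ → ℕ} {lo hi a b : ℤ} {C : C9} {M : Ex} {p : Pc}
    {ps : List Pc} (h : chk9 P n dg pr m err lo hi a b C M p ps = true) :
    ∀ e ∈ C.vs M a b, e.bnd m = true ∧ checkO P n dg pr err lo hi e p ps = true := by
  simp only [chk9, Bool.and_eq_true, List.all_eq_true] at h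
  intro e he
  refine ⟨h.1 e he, ?_⟩
  simp only [checkO, List.all_eq_true]
  intro q hq
  have := h.2 q hq
  rcases hio : inO lo hi q with _ | _
  · simp
  · rw [hio] at this
    simp only [Bool.not_true, Bool.false_or, List.all_eq_true] at this ⊢
    exact this e he

theorem bern {x0 x1 x2 l0 l1 l2 : ℝ} (h0 : 0 < x0) (h1 : 0 < x1) (h2 : 0 < x2) (p0 : 0 ≤ l0)
    (p1 : 0 ≤ l1) (p2 : 0 ≤ l2) (hs : l0 + l1 + l2 = 1) : 0 < l0 * x0 + l1 * x1 + l2 * x2 := by
  rcases eq_or_lt_of_le p0 with q0 | q0
  · rcases eq_or_lt_of_le p1 with q1 | q1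
    · have : l2 = 1 := by linarith
      rw [← q0, ← q1, this]; linarith
    · have := mul_pos q1 h1
      have := mul_nonneg p2 h2.le
      rw [← q0]; linarith
  · have := mul_pos q0 h0
    have := mul_nonneg p1 h1.le
    have := mul_nonneg p2 h2.le
    linarith

/-- the nine vertices -/
theorem nine {c00 c01 c10 c11 c12 c20 c21 a b d M s : ℝ} (ha : a ≤ d) (hb : d ≤ b)
    (h0 : 0 ≤ s) (h1 : s ≤ 1)
    (g00 : 0 < c00 + (a * c10 + a ^ 2 * c20))
    (g01 : 0 < c00 + (b * c10 + b ^ 2 * c20))
    (g02 : 0 < c00 + ((a + b) / 2 * c10 + a * b * c20))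
    (g10 : 0 < c00 + M * c01 + (a * (c10 + M * (c11 + M * c12)) + a ^ 2 * (c20 + M * c21)))
    (g11 : 0 < c00 + M * c01 + (b * (c10 + M * (c11 + M * c12)) + b ^ 2 * (c20 + M * c21)))
    (g12 : 0 < c00 + M * c01 + ((a + b) / 2 * (c10 + M * (c11 + M * c12))
      + a * b * (c20 + M * c21)))
    (g20 : 0 < c00 + 1 / 2 * (M * c01) + (a * (c10 + 1 / 2 * (M * c11))
      + a ^ 2 * (c20 + 1 / 2 * (M * c21))))
    (g21 : 0 < c00 + 1 / 2 * (M * c01) + (b * (c10 + 1 / 2 * (M * c11))
      + b ^ 2 * (c20 + 1 / 2 * (M * c21))))
    (g22 : 0 < c00 + 1 / 2 * (M * c01) + ((a + b) / 2 * (c10 + 1 / 2 * (M * c11))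
      + a * b * (c20 + 1 / 2 * (M * c21)))) :
    0 < c00 + s * M * c01 + d * (c10 + s * M * c11 + (s * M) ^ 2 * c12)
      + d ^ 2 * (c20 + s * M * c21) := by
  obtain ⟨l0, l1, l2, p0, p1, p2, hs, e1, e2⟩ := tri_sq ha hb
  have k0 := bern g00 g01 g02 p0 p1 p2 hs
  have k1 := bern g10 g11 g12 p0 p1 p2 hs
  have k2 := bern g20 g21 g22 p0 p1 p2 hs
  have k := bern k0 k1 k2 (sq_nonneg (1 - s)) (sq_nonneg s)
    (show (0:ℝ) ≤ 2 * s * (1 - s) from mul_nonneg (by linarith) (by linarith)) (by ring)
  refine lt_of_lt_of_eq k ?_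
  rw [e2, e1]
  linear_combination (c00 + s * M * c01) * hs

theorem sM {M r : ℝ} (h : (0 ≤ r ∧ r ≤ M) ∨ (r ≤ 0 ∧ M ≤ r)) :
    ∃ s : ℝ, 0 ≤ s ∧ s ≤ 1 ∧ r = s * M := by
  rcases h with ⟨h1, h2⟩ | ⟨h1, h2⟩
  · rcases eq_or_lt_of_le (h1.trans h2) with h3 | h3
    · exact ⟨0, le_rfl, zero_le_one, by rw [zero_mul]; exact le_antisymm (h3 ▸ h2) h1⟩
    · exact ⟨r / M, div_nonneg h1 h3.le, (div_le_one h3).2 h2, by field_simp⟩
  · rcases eq_or_lt_of_le (h2.trans h1) with h3 | h3
    · exact ⟨0, le_rfl, zero_le_one, by rw [zero_mul]; exact le_antisymm h1 (h3 ▸ h2)⟩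
    · have h4 := h3.ne
      exact ⟨r / M, div_nonneg_of_nonpos h1 h3.le, (div_le_one_of_neg h3).2 h2, by
        field_simp⟩

theorem chk9_sound {P n dg pr m : ℕ} {err : ℕ → ℕ} {lo hi a b : ℤ} {C : C9} {M : Ex} {p : Pc}
    {ps : List Pc} (hch : chain adj p ps = true)
    (h : chk9 P n dg pr m err lo hi a b C M p ps = true) {z : ℝ}
    (h1 : p.lo < z) (h2 : z ≤ hiL p ps) (hlo : (lo : ℝ) / 8 < z) (hhi : z ≤ (hi : ℝ) / 8)
    {w : ℕ → ℝ} (hw0 : w 0 = z)
    (hw : ∀ i ≤ m, |w i - cv P p ps z i| ≤ (err i : ℝ) / 2 ^ P) {d r : ℝ}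
    (ha : (a : ℝ) / 2 ^ 12 ≤ d) (hb : d ≤ (b : ℝ) / 2 ^ 12)
    (hr : (0 ≤ r ∧ r ≤ M.evR w) ∨ (r ≤ 0 ∧ M.evR w ≤ r)) : 0 < C.val w d r := by
  have key : ∀ e ∈ C.vs M a b, 0 < e.evR w := fun e he =>
    checkO_sound (chk9_iff h e he).1 hch (chk9_iff h e he).2 z h1 h2 hlo hhi w hw0 hw
  obtain ⟨s, s0, s1, rfl⟩ := sM hr
  simp only [C9.vs, List.mem_cons, List.not_mem_nil, or_false, forall_eq_or_imp, forall_eq, vx,
    C9.a0, C9.a1, C9.a2, Ex.evR_add, Ex.evR_mul, Ex.evR_cst] at key
  obtain ⟨g00, g01, g02, g10, g11, g12, g20, g21, g22⟩ := key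
  push_cast at g00 g01 g02 g10 g11 g12 g20 g21 g22
  have e1 : ((a : ℝ) * a) / 2 ^ 24 = (a / 2 ^ 12) ^ 2 := by ring
  have e2 : ((b : ℝ) * b) / 2 ^ 24 = (b / 2 ^ 12) ^ 2 := by ring
  have e3 : ((a : ℝ) * b) / 2 ^ 24 = a / 2 ^ 12 * (b / 2 ^ 12) := by ring
  have e4 : ((a : ℝ) + b) / 2 ^ 13 = (a / 2 ^ 12 + b / 2 ^ 12) / 2 := by ring
  have e5 : (1 : ℝ) / 2 ^ 1 = 1 / 2 := by norm_num
  rw [e1] at g00 g10 g20
  rw [e2] at g01 g11 g21
  rw [e3, e4] at g02 g12 g22
  rw [e5] at g20 g21 g22
  exact nine ha hb s0 s1 g00 g01 g02 g10 g11 g12 g20 g21 g22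

end Crest.Agent.R146.C2Eng_454
private theorem rz_829b3487be : type_of% @_root_.Crest.Agent.R146.C2Eng_454.C9.a0.eq_1 := @_root_.Crest.Agent.R146.C2Eng_454.C9.a0.eq_1 -- L32
private theorem rz_99f3c92c72 : type_of% @_root_.Crest.Agent.R146.C2Eng_454.C9.a1.eq_1 := @_root_.Crest.Agent.R146.C2Eng_454.C9.a1.eq_1 -- L37
private theorem rz_eaeef2abff : type_of% @_root_.Crest.Agent.R146.C2Eng_454.C9.a2.eq_1 := @_root_.Crest.Agent.R146.C2Eng_454.C9.a2.eq_1 -- L42
end

-- ▼ part R146/C2Data_454
section

/-!
# Row 146, helper454: law cells of NUMREF (C2), data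

Ten more functions on helper848's grid (numbers 7-16 of the extended list): majorants of the level
shift `M+` (7), `M-` (8), `K+` (9), `K-` (10) (majorants of `K2 M^2`), `q T` (11), `q k'' - R k'` (12),
`q B` (13), the constant `435930 / 2^20` (14), majorants of the slope ratio (15), (16).
-/

set_option autoImplicit false
set_option linter.style.longLine false

namespace Crest.Agent.R146.C2Data_454

open PP865 EncR_848

def g0 : List Poly := [[], [], [], [], [], [], [], [28569108480], [], []]

def h0 : List (List Poly) := [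
  [[], [], [], [], [], [], [], [28569108480], [], []],
  [[], [], [], [], [], [], [], [28569108480], [], []],
  [[], [], [], [], [], [], [], [28569108480], [], []],
  [[], [], [], [], [], [], [], [28569108480], [], []],
  [[], [], [], [], [], [], [], [28569108480], [], []],
  [[], [], [], [], [], [], [], [28569108480], [], []],
  [[], [], [], [], [], [], [], [28569108480], [], []]]
def h1 : List (List Poly) := [
  [[], [], [], [], [], [], [], [28569108480], [], []],
  [[], [], [], [], [], [], [], [28569108480], [], []],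
  [[], [], [], [], [], [], [], [28569108480], [], []],
  [[], [], [], [], [], [], [], [28569108480], [], []],
  [[82496716800, -661651456], [87126179840, -567279616], [23588765696, 100663296], [549755813888], [65342689437, -122743233, -3124623, -73764, -2234, -92], [-975976908, -40086929, -1144324, -26108, -370, -58], [832416745, 35053804, 1122115, 38371, 1791, 4], [28569108480], [77334249472, -993853440, -15138816, 589824], [80462807040, -933298176, -18677760, 589824]],
  [[81173413888, -661651456], [85992669184, -567279616], [23790092288, 100663296], [549755813888], [65084075590, -136206137, -3628900, -95963, -3442, -142], [-1060944583, -44993294, -1312903, -29911, -524, -110], [907349002, 40062241, 1399006, 55641, 2704, -1], [28569108480], [75290968064, -1046544384, -10813440, 851968], [78524907520, -1003290624, -15925248, 851968]],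
  [[79851159552, -661651456], [84859158528, -567279616], [24008196096, 117440512], [549755813888], [64796320074, -151995994, -4300411, -130512, -5409, -245], [-1156432035, -50623373, -1506253, -33936, -534, -187], [993560455, 46420482, 1807758, 83515, 4366, -12], [28569108480], [73160523776, -1082327040, -8454144, -65536], [76466028544, -1048510464, -8060928, -65536]]]
def h2 : List (List Poly) := [
  [[78527856640, -661651456], [83724599296, -567279616], [24259854336, 134217728], [549755813888], [64473987708, -170957474, -5234521, -184971, -8509, -379], [-1263986342, -57077163, -1724883, -37889, -415, -270], [1094374336, 54805465, 2428613, 127935, 6985, -31], [28569108480], [70961594368, -1116733440, -8650752, 0], [74335911936, -1082130432, -8650752, 0]],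
  [[76732694528, -1133510656], [82402344960, -756023296], [24226299904, -150994944], [549755813888], [64109506272, -194419233, -6581127, -270109, -13207, -574], [-1385354339, -64452467, -1966083, -41067, -457, -383], [1214839287, 66293516, 3383883, 196803, 10382, -71], [28569108480], [68690182144, -1161363456, -18677760, -3342336], [72153759744, -1086652416, 1376256, -3342336]],
  [[74464624640, -1133510656], [80890298368, -756023296], [23907532800, -150994944], [549755813888], [63691952489, -224454804, -8566933, -400891, -20022, -793], [-1522463497, -72829718, -2223929, -42456, -56, -511], [1362710255, 82548424, 4845936, 299430, 15316, -145], [28569108480], [66275770368, -1246887936, -9437184, 6422528], [69910396928, -1209139200, -47972352, 6422528]],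
  [[72007811072, -1323302912], [79189508096, -944766976], [23471325184, -268435456], [549755813888], [63205221704, -264239781, -11520178, -596092, -29434, -1080], [-1677365378, -82246112, -2482487, -40426, 533, -626], [1549839034, 106042199, 7045715, 444718, 21102, -282], [28569108480], [63782125568, -1248067584, -11403264, -7077888], [67419111424, -1202454528, 31064064, -7077888]],
  [[69362253824, -1323302912], [77299974144, -944766976], [22917677056, -268435456], [549755813888], [62625386755, -318503862, -15893062, -877924, -41700, -1359], [-1852109515, -92654149, -2713550, -32159, 1535, -725], [1794008183, 140262526, 10256693, 637306, 26910, -534], [28569108480], [61190307840, -1358954496, -34209792, -524288], [65049067520, -1222115328, -31064064, -524288]],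
  [[66527952896, -1512046592], [75031904256, -1323302912], [22246588416, -402653184], [549755813888], [61917072305, -394056161, -22273391, -1268756, -56577, -1592], [-2048512237, -103854465, -2868497, -13890, 3107, -709], [2121089692, 189810232, 14749889, 869816, 30574, -976], [28569108480], [58331824128, -1500708864, -35979264, -65536], [62474092544, -1356791808, -35586048, -65536]],
  [[63503859712, -1512046592], [72386347008, -1323302912], [21424504832, -402653184], [549755813888], [61028760311, -500312634, -31371742, -1785870, -72876, -1631], [-2267762451, -115400056, -2870443, 19849, 5494, -502], [2567143760, 260201859, 20688500, 1111094, 28214, -1706], [28569108480], [55186292736, -1644429312, -35389440, 262144], [59616002048, -1502871552, -36962304, 262144]]]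
def h3 : List (List Poly) := [
  [[60102279168, -1889533952], [69550997504, -1512046592], [20367540224, -654311424], [549755813888], [59887143831, -649689570, -43962536, -2431246, -87839, -1285], [-2509798742, -126461343, -2603574, 76093, 8932, -24], [3179600226, 357094723, 27939652, 1290064, 13821, -2811], [28569108480], [51758366720, -1781661696, -32636928, 655360], [56462540800, -1651113984, -36569088, 655360]],
  [[56323211264, -1889533952], [66527952896, -1512046592], [19058917376, -654311424], [549755813888], [58391020423, -857619917, -60748837, -3175876, -96298, -273], [-2772377113, -135653477, -1904506, 162870, 13211, 857], [4016001215, 484553974, 35784237, 1279291, -20752, -4239], [28569108480], [48070459392, -1902182400, -26542080, 1376256], [53015674880, -1796014080, -34799616, 1376256]],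
  [[52354351104, -2078277632], [63315116032, -1700790272], [17616076800, -771751936], [41070624768, -1526726656], [56405833453, -1141812077, -82111819, -3937149, -89901, 1737], [-3049765344, -140840811, -562509, 287402, 18433, 2146], [5137996285, 641985080, 42547401, 888359, -82135, -5614], [28569108480], [44170608640, -1992818688, -19267584, 1048576], [49297096704, -1915748352, -25559040, 1048576]],
  [[48196747264, -2078277632], [59913535488, -1700790272], [16089350144, -754974720], [38084280320, -1426063360], [53760890250, -1520213016, -107708932, -4551924, -56955, 5059], [-3331063061, -138969345, 1665143, 451644, 23261, 3725], [6597724324, 819616159, 45276111, -110518, -171336, -5917], [28569108480], [40116682752, -2056126464, -11796480, 1441792], [45369786368, -2008940544, -20447232, 1441792]],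
  [[43850399744, -2268069888], [56134467584, -2078277632], [14445182976, -855638016], [34728837120, -1879048192], [50252475750, -2007045749, -135917588, -4754371, 15853, 9652], [-3598298895, -126038741, 4995313, 643692, 25117, 5213], [8414168984, 993199621, 39734317, -1894881, -273044, -3301], [28569108480], [35969171456, -2084831232, -1966080, 1835008], [41279684608, -2076966912, -12976128, 1835008]],
  [[39315308544, -2268069888], [51976863744, -2078277632], [12733906944, -838860800], [31088181248, -1711276032], [45657255787, -2606436614, -163213406, -4181234, 138030, 14709], [-3824776747, -97421898, 9498740, 826401, 20035, 5818], [10539770088, 1120087500, 21181930, -4416204, -344568, 4467], [28569108480], [31807438848, -2067333120, 12386304, 2949120], [37082955776, -2116878336, -5308416, 2949120]],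
  [[34967912448, -2078277632], [48008003584, -1889533952], [11173625856, -704643072], [28034727936, -1308622848], [39760769821, -3303828404, -183747303, -2439546, 304973, 18164], [-3974639453, -48813193, 14905456, 925190, 2939, 4590], [12823866668, 1140838725, -13576572, -7165263, -315026, 18405], [28569108480], [27748335616, -1975123968, 37355520, 5373952], [32839434240, -2124546048, 5111808, 5373952]]]
def h4 : List (List Poly) := [
  [[30811357184, -2078277632], [44227887104, -1889533952], [9764339712, -687865856], [25551699968, -1174405120], [32404067482, -4056880647, -189611046, 727324, 484629, 16670], [-4005187314, 21940308, 20373789, 830158, -29412, 1063], [14989385114, 991720238, -62872866, -9021797, -111532, 35340], [28569108480], [23993843712, -1751187456, 79626240, 8716288], [28637069312, -2069692416, 27328512, 8716288]],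
  [[26653753344, -2078277632], [40637562880, -1700790272], [8405385216, -671088640], [23588765696, -771751936], [23545943385, -4789840730, -172403153, 5179448, 609805, 6891], [-3873706543, 112230082, 24364865, 430802, -72552, -3696], [16648476685, 631155294, -116890889, -8473971, 275676, 45636], [28569108480], [20886716416, -1307049984, 152961024, 15728640], [24641667072, -1918894080, 58589184, 15728640]],
  [[24008196096, -567279616], [38370541568, -567279616], [8136949760, 402653184], [23790092288, 973078528], [13328007730, -5397425865, -126411022, 10130265, 591781, -11565], [-3549633049, 212200143, 24875061, -304441, -110006, -6627], [17381302156, 74371121, -157473565, -4450782, 716687, 36480], [28569108480], [22682796032], [22682796032]],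
  [[22684893184, -756023296], [37424726016, -377487360], [9026142208, 486539264], [26558332928, 1761607680], [2117579561, -5763750318, -52713381, 14135049, 366928, -32936], [-3030051375, 304274693, 20226546, -1231675, -115675, -4568], [16877134334, -583258355, -164354557, 2480173, 947493, 3341], [28569108480], [21005074432], [21005074432]],
  [[20795359232, -1133510656], [36858494976, -188743680], [9965666304, 436207616], [31373393920, 3003121664], [-9502934789, -5796077194, 37986740, 15550869, -39151, -45743], [-2352299356, 366791390, 10252228, -2008773, -70326, 1998], [15088154049, -1180873023, -127258232, 9593508, 738607, -38466], [28569108480], [22347251712], [22347251712]],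
  [[18338545664, -1323302912], [34212937728, -2456813568], [10972299264, 570425344], [33386659840, -1006632960], [-20820827024, -5462436587, 126690604, 13414971, -484279, -39770], [-1594717906, 381978279, -2884611, -2239281, 16350, 7654], [12304482628, -1554983860, -56054631, 13293254, 137532, -60252], [28569108480], [24226299904], [24226299904]],
  [[15503196160, -1512046592], [29299310592, -2456813568], [549755813888], [31507611648, -855638016], [-31140570445, -4813133302, 192715777, 8204235, -772155, -15646], [-859665818, 344824656, -15186698, -1742386, 102048, 6736], [9076768487, -1620554469, 21669111, 11730152, -494215, -46930], [28569108480], [32480690176], [32480690176]]]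
def h5 : List (List Poly) := [
  [[12480151552, -1512046592], [24574427136, -2268069888], [549755813888], [549755813888], [-39943088331, -3969410718, 222671743, 1772151, -780201, 13305], [-242871881, 266907521, -22749284, -727499, 139571, -182], [6006849139, -1412385398, 76918356, 6318865, -775518, -13635], [28569108480], [32480690176], [32480690176]],
  [[9456058368, -1512046592], [20039335936, -2268069888], [549755813888], [549755813888], [-46989015679, -3081063310, 216047168, -3657987, -543656, 31144], [196334725, 171568363, -23863530, 325726, 114153, -6986], [3527757808, -1053813201, 96421064, 436247, -632020, 11953], [28569108480], [32480690176], [32480690176]],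
  [[6772752384, -1171259392], [15787360256, -1983905792], [549755813888], [549755813888], [-52323889606, -2275581796, 183658458, -6694461, -215752, 31638], [448238994, 83159373, -19673478, 994219, 51742, -8768], [1799944327, -680999479, 86260721, -3282375, -287118, 17897], [28569108480], [32480690176], [32480690176]],
  [[4429185024, -1171259392], [11818500096, -1983905792], [549755813888], [549755813888], [-56196438232, -1625743729, 140707902, -7265158, 50291, 20343], [544397938, 17460334, -13024906, 1149099, -7475, -5943], [752989394, -382236312, 62117121, -4318255, 4529, 11627], [28569108480], [32480690176], [32480690176]],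
  [[2681208832, -576716800], [8511291392, -1323302912], [549755813888], [549755813888], [-58941805767, -1147019489, 99721511, -6217346, 185920, 7079], [536131229, -21466700, -6656957, 934513, -39268, -1849], [203011499, -184131108, 37657936, -3631126, 140633, 4202], [28569108480], [32480690176], [32480690176]],
  [[1528823808, -576716800], [5865734144, -1323302912], [549755813888], [549755813888], [-60883536696, -816363687, 67258125, -4577316, 207672, -1796], [473372730, -38237253, -2077602, 587222, -43301, 891], [-41283798, -72248203, 19537904, -2396765, 153201, 244], [28569108480], [32480690176], [32480690176]],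
  [[763363328, -188743680], [3834642432, -708837376], [549755813888], [549755813888], [-62280608214, -595833145, 44537106, -3050493, 168545, -5215], [392623325, -40808679, 486018, 281381, -32146, 1807], [-124408461, -18140721, 8596198, -1321392, 111881, -847], [28569108480], [32480690176], [32480690176]]]
def h6 : List (List Poly) := [
  [[385875968, -188743680], [2416967680, -708837376], [549755813888], [549755813888], [-63316008481, -449338028, 29837100, -1922006, 114834, -5088], [314741026, -36384859, 1529382, 83846, -18157, 1556], [-135187794, 3668077, 3006864, -619667, 65262, -735], [28569108480], [32480690176], [32480690176]],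
  [[], [], [], [], [], [], [], [28569108480], [], []],
  [[], [], [], [], [], [], [], [28569108480], [], []],
  [[], [], [], [], [], [], [], [28569108480], [], []],
  [[], [], [], [], [], [], [], [28569108480], [], []],
  [[], [], [], [], [], [], [], [28569108480], [], []],
  [[], [], [], [], [], [], [], [28569108480], [], []]]
def h7 : List (List Poly) := [
  [[], [], [], [], [], [], [], [28569108480], [], []],
  [[], [], [], [], [], [], [], [28569108480], [], []],
  [[], [], [], [], [], [], [], [28569108480], [], []],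
  [[], [], [], [], [], [], [], [28569108480], [], []],
  [[], [], [], [], [], [], [], [28569108480], [], []],
  [[], [], [], [], [], [], [], [28569108480], [], []],
  [[], [], [], [], [], [], [], [28569108480], [], []]]
def h8 : List (List Poly) := [
  [[], [], [], [], [], [], [], [28569108480], [], []],
  [[], [], [], [], [], [], [], [28569108480], [], []],
  [[], [], [], [], [], [], [], [28569108480], [], []],
  [[], [], [], [], [], [], [], [28569108480], [], []],
  [[], [], [], [], [], [], [], [28569108480], [], []],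
  [[], [], [], [], [], [], [], [28569108480], [], []],
  [[], [], [], [], [], [], [], [28569108480], [], []]]
def gs : List (List Poly) := h0 ++ h1 ++ h2 ++ h3 ++ h4 ++ h5 ++ h6 ++ h7 ++ h8

def P1 : Pc := extP C1D_445.P0 g0
def PS1 : List Pc := exts C1D_445.PS gs

theorem adj1 : chain adj P1 PS1 = true := by decide +kernel

theorem len7 : lens 7 C1D_445.P0 C1D_445.PS = true := by decide +kernel

end Crest.Agent.R146.C2Data_454
end

-- ▼ part R146/C2Ex_454

/-!
# Row 146, helper454: law cells of NUMREF (C2), expressions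

Variables: 0 = x, 1 = W, 2 = V, 4 = k, 5 = k', 7 = q, 19 = b, 20 = b', 22 = M+, 25 = M-, 28 = K+,
31 = K-, 34 = q T, 37 = q k'' - R k', 40 = q B, 43 = c, 46, 49 = majorants of the slope ratio.
-/

set_option autoImplicit false

namespace Crest.Agent.R146.C2Ex_454

open PP865 EncR_848 PP4_454 C2Data_454 C2Eng_454

def hf : Ex := .cst 1 1
def eR : Ex := 1 - .var 2

/-- coefficients of `q h` : `y0 + r y1' + δ (z0 + r y2)` -/
structure HF where
  y0 : Ex
  y1 : Ex
  z0 : Ex
  y2 : Ex

/-- `h₊`, `B` = majorant of the slope ratio -/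
def fP (B : Ex) : HF := ⟨B * eR, .var 34, .cst 0 0, B * .var 34⟩
/-- `h₋`, Taylor form -/
def fT (B K : Ex) : HF := ⟨-(B * eR), .var 34, -(.var 7 * K), -(B * .var 34)⟩
/-- `h₋`, chord, `r ≤ 0` -/
def fC0 (B : Ex) : HF := ⟨-(B * eR), eR, .cst 0 0, -(B * eR)⟩
/-- `h₋`, chord, `0 ≤ r` -/
def fC1 (B : Ex) : HF := ⟨-(B * eR), -(.var 2), .cst 0 0, B * .var 2⟩

/-- the law numerator `q S` (as a polynomial in `δ`, `r`), `n = nA + nB δ` -/
def cS (nA nB nu : Ex) (H : HF) : C9 :=
  { c00 := H.y0 * (.var 5 + nA * .var 2) + nu * .var 40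
    c01 := .var 37 + (H.y1 - .var 7 * .var 4) * (.var 5 + nA * .var 2)
    c10 := H.z0 * (.var 5 + nA * .var 2) + nB * (.var 2 * H.y0)
    c11 := H.y2 * (.var 5 + nA * .var 2) + nB * (.var 2 * (H.y1 - .var 7 * .var 4))
    c12 := hf * .var 37
    c20 := nB * (.var 2 * H.z0)
    c21 := nB * (.var 2 * H.y2) }

/-- `q P`, `n = nA + nB δ` -/
def cP (nA nB : Ex) : C9 :=
  { c00 := hf * (.var 7 * (1 - nA)) + (.var 7 * .var 5 + nA * (.var 7 * .var 2))
    c01 := .cst 0 0
    c10 := nB * (.var 7 * .var 2 - hf * .var 7)
    c11 := .var 7 * .var 5 + nA * (.var 7 * .var 2)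
    c12 := .cst 0 0
    c20 := .cst 0 0
    c21 := nB * (.var 7 * .var 2) }

/-- `f q P - q S` -/
def up (nA nB nu : Ex) (H : HF) : C9 :=
  let P := cP nA nB
  let S := cS nA nB nu H
  { c00 := .cst 1433 10 * P.c00 - S.c00
    c01 := - S.c01
    c10 := .cst 1433 10 * P.c10 - S.c10
    c11 := .cst 1433 10 * P.c11 - S.c11
    c12 := - S.c12
    c20 := - S.c20
    c21 := .cst 1433 10 * P.c21 - S.c21 }

/-- `f q P + q S` -/
def dn (nA nB nu : Ex) (H : HF) : C9 :=
  let P := cP nA nB
  let S := cS nA nB nu H
  { c00 := .cst 1177 10 * P.c00 + S.c00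
    c01 := S.c01
    c10 := .cst 1177 10 * P.c10 + S.c10
    c11 := .cst 1177 10 * P.c11 + S.c11
    c12 := S.c12
    c20 := S.c20
    c21 := .cst 1177 10 * P.c21 + S.c21 }

def eV : Ex := .cst 4101 12
def eN : Ex := .cst 5738 13

/-! ### the values of the composite functions -/

def eA2 : Ex := (1 + .var 43) * .var 0 + 2 * .var 43 * (.var 1 - .var 0)
def eA2d : Ex := (1 + .var 43) - 2 * (.var 43 * eR)
def eI : Ex := (1 + .var 43) * .var 1 - eA2 * .var 2
def eK1 : Ex := .var 4 * .var 4 + eA2 * .var 4 - eA2d + 2 * .var 43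
def eK2 : Ex := (2 * .var 4 + eA2) * eK1 + eA2d * .var 4 - 2 * (.var 43 * eI)
def eT : Ex := .var 7 * (2 * (.var 43 * .var 7) - eA2)
def eQ : Ex := .var 7 * eK2 - eR * eK1
def eB : Ex := (1 + .var 43) * ((hf - .var 2) * (.var 4 * .var 7) + .var 2 * eR)
  - hf * ((eR + eA2 * .var 7) * eK1)

/-! ### errors -/

def erA : ℕ → ℕ
  | 1 => 851968
  | 2 => 6422528
  | 4 => 22020096
  | 5 => 87818240
  | 7 => 23592960
  | 43 => 65536
  | _ => 0

def errA : ℕ → ℕ
  | 1 => 851968
  | 2 => 6422528
  | 4 => 22020096
  | 5 => 87818240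
  | 7 => 23592960
  | 34 => 82706432
  | 37 => 149487616
  | 40 => 23461888
  | 43 => 65536
  | _ => 0

def erB : ℕ → ℕ
  | 1 => 851968
  | 2 => 6422528
  | 4 => 16252928
  | 5 => 28180480
  | 7 => 23592960
  | 43 => 65536
  | _ => 0

def errB : ℕ → ℕ
  | 1 => 851968
  | 2 => 6422528
  | 4 => 16252928
  | 5 => 28180480
  | 7 => 23592960
  | 34 => 71041024
  | 37 => 95682560
  | 40 => 26148864
  | 43 => 65536
  | _ => 0

def erC : ℕ → ℕ
  | 1 => 851968
  | 2 => 6422528
  | 4 => 16252928
  | 5 => 28180480
  | 7 => 23592960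
  | 43 => 65536
  | _ => 0

def errC : ℕ → ℕ
  | 1 => 851968
  | 2 => 6422528
  | 4 => 16252928
  | 5 => 28180480
  | 7 => 23592960
  | 34 => 49872896
  | 37 => 56360960
  | 40 => 27459584
  | 43 => 65536
  | _ => 0

def erD : ℕ → ℕ
  | 1 => 851968
  | 2 => 6422528
  | 4 => 16252928
  | 5 => 28180480
  | 7 => 37355520
  | 43 => 65536
  | _ => 0

def errD : ℕ → ℕ
  | 1 => 851968
  | 2 => 6422528
  | 4 => 16252928
  | 5 => 28180480
  | 7 => 37355520
  | 34 => 45809664
  | 37 => 62914560
  | 40 => 34406400
  | 43 => 65536
  | _ => 0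

def erE : ℕ → ℕ
  | 1 => 851968
  | 2 => 6422528
  | 4 => 16252928
  | 5 => 28180480
  | 7 => 37355520
  | 43 => 65536
  | _ => 0

def errE : ℕ → ℕ
  | 1 => 851968
  | 2 => 6422528
  | 4 => 16252928
  | 5 => 28180480
  | 7 => 37355520
  | 34 => 57802752
  | 37 => 68878336
  | 40 => 38928384
  | 43 => 65536
  | _ => 0

def erF : ℕ → ℕ
  | 1 => 851968
  | 2 => 6422528
  | 4 => 16252928
  | 5 => 28180480
  | 7 => 27066368
  | 43 => 65536
  | _ => 0

def errF : ℕ → ℕ
  | 1 => 851968
  | 2 => 6422528
  | 4 => 16252928
  | 5 => 28180480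
  | 7 => 27066368
  | 34 => 117178368
  | 37 => 102957056
  | 40 => 56688640
  | 43 => 65536
  | _ => 0

/-- pieces `(lo, hi]/8` with the base errors `er` : composites, majorants -/
def encl (err : ℕ → ℕ) (lo hi t q b : ℤ) : Bool :=
  checkO 36 1 6 30 err lo hi (.cst t 20 - (eT - .var 34)) P1 PS1 &&
  checkO 36 1 6 30 err lo hi (.cst t 20 + (eT - .var 34)) P1 PS1 &&
  checkO 36 1 6 30 err lo hi (.cst q 20 - (eQ - .var 37)) P1 PS1 &&
  checkO 36 1 6 30 err lo hi (.cst q 20 + (eQ - .var 37)) P1 PS1 &&
  checkO 36 1 6 30 err lo hi (.cst b 20 - (eB - (1 + .var 43) * .var 40)) P1 PS1 &&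
  checkO 36 1 6 30 err lo hi (.cst b 20 + (eB - (1 + .var 43) * .var 40)) P1 PS1

/-- Taylor remainder majorants, `1567 / 1024 >= 1.53` -/
def kP (err : ℕ → ℕ) (lo hi : ℤ) : Bool :=
  checkO 36 3 6 30 err lo hi (2 * (.var 28 * (eR - .var 43 * (.var 2 * .var 22)))
    - .cst 1567 10 * (.var 22 * .var 22 * .var 7)) P1 PS1
def kM (err : ℕ → ℕ) (lo hi : ℤ) : Bool :=
  checkO 36 3 6 30 err lo hi (2 * (.var 31 * (eR * (1 - .var 43 * .var 25)))
    - .cst 1567 10 * (.var 25 * .var 25 * .var 7)) P1 PS1

/-- the `δ`-ranges and types -/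
def u0 (err : ℕ → ℕ) (lo hi : ℤ) (H : HF) (M : Ex) : Bool :=
  chk9 36 1 3 20 49 err lo hi 0 1166 (up (.var 43) eV eV H) M P1 PS1
def uE (err : ℕ → ℕ) (lo hi : ℤ) (H : HF) (M : Ex) : Bool :=
  chk9 36 1 3 20 49 err lo hi 1166 1703 (up eN (.cst 0 0) eV H) M P1 PS1
def uL (err : ℕ → ℕ) (lo hi : ℤ) (H : HF) (M : Ex) : Bool :=
  chk9 36 1 3 20 49 err lo hi 1166 1703 (up eN (.cst 0 0) (.cst 2804 12) H) M P1 PS1
def u2 (err : ℕ → ℕ) (lo hi : ℤ) (H : HF) (M : Ex) : Bool :=
  chk9 36 1 3 20 49 err lo hi 0 1703 (up (.var 43) (-eV) (-eV) H) M P1 PS1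
def d0 (err : ℕ → ℕ) (lo hi : ℤ) (H : HF) (M : Ex) : Bool :=
  chk9 36 1 3 20 49 err lo hi 0 1703 (dn (.var 43) eV eV H) M P1 PS1
def d2 (err : ℕ → ℕ) (lo hi : ℤ) (H : HF) (M : Ex) : Bool :=
  chk9 36 1 3 20 49 err lo hi 0 1703 (dn (.var 43) (-eV) (-eV) H) M P1 PS1

/-- all checks with `H` = upper form, `G` = lower form -/
def allC (err : ℕ → ℕ) (lo hi : ℤ) (H G : HF) (M : Ex) : Bool :=
  u0 err lo hi H M && uE err lo hi H M && uL err lo hi H M && u2 err lo hi H M &&
    d0 err lo hi G M && d2 err lo hi G M

/-- the two mixed checks (needed where `k' + n V` may be negative) -/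
def mixC (err : ℕ → ℕ) (lo hi : ℤ) (H G : HF) (M : Ex) : Bool :=
  u2 err lo hi G M && d2 err lo hi H M

end Crest.Agent.R146.C2Ex_454
private theorem rz_6139b2eabe : type_of% @_root_.Crest.Agent.R146.C2Ex_454.errA.eq_1 := @_root_.Crest.Agent.R146.C2Ex_454.errA.eq_1 -- L106
private theorem rz_5a6b20c8fb : type_of% @_root_.Crest.Agent.R146.C2Ex_454.errB.eq_1 := @_root_.Crest.Agent.R146.C2Ex_454.errB.eq_1 -- L127
private theorem rz_f5a03321ce : type_of% @_root_.Crest.Agent.R146.C2Ex_454.errC.eq_1 := @_root_.Crest.Agent.R146.C2Ex_454.errC.eq_1 -- L148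
private theorem rz_d1c9ba92a8 : type_of% @_root_.Crest.Agent.R146.C2Ex_454.errD.eq_1 := @_root_.Crest.Agent.R146.C2Ex_454.errD.eq_1 -- L169
private theorem rz_9bd8b61299 : type_of% @_root_.Crest.Agent.R146.C2Ex_454.errE.eq_1 := @_root_.Crest.Agent.R146.C2Ex_454.errE.eq_1 -- L190
private theorem rz_615a7d9495 : type_of% @_root_.Crest.Agent.R146.C2Ex_454.errF.eq_1 := @_root_.Crest.Agent.R146.C2Ex_454.errF.eq_1 -- L211
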