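import Crest.Agent.R146.C2Ex_454
import Crest.Agent.R146.QEnc_848
import Crest.Agent.R146.C2R_889
import Crest.Agent.R146.C2X1_454
import Crest.Agent.R146.C2X2_454
import Crest.Agent.R146.C2X3_454
import Crest.Agent.R146.C2X4_454

-- ▼ part R146/C2Alg_454
section

/-!
# Row 146, helper454: law cells of NUMREF (C2), algebra

`QP`, `QS` : `q` times the potential and the law numerator; `up_val`, `dn_val` : the value of the
coefficient lists; `h_le`, `le_h...` : the level/slope term between its two forms; `vert_up`, `vert_dn` :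
vertices in `(n, ν)`.
-/

set_option autoImplicit false

namespace Crest.Agent.R146.C2Alg_454

open PP865 EncR_848 PP4_454 C2Data_454 C2Eng_454 C2Ex_454

noncomputable section

/-- `q` times the potential -/
def QP (q V k1 n δ r : ℝ) : ℝ := q * (1 - n) / 2 + (1 + δ * r) * (q * k1 + n * (q * V))

/-- `q` times the law numerator (divided by `δ`); `H = q h` -/
def QS (q V k k1 gQ gB n ν δ r H : ℝ) : ℝ :=
  r * (1 + δ * r / 2) * gQ + (H - q * k * r) * (k1 + n * V) + ν * gB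

/-- `q h` of a form -/
def HF.val (H : HF) (w : ℕ → ℝ) (δ r : ℝ) : ℝ :=
  H.y0.evR w + r * H.y1.evR w + δ * (H.z0.evR w + r * H.y2.evR w)

theorem evR_1 (v : ℕ → ℝ) : (1 : Ex).evR v = 1 := by simpa using Ex.evR_ofNat v 1

theorem up_val (w : ℕ → ℝ) (nA nB nu : Ex) (H : HF) (δ r : ℝ) :
    (up nA nB nu H).val w δ r
      = 1433 / 1024 * QP (w 7) (w 2) (w 5) (nA.evR w + nB.evR w * δ) δ r
        - QS (w 7) (w 2) (w 4) (w 5) (w 37) (w 40) (nA.evR w + nB.evR w * δ) (nu.evR w) δ r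
            (HF.val H w δ r) := by
  simp only [up, cP, cS, C9.val, hf, Ex.evR_add, Ex.evR_mul, Ex.evR_sub, Ex.evR_neg, Ex.evR_cst,
    Ex.evR_var, evR_1, QP, QS, HF.val]
  norm_num
  ring

theorem dn_val (w : ℕ → ℝ) (nA nB nu : Ex) (H : HF) (δ r : ℝ) :
    (dn nA nB nu H).val w δ r
      = 1177 / 1024 * QP (w 7) (w 2) (w 5) (nA.evR w + nB.evR w * δ) δ r
        + QS (w 7) (w 2) (w 4) (w 5) (w 37) (w 40) (nA.evR w + nB.evR w * δ) (nu.evR w) δ r
            (HF.val H w δ r) := by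
  simp only [dn, cP, cS, C9.val, hf, Ex.evR_add, Ex.evR_mul, Ex.evR_sub, Ex.evR_cst,
    Ex.evR_var, evR_1, QP, QS, HF.val]
  norm_num
  ring

/-! ### the slope/level term -/

section hterm

variable {p q T R gT B β δ r ε : ℝ}

theorem h_le (hq : 0 < q) (hp : q * p = R) (hT : q * T = gT) (hβ : |β| ≤ B) (hδ : 0 ≤ δ)
    (hε : 0 ≤ ε) (hpos : 0 ≤ p + δ * (T * r - ε)) :
    q * (β * p + (1 + δ * β) * (T * r - ε)) ≤ B * R + r * gT + δ * (r * (B * gT)) := by
  have hB := (abs_le.1 hβ).2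
  have hB0 : 0 ≤ B := (abs_nonneg β).trans hβ
  have h1 : 0 ≤ (B - β) * (p + δ * (T * r - ε)) := mul_nonneg (by linarith) hpos
  have h2 : 0 ≤ (1 + δ * B) * ε := mul_nonneg (by positivity) hε
  have h3 := mul_nonneg hq.le (add_nonneg h1 h2)
  rw [← hp, ← hT]
  nlinarith [h3]

theorem le_h (hβ : |β| ≤ B) (hpos : 0 ≤ p + δ * (T * r - ε)) :
    -B * p + (1 - δ * B) * (T * r - ε) ≤ β * p + (1 + δ * β) * (T * r - ε) := by
  have hB := (abs_le.1 hβ).1
  have h1 : 0 ≤ (β + B) * (p + δ * (T * r - ε)) := mul_nonneg (by linarith) hpos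
  nlinarith [h1]

theorem le_h_T {K : ℝ} (hq : 0 < q) (hp : q * p = R) (hT : q * T = gT) (hβ : |β| ≤ B)
    (hδ : 0 ≤ δ) (hpos : 0 ≤ p + δ * (T * r - ε)) (hε : 0 ≤ ε) (hK : ε ≤ δ * K) :
    -(B * R) + r * gT + δ * (-(q * K) + r * (-(B * gT)))
      ≤ q * (β * p + (1 + δ * β) * (T * r - ε)) := by
  have h0 := mul_le_mul_of_nonneg_left (le_h (T := T) (p := p) hβ hpos) hq.le
  refine le_trans ?_ h0
  have hB0 : 0 ≤ B := (abs_nonneg β).trans hβ
  have h2 : 0 ≤ δ * B * ε := by positivity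
  have h3 := mul_nonneg hq.le h2
  have h4 := mul_le_mul_of_nonneg_left hK hq.le
  rw [← hp, ← hT]
  nlinarith [h3, h4]

theorem le_h_C0 (hq : 0 < q) (hp : q * p = R) (hβ : |β| ≤ B) (hδB : δ * B ≤ 1)
    (hpos : 0 ≤ p + δ * (T * r - ε)) (hc : ε ≤ (p - T) * (-r)) :
    -(B * R) + r * R + δ * (0 + r * (-(B * R)))
      ≤ q * (β * p + (1 + δ * β) * (T * r - ε)) := by
  have h0 := mul_le_mul_of_nonneg_left (le_h (T := T) (p := p) hβ hpos) hq.le
  refine le_trans ?_ h0
  have h1 : 0 ≤ (1 - δ * B) * (T * r - ε - p * r) := mul_nonneg (by linarith) (by nlinarith)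
  have h3 := mul_nonneg hq.le h1
  rw [← hp]
  nlinarith [h3]

theorem le_h_C1 {V IR : ℝ} (hq : 0 < q) (hp : q * p = R) (hV : q * IR = V) (hβ : |β| ≤ B)
    (hδB : δ * B ≤ 1) (hpos : 0 ≤ p + δ * (T * r - ε)) (hc : ε ≤ (IR + T) * r) :
    -(B * R) + r * (-V) + δ * (0 + r * (B * V))
      ≤ q * (β * p + (1 + δ * β) * (T * r - ε)) := by
  have h0 := mul_le_mul_of_nonneg_left (le_h (T := T) (p := p) hβ hpos) hq.le
  refine le_trans ?_ h0
  have h1 : 0 ≤ (1 - δ * B) * (T * r - ε + IR * r) := mul_nonneg (by linarith) (by nlinarith)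
  have h3 := mul_nonneg hq.le h1
  rw [← hp, ← hV]
  nlinarith [h3]

end hterm

/-! ### vertices in `(n, ν)` -/

section vertices

variable {q V k k1 gQ gB c δ r H Hu Hl f : ℝ}

/-- `f QP + s QS`, affine in `(n, ν)` -/
theorem affine (s : ℝ) {n1 ν1 n2 ν2 t : ℝ} (ht0 : 0 ≤ t) (ht1 : t ≤ 1)
    (h1 : 0 < f * QP q V k1 n1 δ r + s * QS q V k k1 gQ gB n1 ν1 δ r H)
    (h2 : 0 < f * QP q V k1 n2 δ r + s * QS q V k k1 gQ gB n2 ν2 δ r H) :
    0 < f * QP q V k1 ((1 - t) * n1 + t * n2) δ r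
      + s * QS q V k k1 gQ gB ((1 - t) * n1 + t * n2) ((1 - t) * ν1 + t * ν2) δ r H := by
  have e : f * QP q V k1 ((1 - t) * n1 + t * n2) δ r
      + s * QS q V k k1 gQ gB ((1 - t) * n1 + t * n2) ((1 - t) * ν1 + t * ν2) δ r H
      = (1 - t) * (f * QP q V k1 n1 δ r + s * QS q V k k1 gQ gB n1 ν1 δ r H)
        + t * (f * QP q V k1 n2 δ r + s * QS q V k k1 gQ gB n2 ν2 δ r H) := by
    simp only [QP, QS]; ring
  rw [e]
  rcases eq_or_lt_of_le ht0 with h | h
  · rw [← h]; linarith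
  · have := mul_pos h h2
    have := mul_nonneg (show 0 ≤ 1 - t by linarith) h1.le
    linarith

theorem QS_mono {n ν : ℝ} (hX : 0 ≤ k1 + n * V) (h : H ≤ Hu) :
    QS q V k k1 gQ gB n ν δ r H ≤ QS q V k k1 gQ gB n ν δ r Hu := by
  have := mul_le_mul_of_nonneg_right h hX
  unfold QS
  nlinarith [this]

theorem QS_anti {n ν : ℝ} (hX : k1 + n * V ≤ 0) (h : Hl ≤ H) :
    QS q V k k1 gQ gB n ν δ r H ≤ QS q V k k1 gQ gB n ν δ r Hl := by
  have := mul_le_mul_of_nonpos_right h hX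
  unfold QS
  nlinarith [this]

/-- upper side -/
theorem vert_up {n ν : ℝ} (hV : 0 ≤ V) (hc1 : 435929 / 2 ^ 20 ≤ c)
    (hδ : 0 < δ) (hu : H ≤ Hu)
    (hX : 0 ≤ k1 + c * V)
    (hn : n = c + δ * ν) (hν : |ν| ≤ 1001 / 1000) (hn7 : n ≤ 7 / 10 + δ / 1000)
    (hδ3 : δ ≤ 1703 / 4096)
    (u0 : δ ≤ 1166 / 4096 → 0 < f * QP q V k1 (c + 4101 / 4096 * δ) δ r
      - QS q V k k1 gQ gB (c + 4101 / 4096 * δ) (4101 / 4096) δ r Hu)
    (uE : 1166 / 4096 ≤ δ → 0 < f * QP q V k1 (5738 / 8192) δ r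
      - QS q V k k1 gQ gB (5738 / 8192) (4101 / 4096) δ r Hu)
    (uL : 1166 / 4096 ≤ δ → 0 < f * QP q V k1 (5738 / 8192) δ r
      - QS q V k k1 gQ gB (5738 / 8192) (2804 / 4096) δ r Hu)
    (u2 : 0 < f * QP q V k1 (c + -(4101 / 4096) * δ) δ r
      - QS q V k k1 gQ gB (c + -(4101 / 4096) * δ) (-(4101 / 4096)) δ r H) (hc2 : c ≤ 435931 / 2 ^ 20) :
    0 < f * QP q V k1 n δ r - QS q V k k1 gQ gB n ν δ r H := by
  obtain ⟨hν1, hν2⟩ := abs_le.1 hν
  have key : ∃ ν2 : ℝ, ν ≤ ν2 ∧ -1 ≤ ν2 ∧ 0 < f * QP q V k1 (c + δ * ν2) δ r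
      + (-1) * QS q V k k1 gQ gB (c + δ * ν2) ν2 δ r H := by
    rcases le_total δ (1166 / 4096) with h | h
    · refine ⟨4101 / 4096, by linarith, by norm_num, ?_⟩
      have h1 := u0 h
      have h2 : 0 ≤ k1 + (c + 4101 / 4096 * δ) * V := by
        have : 0 ≤ 4101 / 4096 * δ * V := by positivity
        nlinarith
      have h3 := QS_mono (q := q) (k := k) (gQ := gQ) (gB := gB) (δ := δ) (r := r)
        (ν := 4101 / 4096) h2 hu
      have e : c + δ * (4101 / 4096) = c + 4101 / 4096 * δ := by ring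
      rw [e]
      linarith
    · refine ⟨(5738 / 8192 - c) / δ, ?_, ?_, ?_⟩
      · rw [le_div_iff₀ hδ]
        have : ν * δ = n - c := by rw [hn]; ring
        rw [this]
        linarith
      · rw [le_div_iff₀ hδ]
        norm_num at hc2
        linarith
      · have e : c + δ * ((5738 / 8192 - c) / δ) = 5738 / 8192 := by
          field_simp
          ring
        rw [e]
        set ν2 := (5738 / 8192 - c) / δ with hν2'
        have h1 : ν2 ≤ 4101 / 4096 := by
          rw [hν2', div_le_iff₀ hδ]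
          norm_num at hc1
          linarith
        have h2 : 2804 / 4096 ≤ ν2 := by
          rw [hν2', le_div_iff₀ hδ]
          norm_num at hc2
          linarith
        have a1 := uL h
        have a2 := uE h
        have hX' : 0 ≤ k1 + 5738 / 8192 * V := by
          norm_num at hc2
          nlinarith
        have b1 := QS_mono (q := q) (k := k) (gQ := gQ) (gB := gB) (δ := δ) (r := r)
          (ν := 2804 / 4096) hX' hu
        have b2 := QS_mono (q := q) (k := k) (gQ := gQ) (gB := gB) (δ := δ) (r := r)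
          (ν := 4101 / 4096) hX' hu
        have := affine (q := q) (V := V) (k := k) (k1 := k1) (gQ := gQ) (gB := gB) (δ := δ)
          (r := r) (H := H) (f := f) (-1) (n1 := 5738 / 8192) (ν1 := 2804 / 4096)
          (n2 := 5738 / 8192) (ν2 := 4101 / 4096)
          (t := (ν2 - 2804 / 4096) / (4101 / 4096 - 2804 / 4096))
          (div_nonneg (by linarith) (by norm_num)) ((div_le_one (by norm_num)).2 (by linarith))
          (by linarith) (by linarith)
        have e1 : (1 - (ν2 - 2804 / 4096) / (4101 / 4096 - 2804 / 4096)) * (5738 / 8192 : ℝ)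
            + (ν2 - 2804 / 4096) / (4101 / 4096 - 2804 / 4096) * (5738 / 8192) = 5738 / 8192 := by
          ring
        have e2 : (1 - (ν2 - 2804 / 4096) / (4101 / 4096 - 2804 / 4096)) * (2804 / 4096 : ℝ)
            + (ν2 - 2804 / 4096) / (4101 / 4096 - 2804 / 4096) * (4101 / 4096) = ν2 := by
          ring
        rw [e1, e2] at this
        exact this
  obtain ⟨ν2, h1, h2, h3⟩ := key
  have h4 : 0 < f * QP q V k1 (c + -(4101 / 4096) * δ) δ r
      + (-1) * QS q V k k1 gQ gB (c + -(4101 / 4096) * δ) (-(4101 / 4096)) δ r H := by linarith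
  have hd : 0 < ν2 + 4101 / 4096 := by linarith
  have := affine (-1) (t := (ν + 4101 / 4096) / (ν2 + 4101 / 4096))
    (div_nonneg (by linarith) hd.le) ((div_le_one hd).2 (by linarith)) h4 h3
  have he : (ν + 4101 / 4096) / (ν2 + 4101 / 4096) * (ν2 + 4101 / 4096) = ν + 4101 / 4096 :=
    div_mul_cancel₀ _ hd.ne'
  have e2 : (1 - (ν + 4101 / 4096) / (ν2 + 4101 / 4096)) * (-(4101 / 4096))
      + (ν + 4101 / 4096) / (ν2 + 4101 / 4096) * ν2 = ν := by
    linear_combination he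
  have e1 : (1 - (ν + 4101 / 4096) / (ν2 + 4101 / 4096)) * (c + -(4101 / 4096) * δ)
      + (ν + 4101 / 4096) / (ν2 + 4101 / 4096) * (c + δ * ν2) = n := by
    rw [hn]
    linear_combination δ * e2
  rw [e1, e2] at this
  linarith

/-- lower side -/
theorem vert_dn {n ν : ℝ} (hV : 0 ≤ V) (hδ : 0 < δ) (hl : Hl ≤ H)
    (hX : 0 ≤ k1 + c * V) (hn : n = c + δ * ν) (hν : |ν| ≤ 1001 / 1000)
    (d0 : 0 < f * QP q V k1 (c + 4101 / 4096 * δ) δ r
      + QS q V k k1 gQ gB (c + 4101 / 4096 * δ) (4101 / 4096) δ r Hl)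
    (d2 : 0 < f * QP q V k1 (c + -(4101 / 4096) * δ) δ r
      + QS q V k k1 gQ gB (c + -(4101 / 4096) * δ) (-(4101 / 4096)) δ r H) :
    0 < f * QP q V k1 n δ r + QS q V k k1 gQ gB n ν δ r H := by
  obtain ⟨hν1, hν2⟩ := abs_le.1 hν
  have h2 : 0 ≤ k1 + (c + 4101 / 4096 * δ) * V := by
    have : 0 ≤ 4101 / 4096 * δ * V := by positivity
    nlinarith
  have h3 := QS_mono (q := q) (k := k) (gQ := gQ) (gB := gB) (δ := δ) (r := r)
    (ν := 4101 / 4096) h2 hl
  have := affine (q := q) (V := V) (k := k) (k1 := k1) (gQ := gQ) (gB := gB) (δ := δ)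
    (r := r) (H := H) (f := f) 1 (n1 := c + -(4101 / 4096) * δ) (ν1 := -(4101 / 4096))
    (n2 := c + 4101 / 4096 * δ) (ν2 := 4101 / 4096)
    (t := (ν + 4101 / 4096) / (4101 / 2048))
    (div_nonneg (by linarith) (by norm_num)) ((div_le_one (by norm_num)).2 (by linarith))
    (by linarith) (by linarith)
  have e2 : (1 - (ν + 4101 / 4096) / (4101 / 2048)) * (-(4101 / 4096))
      + (ν + 4101 / 4096) / (4101 / 2048) * (4101 / 4096) = ν := by ring
  have e1 : (1 - (ν + 4101 / 4096) / (4101 / 2048)) * (c + -(4101 / 4096) * δ)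
      + (ν + 4101 / 4096) / (4101 / 2048) * (c + 4101 / 4096 * δ) = n := by
    rw [hn]
    linear_combination δ * e2
  rw [e1, e2] at this
  linarith

end vertices

end

end Crest.Agent.R146.C2Alg_454
end

-- ▼ part R146/C2X5_454
section

/-! Row 146, helper454: law cells of NUMREF (C2), auxiliary checks -/

set_option autoImplicit false

namespace Crest.Agent.R146.C2X5_454

open PP865 EncR_848 PP4_454 C2Data_454 C2Eng_454 C2Ex_454

/-- no errors -/
def e0 : ℕ → ℕ := fun _ => 0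

theorem sA : checkO 36 2 6 30 erA (-40) (-32) (.var 5 + .var 43 * .var 2) P1 PS1 = true := by decide +kernel
theorem kA : checkO 36 2 6 30 erA (-40) (-32) (.var 5 - .cst 10486 20) P1 PS1 = true := by decide +kernel
theorem sB : checkO 36 2 6 30 erB (-32) (-16) (.var 5 + .var 43 * .var 2) P1 PS1 = true := by decide +kernel
theorem kB : checkO 36 2 6 30 erB (-32) (-16) (.var 5 - .cst 10486 20) P1 PS1 = true := by decide +kernel
theorem sC : checkO 36 2 6 30 erC (-16) (-2) (.var 5 + .var 43 * .var 2) P1 PS1 = true := by decide +kernel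
theorem kC : checkO 36 2 6 30 erC (-16) (-2) (.var 5 - .cst 10486 20) P1 PS1 = true := by decide +kernel
theorem sD : checkO 36 2 6 30 erD (-2) (6) (.var 5 + .var 43 * .var 2) P1 PS1 = true := by decide +kernel
theorem kD : checkO 36 2 6 30 erD (-2) (6) (.var 5 + .cst 70 10) P1 PS1 = true := by decide +kernel
theorem sE : checkO 36 2 6 30 erE (6) (8) (.var 5 + .var 43 * .var 2) P1 PS1 = true := by decide +kernel
theorem kE : checkO 36 2 6 30 erE (6) (8) (.var 5 + .cst 70 10) P1 PS1 = true := by decide +kernel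
theorem sF : checkO 36 2 6 30 erF (8) (24) (.var 5 + .var 43 * .var 2) P1 PS1 = true := by decide +kernel
theorem kF : checkO 36 2 6 30 erF (8) (24) (.var 5 + .cst 70 10) P1 PS1 = true := by decide +kernel

theorem mp : checkO 36 2 6 30 e0 (-40) 24 (.cst 21 4 - .var 22) P1 PS1 = true := by decide +kernel
theorem mm : checkO 36 2 6 30 e0 (-40) 24 (.cst 21 4 - .var 25) P1 PS1 = true := by decide +kernel
theorem bp : checkO 36 2 6 30 e0 (-40) 24 (.cst 5 2 - .var 46) P1 PS1 = true := by decide +kernel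
theorem bm : checkO 36 2 6 30 e0 (-40) 24 (.cst 5 2 - .var 49) P1 PS1 = true := by decide +kernel
theorem b0p : checkO 36 2 6 30 e0 (-40) (-2) (.var 46 - .var 19 - .cst 2100 20) P1 PS1 = true := by decide +kernel
theorem b0m : checkO 36 2 6 30 e0 (-40) (-2) (.var 49 - .var 19 + .cst 1 2 * .var 20 - .cst 20300 20) P1 PS1 = true := by
  decide +kernel
theorem b0d : checkO 36 2 6 30 e0 (-40) (-2) (-.var 20) P1 PS1 = true := by decide +kernel
theorem b1p : checkO 36 2 6 30 e0 (-2) (0) (.var 46 - .cst 346031 20) P1 PS1 = true := by decide +kernel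
theorem b1m : checkO 36 2 6 30 e0 (-2) (0) (.var 49 - .cst 346031 20) P1 PS1 = true := by decide +kernel
theorem b2p : checkO 36 2 6 30 e0 (0) (2) (.var 46 - .cst 319816 20) P1 PS1 = true := by decide +kernel
theorem b2m : checkO 36 2 6 30 e0 (0) (2) (.var 49 - .cst 319816 20) P1 PS1 = true := by decide +kernel
theorem b3p : checkO 36 2 6 30 e0 (2) (4) (.var 46 - .cst 340788 20) P1 PS1 = true := by decide +kernel
theorem b3m : checkO 36 2 6 30 e0 (2) (4) (.var 49 - .cst 340788 20) P1 PS1 = true := by decide +kernel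
theorem b4p : checkO 36 2 6 30 e0 (4) (6) (.var 46 - .cst 369099 20) P1 PS1 = true := by decide +kernel
theorem b4m : checkO 36 2 6 30 e0 (4) (6) (.var 49 - .cst 369099 20) P1 PS1 = true := by decide +kernel
theorem b5p : checkO 36 2 6 30 e0 (6) (24) (.var 46 - .cst 494928 20) P1 PS1 = true := by decide +kernel
theorem b5m : checkO 36 2 6 30 e0 (6) (24) (.var 49 - .cst 494928 20) P1 PS1 = true := by decide +kernel
theorem kp : checkO 36 2 6 30 e0 (-40) 6 (.var 28) P1 PS1 = true := by decide +kernel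

theorem allc : ((P1 :: PS1).all fun q => decide (q.f.getD 14 [] = [28569108480])) = true := by
  decide +kernel

end Crest.Agent.R146.C2X5_454
end

-- ▼ part R146/C2Env_454
section

/-!
# Row 146, helper454: law cells of NUMREF (C2), values of the variables

`wv` : real values of the certificate variables; `wv_err` : all radii at once; `Enc` : the composites
`q T`, `q k'' - R k'`, `q B` inside their radii.
-/

set_option autoImplicit false

namespace Crest.Agent.R146.C2Env_454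

open Set
open PP865 EncR_848 PP4_454 C2Data_454 C2Eng_454 C2Ex_454 C2Alg_454
open Crest.Agent.R146.SPair_307 Crest.Agent.R146.RefX_355

noncomputable section

variable {c : ℝ} {W V I k : ℝ → ℝ}

abbrev K1 (c : ℝ) (W V k : ℝ → ℝ) (x : ℝ) : ℝ := YWRef_177.k1 c W V k c x
abbrev K2 (c : ℝ) (W V I k : ℝ → ℝ) (x : ℝ) : ℝ := YWRef_177.k2 c W V I k c x

/-- `q T` -/
def gT (c : ℝ) (W V I : ℝ → ℝ) (x : ℝ) : ℝ := qx V I x * k1x c W V I x
/-- `q k'' - R k'` -/
def gQ (c : ℝ) (W V I k : ℝ → ℝ) (x : ℝ) : ℝ :=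
  qx V I x * K2 c W V I k x - (1 - V x) * K1 c W V k x
/-- the coefficient of `ν` in `q S` -/
def gB (c : ℝ) (W V I k : ℝ → ℝ) (x : ℝ) : ℝ :=
  (1 / 2 - V x) * (k x * qx V I x) - qx V I x * (W x / V x) / 2 * K1 c W V k x
    + V x * (1 - V x)

def wv (c : ℝ) (W V I k : ℝ → ℝ) (x t g b : ℝ) (i : ℕ) : ℝ :=
  if i = 1 then W x else if i = 2 then V x else if i = 4 then k x
  else if i = 5 then K1 c W V k x else if i = 7 then qx V I x else if i = 43 then c
  else if i = 34 then t else if i = 37 then g else if i = 40 then b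
  else cv 36 P1 PS1 x i

theorem Fn_const {P k : ℕ} {C : ℤ} : ∀ (p : Pc) (ps : List Pc),
    ((p :: ps).all fun q => decide (q.f.getD k [] = [C])) = true → ∀ z, Fn P k p ps z = C / 2 ^ P
  | p, [], h, z => by
    simp only [List.all_cons, List.all_nil, Bool.and_true, decide_eq_true_eq] at h
    show Pc.v0 P k p z = _
    unfold Pc.v0
    rw [h]
    simp
  | p, q :: ps, h, z => by
    have h2 : ((q :: ps).all fun q => decide (q.f.getD k [] = [C])) = true := by
      rw [List.all_cons] at h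
      exact (Bool.and_eq_true _ _ ▸ h).2
    have h1 : p.f.getD k [] = [C] := by
      rw [List.all_cons] at h
      exact of_decide_eq_true (Bool.and_eq_true _ _ ▸ h).1
    show (if z ≤ p.hi then Pc.v0 P k p z else Fn P k q ps z) = _
    rw [Fn_const q ps h2 z]
    unfold Pc.v0
    rw [h1]
    simp

theorem F_old (k : ℕ) (hk : k < 6) : Fn 36 k P1 PS1 = Enc1_848.F k := by
  have h1 : Fn 36 k P1 PS1 = Fn 36 k C1D_445.P0 C1D_445.PS := Fn_exts (by omega) len7 _ _
  have h2 : Fn 36 k C1D_445.P0 C1D_445.PS = Enc1_848.F k := Fn_exts hk C1D_445.len6 _ _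
  rw [h1, h2]

theorem F1_old (k : ℕ) (hk : k < 6) : Fn1 36 k P1 PS1 = Enc1_848.F1 k := by
  have h1 : Fn1 36 k P1 PS1 = Fn1 36 k C1D_445.P0 C1D_445.PS := Fn1_exts (by omega) len7 _ _
  have h2 : Fn1 36 k C1D_445.P0 C1D_445.PS = Enc1_848.F1 k := Fn1_exts hk C1D_445.len6 _ _
  rw [h1, h2]

theorem cv1 (x : ℝ) : cv 36 P1 PS1 x 1 = Enc1_848.F 0 x := congrFun (F_old 0 (by norm_num)) x
theorem cv2 (x : ℝ) : cv 36 P1 PS1 x 2 = Enc1_848.F1 0 x := congrFun (F1_old 0 (by norm_num)) x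
theorem cv4 (x : ℝ) : cv 36 P1 PS1 x 4 = Enc1_848.F 1 x := congrFun (F_old 1 (by norm_num)) x
theorem cv5 (x : ℝ) : cv 36 P1 PS1 x 5 = Enc1_848.F1 1 x := congrFun (F1_old 1 (by norm_num)) x
theorem cv7 (x : ℝ) : cv 36 P1 PS1 x 7 = Enc1_848.F 2 x := congrFun (F_old 2 (by norm_num)) x
theorem cv19 (x : ℝ) : cv 36 P1 PS1 x 19 = C1D_445.b x :=
  congrFun (Fn_exts (by norm_num) len7 _ _ : Fn 36 6 P1 PS1 = Fn 36 6 C1D_445.P0 C1D_445.PS) x
theorem cv20 (x : ℝ) : cv 36 P1 PS1 x 20 = C1D_445.b1 x :=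
  congrFun (Fn1_exts (by norm_num) len7 _ _ : Fn1 36 6 P1 PS1 = Fn1 36 6 C1D_445.P0 C1D_445.PS) x
theorem cv43 (x : ℝ) : cv 36 P1 PS1 x 43 = 435930 / 2 ^ 20 := by
  have := Fn_const (P := 36) (k := 14) P1 PS1 C2X5_454.allc x
  rw [show cv 36 P1 PS1 x 43 = Fn 36 14 P1 PS1 x from rfl, this]
  norm_num

theorem lo1 : P1.lo = -8 := by
  have h1 : P1.c = -63 := by decide +kernel
  have h2 : P1.j = 3 := by decide +kernel
  unfold Pc.lo
  rw [h1, h2]
  norm_num

theorem hi1 : hiL P1 PS1 = 8 := by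
  rw [Enc1_848.hiL_eq]
  have h1 : (Enc1_848.lastP P1 PS1).c = 63 := by decide +kernel
  have h2 : (Enc1_848.lastP P1 PS1).j = 3 := by decide +kernel
  unfold Pc.hi
  rw [h1, h2]
  norm_num


/-- all radii at once -/
theorem wv_err (h : SPair c W V I k c) {x : ℝ} (h1 : -5 < x) (h2 : x ≤ 3) (t g b : ℝ) {er : ℕ → ℕ}
    (a1 : 851968 ≤ er 1) (a2 : 6422528 ≤ er 2)
    (a4 : |k x - Enc1_848.F 1 x| ≤ (er 4 : ℝ) / 2 ^ 36)
    (a5 : |K1 c W V k x - Enc1_848.F1 1 x| ≤ (er 5 : ℝ) / 2 ^ 36)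
    (a7 : 352 * 65536 ≤ er 7) (a43 : 65536 ≤ er 43)
    (bt : |t - cv 36 P1 PS1 x 34| ≤ (er 34 : ℝ) / 2 ^ 36)
    (bg : |g - cv 36 P1 PS1 x 37| ≤ (er 37 : ℝ) / 2 ^ 36)
    (bb : |b - cv 36 P1 PS1 x 40| ≤ (er 40 : ℝ) / 2 ^ 36) :
    ∀ i ≤ 49, |wv c W V I k x t g b i - cv 36 P1 PS1 x i| ≤ (er i : ℝ) / 2 ^ 36 := by
  have he := Enc3_848.enc h
  intro i _
  by_cases i1 : i = 1
  · subst i1
    rw [show wv c W V I k x t g b 1 = W x from rfl, cv1]
    refine (he.W8 x (by linarith) (by linarith)).trans ?_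
    have : (851968 : ℝ) ≤ er 1 := by exact_mod_cast a1
    rw [div_le_div_iff₀ (by positivity) (by positivity)]
    nlinarith
  by_cases i2 : i = 2
  · subst i2
    rw [show wv c W V I k x t g b 2 = V x from rfl, cv2]
    refine (he.V8 x (by linarith) (by linarith)).trans ?_
    have : (6422528 : ℝ) ≤ er 2 := by exact_mod_cast a2
    rw [div_le_div_iff₀ (by positivity) (by positivity)]
    nlinarith
  by_cases i4 : i = 4
  · subst i4
    rw [show wv c W V I k x t g b 4 = k x from rfl, cv4]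
    exact a4
  by_cases i5 : i = 5
  · subst i5
    rw [show wv c W V I k x t g b 5 = K1 c W V k x from rfl, cv5]
    exact a5
  by_cases i7 : i = 7
  · subst i7
    rw [show wv c W V I k x t g b 7 = V x * (1 - V x) / I x from rfl, cv7]
    refine (QEnc_848.encQ h (by linarith) (by linarith)).trans ?_
    have : (352 * 65536 : ℝ) ≤ er 7 := by exact_mod_cast a7
    rw [div_le_div_iff₀ (by positivity) (by positivity)]
    nlinarith
  by_cases i43 : i = 43
  · subst i43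
    rw [show wv c W V I k x t g b 43 = c from rfl, cv43]
    have : (65536 : ℝ) ≤ er 43 := by exact_mod_cast a43
    have c1 := he.c_lo
    have c2 := he.c_hi
    have e : (65536 : ℝ) / 2 ^ 36 ≤ (er 43 : ℝ) / 2 ^ 36 := by gcongr
    refine le_trans ?_ e
    rw [abs_le]
    constructor
    · norm_num at c1 ⊢; linarith
    · norm_num at c2 ⊢; linarith
  by_cases i34 : i = 34
  · subst i34
    exact bt
  by_cases i37 : i = 37
  · subst i37
    exact bg
  by_cases i40 : i = 40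
  · subst i40
    exact bb
  have e1 : wv c W V I k x t g b i = cv 36 P1 PS1 x i := by
    unfold wv
    rw [if_neg i1, if_neg i2, if_neg i4, if_neg i5, if_neg i7, if_neg i43, if_neg i34, if_neg i37,
      if_neg i40]
  rw [e1, sub_self, abs_zero]
  positivity


/-- a check applied to the values -/
theorem use (n dg pr : ℕ) {er : ℕ → ℕ} {lo hi : ℤ} {e : Ex} (he : e.bnd 49 = true)
    (hc : checkO 36 n dg pr er lo hi e P1 PS1 = true) {x : ℝ} (h1 : -5 < x) (h2 : x ≤ 3)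
    (hlo : (lo : ℝ) / 8 < x) (hhi : x ≤ (hi : ℝ) / 8) {w : ℕ → ℝ} (w0 : w 0 = x)
    (hw : ∀ i ≤ 49, |w i - cv 36 P1 PS1 x i| ≤ (er i : ℝ) / 2 ^ 36) : 0 < e.evR w :=
  checkO_sound he adj1 hc x (by rw [lo1]; linarith) (by rw [hi1]; linarith) hlo hhi w w0 hw

end

end Crest.Agent.R146.C2Env_454
end

-- ▼ part R146/C2Comp_454
section

/-!
# Row 146, helper454: law cells of NUMREF (C2), composites and the generic cell

`comps` : `q T`, `q k'' - R k'`, `q B` inside their radii; `cellU`, `cellD` : upper and lower inequality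
from the checks of one profile.
-/

set_option autoImplicit false
set_option linter.unusedVariables false
set_option linter.unusedSimpArgs false

namespace Crest.Agent.R146.C2Comp_454

open Set
open PP865 EncR_848 PP4_454 C2Data_454 C2Eng_454 C2Ex_454 C2Alg_454 C2Env_454
open Crest.Agent.R146.SPair_307 Crest.Agent.R146.RefX_355

noncomputable section

variable {c : ℝ} {W V I k : ℝ → ℝ}

/-- the radii of the base values -/
structure Rad (c : ℝ) (W V k : ℝ → ℝ) (x : ℝ) (er : ℕ → ℕ) : Prop where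
  a1 : 851968 ≤ er 1
  a2 : 6422528 ≤ er 2
  a4 : |k x - Enc1_848.F 1 x| ≤ (er 4 : ℝ) / 2 ^ 36
  a5 : |K1 c W V k x - Enc1_848.F1 1 x| ≤ (er 5 : ℝ) / 2 ^ 36
  a7 : 352 * 65536 ≤ er 7
  a43 : 65536 ≤ er 43

theorem abs_of_two {e d : ℝ} {N : ℤ} (h1 : 0 < (N : ℝ) / 2 ^ 20 - e)
    (h2 : 0 < (N : ℝ) / 2 ^ 20 + e) : |e| ≤ (N : ℝ) / 2 ^ 20 :=
  abs_le.2 ⟨by linarith, by linarith⟩

theorem comps (h : SPair c W V I k c) {x : ℝ} (h1 : -5 < x) (h2 : x ≤ 3) {er : ℕ → ℕ}
    (hr : Rad c W V k x er) {lo hi t q b : ℤ} (hlo : (lo : ℝ) / 8 < x) (hhi : x ≤ (hi : ℝ) / 8)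
    (hc : encl er lo hi t q b = true) :
    |gT c W V I x - cv 36 P1 PS1 x 34| ≤ (t : ℝ) / 2 ^ 20 ∧
    |gQ c W V I k x - cv 36 P1 PS1 x 37| ≤ (q : ℝ) / 2 ^ 20 ∧
    |gB c W V I k x - cv 36 P1 PS1 x 40| ≤ (b : ℝ) / 2 ^ 20 := by
  have hI := (h.I_pos x).ne'
  have hV := (h.V_pos x).ne'
  set w := wv c W V I k x (cv 36 P1 PS1 x 34) (cv 36 P1 PS1 x 37) (cv 36 P1 PS1 x 40) with hw
  have hwe : ∀ i ≤ 49, |w i - cv 36 P1 PS1 x i| ≤ (er i : ℝ) / 2 ^ 36 :=
    wv_err h h1 h2 _ _ _ hr.a1 hr.a2 hr.a4 hr.a5 hr.a7 hr.a43 (by simp; positivity)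
      (by simp; positivity) (by simp; positivity)
  have w0 : w 0 = x := rfl
  have w1 : w 1 = W x := rfl
  have w2 : w 2 = V x := rfl
  have w4 : w 4 = k x := rfl
  have w7 : w 7 = qx V I x := rfl
  have w43 : w 43 = c := rfl
  have w34 : w 34 = cv 36 P1 PS1 x 34 := rfl
  have w37 : w 37 = cv 36 P1 PS1 x 37 := rfl
  have w40 : w 40 = cv 36 P1 PS1 x 40 := rfl
  simp only [encl, Bool.and_eq_true] at hc
  obtain ⟨⟨⟨⟨⟨c1, c2⟩, c3⟩, c4⟩, c5⟩, c6⟩ := hc
  have eT' : eT.evR w = gT c W V I x := by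
    simp only [eT, eA2, Ex.evR_add, Ex.evR_mul, Ex.evR_sub, Ex.evR_var, Ex.evR_cst,
      Enc1_848.evR_one, Enc1_848.evR_two, w0, w1, w7, w43, gT, k1x, Ad]
    ring
  have eK : eK1.evR w = K1 c W V k x := by
    simp only [eK1, eA2, eA2d, C2Ex_454.eR, Ex.evR_add, Ex.evR_mul, Ex.evR_sub, Ex.evR_var,
      Ex.evR_cst, Enc1_848.evR_one, Enc1_848.evR_two, w0, w1, w2, w4, w43, K1, YWRef_177.k1, Ad,
      Ad1]
    ring
  have eQ' : eQ.evR w = gQ c W V I k x := by
    simp only [eQ, eK2, Ex.evR_add, Ex.evR_mul, Ex.evR_sub, eK]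
    simp only [eI, eA2, eA2d, C2Ex_454.eR, Ex.evR_add, Ex.evR_mul, Ex.evR_sub, Ex.evR_var,
      Ex.evR_cst, Enc1_848.evR_one, Enc1_848.evR_two, w0, w1, w2, w4, w7, w43, gQ, K2,
      YWRef_177.k2, Ad, Ad1]
    rw [h.eqI x]
    simp only [Ad]
    ring
  have eqx : qx V I x * I x = V x * (1 - V x) := by
    unfold qx
    field_simp
  have hz : (1 + c) * (qx V I x * (W x / V x)) = (1 - V x) + 2 * Ad c W x * qx V I x := by
    have e1 : (1 + c) * W x = I x + 2 * Ad c W x * V x := by rw [h.eqI x]; ring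
    have e2 : (1 + c) * (qx V I x * (W x / V x)) * V x = ((1 - V x) + 2 * Ad c W x * qx V I x) * V x := by
      have : (1 + c) * (qx V I x * (W x / V x)) * V x = qx V I x * ((1 + c) * W x) := by
        field_simp
      rw [this, e1]
      linear_combination eqx
    exact mul_right_cancel₀ hV e2
  have eB' : eB.evR w = (1 + c) * gB c W V I k x := by
    simp only [eB, Ex.evR_add, Ex.evR_mul, Ex.evR_sub, eK]
    simp only [eA2, eA2d, hf, C2Ex_454.eR, Ex.evR_add, Ex.evR_mul, Ex.evR_sub, Ex.evR_var,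
      Ex.evR_cst, Enc1_848.evR_one, Enc1_848.evR_two, w0, w1, w2, w4, w7, w43, gB]
    push_cast
    have e3 : (1 + c) * (qx V I x * (W x / V x)) * K1 c W V k x
        = ((1 - V x) + 2 * Ad c W x * qx V I x) * K1 c W V k x := by rw [hz]
    simp only [Ad] at e3
    linear_combination (1 / 2 : ℝ) * e3
  have k1 := use 1 6 30 rfl c1 h1 h2 hlo hhi w0 hwe
  have k2 := use 1 6 30 rfl c2 h1 h2 hlo hhi w0 hwe
  have k3 := use 1 6 30 rfl c3 h1 h2 hlo hhi w0 hwe
  have k4 := use 1 6 30 rfl c4 h1 h2 hlo hhi w0 hwe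
  have k5 := use 1 6 30 rfl c5 h1 h2 hlo hhi w0 hwe
  have k6 := use 1 6 30 rfl c6 h1 h2 hlo hhi w0 hwe
  simp only [Ex.evR_add, Ex.evR_mul, Ex.evR_sub, Ex.evR_var, Ex.evR_cst, eT', eQ', eB', w34, w37,
    w40, w43, Enc1_848.evR_one] at k1 k2 k3 k4 k5 k6
  refine ⟨abs_of_two (d := 0) k1 k2, abs_of_two (d := 0) k3 k4, ?_⟩
  have hb := abs_of_two (d := 0) k5 k6
  rw [← mul_sub, abs_mul, abs_of_pos (by linarith [h.c_pos] : (0:ℝ) < 1 + c)] at hb
  have := abs_nonneg (gB c W V I k x - cv 36 P1 PS1 x 40)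
  nlinarith [h.c_pos]

/-- the values with the composites -/
def wf (c : ℝ) (W V I k : ℝ → ℝ) (x : ℝ) : ℕ → ℝ :=
  wv c W V I k x (gT c W V I x) (gQ c W V I k x) (gB c W V I k x)

/-- a profile is valid at `x` -/
structure Prf (c : ℝ) (W V I k : ℝ → ℝ) (x : ℝ) (er : ℕ → ℕ) (lo hi : ℤ) : Prop where
  hlo : (lo : ℝ) / 8 < x
  hhi : x ≤ (hi : ℝ) / 8
  err : ∀ i ≤ 49, |wf c W V I k x i - cv 36 P1 PS1 x i| ≤ (er i : ℝ) / 2 ^ 36

theorem use9 {x : ℝ} (h1 : -5 < x) (h2 : x ≤ 3) {er : ℕ → ℕ} {lo hi : ℤ}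
    (hp : Prf c W V I k x er lo hi) {a b : ℤ} {C : C9} {M : Ex}
    (hc : chk9 36 1 3 20 49 er lo hi a b C M P1 PS1 = true) {d r : ℝ}
    (ha : (a : ℝ) / 2 ^ 12 ≤ d) (hb : d ≤ (b : ℝ) / 2 ^ 12)
    (hr : (0 ≤ r ∧ r ≤ M.evR (wf c W V I k x)) ∨ (r ≤ 0 ∧ M.evR (wf c W V I k x) ≤ r)) :
    0 < C.val (wf c W V I k x) d r :=
  chk9_sound adj1 hc (by rw [lo1]; linarith) (by rw [hi1]; linarith) hp.hlo hp.hhi rfl hp.err
    ha hb hr

/-- both inequalities at one point -/
theorem cell {x δ r n ν H : ℝ} (h : SPair c W V I k c) (h1 : -5 < x) (h2 : x ≤ 3) {er : ℕ → ℕ}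
    {lo hi : ℤ} (hp : Prf c W V I k x er lo hi) {Hu Hl : HF} {M : Ex}
    (hall : allC er lo hi Hu Hl M = true)
    (hmix : 1 / 100 ≤ K1 c W V k x ∨ mixC er lo hi Hu Hl M = true)
    (hX : 0 ≤ K1 c W V k x + c * V x)
    (hr : (0 ≤ r ∧ r ≤ M.evR (wf c W V I k x)) ∨ (r ≤ 0 ∧ M.evR (wf c W V I k x) ≤ r))
    (hδ : 0 < δ) (hδc : δ ≤ c) (hn : n = c + δ * ν) (hν : |ν| ≤ 1001 / 1000)
    (hn7 : n ≤ 7 / 10 + δ / 1000)
    (hu : H ≤ HF.val Hu (wf c W V I k x) δ r) (hl : HF.val Hl (wf c W V I k x) δ r ≤ H) :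
    0 < 1433 / 1024 * QP (qx V I x) (V x) (K1 c W V k x) n δ r
      - QS (qx V I x) (V x) (k x) (K1 c W V k x) (gQ c W V I k x) (gB c W V I k x) n ν δ r H ∧
    0 < 1177 / 1024 * QP (qx V I x) (V x) (K1 c W V k x) n δ r
      + QS (qx V I x) (V x) (k x) (K1 c W V k x) (gQ c W V I k x) (gB c W V I k x) n ν δ r H := by
  have hV := (h.V_pos x).le
  have hV1 := (h.V_lt x).le
  have hc1 : 435929 / 2 ^ 20 ≤ c := (Enc3_848.enc h).c_lo
  have hc2 : c ≤ 435931 / 2 ^ 20 := (Enc3_848.enc h).c_hi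
  have hδ3 : δ ≤ 1703 / 4096 := by norm_num at hc2 ⊢; linarith
  set w := wf c W V I k x with hw
  have w2 : w 2 = V x := rfl
  have w4 : w 4 = k x := rfl
  have w5 : w 5 = K1 c W V k x := rfl
  have w7 : w 7 = qx V I x := rfl
  have w43 : w 43 = c := rfl
  have w37 : w 37 = gQ c W V I k x := rfl
  have w40 : w 40 = gB c W V I k x := rfl
  have eVv : eV.evR w = 4101 / 4096 := by
    simp only [eV, Ex.evR_cst]; norm_num
  have eVn : (-eV).evR w = -(4101 / 4096) := by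
    simp only [Ex.evR_neg, eVv]
  have eNv : eN.evR w = 5738 / 8192 := by
    simp only [eN, Ex.evR_cst]; norm_num
  have eLv : (Ex.cst 2804 12).evR w = 2804 / 4096 := by
    simp only [Ex.evR_cst]; norm_num
  have e0v : (Ex.cst 0 0).evR w = 0 := by
    simp only [Ex.evR_cst]; norm_num
  have e43 : (Ex.var 43).evR w = c := rfl
  have a0 : ((0 : ℤ) : ℝ) / 2 ^ 12 ≤ δ := by norm_num; linarith
  have b3 : δ ≤ ((1703 : ℤ) : ℝ) / 2 ^ 12 := by push_cast; norm_num; linarith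
  simp only [allC, Bool.and_eq_true] at hall
  obtain ⟨⟨⟨⟨⟨c1, c2⟩, c3⟩, c4⟩, c5⟩, c6⟩ := hall
  have u0 : δ ≤ 1166 / 4096 → 0 < 1433 / 1024 * QP (qx V I x) (V x) (K1 c W V k x)
      (c + 4101 / 4096 * δ) δ r - QS (qx V I x) (V x) (k x) (K1 c W V k x) (gQ c W V I k x)
      (gB c W V I k x) (c + 4101 / 4096 * δ) (4101 / 4096) δ r (HF.val Hu w δ r) := by
    intro hd
    have := use9 h1 h2 hp c1 a0 (by push_cast; norm_num; linarith) hr
    rwa [up_val, ← hw, w2, w4, w5, w7, w37, w40, eVv, e43] at this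
  have uE : 1166 / 4096 ≤ δ → 0 < 1433 / 1024 * QP (qx V I x) (V x) (K1 c W V k x)
      (5738 / 8192) δ r - QS (qx V I x) (V x) (k x) (K1 c W V k x) (gQ c W V I k x)
      (gB c W V I k x) (5738 / 8192) (4101 / 4096) δ r (HF.val Hu w δ r) := by
    intro hd
    have := use9 h1 h2 hp c2 (by push_cast; norm_num; linarith) b3 hr
    rwa [up_val, ← hw, w2, w4, w5, w7, w37, w40, eVv, eNv, e0v, zero_mul, add_zero] at this
  have uL : 1166 / 4096 ≤ δ → 0 < 1433 / 1024 * QP (qx V I x) (V x) (K1 c W V k x)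
      (5738 / 8192) δ r - QS (qx V I x) (V x) (k x) (K1 c W V k x) (gQ c W V I k x)
      (gB c W V I k x) (5738 / 8192) (2804 / 4096) δ r (HF.val Hu w δ r) := by
    intro hd
    have := use9 h1 h2 hp c3 (by push_cast; norm_num; linarith) b3 hr
    rwa [up_val, ← hw, w2, w4, w5, w7, w37, w40, eNv, e0v, eLv, zero_mul, add_zero] at this
  have u2 := use9 h1 h2 hp c4 a0 b3 hr
  have d0 := use9 h1 h2 hp c5 a0 b3 hr
  have d2 := use9 h1 h2 hp c6 a0 b3 hr
  rw [up_val, ← hw, w2, w4, w5, w7, w37, w40, eVn, e43] at u2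
  rw [dn_val, ← hw, w2, w4, w5, w7, w37, w40, eVv, e43] at d0
  rw [dn_val, ← hw, w2, w4, w5, w7, w37, w40, eVn, e43] at d2
  -- the lower vertex in `ν`
  have key : 0 < 1433 / 1024 * QP (qx V I x) (V x) (K1 c W V k x) (c + -(4101 / 4096) * δ) δ r
        - QS (qx V I x) (V x) (k x) (K1 c W V k x) (gQ c W V I k x) (gB c W V I k x)
          (c + -(4101 / 4096) * δ) (-(4101 / 4096)) δ r H ∧
      0 < 1177 / 1024 * QP (qx V I x) (V x) (K1 c W V k x) (c + -(4101 / 4096) * δ) δ r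
        + QS (qx V I x) (V x) (k x) (K1 c W V k x) (gQ c W V I k x) (gB c W V I k x)
          (c + -(4101 / 4096) * δ) (-(4101 / 4096)) δ r H := by
    rcases le_total 0 (K1 c W V k x + (c + -(4101 / 4096) * δ) * V x) with hs | hs
    · have m1 := QS_mono (q := qx V I x) (k := k x) (gQ := gQ c W V I k x) (gB := gB c W V I k x)
        (δ := δ) (r := r) (ν := -(4101 / 4096)) hs hu
      have m2 := QS_mono (q := qx V I x) (k := k x) (gQ := gQ c W V I k x) (gB := gB c W V I k x)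
        (δ := δ) (r := r) (ν := -(4101 / 4096)) hs hl
      exact ⟨by linarith, by linarith⟩
    · rcases hmix with hm | hm
      · exfalso
        have : -(1 / 1000) ≤ c + -(4101 / 4096) * δ := by
          norm_num at hc2
          linarith
        nlinarith
      · simp only [mixC, Bool.and_eq_true] at hm
        obtain ⟨g1, g2⟩ := hm
        have v2 := use9 h1 h2 hp g1 a0 b3 hr
        have f2 := use9 h1 h2 hp g2 a0 b3 hr
        rw [up_val, ← hw, w2, w4, w5, w7, w37, w40, eVn, e43] at v2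
        rw [dn_val, ← hw, w2, w4, w5, w7, w37, w40, eVn, e43] at f2
        have m1 := QS_anti (q := qx V I x) (k := k x) (gQ := gQ c W V I k x)
          (gB := gB c W V I k x) (δ := δ) (r := r) (ν := -(4101 / 4096)) hs hl
        have m2 := QS_anti (q := qx V I x) (k := k x) (gQ := gQ c W V I k x)
          (gB := gB c W V I k x) (δ := δ) (r := r) (ν := -(4101 / 4096)) hs hu
        exact ⟨by linarith, by linarith⟩
  exact ⟨vert_up hV hc1 hδ hu hX hn hν hn7 hδ3 u0 uE uL key.1 hc2,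
    vert_dn hV hδ hl hX hn hν d0 key.2⟩

end

end Crest.Agent.R146.C2Comp_454
end

-- ▼ part R146/C2Prof_454

/-!
# Row 146, helper454: law cells of NUMREF (C2), the profiles

`Mp`, `Mm` : majorants of the level shift; `BX` : majorant of the slope ratio; `proA` .. `proF` : the six
profiles; `epsP`, `epsM` : Taylor bounds of the gap.
-/

set_option autoImplicit false
set_option linter.unusedVariables false
set_option linter.unusedSimpArgs false

namespace Crest.Agent.R146.C2Prof_454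

open Set
open PP865 EncR_848 PP4_454 C2Data_454 C2Eng_454 C2Ex_454 C2Alg_454 C2Env_454 C2Comp_454
open Crest.Agent.R146.SPair_307 Crest.Agent.R146.RefX_355
open Crest.Agent.R146.C2R_889 (SX PX HX)

noncomputable section

variable {c : ℝ} {W V I k : ℝ → ℝ}

/-- majorant of the level shift to the right -/
def Mp (x : ℝ) : ℝ := Fn 36 7 P1 PS1 x
/-- majorant of the level shift to the left -/
def Mm (x : ℝ) : ℝ := Fn 36 8 P1 PS1 x

/-- majorant of the slope ratio -/
def BX (δ x r : ℝ) : ℝ :=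
  if x ≤ -(1 / 4) then
    if 0 ≤ r then C1D_445.b x + 2 / 1000
    else C1D_445.b x - 3 / 5 * δ * C1D_445.b1 x + δ ^ 2 / 10 + 2 / 1000
  else if x ≤ 0 then 330 / 1000
  else if x ≤ 1 / 4 then 305 / 1000
  else if x ≤ 1 / 2 then 325 / 1000
  else if x ≤ 3 / 4 then 352 / 1000
  else 472 / 1000

/-! ### pure data -/

/-- the certificate values without errors -/
theorem use0 {n dg pr : ℕ} {lo hi : ℤ} {e : Ex} (he : e.bnd 49 = true)
    (hc : checkO 36 n dg pr C2X5_454.e0 lo hi e P1 PS1 = true) {x : ℝ} (h1 : -5 < x) (h2 : x ≤ 3)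
    (hlo : (lo : ℝ) / 8 < x) (hhi : x ≤ (hi : ℝ) / 8) : 0 < e.evR (cv 36 P1 PS1 x) :=
  use n dg pr he hc h1 h2 hlo hhi rfl fun i _ => by simp <;> positivity

theorem Mp_le {x : ℝ} (h1 : -5 < x) (h2 : x ≤ 3) : Mp x ≤ 21 / 16 := by
  have := use0 rfl C2X5_454.mp h1 h2 (by norm_num; linarith) (by norm_num; linarith)
  simp only [Ex.evR_sub, Ex.evR_cst, Ex.evR_var] at this
  norm_num at this
  exact this.le

theorem Mm_le {x : ℝ} (h1 : -5 < x) (h2 : x ≤ 3) : Mm x ≤ 21 / 16 := by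
  have := use0 rfl C2X5_454.mm h1 h2 (by norm_num; linarith) (by norm_num; linarith)
  simp only [Ex.evR_sub, Ex.evR_cst, Ex.evR_var] at this
  norm_num at this
  exact this.le

theorem Bp_le {x : ℝ} (h1 : -5 < x) (h2 : x ≤ 3) : cv 36 P1 PS1 x 46 ≤ 5 / 4 := by
  have := use0 rfl C2X5_454.bp h1 h2 (by norm_num; linarith) (by norm_num; linarith)
  simp only [Ex.evR_sub, Ex.evR_cst, Ex.evR_var] at this
  norm_num at this
  exact this.le

theorem Bm_le {x : ℝ} (h1 : -5 < x) (h2 : x ≤ 3) : cv 36 P1 PS1 x 49 ≤ 5 / 4 := by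
  have := use0 rfl C2X5_454.bm h1 h2 (by norm_num; linarith) (by norm_num; linarith)
  simp only [Ex.evR_sub, Ex.evR_cst, Ex.evR_var] at this
  norm_num at this
  exact this.le

theorem BX_p {x δ r : ℝ} (h1 : -5 < x) (h2 : x ≤ 3) (hr : 0 ≤ r) :
    BX δ x r ≤ cv 36 P1 PS1 x 46 := by
  unfold BX
  split_ifs with a0 a1 a2 a3 a4
  · have := use0 rfl C2X5_454.b0p h1 h2 (by norm_num; linarith) (by norm_num; linarith)
    simp only [Ex.evR_sub, Ex.evR_cst, Ex.evR_var, cv19] at this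
    norm_num at this
    linarith
  · push Not at a0
    have := use0 rfl C2X5_454.b1p h1 h2 (by norm_num; linarith) (by norm_num; linarith)
    simp only [Ex.evR_sub, Ex.evR_cst, Ex.evR_var] at this
    norm_num at this
    linarith
  · have := use0 rfl C2X5_454.b2p h1 h2 (by norm_num; linarith) (by norm_num; linarith)
    simp only [Ex.evR_sub, Ex.evR_cst, Ex.evR_var] at this
    norm_num at this
    linarith
  · have := use0 rfl C2X5_454.b3p h1 h2 (by norm_num; linarith) (by norm_num; linarith)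
    simp only [Ex.evR_sub, Ex.evR_cst, Ex.evR_var] at this
    norm_num at this
    linarith
  · have := use0 rfl C2X5_454.b4p h1 h2 (by norm_num; linarith) (by norm_num; linarith)
    simp only [Ex.evR_sub, Ex.evR_cst, Ex.evR_var] at this
    norm_num at this
    linarith
  · have := use0 rfl C2X5_454.b5p h1 h2 (by norm_num; linarith) (by norm_num; linarith)
    simp only [Ex.evR_sub, Ex.evR_cst, Ex.evR_var] at this
    norm_num at this
    linarith

theorem BX_m {x δ r : ℝ} (h1 : -5 < x) (h2 : x ≤ 3) (hr : r < 0) (hδ : 0 < δ)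
    (hδ2 : δ ≤ 435931 / 2 ^ 20) : BX δ x r ≤ cv 36 P1 PS1 x 49 := by
  unfold BX
  split_ifs with a0 a0' a1 a2 a3 a4
  · exact absurd hr (not_lt.2 a0')
  · have k1 := use0 rfl C2X5_454.b0m h1 h2 (by norm_num; linarith) (by norm_num; linarith)
    have k2 := use0 rfl C2X5_454.b0d h1 h2 (by norm_num; linarith) (by norm_num; linarith)
    simp only [Ex.evR_sub, Ex.evR_add, Ex.evR_mul, Ex.evR_neg, Ex.evR_cst, Ex.evR_var, cv19,
      cv20] at k1 k2
    have e1 : 3 / 5 * δ * (-C1D_445.b1 x) ≤ 1 / 4 * (-C1D_445.b1 x) := by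
      refine mul_le_mul_of_nonneg_right ?_ k2.le
      norm_num at hδ2
      linarith
    have e2 : δ ^ 2 ≤ (435931 / 2 ^ 20) ^ 2 := pow_le_pow_left₀ hδ.le hδ2 2
    norm_num at k1 e2
    linarith
  · push Not at a0
    have := use0 rfl C2X5_454.b1m h1 h2 (by norm_num; linarith) (by norm_num; linarith)
    simp only [Ex.evR_sub, Ex.evR_cst, Ex.evR_var] at this
    norm_num at this
    linarith
  · have := use0 rfl C2X5_454.b2m h1 h2 (by norm_num; linarith) (by norm_num; linarith)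
    simp only [Ex.evR_sub, Ex.evR_cst, Ex.evR_var] at this
    norm_num at this
    linarith
  · have := use0 rfl C2X5_454.b3m h1 h2 (by norm_num; linarith) (by norm_num; linarith)
    simp only [Ex.evR_sub, Ex.evR_cst, Ex.evR_var] at this
    norm_num at this
    linarith
  · have := use0 rfl C2X5_454.b4m h1 h2 (by norm_num; linarith) (by norm_num; linarith)
    simp only [Ex.evR_sub, Ex.evR_cst, Ex.evR_var] at this
    norm_num at this
    linarith
  · have := use0 rfl C2X5_454.b5m h1 h2 (by norm_num; linarith) (by norm_num; linarith)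
    simp only [Ex.evR_sub, Ex.evR_cst, Ex.evR_var] at this
    norm_num at this
    linarith

/-! ### the profiles -/

/-- everything known at `x` about one profile -/
structure Pro (c : ℝ) (W V I k : ℝ → ℝ) (x : ℝ) (er er' : ℕ → ℕ) (lo hi : ℤ) : Prop where
  rad : Rad c W V k x er
  prf : Prf c W V I k x er' lo hi

theorem mk_pro (h : SPair c W V I k c) {x : ℝ} (h1 : -5 < x) (h2 : x ≤ 3) {er er' : ℕ → ℕ}
    {lo hi t q b : ℤ} (hr : Rad c W V k x er) (hr' : Rad c W V k x er')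
    (hlo : (lo : ℝ) / 8 < x) (hhi : x ≤ (hi : ℝ) / 8) (hc : encl er lo hi t q b = true)
    (ht : (t : ℝ) / 2 ^ 20 ≤ (er' 34 : ℝ) / 2 ^ 36) (hq : (q : ℝ) / 2 ^ 20 ≤ (er' 37 : ℝ) / 2 ^ 36)
    (hb : (b : ℝ) / 2 ^ 20 ≤ (er' 40 : ℝ) / 2 ^ 36) : Pro c W V I k x er er' lo hi := by
  obtain ⟨k1, k2, k3⟩ := comps h h1 h2 hr hlo hhi hc
  exact ⟨hr, hlo, hhi, wv_err h h1 h2 _ _ _ hr'.a1 hr'.a2 hr'.a4 hr'.a5 hr'.a7 hr'.a43
    (k1.trans ht) (k2.trans hq) (k3.trans hb)⟩

theorem radL (h : SPair c W V I k c) {x : ℝ} (h1 : -5 < x) (h2 : x ≤ 3) {er : ℕ → ℕ}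
    (a1 : er 1 = 851968) (a2 : er 2 = 6422528) (a4 : er 4 = 336 * 65536)
    (a5 : er 5 = 1340 * 65536) (a7 : 352 * 65536 ≤ er 7) (a43 : er 43 = 65536) :
    Rad c W V k x er := by
  have he := Enc3_848.enc h
  refine ⟨a1.ge, a2.ge, ?_, ?_, a7, a43.ge⟩
  · refine (he.k6 x (by linarith) (by linarith)).trans (le_of_eq ?_)
    rw [a4]; norm_num
  · refine (he.kd6 x (by linarith) (by linarith)).trans (le_of_eq ?_)
    rw [a5]; norm_num

theorem radR (h : SPair c W V I k c) {x : ℝ} (h1 : -4 < x) (h2 : x ≤ 3) {er : ℕ → ℕ}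
    (a1 : er 1 = 851968) (a2 : er 2 = 6422528) (a4 : er 4 = 248 * 65536)
    (a5 : er 5 = 430 * 65536) (a7 : 352 * 65536 ≤ er 7) (a43 : er 43 = 65536) :
    Rad c W V k x er := by
  have he := Enc3_848.enc h
  refine ⟨a1.ge, a2.ge, ?_, ?_, a7, a43.ge⟩
  · refine (he.k4 x (by linarith) (by linarith)).trans (le_of_eq ?_)
    rw [a4]; norm_num
  · refine (he.kd4 x (by linarith) (by linarith)).trans (le_of_eq ?_)
    rw [a5]; norm_num

theorem proA (h : SPair c W V I k c) {x : ℝ} (h1 : -5 < x) (h2 : x ≤ -4) :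
    Pro c W V I k x erA errA (-40) (-32) :=
  mk_pro h h1 (by linarith) (radL h h1 (by linarith) rfl rfl rfl rfl (by decide) rfl)
    (radL h h1 (by linarith) rfl rfl rfl rfl (by decide) rfl) (by norm_num; linarith)
    (by norm_num; linarith) C2X1_454.enA (by norm_num [errA]) (by norm_num [errA])
    (by norm_num [errA])

theorem proB (h : SPair c W V I k c) {x : ℝ} (h1 : -4 < x) (h2 : x ≤ -2) :
    Pro c W V I k x erB errB (-32) (-16) :=
  mk_pro h (by linarith) (by linarith) (radR h h1 (by linarith) rfl rfl rfl rfl (by decide) rfl)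
    (radR h h1 (by linarith) rfl rfl rfl rfl (by decide) rfl) (by norm_num; linarith)
    (by norm_num; linarith) C2X1_454.enB (by norm_num [errB]) (by norm_num [errB])
    (by norm_num [errB])

theorem proC (h : SPair c W V I k c) {x : ℝ} (h1 : -2 < x) (h2 : x ≤ -(1 / 4)) :
    Pro c W V I k x erC errC (-16) (-2) :=
  mk_pro h (by linarith) (by linarith)
    (radR h (by linarith) (by linarith) rfl rfl rfl rfl (by decide) rfl)
    (radR h (by linarith) (by linarith) rfl rfl rfl rfl (by decide) rfl) (by norm_num; linarith)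
    (by norm_num; linarith) C2X2_454.enC (by norm_num [errC]) (by norm_num [errC])
    (by norm_num [errC])

theorem proD (h : SPair c W V I k c) {x : ℝ} (h1 : -(1 / 4) < x) (h2 : x ≤ 3 / 4) :
    Pro c W V I k x erD errD (-2) 6 :=
  mk_pro h (by linarith) (by linarith)
    (radR h (by linarith) (by linarith) rfl rfl rfl rfl (by decide) rfl)
    (radR h (by linarith) (by linarith) rfl rfl rfl rfl (by decide) rfl) (by norm_num; linarith)
    (by norm_num; linarith) C2X3_454.enD (by norm_num [errD]) (by norm_num [errD])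
    (by norm_num [errD])

theorem proE (h : SPair c W V I k c) {x : ℝ} (h1 : 3 / 4 < x) (h2 : x ≤ 1) :
    Pro c W V I k x erE errE 6 8 :=
  mk_pro h (by linarith) (by linarith)
    (radR h (by linarith) (by linarith) rfl rfl rfl rfl (by decide) rfl)
    (radR h (by linarith) (by linarith) rfl rfl rfl rfl (by decide) rfl) (by norm_num; linarith)
    (by norm_num; linarith) C2X3_454.enE (by norm_num [errE]) (by norm_num [errE])
    (by norm_num [errE])

theorem proF (h : SPair c W V I k c) {x : ℝ} (h1 : 1 < x) (h2 : x ≤ 3) :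
    Pro c W V I k x erF errF 8 24 :=
  mk_pro h (by linarith) (by linarith)
    (radR h (by linarith) (by linarith) rfl rfl rfl rfl (by decide) rfl)
    (radR h (by linarith) (by linarith) rfl rfl rfl rfl (by decide) rfl) (by norm_num; linarith)
    (by norm_num; linarith) C2X4_454.enF (by norm_num [errF]) (by norm_num [errF])
    (by norm_num [errF])

/-- a base check applied at `x` -/
theorem useP (h : SPair c W V I k c) {x : ℝ} (h1 : -5 < x) (h2 : x ≤ 3) {er er' : ℕ → ℕ}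
    {lo hi : ℤ} (hp : Pro c W V I k x er er' lo hi) {n dg pr : ℕ} {e : Ex} (he : e.bnd 49 = true)
    (hc : checkO 36 n dg pr er lo hi e P1 PS1 = true) :
    0 < e.evR (wv c W V I k x (cv 36 P1 PS1 x 34) (cv 36 P1 PS1 x 37) (cv 36 P1 PS1 x 40)) :=
  use n dg pr he hc h1 h2 hp.prf.hlo hp.prf.hhi rfl
    (wv_err h h1 h2 _ _ _ hp.rad.a1 hp.rad.a2 hp.rad.a4 hp.rad.a5 hp.rad.a7 hp.rad.a43
      (by simp; positivity) (by simp; positivity) (by simp; positivity))

theorem sig_of (h : SPair c W V I k c) {x : ℝ} (h1 : -5 < x) (h2 : x ≤ 3) {er er' : ℕ → ℕ}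
    {lo hi : ℤ} (hp : Pro c W V I k x er er' lo hi)
    (hc : checkO 36 2 6 30 er lo hi (.var 5 + .var 43 * .var 2) P1 PS1 = true) :
    0 ≤ K1 c W V k x + c * V x := by
  have := useP h h1 h2 hp (by decide) hc
  simp only [Ex.evR_add, Ex.evR_mul, Ex.evR_var] at this
  exact this.le

theorem kpos_of (h : SPair c W V I k c) {x : ℝ} (h1 : -5 < x) (h2 : x ≤ 3) {er er' : ℕ → ℕ}
    {lo hi : ℤ} (hp : Pro c W V I k x er er' lo hi)
    (hc : checkO 36 2 6 30 er lo hi (.var 5 - .cst 10486 20) P1 PS1 = true) :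
    1 / 100 ≤ K1 c W V k x := by
  have := useP h h1 h2 hp (by decide) hc
  simp only [Ex.evR_sub, Ex.evR_var, Ex.evR_cst] at this
  have e : (1 : ℝ) / 100 ≤ ((10486 : ℤ) : ℝ) / 2 ^ 20 := by norm_num
  have e2 : wv c W V I k x (cv 36 P1 PS1 x 34) (cv 36 P1 PS1 x 37) (cv 36 P1 PS1 x 40) 5
    = K1 c W V k x := rfl
  rw [e2] at this
  linarith

theorem klow_of (h : SPair c W V I k c) {x : ℝ} (h1 : -5 < x) (h2 : x ≤ 3) {er er' : ℕ → ℕ}
    {lo hi : ℤ} (hp : Pro c W V I k x er er' lo hi)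
    (hc : checkO 36 2 6 30 er lo hi (.var 5 + .cst 70 10) P1 PS1 = true) :
    -(70 / 1024) ≤ K1 c W V k x := by
  have := useP h h1 h2 hp (by decide) hc
  simp only [Ex.evR_add, Ex.evR_var, Ex.evR_cst] at this
  have e2 : wv c W V I k x (cv 36 P1 PS1 x 34) (cv 36 P1 PS1 x 37) (cv 36 P1 PS1 x 40) 5
    = K1 c W V k x := rfl
  rw [e2] at this
  norm_num at this ⊢
  linarith

/-- `ε ≤ δ K` on the right -/
theorem epsP (h : SPair c W V I k c) {x δ r ε : ℝ} (h1 : -5 < x) (h2 : x ≤ 3) {er er' : ℕ → ℕ}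
    {lo hi : ℤ} (hp : Pro c W V I k x er er' lo hi) (hc : kP er lo hi = true)
    (hK : 0 < cv 36 P1 PS1 x 28) (hδ : 0 < δ) (hδc : δ ≤ c) (hε : 0 ≤ ε) (hr : 0 ≤ r)
    (hrM : r ≤ Mp x)
    (ht : ε * (2 * (I x / V x) * (1 - V x - δ * V x * Mp x)) ≤ 153 / 100 * δ * r ^ 2 * (1 - V x)) :
    ε ≤ δ * cv 36 P1 PS1 x 28 := by
  have hV := h.V_pos x
  have hI := h.I_pos x
  have hR : 0 < 1 - V x := by linarith [h.V_lt x]
  have hq : 0 < qx V I x := div_pos (mul_pos hV hR) hI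
  have hM : 0 ≤ Mp x := hr.trans hrM
  have hk := useP h h1 h2 hp (by decide) hc
  simp only [Ex.evR_sub, Ex.evR_mul, Ex.evR_var, Ex.evR_cst, C2Ex_454.eR, Enc1_848.evR_one,
    Enc1_848.evR_two] at hk
  have e28 : wv c W V I k x (cv 36 P1 PS1 x 34) (cv 36 P1 PS1 x 37) (cv 36 P1 PS1 x 40) 28
    = cv 36 P1 PS1 x 28 := rfl
  have e22 : wv c W V I k x (cv 36 P1 PS1 x 34) (cv 36 P1 PS1 x 37) (cv 36 P1 PS1 x 40) 22
    = Mp x := rfl
  have e2 : wv c W V I k x (cv 36 P1 PS1 x 34) (cv 36 P1 PS1 x 37) (cv 36 P1 PS1 x 40) 2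
    = V x := rfl
  have e7 : wv c W V I k x (cv 36 P1 PS1 x 34) (cv 36 P1 PS1 x 37) (cv 36 P1 PS1 x 40) 7
    = qx V I x := rfl
  have e43 : wv c W V I k x (cv 36 P1 PS1 x 34) (cv 36 P1 PS1 x 37) (cv 36 P1 PS1 x 40) 43
    = c := rfl
  rw [e28, e22, e2, e7, e43] at hk
  set K := cv 36 P1 PS1 x 28 with hKdef
  set M := Mp x with hMdef
  have hMq : 0 ≤ M * M * qx V I x := by positivity
  have hD : 0 < 1 - V x - c * (V x * M) := by
    by_contra hcon
    push Not at hcon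
    have := mul_nonpos_of_nonneg_of_nonpos hK.le hcon
    norm_num at hk
    nlinarith
  have hD2 : 1 - V x - c * (V x * M) ≤ 1 - V x - δ * V x * M := by
    have : 0 ≤ (c - δ) * (V x * M) := mul_nonneg (by linarith) (by positivity)
    nlinarith
  -- multiply by `q`
  have hqp : qx V I x * (I x / V x) = 1 - V x := by
    unfold qx; field_simp
  have s1 : ε * 2 * (1 - V x - c * (V x * M)) ≤ 153 / 100 * δ * M ^ 2 * qx V I x := by
    have t1 := mul_le_mul_of_nonneg_left ht hq.le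
    have t2 : qx V I x * (ε * (2 * (I x / V x) * (1 - V x - δ * V x * M)))
        = (1 - V x) * (ε * 2 * (1 - V x - δ * V x * M)) := by rw [← hqp]; ring
    have t3 : qx V I x * (153 / 100 * δ * r ^ 2 * (1 - V x))
        = (1 - V x) * (153 / 100 * δ * r ^ 2 * qx V I x) := by ring
    rw [t2, t3] at t1
    have t4 := le_of_mul_le_mul_left t1 hR
    have t5 : ε * 2 * (1 - V x - c * (V x * M)) ≤ ε * 2 * (1 - V x - δ * V x * M) :=
      mul_le_mul_of_nonneg_left hD2 (by linarith)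
    have t6 : r ^ 2 ≤ M ^ 2 := pow_le_pow_left₀ hr hrM 2
    have t7 : 153 / 100 * δ * r ^ 2 * qx V I x ≤ 153 / 100 * δ * M ^ 2 * qx V I x := by gcongr
    linarith
  have s2 : 153 / 100 * δ * M ^ 2 * qx V I x ≤ δ * K * 2 * (1 - V x - c * (V x * M)) := by
    have t1 : 153 / 100 * (M * M * qx V I x) ≤ 2 * (K * (1 - V x - c * (V x * M))) := by
      norm_num at hk
      nlinarith
    have t2 := mul_le_mul_of_nonneg_left t1 hδ.le
    nlinarith [t2]
  have s3 := s1.trans s2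
  have s4 : (ε - δ * K) * (2 * (1 - V x - c * (V x * M))) ≤ 0 := by nlinarith [s3]
  by_contra hcon
  push Not at hcon
  have := mul_pos (sub_pos.2 hcon) (by linarith : 0 < 2 * (1 - V x - c * (V x * M)))
  linarith

/-- `ε ≤ δ K` on the left -/
theorem epsM (h : SPair c W V I k c) {x δ r ε : ℝ} (h1 : -5 < x) (h2 : x ≤ 3) {er er' : ℕ → ℕ}
    {lo hi : ℤ} (hp : Pro c W V I k x er er' lo hi) (hc : kM er lo hi = true)
    (hδ : 0 < δ) (hδc : δ ≤ c) (hε : 0 ≤ ε) (hr : r ≤ 0) (hrM : -Mm x ≤ r)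
    (ht : ε * (2 * (I x / V x) * (1 - δ * Mm x)) ≤ 153 / 100 * δ * r ^ 2) :
    ε ≤ δ * cv 36 P1 PS1 x 31 := by
  have hV := h.V_pos x
  have hI := h.I_pos x
  have hR : 0 < 1 - V x := by linarith [h.V_lt x]
  have hq : 0 < qx V I x := div_pos (mul_pos hV hR) hI
  have hM : 0 ≤ Mm x := by linarith
  have hM2 := Mm_le h1 h2
  have hk := useP h h1 h2 hp (by decide) hc
  simp only [Ex.evR_sub, Ex.evR_mul, Ex.evR_var, Ex.evR_cst, C2Ex_454.eR, Enc1_848.evR_one,
    Enc1_848.evR_two] at hk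
  have e31 : wv c W V I k x (cv 36 P1 PS1 x 34) (cv 36 P1 PS1 x 37) (cv 36 P1 PS1 x 40) 31
    = cv 36 P1 PS1 x 31 := rfl
  have e25 : wv c W V I k x (cv 36 P1 PS1 x 34) (cv 36 P1 PS1 x 37) (cv 36 P1 PS1 x 40) 25
    = Mm x := rfl
  have e2 : wv c W V I k x (cv 36 P1 PS1 x 34) (cv 36 P1 PS1 x 37) (cv 36 P1 PS1 x 40) 2
    = V x := rfl
  have e7 : wv c W V I k x (cv 36 P1 PS1 x 34) (cv 36 P1 PS1 x 37) (cv 36 P1 PS1 x 40) 7
    = qx V I x := rfl
  have e43 : wv c W V I k x (cv 36 P1 PS1 x 34) (cv 36 P1 PS1 x 37) (cv 36 P1 PS1 x 40) 43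
    = c := rfl
  rw [e31, e25, e2, e7, e43] at hk
  set K := cv 36 P1 PS1 x 31 with hKdef
  set M := Mm x with hMdef
  have hc2 : c ≤ 435931 / 2 ^ 20 := (Enc3_848.enc h).c_hi
  have hD : 0 < 1 - c * M := by
    norm_num at hc2
    nlinarith [h.c_pos]
  have hD2 : 1 - c * M ≤ 1 - δ * M := by nlinarith
  have hqp : qx V I x * (I x / V x) = 1 - V x := by
    unfold qx; field_simp
  have s1 : ε * 2 * ((1 - V x) * (1 - c * M)) ≤ 153 / 100 * δ * M ^ 2 * qx V I x := by
    have t1 := mul_le_mul_of_nonneg_left ht hq.le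
    have t2 : qx V I x * (ε * (2 * (I x / V x) * (1 - δ * M)))
        = ε * 2 * ((1 - V x) * (1 - δ * M)) := by rw [← hqp]; ring
    have t5 : ε * 2 * ((1 - V x) * (1 - c * M)) ≤ ε * 2 * ((1 - V x) * (1 - δ * M)) :=
      mul_le_mul_of_nonneg_left (mul_le_mul_of_nonneg_left hD2 hR.le) (by linarith)
    have t6 : r ^ 2 ≤ M ^ 2 := sq_le_sq' hrM (hr.trans hM)
    have t7 : 153 / 100 * δ * r ^ 2 * qx V I x ≤ 153 / 100 * δ * M ^ 2 * qx V I x := by gcongr
    rw [t2] at t1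
    have t8 : qx V I x * (153 / 100 * δ * r ^ 2) = 153 / 100 * δ * r ^ 2 * qx V I x := by ring
    rw [t8] at t1
    exact t5.trans (t1.trans t7)
  have s2 : 153 / 100 * δ * M ^ 2 * qx V I x ≤ δ * K * 2 * ((1 - V x) * (1 - c * M)) := by
    have hMq : 0 ≤ M * M * qx V I x := by positivity
    have t1 : 153 / 100 * (M * M * qx V I x) ≤ 2 * (K * ((1 - V x) * (1 - c * M))) := by
      norm_num at hk
      nlinarith
    have t2 := mul_le_mul_of_nonneg_left t1 hδ.le
    have t3 : δ * (153 / 100 * (M * M * qx V I x)) = 153 / 100 * δ * M ^ 2 * qx V I x := by ring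
    have t4 : δ * (2 * (K * ((1 - V x) * (1 - c * M)))) = δ * K * 2 * ((1 - V x) * (1 - c * M)) := by
      ring
    rw [t3, t4] at t2
    exact t2
  have s3 := s1.trans s2
  have hDR : 0 < (1 - V x) * (1 - c * M) := mul_pos hR hD
  have s4 : (ε - δ * K) * (2 * ((1 - V x) * (1 - c * M))) ≤ 0 := by
    have e : (ε - δ * K) * (2 * ((1 - V x) * (1 - c * M)))
      = ε * 2 * ((1 - V x) * (1 - c * M)) - δ * K * 2 * ((1 - V x) * (1 - c * M)) := by ring
    rw [e]
    linarith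
  by_contra hcon
  push Not at hcon
  have := mul_pos (sub_pos.2 hcon) (by linarith : 0 < 2 * ((1 - V x) * (1 - c * M)))
  linarith

end

end Crest.Agent.R146.C2Prof_454
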