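import Crest.Agent.R146.PP3_865

/-!
# Row 146, helper454: piecewise polynomial certificates, part 4: triangle parameters

`Tri` : a pair of variables `(i, j)` lying in a triangle with vertices given by expressions
(used for `(δ, δ²)` with `δ ∈ [a, b]`: vertices `(a, a²)`, `(b, b²)`, `((a+b)/2, ab)`);
`vt ps e` : the vertex expressions; `checkO` : the Taylor model test of `PP3_865` on the half open range
`(a/8, b/8]` (only the pieces which really meet it); `checkTri`, `checkTri_sound` : everything together.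
-/

set_option autoImplicit false

namespace Crest.Agent.R146.PP4_454

open Crest.Agent.R146.PP865 Function




/-- a pair of parameters `(i, j)` in the triangle with vertices `(a0,b0)`, `(a1,b1)`, `(a2,b2)` -/
structure Tri where
  i : ℕ
  j : ℕ
  a0 : Ex
  b0 : Ex
  a1 : Ex
  b1 : Ex
  a2 : Ex
  b2 : Ex







/-- `(δ, δ²)` -/
theorem tri_sq {a b x : ℝ} (ha : a ≤ x) (hb : x ≤ b) : ∃ l0 l1 l2 : ℝ, 0 ≤ l0 ∧ 0 ≤ l1 ∧ 0 ≤ l2 ∧
    l0 + l1 + l2 = 1 ∧ x = l0 * a + l1 * b + l2 * ((a + b) / 2) ∧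
    x ^ 2 = l0 * a ^ 2 + l1 * b ^ 2 + l2 * (a * b) := by
  rcases eq_or_lt_of_le (ha.trans hb) with h | h
  · have : x = a := le_antisymm (by rw [h]; exact hb) ha
    exact ⟨1, 0, 0, by norm_num, le_rfl, le_rfl, by norm_num, by rw [this]; ring,
      by rw [this]; ring⟩
  · have hd : 0 < b - a := sub_pos.2 h
    set s := (x - a) / (b - a) with hs
    have hs0 : 0 ≤ s := div_nonneg (by linarith) hd.le
    have hs1 : s ≤ 1 := (div_le_one hd).2 (by linarith)
    have hx : x = (1 - s) * a + s * b := by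
      rw [hs]; field_simp; ring
    refine ⟨(1 - s) ^ 2, s ^ 2, 2 * s * (1 - s), sq_nonneg _, sq_nonneg _,
      mul_nonneg (by linarith) (by linarith), by ring, by rw [hx]; ring, by rw [hx]; ring⟩



/-! ### half open ranges -/

/-- does the piece really meet `(a / 8, b / 8]`? -/
def inO (a b : ℤ) (q : Pc) : Bool :=
  decide (a * 2 ^ q.j < 8 * (q.c + 1)) && decide (8 * (q.c - 1) < b * 2 ^ q.j)

theorem inO_of {a b : ℤ} {q : Pc} {z : ℝ} (h1 : q.lo < z) (h2 : z ≤ q.hi)
    (ha : (a : ℝ) / 8 < z) (hb : z ≤ (b : ℝ) / 8) : inO a b q = true := by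
  have hj : (0:ℝ) < 2 ^ q.j := by positivity
  unfold Pc.lo at h1
  unfold Pc.hi at h2
  rw [div_lt_iff₀ hj] at h1
  rw [le_div_iff₀ hj] at h2
  simp only [inO, Bool.and_eq_true, decide_eq_true_eq]
  constructor
  · have h3 : (a : ℝ) * 2 ^ q.j < 8 * ((q.c : ℝ) + 1) := by nlinarith
    exact_mod_cast h3
  · have h3 : 8 * ((q.c : ℝ) - 1) < (b : ℝ) * 2 ^ q.j := by nlinarith
    exact_mod_cast h3

/-- the test on all pieces meeting `(a / 8, b / 8]` -/
def checkO (P n dg pr : ℕ) (err : ℕ → ℕ) (a b : ℤ) (e : Ex) (p : Pc) (ps : List Pc) : Bool :=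
  (p :: ps).all fun q => !(inO a b q) || TM.posT n (e.evT dg pr (q.envT P err))

theorem pieceO_sound {P n dg pr m : ℕ} {err : ℕ → ℕ} {a b : ℤ} {e : Ex} {q : Pc}
    (he : e.bnd m = true)
    (h : (!(inO a b q) || TM.posT n (e.evT dg pr (q.envT P err))) = true) {z : ℝ}
    (h1 : q.lo < z) (h2 : z ≤ q.hi) (ha : (a : ℝ) / 8 < z) (hb : z ≤ (b : ℝ) / 8) {w : ℕ → ℝ}
    (hw0 : w 0 = z)
    (hw : ∀ i ≤ m, |w i - val (fun k => q.v0 P k) (fun k => q.v1 P k) (fun k => q.v2 P k) i z|
      ≤ (err i : ℝ) / 2 ^ P) : 0 < e.evR w := by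
  rw [inO_of h1 h2 ha hb] at h
  simp only [Bool.not_true, Bool.false_or] at h
  refine TM.posT_sound (Pc.abs_loc_le h1.le h2) (Ex.evT_mem (Pc.abs_loc_le h1.le h2) ?_ he) h
  intro i hi
  exact Pc.envT_mem (fun hi0 => by rw [hi0, hw0]) (hw i hi)

theorem checkO_sound {P n dg pr m : ℕ} {err : ℕ → ℕ} {a b : ℤ} {e : Ex} (he : e.bnd m = true) :
    ∀ {p : Pc} {ps : List Pc}, chain adj p ps = true →
    checkO P n dg pr err a b e p ps = true → ∀ z, p.lo < z → z ≤ hiL p ps →
    (a : ℝ) / 8 < z → z ≤ (b : ℝ) / 8 → ∀ w : ℕ → ℝ, w 0 = z →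
    (∀ i ≤ m, |w i - cv P p ps z i| ≤ (err i : ℝ) / 2 ^ P) → 0 < e.evR w
  | p, [], _, h, z, h1, h2, ha, hb, w, hw0, hw => by
    simp only [checkO, List.all_cons, List.all_nil, Bool.and_true] at h
    exact pieceO_sound he h h1 h2 ha hb hw0 hw
  | p, q :: ps, hch, h, z, h1, h2, ha, hb, w, hw0, hw => by
    by_cases hz : z ≤ p.hi
    · simp only [checkO, List.all_cons, Bool.and_eq_true] at h
      refine pieceO_sound he h.1 h1 hz ha hb hw0 ?_
      intro i hi
      have := hw i hi
      unfold cv at this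
      rwa [val_sel P p (q :: ps) z hz] at this
    · simp only [chain, Bool.and_eq_true] at hch
      have h' : checkO P n dg pr err a b e q ps = true := by
        simp only [checkO, List.all_cons, Bool.and_eq_true] at h ⊢
        exact h.2
      have hq : q.lo < z := by
        rw [← adj_sound hch.1]
        exact not_le.1 hz
      refine checkO_sound he hch.2 h' z hq h2 ha hb w hw0 ?_
      have e2 : ∀ i, cv P p (q :: ps) z i = cv P q ps z i := by
        intro i
        have hs : ∀ g, sel g p (q :: ps) z = sel g q ps z := fun g => by simp [sel, hz]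
        unfold cv val
        split
        · rfl
        · split <;> exact hs _
      intro i hi
      rw [← e2]
      exact hw i hi



end Crest.Agent.R146.PP4_454
namespace Crest.Agent.R146.PP4_454.Tri
end Crest.Agent.R146.PP4_454.Tri
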