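import Crest.Agent.R146.EncR_848_Mg
import Crest.Agent.R146.Enc0_848
import Crest.Agent.R146.Stat8_307

/-!
# Row 146, helper848: enclosures, part 1: `W, V, I` of a stationary pair with `c` near `.4157355`

For `c ∈ [435929/2^20, 435931/2^20]` and `SPair c W V I k lam`, `x ∈ [-8, 8]`, `N = 2^20`:

* `|W - f0| ≤ 13/N`, `|V - f0'| ≤ 98/N`, `|I - f0''| ≤ (26 + 98 |2A|)/N`.
-/

set_option autoImplicit false
set_option linter.unusedSimpArgs false

namespace Crest.Agent.R146.Enc1_848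

open Set Filter Topology
open Crest.Agent.R146.PP865 Crest.Agent.R146.EncData_848 Crest.Agent.R146.EncR_848
open Crest.Agent.R146.Enc0_848 Crest.Agent.R146.SPair_307

noncomputable section

/-- the `k`-th spline (`0 : Ŵ`, `1 : κ̂`, `2 : q̂`) and its derivatives -/
def F (k : ℕ) : ℝ → ℝ := Fn 36 k p0 ps
def F1 (k : ℕ) : ℝ → ℝ := Fn1 36 k p0 ps
def F2 (k : ℕ) : ℝ → ℝ := Fn2 36 k p0 ps

theorem dF {k : ℕ} (hk : k < 6) (z : ℝ) : HasDerivAt (F k) (F1 k z) z :=
  (smooth_sound sm hk 36 z).1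

theorem dF1 {k : ℕ} (hk : k < 6) (z : ℝ) : HasDerivAt (F1 k) (F2 k z) z :=
  (smooth_sound sm hk 36 z).2

/-- certificate variables `0..18`, parameters `19 ↦ a`, `20 ↦ b` -/
def env (z a b : ℝ) (i : ℕ) : ℝ := if i = 19 then a else if i = 20 then b else cv 36 p0 ps z i

theorem env_le {z a b : ℝ} : ∀ i ≤ 18, env z a b i = cv 36 p0 ps z i := by
  intro i hi
  unfold env
  rw [if_neg (by omega), if_neg (by omega)]

theorem env0 (z a b : ℝ) : env z a b 0 = z := rfl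
theorem env1 (z a b : ℝ) : env z a b 1 = F 0 z := rfl
theorem env2 (z a b : ℝ) : env z a b 2 = F1 0 z := rfl
theorem env3 (z a b : ℝ) : env z a b 3 = F2 0 z := rfl
theorem env4 (z a b : ℝ) : env z a b 4 = F 1 z := rfl
theorem env5 (z a b : ℝ) : env z a b 5 = F1 1 z := rfl
theorem env7 (z a b : ℝ) : env z a b 7 = F 2 z := rfl
theorem env8 (z a b : ℝ) : env z a b 8 = F1 2 z := rfl
theorem env19 (z a b : ℝ) : env z a b 19 = a := rfl

/-- last piece -/
def lastP : Pc → List Pc → Pc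
  | p, [] => p
  | _, q :: ps => lastP q ps

theorem hiL_eq : ∀ (p : Pc) (ps : List Pc), hiL p ps = (lastP p ps).hi
  | _, [] => rfl
  | _, q :: ps => hiL_eq q ps

theorem hi8 : hiL p0 ps = 8 := by
  rw [hiL_eq]
  have h1 : (lastP p0 ps).c = 63 := by decide +kernel
  have h2 : (lastP p0 ps).j = 3 := by decide +kernel
  unfold Pc.hi
  rw [h1, h2]
  norm_num

theorem lo8 : p0.lo = -8 := by
  have h1 : p0.c = -63 := rfl
  have h2 : p0.j = 3 := rfl
  unfold Pc.lo
  rw [h1, h2]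
  norm_num

theorem chk {n : ℕ} {a b : ℤ} {prm : List Prm} {e : Ex}
    (h : chkBoxR 36 n 18 a b prm e p0 ps = true) {z s t : ℝ} (h1 : -8 ≤ z) (h2 : z ≤ 8)
    (ha : (a : ℝ) / 8 ≤ z) (hb : z ≤ (b : ℝ) / 8)
    (hp : ∀ q ∈ prm, q.2.1.evR (env z s t) ≤ env z s t q.1 ∧ env z s t q.1 ≤ q.2.2.evR (env z s t)) :
    0 < e.evR (env z s t) :=
  chkBoxR_sound adj_ps h (by rw [lo8]; exact h1) (by rw [hi8]; exact h2) ha hb env_le hp

/-- the box for `c` -/
def pc : List Prm := [(19, .cst 435929 20, .cst 435931 20)]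

theorem chkc {n : ℕ} {a b : ℤ} {e : Ex} (h : chkBoxR 36 n 18 a b pc e p0 ps = true) {z c t : ℝ}
    (hc1 : 435929 / 2 ^ 20 ≤ c) (hc2 : c ≤ 435931 / 2 ^ 20) (h1 : -8 ≤ z) (h2 : z ≤ 8)
    (ha : (a : ℝ) / 8 ≤ z) (hb : z ≤ (b : ℝ) / 8) : 0 < e.evR (env z c t) := by
  refine chk h h1 h2 ha hb ?_
  intro q hq
  simp only [pc, List.mem_cons, List.not_mem_nil, or_false] at hq
  subst hq
  simp only [Ex.evR_cst, env19]
  push_cast
  exact ⟨hc1, hc2⟩

/-! ### checks -/

/-- residual of the `W` equation -/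
def eW : Ex := .var 3 - (1 + .var 19) * .var 1 + ((1 - .var 19) * .var 0 + 2 * .var 19 * .var 1) * .var 2

theorem cW1 : chkBoxR 36 3 18 (-64) 64 pc (.cst 7 20 - eW) p0 ps = true := by decide +kernel
theorem cW2 : chkBoxR 36 3 18 (-64) 64 pc (.cst 7 20 + eW) p0 ps = true := by decide +kernel

/-- `1 + c - 2 c V̂` -/
def em : Ex := 1 + .var 19 - 2 * .var 19 * .var 2

theorem cm1 : chkBoxR 36 3 18 (-64) 64 pc (em - .cst 149 8) p0 ps = true := by decide +kernel
theorem cm2 : chkBoxR 36 3 18 (-64) 64 pc (.cst 1451 10 - em) p0 ps = true := by decide +kernel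

theorem cend1 : chkBoxR 36 3 18 (-64) (-63) [] (.cst 1 20 - .var 1) p0 ps = true := by
  decide +kernel
theorem cend2 : chkBoxR 36 3 18 (-64) (-63) [] (.cst 1 20 + .var 1) p0 ps = true := by
  decide +kernel
theorem cend3 : chkBoxR 36 3 18 63 64 [] (.cst 1 20 - (.var 1 - .var 0)) p0 ps = true := by
  decide +kernel
theorem cend4 : chkBoxR 36 3 18 63 64 [] (.cst 1 20 + (.var 1 - .var 0)) p0 ps = true := by
  decide +kernel

/-- `2 Â` -/
def eA : Ex := (1 - .var 19) * .var 0 + 2 * .var 19 * .var 1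

theorem cA1 : chkBoxR 36 4 18 (-7) 64 pc (.cst 261 9 + (eA - .cst 13 20)) p0 ps = true := by
  decide +kernel
theorem cA2 : chkBoxR 36 4 18 (-64) (-1) pc (.cst 261 9 - (eA + .cst 13 20)) p0 ps = true := by
  decide +kernel

/-! ### left tail of `W` -/

theorem mulW_le {c lam : ℝ} {W V I k : ℝ → ℝ} (h : SPair c W V I k lam) {y : ℝ} (hy : y ≤ 0) :
    -y * W y ≤ 1 / 4 := by
  have h1 := h.W_le y
  have h2 := Real.sqrt_nonneg (y ^ 2 + 1)
  have h3 := Real.sq_sqrt (show (0:ℝ) ≤ y ^ 2 + 1 by positivity)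
  have h4 : -y * W y ≤ -y * ((y + Real.sqrt (y ^ 2 + 1)) / 2) := by
    apply mul_le_mul_of_nonneg_left h1
    linarith
  nlinarith [sq_nonneg (Real.sqrt (y ^ 2 + 1) + y)]

theorem W_gauss {c lam : ℝ} {W V I k : ℝ → ℝ} (h : SPair c W V I k lam) {x : ℝ} (hx : x ≤ 0) :
    W x ≤ 1 / 2 * Real.exp (-((1 - c) / 2 * x ^ 2)) := by
  have hc0 := h.c_pos
  have hc1 := h.c_lt
  set a := (1 - c) / 2 with ha
  have ha0 : 0 < a := by rw [ha]; linarith
  set E : ℝ → ℝ := fun y => Real.exp (-(a * y ^ 2)) with hE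
  have hE0 : ∀ y, 0 < E y := fun y => Real.exp_pos _
  have dE : ∀ y, HasDerivAt E (-(2 * a * y) * E y) y := by
    intro y
    have h1 : HasDerivAt (fun y : ℝ => -(a * y ^ 2)) (-(a * (2 * y))) y := by
      exact (((hasDerivAt_id y).pow 2).const_mul a).neg.congr_deriv (by simp)
    refine h1.exp.congr_deriv ?_
    simp only [hE]
    ring
  have key : ∀ ε : ℝ, 0 < ε → W x - 1 / 2 * E x ≤ ε := by
    intro ε hε
    set X := max (-x) (1 / (4 * ε)) with hX
    have hX0 : 0 < X := lt_of_lt_of_le (by positivity) (le_max_right _ _)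
    have hXW : W (-X) ≤ ε := by
      have h1 := mulW_le h (show -X ≤ 0 by linarith)
      have h2 : 1 / (4 * ε) ≤ X := le_max_right _ _
      rw [div_le_iff₀ (by positivity)] at h2
      have h3 := h.W_pos (-X)
      have h4 : X * W (-X) ≤ X * ε := by linarith
      exact le_of_mul_le_mul_left h4 hX0
    refine maxp (e := fun y => W y - 1 / 2 * E y) (e1 := fun y => V y + a * y * E y)
      (e2 := fun y => I y + (a * E y + a * y * (-(2 * a * y) * E y))) (u := -X) (v := 0) (M := ε)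
      (fun y => ((h.dW y).sub ((dE y).const_mul (1 / 2))).congr_deriv (by ring))
      (fun y => by
        have h1 : HasDerivAt (fun y => a * y) a y := by
          simpa using (hasDerivAt_id y).const_mul a
        exact (h.dV y).add (h1.mul (dE y)))
      ?_ ?_ ?_ x ⟨?_, hx⟩
    · have := hE0 (-X)
      linarith
    · have h1 : E 0 = 1 := by simp [hE]
      have h2 := Stat8_307.W0_le h
      rw [h1]
      linarith
    · intro y hy _ hy1
      have h1 : V y = -(a * y * E y) := by linarith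
      have h2 := h.eqI y
      have h3 : Ad c W y = a * y + c * W y := by
        unfold Ad
        rw [ha]
        ring
      have h4 := h.W_pos y
      have h5 := mulW_le h hy.2.le
      have h6 : I y + (a * E y + a * y * (-(2 * a * y) * E y))
          = (1 + c) * W y + a * E y * (1 + 2 * c * (y * W y)) := by
        rw [h2, h3, h1]
        ring
      rw [h6]
      have h7 : 0 < 1 + 2 * c * (y * W y) := by nlinarith
      have h8 := hE0 y
      positivity
    · have : -x ≤ X := le_max_left _ _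
      linarith
  have h9 := le_of_forall_pos_le_add (a := W x - 1 / 2 * E x) (b := 0)
    (fun ε hε => by rw [zero_add]; exact key ε hε)
  have : E x = Real.exp (-(a * x ^ 2)) := rfl
  linarith

theorem exp18 : Real.exp (-18) ≤ 1 / 2 ^ 20 := by
  rw [Real.exp_neg, ← one_div]
  apply one_div_le_one_div_of_le (by norm_num)
  have h1 : (2.7 : ℝ) < Real.exp 1 := by
    have := Real.exp_one_gt_d9
    linarith
  have h2 : Real.exp 18 = Real.exp 1 ^ 18 := by
    rw [← Real.exp_nat_mul]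
    norm_num
  rw [h2]
  calc (2 : ℝ) ^ 20 ≤ 2.7 ^ 18 := by norm_num
    _ ≤ _ := by gcongr

/-- backward version of `meanv` -/
theorem meanv_r {e f a s : ℝ → ℝ} {u L E S b : ℝ} (hL : 0 < L)
    (h1 : ∀ x, HasDerivAt e (f x) x) (h2 : ∀ x, HasDerivAt f (s x - a x * f x) x)
    (hE : ∀ x ∈ Icc u (u + L), |e x| ≤ E) (hs : ∀ x ∈ Icc u (u + L), |s x| < S)
    (ha : ∀ x ∈ Icc u (u + L), a x ≤ b) (hb : 0 ≤ b) (hbL : b * L < 1) :
    |f u| ≤ (2 * E / L + S * L) / (1 - b * L) := by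
  have hm : ∀ t ∈ Icc (-u - L) (-u - L + L), -t ∈ Icc u (u + L) := fun t ht =>
    ⟨by linarith [ht.2], by linarith [ht.1]⟩
  have key := meanv (e := fun t => e (-t)) (f := fun t => -f (-t)) (a := fun t => -a (-t))
    (s := fun t => s (-t)) (u := -u - L) (L := L) (E := E) (S := S) (b := b) hL
    (fun t => ((h1 (-t)).comp t (hasDerivAt_neg t)).congr_deriv (by ring))
    (fun t => (((h2 (-t)).comp t (hasDerivAt_neg t)).neg).congr_deriv (by ring))
    (fun t ht => hE _ (hm t ht)) (fun t ht => hs _ (hm t ht))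
    (fun t ht => by
      have := ha _ (hm t ht)
      linarith) hb hbL
  have e1 : -(-u - L + L) = u := by ring
  simp only [e1, abs_neg] at key
  exact key

theorem evR_one (v : ℕ → ℝ) : (1 : Ex).evR v = 1 := by simpa using Ex.evR_ofNat v 1
theorem evR_two (v : ℕ → ℝ) : (2 : Ex).evR v = 2 := by simpa using Ex.evR_ofNat v 2

section main

variable {c lam : ℝ} {W V I k : ℝ → ℝ}

/-- residual `ρ` -/
def rho (c : ℝ) (x : ℝ) : ℝ :=
  F2 0 x - (1 + c) * F 0 x + ((1 - c) * x + 2 * c * F 0 x) * F1 0 x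

theorem rho_le (hc1 : 435929 / 2 ^ 20 ≤ c) (hc2 : c ≤ 435931 / 2 ^ 20) {x : ℝ} (h1 : -8 ≤ x)
    (h2 : x ≤ 8) : |rho c x| ≤ 7 / 2 ^ 20 := by
  have k1 := chkc (t := 0) cW1 hc1 hc2 h1 h2 (by norm_num; linarith) (by norm_num; linarith)
  have k2 := chkc (t := 0) cW2 hc1 hc2 h1 h2 (by norm_num; linarith) (by norm_num; linarith)
  simp only [eW, Ex.evR_sub, Ex.evR_add, Ex.evR_mul, Ex.evR_cst, Ex.evR_var, evR_one, evR_two,
    env0, env1, env2, env3, env19] at k1 k2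
  push_cast at k1 k2
  unfold rho
  rw [abs_le]
  constructor <;> linarith

/-- the coefficient `1 + c - 2 c V̂` -/
def mm (c : ℝ) (x : ℝ) : ℝ := 1 + c - 2 * c * F1 0 x

theorem mm_bd (hc1 : 435929 / 2 ^ 20 ≤ c) (hc2 : c ≤ 435931 / 2 ^ 20) {x : ℝ} (h1 : -8 ≤ x)
    (h2 : x ≤ 8) : 149 / 2 ^ 8 ≤ mm c x ∧ mm c x ≤ 1451 / 2 ^ 10 := by
  have k1 := chkc (t := 0) cm1 hc1 hc2 h1 h2 (by norm_num; linarith) (by norm_num; linarith)
  have k2 := chkc (t := 0) cm2 hc1 hc2 h1 h2 (by norm_num; linarith) (by norm_num; linarith)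
  simp only [em, Ex.evR_sub, Ex.evR_add, Ex.evR_mul, Ex.evR_cst, Ex.evR_var, evR_one, evR_two,
    env0, env1, env2, env3, env19] at k1 k2
  push_cast at k1 k2
  unfold mm
  constructor <;> linarith

theorem dE1 (h : SPair c W V I k lam) (x : ℝ) :
    HasDerivAt (fun x => V x - F1 0 x)
      (mm c x * (W x - F 0 x) - 2 * Ad c W x * (V x - F1 0 x) + -rho c x) x := by
  refine ((h.dV x).sub (dF1 (by norm_num) x)).congr_deriv ?_
  rw [h.eqI x]
  unfold mm rho Ad
  ring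

theorem end_left (h : SPair c W V I k lam) (hc2 : c ≤ 435931 / 2 ^ 20) :
    |W (-8) - F 0 (-8)| ≤ 13 / 2 ^ 20 := by
  have k1 := chk (z := -8) (s := 0) (t := 0) cend1 (by norm_num) (by norm_num) (by norm_num)
    (by norm_num) (by simp)
  have k2 := chk (z := -8) (s := 0) (t := 0) cend2 (by norm_num) (by norm_num) (by norm_num)
    (by norm_num) (by simp)
  simp only [Ex.evR_sub, Ex.evR_add, Ex.evR_cst, Ex.evR_var, env1] at k1 k2
  push_cast at k1 k2
  have h1 := W_gauss h (show (-8:ℝ) ≤ 0 by norm_num)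
  have h2 := h.W_pos (-8)
  have h3 : Real.exp (-((1 - c) / 2 * (-8) ^ 2)) ≤ Real.exp (-18) := by
    apply Real.exp_le_exp.2
    norm_num at hc2 ⊢
    linarith
  have h4 := exp18
  rw [abs_le]
  constructor <;> linarith

theorem end_right (h : SPair c W V I k lam) : |W 8 - F 0 8| ≤ 13 / 2 ^ 20 := by
  have k1 := chk (z := 8) (s := 0) (t := 0) cend3 (by norm_num) (by norm_num) (by norm_num)
    (by norm_num) (by simp)
  have k2 := chk (z := 8) (s := 0) (t := 0) cend4 (by norm_num) (by norm_num) (by norm_num)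
    (by norm_num) (by simp)
  simp only [Ex.evR_sub, Ex.evR_add, Ex.evR_cst, Ex.evR_var, env1, env0] at k1 k2
  push_cast at k1 k2
  have h1 := Stat8_307.U_le h (show (0:ℝ) ≤ 8 by norm_num)
  have h2 := h.U_pos 8
  have h3 : Real.exp (-(8 ^ 2 / 2)) ≤ Real.exp (-18) := by
    apply Real.exp_le_exp.2
    norm_num
  have h4 := exp18
  rw [abs_le]
  constructor <;> linarith

/-- **enclosure of `W`** -/
theorem encW (h : SPair c W V I k lam) (hc1 : 435929 / 2 ^ 20 ≤ c) (hc2 : c ≤ 435931 / 2 ^ 20) :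
    ∀ x ∈ Icc (-8 : ℝ) 8, |W x - F 0 x| ≤ 13 / 2 ^ 20 :=
  maxp_abs (e := fun x => W x - F 0 x) (e1 := fun x => V x - F1 0 x) (m := mm c)
    (a := fun x => 2 * Ad c W x) (s := fun x => -rho c x) (m0 := 149 / 2 ^ 8) (r := 7 / 2 ^ 20)
    (fun x => (h.dW x).sub (dF (by norm_num) x)) (fun x => dE1 h x)
    (end_left h hc2) (end_right h)
    (fun x hx => (mm_bd hc1 hc2 hx.1.le hx.2.le).1)
    (fun x hx => by rw [abs_neg]; exact rho_le hc1 hc2 hx.1.le hx.2.le)
    (by norm_num) (by norm_num)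

theorem src_lt (h : SPair c W V I k lam) (hc1 : 435929 / 2 ^ 20 ≤ c) (hc2 : c ≤ 435931 / 2 ^ 20)
    {x : ℝ} (h1 : -8 ≤ x) (h2 : x ≤ 8) :
    |mm c x * (W x - F 0 x) + -rho c x| < 26 / 2 ^ 20 := by
  have a1 := encW h hc1 hc2 x ⟨h1, h2⟩
  have a2 := mm_bd hc1 hc2 h1 h2
  have a3 := rho_le hc1 hc2 h1 h2
  have a4 : |mm c x * (W x - F 0 x)| ≤ 1451 / 2 ^ 10 * (13 / 2 ^ 20) := by
    rw [abs_mul]
    apply mul_le_mul _ a1 (abs_nonneg _) (by norm_num)
    rw [abs_le]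
    constructor <;> linarith [a2.1, a2.2]
  calc |mm c x * (W x - F 0 x) + -rho c x| ≤ |mm c x * (W x - F 0 x)| + |-rho c x| := abs_add_le _ _
    _ ≤ 1451 / 2 ^ 10 * (13 / 2 ^ 20) + 7 / 2 ^ 20 := by
      rw [abs_neg]
      exact add_le_add a4 a3
    _ < _ := by norm_num

theorem Ad_eq (x : ℝ) : 2 * Ad c W x = (1 - c) * x + 2 * c * W x := by
  unfold Ad
  ring

/-- bounds of `2 A` from the spline -/
theorem A_ge (h : SPair c W V I k lam) (hc1 : 435929 / 2 ^ 20 ≤ c) (hc2 : c ≤ 435931 / 2 ^ 20)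
    {x : ℝ} (h1 : -8 ≤ x) (h2 : x ≤ 8) :
    |2 * Ad c W x - ((1 - c) * x + 2 * c * F 0 x)| ≤ 13 / 2 ^ 20 := by
  have a1 := encW h hc1 hc2 x ⟨h1, h2⟩
  rw [Ad_eq]
  have e1 : (1 - c) * x + 2 * c * W x - ((1 - c) * x + 2 * c * F 0 x) = 2 * c * (W x - F 0 x) := by
    ring
  rw [e1, abs_mul]
  have h3 : |2 * c| ≤ 1 := by
    norm_num at hc1 hc2
    rw [abs_le]
    constructor <;> linarith
  calc |2 * c| * |W x - F 0 x| ≤ 1 * (13 / 2 ^ 20) :=
        mul_le_mul h3 a1 (abs_nonneg _) (by norm_num)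
    _ = _ := one_mul _

theorem A_r (h : SPair c W V I k lam) (hc1 : 435929 / 2 ^ 20 ≤ c) (hc2 : c ≤ 435931 / 2 ^ 20)
    {x : ℝ} (h1 : -(7 / 8) ≤ x) (h2 : x ≤ 8) : -(261 / 512) ≤ 2 * Ad c W x := by
  have k1 := chkc (t := 0) cA1 hc1 hc2 (by linarith) h2 (by norm_num at h1 ⊢; linarith)
    (by norm_num; linarith)
  simp only [eA, Ex.evR_sub, Ex.evR_add, Ex.evR_mul, Ex.evR_cst, Ex.evR_var, evR_one, evR_two,
    env0, env1, env2, env3, env19] at k1
  push_cast at k1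
  have := (abs_le.1 (A_ge h hc1 hc2 (x := x) (by linarith) h2)).1
  norm_num at k1 this ⊢
  linarith

theorem A_l (h : SPair c W V I k lam) (hc1 : 435929 / 2 ^ 20 ≤ c) (hc2 : c ≤ 435931 / 2 ^ 20)
    {x : ℝ} (h1 : -8 ≤ x) (h2 : x ≤ -(1 / 8)) : 2 * Ad c W x ≤ 261 / 512 := by
  have k1 := chkc (t := 0) cA2 hc1 hc2 h1 (by linarith) (by norm_num; linarith)
    (by norm_num at h2 ⊢; linarith)
  simp only [eA, Ex.evR_sub, Ex.evR_add, Ex.evR_mul, Ex.evR_cst, Ex.evR_var, evR_one, evR_two,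
    env0, env1, env2, env3, env19] at k1
  push_cast at k1
  have := (abs_le.1 (A_ge h hc1 hc2 (x := x) h1 (by linarith))).2
  norm_num at k1 this ⊢
  linarith

/-- **enclosure of `V`** -/
theorem encV (h : SPair c W V I k lam) (hc1 : 435929 / 2 ^ 20 ≤ c) (hc2 : c ≤ 435931 / 2 ^ 20) :
    ∀ x ∈ Icc (-8 : ℝ) 8, |V x - F1 0 x| ≤ 98 / 2 ^ 20 := by
  intro x hx
  have hd : ∀ x, HasDerivAt (fun x => V x - F1 0 x)
      ((fun x => mm c x * (W x - F 0 x) + -rho c x) x
        - (fun x => 2 * Ad c W x) x * (V x - F1 0 x)) x := fun x =>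
    (dE1 h x).congr_deriv (by ring)
  rcases le_total (-(1 / 2)) x with h0 | h0
  · have key := meanv (e := fun x => W x - F 0 x) (f := fun x => V x - F1 0 x)
      (a := fun x => 2 * Ad c W x) (s := fun x => mm c x * (W x - F 0 x) + -rho c x)
      (u := x - 3 / 8) (L := 3 / 8) (E := 13 / 2 ^ 20) (S := 26 / 2 ^ 20) (b := 261 / 512)
      (by norm_num) (fun x => (h.dW x).sub (dF (by norm_num) x)) hd
      (fun y hy => encW h hc1 hc2 y ⟨by linarith [hy.1], by linarith [hy.2, hx.2]⟩)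
      (fun y hy => src_lt h hc1 hc2 (by linarith [hy.1]) (by linarith [hy.2, hx.2]))
      (fun y hy => A_r h hc1 hc2 (by linarith [hy.1]) (by linarith [hy.2, hx.2]))
      (by norm_num) (by norm_num)
    have e1 : x - 3 / 8 + 3 / 8 = x := by ring
    rw [e1] at key
    refine key.trans ?_
    norm_num
  · have key := meanv_r (e := fun x => W x - F 0 x) (f := fun x => V x - F1 0 x)
      (a := fun x => 2 * Ad c W x) (s := fun x => mm c x * (W x - F 0 x) + -rho c x)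
      (u := x) (L := 3 / 8) (E := 13 / 2 ^ 20) (S := 26 / 2 ^ 20) (b := 261 / 512)
      (by norm_num) (fun x => (h.dW x).sub (dF (by norm_num) x)) hd
      (fun y hy => encW h hc1 hc2 y ⟨by linarith [hy.1, hx.1], by linarith [hy.2]⟩)
      (fun y hy => src_lt h hc1 hc2 (by linarith [hy.1, hx.1]) (by linarith [hy.2]))
      (fun y hy => A_l h hc1 hc2 (by linarith [hy.1, hx.1]) (by linarith [hy.2]))
      (by norm_num) (by norm_num)
    refine key.trans ?_
    norm_num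

/-- **enclosure of `I`** -/
theorem encI (h : SPair c W V I k lam) (hc1 : 435929 / 2 ^ 20 ≤ c) (hc2 : c ≤ 435931 / 2 ^ 20) :
    ∀ x ∈ Icc (-8 : ℝ) 8, |I x - F2 0 x| ≤ (26 + 98 * |2 * Ad c W x|) / 2 ^ 20 := by
  intro x hx
  have e1 : I x - F2 0 x = (mm c x * (W x - F 0 x) + -rho c x)
      - 2 * Ad c W x * (V x - F1 0 x) := by
    rw [h.eqI x]
    unfold mm rho Ad
    ring
  have a1 := src_lt h hc1 hc2 hx.1 hx.2
  have a2 : |2 * Ad c W x * (V x - F1 0 x)| ≤ |2 * Ad c W x| * (98 / 2 ^ 20) := by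
    rw [abs_mul]
    exact mul_le_mul_of_nonneg_left (encV h hc1 hc2 x hx) (abs_nonneg _)
  rw [e1]
  calc |(mm c x * (W x - F 0 x) + -rho c x) - 2 * Ad c W x * (V x - F1 0 x)|
      ≤ |mm c x * (W x - F 0 x) + -rho c x| + |2 * Ad c W x * (V x - F1 0 x)| := abs_sub _ _
    _ ≤ 26 / 2 ^ 20 + |2 * Ad c W x| * (98 / 2 ^ 20) := add_le_add a1.le a2
    _ = _ := by ring

end main

end

end Crest.Agent.R146.Enc1_848
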