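import Crest.Agent.R146.C2T_889
import Crest.Agent.R146.PtNumRef_846

/-!
# Row 146, helper889: the windows of C2 are barriers (`upper`, `lower`)
-/

set_option autoImplicit false
set_option linter.style.longLine false

namespace Crest.Agent.R146.C2V_889

open Set Filter Topology PP865
open Crest.Agent.R146.SPair_307 Crest.Agent.R146.RefX_355 Crest.Agent.R146.QEnc_865
open Crest.Agent.R146.C2D_889 Crest.Agent.R146.C2S_889 Crest.Agent.R146.C2T_889
open Crest.Agent.R146.C1D_445 (b b1 b2)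
open Crest.Agent.R146.PtNum_846 (Pp Pm)
open Crest.Agent.R146.PtNumRef_846

/-! ### regularity of the windows -/

theorem c_mm : Continuous mm := continuous_iff_continuousAt.2 fun x => (hmm x).continuousAt
theorem c_mp : Continuous mp := continuous_iff_continuousAt.2 fun x => (hmp x).continuousAt

theorem glue_cont {f : ℝ → ℝ} (hf : Continuous f) :
    Continuous fun x => if x ≤ 3 then f x else f 3 * Real.exp (-(x - 3)) :=
  Continuous.if_le hf (by fun_prop) continuous_id continuous_const (by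
    intro x hx; rw [hx]; simp)

theorem glue_deriv {f f' : ℝ → ℝ} (hf : ∀ x, HasDerivAt f (f' x) x) (x : ℝ) :
    HasDerivWithinAt (fun x => if x ≤ 3 then f x else f 3 * Real.exp (-(x - 3)))
      (if x < 3 then f' x else -(f 3 * Real.exp (-(x - 3)))) (Ici x) x := by
  rcases lt_or_ge x 3 with hx | hx
  · rw [if_pos hx]
    refine ((hf x).congr_of_eventuallyEq ?_).hasDerivWithinAt
    filter_upwards [eventually_lt_nhds hx] with y hy
    rw [if_pos hy.le]
  · rw [if_neg (not_lt.2 hx)]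
    have h1 : HasDerivAt (fun y : ℝ => f 3 * Real.exp (-(y - 3)))
        (-(f 3 * Real.exp (-(x - 3)))) x := by
      have h2 : HasDerivAt (fun y : ℝ => -(y - 3)) (-1) x := by
        exact ((hasDerivAt_id' x).sub_const 3).neg
      refine (h2.exp.const_mul (f 3)).congr_deriv ?_
      ring
    refine h1.hasDerivWithinAt.congr (fun y hy => ?_) ?_
    · rcases eq_or_lt_of_le (hx.trans (mem_Ici.1 hy)) with h3 | h3
      · rw [if_pos h3.symm.le, ← h3]; simp
      · rw [if_neg (not_le.2 h3)]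
    · rcases eq_or_lt_of_le hx with h3 | h3
      · rw [if_pos h3.symm.le, ← h3]; simp
      · rw [if_neg (not_le.2 h3)]

theorem c_mmF : Continuous mmF := glue_cont c_mm
theorem c_mpF : Continuous mpF := glue_cont c_mp
theorem d_mmF (x : ℝ) : HasDerivWithinAt mmF (mmF1 x) (Ici x) x := glue_deriv hmm x
theorem d_mpF (x : ℝ) : HasDerivWithinAt mpF (mpF1 x) (Ici x) x := glue_deriv hmp x

/-! ### algebra -/

theorem U_conv {p q R T m m' δ E : ℝ} (hq : 0 < q) (hp : p * q = R) (hδ : 0 ≤ δ)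
    (h : 0 ≤ q * (m' * (1 + δ * m) - T * m * (1 + δ * E)) + R * (m * (2 + δ * m) - E)) :
    (p + δ * T * m) * (1 + δ * E) ≤ (p + δ * (p * m + m')) * (1 + δ * m) := by
  have e : q * ((p + δ * (p * m + m')) * (1 + δ * m) - (p + δ * T * m) * (1 + δ * E))
      = δ * (q * (m' * (1 + δ * m) - T * m * (1 + δ * E)) + R * (m * (2 + δ * m) - E)) := by
    rw [← hp]; ring
  have h1 : 0 ≤ q * ((p + δ * (p * m + m')) * (1 + δ * m) - (p + δ * T * m) * (1 + δ * E)) := by
    rw [e]; exact mul_nonneg hδ h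
  have h2 := (mul_nonneg_iff_of_pos_left hq).1 h1
  linarith

theorem LA_conv {p q R m m' δ E : ℝ} (hq : 0 < q) (hp : p * q = R) (hδ : 0 ≤ δ)
    (hm : 0 ≤ 1 - δ * m) (h : 0 ≤ q * m' + R * (m - E)) :
    (p - δ * (p * m + m')) * (1 - δ * m) ≤ p * (1 - δ * m) * (1 - δ * E) := by
  have e : q * (p * (1 - δ * m) * (1 - δ * E) - (p - δ * (p * m + m')) * (1 - δ * m))
      = δ * ((1 - δ * m) * (q * m' + R * (m - E))) := by
    rw [← hp]; ring
  have h1 : 0 ≤ q * (p * (1 - δ * m) * (1 - δ * E) - (p - δ * (p * m + m')) * (1 - δ * m)) := by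
    rw [e]; exact mul_nonneg hδ (mul_nonneg hm h)
  have h2 := (mul_nonneg_iff_of_pos_left hq).1 h1
  linarith

theorem LC_conv {p q R m m' δ E s : ℝ} (hq : 0 < q) (hp : p * q = R) (hδ : 0 ≤ δ)
    (h : 0 ≤ q * (m' * (1 - δ * m) + s * m * (1 - δ * E)) + R * (m * (2 - δ * m) - E)) :
    (p - δ * (p * m + m')) * (1 - δ * m) ≤ (p + δ * (s * m)) * (1 - δ * E) := by
  have e : q * ((p + δ * (s * m)) * (1 - δ * E) - (p - δ * (p * m + m')) * (1 - δ * m))
      = δ * (q * (m' * (1 - δ * m) + s * m * (1 - δ * E)) + R * (m * (2 - δ * m) - E)) := by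
    rw [← hp]; ring
  have h1 : 0 ≤ q * ((p + δ * (s * m)) * (1 - δ * E) - (p - δ * (p * m + m')) * (1 - δ * m)) := by
    rw [e]; exact mul_nonneg hδ h
  have h2 := (mul_nonneg_iff_of_pos_left hq).1 h1
  linarith

theorem LB_conv {p q R T m m' δ E K J : ℝ} (hq : 0 < q) (hR : 0 < R) (hp : p * q = R) (hδ : 0 ≤ δ)
    (hm : 0 < 1 - δ * m) (hE : 0 ≤ 1 - δ * E) (hJ : 0 ≤ J)
    (hK : 1 - δ * E ≤ K * (1 - δ * m))
    (h : 0 ≤ q * R * (m' * (1 - δ * m) - T * m * (1 - δ * E))
      + R ^ 2 * (m * (2 - δ * m) - E) - q ^ 2 * K * δ * m ^ 2 * (J / 2)) :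
    (p - δ * (p * m + m')) * (1 - δ * m)
      ≤ max 0 (p - δ * (T * m) - δ ^ 2 * m ^ 2 * J / (2 * p * (1 - δ * m))) * (1 - δ * E) := by
  have hp0 : 0 < p := by
    by_contra hcon
    push Not at hcon
    have : p * q ≤ 0 := mul_nonpos_of_nonpos_of_nonneg hcon hq.le
    linarith
  refine le_trans ?_ (mul_le_mul_of_nonneg_right (le_max_right _ _) hE)
  -- second order term
  have h3 : δ ^ 2 * m ^ 2 * J / (2 * p * (1 - δ * m)) * (1 - δ * E)
      ≤ δ ^ 2 * m ^ 2 * J * K / (2 * p) := by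
    rw [div_mul_eq_mul_div, div_le_div_iff₀ (by positivity) (by positivity)]
    have : 0 ≤ δ ^ 2 * m ^ 2 * J * (2 * p) := by positivity
    nlinarith [mul_le_mul_of_nonneg_left hK this]
  have e : q * R * ((p - δ * (T * m)) * (1 - δ * E) - δ ^ 2 * m ^ 2 * J * K / (2 * p)
        - (p - δ * (p * m + m')) * (1 - δ * m))
      = δ * (q * R * (m' * (1 - δ * m) - T * m * (1 - δ * E))
      + R ^ 2 * (m * (2 - δ * m) - E) - q ^ 2 * K * δ * m ^ 2 * (J / 2)) := by
    rw [← hp]
    field_simp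
    ring
  have h1 : 0 ≤ q * R * ((p - δ * (T * m)) * (1 - δ * E) - δ ^ 2 * m ^ 2 * J * K / (2 * p)
        - (p - δ * (p * m + m')) * (1 - δ * m)) := by
    rw [e]; exact mul_nonneg hδ h
  have h2 := (mul_nonneg_iff_of_pos_left (mul_pos hq hR)).1 h1
  have h4 : (p - δ * (T * m) - δ ^ 2 * m ^ 2 * J / (2 * p * (1 - δ * m))) * (1 - δ * E)
      = (p - δ * (T * m)) * (1 - δ * E)
        - δ ^ 2 * m ^ 2 * J / (2 * p * (1 - δ * m)) * (1 - δ * E) := by ring
  rw [h4]
  linarith

section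
variable {c : ℝ} {W V I k : ℝ → ℝ}

theorem qv_pos (h : SPair c W V I k c) (x : ℝ) : 0 < qv V I x := by
  have h1 := h.V_pos x
  have h2 := h.V_lt x
  have h3 := h.I_pos x
  unfold qv
  have : 0 < 1 - V x := by linarith
  positivity

theorem p_mul_q (h : SPair c W V I k c) (x : ℝ) : I x / V x * qv V I x = 1 - V x := by
  have h1 := (h.V_pos x).ne'
  have h3 := (h.I_pos x).ne'
  unfold qv
  field_simp

theorem Pm_ge (h : SPair c W V I k c) {δ : ℝ} (hδ : 0 < δ) (hδ2 : δ < 1 / 2) (x : ℝ) :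
    1 / 2 * W x ≤ Pm δ V x := by
  have e : 1 / 2 * W x = ∫ t in Iic x, 1 / 2 * V t := by
    rw [MeasureTheory.integral_const_mul, V_int h]
  rw [e]
  unfold Pm
  refine MeasureTheory.setIntegral_mono ((V_intOn h x).const_mul _) (int_gm h hδ hδ2 x) fun t => ?_
  have h1 := b_bd t
  have h2 := h.V_pos t
  have h3 : 1 + δ * b t ≤ 2 := by nlinarith [h1.1, h1.2]
  have h4 := (den_bd hδ hδ2 t).2
  simp only
  rw [le_div_iff₀ (by linarith)]
  nlinarith

theorem Pm_top (h : SPair c W V I k c) {δ : ℝ} (hδ : 0 < δ) (hδ2 : δ < 1 / 2) :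
    Tendsto (Pm δ V) atTop atTop := by
  refine tendsto_atTop_mono (f := fun x => 1 / 2 * x) (fun x => ?_)
    (tendsto_id.const_mul_atTop (by norm_num))
  have h1 := Pm_ge h hδ hδ2 x
  have h2 := h.U_pos x
  linarith

theorem Ek_bd (x : ℝ) : 0 < Ek x ∧ Ek x ≤ 484 / 1024 := by
  unfold Ek
  split_ifs <;> constructor <;> norm_num


/-- (U) everywhere -/
theorem U_all (h : SPair c W V I k c) {δ : ℝ} (hδ : 0 ≤ δ) (hδc : δ ≤ c)
    (hR : ∀ x, 3 ≤ x → 0 ≤ qv V I x * (-(mpF x) * (1 + δ * mpF x)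
        - k1x c W V I x * mpF x * (1 + δ * Ep x)) + (1 - V x) * (mpF x * (2 + δ * mpF x) - Ep x))
    (x : ℝ) :
    0 ≤ qv V I x * (mpF1 x * (1 + δ * mpF x) - k1x c W V I x * mpF x * (1 + δ * Ep x))
      + (1 - V x) * (mpF x * (2 + δ * mpF x) - Ep x) := by
  rcases le_or_gt 3 x with g3 | g3
  · have := hR x g3
    have e : mpF1 x = -(mpF x) := by
      unfold mpF1 mpF
      rw [if_neg (not_lt.2 g3)]
      rcases eq_or_lt_of_le g3 with h3 | h3
      · rw [if_pos h3.symm.le, ← h3]; simp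
      · rw [if_neg (not_le.2 h3)]
    rw [e]; exact this
  have em : mpF x = mp x := by unfold mpF; rw [if_pos g3.le]
  have em1 : mpF1 x = mp1 x := by unfold mpF1; rw [if_pos g3]
  rw [em, em1]
  rcases le_or_gt x (-6) with g | g
  · rw [mp_left g, mp1_left g]
    have eE : Ep x = b x + 2098 / 2 ^ 20 := by unfold Ep; rw [if_pos (by linarith)]
    have hb := C1D_445.b_left g
    rw [eE, hb]
    have h1 := EqEta_889.k1_mul_le h (J_791.Jc_nonneg h) x
    have h1' : k1x c W V I x * V x ≤ I x := h1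
    have h2 := h.V_pos x
    have h3 := h.V_lt x
    have h4 := h.I_pos x
    have h5 : qv V I x * k1x c W V I x ≤ 1 - V x := by
      have e : qv V I x * k1x c W V I x = (1 - V x) * (k1x c W V I x * V x) / I x := by
        unfold qv; ring
      rw [e, div_le_iff₀ h4]
      exact mul_le_mul_of_nonneg_left h1' (by linarith)
    have h6 : C1D_445.bL + 2098 / 2 ^ 20 ≤ mL := by unfold C1D_445.bL mL; norm_num
    have h6' : 0 < C1D_445.bL := by unfold C1D_445.bL; norm_num
    have h7 := mL_pos.1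
    set E := C1D_445.bL + 2098 / 2 ^ 20 with hE
    have hE0 : 0 < E := by rw [hE]; positivity
    have h8 : qv V I x * k1x c W V I x * (mL * (1 + δ * E))
        ≤ (1 - V x) * (mL * (1 + δ * E)) := by
      apply mul_le_mul_of_nonneg_right h5
      positivity
    have h9 : 0 ≤ (1 - V x) * ((mL - E) * (1 + δ * mL)) := by
      apply mul_nonneg (by linarith)
      apply mul_nonneg (by linarith)
      positivity
    nlinarith
  · exact (U_mid h hδ hδc g g3.le).le

theorem s5 : checkBO 4 8 40 (err 570) (-12) (-2) prm (Ex.cst 1 0 - C2T_889.eM) = true := by decide +kernel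

theorem Em_le (h : SPair c W V I k c) {x : ℝ} (h1 : -3 / 2 < x) : Em x ≤ 1 := by
  unfold Em
  rw [if_neg (not_le.2 h1)]
  split_ifs with g
  · have Q := hq h (x := x) (by linarith) (by linarith)
    have := chkW h (le_refl 0) h.c_pos.le s5 Q (by linarith) (by linarith)
      (by push_cast; linarith) (by push_cast; linarith)
    rw [Ex.evR_sub, eM_eq, ck] at this
    norm_num at this ⊢
    linarith
  · have := (Ek_bd x).2; linarith

/-- (L) everywhere -/
theorem L_all (h : SPair c W V I k c) {δ : ℝ} (hδ : 0 ≤ δ) (hδc : δ ≤ c)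
    (hR : ∀ x, 3 ≤ x → 0 ≤ qv V I x * (-(mmF x) * (1 - δ * mmF x)
        + sg x * mmF x * (1 - δ * Em x)) + (1 - V x) * (mmF x * (2 - δ * mmF x) - Em x))
    (x : ℝ) :
    (I x / V x - δ * (I x / V x * mmF x + mmF1 x)) * (1 - δ * mmF x)
      ≤ Lx c δ W V I x * (1 - δ * Em x) := by
  have E := Enc3_848.enc h
  have hc1 : c ≤ 1 / 2 := E.c_hi.trans (by norm_num)
  have hm0 : 0 < 1 - δ * mmF x := by
    have h1 := mmF_pos x
    have h2 := mmF_lt x
    nlinarith
  have hq := qv_pos h x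
  have hp := p_mul_q h x
  have hV := h.V_lt x
  rcases le_or_gt 3 x with g3 | g3
  · have w := hR x g3
    have e : mmF1 x = -(mmF x) := by
      unfold mmF1 mmF
      rw [if_neg (not_lt.2 g3)]
      rcases eq_or_lt_of_le g3 with h3 | h3
      · rw [if_pos h3.symm.le, ← h3]; simp
      · rw [if_neg (not_le.2 h3)]
    rw [e]
    unfold Lx
    rw [if_neg (by linarith), if_neg (by linarith)]
    exact LC_conv hq hp hδ w
  have em : mmF x = mm x := by unfold mmF; rw [if_pos g3.le]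
  have em1 : mmF1 x = mm1 x := by unfold mmF1; rw [if_pos g3]
  rcases le_or_gt x (-3 / 2) with g1 | g1
  · unfold Lx
    rw [if_pos g1]
    refine LA_conv hq hp hδ hm0.le ?_
    rw [em, em1]
    rcases le_or_gt x (-6) with g | g
    · rw [mm_left g, mm1_left g]
      have eE : Em x = b x - b1 x / 4 + 2706 / 2 ^ 20 := by unfold Em; rw [if_pos g1]
      rw [eE, C1D_445.b_left g, C1D_445.b1_left g]
      have h6 : C1D_445.bL + 2706 / 2 ^ 20 ≤ mL := by unfold C1D_445.bL mL; norm_num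
      have : 0 ≤ (1 - V x) * (mL - (C1D_445.bL + 2706 / 2 ^ 20)) :=
        mul_nonneg (by linarith) (by linarith)
      simpa using this
    · exact (L_a h g g1).le
  rcases le_or_gt x 2 with g2 | g2
  · unfold Lx
    rw [if_neg (not_le.2 g1), if_pos g2]
    obtain ⟨w1, w2⟩ := L_b h hδ hδc g1 g2
    have hE0 : 0 ≤ 1 - δ * Em x := by
      have h1 : Em x ≤ 1 := Em_le h g1
      nlinarith
    have hmx : 0 < 1 - δ * mm x := by rw [← em]; exact hm0
    rw [em, em1]
    refine LB_conv (K := Kx x) (J := 153 / 100) hq (by linarith) hp hδ hmx hE0 (by norm_num) w2 ?_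
    have w3 : 0 ≤ qv V I x ^ 2 * Kx x * δ * mm x ^ 2 := by
      have : 0 ≤ Kx x := by unfold Kx; split_ifs <;> norm_num
      positivity
    nlinarith
  · unfold Lx
    rw [if_neg (not_le.2 g1), if_neg (not_le.2 g2), em, em1]
    exact LC_conv hq hp hδ (L_c h hδ hδc g2 g3.le).le

/-- `Lx` is a lower bound at the lower end of the window -/
theorem hL_all (h : SPair c W V I k c) {δ : ℝ} (hδ : 0 ≤ δ) (hδc : δ ≤ c)
    (hX : ∀ x, 2 < x → ∃ X2, k1x c W V I X2 ≤ -(sg x) ∧ V X2 ≤ V x * (1 - c * mmF x))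
    (x y : ℝ) (hyx : y ≤ x) (hy : V y = V x * (1 - δ * mmF x)) : V x * Lx c δ W V I x ≤ I y := by
  have E := Enc3_848.enc h
  have hJ := J_791.Jc_nonneg h
  have hJ2 := J_791.Jc_le h
  have hc1 : c ≤ 1 / 2 := E.c_hi.trans (by norm_num)
  have hm := mmF_pos x
  have hm0 : 0 < 1 - δ * mmF x := by
    have h2 := mmF_lt x
    nlinarith
  have hV := h.V_pos x
  have hI := h.I_pos x
  have hIy := h.I_pos y
  unfold Lx
  split_ifs with g1 g2
  · have h1 := EqEta_889.chord_zero h hJ hyx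
    rw [hy] at h1
    have h2 : I x * (1 - δ * mmF x) ≤ I y := by
      have : V x * (I x * (1 - δ * mmF x)) ≤ V x * I y := by nlinarith
      exact le_of_mul_le_mul_left this hV
    have e : V x * (I x / V x * (1 - δ * mmF x)) = I x * (1 - δ * mmF x) := by
      field_simp
    rw [e]; exact h2
  · rw [mul_max_of_nonneg _ _ hV.le, mul_zero]
    refine max_le hIy.le ?_
    have hm1 : 0 < I x * (1 - δ * mmF x) := mul_pos hI hm0
    have h1 := EqEta_889.taylor_lower h hJ hJ2 hyx hm1 (fun z hz => by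
      have h3 := EqEta_889.I_ge h hJ hz.1 hz.2
      have e : I x * V y / V x = I x * (1 - δ * mmF x) := by rw [hy]; field_simp
      rw [e] at h3
      exact h3)
    have e1 : V x - V y = δ * mmF x * V x := by rw [hy]; ring
    have e2 : EqEta_889.k1 c W V I x = k1x c W V I x := rfl
    rw [e1, e2] at h1
    refine le_trans (le_of_eq ?_) h1
    field_simp
  · obtain ⟨X2, hX1, hX2⟩ := hX x (not_le.1 g2)
    have hs : 0 ≤ sg x := by unfold sg; split_ifs <;> norm_num
    have h2 : V X2 ≤ V y := by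
      rw [hy]
      refine hX2.trans (mul_le_mul_of_nonneg_left ?_ hV.le)
      have := mul_le_mul_of_nonneg_right hδc hm.le
      linarith
    have h3 : X2 ≤ y := h.V_strictMono.le_iff_le.1 h2
    have h4 := EqEta_889.tangent h hJ X2 x
    have h5 : EqEta_889.k1 c W V I X2 = k1x c W V I X2 := rfl
    rw [h5] at h4
    have h6 : V X2 ≤ V x := h.V_strictMono.monotone (h3.trans hyx)
    have h7 : k1x c W V I X2 * (V x - V X2) ≤ -(sg x) * (V x - V X2) :=
      mul_le_mul_of_nonneg_right hX1 (by linarith)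
    have h8 := EqEta_889.chord_lower h hJ h3 hyx (σ := sg x) (by linarith)
    refine le_trans (le_of_eq ?_) h8
    rw [hy]
    field_simp
    ring

/-- **upper window** -/
theorem upper (h : SPair c W V I k c) {δ : ℝ} (hδ : 0 < δ) (hδc : δ ≤ c)
    (hR : ∀ x, 3 ≤ x → 0 ≤ qv V I x * (-(mpF x) * (1 + δ * mpF x)
        - k1x c W V I x * mpF x * (1 + δ * Ep x)) + (1 - V x) * (mpF x * (2 + δ * mpF x) - Ep x))
    (hE : ∀ x y, x ≤ y → V y ≤ V x * (1 + δ * mpF x) → b y + 2 / 1000 ≤ Ep x)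
    {x y : ℝ} (hxy : (1 - δ / 1000) * Pm δ V y ≤ W x) : V y ≤ V x * (1 + δ * mpF x) := by
  have E := Enc3_848.enc h
  have hc1 : c < 1 / 2 := lt_of_le_of_lt E.c_hi (by norm_num)
  have hδ2 : δ < 1 / 2 := lt_of_le_of_lt hδc hc1
  refine C2R_889.r_upper h (fun x => (J_791.Jx_pos h x).le) (ε0 := 1 / 1000) hδ (by norm_num)
    (by linarith) (b := b) (Ep := Ep) (mp' := mpF1) (Pm := Pm δ V) (fun y => (b_bd y).1.le)
    (fun y => ?_) (fun y => dPm h hδ hδ2 y) Pm_lim (Pm_top h hδ hδ2) c_mpF d_mpF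
    (fun x => (mpF_pos x).le) (fun x y h1 h2 => ?_) (fun x _ => ?_) (x := x) (y := y) ?_
  · have h1 := (b_bd y).1
    have h2 := (b_bd y).2
    nlinarith
  · have := hE x y h1 h2
    linarith
  · exact U_conv (qv_pos h x) (p_mul_q h x) hδ.le (U_all h hδ.le hδc hR x)
  · have e : 1 - δ * (1 / 1000) = 1 - δ / 1000 := by ring
    rw [e]; exact hxy

/-- **lower window** -/
theorem lower (h : SPair c W V I k c) {δ : ℝ} (hδ : 0 < δ) (hδc : δ ≤ c)
    (hR : ∀ x, 3 ≤ x → 0 ≤ qv V I x * (-(mmF x) * (1 - δ * mmF x)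
        + sg x * mmF x * (1 - δ * Em x)) + (1 - V x) * (mmF x * (2 - δ * mmF x) - Em x))
    (hX : ∀ x, 2 < x → ∃ X2, k1x c W V I X2 ≤ -(sg x) ∧ V X2 ≤ V x * (1 - c * mmF x))
    (hE : ∀ x y, y ≤ x → V x * (1 - δ * mmF x) ≤ V y → b y + 2 / 1000 ≤ Em x)
    {x y : ℝ} (hxy : W x ≤ (1 + δ / 1000) * Pp δ V y) : V x * (1 - δ * mmF x) ≤ V y := by
  have E := Enc3_848.enc h
  have hc1 : c < 1 / 2 := lt_of_le_of_lt E.c_hi (by norm_num)
  have hδ2 : δ < 1 / 2 := lt_of_le_of_lt hδc hc1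
  refine C2R_889.r_lower h (ε0 := 1 / 1000) hδ (by norm_num)
    (b := b) (Em := Em) (mm' := mmF1) (L := Lx c δ W V I) (Pp := Pp δ V) (fun y => (b_bd y).1.le)
    (fun y => ?_) (fun y => dPp h hδ hδ2 y) Pp_lim c_mmF d_mmF
    (fun x => (mmF_pos x).le) (fun x => ?_) (fun x y h1 h2 => ?_) (hL_all h hδ.le hδc hX)
    (fun x => ?_) (fun x => L_all h hδ.le hδc hR x) (x := x) (y := y) ?_
  · have h1 := (b_bd y).1
    have h2 := (b_bd y).2
    nlinarith
  · have h1 := mmF_pos x
    have h2 := mmF_lt x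
    nlinarith
  · have := hE x y h1 h2
    linarith
  · have hm := mmF_pos x
    have hm0 : 0 < 1 - δ * mmF x := by
      have h2 := mmF_lt x
      nlinarith
    have hp : 0 < I x / V x := div_pos (h.I_pos x) (h.V_pos x)
    unfold Lx
    split_ifs with g1 g2
    · positivity
    · exact le_max_left _ _
    · have hs : 0 ≤ sg x := by unfold sg; split_ifs <;> norm_num
      positivity
  · have e : 1 + δ * (1 / 1000) = 1 + δ / 1000 := by ring
    rw [e]; exact hxy

end

end Crest.Agent.R146.C2V_889
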