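import Crest.Agent.R146.S6Def_988
import Crest.Agent.R164.CavG9

/-!
Row 146, S0206, node (5) of post 308 (helper47): the Gaussian cavity limit for the nested
recursion `Th` of `S6Def_988`.

* `rc y v f n`      : one-dimensional nested recursion (depth `n`, exponents `y`, variances `v`);
* `th_sum`, `gval_sum` : the nested functional of a sum of functions of single coordinates;
* `Th_eq_rc`        : `Th J f P` in this form;
* `cav_rows`        : the cavity limit for finitely many independent Gaussian rows acting on the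
                      same vector, any finite filtered space;
* `levels_xs`, `cav_th` : the instance for `S6Def_988` (one row), any law `Q`.
-/

set_option autoImplicit false

namespace Crest.Agent.R146.Cav5_47

open Finset MeasureTheory ProbabilityTheory Crest.Agent.R141 Crest.Agent.R141.Fact
open Crest.Agent.R164.CavG
open Crest.Agent.R146.S6Def_988 hiding zf
open Crest.Agent.R164.ED (aE)
open Crest.ProbabilityR.InvariantGlass (gaussOp)

noncomputable section

/-! ### One-dimensional recursion -/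

/-- nested recursion of depth `n`. -/
def rc (y v : ℕ → ℝ) (f : ℝ → ℝ) : ℕ → ℝ → ℝ
  | 0 => f
  | n + 1 => gaussOp (y n) (v n) (rc y v f n)

theorem gaussOp_eq_gstep {y : ℝ} (hy : 0 < y) (v : ℝ) (f : ℝ → ℝ) (x : ℝ) (hf : Measurable f) :
    gaussOp y v f x = gstep (ι := Unit) y (fun _ => v) (fun z => f (z ())) (fun _ => x) := by
  unfold gaussOp gstep
  rw [if_neg hy.ne', one_div]
  congr 2
  exact (integral_eval_gm (κ := Unit) () (F := fun g => Real.exp (y * f (x + Real.sqrt v * g)))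
    (by fun_prop)).symm

theorem gaussOp_meas {y : ℝ} (hy : 0 < y) (v : ℝ) {f : ℝ → ℝ} (hf : Measurable f) :
    Measurable (gaussOp y v f) := by
  have h := gstep_meas (ι := Unit) (y := y) (f := fun z => f (z ()))
    (hf.comp (measurable_pi_apply ())) (fun _ => v)
  have e : gaussOp y v f = fun x => gstep (ι := Unit) y (fun _ => v) (fun z => f (z ()))
      (fun _ => x) := by
    funext x
    exact gaussOp_eq_gstep hy v f x hf
  rw [e]
  exact h.comp (measurable_pi_lambda _ fun _ => measurable_id)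

theorem gaussOp_bd {y c : ℝ} (hy : 0 < y) (hy1 : y ≤ 1) (v : ℝ) {f : ℝ → ℝ} (hf : Measurable f)
    (hc : ∀ x, |f x| ≤ c) (x : ℝ) : |gaussOp y v f x| ≤ c := by
  rw [gaussOp_eq_gstep hy v f x hf]
  exact gstep_bound' hy hy1 (hf.comp (measurable_pi_apply ())) (fun z => hc _) _ _

theorem rc_meas {y v : ℕ → ℝ} {f : ℝ → ℝ} {c : ℝ} (hf : Measurable f) (hc : ∀ x, |f x| ≤ c)
    {J : ℕ} (hy : ∀ n ≤ J, 0 < y n) (hy1 : ∀ n ≤ J, y n ≤ 1) :
    ∀ n ≤ J + 1, Measurable (rc y v f n) ∧ ∀ x, |rc y v f n x| ≤ c := by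
  intro n
  induction n with
  | zero => exact fun _ => ⟨hf, hc⟩
  | succ n ih =>
    intro hn
    obtain ⟨h1, h2⟩ := ih (by omega)
    exact ⟨gaussOp_meas (hy n (by omega)) _ h1,
      fun x => gaussOp_bd (hy n (by omega)) (hy1 n (by omega)) _ h1 h2 x⟩

section sum

variable {ι : Type*} [Fintype ι]

theorem gstep_sum {y : ℝ} (hy : 0 < y) {c : ι → ℝ} (v : ι → ℝ) (F : ι → ℝ → ℝ)
    (hF : ∀ k, Measurable (F k)) (hc : ∀ k x, |F k x| ≤ c k) (z : ι → ℝ) :
    gstep y v (fun z => ∑ k, F k (z k)) z = ∑ k, gaussOp y (v k) (F k) (z k) := by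
  unfold gstep gaussOp
  simp only [if_neg hy.ne', one_div]
  have h1 : ∀ g : ι → ℝ, Real.exp (y * ∑ k, F k (z k + Real.sqrt (v k) * g k)) =
      ∏ k, Real.exp (y * F k (z k + Real.sqrt (v k) * g k)) := by
    intro g
    rw [← Real.exp_sum, Finset.mul_sum]
  simp_rw [h1]
  rw [show (∫ g, ∏ k, Real.exp (y * F k (z k + Real.sqrt (v k) * g k)) ∂(gm ι)) =
    ∏ k, ∫ g, Real.exp (y * F k (z k + Real.sqrt (v k) * g)) ∂(gaussianReal 0 1) from
    integral_fintype_prod_eq_prod (μ := fun _ : ι => gaussianReal 0 1)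
      (fun k g => Real.exp (y * F k (z k + Real.sqrt (v k) * g)))]
  rw [Real.log_prod, Finset.mul_sum]
  intro k _
  have hi : Integrable (fun g => Real.exp (y * F k (z k + Real.sqrt (v k) * g)))
      (gaussianReal 0 1) := by
    have hk := hF k
    have hmk : Measurable fun g => Real.exp (y * F k (z k + Real.sqrt (v k) * g)) := by fun_prop
    refine Integrable.of_bound (C := Real.exp (y * c k)) hmk.aestronglyMeasurable
      (ae_of_all _ fun g => ?_)
    rw [Real.norm_eq_abs, abs_of_pos (Real.exp_pos _)]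
    exact Real.exp_le_exp.2 (mul_le_mul_of_nonneg_left ((le_abs_self _).trans (hc k _)) hy.le)
  exact (integral_exp_pos hi).ne'

theorem th_sum {y : ℕ → ℝ} {v : ℕ → ι → ℝ} {J : ℕ} (hy : ∀ n ≤ J, 0 < y n)
    (hy1 : ∀ n ≤ J, y n ≤ 1) {c : ι → ℝ} (F : ι → ℝ → ℝ)
    (hF : ∀ k, Measurable (F k)) (hc : ∀ k x, |F k x| ≤ c k) :
    ∀ n ≤ J + 1, ∀ z, th y v (fun z => ∑ k, F k (z k)) n z =
      ∑ k, rc y (fun n => v n k) (F k) n (z k) := by
  intro n
  induction n with
  | zero => intro _ z; rfl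
  | succ n ih =>
    intro hn z
    rw [th_succ, show th y v (fun z => ∑ k, F k (z k)) n = fun z => ∑ k,
      rc y (fun n => v n k) (F k) n (z k) from funext (ih (by omega))]
    exact gstep_sum (hy n (by omega)) (v n) _
      (fun k => (rc_meas (hF k) (hc k) hy hy1 n (by omega)).1)
      (fun k => (rc_meas (hF k) (hc k) hy hy1 n (by omega)).2) z

theorem gval_sum {y : ℕ → ℝ} {v : ℕ → ι → ℝ} {J : ℕ} (hy : ∀ n ≤ J, 0 < y n)
    (hy1 : ∀ n ≤ J, y n ≤ 1) {c : ι → ℝ} (F : ι → ℝ → ℝ)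
    (hF : ∀ k, Measurable (F k)) (hc : ∀ k x, |F k x| ≤ c k) :
    gval J y v (fun z => ∑ k, F k (z k)) =
      ∑ k, ∫ g, rc y (fun n => v n k) (F k) (J + 1) (Real.sqrt (v (J + 1) k) * g)
        ∂(gaussianReal 0 1) := by
  unfold gval
  simp_rw [th_sum hy hy1 F hF hc (J + 1) le_rfl]
  have hm : ∀ k, Measurable (fun g => rc y (fun n => v n k) (F k) (J + 1)
      (Real.sqrt (v (J + 1) k) * g)) := fun k =>
    (rc_meas (hF k) (hc k) hy hy1 (J + 1) le_rfl).1.comp (by fun_prop)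
  rw [integral_finsetSum]
  · exact Finset.sum_congr rfl fun k _ => integral_eval_gm k (hm k)
  · intro k _
    refine Integrable.of_bound (C := c k) ((hm k).comp (measurable_pi_apply k)).aestronglyMeasurable
      (ae_of_all _ fun g => ?_)
    rw [Real.norm_eq_abs]
    exact (rc_meas (hF k) (hc k) hy hy1 (J + 1) le_rfl).2 _

end sum

/-! ### `Th` -/

/-- the overlaps by depth: `1` at the leaf, then `P_J, ..., P_0`. -/
def Qd (J : ℕ) (P : ℕ → ℝ) (n : ℕ) : ℝ := if n = 0 then 1 else P (J + 1 - n)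

/-- the variances by depth -/
def vd (J : ℕ) (P : ℕ → ℝ) (n : ℕ) : ℝ := if n ≤ J then Qd J P n - Qd J P (n + 1) else Qd J P n

theorem Qd_nonneg {J : ℕ} {P : ℕ → ℝ} (h : Lev J P) {n : ℕ} (hn : n ≤ J + 1) : 0 ≤ Qd J P n := by
  unfold Qd
  split_ifs with h0
  · exact zero_le_one
  · exact h.nonneg.trans (h.mono 0 _ (Nat.zero_le _) (by omega))

theorem Qd_anti {J : ℕ} {P : ℕ → ℝ} (h : Lev J P) {n : ℕ} (hn : n ≤ J) :
    Qd J P (n + 1) ≤ Qd J P n := by
  unfold Qd
  rw [if_neg (by omega)]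
  split_ifs with h0
  · subst h0
    simpa using h.le_one
  · exact h.mono _ _ (by omega) (by omega)

theorem recV_eq_rc (J : ℕ) (f : ℝ → ℝ) (P : ℕ → ℝ) : ∀ n ≤ J + 1,
    recV f (tP J P) (fun j => (j : ℝ) / ((J : ℝ) + 1)) (J + 2) n = rc (ySk J) (vd J P) f n := by
  intro n
  induction n with
  | zero => intro _; rfl
  | succ n ih =>
    intro hn
    have hJn : n ≤ J := by omega
    unfold recV rc
    rw [ih (by omega)]
    have e1 : ((J + 2 - 1 - n : ℕ) : ℝ) / ((J : ℝ) + 1) = ySk J n := by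
      unfold ySk
      rw [show J + 2 - 1 - n = J + 1 - n by omega, Nat.cast_sub (by omega)]
      push_cast
      rfl
    have e2 : tP J P (J + 2 - n) - tP J P (J + 2 - 1 - n) = vd J P n := by
      unfold tP vd Qd
      rw [if_pos hJn, if_neg (show ¬ (J + 2 - n = 0) by omega),
        if_neg (show ¬ (J + 2 - 1 - n = 0) by omega), if_pos (show J + 2 - 1 - n ≤ J + 1 by omega),
        if_neg (show ¬ (n + 1 = 0) by omega)]
      by_cases h0 : n = 0
      · subst h0
        rw [if_neg (show ¬ (J + 2 - 0 ≤ J + 1) by omega), if_pos rfl]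
        congr 2
      · rw [if_pos (show J + 2 - n ≤ J + 1 by omega), if_neg h0]
        congr 2
        omega
    rw [e1, e2]

theorem Th_eq_rc (J : ℕ) (f : ℝ → ℝ) (P : ℕ → ℝ) :
    Th J f P = ∫ g, rc (ySk J) (vd J P) f (J + 1) (Real.sqrt (vd J P (J + 1)) * g)
      ∂(gaussianReal 0 1) := by
  unfold Th
  rw [show J + 2 = (J + 1) + 1 from rfl]
  unfold recV
  rw [recV_eq_rc J f P (J + 1) le_rfl]
  have e1 : ((J + 1 + 1 - 1 - (J + 1) : ℕ) : ℝ) / ((J : ℝ) + 1) = 0 := by
    rw [show J + 1 + 1 - 1 - (J + 1) = 0 by omega]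
    simp
  have e2 : tP J P (J + 1 + 1 - (J + 1)) - tP J P (J + 1 + 1 - 1 - (J + 1)) = vd J P (J + 1) := by
    rw [show J + 1 + 1 - (J + 1) = 1 by omega, show J + 1 + 1 - 1 - (J + 1) = 0 by omega]
    unfold tP vd Qd
    rw [if_neg (show ¬ (J + 1 ≤ J) by omega), if_neg (show ¬ (J + 1 = 0) by omega),
      if_neg one_ne_zero, if_pos (show 1 ≤ J + 1 by omega), if_pos rfl]
    simp
  rw [e1, e2]
  unfold gaussOp
  rw [if_pos rfl]
  simp

/-! ### The cavity limit with finitely many rows acting on the same vector -/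

/-- the trivial filtration on `Unit`. -/
def filU : Filt Unit where
  F _ := ⊥
  anti _ := le_rfl
  L := 0
  bot _ _ := rfl

/-- the filtration on `Ω × Unit`. -/
def filP {Ω : Type*} (𝓕 : Filt Ω) : Filt (Ω × Unit) where
  F l := (𝓕.F l).prod (filU.F l)
  anti l := fun _ _ h => ⟨𝓕.anti l h.1, h.2⟩
  L := 𝓕.L
  bot k hk := by
    ext a b
    constructor
    · intro h
      have h1 : 𝓕.F k a.1 b.1 := h.1
      rw [𝓕.bot k hk] at h1
      exact Prod.ext h1 rfl
    · intro h
      have h : a = b := h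
      subst h
      exact ((𝓕.F k).prod (filU.F k)).refl' a

theorem filP_zero {Ω : Type*} {𝓕 : Filt Ω} (h : 𝓕.F 0 = ⊤) : (filP 𝓕).F 0 = ⊤ := by
  ext a b
  constructor
  · intro _; trivial
  · intro _
    refine ⟨?_, rfl⟩
    have : (⊤ : Setoid Ω) a.1 b.1 := trivial
    rw [← h] at this
    exact this

/-- trivial weights on `Unit`. -/
def oneU : Unit → ℝ := fun _ => 1

theorem isProb_oneU : IsProb oneU := ⟨fun _ => one_pos, by simp [oneU]⟩

theorem eE_oneU (f : Unit → ℝ) : eE oneU f = f () := by simp [eE, oneU]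

theorem cE_oneU (s : Setoid Unit) (f : Unit → ℝ) (u : Unit) : cE oneU s f u = f () := by
  have h : f = fun _ => f () := funext fun _ => rfl
  rw [h, cE_const isProb_oneU]

theorem aE_filP {Ω : Type} [Fintype Ω] {P : Ω → ℝ} (hP : IsProb P) (𝓕 : Filt Ω) {xe : ℕ → ℝ}
    (hx : ∀ k, 0 < xe k) (U : Ω → ℝ) :
    aE (pP P oneU) (filP 𝓕) xe (fun q => U q.1) = aE P 𝓕 xe U := by
  unfold aE
  have h := A_proj (𝓕' := filP 𝓕) (𝓕 := 𝓕) (x := xe) (pP_isProb hP isProb_oneU) hP hx
    (Prod.fst : Ω × Unit → Ω) (fun k f ω' => by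
      show cE (pP P oneU) ((𝓕.F k).prod (filU.F k)) (fun ω'' => f ω''.1) ω' = _
      rw [cE_pP]
      congr 1
      funext a
      rw [cE_oneU]) U 0
  rw [eE_pP]
  unfold eE
  refine Finset.sum_congr rfl fun a _ => ?_
  have := h (a, ())
  simp [this, oneU]

/-- total deviation of the overlaps and of the purity at the skeleton steps. -/
def DevS {Ω κ : Type*} [Fintype Ω] [Fintype κ] (P : Ω → ℝ) (𝓕 : Filt Ω) (J : ℕ) (t : ℕ → ℕ)
    (x : Ω → κ → ℝ) (Pl : ℕ → ℝ) : ℝ :=
  ∑ j ∈ range (J + 1), (eE P (fun ω => |∑ i, cE P (𝓕.F (t j)) (fun a => x a i) ω ^ 2 - Pl j|) +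
    pur P (𝓕.F (t j)) x)

theorem DevS_nonneg {Ω κ : Type*} [Fintype Ω] [Fintype κ] {P : Ω → ℝ} (hP : IsProb P)
    (𝓕 : Filt Ω) (J : ℕ) (t : ℕ → ℕ) (x : Ω → κ → ℝ) (Pl : ℕ → ℝ) :
    0 ≤ DevS P 𝓕 J t x Pl :=
  Finset.sum_nonneg fun _ _ => add_nonneg (eE_nonneg hP fun _ => abs_nonneg _) (pur_nonneg hP x)

theorem cvr_prod {Ω κ β : Type*} [Fintype Ω] [Fintype κ] [Fintype β] (P : Ω → ℝ) (r : Setoid Ω)
    (x : Ω → κ → ℝ) (p q : β × κ) (ω : Ω) :
    cvr P r (fun ω (p : β × κ) => x ω p.2) p q ω = cvr P r x p.2 q.2 ω := rfl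

theorem pur_prod {Ω κ β : Type*} [Fintype Ω] [Fintype κ] [Fintype β] (P : Ω → ℝ) (r : Setoid Ω)
    (x : Ω → κ → ℝ) :
    pur P r (fun ω (p : β × κ) => x ω p.2) = (Fintype.card β : ℝ) ^ 2 * pur P r x := by
  unfold pur
  rw [← eE_smul]
  congr 1
  funext ω
  simp only [cvr_prod]
  simp only [Fintype.sum_prod_type, Finset.sum_const, Finset.card_univ, nsmul_eq_mul]
  rw [← Finset.mul_sum]
  ring

theorem sum_if_fst {κ β : Type*} [Fintype κ] [Fintype β] [DecidableEq β] (k : β)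
    (f : β × κ → ℝ) : ∑ p : β × κ, (if p.1 = k then f p else 0) = ∑ i, f (k, i) := by
  rw [Fintype.sum_prod_type]
  rw [Finset.sum_eq_single k]
  · simp
  · intro b _ hb
    simp [hb]
  · intro h; exact absurd (Finset.mem_univ _) h

theorem zf_prod {κ β : Type*} [Fintype κ] [Fintype β] [DecidableEq β] (x : κ → ℝ)
    (ζ : β × κ → ℝ) (k : β) :
    Crest.Agent.R164.CavG.zf (Prod.fst : β × κ → β) (fun p => x p.2) ζ k = ∑ i, x i * ζ (k, i) := by
  unfold Crest.Agent.R164.CavG.zf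
  have h : ∀ p : β × κ, (if p.1 = k then x p.2 else 0) * ζ p = if p.1 = k then x p.2 * ζ p else 0 :=
    fun p => by split_ifs <;> simp
  simp_rw [h]
  exact sum_if_fst k fun p => x p.2 * ζ p

theorem ip_prod {κ β : Type*} [Fintype κ] [Fintype β] [DecidableEq β] (x : κ → ℝ) (k : β) :
    ip (Prod.fst : β × κ → β) k (fun p => x p.2) (fun p => x p.2) = ∑ i, x i ^ 2 := by
  unfold ip
  rw [sum_if_fst k fun p : β × κ => x p.2 * x p.2]
  exact Finset.sum_congr rfl fun i _ => by ring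

theorem XX_prod {Ω κ β : Type*} [Fintype Ω] [Fintype κ] [Fintype β] (P : Ω → ℝ)
    (r : ℕ → Setoid Ω) (x : Ω → κ → ℝ) (n : ℕ) (ω : Ω) :
    XX P r (fun ω (p : β × κ) => x ω p.2) n ω = fun p => XX P r x n ω p.2 := by
  cases n with
  | zero => rfl
  | succ n => rfl

theorem Dev_prod {Ω κ β : Type} [Fintype Ω] [Fintype κ] [Fintype β] [DecidableEq β]
    {P : Ω → ℝ} (hP : IsProb P) (𝓕 : Filt Ω) (J : ℕ) (t : ℕ → ℕ) (x : Ω → κ → ℝ)
    (hx : ∀ ω, ∑ i, x ω i ^ 2 = 1) (Pl : ℕ → ℝ) :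
    Dev P (fun n => 𝓕.F (t (J - n))) J (Prod.fst : β × κ → β) (fun ω p => x ω p.2)
      (fun n _ => Qd J Pl n) ≤ ((Fintype.card β : ℝ) + (Fintype.card β : ℝ) ^ 2) *
        DevS P 𝓕 J t x Pl := by
  unfold Dev DevS
  simp only [XX_prod, ip_prod, pur_prod, Finset.sum_const, Finset.card_univ, nsmul_eq_mul]
  have e1 : ∑ n ∈ range (J + 2), (Fintype.card β : ℝ) * eE P (fun ω =>
      |∑ i, XX P (fun n => 𝓕.F (t (J - n))) x n ω i ^ 2 - Qd J Pl n|) =
      (Fintype.card β : ℝ) * ∑ j ∈ range (J + 1), eE P (fun ω =>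
        |∑ i, cE P (𝓕.F (t j)) (fun a => x a i) ω ^ 2 - Pl j|) := by
    rw [Finset.sum_range_succ', ← Finset.mul_sum]
    have h0 : eE P (fun ω => |∑ i, XX P (fun n => 𝓕.F (t (J - n))) x 0 ω i ^ 2 - Qd J Pl 0|) = 0 := by
      have : (fun ω => |∑ i, XX P (fun n => 𝓕.F (t (J - n))) x 0 ω i ^ 2 - Qd J Pl 0|) =
          fun _ => (0 : ℝ) := by
        funext ω
        show |∑ i, x ω i ^ 2 - Qd J Pl 0| = 0
        rw [hx ω]
        simp [Qd]
      rw [this, eE_const hP]
    rw [h0, mul_zero, add_zero]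
    congr 1
    rw [← Finset.sum_range_reflect]
    refine Finset.sum_congr rfl fun n hn => ?_
    rw [Finset.mem_range] at hn
    have e2 : J + 1 - 1 - n = J - n := by omega
    rw [e2]
    congr 1
    funext ω
    have e3 : Qd J Pl (J - n + 1) = Pl n := by
      unfold Qd
      rw [if_neg (by omega)]
      congr 1
      omega
    rw [e3]
    show |∑ i, cE P (𝓕.F (t (J - (J - n)))) (fun a => x a i) ω ^ 2 - Pl n| = _
    rw [show J - (J - n) = n by omega]
  have e4 : ∑ n ∈ range (J + 1), (Fintype.card β : ℝ) ^ 2 * pur P (𝓕.F (t (J - n))) x =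
      (Fintype.card β : ℝ) ^ 2 * ∑ j ∈ range (J + 1), pur P (𝓕.F (t j)) x := by
    rw [← Finset.mul_sum]
    congr 1
    rw [← Finset.sum_range_reflect]
    refine Finset.sum_congr rfl fun n hn => ?_
    rw [Finset.mem_range] at hn
    rw [show J + 1 - 1 - n = J - n by omega, show J - (J - n) = n by omega]
  rw [e1, e4, Finset.sum_add_distrib]
  have h1 : 0 ≤ ∑ j ∈ range (J + 1), eE P (fun ω =>
        |∑ i, cE P (𝓕.F (t j)) (fun a => x a i) ω ^ 2 - Pl j|) :=
    Finset.sum_nonneg fun _ _ => eE_nonneg hP fun _ => abs_nonneg _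
  have h2 : 0 ≤ ∑ j ∈ range (J + 1), pur P (𝓕.F (t j)) x :=
    Finset.sum_nonneg fun _ _ => pur_nonneg hP x
  have h3 : (0 : ℝ) ≤ Fintype.card β := Nat.cast_nonneg _
  have h4 : (0 : ℝ) ≤ (Fintype.card β : ℝ) ^ 2 := by positivity
  nlinarith [mul_nonneg h3 h2, mul_nonneg h4 h1]

/-- trivial label variable satisfies the central limit hypothesis. -/
theorem clt_zero (s : ℕ → Setoid Unit) (J : ℕ) {d : ℝ} (hd : 0 ≤ d) :
    Clt oneU s J (fun _ => 0) (fun _ => 0) d := by
  have hY : ∀ n u, YY oneU s (fun _ => 0) n u = 0 := by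
    intro n u
    cases n with
    | zero => rfl
    | succ n => exact cE_oneU _ _ _
  constructor
  · intro n _ L h hL _ l
    rw [cE_oneU]
    simp only [hY]
    simp only [Real.sqrt_zero, zero_mul, add_zero, integral_const, probReal_univ, one_smul,
      sub_self, abs_zero]
    positivity
  · intro L h hL _
    rw [eE_oneU]
    simp only [hY]
    simp only [Real.sqrt_zero, zero_mul, integral_const, probReal_univ, one_smul, sub_self,
      abs_zero]
    positivity

/-- **Cavity limit, finitely many rows** acting on the same vector of norm one: the functional of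
the sum of the row functions is close to the sum of the nested recursions. -/
theorem cav_rows (β : Type) [Fintype β] [DecidableEq β] (J : ℕ) {c : ℝ} (hc0 : 0 ≤ c)
    (LR : ℝ → ℝ) (hLR : ∀ R, 0 ≤ R → 0 ≤ LR R) {ε : ℝ} (hε : 0 < ε) :
    ∃ D : ℝ, 0 ≤ D ∧ ∀ {Ω κ : Type} [Fintype Ω] [Fintype κ] (P : Ω → ℝ) (𝓕 : Filt Ω) (xe : ℕ → ℝ)
      (t : ℕ → ℕ) (δx : ℝ) (x : Ω → κ → ℝ) (Pl : ℕ → ℝ) (h : β → ℝ → ℝ),
      IsProb P → 𝓕.F 0 = ⊤ → Levels xe J t 𝓕.L δx → (∀ ω, ∑ i, x ω i ^ 2 = 1) → Lev J Pl →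
      (∀ k a, |h k a| ≤ c) →
      (∀ k R, 0 ≤ R → ∀ a b, |a| ≤ R → |b| ≤ R → |h k a - h k b| ≤ LR R * |a - b|) →
      |∫ ζ, aE P 𝓕 xe (fun ω => ∑ k, h k (∑ i, x ω i * ζ (k, i))) ∂(gm (β × κ)) -
        ∑ k, Th J (h k) Pl| ≤
        ε + D * DevS P 𝓕 J t x Pl +
          15 * (Fintype.card β * c) ^ 2 * Real.exp (4 * (Fintype.card β * c)) * δx := by
  set b : ℝ := (Fintype.card β : ℝ) with hb
  have hb0 : 0 ≤ b := Nat.cast_nonneg _
  obtain ⟨d, hd, hmain⟩ := cavity_limit β J (b * c) b 0 b LR (by positivity) hb0 le_rfl hb0 hε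
  refine ⟨2 * (b * c) / d * (b + b ^ 2), by positivity, ?_⟩
  intro Ω κ _ _ P 𝓕 xe t δx x Pl h hP h0 hlev hx hPl hc hlip
  set w : (Unit ⊕ β → ℝ) → ℝ := fun z => ∑ k, h k (z (Sum.inr k)) with hw
  have hm : ∀ k, Measurable (h k) := by
    intro k
    have hcont : Continuous (h k) := by
      rw [continuous_iff_continuousAt]
      intro a
      rw [Metric.continuousAt_iff]
      intro e he
      have hR : 0 ≤ |a| + 1 := by positivity
      have hL0 := hLR (|a| + 1) hR
      refine ⟨min 1 (e / (LR (|a| + 1) + 1)), by positivity, fun {u} hu => ?_⟩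
      rw [Real.dist_eq] at hu ⊢
      have hu1 : |u - a| < 1 := lt_of_lt_of_le hu (min_le_left _ _)
      have hu2 : |u - a| < e / (LR (|a| + 1) + 1) := lt_of_lt_of_le hu (min_le_right _ _)
      have hu3 : |u| ≤ |a| + 1 := by
        have := abs_sub_abs_le_abs_sub u a
        linarith
      refine (hlip k (|a| + 1) hR u a hu3 (by linarith)).trans_lt ?_
      rw [lt_div_iff₀ (by linarith)] at hu2
      have := abs_nonneg (u - a)
      nlinarith
    exact hcont.measurable
  have hwl : LocLip LR w := by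
    refine ⟨hLR, fun R hR z z' hz hz' => ?_⟩
    rw [hw]
    simp only
    rw [← Finset.sum_sub_distrib]
    refine (Finset.abs_sum_le_sum_abs _ _).trans ?_
    rw [Fintype.sum_sum_type, mul_add, Finset.mul_sum, Finset.mul_sum]
    have h1 : 0 ≤ ∑ i : Unit, LR R * |z (Sum.inl i) - z' (Sum.inl i)| :=
      Finset.sum_nonneg fun _ _ => mul_nonneg (hLR R hR) (abs_nonneg _)
    have h2 : ∑ k, |h k (z (Sum.inr k)) - h k (z' (Sum.inr k))| ≤
        ∑ k, LR R * |z (Sum.inr k) - z' (Sum.inr k)| :=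
      Finset.sum_le_sum fun k _ => hlip k R hR _ _ (hz _) (hz' _)
    linarith
  have hwc : ∀ z, |w z| ≤ b * c := by
    intro z
    refine (Finset.abs_sum_le_sum_abs _ _).trans ?_
    refine (Finset.sum_le_sum fun k _ => hc k _).trans (le_of_eq ?_)
    simp [hb]
  have key := hmain (Ω := Ω) (Λ := Unit) (κ := β × κ) P oneU 𝓕 filU (filP 𝓕) xe t δx Prod.fst
    (fun ω p => x ω p.2) (fun n _ => Qd J Pl n) (fun _ => 0) (fun _ => 0) w hP isProb_oneU
    (fun l => rfl) (filP_zero h0) hlev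
    (fun ω => by
      rw [Fintype.sum_prod_type]
      simp only [hx, Finset.sum_const, Finset.card_univ, nsmul_eq_mul, mul_one]
      exact le_of_eq hb.symm)
    (fun n k hn => Qd_nonneg hPl hn) (fun n k hn => Qd_anti hPl hn)
    (by simp [Qd, hb]) (fun _ _ => le_rfl) (fun _ _ => hb0) (clt_zero _ J hd.le)
    (by rw [eE_oneU]; simp) hwl hwc
  -- identification of the nested functional
  have hg : gval J (ySk J) (vC J (fun n _ => Qd J Pl n) (fun _ => 0)) w = ∑ k, Th J (h k) Pl := by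
    set F : Unit ⊕ β → ℝ → ℝ := Sum.elim (fun _ _ => 0) h with hF
    have ew : w = fun z => ∑ k, F k (z k) := by
      funext z
      rw [Fintype.sum_sum_type]
      simp [hF, hw]
    have hFm : ∀ k, Measurable (F k) := by
      rintro (k | k)
      · exact measurable_const
      · exact hm k
    have hFc : ∀ k a, |F k a| ≤ (Sum.elim (fun _ => 0) (fun _ => c) : Unit ⊕ β → ℝ) k := by
      rintro (k | k) a
      · simp [hF]
      · exact hc k a
    rw [ew, gval_sum (fun n hn => ySk_pos hn) (fun n _ => ySk_le_one J n) F hFm hFc,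
      Fintype.sum_sum_type]
    have hz : ∀ g : ℝ, rc (ySk J) (fun n => vC J (fun n (_ : β) => Qd J Pl n) (fun _ => 0) n
        (Sum.inl ())) (F (Sum.inl ())) (J + 1)
        (Real.sqrt (vC J (fun n (_ : β) => Qd J Pl n) (fun _ => 0) (J + 1) (Sum.inl ())) * g) =
          0 := by
      intro g
      have := (rc_meas (y := ySk J) (v := fun n => vC J (fun n (_ : β) => Qd J Pl n) (fun _ => 0) n
        (Sum.inl ())) (hFm (Sum.inl ())) (hFc (Sum.inl ()))
        (fun n hn => ySk_pos hn) (fun n _ => ySk_le_one J n) (J + 1) le_rfl).2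
        (Real.sqrt (vC J (fun n (_ : β) => Qd J Pl n) (fun _ => 0) (J + 1) (Sum.inl ())) * g)
      exact abs_nonpos_iff.1 this
    have hz2 : (∑ a₁ : Unit, ∫ g, rc (ySk J) (fun n => vC J (fun n (_ : β) => Qd J Pl n)
      (fun _ => 0) n (Sum.inl a₁)) (F (Sum.inl a₁)) (J + 1)
      (Real.sqrt (vC J (fun n (_ : β) => Qd J Pl n) (fun _ => 0) (J + 1) (Sum.inl a₁)) * g)
      ∂(gaussianReal 0 1)) = 0 := by
      refine Finset.sum_eq_zero fun u _ => ?_
      simp only [hz, integral_zero]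
    rw [hz2, zero_add]
    exact Finset.sum_congr rfl fun k _ => (Th_eq_rc J (h k) Pl).symm
  have ea : ∀ ζ : β × κ → ℝ, aE (pP P oneU) (filP 𝓕) xe (fun q => w (cmb 0
      (Crest.Agent.R164.CavG.zf Prod.fst (fun p : β × κ => x q.1 p.2) ζ))) =
      aE P 𝓕 xe (fun ω => ∑ k, h k (∑ i, x ω i * ζ (k, i))) := by
    intro ζ
    rw [← aE_filP hP 𝓕 hlev.expo.pos]
    congr 1
    funext q
    rw [hw]
    simp only [cmb, Sum.elim_inr, zf_prod]
  simp_rw [ea] at key
  rw [hg] at key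
  refine key.trans ?_
  have hD := Dev_prod (β := β) hP 𝓕 J t x hx Pl
  have h5 : 0 ≤ 2 * (b * c) / d := by positivity
  have h6 := mul_le_mul_of_nonneg_left hD h5
  have h7 : 2 * (b * c) / d * ((b + b ^ 2) * DevS P 𝓕 J t x Pl) =
      2 * (b * c) / d * (b + b ^ 2) * DevS P 𝓕 J t x Pl := by ring
  linarith

/-! ### Currying the rows -/

theorem gm_curry (β κ : Type) [Fintype β] [Fintype κ] :
    MeasurePreserving (MeasurableEquiv.curry β κ ℝ) (gm (β × κ)) (Measure.pi fun _ : β => gm κ) := by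
  refine ⟨(MeasurableEquiv.curry β κ ℝ).measurable, ?_⟩
  have h := Measure.infinitePi_map_curry (fun (_ : β) (_ : κ) => gaussianReal 0 1)
  rw [Measure.infinitePi_eq_pi (μ := fun _ : β × κ => gaussianReal 0 1)] at h
  rw [show (gm (β × κ)) = Measure.pi fun _ : β × κ => gaussianReal 0 1 from rfl, h]
  rw [Measure.infinitePi_eq_pi]
  congr 1
  funext _
  rw [Measure.infinitePi_eq_pi]

/-! ### The instance for `S6Def_988` -/

section inst

variable {N : ℕ} (C : Cfg N) (nc n : ℕ)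

theorem prior_isProb : IsProb (prior C nc n) := by
  have hc : (0 : ℝ) < (Fintype.card (Coins nc n N) : ℝ) := by
    exact_mod_cast Fintype.card_pos
  constructor
  · intro ω
    unfold prior
    exact mul_pos (C.hq.pos _) (inv_pos.2 hc)
  · unfold prior
    rw [Fintype.sum_prod_type]
    simp only [Finset.sum_const, Finset.card_univ, nsmul_eq_mul]
    have : ∀ y, (Fintype.card (Coins nc n N) : ℝ) * (C.q y * (Fintype.card (Coins nc n N) : ℝ)⁻¹) =
        C.q y := fun y => by field_simp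
    simp_rw [this]
    exact C.hq.sum

theorem fil_zero : (fil C nc n).F 0 = ⊤ := by
  ext a b
  constructor
  · intro _; trivial
  · intro _
    refine ⟨fun g t hg => absurd hg (Nat.not_lt_zero _), fun hL => ?_⟩
    unfold Lv at hL
    omega

theorem xs_expo : IsExpo (xs nc n) := by
  constructor
  · intro k
    unfold xs
    exact lt_min one_pos (by positivity)
  · intro a b hab
    unfold xs
    refine min_le_min le_rfl ?_
    refine div_le_div_of_nonneg_right ?_ (by positivity)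
    exact_mod_cast Nat.add_le_add_right (Nat.div_le_div_right (by omega)) 1
  · intro k
    unfold xs
    exact min_le_left _ _

/-- lower bound of the exponents after the beginning of the cell `a`. -/
theorem xs_ge {a l : ℕ} (hn : 0 < n) (hl : st n a < l) :
    min 1 (((a : ℝ) + 1) / ((nc : ℝ) + 1)) ≤ xs nc n l := by
  unfold xs st at *
  refine min_le_min le_rfl ?_
  refine div_le_div_of_nonneg_right ?_ (by positivity)
  have h1 : a ≤ (l - 1) / n := (Nat.le_div_iff_mul_le hn).2 (by omega)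
  push_cast
  have : (a : ℝ) ≤ ((l - 1) / n : ℕ) := by exact_mod_cast h1
  linarith

/-- upper bound of the exponents before the end of the cell `b - 1`. -/
theorem xs_le {b l : ℕ} (hb : 0 < b) (hl : l ≤ st n b) :
    xs nc n l ≤ (b : ℝ) / ((nc : ℝ) + 1) := by
  unfold xs st at *
  refine (min_le_right _ _).trans ?_
  refine div_le_div_of_nonneg_right ?_ (by positivity)
  have h1 : (l - 1) / n + 1 ≤ b := by
    rcases Nat.eq_zero_or_pos n with h0 | h0
    · subst h0
      rw [Nat.div_zero]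
      omega
    · have : (l - 1) / n < b := by
        rw [Nat.div_lt_iff_lt_mul h0]
        have := Nat.mul_pos hb h0
        omega
      omega
  exact_mod_cast h1

/-- skeleton steps in the blocks of `wc` levels. -/
theorem levels_xs {J wc : ℕ} (hn : 0 < n) (hwc : 2 ≤ wc) (hnc : nc + 1 = (J + 1) * wc)
    {τ : ℕ → ℕ} (hτ : ∀ b ≤ J, st n (b * wc) ≤ τ b ∧ τ b < st n (b * wc + wc - 1)) :
    Levels (xs nc n) J (fun j => τ (min j J)) (Lv nc n) (1 / ((J : ℝ) + 1)) := by
  have hJ : (0 : ℝ) < (J : ℝ) + 1 := by positivity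
  have hw : (0 : ℝ) < wc := by exact_mod_cast (by omega : 0 < wc)
  have hnc' : (nc : ℝ) + 1 = ((J : ℝ) + 1) * wc := by exact_mod_cast hnc
  have hstm : ∀ a b, a ≤ b → st n a ≤ st n b := fun a b h => Nat.mul_le_mul_right n h
  have hτm : ∀ a b, a ≤ b → b ≤ J → τ a ≤ τ b := by
    intro a b hab hbJ
    rcases hab.eq_or_lt with h | h
    · rw [h]
    · have h1 := (hτ a (by omega)).2
      have h2 := (hτ b hbJ).1
      have h3 : a * wc + wc - 1 ≤ b * wc := by
        have : (a + 1) * wc ≤ b * wc := Nat.mul_le_mul_right wc h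
        rw [add_mul, one_mul] at this
        omega
      have := hstm _ _ h3
      omega
  -- upper bound of the exponents up to `τ j`
  have hup : ∀ j ≤ J, ∀ l, l ≤ τ j → xs nc n l ≤ ((j : ℝ) + 1) / ((J : ℝ) + 1) := by
    intro j hj l hl
    have h1 := (hτ j hj).2
    have h2 := xs_le nc n (b := j * wc + wc - 1) (by omega) (l := l) (by omega)
    refine h2.trans ?_
    rw [hnc', div_le_div_iff₀ (by positivity) hJ]
    have h3 : ((j * wc + wc - 1 : ℕ) : ℝ) ≤ ((j : ℝ) + 1) * wc := by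
      have : j * wc + wc - 1 ≤ (j + 1) * wc := by rw [add_mul, one_mul]; omega
      exact_mod_cast this
    nlinarith
  have hlo : ∀ j ≤ J, ∀ l, τ j < l → (j : ℝ) / ((J : ℝ) + 1) ≤ xs nc n l := by
    intro j hj l hl
    have h1 := (hτ j hj).1
    have h2 := xs_ge nc n (a := j * wc) hn (l := l) (by omega)
    refine le_trans ?_ h2
    have hjJ : (j : ℝ) ≤ J := by exact_mod_cast hj
    refine le_min ?_ ?_
    · rw [div_le_one hJ]; linarith
    · rw [hnc', div_le_div_iff₀ hJ (by positivity)]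
      push_cast
      nlinarith
  refine ⟨xs_expo nc n, by positivity, ?_, ?_, ?_, ?_, ?_⟩
  · intro a b hab
    exact hτm _ _ (min_le_min_right J hab) (min_le_right _ _)
  · simp only [min_self]
    have h1 := (hτ J le_rfl).2
    have h2 : J * wc + wc - 1 = nc := by rw [add_mul, one_mul] at hnc; omega
    rw [h2] at h1
    unfold st at h1
    unfold Lv
    omega
  · intro l hl
    simp only [Nat.zero_min] at hl
    have := hup 0 (Nat.zero_le _) l hl
    simpa using this
  · intro j h1 hj l hl1 hl2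
    simp only [min_eq_left hj, min_eq_left (show j - 1 ≤ J by omega)] at hl1 hl2
    have h2 := hup j hj l hl2
    have h3 := hlo (j - 1) (by omega) l hl1
    rw [Nat.cast_sub h1, Nat.cast_one] at h3
    have e1 : ((j : ℝ) + 1) / ((J : ℝ) + 1) = (j : ℝ) / ((J : ℝ) + 1) + 1 / ((J : ℝ) + 1) := by
      rw [add_div]
    have e2 : ((j : ℝ) - 1) / ((J : ℝ) + 1) = (j : ℝ) / ((J : ℝ) + 1) - 1 / ((J : ℝ) + 1) := by
      rw [sub_div]
    rw [abs_le]
    constructor <;> linarith
  · intro l hl _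
    simp only [min_self] at hl
    have h3 := hlo J le_rfl l hl
    have e1 : (J : ℝ) / ((J : ℝ) + 1) = 1 - 1 / ((J : ℝ) + 1) := by
      field_simp
      ring
    linarith

/-- the normalised configuration -/
def xn (ω : Om C nc n) (i : Fin N) : ℝ := C.x ω.1 i / Real.sqrt N

theorem sum_xn_sq (hN : 0 < N) (ω : Om C nc n) : ∑ i, xn C nc n ω i ^ 2 = 1 := by
  have hN' : (0 : ℝ) < N := by exact_mod_cast hN
  unfold xn
  simp_rw [div_pow, Real.sq_sqrt hN'.le]
  rw [← Finset.sum_div, C.hx, div_self hN'.ne']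

/-- skeleton deviation for `S6Def`: overlaps and purity of the normalised configuration. -/
def DevN (Q : Om C nc n → ℝ) (J : ℕ) (τ : ℕ → ℕ) (Pl : ℕ → ℝ) : ℝ :=
  ∑ b ∈ range (J + 1), (eE Q (fun ω => |(N : ℝ)⁻¹ *
    ∑ i, (cE Q ((fil C nc n).F (τ b)) (fun w => C.x w.1 i) ω) ^ 2 - Pl b|) +
      pur Q ((fil C nc n).F (τ b)) (xn C nc n))

theorem DevS_eq_DevN (hN : 0 < N) (Q : Om C nc n → ℝ) (J : ℕ) (τ : ℕ → ℕ) (Pl : ℕ → ℝ) :
    DevS Q (fil C nc n) J (fun j => τ (min j J)) (xn C nc n) Pl = DevN C nc n Q J τ Pl := by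
  have hN' : (0 : ℝ) < N := by exact_mod_cast hN
  unfold DevS DevN
  refine Finset.sum_congr rfl fun b hb => ?_
  rw [Finset.mem_range] at hb
  beta_reduce
  rw [min_eq_left (show b ≤ J by omega)]
  congr 1
  congr 1
  funext ω
  congr 2
  rw [Finset.mul_sum]
  refine Finset.sum_congr rfl fun i _ => ?_
  have e : (fun a => xn C nc n a i) = fun a => (Real.sqrt N)⁻¹ * C.x a.1 i := by
    funext a
    unfold xn
    rw [div_eq_inv_mul]
  rw [e, cE_smul, mul_pow, inv_pow, Real.sq_sqrt hN'.le]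

/-- **Node (5), several rows at once.** For every law `Q` of the enriched system and rows
`h k`, `k : Fin r`, independent Gaussian rows acting on the same configuration. -/
theorem cav_th_rows (r J : ℕ) (K L : ℝ) {ε : ℝ} (hε : 0 < ε) :
    ∃ D : ℝ, 0 ≤ D ∧ ∀ (wc nc : ℕ), 2 ≤ wc → nc + 1 = (J + 1) * wc →
      ∀ (N n : ℕ), 0 < N → 0 < n → ∀ (C : Cfg N) (Q : Om C nc n → ℝ), IsProb Q →
      ∀ (h : Fin r → ℝ → ℝ), (∀ k, BL K L (h k)) → ∀ τ : ℕ → ℕ,
      (∀ b ≤ J, st n (b * wc) ≤ τ b ∧ τ b < st n (b * wc + wc - 1)) → ∀ P : ℕ → ℝ, Lev J P →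
      |∫ G, eE Q (A Q (fil C nc n) (xs nc n)
          (fun ω => ∑ k, h k (∑ i, G k i * (C.x ω.1 i / Real.sqrt N))) 0) ∂(gam r N) -
        ∑ k, Th J (h k) P| ≤
        ε + D * DevN C nc n Q J τ P +
          15 * (r * K) ^ 2 * Real.exp (4 * (r * K)) / ((J : ℝ) + 1) := by
  obtain ⟨D, hD, hmain⟩ := cav_rows (Fin r) J (c := max K 0) (le_max_right _ _)
    (fun _ => max L 0) (fun _ _ => le_max_right _ _) hε
  refine ⟨D, hD, ?_⟩
  intro wc nc hwc hnc N n hN hn C Q hQ h hBL τ hτ P hP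
  rcases Nat.eq_zero_or_pos r with hr | hr
  · subst hr
    have e0 : ∀ G : Fin 0 → Fin N → ℝ, eE Q (A Q (fil C nc n) (xs nc n)
        (fun ω => ∑ k, h k (∑ i, G k i * (C.x ω.1 i / Real.sqrt N))) 0) = 0 := by
      intro G
      have e1 : A Q (fil C nc n) (xs nc n)
        (fun ω => ∑ k, h k (∑ i, G k i * (C.x ω.1 i / Real.sqrt N))) 0 = fun _ => 0 := by
        funext ω
        simp only [Finset.univ_eq_empty, Finset.sum_empty]
        exact A_const hQ (xs_expo nc n).pos 0 0 ω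
      rw [e1, eE_const hQ]
    rw [integral_congr_ae (ae_of_all _ e0)]
    simp only [integral_zero, Finset.univ_eq_empty, Finset.sum_empty, sub_zero, abs_zero]
    have h1 := DevS_nonneg hQ (fil C nc n) J (fun j => τ (min j J)) (xn C nc n) P
    rw [DevS_eq_DevN C nc n hN] at h1
    have h2 := mul_nonneg hD h1
    have h3 : 0 ≤ 15 * (((0 : ℕ) : ℝ) * K) ^ 2 * Real.exp (4 * (((0 : ℕ) : ℝ) * K)) /
      ((J : ℝ) + 1) := by positivity
    linarith
  have hK : 0 ≤ K := (abs_nonneg _).trans ((hBL ⟨0, hr⟩).bd 0)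
  have hmK : max K 0 = K := max_eq_left hK
  have key := hmain Q (fil C nc n) (xs nc n) (fun j => τ (min j J)) (1 / ((J : ℝ) + 1))
    (xn C nc n) P h hQ (fil_zero C nc n) (levels_xs nc n hn hwc hnc hτ)
    (sum_xn_sq C nc n hN) hP (fun k a => by rw [hmK]; exact (hBL k).bd a)
    (fun k R _ a b _ _ => ((hBL k).lip a b).trans
      (mul_le_mul_of_nonneg_right (le_max_left _ _) (abs_nonneg _)))
  rw [DevS_eq_DevN C nc n hN, hmK, Fintype.card_fin] at key
  have e : ∫ ζ, aE Q (fil C nc n) (xs nc n)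
      (fun ω => ∑ k, h k (∑ i, xn C nc n ω i * ζ (k, i))) ∂(gm (Fin r × Fin N)) =
      ∫ G, eE Q (A Q (fil C nc n) (xs nc n)
          (fun ω => ∑ k, h k (∑ i, G k i * (C.x ω.1 i / Real.sqrt N))) 0) ∂(gam r N) := by
    rw [show gam r N = Measure.pi fun _ : Fin r => gm (Fin N) from rfl]
    rw [← (gm_curry (Fin r) (Fin N)).integral_comp (MeasurableEquiv.measurableEmbedding _)]
    refine integral_congr_ae (ae_of_all _ fun ζ => ?_)
    unfold aE
    simp only [MeasurableEquiv.coe_curry, Function.curry]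
    congr 2
    funext ω
    refine Finset.sum_congr rfl fun k _ => ?_
    congr 1
    exact Finset.sum_congr rfl fun i _ => by unfold xn; ring
  rw [e] at key
  refine key.trans (le_of_eq ?_)
  ring

/-- **Node (5)**, one row. -/
theorem cav_th (J : ℕ) (K L : ℝ) {ε : ℝ} (hε : 0 < ε) :
    ∃ D : ℝ, 0 ≤ D ∧ ∀ (wc nc : ℕ), 2 ≤ wc → nc + 1 = (J + 1) * wc →
      ∀ (N n : ℕ), 0 < N → 0 < n → ∀ (C : Cfg N) (Q : Om C nc n → ℝ), IsProb Q →
      ∀ (h : ℝ → ℝ), BL K L h → ∀ τ : ℕ → ℕ,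
      (∀ b ≤ J, st n (b * wc) ≤ τ b ∧ τ b < st n (b * wc + wc - 1)) → ∀ P : ℕ → ℝ, Lev J P →
      |∫ g, eE Q (A Q (fil C nc n) (xs nc n)
          (fun ω => h (∑ i, g i * (C.x ω.1 i / Real.sqrt N))) 0)
            ∂(Measure.pi fun _ : Fin N => gaussianReal 0 1) - Th J h P| ≤
        ε + D * DevN C nc n Q J τ P + 15 * K ^ 2 * Real.exp (4 * K) / ((J : ℝ) + 1) := by
  obtain ⟨D, hD, hmain⟩ := cav_th_rows 1 J K L hε
  refine ⟨D, hD, ?_⟩
  intro wc nc hwc hnc N n hN hn C Q hQ h hBL τ hτ P hP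
  have key := hmain wc nc hwc hnc N n hN hn C Q hQ (fun _ => h) (fun _ => hBL) τ hτ P hP
  simp only [Fin.sum_univ_one, Fin.isValue, Nat.cast_one, one_mul] at key
  have e : ∫ G, eE Q (A Q (fil C nc n) (xs nc n)
          (fun ω => h (∑ i, G 0 i * (C.x ω.1 i / Real.sqrt N))) 0) ∂(gam 1 N) =
      ∫ g, eE Q (A Q (fil C nc n) (xs nc n)
          (fun ω => h (∑ i, g i * (C.x ω.1 i / Real.sqrt N))) 0)
            ∂(Measure.pi fun _ : Fin N => gaussianReal 0 1) := by
    have hmp := measurePreserving_funUnique (gm (Fin N)) (Fin 1)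
    rw [show gam 1 N = Measure.pi fun _ : Fin 1 => gm (Fin N) from rfl,
      show (Measure.pi fun _ : Fin N => gaussianReal 0 1) = gm (Fin N) from rfl,
      ← hmp.integral_comp (MeasurableEquiv.measurableEmbedding _)]
    rfl
  rw [e] at key
  exact key

end inst

end

end Crest.Agent.R146.Cav5_47
private theorem rz_bcac4f175b : type_of% @_root_.Crest.Agent.R146.Cav5_47.rc.eq_def := @_root_.Crest.Agent.R146.Cav5_47.rc.eq_def -- L31
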