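import Crest.Agent.R146.CavInc_769

/-!
Row 146, S0206, node CAV (helper769), part 2: the Prop `S6U_988.CAV` from
(5b) = Gaussian cavity for one row under an arbitrary law, and
(T) = transfer of the pair form through a bounded tilt.
-/

set_option autoImplicit false

namespace Crest.Agent.R146.CavAsm_769

open Finset MeasureTheory ProbabilityTheory Crest.Agent.R141
open Crest.Agent.R146.S6Def_988 Crest.Agent.R146.S6U_988 Crest.Agent.R146.CavInc_769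
open Crest.Agent.R164.CavG (pur gm)

noncomputable section

/-- normalised positions -/
def xn {N : ℕ} (C : Cfg N) (nc n : ℕ) (ω : Om C nc n) (i : Fin N) : ℝ := C.x ω.1 i / Real.sqrt N

/-- total deviation of the overlaps of the conditional means and of the purities. -/
def DevS {N : ℕ} (C : Cfg N) (nc n : ℕ) (Q0 : Om C nc n → ℝ) (J : ℕ) (τ : ℕ → ℕ) (P : ℕ → ℝ) : ℝ :=
  ∑ b ∈ range (J + 1), (eE Q0 (fun ω =>
      |∑ i, (cE Q0 ((fil C nc n).F (τ b)) (fun a => xn C nc n a i) ω) ^ 2 - P b|) +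
    pur Q0 ((fil C nc n).F (τ b)) (xn C nc n))


/-- (T): transfer. -/
def TRANS1 (Cv : ℝ → ℝ) : Prop := ∀ {Ω κ : Type} [Fintype Ω] [Fintype κ] (P : Ω → ℝ)
  (𝓕 : Filt Ω) (x : ℕ → ℝ) (V : Ω → ℝ) (v : ℝ) (k : ℕ) (X : Ω → κ → ℝ) (c : ℝ),
  IsProb P → IsExpo x → (∀ ω, |V ω| ≤ v) → (∀ ω, ∑ i, X ω i ^ 2 ≤ 1) →
  eE P (fun ω => |∑ i, (cE P (𝓕.F k) (fun a => X a i) ω) ^ 2 - c|) ≤
    Cv v * pE (tl P 𝓕 x V) (𝓕.F k) (fun a b => |∑ i, X a i * X b i - c|) ∧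
  pur P (𝓕.F k) X ≤
    Cv v * pE (tl P 𝓕 x V) (𝓕.F k) (fun a b => |∑ i, X a i * X b i - c|)

section

variable {N : ℕ} {C : Cfg N} {nc n : ℕ}

theorem xn_sq_sum (hN : 0 < N) (ω : Om C nc n) : ∑ i, xn C nc n ω i ^ 2 = 1 := by
  unfold xn
  have hN' : (0 : ℝ) < N := by exact_mod_cast hN
  simp_rw [div_pow, Real.sq_sqrt hN'.le]
  rw [← Finset.sum_div, C.hx, div_self hN'.ne']

theorem ovl_eq (a b : Om C nc n) : ovl C nc n a b = ∑ i, xn C nc n a i * xn C nc n b i := by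
  unfold ovl xn
  rw [Finset.mul_sum]
  refine Finset.sum_congr rfl fun i _ => ?_
  have h : Real.sqrt (N : ℝ) * Real.sqrt N = N := Real.mul_self_sqrt (Nat.cast_nonneg N)
  rw [div_mul_div_comm, h]; ring

theorem cE_xn (Q : Om C nc n → ℝ) (r : Setoid (Om C nc n)) (i : Fin N) (ω : Om C nc n) :
    cE Q r (fun a => xn C nc n a i) ω = cE Q r (fun w => C.x w.1 i) ω / Real.sqrt N := by
  have : (fun a : Om C nc n => xn C nc n a i) = fun a => (Real.sqrt N)⁻¹ * C.x a.1 i := by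
    funext a; unfold xn; ring
  rw [this, cE_smul]; ring

/-- the summand of `Rk` -/
theorem Rk_summand (Q : Om C nc n → ℝ) (r : Setoid (Om C nc n)) (ω : Om C nc n) :
    (N : ℝ)⁻¹ * ∑ i, (cE Q r (fun w => C.x w.1 i) ω) ^ 2 =
      ∑ i, (cE Q r (fun a => xn C nc n a i) ω) ^ 2 := by
  rw [Finset.mul_sum]
  refine Finset.sum_congr rfl fun i _ => ?_
  rw [cE_xn, div_pow, Real.sq_sqrt (Nat.cast_nonneg N)]; ring

/-- the value at a realisation -/
def rk {M : ℕ} (C : Cfg N) (nc n : ℕ) (f : ℕ → ℝ → ℝ) (G : Fin M → Fin N → ℝ) (s : Fin nc → ℝ)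
    (k : ℕ) : ℝ :=
  eE (QQ C nc n f G s) (fun ω =>
    ∑ i, (cE (QQ C nc n f G s) ((fil C nc n).F k) (fun a => xn C nc n a i) ω) ^ 2)

theorem Rk_eq (f : ℕ → ℝ → ℝ) (M : ℕ) (s : Fin nc → ℝ) (k : ℕ) :
    Rk C nc n f M s k = ∫ G, rk (M := M) C nc n f G s k ∂(gam M N) := by
  unfold Rk rk
  refine integral_congr_ae (ae_of_all _ fun G => ?_)
  show eE _ _ = eE _ _
  congr 1
  funext ω
  exact Rk_summand _ _ ω

theorem rk_nonneg {M : ℕ} (f : ℕ → ℝ → ℝ) (G : Fin M → Fin N → ℝ) (s : Fin nc → ℝ) (k : ℕ) :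
    0 ≤ rk C nc n f G s k :=
  eE_nonneg (QQ_isProb f G s) fun _ => Finset.sum_nonneg fun _ _ => sq_nonneg _

theorem rk_le_one (hN : 0 < N) {M : ℕ} (f : ℕ → ℝ → ℝ) (G : Fin M → Fin N → ℝ) (s : Fin nc → ℝ)
    (k : ℕ) : rk C nc n f G s k ≤ 1 := by
  have hP := QQ_isProb (C := C) (n := n) f G s
  unfold rk
  have h1 : ∀ ω, ∑ i, (cE (QQ C nc n f G s) ((fil C nc n).F k) (fun a => xn C nc n a i) ω) ^ 2 ≤
      cE (QQ C nc n f G s) ((fil C nc n).F k) (fun a => ∑ i, xn C nc n a i ^ 2) ω := by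
    intro ω
    rw [cE_sum]
    exact Finset.sum_le_sum fun i _ => cE_sq_le hP _ _ _
  refine eE_le_of_le hP fun ω => (h1 ω).trans ?_
  exact cE_le_of_le hP (fun a => (xn_sq_sum hN a).le) ω

theorem rk_mono {M : ℕ} (f : ℕ → ℝ → ℝ) (G : Fin M → Fin N → ℝ) (s : Fin nc → ℝ) {k l : ℕ}
    (hkl : k ≤ l) : rk C nc n f G s k ≤ rk C nc n f G s l := by
  have hP := QQ_isProb (C := C) (n := n) f G s
  unfold rk
  rw [← eE_cE hP ((fil C nc n).F k) (fun ω =>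
    ∑ i, (cE (QQ C nc n f G s) ((fil C nc n).F l) (fun a => xn C nc n a i) ω) ^ 2)]
  refine eE_mono hP fun ω => ?_
  rw [cE_sum]
  refine Finset.sum_le_sum fun i _ => ?_
  rw [← cE_tower hP ((fil C nc n).anti' hkl) (fun a => xn C nc n a i) ω]
  exact cE_sq_le hP _ _ _

theorem meas_rk {M : ℕ} {f : ℕ → ℝ → ℝ} (hf : ∀ a, Measurable (f a)) (s : Fin nc → ℝ) (k : ℕ) :
    Measurable fun G : Fin M → Fin N → ℝ => rk C nc n f G s k := by
  unfold rk
  refine meas_eE (fun ω => meas_QQ hf s ω) fun ω => ?_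
  refine Finset.measurable_sum _ fun i _ => Measurable.pow_const ?_ 2
  exact meas_cE (f := fun (_ : Fin M → Fin N → ℝ) a => xn C nc n a i) (fun ω => meas_QQ hf s ω)
    (fun _ => measurable_const) _ _

theorem integrable_rk (hN : 0 < N) {M : ℕ} {f : ℕ → ℝ → ℝ} (hf : ∀ a, Measurable (f a))
    (s : Fin nc → ℝ) (k : ℕ) :
    Integrable (fun G : Fin M → Fin N → ℝ => rk C nc n f G s k) (gam M N) :=
  Integrable.of_bound (C := 1) (meas_rk hf s k).aestronglyMeasurable (ae_of_all _ fun G => by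
    rw [Real.norm_eq_abs, abs_of_nonneg (rk_nonneg f G s k)]
    exact rk_le_one hN f G s k)

theorem Rk_nonneg (f : ℕ → ℝ → ℝ) (M : ℕ) (s : Fin nc → ℝ) (k : ℕ) :
    0 ≤ Rk C nc n f M s k := by
  rw [Rk_eq]; exact integral_nonneg fun G => rk_nonneg f G s k

theorem Rk_le_one (hN : 0 < N) {f : ℕ → ℝ → ℝ} (hf : ∀ a, Measurable (f a)) (M : ℕ)
    (s : Fin nc → ℝ) (k : ℕ) : Rk C nc n f M s k ≤ 1 := by
  rw [Rk_eq]
  refine (integral_mono (integrable_rk hN hf s k) (integrable_const 1)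
    fun G => rk_le_one hN f G s k).trans ?_
  simp

theorem Rk_mono (hN : 0 < N) {f : ℕ → ℝ → ℝ} (hf : ∀ a, Measurable (f a)) (M : ℕ)
    (s : Fin nc → ℝ) {k l : ℕ} (hkl : k ≤ l) : Rk C nc n f M s k ≤ Rk C nc n f M s l := by
  rw [Rk_eq, Rk_eq]
  exact integral_mono (integrable_rk hN hf s k) (integrable_rk hN hf s l)
    fun G => rk_mono f G s hkl

/-- the levels at a skeleton are admissible. -/
theorem lev_Rk (hN : 0 < N) {f : ℕ → ℝ → ℝ} (hf : ∀ a, Measurable (f a)) (M : ℕ)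
    (s : Fin nc → ℝ) {J : ℕ} {τ : ℕ → ℕ} (hτ : ∀ i j, i ≤ j → j ≤ J → τ i ≤ τ j) :
    Lev J (fun b => Rk C nc n f M s (τ b)) where
  nonneg := Rk_nonneg _ _ _ _
  mono i j hij hj := Rk_mono hN hf M s (hτ i j hij hj)
  le_one := Rk_le_one hN hf M s _

theorem st_mono {a b : ℕ} (h : a ≤ b) : st n a ≤ st n b := Nat.mul_le_mul_right n h

theorem tau_mono {J wc : ℕ} (hwc : 1 ≤ wc) {τ : ℕ → ℕ}
    (h : ∀ b ≤ J, st n (b * wc) ≤ τ b ∧ τ b < st n (b * wc + wc - 1)) :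
    ∀ i j, i ≤ j → j ≤ J → τ i ≤ τ j := by
  intro i j hij hj
  rcases Nat.eq_or_lt_of_le hij with rfl | hlt
  · exact le_refl _
  · have h1 := (h i (hij.trans hj)).2
    have h2 := (h j hj).1
    have h3 : i * wc + wc - 1 ≤ j * wc := by
      have : (i + 1) * wc ≤ j * wc := Nat.mul_le_mul_right wc hlt
      have e : (i + 1) * wc = i * wc + wc := by ring
      omega
    exact (h1.le.trans (st_mono h3)).trans h2

/-! ### the pair form -/

/-- the pair form at a realisation -/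
def pf {M : ℕ} (C : Cfg N) (nc n : ℕ) (f : ℕ → ℝ → ℝ) (s : Fin nc → ℝ) (k : ℕ) (c : ℝ)
    (G : Fin M → Fin N → ℝ) : ℝ :=
  pE (QQ C nc n f G s) ((fil C nc n).F k) (fun a b => |ovl C nc n a b - c|)

theorem meas_pf {M : ℕ} {f : ℕ → ℝ → ℝ} (hf : ∀ a, Measurable (f a)) (s : Fin nc → ℝ) (k : ℕ)
    (c : ℝ) : Measurable (pf (M := M) C nc n f s k c) := by
  unfold pf pE
  refine meas_eE (fun ω => meas_QQ hf s ω) fun ω => ?_
  exact meas_cE (f := fun (_ : Fin M → Fin N → ℝ) b => |ovl C nc n ω b - c|)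
    (fun ω => meas_QQ hf s ω) (fun _ => measurable_const) _ _

theorem pf_nonneg {M : ℕ} (f : ℕ → ℝ → ℝ) (s : Fin nc → ℝ) (k : ℕ) (c : ℝ)
    (G : Fin M → Fin N → ℝ) : 0 ≤ pf C nc n f s k c G :=
  eE_nonneg (QQ_isProb f G s) fun _ => cE_nonneg (QQ_isProb f G s) (fun _ => abs_nonneg _) _

theorem pf_bdd (f : ℕ → ℝ → ℝ) (s : Fin nc → ℝ) (k : ℕ) (c : ℝ) :
    ∃ B : ℝ, ∀ (M : ℕ) (G : Fin M → Fin N → ℝ), |pf C nc n f s k c G| ≤ B := by
  refine ⟨∑ a : Om C nc n, ∑ b : Om C nc n, |ovl C nc n a b - c|, fun M G => ?_⟩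
  rw [abs_of_nonneg (pf_nonneg f s k c G)]
  unfold pf pE
  refine eE_le_of_le (QQ_isProb f G s) fun a => ?_
  refine (cE_le_of_le (QQ_isProb f G s) (c := ∑ b : Om C nc n, |ovl C nc n a b - c|)
    (fun b => ?_) a).trans ?_
  · exact Finset.single_le_sum (f := fun b : Om C nc n => |ovl C nc n a b - c|)
      (fun _ _ => abs_nonneg _) (Finset.mem_univ b)
  · exact Finset.single_le_sum (f := fun a : Om C nc n => ∑ b : Om C nc n, |ovl C nc n a b - c|)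
      (fun _ _ => Finset.sum_nonneg fun _ _ => abs_nonneg _) (Finset.mem_univ a)

theorem integrable_pf {M : ℕ} {f : ℕ → ℝ → ℝ} (hf : ∀ a, Measurable (f a)) (s : Fin nc → ℝ)
    (k : ℕ) (c : ℝ) : Integrable (pf (M := M) C nc n f s k c) (gam M N) := by
  obtain ⟨B, hB⟩ := pf_bdd (C := C) (nc := nc) (n := n) f s k c
  exact Integrable.of_bound (C := B) (meas_pf hf s k c).aestronglyMeasurable
    (ae_of_all _ fun G => by rw [Real.norm_eq_abs]; exact hB M G)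

/-- the error integrated over the new row bounds the deviation in the system without it. -/
theorem DevS_le {Cv : ℝ → ℝ} (hT : TRANS1 Cv) {K : ℝ} (hN : 0 < N) {M : ℕ} {f : ℕ → ℝ → ℝ}
    (hK : ∀ a x, |f a x| ≤ K) (s : Fin nc → ℝ) (J : ℕ) (τ : ℕ → ℕ) (P : ℕ → ℝ)
    (G : Fin M → Fin N → ℝ) (g : Fin N → ℝ) :
    DevS C nc n (QQ C nc n f G s) J τ P ≤ ∑ b ∈ range (J + 1), 2 * Cv K *
      pf C nc n f s (τ b) (P b)
        (Fin.snoc (α := fun _ => Fin N → ℝ) G g : Fin (M + 1) → Fin N → ℝ) := by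
  unfold DevS
  refine Finset.sum_le_sum fun b _ => ?_
  have h := hT (κ := Fin N) (QQ C nc n f G s) (fil C nc n) (xs nc n) (VV C nc n (f M) g) K (τ b)
    (xn C nc n) (P b) (QQ_isProb f G s) (xs_expo nc n) (fun ω => hK _ _)
    (fun ω => (xn_sq_sum hN ω).le)
  have e : pf C nc n f s (τ b) (P b)
        (Fin.snoc (α := fun _ => Fin N → ℝ) G g : Fin (M + 1) → Fin N → ℝ) =
      pE (tl (QQ C nc n f G s) (fil C nc n) (xs nc n) (VV C nc n (f M) g))
        ((fil C nc n).F (τ b)) (fun a c => |∑ i, xn C nc n a i * xn C nc n c i - P b|) := by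
    unfold pf
    rw [QQ_snoc]
    simp_rw [ovl_eq]
  rw [e]
  linarith [h.1, h.2]


end

end

end Crest.Agent.R146.CavAsm_769
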