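import Crest.Agent.R146.StepDef_791
import Crest.Agent.R146.SG_534

/-!
Row 146 (PT-STEP, helper534): the cells of a step datum, the density `pd A x0 t x`, and the
exponentials `Gz A z t = exp (z ψ(t,·))` on a cell.
-/

set_option autoImplicit false

namespace Crest.Agent.R146.Cell_534

open MeasureTheory ProbabilityTheory Filter Topology Set
open Crest.ProbabilityR.InvariantGlass
open Crest.Agent.R146.Hg_534 Crest.Agent.R146.PB_534 Crest.Agent.R146.GG_534 Crest.Agent.R146.SG_534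
open Crest.Agent.R146.StepDef_791

noncomputable section

theorem gaussOp_zero {z : ℝ} (hz : z ≠ 0) (f : ℝ → ℝ) : gaussOp z 0 f = f := by
  funext x
  unfold gaussOp
  rw [if_neg hz]
  simp [hz]

theorem Psc_self {cs : Cells} {T : ℝ} (h : Valid T cs) (f : ℝ → ℝ) : Psc T f cs T = f := by
  cases cs with
  | nil => rfl
  | cons c cs =>
    unfold Psc
    rw [if_pos h.1.le, sub_self, gaussOp_zero h.2.1.ne']

theorem Dc_self {cs : Cells} {T : ℝ} (h : Valid T cs) (d : ℝ) : Dc T d cs T = d := by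
  cases cs with
  | nil => rfl
  | cons c cs =>
    unfold Dc
    rw [if_pos h.1.le]
    ring

/-- `[a,b]` is a cell of `A` with weight `z` -/
structure IsCell (A : SD) (a b z : ℝ) : Prop where
  a0 : 0 ≤ a
  ab : a < b
  bT : b ≤ A.T
  z0 : 0 < z
  psi_eq : ∀ t ∈ Icc a b, A.psi t = gaussOp z (b - t) (A.psi b)
  D_eq : ∀ t ∈ Icc a b, A.D t = A.D b + z * (b - t)
  m_eq : ∀ t ∈ Ico a b, A.m t = z
  ml_eq : ∀ t ∈ Ioc a b, A.ml t = z

/-- `cs` is the list of the cells of `A` in `[0,T']` -/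
structure Suf (A : SD) (T' : ℝ) (cs : Cells) : Prop where
  T'T : T' ≤ A.T
  val : Valid T' cs
  psi_eq : ∀ t ≤ T', A.psi t = Psc T' (A.psi T') cs t
  D_eq : ∀ t ≤ T', A.D t = Dc T' (A.D T') cs t
  m_eq : ∀ t < T', A.m t = mrc T' cs t
  ml_eq : ∀ t ≤ T', A.ml t = mlc T' cs t

theorem Suf.init (A : SD) : Suf A A.T A.cs where
  T'T := le_rfl
  val := A.hv
  psi_eq := by
    intro t _
    have h1 : A.psi A.T = startPsi A.d A.dl := Psc_self A.hv _
    rw [h1]
    rfl
  D_eq := by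
    intro t ht
    have h1 : A.D A.T = A.d := by
      unfold SD.D
      rw [if_pos le_rfl, Dc_self A.hv]
    rw [h1]
    unfold SD.D
    rw [if_pos ht]
  m_eq := fun _ _ => rfl
  ml_eq := fun _ _ => rfl

theorem Suf.cell {A : SD} {T' : ℝ} {c : ℝ × ℝ} {cs : Cells} (h : Suf A T' (c :: cs)) :
    IsCell A c.1 T' c.2 where
  a0 := Valid.nonneg h.val.2.2
  ab := h.val.1
  bT := h.T'T
  z0 := h.val.2.1
  psi_eq := by
    intro t ht
    rw [h.psi_eq t ht.2]
    unfold Psc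
    rw [if_pos ht.1]
  D_eq := by
    intro t ht
    rw [h.D_eq t ht.2]
    unfold Dc
    rw [if_pos ht.1]
  m_eq := by
    intro t ht
    rw [h.m_eq t ht.2]
    unfold mrc
    rw [if_pos ht.1, if_pos ht.2]
  ml_eq := by
    intro t ht
    rw [h.ml_eq t ht.2]
    unfold mlc
    rw [if_pos ht.1, if_pos ht.2]

theorem Suf.tail {A : SD} {T' : ℝ} {c : ℝ × ℝ} {cs : Cells} (h : Suf A T' (c :: cs)) :
    Suf A c.1 cs where
  T'T := h.val.1.le.trans h.T'T
  val := h.val.2.2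
  psi_eq := by
    intro t ht
    rcases lt_or_eq_of_le ht with h1 | h1
    · have h2 := h.psi_eq t (ht.trans h.val.1.le)
      unfold Psc at h2
      rw [if_neg (not_le.2 h1)] at h2
      rw [h2, h.cell.psi_eq c.1 ⟨le_rfl, h.val.1.le⟩]
    · rw [h1, Psc_self h.val.2.2]
  D_eq := by
    intro t ht
    rcases lt_or_eq_of_le ht with h1 | h1
    · have h2 := h.D_eq t (ht.trans h.val.1.le)
      unfold Dc at h2
      rw [if_neg (not_le.2 h1)] at h2
      rw [h2, h.cell.D_eq c.1 ⟨le_rfl, h.val.1.le⟩]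
    · rw [h1, Dc_self h.val.2.2]
  m_eq := by
    intro t ht
    have h2 := h.m_eq t (ht.trans h.val.1)
    unfold mrc at h2
    rw [if_neg (not_le.2 ht)] at h2
    exact h2
  ml_eq := by
    intro t ht
    have h2 := h.ml_eq t (ht.trans h.val.1.le)
    unfold mlc at h2
    rw [if_neg (not_lt.2 ht)] at h2
    exact h2

/-- the exponential -/
def Gz (A : SD) (z t x : ℝ) : ℝ := Real.exp (z * A.psi t x)

/-- recursive definition of the density -/
def pcs (A : SD) (x0 : ℝ) : Cells → ℝ → ℝ → ℝ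
  | [] => fun _ _ => 0
  | c :: cs => fun t x =>
      if t ≤ c.1 then pcs A x0 cs t x
      else if c.1 ≤ 0 then Gz A c.2 t x * (gaussianPDFReal x0 (Real.toNNReal t) x / Gz A c.2 0 x0)
      else Gz A c.2 t x * H (Real.sqrt (t - c.1)) (fun y => pcs A x0 cs c.1 y / Gz A c.2 c.1 y) x

/-- the density of the law at time `t`, started at `x0` at time `0` -/
def pd (A : SD) (x0 t x : ℝ) : ℝ := pcs A x0 A.cs t x

/-- the density on a cell -/
structure PCell (A : SD) (x0 a b z : ℝ) : Prop where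
  zero : a = 0 → ∀ t ∈ Ioc a b, ∀ x,
    pd A x0 t x = Gz A z t x * (gaussianPDFReal x0 (Real.toNNReal t) x / Gz A z 0 x0)
  pos : 0 < a → ∀ t ∈ Ioc a b, ∀ x,
    pd A x0 t x = Gz A z t x * H (Real.sqrt (t - a)) (fun y => pd A x0 a y / Gz A z a y) x

theorem cells_induct_aux {A : SD} {x0 : ℝ} {Q : ℝ → Prop} (h0 : Q 0)
    (hs : ∀ a b z, IsCell A a b z → PCell A x0 a b z → Q a → Q b) :
    ∀ (cs : Cells) (T' : ℝ), Suf A T' cs → (∀ t ≤ T', pd A x0 t = pcs A x0 cs t) → Q T'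
  | [], T', h, _ => by
      have : T' = 0 := h.val
      rw [this]
      exact h0
  | c :: cs, T', h, hp => by
      have hc := h.cell
      have hp' : ∀ t ≤ c.1, pd A x0 t = pcs A x0 cs t := by
        intro t ht
        rw [hp t (ht.trans h.val.1.le)]
        funext x
        rw [pcs]
        beta_reduce
        rw [if_pos ht]
      refine hs c.1 T' c.2 hc ⟨?_, ?_⟩ (cells_induct_aux h0 hs cs c.1 h.tail hp')
      · intro ha t ht x
        rw [hp t ht.2]
        rw [pcs]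
        beta_reduce
        rw [if_neg (not_le.2 ht.1), if_pos ha.le]
      · intro ha t ht x
        rw [hp t ht.2]
        rw [pcs]
        beta_reduce
        rw [if_neg (not_le.2 ht.1), if_neg (not_le.2 ha), hp' c.1 le_rfl]

/-- **induction over the cells, from left to right** -/
theorem cells_induct (A : SD) (x0 : ℝ) (Q : ℝ → Prop) (h0 : Q 0)
    (hs : ∀ a b z, IsCell A a b z → PCell A x0 a b z → Q a → Q b) : Q A.T :=
  cells_induct_aux h0 hs A.cs A.T (Suf.init A) (fun _ _ => rfl)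

/-- every positive time is in a left-open cell -/
theorem exists_cell_l (A : SD) (x0 : ℝ) : ∀ t ∈ Ioc 0 A.T, ∃ a b z, IsCell A a b z ∧
    PCell A x0 a b z ∧ t ∈ Ioc a b := by
  refine cells_induct A x0 (fun s => ∀ t ∈ Ioc 0 s, ∃ a b z, IsCell A a b z ∧
    PCell A x0 a b z ∧ t ∈ Ioc a b) ?_ ?_
  · intro t ht
    exact absurd ht.1 (not_lt.2 ht.2)
  · intro a b z hc hp ih t ht
    rcases le_or_gt t a with h | h
    · exact ih t ⟨ht.1, h⟩
    · exact ⟨a, b, z, hc, hp, h, ht.2⟩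

/-- every time `< T` is in a right-open cell -/
theorem exists_cell_r (A : SD) (x0 : ℝ) : ∀ t ∈ Ico 0 A.T, ∃ a b z, IsCell A a b z ∧
    PCell A x0 a b z ∧ t ∈ Ico a b := by
  refine cells_induct A x0 (fun s => ∀ t ∈ Ico 0 s, ∃ a b z, IsCell A a b z ∧
    PCell A x0 a b z ∧ t ∈ Ico a b) ?_ ?_
  · intro t ht
    exact absurd ht.2 (not_lt.2 ht.1)
  · intro a b z hc hp ih t ht
    rcases lt_or_ge t a with h | h
    · exact ih t ⟨ht.1, h⟩
    · exact ⟨a, b, z, hc, hp, h, ht.2⟩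

/-! ### facts on a cell -/

section cell

variable {A : SD} {a b z : ℝ}

theorem IsCell.mem (hc : IsCell A a b z) {t : ℝ} (ht : t ∈ Icc a b) : t ∈ Icc 0 A.T :=
  ⟨hc.a0.trans ht.1, ht.2.trans hc.bT⟩

theorem IsCell.aI (hc : IsCell A a b z) : a ∈ Icc a b := ⟨le_rfl, hc.ab.le⟩
theorem IsCell.bI (hc : IsCell A a b z) : b ∈ Icc a b := ⟨hc.ab.le, le_rfl⟩

theorem Gz_pos (A : SD) (z t x : ℝ) : 0 < Gz A z t x := Real.exp_pos _

theorem Gz_sm (hB : Back A) {z : ℝ} (hz : 0 ≤ z) {t : ℝ} (ht : t ∈ Icc 0 A.T) :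
    Sm (Gz A z t) := by
  refine Sm.exp ((hB.sm t ht).const_mul z) (c := 0) fun x => ?_
  exact mul_nonpos_of_nonneg_of_nonpos hz (hB.psi_nonpos t ht x)

theorem Gz_le_one (hB : Back A) {z : ℝ} (hz : 0 ≤ z) {t : ℝ} (ht : t ∈ Icc 0 A.T) (x : ℝ) :
    Gz A z t x ≤ 1 := by
  unfold Gz
  rw [← Real.exp_zero]
  exact Real.exp_le_exp.2 (mul_nonpos_of_nonneg_of_nonpos hz (hB.psi_nonpos t ht x))

/-- `ψ_x = u / D` -/
theorem psi_x (hB : Back A) {t : ℝ} (ht : t ∈ Icc 0 A.T) (x : ℝ) :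
    HasDerivAt (A.psi t) (A.u t x / A.D t) x := by
  have h := (hB.sm t ht).hd x
  have e : A.u t x / A.D t = _root_.deriv (A.psi t) x := by
    unfold SD.u
    field_simp [(A.D_pos t).ne']
  rw [e]
  exact h

theorem Gz_x (hB : Back A) (z : ℝ) {t : ℝ} (ht : t ∈ Icc 0 A.T) (x : ℝ) :
    HasDerivAt (Gz A z t) (z / A.D t * A.u t x * Gz A z t x) x := by
  have h := ((psi_x hB ht x).const_mul z).exp
  refine h.congr_deriv ?_
  unfold Gz
  ring

theorem Gz_cell (hB : Back A) (hc : IsCell A a b z) {t : ℝ} (ht : t ∈ Icc a b) :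
    Gz A z t = H (Real.sqrt (b - t)) (Gz A z b) := by
  funext x
  have hz := hc.z0.ne'
  have hpos : 0 < H (Real.sqrt (b - t)) (Gz A z b) x :=
    Hg_534.H_pos (Gz_sm hB hc.z0.le (hc.mem hc.bI)).pg.eg (fun y => Gz_pos A z b y) _ _
  conv_lhs => unfold Gz
  rw [hc.psi_eq t ht]
  unfold gaussOp
  rw [if_neg hz, ← mul_assoc, mul_inv_cancel₀ hz, one_mul]
  have e : ∫ g, Real.exp (z * A.psi b (x + Real.sqrt (b - t) * g)) ∂gaussianReal 0 1 =
      H (Real.sqrt (b - t)) (Gz A z b) x := rfl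
  rw [e, Real.exp_log hpos]

/-- semigroup property on the cell -/
theorem Gz_semi (hB : Back A) (hc : IsCell A a b z) {s t : ℝ} (hs : s ∈ Icc a b)
    (ht : t ∈ Icc a b) (hst : s ≤ t) : H (Real.sqrt (t - s)) (Gz A z t) = Gz A z s := by
  funext x
  rw [Gz_cell hB hc ht, Gz_cell hB hc hs]
  have h1 := GG.of_eg (Gz_sm hB hc.z0.le (hc.mem hc.bI)).pg.eg
  refine H_semigroup le_rfl h1 ?_ (by norm_num) x
  rw [Real.sq_sqrt (by linarith [hs.2]), Real.sq_sqrt (by linarith), Real.sq_sqrt (by linarith [ht.2])]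
  ring

end cell

end

end Crest.Agent.R146.Cell_534
private theorem rz_b0922e1541 : type_of% @_root_.Crest.Agent.R146.Cell_534.pcs.eq_def := @_root_.Crest.Agent.R146.Cell_534.pcs.eq_def -- L144
private theorem rz_e9453f929b : type_of% @_root_.Crest.Agent.R146.Cell_534.pcs.eq_1 := @_root_.Crest.Agent.R146.Cell_534.pcs.eq_1 -- L144
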