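import Crest.Agent.R146.S6Def_988

/-!
Row 146, statement S0206: the NODES of the upper bound and of the literal layer, as exact Props
(helper988).  Nothing is proved here.  Notation of `S6Def_988`.
-/

set_option autoImplicit false

namespace Crest.Agent.R146.S6U_988

open Finset MeasureTheory ProbabilityTheory Crest.Agent.R141
open Crest.Agent.R146.S6Def_988
open Crest.ProbabilityR.Perceptron

noncomputable section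

/-! ### Literal layer -/

/-- (LIT) the literal expected pressure is `pN`. -/
def LIT : Prop := ∀ (N : ℕ) (α β : ℝ) (φ : ℝ → ℝ), Continuous φ → (∃ K, ∀ x, |φ x| ≤ K) →
  expectedPressure N α β φ = pN N (fun _ x => β * φ x) (numPatterns N α)


/-- (MONOM) the pressure is Lipschitz in the number of rows. -/
def PM : Prop := ∀ (N : ℕ) (f : ℕ → ℝ → ℝ) (K : ℝ) (M M' : ℕ), (∀ a, Measurable (f a)) →
  (∀ a x, |f a x| ≤ K) → |pN N f M - pN N f M'| ≤ K * |(M : ℝ) - M'| / N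

/-- (CHG) change of the row functions on the pressure side: `|f - f'| ≤ δ` on `[-R, R]`. -/
def CHG : Prop := ∀ K : ℝ, ∀ ε : ℝ, 0 < ε → ∃ R δ : ℝ, 0 < R ∧ 0 < δ ∧
  ∀ (N : ℕ) (f f' : ℕ → ℝ → ℝ) (M : ℕ), 0 < N → (∀ a, Measurable (f a)) →
  (∀ a, Measurable (f' a)) →
  (∀ a x, |f a x| ≤ K) → (∀ a x, |f' a x| ≤ K) → (∀ a x, |x| ≤ R → |f a x - f' a x| ≤ δ) →
  |pN N f M - pN N f' M| ≤ ε * M / N

/-- (SMOOTH) smooth approximation of a bounded continuous function. -/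
def SMOOTH : Prop := ∀ (f : ℝ → ℝ) (K : ℝ), Continuous f → (∀ x, |f x| ≤ K) → ∀ R δ : ℝ, 0 < δ →
  ∃ f' : ℝ → ℝ, (∀ n : ℕ, ContDiff ℝ n f') ∧ (∀ x, |f' x| ≤ K) ∧ (∀ x, |x| ≤ R → |f x - f' x| ≤ δ) ∧
    ∀ k : ℕ, ∃ C, ∀ x, |iteratedDeriv k f' x| ≤ C

/-- (DISC) existence of fine configuration spaces. -/
def DISC : Prop := ∀ N : ℕ, 0 < N → ∀ δ : ℝ, 0 < δ → ∃ C : Cfg N, Near C δ

/-- the averaged pressure of a finite configuration space -/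
def pC {N : ℕ} (C : Cfg N) (f : ℕ → ℝ → ℝ) (M : ℕ) : ℝ :=
  (N : ℝ)⁻¹ * ∫ G, Real.log (∑ y, C.q y * Real.exp (rowE (M := M) f G (C.x y))) ∂(gam M N)

/-- (PLIM) the pressure of fine configuration spaces. -/
def PLIM : Prop := ∀ (N : ℕ) (K L : ℝ) (M : ℕ) (ε : ℝ), 0 < N → 0 < ε → ∃ δ : ℝ, 0 < δ ∧
  ∀ f : ℕ → ℝ → ℝ, (∀ a, BL K L (f a)) → ∀ C : Cfg N, Near C δ → |pN N f M - pC C f M| ≤ ε

/-! ### Control values -/

section ctl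

variable {Ω : Type} [MeasurableSpace Ω]

/-- (VID) control value of a step profile = nested recursion (`f` bounded, `C²` with bounded
derivatives suffices). -/
def VID : Prop := ∀ (Ω : Type) [MeasurableSpace Ω] (P : Measure Ω) [IsProbabilityMeasure P]
  (B : NNReal → Ω → ℝ) (hBm : ∀ t, Measurable (B t)), IsBrownianReal B P →
  ∀ (f : ℝ → ℝ), ContDiff ℝ 2 f → (∃ C, ∀ x, |f x| ≤ C ∧ |deriv f x| ≤ C ∧ |deriv (deriv f) x| ≤ C) →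
  ∀ (J : ℕ) (Pl : ℕ → ℝ), Lev J Pl → controlValue P B hBm f (mP J Pl) = Th J f Pl

/-- (VL) the control value is monotone and Lipschitz in the profile. -/
def VL : Prop := ∀ (Ω : Type) [MeasurableSpace Ω] (P : Measure Ω) [IsProbabilityMeasure P]
  (B : NNReal → Ω → ℝ) (hBm : ∀ t, Measurable (B t)), IsBrownianReal B P →
  ∀ (f : ℝ → ℝ) (K L : ℝ), BL K L f → ∀ m m' : OverlapProfile,
  (∀ t ∈ Set.Icc (0:ℝ) 1, m.toFun t ≤ m'.toFun t) →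
  controlValue P B hBm f m ≤ controlValue P B hBm f m' ∧
  controlValue P B hBm f m' ≤ controlValue P B hBm f m +
    L ^ 2 * ∫ t in (0:ℝ)..1, (m'.toFun t - m.toFun t)

/-- (VC) change of the function in the control value, uniformly in the profile. -/
def VC : Prop := ∀ K : ℝ, ∀ ε : ℝ, 0 < ε → ∃ R δ : ℝ, 0 < R ∧ 0 < δ ∧
  ∀ (Ω : Type) [MeasurableSpace Ω] (P : Measure Ω) [IsProbabilityMeasure P]
  (B : NNReal → Ω → ℝ) (hBm : ∀ t, Measurable (B t)), IsBrownianReal B P →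
  ∀ f f' : ℝ → ℝ, Continuous f → Continuous f' → (∀ x, |f x| ≤ K) → (∀ x, |f' x| ≤ K) →
  (∀ x, |x| ≤ R → |f x - f' x| ≤ δ) → ∀ m : OverlapProfile,
  |controlValue P B hBm f m - controlValue P B hBm f' m| ≤ ε

end ctl

/-! ### The deterministic functionals `Th` and `SP` -/

/-- (ENT) the entropy of a step profile. -/
def ENT : Prop := ∀ (J : ℕ) (P : ℕ → ℝ), Lev J P → P J < 1 →
  (mP J P).entropy = ENNReal.ofReal (SP J P)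

/-- (APX) every profile of finite entropy is approximated from above by step profiles of every
high resolution. -/
def APX : Prop := ∀ m : OverlapProfile, m.entropy ≠ ⊤ → ∀ ε : ℝ, 0 < ε → ∃ J0 : ℕ, ∀ J, J0 ≤ J →
  ∃ P : ℕ → ℝ, Lev J P ∧ P J < 1 ∧ (mP J P).entropy ≤ m.entropy + ENNReal.ofReal ε ∧
    (∀ t ∈ Set.Ioo (0:ℝ) 1, m.toFun t ≤ (mP J P).toFun t) ∧
    ∫ t in (0:ℝ)..1, ((mP J P).toFun t - m.toFun t) ≤ ε

/-- (MONO) monotonicity of `Th` in the tails of the levels. -/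
def MONO : Prop := ∀ (J : ℕ) (K L : ℝ) (f : ℝ → ℝ), BL K L f → ∀ P P' : ℕ → ℝ, Lev J P → Lev J P' →
  (∀ j0 ≤ J, ∑ j ∈ Ico j0 (J + 1), P' j ≤ ∑ j ∈ Ico j0 (J + 1), P j) → Th J f P ≤ Th J f P'

/-- (LIP) Lipschitz dependence of `Th` on the levels. -/
def LIP : Prop := ∀ (J : ℕ) (K L : ℝ) (f : ℝ → ℝ), BL K L f → ∀ P P' : ℕ → ℝ, Lev J P → Lev J P' →
  |Th J f P - Th J f P'| ≤ L ^ 2 / ((J : ℝ) + 1) * ∑ j ∈ range (J + 1), |P j - P' j|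

/-- (MONOδ) consequence used at the contact: tails up to `δ`. -/
def MONOd : Prop := ∀ (J : ℕ) (K L : ℝ) (f : ℝ → ℝ), BL K L f → ∀ P P' : ℕ → ℝ, Lev J P →
  Lev J P' → ∀ δ : ℝ, 0 ≤ δ →
  (∀ j0 ≤ J, 1 / ((J : ℝ) + 1) * ∑ j ∈ Ico j0 (J + 1), P' j ≤
    1 / ((J : ℝ) + 1) * ∑ j ∈ Ico j0 (J + 1), P j + δ) →
  Th J f P ≤ Th J f P' + L ^ 2 * δ

/-! ### The upper bound -/

/-- the tail of the target path after the cell `g`: `(nc+1)⁻¹ ∑_{g < l ≤ nc} q_l`. -/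
def tl1 (nc : ℕ) (q : ℕ → ℝ) (g : ℕ) : ℝ := 1 / ((nc : ℝ) + 1) * ∑ l ∈ Ioc g nc, q l

/-- (U0) start of the contact: no rows. -/
def U0 : Prop := ∀ (nc : ℕ) (A ε : ℝ), 0 < ε → ∃ N0 : ℕ, ∀ N, N0 ≤ N → ∀ n, 0 < n →
  ∃ δ : ℝ, 0 < δ ∧ ∀ C : Cfg N, Near C δ → ∀ (f : ℕ → ℝ → ℝ) (s : Fin nc → ℝ),
    (∀ g, 0 < s g ∧ s g ≤ A) → ∀ q : ℕ → ℝ, Lev nc q → q nc < 1 →
    FN C nc n f 0 s ≤ SP nc q - 1 / 2 * ∑ g : Fin nc, s g ^ 2 * tl1 nc q g + ε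

/-- (U1) coercivity, for every configuration space. -/
def U1 : Prop := ∀ (nc N n : ℕ), 0 < N → 0 < n → ∀ (C : Cfg N) (K : ℝ) (f : ℕ → ℝ → ℝ) (M : ℕ),
  (∀ a, Measurable (f a)) → (∀ a x, |f a x| ≤ K) → ∀ s : Fin nc → ℝ,
  FN C nc n f M s ≤ K * M / N + 1 / 2 -
    1 / 2 * ∑ g : Fin nc, s g ^ 2 * (1 - ((g : ℝ) + 1) / ((nc : ℝ) + 1)) +
    ((nc : ℝ) + 1) / 2 * Real.log (1 + ∑ g : Fin nc, s g ^ 2)

/-- (JEN) removal of the fields. -/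
def JEN : Prop := ∀ (nc N n : ℕ), 0 < N → 0 < n → ∀ (C : Cfg N) (K : ℝ) (f : ℕ → ℝ → ℝ) (M : ℕ),
  (∀ a, Measurable (f a)) → (∀ a x, |f a x| ≤ K) → ∀ s : Fin nc → ℝ,
  pC C f M ≤ FN C nc n f M s + 1 / 2 * ∑ g, s g ^ 2

/-- (DER) derivative of the free energy in one strength, continuity in all. -/
def DER : Prop := ∀ (nc N n : ℕ), 0 < N → 0 < n → ∀ (C : Cfg N) (K : ℝ) (f : ℕ → ℝ → ℝ) (M : ℕ),
  (∀ a, Measurable (f a)) → (∀ a x, |f a x| ≤ K) →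
  Continuous (fun s : Fin nc → ℝ => FN C nc n f M s) ∧
  ∀ (s : Fin nc → ℝ) (g : Fin nc),
    HasDerivAt (fun y => FN C nc n f M (Function.update s g y))
      (∫ G, eE (QQ C nc n (M := M) f G s) (Dobs C nc n g) ∂(gam M N) - s g) (s g)

/-- (IBP) the mean of the field observable. -/
def IBP : Prop := ∀ (nc : ℕ) (A K ε : ℝ), 0 < ε → ∃ n0 : ℕ → ℕ → ℕ, ∀ N, 0 < N → ∀ M n,
  n0 N M ≤ n → ∀ (C : Cfg N) (f : ℕ → ℝ → ℝ), (∀ a, Measurable (f a)) → (∀ a x, |f a x| ≤ K) →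
  ∀ (s : Fin nc → ℝ), (∀ g, 0 ≤ s g ∧ s g ≤ A) → ∀ g : Fin nc,
    |∫ G, eE (QQ C nc n (M := M) f G s) (Dobs C nc n g) ∂(gam M N) -
      s g * (1 - tl1 nc (fun l => Rk C nc n f M s (st n l)) g)| ≤ ε

/-- averaged concentration of the field observable of the cell `g`. -/
def Dconc {N : ℕ} (C : Cfg N) (nc n : ℕ) (f : ℕ → ℝ → ℝ) (M : ℕ) (s : Fin nc → ℝ) (g : Fin nc)
    (δ : ℝ) : Prop :=
  ∃ d : ℝ, ∫ G, eE (QQ C nc n (M := M) f G s) (fun ω => |Dobs C nc n g ω - d|) ∂(gam M N) ≤ δ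

/-- (HCONC) contact from above in the strength `s g` ⇒ concentration of the field observable. -/
def HCONC : Prop := ∀ (nc : ℕ) (b0 A K αm δ : ℝ), 0 < b0 → b0 < A → 0 < δ →
  ∃ N0 : ℕ, ∀ N, N0 ≤ N → ∀ n, 0 < n → ∀ (C : Cfg N) (f : ℕ → ℝ → ℝ) (M : ℕ),
  (M : ℝ) ≤ αm * N → (∀ a, Measurable (f a)) → (∀ a x, |f a x| ≤ K) →
  ∀ s : Fin nc → ℝ, (∀ g, 4 / 3 * b0 ≤ s g ∧ s g ≤ A - 1) → ∀ (g : Fin nc) (F' : ℝ),
  (∀ y ∈ Set.Icc b0 A, FN C nc n f M (Function.update s g y) ≤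
    FN C nc n f M s + F' * (y - s g) + (y - s g) ^ 2) →
  Dconc C nc n f M s g δ

/-- the expectation of `Ψ` under two conditionally independent copies given `r`. -/
def pE {Ω : Type} [Fintype Ω] (Q : Ω → ℝ) (r : Setoid Ω) (Ψ : Ω → Ω → ℝ) : ℝ :=
  eE Q (fun a => cE Q r (fun b => Ψ a b) a)

/-- normalised overlap -/
def ovl {N : ℕ} (C : Cfg N) (nc n : ℕ) (a b : Om C nc n) : ℝ :=
  (N : ℝ)⁻¹ * ∑ i, C.x a.1 i * C.x b.1 i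

/-- a skeleton: steps `τ b` (`b ≤ J`) in the block `b` of `wc` levels, at which the overlap of two
conditionally independent copies is close to a constant. -/
structure Skel {N : ℕ} (C : Cfg N) (nc n : ℕ) (f : ℕ → ℝ → ℝ) (M : ℕ) (s : Fin nc → ℝ)
    (J wc : ℕ) (τ : ℕ → ℕ) (ε : ℝ) : Prop where
  blk : ∀ b ≤ J, st n (b * wc) ≤ τ b ∧ τ b < st n (b * wc + wc - 1)
  pair : ∀ b ≤ J, ∫ G, pE (QQ C nc n (M := M) f G s) ((fil C nc n).F (τ b))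
    (fun a c => |ovl C nc n a c - Rk C nc n f M s (τ b)|) ∂(gam M N) ≤ ε

/-- (STR) concentrated field observables ⇒ a skeleton. -/
def STR : Prop := ∀ (J : ℕ) (ε : ℝ), 0 < ε → ∃ wc0 : ℕ, ∀ wc, wc0 ≤ wc → ∀ nc, nc + 1 = (J + 1) * wc →
  ∀ (b0 A K αm : ℝ), 0 < b0 → b0 < A → ∃ δ : ℝ, 0 < δ ∧ ∃ (N0 : ℕ) (n0 : ℕ → ℕ),
  ∀ N, N0 ≤ N → ∀ n, n0 N ≤ n → ∀ (C : Cfg N) (f : ℕ → ℝ → ℝ) (M : ℕ),
  (M : ℝ) ≤ αm * N → (∀ a, Measurable (f a)) → (∀ a x, |f a x| ≤ K) →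
  ∀ s : Fin nc → ℝ, (∀ g, b0 ≤ s g ∧ s g ≤ A) → (∀ g, Dconc C nc n f M s g δ) →
  ∃ τ : ℕ → ℕ, Skel C nc n f M s J wc τ ε

/-- (CAV) the cavity increment: one more row. The levels are read in the system WITH the row. -/
def CAV : Prop := ∀ (J : ℕ) (K L ε : ℝ), 0 < ε → ∃ ε1 : ℝ, 0 < ε1 ∧
  ∀ (wc nc : ℕ), 2 ≤ wc → nc + 1 = (J + 1) * wc → ∀ (N n : ℕ), 0 < N → 0 < n →
  ∀ (C : Cfg N) (f : ℕ → ℝ → ℝ) (M : ℕ), (∀ a, BL K L (f a)) → ∀ s : Fin nc → ℝ,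
  ∀ τ : ℕ → ℕ, Skel C nc n f (M + 1) s J wc τ ε1 →
  |(N : ℝ) * (FN C nc n f (M + 1) s - FN C nc n f M s) -
    Th J (f M) (fun b => Rk C nc n f (M + 1) s (τ b))| ≤ 60 * K ^ 2 * Real.exp (4 * K) / ((J : ℝ) + 1) + ε

/-- **(UB)** the upper bound, arbitrary row functions. -/
def UB : Prop := ∀ (K L αm ε : ℝ), 0 < ε → ∃ J0 : ℕ, ∀ J, J0 ≤ J → ∀ P : ℕ → ℝ, Lev J P → P J < 1 →
  ∃ N0 : ℕ, ∀ N, N0 ≤ N → ∀ M : ℕ, (M : ℝ) ≤ αm * N → ∀ f : ℕ → ℝ → ℝ, (∀ a, BL K L (f a)) →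
  pN N f M ≤ (N : ℝ)⁻¹ * ∑ a ∈ range M, Th J (f a) P + SP J P + ε

/-- **(LB)** the lower bound, one smooth function. -/
def LB : Prop := ∀ (f : ℝ → ℝ), (∀ n : ℕ, ContDiff ℝ n f) → (∀ k : ℕ, ∃ C, ∀ x, |iteratedDeriv k f x| ≤ C) →
  ∀ (α ε : ℝ), 0 < α → 0 < ε → ∃ N0 : ℕ, ∀ N, N0 ≤ N → ∃ (J : ℕ) (P : ℕ → ℝ), Lev J P ∧ P J < 1 ∧
    α * Th J f P + SP J P - ε ≤ pN N (fun _ => f) (numPatterns N α)

end

end Crest.Agent.R146.S6U_988
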