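import Mathlib
import Crest.Agent.R146.Lind2_878
import Crest.Prelude.Def_Perceptron
import Crest.Agent.R070.RotInv_260
import Crest.Prelude.Def_SphericalPressure

-- ▼ part R146/Lind3_878
section

/-!
Row 146, node (F): Lindeberg comparison of `E log ∫ exp (∑ₐ ψₐ (⟨Aₐ, y⟩)) dρ(y)` for two laws of the
entries of `A` with the same first two moments, row dependent potentials `ψₐ`.
-/

set_option autoImplicit false

open MeasureTheory Set

namespace Crest.Agent.R146L878

variable {Y : Type*} [MeasurableSpace Y] {R C : Type*} [Fintype R] [Fintype C]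

/-- the exponent -/
noncomputable def expo (ψ : R → ℝ → ℝ) (v : Y → C → ℝ) (A : R × C → ℝ) (y : Y) : ℝ :=
  ∑ a, ψ a (∑ i, A (a, i) * v y i)

/-- the log partition function -/
noncomputable def logZ (ρ : Measure Y) (ψ : R → ℝ → ℝ) (v : Y → C → ℝ) (A : R × C → ℝ) : ℝ :=
  Real.log (∫ y, Real.exp (expo ψ v A y) ∂ρ)

theorem measurable_expo {ψ : R → ℝ → ℝ} (hψ : ∀ a, Measurable (ψ a)) {v : Y → C → ℝ}
    (hv : Measurable v) : Measurable (fun p : (R × C → ℝ) × Y => expo ψ v p.1 p.2) := by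
  unfold expo
  refine Finset.measurable_sum _ fun a _ => (hψ a).comp (Finset.measurable_sum _ fun i _ => ?_)
  exact ((measurable_pi_apply (a, i)).comp measurable_fst).mul
    ((measurable_pi_apply i).comp (hv.comp measurable_snd))

theorem measurable_logZ (ρ : Measure Y) [IsFiniteMeasure ρ] {ψ : R → ℝ → ℝ}
    (hψ : ∀ a, Measurable (ψ a)) {v : Y → C → ℝ} (hv : Measurable v) :
    Measurable (logZ ρ ψ v) := by
  unfold logZ
  refine Real.measurable_log.comp ?_
  have h : StronglyMeasurable (Function.uncurry fun (A : R × C → ℝ) (y : Y) =>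
      Real.exp (expo ψ v A y)) := (Real.measurable_exp.comp (measurable_expo hψ hv)).stronglyMeasurable
  exact (h.integral_prod_right (ν := ρ)).measurable

/-- linear growth of `logZ` for Lipschitz potentials -/
theorem logZ_growth (ρ : Measure Y) [IsFiniteMeasure ρ] (hρ : 0 < ρ.real univ) {ψ : R → ℝ → ℝ}
    (hψ : ∀ a, Measurable (ψ a)) {v : Y → C → ℝ} (hv : Measurable v) {K1 δ : ℝ} (hδ : 0 ≤ δ)
    (hK1 : 0 ≤ K1) (hL : ∀ a x x', |ψ a x - ψ a x'| ≤ K1 * |x - x'|)
    (hvδ : ∀ y i, |v y i| ≤ δ) (A : R × C → ℝ) :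
    |logZ ρ ψ v A| ≤ (∑ a, |ψ a 0| + |Real.log (ρ.real univ)| + K1 * δ) * (1 + ∑ p, |A p|) := by
  have hne : ρ ≠ 0 := by
    rintro rfl; simp at hρ
  set B := ∑ a, |ψ a 0| + K1 * δ * ∑ p, |A p| with hB
  have hexp : ∀ y, |expo ψ v A y| ≤ B := by
    intro y
    unfold expo
    refine (Finset.abs_sum_le_sum_abs _ _).trans ?_
    have e : ∀ a, |ψ a (∑ i, A (a, i) * v y i)| ≤ |ψ a 0| + K1 * δ * ∑ i, |A (a, i)| := by
      intro a
      have h1 := hL a (∑ i, A (a, i) * v y i) 0
      have h2 : |∑ i, A (a, i) * v y i| ≤ δ * ∑ i, |A (a, i)| := by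
        refine (Finset.abs_sum_le_sum_abs _ _).trans ?_
        rw [Finset.mul_sum]
        refine Finset.sum_le_sum fun i _ => ?_
        rw [abs_mul, mul_comm]
        exact mul_le_mul_of_nonneg_right (hvδ y i) (abs_nonneg _)
      have h3 : |ψ a (∑ i, A (a, i) * v y i)| ≤ |ψ a 0| + K1 * |∑ i, A (a, i) * v y i| := by
        have := abs_sub_abs_le_abs_sub (ψ a (∑ i, A (a, i) * v y i)) (ψ a 0)
        rw [sub_zero] at h1
        linarith
      have h4 := mul_le_mul_of_nonneg_left h2 hK1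
      linarith
    refine (Finset.sum_le_sum fun a _ => e a).trans ?_
    rw [Finset.sum_add_distrib, ← Finset.mul_sum, hB, Fintype.sum_prod_type]
  have hint : Integrable (fun y => Real.exp (expo ψ v A y)) ρ := by
    refine Integrable.of_bound ?_ (Real.exp B) ?_
    · exact (Real.measurable_exp.comp ((measurable_expo hψ hv).comp
        (measurable_const.prodMk measurable_id))).aestronglyMeasurable
    · exact Filter.Eventually.of_forall fun y => by
        rw [Real.norm_eq_abs, abs_of_pos (Real.exp_pos _)]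
        exact Real.exp_le_exp.2 ((le_abs_self _).trans (hexp y))
  have hup : ∫ y, Real.exp (expo ψ v A y) ∂ρ ≤ Real.exp B * ρ.real univ := by
    calc _ ≤ ∫ _y, Real.exp B ∂ρ := integral_mono hint (integrable_const _) fun y =>
          Real.exp_le_exp.2 ((le_abs_self _).trans (hexp y))
      _ = _ := by simp [mul_comm]
  have hlo : Real.exp (-B) * ρ.real univ ≤ ∫ y, Real.exp (expo ψ v A y) ∂ρ := by
    calc _ = ∫ _y, Real.exp (-B) ∂ρ := by simp [mul_comm]
      _ ≤ _ := integral_mono (integrable_const _) hint fun y =>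
          Real.exp_le_exp.2 (abs_le.1 (hexp y)).1
  have hpos : 0 < ∫ y, Real.exp (expo ψ v A y) ∂ρ :=
    lt_of_lt_of_le (mul_pos (Real.exp_pos _) hρ) hlo
  have l1 : logZ ρ ψ v A ≤ B + Real.log (ρ.real univ) := by
    unfold logZ
    have := Real.log_le_log hpos hup
    rwa [Real.log_mul (Real.exp_pos _).ne' hρ.ne', Real.log_exp] at this
  have l2 : -B + Real.log (ρ.real univ) ≤ logZ ρ ψ v A := by
    unfold logZ
    have := Real.log_le_log (mul_pos (Real.exp_pos _) hρ) hlo
    rwa [Real.log_mul (Real.exp_pos _).ne' hρ.ne', Real.log_exp] at this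
  have l3 : |logZ ρ ψ v A| ≤ B + |Real.log (ρ.real univ)| := by
    rw [abs_le]
    constructor
    · have := neg_abs_le (Real.log (ρ.real univ)); linarith
    · have := le_abs_self (Real.log (ρ.real univ)); linarith
  refine l3.trans ?_
  have hS : 0 ≤ ∑ p, |A p| := Finset.sum_nonneg fun _ _ => abs_nonneg _
  have hP : 0 ≤ ∑ a, |ψ a 0| := Finset.sum_nonneg fun _ _ => abs_nonneg _
  have h0 : 0 ≤ K1 * δ := mul_nonneg hK1 hδ
  have h1 := mul_nonneg hP hS
  have h2 := mul_nonneg (abs_nonneg (Real.log (ρ.real univ))) hS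
  rw [hB]
  nlinarith

theorem C3b.lip {f f1 f2 f3 : ℝ → ℝ} {K0 K1 K2 K3 : ℝ} (h : C3b f f1 f2 f3 K0 K1 K2 K3)
    (x x' : ℝ) : |f x - f x'| ≤ K1 * |x - x'| := by
  have := Convex.norm_image_sub_le_of_norm_hasDerivWithin_le (f := f) (f' := f1) (C := K1)
    (s := Set.univ) (fun x _ => (h.d1 x).hasDerivWithinAt) (fun x _ => by
      rw [Real.norm_eq_abs]; exact h.b1 x) convex_univ (Set.mem_univ x') (Set.mem_univ x)
  simpa [Real.norm_eq_abs] using this

variable [DecidableEq R] [DecidableEq C]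

/-- the one-entry Taylor bound of `logZ` -/
theorem logZ_taylor (ρ : Measure Y) [IsFiniteMeasure ρ] (hρ : 0 < ρ.real univ)
    {ψ ψ1 ψ2 ψ3 : R → ℝ → ℝ} {K0 K1 K2 K3 : ℝ}
    (h : ∀ a, C3b (ψ a) (ψ1 a) (ψ2 a) (ψ3 a) K0 K1 K2 K3)
    {v : Y → C → ℝ} (hv : Measurable v) {δ : ℝ} (hvδ : ∀ y i, |v y i| ≤ δ)
    (p : R × C) (x : R × C → ℝ) :
    ∃ a b c : ℝ, ∀ t, |logZ ρ ψ v (Function.update x p t) - (c + a * t + b * t ^ 2)|
      ≤ ((K3 + 6 * K1 * K2 + 6 * K1 ^ 3) * δ ^ 3) * |t| ^ 3 := by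
  obtain ⟨a, i⟩ := p
  have hψm : ∀ b, Measurable (ψ b) := fun b => (h b).c0.measurable
  set w : Y → ℝ := fun y => Real.exp (∑ b ∈ Finset.univ.erase a, ψ b (∑ j, x (b, j) * v y j)) with hw
  set c : Y → ℝ := fun y => ∑ j ∈ Finset.univ.erase i, x (a, j) * v y j with hc
  have hwm : Measurable w := by
    refine Real.measurable_exp.comp (Finset.measurable_sum _ fun b _ =>
      (hψm b).comp (Finset.measurable_sum _ fun j _ => ?_))
    exact ((measurable_pi_apply j).comp hv).const_mul _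
  have hcm : Measurable c := Finset.measurable_sum _ fun j _ =>
    ((measurable_pi_apply j).comp hv).const_mul _
  have hwi : Integrable w ρ := by
    refine Integrable.of_bound hwm.aestronglyMeasurable
      (Real.exp (∑ b ∈ (Finset.univ.erase a : Finset R), K0)) ?_
    refine Filter.Eventually.of_forall fun y => ?_
    rw [Real.norm_eq_abs, hw]
    simp only
    rw [abs_of_pos (Real.exp_pos _)]
    exact Real.exp_le_exp.2 (Finset.sum_le_sum fun b _ => (h b).b0 _)
  have hwpos : 0 < ∫ y, w y ∂ρ := by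
    rw [integral_pos_iff_support_of_nonneg (fun y => (Real.exp_pos _).le) hwi]
    have : Function.support w = univ := by
      ext y; simp [hw, Real.exp_ne_zero]
    rw [this]
    refine pos_iff_ne_zero.2 fun h0 => ?_
    simp [Measure.real, h0] at hρ
  obtain ⟨a', b', c', H⟩ := logInt_taylor ρ (h a) hcm ((measurable_pi_apply i).comp hv) hwi
    (fun y => (Real.exp_pos _).le) hwpos (δ := δ) (fun y => hvδ y i)
  refine ⟨a', b', c', fun t => ?_⟩
  have key : logZ ρ ψ v (Function.update x (a, i) t)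
      = Real.log (∫ y, Real.exp (ψ a (c y + t * v y i)) * w y ∂ρ) := by
    unfold logZ
    congr 1
    refine integral_congr_ae (Filter.Eventually.of_forall fun y => ?_)
    simp only [hw]
    rw [← Real.exp_add]
    congr 1
    unfold expo
    rw [← Finset.add_sum_erase Finset.univ _ (Finset.mem_univ a)]
    congr 1
    · congr 1
      rw [← Finset.add_sum_erase Finset.univ _ (Finset.mem_univ i), Function.update_self, add_comm, hc]
      congr 1
      refine Finset.sum_congr rfl fun j hj => ?_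
      have : (a, j) ≠ (a, i) := by
        intro h; exact (Finset.ne_of_mem_erase hj) (Prod.mk.inj h).2
      rw [Function.update_of_ne this]
    · refine Finset.sum_congr rfl fun b hb => ?_
      congr 1
      refine Finset.sum_congr rfl fun j _ => ?_
      have : (b, j) ≠ (a, i) := by
        intro h; exact (Finset.ne_of_mem_erase hb) (Prod.mk.inj h).1
      rw [Function.update_of_ne this]
  rw [key]
  exact H t

/-- **Lindeberg for the log partition function** (row dependent `C³` potentials, bounded above,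
with bounded first three derivatives; configuration coordinates bounded by `δ`). -/
theorem lindeberg_logZ (ρ : Measure Y) [IsFiniteMeasure ρ] (hρ : 0 < ρ.real univ)
    {ψ ψ1 ψ2 ψ3 : R → ℝ → ℝ} {K0 K1 K2 K3 : ℝ}
    (h : ∀ a, C3b (ψ a) (ψ1 a) (ψ2 a) (ψ3 a) K0 K1 K2 K3)
    {v : Y → C → ℝ} (hv : Measurable v) {δ : ℝ} (hvδ : ∀ y i, |v y i| ≤ δ)
    {μ ν : Measure ℝ} [IsProbabilityMeasure μ] [IsProbabilityMeasure ν]
    (hμ1 : Integrable (fun t : ℝ => t) μ) (hν1 : Integrable (fun t : ℝ => t) ν)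
    (hμ2 : Integrable (fun t : ℝ => t ^ 2) μ) (hν2 : Integrable (fun t : ℝ => t ^ 2) ν)
    (hμ3 : Integrable (fun t : ℝ => |t| ^ 3) μ) (hν3 : Integrable (fun t : ℝ => |t| ^ 3) ν)
    (h1 : ∫ t, t ∂μ = ∫ t, t ∂ν) (h2 : ∫ t, t ^ 2 ∂μ = ∫ t, t ^ 2 ∂ν) :
    |∫ A, logZ ρ ψ v A ∂(Measure.pi fun _ : R × C => μ)
        - ∫ A, logZ ρ ψ v A ∂(Measure.pi fun _ : R × C => ν)|
      ≤ (Fintype.card R * Fintype.card C) * ((K3 + 6 * K1 * K2 + 6 * K1 ^ 3) * δ ^ 3)
        * (∫ t, |t| ^ 3 ∂μ + ∫ t, |t| ^ 3 ∂ν) := by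
  by_cases hR : Nonempty R
  swap
  · rw [not_nonempty_iff] at hR
    have e : ∀ A : R × C → ℝ, logZ ρ ψ v A = logZ ρ ψ v 0 := by
      intro A; congr 1; funext p; exact (hR.false p.1).elim
    simp only [e]
    simp
  by_cases hC : Nonempty C
  swap
  · rw [not_nonempty_iff] at hC
    have e : ∀ A : R × C → ℝ, logZ ρ ψ v A = logZ ρ ψ v 0 := by
      intro A; congr 1; funext p; exact (hC.false p.2).elim
    simp only [e]
    simp
  obtain ⟨a0⟩ := hR
  obtain ⟨i0⟩ := hC
  have hYne : Nonempty Y := by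
    by_contra hY
    rw [not_nonempty_iff] at hY
    have : ρ = 0 := Measure.eq_zero_of_isEmpty ρ
    simp [this] at hρ
  obtain ⟨y0⟩ := hYne
  have hδ0 : 0 ≤ δ := (abs_nonneg _).trans (hvδ y0 i0)
  have hK1 : 0 ≤ K1 := (abs_nonneg _).trans ((h a0).b1 0)
  have hψm : ∀ b, Measurable (ψ b) := fun b => (h b).c0.measurable
  have := lindeberg hμ1 hν1 hμ2 hν2 hμ3 hν3 h1 h2 (logZ ρ ψ v) (measurable_logZ ρ hψm hv) _
    (logZ_growth ρ hρ hψm hv hδ0 hK1 (fun a => (h a).lip) hvδ)
    (fun _ => (K3 + 6 * K1 * K2 + 6 * K1 ^ 3) * δ ^ 3)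
    (fun p x => logZ_taylor ρ hρ h hv hvδ p x)
  simpa [Finset.sum_const, Finset.card_univ, Fintype.card_prod] using this

end Crest.Agent.R146L878
end

-- ▼ part R146/Lind4_878
section

/-!
Row 146, node (F3): `mixtureLaw ε` has mean `0`, variance `1` and a third absolute moment;
Lindeberg comparison of the mixture and the Gaussian pattern laws.
-/

set_option autoImplicit false

open MeasureTheory Set ProbabilityTheory
open Crest.ProbabilityR.Perceptron

namespace Crest.Agent.R146L878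

theorem gauss_int1 (v : NNReal) : Integrable (fun t : ℝ => t) (gaussianReal 0 v) := by
  have := (memLp_id_gaussianReal (μ := 0) (v := v) 1).integrable (by norm_num)
  exact this

theorem gauss_int2 (v : NNReal) : Integrable (fun t : ℝ => t ^ 2) (gaussianReal 0 v) := by
  have := (memLp_id_gaussianReal (μ := 0) (v := v) 2).integrable_sq
  simpa using this

theorem gauss_int3 (v : NNReal) : Integrable (fun t : ℝ => |t| ^ 3) (gaussianReal 0 v) := by
  have := (memLp_id_gaussianReal (μ := 0) (v := v) 3).integrable_norm_pow (by norm_num)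
  simpa [Real.norm_eq_abs] using this


theorem gauss_mean (v : NNReal) : ∫ t, t ∂(gaussianReal 0 v) = 0 := integral_id_gaussianReal

theorem gauss_var (v : NNReal) : ∫ t, t ^ 2 ∂(gaussianReal 0 v) = v := by
  have h := variance_fun_id_gaussianReal (μ := 0) (v := v)
  rw [variance_of_integral_eq_zero (by fun_prop) (gauss_mean v)] at h
  simpa using h

theorem isProb_mixtureLaw (ε : ℝ) : IsProbabilityMeasure (mixtureLaw ε) := by
  constructor
  unfold mixtureLaw
  simp only [Measure.add_apply, Measure.smul_apply, measure_univ]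
  have h2 : (2⁻¹ : NNReal) • (1 : ENNReal) = 2⁻¹ := by
    rw [ENNReal.smul_def, smul_eq_mul, mul_one]
    rw [ENNReal.coe_inv (by norm_num)]; norm_num
  rw [h2, ENNReal.inv_two_add_inv_two]

instance (ε : ℝ) : IsProbabilityMeasure (mixtureLaw ε) := isProb_mixtureLaw ε

theorem mix_integrable {ε : ℝ} {f : ℝ → ℝ} (h : ∀ v, Integrable f (gaussianReal 0 v)) :
    Integrable f (mixtureLaw ε) := by
  unfold mixtureLaw
  refine Integrable.add_measure ?_ ?_
  · exact (h _).smul_measure_nnreal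
  · exact (h _).smul_measure_nnreal

theorem mix_integral {ε : ℝ} {f : ℝ → ℝ} (h : ∀ v, Integrable f (gaussianReal 0 v)) :
    ∫ t, f t ∂(mixtureLaw ε) = (∫ t, f t ∂(gaussianReal 0 (Real.toNNReal (1 - ε)))
      + ∫ t, f t ∂(gaussianReal 0 (Real.toNNReal (1 + ε)))) / 2 := by
  unfold mixtureLaw
  rw [integral_add_measure (h _).smul_measure_nnreal (h _).smul_measure_nnreal,
    integral_smul_nnreal_measure, integral_smul_nnreal_measure]
  simp only [NNReal.smul_def, smul_eq_mul, NNReal.coe_inv, NNReal.coe_ofNat]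
  ring

theorem mix_mean (ε : ℝ) : ∫ t, t ∂(mixtureLaw ε) = 0 := by
  rw [mix_integral gauss_int1, gauss_mean, gauss_mean]; norm_num

theorem mix_var {ε : ℝ} (h0 : 0 ≤ ε) (h1 : ε < 1) : ∫ t, t ^ 2 ∂(mixtureLaw ε) = 1 := by
  rw [mix_integral gauss_int2, gauss_var, gauss_var, Real.coe_toNNReal _ (by linarith),
    Real.coe_toNNReal _ (by linarith)]
  norm_num

/-- the constant of the Lindeberg comparison -/
noncomputable def T3 (ε : ℝ) : ℝ := ∫ t, |t| ^ 3 ∂(mixtureLaw ε) + ∫ t, |t| ^ 3 ∂(gaussianReal 0 1)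

theorem T3_nonneg (ε : ℝ) : 0 ≤ T3 ε :=
  add_nonneg (integral_nonneg fun _ => by positivity) (integral_nonneg fun _ => by positivity)

/-- **Lindeberg, mixture versus Gaussian** -/
theorem lindeberg_mix {Y : Type*} [MeasurableSpace Y] {M N : ℕ} {ε : ℝ} (h0 : 0 ≤ ε) (h1 : ε < 1)
    (ρ : Measure Y) [IsFiniteMeasure ρ] (hρ : 0 < ρ.real univ)
    {ψ ψ1 ψ2 ψ3 : Fin M → ℝ → ℝ} {K0 K1 K2 K3 : ℝ}
    (h : ∀ a, C3b (ψ a) (ψ1 a) (ψ2 a) (ψ3 a) K0 K1 K2 K3)
    {v : Y → Fin N → ℝ} (hv : Measurable v) {δ : ℝ} (hvδ : ∀ y i, |v y i| ≤ δ) :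
    |∫ A, logZ ρ ψ v A ∂(Measure.pi fun _ : Fin M × Fin N => mixtureLaw ε)
        - ∫ A, logZ ρ ψ v A ∂(Measure.pi fun _ : Fin M × Fin N => gaussianReal 0 1)|
      ≤ (M * N) * ((K3 + 6 * K1 * K2 + 6 * K1 ^ 3) * δ ^ 3) * T3 ε := by
  have := lindeberg_logZ ρ hρ h hv hvδ (mix_integrable (ε := ε) gauss_int1) (gauss_int1 1)
    (mix_integrable gauss_int2) (gauss_int2 1) (mix_integrable gauss_int3) (gauss_int3 1)
    (by rw [mix_mean, gauss_mean]) (by rw [mix_var h0 h1, gauss_var]; norm_num)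
  simpa [T3] using this

end Crest.Agent.R146L878
end

-- ▼ part R146/Deloc1_878
section

/-!
Row 146, node (F4): for Gaussian entries the mean Gibbs weight of a measurable subset `D` of the
sphere is its normalised surface measure (rotation invariance).
-/

set_option autoImplicit false

open MeasureTheory Set ProbabilityTheory
open Crest.ProbabilityR.Perceptron
open Crest.Agent.R070.RotInv260

namespace Crest.Agent.R146L878

variable {N : ℕ} {R : Type*} [Fintype R]

/-- `N`-dimensional Euclidean space -/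
abbrev EN (N : ℕ) : Type := EuclideanSpace ℝ (Fin N)

/-- row-wise action of a linear isometry on arrays -/
noncomputable def rowMap (T : EN N ≃ₗᵢ[ℝ] EN N) (A : R × Fin N → ℝ) : R × Fin N → ℝ :=
  fun p => T (WithLp.toLp 2 fun j => A (p.1, j)) p.2

/-- the coordinates of a point of the sphere -/
def sv (y : UnitSphere N) : Fin N → ℝ := fun i => (y : EN N) i

theorem measurable_sv : Measurable (sv (N := N)) := by
  refine measurable_pi_lambda _ fun i => ?_
  exact ((EuclideanSpace.proj i : EN N →L[ℝ] ℝ).continuous.comp continuous_subtype_val).measurable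


theorem rowMap_inner (T : EN N ≃ₗᵢ[ℝ] EN N) (A : R × Fin N → ℝ) (y : UnitSphere N) (a : R) :
    ∑ i, rowMap T A (a, i) * sv (sphMap T y) i = ∑ i, A (a, i) * sv y i := by
  have h1 : ∑ i, rowMap T A (a, i) * sv (sphMap T y) i
      = inner ℝ (T (WithLp.toLp 2 fun j => A (a, j))) (T (y : EN N)) := by
    simp only [PiLp.inner_apply]
    refine Finset.sum_congr rfl fun i _ => ?_
    simp [rowMap, sv, mul_comm]
  rw [h1, T.inner_map_map]
  simp only [PiLp.inner_apply]
  refine Finset.sum_congr rfl fun i _ => ?_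
  simp [sv, mul_comm]

theorem expo_rowMap (ψ : R → ℝ → ℝ) (T : EN N ≃ₗᵢ[ℝ] EN N) (A : R × Fin N → ℝ)
    (y : UnitSphere N) : expo ψ sv (rowMap T A) (sphMap T y) = expo ψ sv A y := by
  unfold expo
  exact Finset.sum_congr rfl fun a _ => by rw [rowMap_inner]

/-- the row-wise isometry as a linear isometry of the big Euclidean space -/
noncomputable def bigIso (T : EN N ≃ₗᵢ[ℝ] EN N) :
    EuclideanSpace ℝ (R × Fin N) →ₗᵢ[ℝ] EuclideanSpace ℝ (R × Fin N) where
  toFun A := WithLp.toLp 2 (rowMap T A.ofLp)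
  map_add' A B := by
    ext p
    have : (WithLp.toLp 2 fun j => (A + B).ofLp (p.1, j) : EN N)
        = (WithLp.toLp 2 fun j => A.ofLp (p.1, j)) + (WithLp.toLp 2 fun j => B.ofLp (p.1, j)) := by
      ext j; simp
    simp only [rowMap, this, map_add]
    simp [rowMap]
  map_smul' c A := by
    ext p
    have : (WithLp.toLp 2 fun j => (c • A).ofLp (p.1, j) : EN N)
        = c • (WithLp.toLp 2 fun j => A.ofLp (p.1, j)) := by
      ext j; simp
    simp only [rowMap, this, map_smul]
    simp [rowMap]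
  norm_map' A := by
    rw [← sq_eq_sq₀ (norm_nonneg _) (norm_nonneg _)]
    rw [EuclideanSpace.norm_sq_eq, EuclideanSpace.norm_sq_eq]
    rw [Fintype.sum_prod_type, Fintype.sum_prod_type]
    refine Finset.sum_congr rfl fun a _ => ?_
    have h := T.norm_map (WithLp.toLp 2 fun j => A.ofLp (a, j))
    have h2 : ‖T (WithLp.toLp 2 fun j => A.ofLp (a, j))‖ ^ 2
        = ‖(WithLp.toLp 2 fun j => A.ofLp (a, j) : EN N)‖ ^ 2 := by rw [h]
    rw [EuclideanSpace.norm_sq_eq, EuclideanSpace.norm_sq_eq] at h2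
    simpa [rowMap] using h2

/-- the Gaussian array law is invariant under row-wise isometries -/
theorem map_rowMap (T : EN N ≃ₗᵢ[ℝ] EN N) :
    MeasurePreserving (rowMap (R := R) T) (Measure.pi fun _ : R × Fin N => gaussianReal 0 1)
      (Measure.pi fun _ : R × Fin N => gaussianReal 0 1) := by
  set E := EuclideanSpace ℝ (R × Fin N)
  let Φ : E ≃ₗᵢ[ℝ] E := (bigIso T).toLinearIsometryEquiv rfl
  have hΦ : ∀ A : E, Φ A = WithLp.toLp 2 (rowMap T A.ofLp) := fun A => rfl
  have h1 : (Measure.pi fun _ : R × Fin N => gaussianReal 0 1).map (WithLp.toLp 2)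
      = stdGaussian E := map_pi_eq_stdGaussian
  have h2 : (stdGaussian E).map Φ = stdGaussian E := stdGaussian_map Φ
  have hto : Measurable (WithLp.toLp 2 : (R × Fin N → ℝ) → E) := by fun_prop
  have hof : Measurable (WithLp.ofLp : E → (R × Fin N → ℝ)) := by fun_prop
  have hΦm : Measurable Φ := Φ.continuous.measurable
  have hmap : rowMap (R := R) T = WithLp.ofLp ∘ Φ ∘ WithLp.toLp 2 := by
    funext A; rfl
  refine ⟨?_, ?_⟩
  · rw [hmap]; exact hof.comp (hΦm.comp hto)
  · rw [hmap, ← Measure.map_map hof (hΦm.comp hto), ← Measure.map_map hΦm hto, h1, h2, ← h1,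
      Measure.map_map hof hto]
    exact Measure.map_id

theorem integral_rowMap (T : EN N ≃ₗᵢ[ℝ] EN N) (F : (R × Fin N → ℝ) → ℝ) (hF : Measurable F) :
    ∫ A, F (rowMap T A) ∂(Measure.pi fun _ : R × Fin N => gaussianReal 0 1)
      = ∫ A, F A ∂(Measure.pi fun _ : R × Fin N => gaussianReal 0 1) := by
  have hmp := map_rowMap (R := R) T
  have h := integral_map (μ := Measure.pi fun _ : R × Fin N => gaussianReal 0 1)
    hmp.measurable.aemeasurable (f := F) hF.aestronglyMeasurable
  rw [hmp.map_eq] at h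
  exact h.symm

/-- any two unit vectors are related by an isometry -/
theorem exists_iso (x y : UnitSphere N) : ∃ T : EN N ≃ₗᵢ[ℝ] EN N, sphMap T x = y := by
  have hx : ‖(x : EN N)‖ = ‖(y : EN N)‖ := by
    rw [norm_eq_of_mem_sphere x, norm_eq_of_mem_sphere y]
  refine ⟨Submodule.reflection (ℝ ∙ ((x : EN N) - y))ᗮ, Subtype.ext ?_⟩
  rw [coe_sphMap]
  exact Submodule.reflection_sub hx

section gibbs

variable (ψ : R → ℝ → ℝ)

/-- the partition function on the sphere -/
noncomputable def ZS (A : R × Fin N → ℝ) : ℝ := ∫ y, Real.exp (expo ψ sv A y) ∂(sphereLaw N)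

theorem ZS_rowMap (T : EN N ≃ₗᵢ[ℝ] EN N) (A : R × Fin N → ℝ) : ZS ψ (rowMap T A) = ZS ψ A := by
  unfold ZS
  have h := integral_sphMap (E := EN N) T (fun y => Real.exp (expo ψ sv (rowMap T A) y))
  have : ∀ y, expo ψ sv (rowMap T A) (sphMap T y) = expo ψ sv A y := expo_rowMap ψ T A
  simp only [this] at h
  exact h.symm

theorem sphereLaw_fin : IsFiniteMeasure (sphereLaw N) := by unfold sphereLaw; infer_instance

instance : IsFiniteMeasure (sphereLaw N) := sphereLaw_fin

theorem sphereLaw_real_pos [NeZero N] : 0 < (sphereLaw N).real univ := by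
  have hne : sphereLaw N ≠ 0 := by
    unfold sphereLaw
    have : Nontrivial (EN N) := by
      have : Nonempty (Fin N) := ⟨⟨0, Nat.pos_of_ne_zero (NeZero.ne N)⟩⟩
      infer_instance
    exact Measure.toSphere_ne_zero _
  rw [measureReal_def, ENNReal.toReal_pos_iff]
  refine ⟨?_, measure_lt_top _ _⟩
  exact pos_iff_ne_zero.2 (by simpa using hne)

variable {ψ} {K0 : ℝ}

theorem expo_le (hb : ∀ a x, ψ a x ≤ K0) {Y : Type*} (v : Y → Fin N → ℝ) (A : R × Fin N → ℝ)
    (y : Y) : expo ψ v A y ≤ Fintype.card R * K0 := by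
  unfold expo
  refine (Finset.sum_le_sum fun a _ => hb a _).trans ?_
  simp

theorem integrable_exp_expo (hψ : ∀ a, Measurable (ψ a)) (hb : ∀ a x, ψ a x ≤ K0)
    {Y : Type*} [MeasurableSpace Y] (ρ : Measure Y) [IsFiniteMeasure ρ] {v : Y → Fin N → ℝ}
    (hv : Measurable v) (A : R × Fin N → ℝ) :
    Integrable (fun y => Real.exp (expo ψ v A y)) ρ := by
  refine Integrable.of_bound ?_ (Real.exp (Fintype.card R * K0)) ?_
  · exact (Real.measurable_exp.comp ((measurable_expo hψ hv).comp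
      (measurable_const.prodMk measurable_id))).aestronglyMeasurable
  · exact Filter.Eventually.of_forall fun y => by
      rw [Real.norm_eq_abs, abs_of_pos (Real.exp_pos _)]
      exact Real.exp_le_exp.2 (expo_le hb v A y)

theorem int_exp_pos (hψ : ∀ a, Measurable (ψ a)) (hb : ∀ a x, ψ a x ≤ K0)
    {Y : Type*} [MeasurableSpace Y] (ρ : Measure Y) [IsFiniteMeasure ρ] (hρ : 0 < ρ.real univ)
    {v : Y → Fin N → ℝ} (hv : Measurable v) (A : R × Fin N → ℝ) :
    0 < ∫ y, Real.exp (expo ψ v A y) ∂ρ := by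
  rw [integral_pos_iff_support_of_nonneg (fun y => (Real.exp_pos _).le)
    (integrable_exp_expo hψ hb ρ hv A)]
  have : Function.support (fun y => Real.exp (expo ψ v A y)) = univ := by
    ext y; simp [Real.exp_ne_zero]
  rw [this]
  refine pos_iff_ne_zero.2 fun h0 => ?_
  simp [Measure.real, h0] at hρ

theorem measurable_ZS (hψ : ∀ a, Measurable (ψ a)) : Measurable (ZS (N := N) ψ) := by
  have h : StronglyMeasurable (Function.uncurry fun (A : R × Fin N → ℝ) (y : UnitSphere N) =>
      Real.exp (expo ψ sv A y)) :=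
    (Real.measurable_exp.comp (measurable_expo hψ measurable_sv)).stronglyMeasurable
  exact (h.integral_prod_right (ν := sphereLaw N)).measurable

/-- Gibbs density -/
noncomputable def gd (ψ : R → ℝ → ℝ) (A : R × Fin N → ℝ) (y : UnitSphere N) : ℝ :=
  Real.exp (expo ψ sv A y) / ZS ψ A

theorem gd_rowMap (ψ : R → ℝ → ℝ) (T : EN N ≃ₗᵢ[ℝ] EN N) (A : R × Fin N → ℝ) (y : UnitSphere N) :
    gd ψ (rowMap T A) (sphMap T y) = gd ψ A y := by
  unfold gd
  rw [expo_rowMap, ZS_rowMap]

theorem measurable_gd (hψ : ∀ a, Measurable (ψ a)) :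
    Measurable (Function.uncurry (gd (N := N) ψ)) :=
  (Real.measurable_exp.comp (measurable_expo hψ measurable_sv)).div
      ((measurable_ZS hψ).comp measurable_fst)

/-- Gaussian array law -/
noncomputable abbrev gaussPi (R : Type*) [Fintype R] (N : ℕ) : Measure (R × Fin N → ℝ) :=
  Measure.pi fun _ : R × Fin N => gaussianReal 0 1

theorem mean_gd_sphMap (hψ : ∀ a, Measurable (ψ a)) (T : EN N ≃ₗᵢ[ℝ] EN N) (y : UnitSphere N) :
    ∫ A, gd ψ A (sphMap T y) ∂(gaussPi R N) = ∫ A, gd ψ A y ∂(gaussPi R N) := by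
  have hm : Measurable fun A : R × Fin N → ℝ => gd ψ A (sphMap T y) :=
    Measurable.of_uncurry_right (measurable_gd hψ)
  have h1 := integral_rowMap T _ hm
  rw [← h1]
  exact integral_congr_ae (Filter.Eventually.of_forall fun A => gd_rowMap ψ T A y)

theorem mean_gd_const (hψ : ∀ a, Measurable (ψ a)) (y y0 : UnitSphere N) :
    ∫ A, gd ψ A y ∂(gaussPi R N) = ∫ A, gd ψ A y0 ∂(gaussPi R N) := by
  obtain ⟨T, hT⟩ := exists_iso y0 y
  rw [← hT, mean_gd_sphMap hψ]

theorem integral_gd_one [NeZero N] (hψ : ∀ a, Measurable (ψ a)) (hb : ∀ a x, ψ a x ≤ K0)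
    (A : R × Fin N → ℝ) : ∫ y, gd ψ A y ∂(sphereLaw N) = 1 := by
  unfold gd
  rw [integral_div]
  exact div_self (int_exp_pos hψ hb (sphereLaw N) sphereLaw_real_pos measurable_sv A).ne'

theorem gd_nonneg [NeZero N] (hψ : ∀ a, Measurable (ψ a)) (hb : ∀ a x, ψ a x ≤ K0)
    (A : R × Fin N → ℝ) (y : UnitSphere N) : 0 ≤ gd ψ A y :=
  div_nonneg (Real.exp_pos _).le
    (int_exp_pos hψ hb (sphereLaw N) sphereLaw_real_pos measurable_sv A).le

theorem integrable_gd [NeZero N] (hψ : ∀ a, Measurable (ψ a)) (hb : ∀ a x, ψ a x ≤ K0) :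
    Integrable (Function.uncurry (gd (N := N) ψ)) ((gaussPi R N).prod (sphereLaw N)) := by
  rw [integrable_prod_iff (measurable_gd hψ).aestronglyMeasurable]
  refine ⟨Filter.Eventually.of_forall fun A => ?_, ?_⟩
  · exact (integrable_exp_expo hψ hb (sphereLaw N) measurable_sv A).div_const (ZS ψ A)
  have : (fun A => ∫ y, ‖Function.uncurry (gd (N := N) ψ) (A, y)‖ ∂(sphereLaw N))
      = fun _ => (1 : ℝ) := by
    funext A
    refine (integral_congr_ae (Filter.Eventually.of_forall fun y => ?_)).trans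
      (integral_gd_one hψ hb A)
    simp only [Function.uncurry, Real.norm_eq_abs, abs_of_nonneg (gd_nonneg hψ hb A y)]
  rw [this]
  exact integrable_const _

theorem swap_gd [NeZero N] (hψ : ∀ a, Measurable (ψ a)) (hb : ∀ a x, ψ a x ≤ K0)
    (E : Set (UnitSphere N)) (y0 : UnitSphere N) :
    ∫ A, (∫ y in E, gd ψ A y ∂(sphereLaw N)) ∂(gaussPi R N)
      = (∫ A, gd ψ A y0 ∂(gaussPi R N)) * (sphereLaw N).real E := by
  have hi : Integrable (Function.uncurry (gd (N := N) ψ))
      ((gaussPi R N).prod ((sphereLaw N).restrict E)) := by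
    have h := (integrable_gd (N := N) hψ hb).restrict (s := univ ×ˢ E)
    rw [← Measure.prod_restrict, Measure.restrict_univ] at h
    exact h
  rw [integral_integral_swap hi]
  have : (fun y => ∫ A, gd ψ A y ∂(gaussPi R N)) = fun _ => ∫ A, gd ψ A y0 ∂(gaussPi R N) :=
    funext fun y => mean_gd_const hψ y y0
  rw [this]
  simp [mul_comm]

/-- **mean Gibbs weight of a set** under Gaussian disorder -/
theorem mean_gibbs [NeZero N] (hψ : ∀ a, Measurable (ψ a)) (hb : ∀ a x, ψ a x ≤ K0)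
    (D : Set (UnitSphere N)) :
    ∫ A, (∫ y in D, gd ψ A y ∂(sphereLaw N)) ∂(gaussPi R N)
      = (sphereLaw N).real D / (sphereLaw N).real univ := by
  have hσp : 0 < (sphereLaw N).real univ := sphereLaw_real_pos
  have hne : Nonempty (UnitSphere N) := by
    by_contra h
    rw [not_nonempty_iff] at h
    have : sphereLaw N = 0 := Measure.eq_zero_of_isEmpty _
    simp [this] at hσp
  obtain ⟨y0⟩ := hne
  have hc : (∫ A, gd ψ A y0 ∂(gaussPi R N)) * (sphereLaw N).real univ = 1 := by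
    rw [← swap_gd hψ hb univ y0]
    simp only [Measure.restrict_univ, integral_gd_one hψ hb]
    simp
  rw [swap_gd hψ hb D y0, eq_div_iff hσp.ne', mul_right_comm, hc, one_mul]

end gibbs

end Crest.Agent.R146L878
end

-- ▼ part R146/Deloc2_878
section

/-!
Row 146, node (F4b): sup-norm tail of the uniform law of the sphere:
`σ(∃ i, |y_i| > δ) / σ(S) ≤ C · N / (N^8 δ^16)` with `C = ∫ t^16 dN(0,1)`.
-/

set_option autoImplicit false

open MeasureTheory Set ProbabilityTheory
open Crest.ProbabilityR.Perceptron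
open Crest.Agent.R070.RotInv260

namespace Crest.Agent.R146L878

variable {N : ℕ}

/-- sixteenth Gaussian moment -/
noncomputable def C16 : ℝ := ∫ t : ℝ, t ^ 16 ∂(gaussianReal 0 1)

theorem gauss_int_pow (n : ℕ) : Integrable (fun t : ℝ => t ^ n) (gaussianReal 0 1) := by
  have h : Integrable (fun t : ℝ => ‖id t‖ ^ n) (gaussianReal 0 1) := by
    rcases Nat.eq_zero_or_pos n with h | h
    · subst h; simp
    · have := (memLp_id_gaussianReal (μ := 0) (v := 1) n).integrable_norm_pow (by omega)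
      exact this
  refine Integrable.mono' h (by fun_prop) (Filter.Eventually.of_forall fun t => ?_)
  simp [abs_pow]

/-- the row of a one-row array -/
noncomputable def rw1 (A : Unit × Fin N → ℝ) (y : UnitSphere N) : ℝ := ∑ i, A ((), i) * sv y i

theorem rw1_rowMap (T : EN N ≃ₗᵢ[ℝ] EN N) (A : Unit × Fin N → ℝ) (y : UnitSphere N) :
    rw1 (rowMap T A) (sphMap T y) = rw1 A y := rowMap_inner T A y ()

theorem measurable_rw1 : Measurable (fun p : (Unit × Fin N → ℝ) × UnitSphere N => rw1 p.1 p.2) := by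
  unfold rw1
  refine Finset.measurable_sum _ fun i _ => ?_
  exact ((measurable_pi_apply ((), i)).comp measurable_fst).mul
    ((measurable_pi_apply i).comp (measurable_sv.comp measurable_snd))

/-- squared norm of the row -/
noncomputable def nsq (A : Unit × Fin N → ℝ) : ℝ := ∑ i, A ((), i) ^ 2

theorem nsq_nonneg (A : Unit × Fin N → ℝ) : 0 ≤ nsq A := Finset.sum_nonneg fun _ _ => sq_nonneg _

theorem sum_sv_sq (y : UnitSphere N) : ∑ i, sv y i ^ 2 = 1 := by
  have h := norm_eq_of_mem_sphere y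
  have h2 : ‖(y : EN N)‖ ^ 2 = 1 := by rw [h]; norm_num
  rw [EuclideanSpace.norm_sq_eq] at h2
  simpa [sv] using h2

theorem rw1_sq_le (A : Unit × Fin N → ℝ) (y : UnitSphere N) : rw1 A y ^ 2 ≤ nsq A := by
  have := Finset.sum_mul_sq_le_sq_mul_sq Finset.univ (fun i => A ((), i)) (sv y)
  rw [sum_sv_sq, mul_one] at this
  exact this

/-- unit coordinate vector -/
noncomputable def ev (i : Fin N) : UnitSphere N :=
  ⟨EuclideanSpace.single i 1, by simp⟩

theorem sv_ev (i j : Fin N) : sv (ev i) j = if j = i then 1 else 0 := by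
  simp [sv, ev]

theorem rw1_ev (A : Unit × Fin N → ℝ) (i : Fin N) : rw1 A (ev i) = A ((), i) := by
  simp [rw1, sv_ev]

/-- averaging the row over the sphere -/
theorem sphere_avg (A : Unit × Fin N → ℝ) (i : Fin N) :
    ∫ y, rw1 A y ^ 16 ∂(sphereLaw N) = nsq A ^ 8 * ∫ y, sv y i ^ 16 ∂(sphereLaw N) := by
  by_cases h0 : nsq A = 0
  · have : ∀ y, rw1 A y = 0 := by
      intro y
      have := rw1_sq_le A y
      rw [h0] at this
      exact pow_eq_zero_iff (two_ne_zero) |>.1 (le_antisymm this (sq_nonneg _))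
    simp [this, h0]
  · have hpos : 0 < nsq A := lt_of_le_of_ne (nsq_nonneg A) (Ne.symm h0)
    set r := Real.sqrt (nsq A) with hr
    have hr0 : 0 < r := Real.sqrt_pos.2 hpos
    have hr2 : r ^ 2 = nsq A := Real.sq_sqrt hpos.le
    set x : EN N := WithLp.toLp 2 fun j => A ((), j) with hx
    have hxn : ‖x‖ ^ 2 = nsq A := by
      rw [EuclideanSpace.norm_sq_eq]
      simp [hx, nsq]
    have hxr : ‖x‖ = r := by
      rw [hr, ← hxn, Real.sqrt_sq (norm_nonneg _)]
    let u : UnitSphere N := ⟨r⁻¹ • x, by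
      rw [mem_sphere_zero_iff_norm, norm_smul, hxr, Real.norm_eq_abs, abs_of_pos (inv_pos.2 hr0)]
      exact inv_mul_cancel₀ hr0.ne'⟩
    obtain ⟨T, hT⟩ := exists_iso (ev i) u
    have hkey : ∀ y, rw1 A (sphMap T y) = r * sv y i := by
      intro y
      have h1 : rw1 A (sphMap T y) = inner ℝ x (T (y : EN N)) := by
        simp only [PiLp.inner_apply, rw1]
        refine Finset.sum_congr rfl fun j _ => ?_
        simp [hx, sv, mul_comm]
      have h2 : x = r • (T (EuclideanSpace.single i (1 : ℝ)) : EN N) := by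
        have : (T (EuclideanSpace.single i (1 : ℝ)) : EN N) = r⁻¹ • x := by
          have := congrArg Subtype.val hT
          exact this
        rw [this, smul_smul, mul_inv_cancel₀ hr0.ne', one_smul]
      rw [h1, h2, real_inner_smul_left, T.inner_map_map]
      congr 1
      rw [EuclideanSpace.inner_single_left]
      simp [sv]
    have hi := integral_sphMap (E := EN N) T (fun y => rw1 A y ^ 16)
    have e1 : ∫ y, rw1 A y ^ 16 ∂(sphereLaw N) = ∫ y, (r * sv y i) ^ 16 ∂(sphereLaw N) := by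
      simp only [hkey] at hi
      exact hi.symm
    rw [e1]
    have e2 : ∀ y : UnitSphere N, (r * sv y i) ^ 16 = nsq A ^ 8 * sv y i ^ 16 := by
      intro y
      rw [mul_pow, ← hr2]; ring
    simp only [e2]
    exact integral_const_mul _ _

/-- averaging the row over the Gaussian law -/
theorem gauss_avg (y : UnitSphere N) (i : Fin N) :
    ∫ A, rw1 A y ^ 16 ∂(gaussPi Unit N) = C16 := by
  obtain ⟨T, hT⟩ := exists_iso (ev i) y
  have hm : Measurable fun A : Unit × Fin N → ℝ => rw1 A y ^ 16 := by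
    have : Measurable fun A : Unit × Fin N → ℝ => rw1 A y :=
      measurable_rw1.comp (measurable_id.prodMk measurable_const)
    exact this.pow_const 16
  have h1 := integral_rowMap T _ hm
  have h2 : ∀ A : Unit × Fin N → ℝ, rw1 (rowMap T A) y ^ 16 = A ((), i) ^ 16 := by
    intro A
    rw [← hT, rw1_rowMap, rw1_ev]
  simp only [h2] at h1
  rw [← h1]
  exact integral_comp_eval (μ := fun _ : Unit × Fin N => gaussianReal 0 1) (i := ((), i))
    (f := fun t : ℝ => t ^ 16) (by fun_prop)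

theorem nsq_pow_le (A : Unit × Fin N → ℝ) : nsq A ^ 8 ≤ (N : ℝ) ^ 7 * ∑ i, A ((), i) ^ 16 := by
  have := pow_sum_le_card_mul_sum_pow (s := Finset.univ) (f := fun i => A ((), i) ^ 2)
    (fun i _ => sq_nonneg _) 7
  simp only [Finset.card_univ, Fintype.card_fin, ← pow_mul] at this
  exact this

theorem integrable_coord_pow (i : Fin N) (n : ℕ) :
    Integrable (fun A : Unit × Fin N → ℝ => A ((), i) ^ n) (gaussPi Unit N) :=
  (measurePreserving_eval (fun _ : Unit × Fin N => gaussianReal 0 1) ((), i)).integrable_comp_of_integrable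
    (gauss_int_pow n)

theorem measurable_nsq : Measurable (nsq (N := N)) := by
  unfold nsq
  exact Finset.measurable_sum _ fun i _ => (measurable_pi_apply ((), i)).pow_const 2

theorem integrable_nsq8 : Integrable (fun A : Unit × Fin N → ℝ => nsq A ^ 8) (gaussPi Unit N) := by
  refine Integrable.mono' ((integrable_finsetSum Finset.univ
    fun i _ => integrable_coord_pow (N := N) i 16).const_mul ((N : ℝ) ^ 7))
    (measurable_nsq.pow_const 8).aestronglyMeasurable (Filter.Eventually.of_forall fun A => ?_)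
  rw [Real.norm_eq_abs, abs_of_nonneg (pow_nonneg (nsq_nonneg A) 8)]
  exact nsq_pow_le A

theorem integrable_nsq : Integrable (fun A : Unit × Fin N → ℝ => nsq A) (gaussPi Unit N) := by
  unfold nsq
  exact integrable_finsetSum _ fun i _ => integrable_coord_pow i 2

theorem integral_nsq : ∫ A, nsq A ∂(gaussPi Unit N) = N := by
  unfold nsq
  rw [integral_finsetSum _ fun i _ => integrable_coord_pow i 2]
  have : ∀ i : Fin N, ∫ A : Unit × Fin N → ℝ, A ((), i) ^ 2 ∂(gaussPi Unit N) = 1 := by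
    intro i
    have := integral_comp_eval (μ := fun _ : Unit × Fin N => gaussianReal 0 1) (i := ((), i))
      (f := fun t : ℝ => t ^ 2) (by fun_prop)
    rw [gauss_var] at this
    simpa using this
  simp [this]

theorem nsq8_lower : (N : ℝ) ^ 8 ≤ ∫ A, nsq A ^ 8 ∂(gaussPi Unit N) := by
  have h : ∀ A : Unit × Fin N → ℝ, (N : ℝ) ^ 8 + 8 * (N : ℝ) ^ 7 * (nsq A - N) ≤ nsq A ^ 8 := by
    intro A
    have hx := nsq_nonneg A
    have hN : (0 : ℝ) ≤ (N : ℝ) := Nat.cast_nonneg N
    generalize nsq A = x at *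
    generalize (N : ℝ) = n at *
    nlinarith [mul_nonneg (pow_nonneg hx 6) (sq_nonneg (x - n)),
      mul_nonneg (mul_nonneg (pow_nonneg hx 5) hN) (sq_nonneg (x - n)),
      mul_nonneg (mul_nonneg (pow_nonneg hx 4) (pow_nonneg hN 2)) (sq_nonneg (x - n)),
      mul_nonneg (mul_nonneg (pow_nonneg hx 3) (pow_nonneg hN 3)) (sq_nonneg (x - n)),
      mul_nonneg (mul_nonneg (pow_nonneg hx 2) (pow_nonneg hN 4)) (sq_nonneg (x - n)),
      mul_nonneg (mul_nonneg (pow_nonneg hx 1) (pow_nonneg hN 5)) (sq_nonneg (x - n)),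
      mul_nonneg (pow_nonneg hN 6) (sq_nonneg (x - n))]
  have hi1 : Integrable (fun A : Unit × Fin N → ℝ => (N : ℝ) ^ 8 + 8 * (N : ℝ) ^ 7 * (nsq A - N))
      (gaussPi Unit N) := by
    exact (integrable_const _).add ((integrable_nsq.sub (integrable_const _)).const_mul _)
  have h1 := integral_mono hi1 integrable_nsq8 h
  have h2 : ∫ A : Unit × Fin N → ℝ, ((N : ℝ) ^ 8 + 8 * (N : ℝ) ^ 7 * (nsq A - N)) ∂(gaussPi Unit N)
      = (N : ℝ) ^ 8 := by
    have hs : Integrable (fun A : Unit × Fin N → ℝ => nsq A - (N : ℝ)) (gaussPi Unit N) :=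
      integrable_nsq.sub (integrable_const _)
    have e1 := integral_add (μ := gaussPi Unit N)
      (f := fun _ : Unit × Fin N → ℝ => (N : ℝ) ^ 8)
      (g := fun A : Unit × Fin N → ℝ => 8 * (N : ℝ) ^ 7 * (nsq A - N))
      (integrable_const _) (hs.const_mul _)
    have e2 : ∫ A : Unit × Fin N → ℝ, (nsq A - (N : ℝ)) ∂(gaussPi Unit N) = 0 := by
      have := integral_sub (μ := gaussPi Unit N) (f := fun A : Unit × Fin N → ℝ => nsq A)
        (g := fun _ => (N : ℝ)) integrable_nsq (integrable_const _)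
      rw [this, integral_nsq]; simp
    rw [e1, integral_const_mul, e2]
    simp
  rwa [h2] at h1

theorem integrable_rw1 : Integrable (Function.uncurry fun (A : Unit × Fin N → ℝ)
    (y : UnitSphere N) => rw1 A y ^ 16) ((gaussPi Unit N).prod (sphereLaw N)) := by
  have h1 : Integrable (fun p : (Unit × Fin N → ℝ) × UnitSphere N => nsq p.1 ^ 8)
      ((gaussPi Unit N).prod (sphereLaw N)) := by
    have := (integrable_nsq8 (N := N)).comp_fst (sphereLaw N)
    exact this
  refine Integrable.mono' h1 (measurable_rw1.pow_const 16).aestronglyMeasurable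
    (Filter.Eventually.of_forall fun p => ?_)
  simp only [Function.uncurry, Real.norm_eq_abs]
  rw [abs_of_nonneg (by positivity)]
  calc rw1 p.1 p.2 ^ 16 = (rw1 p.1 p.2 ^ 2) ^ 8 := by ring
    _ ≤ nsq p.1 ^ 8 := pow_le_pow_left₀ (sq_nonneg _) (rw1_sq_le _ _) 8

/-- the moment bound -/
theorem moment_bound (i : Fin N) :
    (N : ℝ) ^ 8 * ∫ y, sv y i ^ 16 ∂(sphereLaw N) ≤ C16 * (sphereLaw N).real univ := by
  have h1 := integral_integral_swap (μ := gaussPi Unit N) (ν := sphereLaw N)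
    (f := fun A y => rw1 A y ^ 16) integrable_rw1
  have h2 : ∫ A, ∫ y, rw1 A y ^ 16 ∂(sphereLaw N) ∂(gaussPi Unit N)
      = (∫ A, nsq A ^ 8 ∂(gaussPi Unit N)) * ∫ y, sv y i ^ 16 ∂(sphereLaw N) := by
    simp only [sphere_avg _ i]
    exact integral_mul_const _ _
  have h3 : ∫ y, ∫ A, rw1 A y ^ 16 ∂(gaussPi Unit N) ∂(sphereLaw N)
      = C16 * (sphereLaw N).real univ := by
    simp only [gauss_avg _ i]
    simp [mul_comm]
  rw [h2, h3] at h1
  rw [← h1]
  exact mul_le_mul_of_nonneg_right nsq8_lower (integral_nonneg fun y => by positivity)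

theorem measurableSet_deloc (δ : ℝ) : MeasurableSet {y : UnitSphere N | ∀ i, |sv y i| ≤ δ} := by
  have : {y : UnitSphere N | ∀ i, |sv y i| ≤ δ} = ⋂ i, {y | |sv y i| ≤ δ} := by
    ext y; simp
  rw [this]
  refine MeasurableSet.iInter fun i => ?_
  have : Measurable fun y : UnitSphere N => |sv y i| :=
    ((measurable_pi_apply i).comp measurable_sv).abs
  exact measurableSet_le this measurable_const

/-- **sup-norm tail** -/
theorem deloc_tail (hN : 0 < N) {δ : ℝ} (hδ : 0 < δ) :
    (sphereLaw N).real {y : UnitSphere N | ∀ i, |sv y i| ≤ δ}ᶜ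
      ≤ (N * C16 / ((N : ℝ) ^ 8 * δ ^ 16)) * (sphereLaw N).real univ := by
  have hN' : (0 : ℝ) < N := Nat.cast_pos.2 hN
  have hsub : {y : UnitSphere N | ∀ i, |sv y i| ≤ δ}ᶜ ⊆ ⋃ i, {y | δ ^ 16 ≤ sv y i ^ 16} := by
    intro y hy
    simp only [mem_compl_iff, mem_setOf_eq, not_forall, not_le] at hy
    obtain ⟨i, hi⟩ := hy
    refine mem_iUnion.2 ⟨i, ?_⟩
    show δ ^ 16 ≤ sv y i ^ 16
    have h1 := pow_le_pow_left₀ hδ.le hi.le 16
    have h2 : |sv y i| ^ 16 = sv y i ^ 16 := by
      rw [show (16 : ℕ) = 2 * 8 by norm_num, pow_mul, sq_abs, ← pow_mul]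
    rwa [h2] at h1
  have hone : ∀ i : Fin N, (sphereLaw N).real {y | δ ^ 16 ≤ sv y i ^ 16}
      ≤ (C16 / ((N : ℝ) ^ 8 * δ ^ 16)) * (sphereLaw N).real univ := by
    intro i
    have hsvm : Measurable fun y : UnitSphere N => sv y i :=
      (measurable_pi_apply i).comp measurable_sv
    have hle1 : ∀ y : UnitSphere N, |sv y i| ≤ 1 := by
      intro y
      have := Finset.single_le_sum (f := fun i => sv y i ^ 2) (fun j _ => sq_nonneg _)
        (Finset.mem_univ i)
      rw [sum_sv_sq] at this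
      exact (sq_le_one_iff_abs_le_one _).1 this
    have hint : Integrable (fun y : UnitSphere N => sv y i ^ 16) (sphereLaw N) := by
      refine Integrable.of_bound (hsvm.pow_const 16).aestronglyMeasurable 1
        (Filter.Eventually.of_forall fun y => ?_)
      rw [Real.norm_eq_abs, abs_pow]
      exact pow_le_one₀ (abs_nonneg _) (hle1 y)
    have hmk := mul_meas_ge_le_integral_of_nonneg (μ := sphereLaw N)
      (f := fun y : UnitSphere N => sv y i ^ 16)
      (Filter.Eventually.of_forall fun y => by positivity) hint (δ ^ 16)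
    have hmb := moment_bound i
    have h8 : (0 : ℝ) < (N : ℝ) ^ 8 := by positivity
    have h16 : (0 : ℝ) < δ ^ 16 := by positivity
    rw [div_mul_eq_mul_div, le_div_iff₀ (by positivity)]
    calc (sphereLaw N).real {y | δ ^ 16 ≤ sv y i ^ 16} * ((N : ℝ) ^ 8 * δ ^ 16)
        = (N : ℝ) ^ 8 * (δ ^ 16 * (sphereLaw N).real {y | δ ^ 16 ≤ sv y i ^ 16}) := by ring
      _ ≤ (N : ℝ) ^ 8 * ∫ y, sv y i ^ 16 ∂(sphereLaw N) :=
        mul_le_mul_of_nonneg_left hmk h8.le
      _ ≤ C16 * (sphereLaw N).real univ := hmb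
  calc (sphereLaw N).real {y : UnitSphere N | ∀ i, |sv y i| ≤ δ}ᶜ
      ≤ (sphereLaw N).real (⋃ i, {y : UnitSphere N | δ ^ 16 ≤ sv y i ^ 16}) :=
        measureReal_mono hsub
    _ ≤ ∑ i, (sphereLaw N).real {y : UnitSphere N | δ ^ 16 ≤ sv y i ^ 16} :=
        measureReal_iUnion_fintype_le _
    _ ≤ ∑ _i : Fin N, (C16 / ((N : ℝ) ^ 8 * δ ^ 16)) * (sphereLaw N).real univ :=
        Finset.sum_le_sum fun i _ => hone i
    _ = (N * C16 / ((N : ℝ) ^ 8 * δ ^ 16)) * (sphereLaw N).real univ := by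
        simp only [Finset.sum_const, Finset.card_univ, Fintype.card_fin, nsmul_eq_mul]
        ring

end Crest.Agent.R146L878
end

-- ▼ part R146/Deloc3_878

/-!
Row 146, node (F5): for bounded `C³` potentials the pressure under the mixture law is asymptotically
at least the Gaussian pressure.
-/

set_option autoImplicit false

open MeasureTheory Set ProbabilityTheory
open Crest.ProbabilityR.Perceptron

namespace Crest.Agent.R146L878

variable {N M : ℕ}

/-- mixture array law -/
noncomputable abbrev mixPi (M N : ℕ) (ε : ℝ) : Measure (Fin M × Fin N → ℝ) :=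
  Measure.pi fun _ : Fin M × Fin N => mixtureLaw ε

/-- delocalised configurations -/
def DD (N : ℕ) (δ : ℝ) : Set (UnitSphere N) := {y | ∀ i, |sv y i| ≤ δ}

theorem measurableSet_DD (δ : ℝ) : MeasurableSet (DD N δ) := measurableSet_deloc δ

section bounds

variable {ψ : Fin M → ℝ → ℝ} {K0 : ℝ}

theorem abs_expo_le (hb : ∀ a x, |ψ a x| ≤ K0) {Y : Type*} (v : Y → Fin N → ℝ)
    (A : Fin M × Fin N → ℝ) (y : Y) : |expo ψ v A y| ≤ M * K0 := by
  unfold expo
  refine (Finset.abs_sum_le_sum_abs _ _).trans ((Finset.sum_le_sum fun a _ => hb a _).trans ?_)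
  simp

theorem logZ_le (hψ : ∀ a, Measurable (ψ a)) (hb : ∀ a x, |ψ a x| ≤ K0)
    {Y : Type*} [MeasurableSpace Y] (ρ : Measure Y) [IsFiniteMeasure ρ] (hρ : 0 < ρ.real univ)
    {v : Y → Fin N → ℝ} (hv : Measurable v) (A : Fin M × Fin N → ℝ) :
    logZ ρ ψ v A ≤ M * K0 + Real.log (ρ.real univ) := by
  have hb' : ∀ a x, ψ a x ≤ K0 := fun a x => (le_abs_self _).trans (hb a x)
  have hpos := int_exp_pos hψ hb' ρ hρ hv A
  have h : ∫ y, Real.exp (expo ψ v A y) ∂ρ ≤ Real.exp (M * K0) * ρ.real univ := by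
    calc _ ≤ ∫ _y, Real.exp (M * K0) ∂ρ :=
          integral_mono (integrable_exp_expo hψ hb' ρ hv A) (integrable_const _) fun y =>
            Real.exp_le_exp.2 ((le_abs_self _).trans (abs_expo_le hb v A y))
      _ = _ := by simp [mul_comm]
  unfold logZ
  have := Real.log_le_log hpos h
  rwa [Real.log_mul (Real.exp_pos _).ne' hρ.ne', Real.log_exp] at this

theorem le_logZ (hψ : ∀ a, Measurable (ψ a)) (hb : ∀ a x, |ψ a x| ≤ K0)
    {Y : Type*} [MeasurableSpace Y] (ρ : Measure Y) [IsFiniteMeasure ρ] (hρ : 0 < ρ.real univ)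
    {v : Y → Fin N → ℝ} (hv : Measurable v) (A : Fin M × Fin N → ℝ) :
    -(M * K0) + Real.log (ρ.real univ) ≤ logZ ρ ψ v A := by
  have hb' : ∀ a x, ψ a x ≤ K0 := fun a x => (le_abs_self _).trans (hb a x)
  have h : Real.exp (-(M * K0)) * ρ.real univ ≤ ∫ y, Real.exp (expo ψ v A y) ∂ρ := by
    calc _ = ∫ _y, Real.exp (-(M * K0)) ∂ρ := by simp [mul_comm]
      _ ≤ _ := integral_mono (integrable_const _) (integrable_exp_expo hψ hb' ρ hv A) fun y =>
            Real.exp_le_exp.2 (abs_le.1 (abs_expo_le hb v A y)).1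
  unfold logZ
  have := Real.log_le_log (mul_pos (Real.exp_pos _) hρ) h
  rwa [Real.log_mul (Real.exp_pos _).ne' hρ.ne', Real.log_exp] at this

theorem integrable_logZ (hψ : ∀ a, Measurable (ψ a)) (hb : ∀ a x, |ψ a x| ≤ K0)
    {Y : Type*} [MeasurableSpace Y] (ρ : Measure Y) [IsFiniteMeasure ρ] (hρ : 0 < ρ.real univ)
    {v : Y → Fin N → ℝ} (hv : Measurable v) (P : Measure (Fin M × Fin N → ℝ)) [IsFiniteMeasure P] :
    Integrable (logZ ρ ψ v) P := by
  refine Integrable.of_bound (measurable_logZ ρ hψ hv).aestronglyMeasurable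
    (M * K0 + |Real.log (ρ.real univ)|) (Filter.Eventually.of_forall fun A => ?_)
  rw [Real.norm_eq_abs, abs_le]
  have h1 := logZ_le hψ hb ρ hρ hv A
  have h2 := le_logZ hψ hb ρ hρ hv A
  have h3 := le_abs_self (Real.log (ρ.real univ))
  have h4 := neg_abs_le (Real.log (ρ.real univ))
  constructor <;> linarith

/-- restricting the reference measure lowers `logZ` -/
theorem logZ_restrict_le (hψ : ∀ a, Measurable (ψ a)) (hb : ∀ a x, |ψ a x| ≤ K0)
    {Y : Type*} [MeasurableSpace Y] (ρ : Measure Y) [IsFiniteMeasure ρ] {D : Set Y}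
    (hρ : 0 < (ρ.restrict D).real univ)
    {v : Y → Fin N → ℝ} (hv : Measurable v) (A : Fin M × Fin N → ℝ) :
    logZ (ρ.restrict D) ψ v A ≤ logZ ρ ψ v A := by
  have hb' : ∀ a x, ψ a x ≤ K0 := fun a x => (le_abs_self _).trans (hb a x)
  unfold logZ
  refine Real.log_le_log (int_exp_pos hψ hb' _ hρ hv A) ?_
  exact setIntegral_le_integral (integrable_exp_expo hψ hb' ρ hv A)
    (Filter.Eventually.of_forall fun y => (Real.exp_pos _).le)

/-- pointwise lower bound of the restricted `logZ` -/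
theorem logZ_restrict_ge [NeZero N] (hψ : ∀ a, Measurable (ψ a)) (hb : ∀ a x, |ψ a x| ≤ K0)
    (hK0 : 0 ≤ K0) {D : Set (UnitSphere N)} (hD : MeasurableSet D)
    (hhalf : (sphereLaw N).real univ / 2 ≤ (sphereLaw N).real D) (A : Fin M × Fin N → ℝ) :
    logZ (sphereLaw N) ψ sv A - Real.log 2
      - 4 * M * K0 * (∫ y in Dᶜ, gd ψ A y ∂(sphereLaw N))
      ≤ logZ ((sphereLaw N).restrict D) ψ sv A := by
  have hb' : ∀ a x, ψ a x ≤ K0 := fun a x => (le_abs_self _).trans (hb a x)
  have hσ : 0 < (sphereLaw N).real univ := sphereLaw_real_pos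
  have hσD : 0 < (sphereLaw N).real D := by linarith [half_pos hσ]
  have hρ : 0 < ((sphereLaw N).restrict D).real univ := by
    rw [measureReal_restrict_apply_univ]; exact hσD
  have hZ : 0 < ZS ψ A := int_exp_pos hψ hb' (sphereLaw N) hσ measurable_sv A
  have hint := integrable_exp_expo hψ hb' (sphereLaw N) measurable_sv A
  set w := ∫ y in Dᶜ, gd ψ A y ∂(sphereLaw N) with hw
  have hw0 : 0 ≤ w := setIntegral_nonneg hD.compl fun y _ => gd_nonneg hψ hb' A y
  have hw1 : w = (∫ y in Dᶜ, Real.exp (expo ψ sv A y) ∂(sphereLaw N)) / ZS ψ A := by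
    rw [hw]; unfold gd; exact integral_div _ _
  have hsplit : (∫ y in D, Real.exp (expo ψ sv A y) ∂(sphereLaw N))
      + ∫ y in Dᶜ, Real.exp (expo ψ sv A y) ∂(sphereLaw N) = ZS ψ A :=
    integral_add_compl hD hint
  by_cases hc : w ≤ 1 / 2
  · have h1 : ZS ψ A / 2 ≤ ∫ y in D, Real.exp (expo ψ sv A y) ∂(sphereLaw N) := by
      have : ∫ y in Dᶜ, Real.exp (expo ψ sv A y) ∂(sphereLaw N) = w * ZS ψ A := by
        rw [hw1, div_mul_cancel₀ _ hZ.ne']
      nlinarith
    have h2 := Real.log_le_log (half_pos hZ) h1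
    rw [Real.log_div hZ.ne' two_ne_zero] at h2
    have h3 : (0 : ℝ) ≤ 4 * M * K0 * w := by positivity
    show Real.log (ZS ψ A) - Real.log 2 - 4 * M * K0 * w ≤ _
    unfold logZ
    linarith
  · push Not at hc
    have h1 := logZ_le hψ hb (sphereLaw N) hσ measurable_sv A
    have h2 := le_logZ hψ hb _ hρ measurable_sv A
    have h3 : Real.log ((sphereLaw N).real univ) - Real.log 2
        ≤ Real.log (((sphereLaw N).restrict D).real univ) := by
      rw [← Real.log_div hσ.ne' two_ne_zero, measureReal_restrict_apply_univ]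
      exact Real.log_le_log (half_pos hσ) hhalf
    have h4 : 2 * (M * K0) ≤ 4 * M * K0 * w := by
      have : (0 : ℝ) ≤ M * K0 := by positivity
      nlinarith
    linarith

end bounds

/-- **the finite-volume comparison** -/
theorem mix_ge_gauss [NeZero N] {ε : ℝ} (h0 : 0 ≤ ε) (h1 : ε < 1)
    {ψ ψ1 ψ2 ψ3 : Fin M → ℝ → ℝ} {K0 K1 K2 K3 : ℝ} (hK0 : 0 ≤ K0)
    (h : ∀ a, C3b (ψ a) (ψ1 a) (ψ2 a) (ψ3 a) K0 K1 K2 K3) (hb : ∀ a x, |ψ a x| ≤ K0)
    {δ : ℝ} (hδ : 0 < δ) (hτ : N * C16 / ((N : ℝ) ^ 8 * δ ^ 16) ≤ 1 / 2) :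
    ∫ A, logZ (sphereLaw N) ψ sv A ∂(gaussPi (Fin M) N) - Real.log 2
        - 4 * M * K0 * (N * C16 / ((N : ℝ) ^ 8 * δ ^ 16))
        - (M * N) * ((K3 + 6 * K1 * K2 + 6 * K1 ^ 3) * δ ^ 3) * T3 ε
      ≤ ∫ A, logZ (sphereLaw N) ψ sv A ∂(mixPi M N ε) := by
  have hN : 0 < N := Nat.pos_of_ne_zero (NeZero.ne N)
  have hψ : ∀ a, Measurable (ψ a) := fun a => (h a).c0.measurable
  have hb' : ∀ a x, ψ a x ≤ K0 := fun a x => (le_abs_self _).trans (hb a x)
  set D := DD N δ with hD
  have hDm : MeasurableSet D := measurableSet_DD δ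
  set τ := N * C16 / ((N : ℝ) ^ 8 * δ ^ 16) with hτd
  have hσ : 0 < (sphereLaw N).real univ := sphereLaw_real_pos
  have htail : (sphereLaw N).real Dᶜ ≤ τ * (sphereLaw N).real univ := deloc_tail hN hδ
  have hhalf : (sphereLaw N).real univ / 2 ≤ (sphereLaw N).real D := by
    have := measureReal_add_measureReal_compl (μ := sphereLaw N) hDm
    nlinarith
  have hσD : 0 < (sphereLaw N).real D := by linarith [half_pos hσ]
  have hρ : 0 < ((sphereLaw N).restrict D).real univ := by
    rw [measureReal_restrict_apply_univ]; exact hσD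
  -- the truncated field
  let v' : UnitSphere N → Fin N → ℝ := D.indicator sv
  have hv' : Measurable v' := measurable_sv.indicator hDm
  have hvδ : ∀ y i, |v' y i| ≤ δ := by
    intro y i
    by_cases hy : y ∈ D
    · simp only [v', indicator_of_mem hy]; exact hy i
    · simp only [v', indicator_of_notMem hy]; simpa using hδ.le
  have hvv : ∀ A : Fin M × Fin N → ℝ,
      logZ ((sphereLaw N).restrict D) ψ v' A = logZ ((sphereLaw N).restrict D) ψ sv A := by
    intro A
    unfold logZ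
    congr 1
    refine setIntegral_congr_fun hDm fun y hy => ?_
    simp only [expo, v', indicator_of_mem hy]
  have hlin := lindeberg_mix (M := M) (N := N) h0 h1 ((sphereLaw N).restrict D) hρ h hv' hvδ
  simp only [hvv] at hlin
  -- mixture side
  have hA : ∫ A, logZ ((sphereLaw N).restrict D) ψ sv A ∂(mixPi M N ε)
      ≤ ∫ A, logZ (sphereLaw N) ψ sv A ∂(mixPi M N ε) :=
    integral_mono (integrable_logZ hψ hb _ hρ measurable_sv _)
      (integrable_logZ hψ hb _ hσ measurable_sv _)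
      fun A => logZ_restrict_le hψ hb (sphereLaw N) hρ measurable_sv A
  -- Gaussian side
  have hwi : Integrable (fun A : Fin M × Fin N → ℝ => ∫ y in Dᶜ, gd ψ A y ∂(sphereLaw N))
      (gaussPi (Fin M) N) := by
    have h2 := (integrable_gd (N := N) hψ hb').restrict (s := univ ×ˢ Dᶜ)
    rw [← Measure.prod_restrict, Measure.restrict_univ] at h2
    exact h2.integral_prod_left
  have hB : ∫ A, logZ (sphereLaw N) ψ sv A ∂(gaussPi (Fin M) N) - Real.log 2 - 4 * M * K0 * τ
      ≤ ∫ A, logZ ((sphereLaw N).restrict D) ψ sv A ∂(gaussPi (Fin M) N) := by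
    have hi0 := integrable_logZ hψ hb (sphereLaw N) hσ measurable_sv (gaussPi (Fin M) N)
    have hi1 : Integrable (fun A : Fin M × Fin N → ℝ => logZ (sphereLaw N) ψ sv A - Real.log 2)
        (gaussPi (Fin M) N) := hi0.sub (integrable_const _)
    have hi2 : Integrable (fun A : Fin M × Fin N → ℝ =>
        4 * M * K0 * (∫ y in Dᶜ, gd ψ A y ∂(sphereLaw N))) (gaussPi (Fin M) N) :=
      hwi.const_mul _
    have hmono := integral_mono (hi1.sub hi2)
      (integrable_logZ hψ hb _ hρ measurable_sv (gaussPi (Fin M) N))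
      (fun A => logZ_restrict_ge hψ hb hK0 hDm hhalf A)
    have e1 := integral_sub hi1 hi2
    have e2 := integral_sub hi0 (integrable_const (μ := gaussPi (Fin M) N) (Real.log 2))
    have e3 : ∫ A : Fin M × Fin N → ℝ, 4 * M * K0 * (∫ y in Dᶜ, gd ψ A y ∂(sphereLaw N))
        ∂(gaussPi (Fin M) N)
        = 4 * M * K0 * ((sphereLaw N).real Dᶜ / (sphereLaw N).real univ) := by
      rw [integral_const_mul, mean_gibbs hψ hb' Dᶜ]
    have e4 : (sphereLaw N).real Dᶜ / (sphereLaw N).real univ ≤ τ := by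
      rw [div_le_iff₀ hσ]; exact htail
    have e5 : (0 : ℝ) ≤ 4 * M * K0 := by positivity
    have e6 := mul_le_mul_of_nonneg_left e4 e5
    have e7 : ∫ _A : Fin M × Fin N → ℝ, Real.log 2 ∂(gaussPi (Fin M) N) = Real.log 2 := by simp
    have e8 : ∫ A : Fin M × Fin N → ℝ, ((fun A => logZ (sphereLaw N) ψ sv A - Real.log 2)
        - fun A => 4 * M * K0 * (∫ y in Dᶜ, gd ψ A y ∂(sphereLaw N))) A ∂(gaussPi (Fin M) N)
        = ∫ A, logZ (sphereLaw N) ψ sv A ∂(gaussPi (Fin M) N) - Real.log 2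
          - 4 * M * K0 * ((sphereLaw N).real Dᶜ / (sphereLaw N).real univ) := by
      refine e1.trans ?_
      rw [e3, e2, e7]
    rw [e8] at hmono
    linarith
  have hC := (abs_le.1 hlin).1
  linarith

end Crest.Agent.R146L878
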