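import Crest.Agent.R146.HilbA_356

/-!
# R146, package P5, abstract Hilbert part (helper356), file B

* `Res.Q_harm` : joint convexity of `(x, 1/D) ↦ Q D x`;
* `Res.Dop_tendsto` : `Dop D_n x_n → Dop D x` for bounded `D_n → D` locally uniformly on `[0,1)`;
* `Res.inner_Dop_mul`, `Res.Dop_mul` : multiplicativity; `Res.P_Dop` commutation;
* `Res.inner_Dop_eq_integral` : `⟪y, Dop D x⟫ = ∫_0^1 m(t) ⟪y, P_t x⟫ dt + d ⟪y, x⟫` if
  `D t = d + ∫_t^1 m`.
-/

set_option autoImplicit false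

namespace Crest.Agent.R146.Hilb

open Set Filter Topology MeasureTheory
open scoped RealInnerProductSpace

variable {H : Type*} [NormedAddCommGroup H] [InnerProductSpace ℝ H]

/-- pointwise inequality behind the joint convexity -/
lemma harm_pointwise {g k θ f : ℝ} (hg : 0 < g) (hk : 0 < k) (h0 : 0 ≤ θ) (h1 : θ ≤ 1)
    (hf : f ≤ 1 / ((1 - θ) / g + θ / k)) (a b : H) :
    f * ‖(1 - θ) • a + θ • b‖ ^ 2 ≤ (1 - θ) * (g * ‖a‖ ^ 2) + θ * (k * ‖b‖ ^ 2) := by
  have hpos : 0 < (1 - θ) * k + θ * g := by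
    rcases h0.lt_or_eq with h | h
    · have := mul_pos h hg
      nlinarith [mul_nonneg (sub_nonneg.2 h1) hk.le]
    · subst h; simpa using hk
  have e1 : 1 / ((1 - θ) / g + θ / k) = g * k / ((1 - θ) * k + θ * g) := by
    have : (1 - θ) / g + θ / k = ((1 - θ) * k + θ * g) / (g * k) := by field_simp
    rw [this, one_div_div]
  rw [e1] at hf
  refine (mul_le_mul_of_nonneg_right hf (sq_nonneg _)).trans ?_
  rw [div_mul_eq_mul_div, div_le_iff₀ hpos]
  have e2 : ‖(1 - θ) • a + θ • b‖ ^ 2 =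
      (1 - θ) ^ 2 * ‖a‖ ^ 2 + 2 * ((1 - θ) * θ * ⟪a, b⟫) + θ ^ 2 * ‖b‖ ^ 2 := by
    rw [norm_add_sq_real, norm_smul, norm_smul, mul_pow, mul_pow, real_inner_smul_left,
      real_inner_smul_right, Real.norm_eq_abs, Real.norm_eq_abs, sq_abs, sq_abs]
    ring
  have e3 : ‖g • a - k • b‖ ^ 2 = g ^ 2 * ‖a‖ ^ 2 - 2 * (g * k * ⟪a, b⟫) + k ^ 2 * ‖b‖ ^ 2 := by
    rw [norm_sub_sq_real, norm_smul, norm_smul, mul_pow, mul_pow, real_inner_smul_left,
      real_inner_smul_right, Real.norm_eq_abs, Real.norm_eq_abs, sq_abs, sq_abs]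
    ring
  have e4 : 0 ≤ θ * (1 - θ) * ‖g • a - k • b‖ ^ 2 :=
    mul_nonneg (mul_nonneg h0 (sub_nonneg.2 h1)) (sq_nonneg _)
  rw [e3] at e4
  rw [e2]
  nlinarith [e4]

namespace Res

variable (R : Res H)

section Complete

variable [CompleteSpace H]

/-- **Joint convexity** of `(x, 1/D) ↦ Q D x`. -/
theorem Q_harm {f g k : ℝ → ℝ} (hf : ContinuousOn f (Icc 0 1)) (hg : ContinuousOn g (Icc 0 1))
    (hk : ContinuousOn k (Icc 0 1)) {θ : ℝ} (h0 : 0 ≤ θ) (h1 : θ ≤ 1)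
    (hg0 : ∀ t ∈ Ico (0 : ℝ) 1, 0 < g t) (hk0 : ∀ t ∈ Ico (0 : ℝ) 1, 0 < k t)
    (hfh : ∀ t ∈ Ico (0 : ℝ) 1, f t ≤ 1 / ((1 - θ) / g t + θ / k t)) (x y : H) :
    R.Q f ((1 - θ) • x + θ • y) ≤ (1 - θ) * R.Q g x + θ * R.Q k y := by
  have hcl : closure (Ico (0 : ℝ) 1) = Icc 0 1 := closure_Ico zero_ne_one
  have key : ∀ t ∈ Icc (0 : ℝ) 1, ∀ a b : H,
      f t * ‖(1 - θ) • a + θ • b‖ ^ 2 ≤ (1 - θ) * (g t * ‖a‖ ^ 2) + θ * (k t * ‖b‖ ^ 2) := by
    intro t ht a b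
    rw [← hcl] at ht hf hg hk
    refine le_on_closure (s := Ico (0 : ℝ) 1)
      (f := fun t => f t * ‖(1 - θ) • a + θ • b‖ ^ 2)
      (g := fun t => (1 - θ) * (g t * ‖a‖ ^ 2) + θ * (k t * ‖b‖ ^ 2))
      (fun s hs => harm_pointwise (hg0 s hs) (hk0 s hs) h0 h1 (hfh s hs) a b) ?_ ?_ ht
    · exact hf.mul continuousOn_const
    · exact (continuousOn_const.mul (hg.mul continuousOn_const)).add
        (continuousOn_const.mul (hk.mul continuousOn_const))
  refine le_of_tendsto_of_tendsto' (R.Q_tendsto hf _)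
    (((R.Q_tendsto hg x).const_mul (1 - θ)).add ((R.Q_tendsto hk y).const_mul θ)) fun n => ?_
  have e0 : ∀ A : H →L[ℝ] H, A ((1 - θ) • x + θ • y) = (1 - θ) • A x + θ • A y := fun A => by
    rw [map_add, map_smul, map_smul]
  have h2 := key 0 (by simp) (R.P 0 x) (R.P 0 y)
  have h3 := Finset.sum_le_sum fun i (hi : i ∈ Finset.range (2 ^ n)) =>
    key (dy n (i + 1)) (dy_mem (Finset.mem_range.1 hi)) (R.inc (dy n i) (dy n (i + 1)) x)
      (R.inc (dy n i) (dy n (i + 1)) y)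
  rw [Finset.sum_add_distrib, ← Finset.mul_sum, ← Finset.mul_sum] at h3
  simp only [e0]
  linarith

/-- midpoint form of `Q_harm` -/
theorem Q_harm_mid {f g k : ℝ → ℝ} (hf : ContinuousOn f (Icc 0 1)) (hg : ContinuousOn g (Icc 0 1))
    (hk : ContinuousOn k (Icc 0 1))
    (hg0 : ∀ t ∈ Ico (0 : ℝ) 1, 0 < g t) (hk0 : ∀ t ∈ Ico (0 : ℝ) 1, 0 < k t)
    (hfh : ∀ t ∈ Ico (0 : ℝ) 1, f t ≤ 2 * g t * k t / (g t + k t)) (x y : H) :
    R.Q f ((1 / 2 : ℝ) • (x + y)) ≤ (R.Q g x + R.Q k y) / 2 := by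
  have h := R.Q_harm hf hg hk (θ := 1 / 2) (by norm_num) (by norm_num) hg0 hk0
    (fun t ht => by
      have a := hg0 t ht
      have b := hk0 t ht
      refine (hfh t ht).trans (le_of_eq ?_)
      field_simp
      ring) x y
  have e : (1 - (1 / 2 : ℝ)) • x + (1 / 2 : ℝ) • y = (1 / 2 : ℝ) • (x + y) := by
    rw [smul_add]; norm_num
  rw [e] at h
  linarith

/-! ### multiplicativity and commutation -/



omit [CompleteSpace H] in
lemma P_comm (s t : ℝ) (x : H) : R.P s (R.P t x) = R.P t (R.P s x) := by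
  rcases le_total s t with h | h
  · rw [R.mul s t h, R.mul' h]
  · rw [R.mul t s h, R.mul' h]

lemma P_Dop {g : ℝ → ℝ} (hg : ContinuousOn g (Icc 0 1)) (s : ℝ) (x : H) :
    R.P s (R.Dop g x) = R.Dop g (R.P s x) := by
  have h1 : Tendsto (fun n => R.P s (R.S g n x)) atTop (𝓝 (R.P s (R.Dop g x))) :=
    ((R.P s).continuous.tendsto _).comp (R.S_tendsto_apply hg x)
  refine tendsto_nhds_unique h1 ((R.S_tendsto_apply hg (R.P s x)).congr fun n => ?_)
  simp only [S_apply, RS_apply, map_add, map_smul, map_sum, inc_apply, map_sub, R.P_comm s]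


/-- continuity of `(D,x) ↦ Dop D x` for uniformly bounded `D_n → D` locally uniformly on `[0,1)`. -/
theorem Dop_tendsto {ι : Type*} {l : Filter ι} {Dn : ι → ℝ → ℝ} {D : ℝ → ℝ} {xn : ι → H} {x : H}
    {B : ℝ} (hDn : ∀ᶠ i in l, ContinuousOn (Dn i) (Icc 0 1)) (hD : ContinuousOn D (Icc 0 1))
    (hB : ∀ᶠ i in l, ∀ t ∈ Icc (0 : ℝ) 1, |Dn i t| ≤ B) (hBD : ∀ t ∈ Icc (0 : ℝ) 1, |D t| ≤ B)
    (hu : ∀ T ∈ Ico (0 : ℝ) 1, TendstoUniformlyOn Dn D l (Icc 0 T)) (hx : Tendsto xn l (𝓝 x)) :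
    Tendsto (fun i => R.Dop (Dn i) (xn i)) l (𝓝 (R.Dop D x)) := by
  have hB0 : 0 ≤ B := (abs_nonneg _).trans (hBD 0 (by simp))
  -- main term
  have hmain : Tendsto (fun i => ‖R.Dop (fun t => Dn i t - D t) x‖ ^ 2) l (𝓝 0) := by
    rw [Metric.tendsto_nhds]
    intro ε hε
    -- choose `T'` with small tail mass
    have hP : Tendsto (fun t => (2 * B) ^ 2 * (‖x‖ ^ 2 - ‖R.P t x‖ ^ 2)) (𝓝[<] 1) (𝓝 0) := by
      have := ((R.left x).norm.pow 2).const_sub (‖x‖ ^ 2) |>.const_mul ((2 * B) ^ 2)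
      simpa using this
    have hev : ∀ᶠ t in 𝓝[<] (1 : ℝ), (2 * B) ^ 2 * (‖x‖ ^ 2 - ‖R.P t x‖ ^ 2) < ε / 2 :=
      hP.eventually (gt_mem_nhds (by positivity))
    have hev2 : ∀ᶠ t in 𝓝[<] (1 : ℝ), t ∈ Ioo (0 : ℝ) 1 := Ioo_mem_nhdsLT zero_lt_one
    obtain ⟨T', hT', hT'1⟩ := (hev.and hev2).exists
    obtain ⟨T, hT1, hT2⟩ := exists_between hT'1.2
    obtain ⟨b, hb, hb2⟩ : ∃ b : ℝ, 0 < b ∧ b ^ 2 * ‖x‖ ^ 2 < ε / 2 := by
      have : Tendsto (fun b : ℝ => b ^ 2 * ‖x‖ ^ 2) (𝓝[>] 0) (𝓝 (0 ^ 2 * ‖x‖ ^ 2)) :=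
        ((continuous_pow 2).tendsto' 0 _ rfl |>.mul_const _).mono_left nhdsWithin_le_nhds
      rw [zero_pow two_ne_zero, zero_mul] at this
      obtain ⟨b, h1, h2⟩ := ((this.eventually (gt_mem_nhds (by positivity : 0 < ε / 2))).and
        self_mem_nhdsWithin).exists
      exact ⟨b, h2, h1⟩
    have hu' := Metric.tendstoUniformlyOn_iff.1 (hu T ⟨hT'1.1.le.trans hT1.le, hT2⟩) b hb
    filter_upwards [hu', hDn, hB] with i h1 h2 h3
    rw [Real.dist_eq, sub_zero, abs_of_nonneg (sq_nonneg _)]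
    refine lt_of_le_of_lt (R.norm_Dop_local (g := fun t => Dn i t - D t) (h2.sub hD)
      (b := b) (B := 2 * B) (T := T) (T' := T') ?_ ?_ hT1 hT'1.1.le hT2.le x) (by linarith)
    · intro t ht htT
      have := h1 t ⟨ht.1, htT⟩
      rw [Real.dist_eq, abs_sub_comm] at this
      exact this.le
    · intro t ht
      refine (abs_sub _ _).trans ?_
      have := h3 t ht
      have := hBD t ht
      linarith
  have hmain2 : Tendsto (fun i => ‖R.Dop (fun t => Dn i t - D t) x‖) l (𝓝 0) := by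
    have := hmain.sqrt
    simpa using this
  have hx' : Tendsto (fun i => B * ‖xn i - x‖) l (𝓝 0) := by
    have := ((tendsto_iff_norm_sub_tendsto_zero.1 hx)).const_mul B
    simpa using this
  rw [tendsto_iff_norm_sub_tendsto_zero]
  refine squeeze_zero' (Eventually.of_forall fun i => norm_nonneg _) ?_
    (by simpa using hx'.add hmain2)
  filter_upwards [hDn, hB] with i h1 h2
  have e : R.Dop (Dn i) (xn i) - R.Dop D x =
      R.Dop (Dn i) (xn i - x) + R.Dop (fun t => Dn i t - D t) x := by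
    rw [R.Dop_sub h1 hD, sub_apply, map_sub]; abel
  rw [e]
  exact (norm_add_le _ _).trans (add_le_add_left (R.Dop_norm_apply_le h1 h2 _) _)

theorem Q_tendsto_of {ι : Type*} {l : Filter ι} {Dn : ι → ℝ → ℝ} {D : ℝ → ℝ} {xn : ι → H} {x : H}
    {B : ℝ} (hDn : ∀ᶠ i in l, ContinuousOn (Dn i) (Icc 0 1)) (hD : ContinuousOn D (Icc 0 1))
    (hB : ∀ᶠ i in l, ∀ t ∈ Icc (0 : ℝ) 1, |Dn i t| ≤ B) (hBD : ∀ t ∈ Icc (0 : ℝ) 1, |D t| ≤ B)
    (hu : ∀ T ∈ Ico (0 : ℝ) 1, TendstoUniformlyOn Dn D l (Icc 0 T)) (hx : Tendsto xn l (𝓝 x)) :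
    Tendsto (fun i => R.Q (Dn i) (xn i)) l (𝓝 (R.Q D x)) :=
  hx.inner (R.Dop_tendsto hDn hD hB hBD hu hx) (𝕜 := ℝ)

/-! ### bridging with `∫ m(t) P_t dt` -/

omit [CompleteSpace H] in
lemma inner_P_polar (t : ℝ) (x y : H) :
    ⟪y, R.P t x⟫ = ‖R.P t (x + y)‖ ^ 2 / 4 - ‖R.P t (x - y)‖ ^ 2 / 4 := by
  have h : ⟪y, R.P t x⟫ = ⟪R.P t x, R.P t y⟫ := by rw [real_inner_comm, R.P_inner]
  rw [h, map_add, map_sub, norm_add_sq_real, norm_sub_sq_real]; ring

omit [CompleteSpace H] in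
lemma P_sq_monotone (x : H) : Monotone fun t => ‖R.P t x‖ ^ 2 / 4 := fun s t h => by
  have := pow_le_pow_left₀ (norm_nonneg _) (R.norm_P_mono h x) 2
  dsimp only
  linarith

omit [CompleteSpace H] in
lemma measurable_inner_P (x y : H) : Measurable fun t => ⟪y, R.P t x⟫ := by
  simp only [R.inner_P_polar]
  exact (R.P_sq_monotone _).measurable.sub (R.P_sq_monotone _).measurable

omit [CompleteSpace H] in
lemma ae_continuousAt_inner_P (x y : H) :
    ∀ᵐ t : ℝ, ContinuousAt (fun t => ⟪y, R.P t x⟫) t := by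
  have h1 := ((R.P_sq_monotone (x + y)).countable_not_continuousAt).ae_notMem volume
  have h2 := ((R.P_sq_monotone (x - y)).countable_not_continuousAt).ae_notMem volume
  filter_upwards [h1, h2] with t ht1 ht2
  simp only [not_not] at ht1 ht2
  simp only [R.inner_P_polar]
  exact ht1.sub ht2

omit [CompleteSpace H] in
lemma abs_inner_P_le {t : ℝ} (ht : t ≤ 1) (x y : H) : |⟪y, R.P t x⟫| ≤ ‖y‖ * ‖x‖ :=
  (abs_real_inner_le_norm _ _).trans (mul_le_mul_of_nonneg_left (R.norm_P_le ht x) (norm_nonneg _))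

theorem inner_Dop_eq_integral {D m : ℝ → ℝ} {d : ℝ} (hD : ContinuousOn D (Icc 0 1))
    (hm : IntervalIntegrable m volume 0 1)
    (h : ∀ t ∈ Icc (0 : ℝ) 1, D t = d + ∫ s in t..1, m s) (x y : H) :
    ⟪y, R.Dop D x⟫ = (∫ t in (0 : ℝ)..1, m t * ⟪y, R.P t x⟫) + d * ⟪y, x⟫ := by
  let u : ℕ → ℝ → ℝ := fun n t => dy n (⌈2 ^ n * t⌉₊ - 1)
  have hu1 : ∀ n, ∀ t ∈ Ioc (0 : ℝ) 1, u n t ≤ t ∧ t ≤ u n t + 1 / 2 ^ n := by
    intro n t ht
    have hp : (0 : ℝ) < 2 ^ n := by positivity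
    have h1 : 1 ≤ ⌈2 ^ n * t⌉₊ := Nat.one_le_ceil_iff.2 (mul_pos hp ht.1)
    have h2 : ((⌈2 ^ n * t⌉₊ - 1 : ℕ) : ℝ) = (⌈2 ^ n * t⌉₊ : ℝ) - 1 := by
      rw [Nat.cast_sub h1, Nat.cast_one]
    have h3 := Nat.ceil_lt_add_one (mul_pos hp ht.1).le
    have h4 := Nat.le_ceil (2 ^ n * t)
    simp only [u, dy, h2]
    constructor
    · rw [div_le_iff₀ hp]; linarith
    · rw [← add_div, le_div_iff₀ hp]; linarith
  have hlim : Tendsto (fun n => ∫ t in (0 : ℝ)..1, m t * ⟪y, R.P (u n t) x⟫) atTop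
      (𝓝 (∫ t in (0 : ℝ)..1, m t * ⟪y, R.P t x⟫)) := by
    refine intervalIntegral.tendsto_integral_filter_of_dominated_convergence
      (fun t => |m t| * (‖y‖ * ‖x‖)) ?_ ?_ (hm.abs.mul_const _) ?_
    · refine Eventually.of_forall fun n => ?_
      refine (intervalIntegrable_iff.1 hm).aestronglyMeasurable.mul ?_
      refine ((R.measurable_inner_P x y).comp ?_).aestronglyMeasurable
      simp only [u, dy]
      fun_prop
    · refine Eventually.of_forall fun n => ae_of_all _ fun t ht => ?_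
      rw [uIoc_of_le zero_le_one] at ht
      rw [Real.norm_eq_abs, abs_mul]
      exact mul_le_mul_of_nonneg_left (R.abs_inner_P_le ((hu1 n t ht).1.trans ht.2) x y)
        (abs_nonneg _)
    · filter_upwards [R.ae_continuousAt_inner_P x y] with t hc ht
      rw [uIoc_of_le zero_le_one] at ht
      refine Tendsto.const_mul _ (hc.tendsto.comp ?_)
      have h0 : Tendsto (fun n : ℕ => t - 1 / 2 ^ n) atTop (𝓝 (t - 0)) := by
        refine tendsto_const_nhds.sub ?_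
        simp only [← one_div_pow]
        exact tendsto_pow_atTop_nhds_zero_of_lt_one (by norm_num) (by norm_num)
      rw [sub_zero] at h0
      exact tendsto_of_tendsto_of_tendsto_of_le_of_le h0 tendsto_const_nhds
        (fun n => by have := (hu1 n t ht).2; dsimp only; linarith) (fun n => (hu1 n t ht).1)
  have hS : Tendsto (fun n => ⟪y, R.S D n x⟫) atTop (𝓝 ⟪y, R.Dop D x⟫) :=
    (tendsto_const_nhds (x := y)).inner (R.S_tendsto_apply hD x) (𝕜 := ℝ)
  refine tendsto_nhds_unique hS ((hlim.add_const (d * ⟪y, x⟫)).congr fun n => ?_)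
  -- subintervals
  have hint : ∀ i < 2 ^ n, IntervalIntegrable m volume (dy n i) (dy n (i + 1)) := fun i hi => by
    refine hm.mono_set ?_
    rw [uIcc_of_le zero_le_one, uIcc_of_le (dy_mono n i.le_succ)]
    exact Icc_subset_Icc (dy_nonneg n i) (dy_le_one hi)
  have hcongr : ∀ i < 2 ^ n, ∀ t ∈ Ioc (dy n i) (dy n (i + 1)), u n t = dy n i := by
    intro i hi t ht
    have hp : (0 : ℝ) < 2 ^ n := by positivity
    have h1 : ⌈2 ^ n * t⌉₊ = i + 1 := by
      rw [Nat.ceil_eq_iff (Nat.succ_ne_zero i)]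
      unfold dy at ht
      constructor
      · rw [Nat.succ_sub_one]
        have := (div_lt_iff₀ hp).1 ht.1
        linarith
      · have := (le_div_iff₀ hp).1 ht.2
        linarith
    simp only [u, h1, Nat.add_sub_cancel]
  have hsplit := intervalIntegral.sum_integral_adjacent_intervals (a := dy n) (n := 2 ^ n)
    (f := fun t => m t * ⟪y, R.P (u n t) x⟫) (μ := volume) (fun i hi => by
      refine ((hint i hi).mul_const ⟪y, R.P (dy n i) x⟫).congr ?_
      intro t ht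
      rw [uIoc_of_le (dy_mono n i.le_succ)] at ht
      dsimp only
      rw [hcongr i hi t ht])
  rw [dy_zero, dy_end] at hsplit
  rw [← hsplit]
  have hterm : ∀ i ∈ Finset.range (2 ^ n), ∫ t in (dy n i)..(dy n (i + 1)),
      m t * ⟪y, R.P (u n t) x⟫ = (D (dy n i) - D (dy n (i + 1))) * ⟪y, R.P (dy n i) x⟫ := by
    intro i hi
    have hi' := Finset.mem_range.1 hi
    rw [intervalIntegral.integral_congr_ae (g := fun t => m t * ⟪y, R.P (dy n i) x⟫)
      (ae_of_all _ fun t ht => by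
        rw [uIoc_of_le (dy_mono n i.le_succ)] at ht
        rw [hcongr i hi' t ht]), intervalIntegral.integral_mul_const]
    congr 1
    rw [h _ (dy_mem hi'.le), h _ (dy_mem hi')]
    have h1 : IntervalIntegrable m volume (dy n (i + 1)) 1 := by
      refine hm.mono_set ?_
      rw [uIcc_of_le zero_le_one, uIcc_of_le (dy_le_one hi')]
      exact Icc_subset_Icc_left (dy_nonneg n _)
    have h2 := intervalIntegral.integral_add_adjacent_intervals (hint i hi') h1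
    linarith
  rw [Finset.sum_congr rfl hterm]
  have hd : d = D 1 := by
    have := h 1 (by simp)
    simpa using this.symm
  -- Abel summation
  have habel : ∀ N, ∑ i ∈ Finset.range N, (D (dy n i) - D (dy n (i + 1))) * ⟪y, R.P (dy n i) x⟫ =
      D 0 * ⟪y, R.P 0 x⟫ + ∑ i ∈ Finset.range N, D (dy n (i + 1)) *
        ⟪y, R.inc (dy n i) (dy n (i + 1)) x⟫ - D (dy n N) * ⟪y, R.P (dy n N) x⟫ := by
    intro N
    induction N with
    | zero => simp
    | succ N ih =>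
      rw [Finset.sum_range_succ, Finset.sum_range_succ, ih, inc_apply, inner_sub_right]
      ring
  rw [habel, dy_end, R.one, hd, S_apply, RS_apply, inner_add_right, inner_sum,
    real_inner_smul_right]
  simp only [real_inner_smul_right]
  ring

theorem Q_eq_integral {D m : ℝ → ℝ} {d : ℝ} (hD : ContinuousOn D (Icc 0 1))
    (hm : IntervalIntegrable m volume 0 1)
    (h : ∀ t ∈ Icc (0 : ℝ) 1, D t = d + ∫ s in t..1, m s) (x : H) :
    R.Q D x = (∫ t in (0 : ℝ)..1, m t * ‖R.P t x‖ ^ 2) + d * ‖x‖ ^ 2 := by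
  rw [Q, R.inner_Dop_eq_integral hD hm h, real_inner_self_eq_norm_sq]
  congr 1
  refine intervalIntegral.integral_congr fun t _ => ?_
  rw [real_inner_comm, R.P_inner, real_inner_self_eq_norm_sq]

end Complete

end Res

end Crest.Agent.R146.Hilb
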