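import Crest.Agent.R146.DualL_256
import Crest.Agent.R146.HilbB_356
import Crest.Agent.R146.Lev2_576

-- ▼ part R146/DualG_256
section

/-!
# Row 146, node G of 624 (helper256), part 1: the Hilbert space of the Brownian filtration

`HB 𝓕 P` : the closed subspace of `x : L2(P)` with `E_t x → x` as `t ↑ 1`; `resB` the family of
conditional expectations on it (`Hilb.Res`), `modelB` the `Lev2_576.Model`.
-/

set_option autoImplicit false

noncomputable section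

open MeasureTheory Set Filter Topology ProbabilityTheory
open scoped InnerProductSpace RealInnerProductSpace NNReal ENNReal

namespace Crest.Agent.R146.DualG_256

open Crest.ProbabilityR.Perceptron
open Crest.Agent.R146.DualQ_256 Crest.Agent.R146.DualC1_256 Crest.Agent.R146.DualV_256
  Crest.Agent.R146.DualL_256

variable {Ω : Type*} [mΩ : MeasurableSpace Ω] (P : Measure Ω) [IsProbabilityMeasure P]
  (𝓕 : Filtration ℝ≥0 mΩ)

/-- the closed subspace of `L2(P)` of the `x` with `E_t x → x` as `t ↑ 1` -/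
def HB : Submodule ℝ (Ω →₂[P] ℝ) where
  carrier := {x | Tendsto (fun t : ℝ => condPi 𝓕 P t x) (𝓝[<] 1) (𝓝 x)}
  add_mem' := fun {x y} hx hy => by
    simp only [mem_ofPred_eq, map_add] at *
    exact hx.add hy
  zero_mem' := by
    simp only [mem_ofPred_eq, map_zero]
    exact tendsto_const_nhds
  smul_mem' := fun c x hx => by
    simp only [mem_ofPred_eq, map_smul] at *
    exact hx.const_smul c

variable {P 𝓕}

theorem mem_HB {x : Ω →₂[P] ℝ} :
    x ∈ HB P 𝓕 ↔ Tendsto (fun t : ℝ => condPi 𝓕 P t x) (𝓝[<] 1) (𝓝 x) := Iff.rfl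

theorem norm_condPi_le (t : ℝ) (x : Ω →₂[P] ℝ) : ‖condPi 𝓕 P t x‖ ≤ ‖x‖ :=
  (fam 𝓕 P).norm_Pi_le t x

theorem HB_closed : IsClosed (HB P 𝓕 : Set (Ω →₂[P] ℝ)) := by
  rw [← closure_subset_iff_isClosed]
  intro x hx
  rw [SetLike.mem_coe, mem_HB, Metric.tendsto_nhds]
  intro ε hε
  obtain ⟨y, hy, hxy⟩ := Metric.mem_closure_iff.1 hx (ε / 3) (by positivity)
  have h1 := (Metric.tendsto_nhds.1 (mem_HB.1 hy)) (ε / 3) (by positivity)
  filter_upwards [h1] with t ht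
  have h2 : dist (condPi 𝓕 P t x) (condPi 𝓕 P t y) ≤ dist x y := by
    rw [dist_eq_norm, dist_eq_norm, ← map_sub]; exact norm_condPi_le t _
  calc dist (condPi 𝓕 P t x) x ≤ dist (condPi 𝓕 P t x) (condPi 𝓕 P t y) +
        dist (condPi 𝓕 P t y) y + dist y x := dist_triangle4 _ _ _ _
    _ < ε := by rw [dist_comm y x]; linarith

instance : CompleteSpace (HB P 𝓕) := (HB_closed (P := P) (𝓕 := 𝓕)).completeSpace_coe

theorem condPi_mem {t : ℝ} (ht : t < 1) (x : Ω →₂[P] ℝ) : condPi 𝓕 P t x ∈ HB P 𝓕 := by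
  rw [mem_HB]
  refine tendsto_const_nhds.congr' ?_
  filter_upwards [Ioo_mem_nhdsLT ht] with s hs
  exact ((fam 𝓕 P).comp' hs.1.le x).symm

theorem condPi_fix {t : ℝ} (ht : 1 ≤ t) {x : Ω →₂[P] ℝ} (hx : x ∈ HB P 𝓕) :
    condPi 𝓕 P t x = x := by
  have h1 : Tendsto (fun s : ℝ => condPi 𝓕 P t (condPi 𝓕 P s x)) (𝓝[<] 1)
      (𝓝 (condPi 𝓕 P t x)) := ((condPi 𝓕 P t).continuous.tendsto _).comp (mem_HB.1 hx)
  refine tendsto_nhds_unique (h1.congr' ?_) (mem_HB.1 hx)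
  filter_upwards [self_mem_nhdsWithin] with s hs
  exact (fam 𝓕 P).comp' ((le_of_lt hs).trans ht) x

theorem condPi_mem' (t : ℝ) {x : Ω →₂[P] ℝ} (hx : x ∈ HB P 𝓕) : condPi 𝓕 P t x ∈ HB P 𝓕 := by
  rcases lt_or_ge t 1 with ht | ht
  · exact condPi_mem ht x
  · rw [condPi_fix ht hx]; exact hx

variable (P 𝓕) in
/-- conditional expectation on `HB` -/
def PB (t : ℝ) : HB P 𝓕 →L[ℝ] HB P 𝓕 :=
  ((condPi 𝓕 P t).comp (HB P 𝓕).subtypeL).codRestrict (HB P 𝓕) (fun x => condPi_mem' t x.2)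

theorem PB_coe (t : ℝ) (x : HB P 𝓕) : ((PB P 𝓕 t x : HB P 𝓕) : Ω →₂[P] ℝ) = condPi 𝓕 P t x := rfl

theorem PB_symm (t : ℝ) (x y : HB P 𝓕) : ⟪PB P 𝓕 t x, y⟫_ℝ = ⟪x, PB P 𝓕 t y⟫_ℝ := by
  rw [Submodule.coe_inner, Submodule.coe_inner, PB_coe, PB_coe]
  exact condPi_sa 𝓕 t (x : Ω →₂[P] ℝ) (y : Ω →₂[P] ℝ)

theorem PB_mul (s t : ℝ) (h : s ≤ t) (x : HB P 𝓕) : PB P 𝓕 s (PB P 𝓕 t x) = PB P 𝓕 s x := by
  apply Subtype.ext
  exact condPi_comp 𝓕 s t h (x : Ω →₂[P] ℝ)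

theorem PB_one (x : HB P 𝓕) : PB P 𝓕 1 x = x := by
  apply Subtype.ext
  exact condPi_fix le_rfl x.2

theorem PB_left (x : HB P 𝓕) : Tendsto (fun t => PB P 𝓕 t x) (𝓝[<] 1) (𝓝 x) := by
  rw [tendsto_subtype_rng]
  exact mem_HB.1 x.2

variable (P 𝓕) in
/-- the conditional expectations on `HB` -/
def resB : Hilb.Res (HB P 𝓕) where
  P := PB P 𝓕
  symm := PB_symm
  mul := PB_mul
  one := PB_one
  left := PB_left

@[simp] theorem resB_coe (t : ℝ) (x : HB P 𝓕) :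
    (((resB P 𝓕).P t x : HB P 𝓕) : Ω →₂[P] ℝ) = condPi 𝓕 P t x := rfl

/-! ### membership -/

theorem norm_sub_condPi_le (t : ℝ) {x y : Ω →₂[P] ℝ} (hy : condPi 𝓕 P t y = y) :
    ‖x - condPi 𝓕 P t x‖ ≤ ‖x - y‖ := by
  have h1 : x - condPi 𝓕 P t x = (x - y) - condPi 𝓕 P t (x - y) := by
    rw [map_sub, hy]; abel
  rw [h1]
  set z := x - y
  have h2 : ‖z - condPi 𝓕 P t z‖ ^ 2 = ‖z‖ ^ 2 - ‖condPi 𝓕 P t z‖ ^ 2 := by
    rw [@norm_sub_sq ℝ]
    simp only [RCLike.re_to_real]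
    have h3 : ⟪z, condPi 𝓕 P t z⟫_ℝ = ‖condPi 𝓕 P t z‖ ^ 2 := by
      have h4 := (fam 𝓕 P).q_eq z t
      have h5 : (fam 𝓕 P).q z t = ⟪condPi 𝓕 P t z, z⟫_ℝ := rfl
      rw [real_inner_comm, ← h5, h4]; rfl
    rw [h3]; ring
  have h6 : ‖z - condPi 𝓕 P t z‖ ^ 2 ≤ ‖z‖ ^ 2 := by
    rw [h2]; nlinarith [sq_nonneg ‖condPi 𝓕 P t z‖]
  exact (abs_le_of_sq_le_sq' h6 (norm_nonneg _)).2

theorem cst_fix (t k : ℝ) : condPi 𝓕 P t (cst P k) = cst P k :=
  condPi_of_meas 𝓕 t _ ((aestronglyMeasurable_const (b := k)).congr (cst_coe k).symm)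

theorem cst_mem (k : ℝ) : cst P k ∈ HB P 𝓕 := by
  rw [mem_HB]; simp only [cst_fix]; exact tendsto_const_nhds

section Brownian

variable {B : ℝ≥0 → Ω → ℝ} (hBm : ∀ t, Measurable (B t)) (hB : IsBrownianReal B P)

/-- `B_t` in `L2` -/
def Zt (t : ℝ≥0) : Ω →₂[P] ℝ := (memLp_B hB t).toLp _

theorem Zt_coe (t : ℝ≥0) : (Zt hB t : Ω → ℝ) =ᵐ[P] B t := MemLp.coeFn_toLp _

theorem Zt_one : Zt hB 1 = ZB hB := rfl

theorem Zt_fix (t : ℝ≥0) : condPi (brownianFiltration B hBm) P t (Zt hB t) = Zt hB t := by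
  refine condPi_of_meas _ _ _ ?_
  rw [Real.toNNReal_coe]
  refine AEStronglyMeasurable.congr ?_ (Zt_coe hB t).symm
  exact (Filtration.stronglyAdapted_natural (fun t => (hBm t).stronglyMeasurable) t).aestronglyMeasurable

theorem norm_Zt_sub (t : ℝ≥0) (ht : t ≤ 1) : ‖ZB hB - Zt hB t‖ ^ 2 = 1 - (t : ℝ) := by
  rw [norm_sq_eq]
  have h1 : ∫ ω, (ZB hB - Zt hB t : Ω →₂[P] ℝ) ω ^ 2 ∂P = ∫ ω, (B 1 - B t) ω ^ 2 ∂P := by
    refine integral_congr_ae ?_
    filter_upwards [Lp.coeFn_sub (ZB hB) (Zt hB t), ZB_coe hB, Zt_coe hB t] with ω h1 h2 h3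
    simp only [h1, Pi.sub_apply, h2, h3]
  rw [h1]
  have hl := hB.toIsPreBrownianReal.hasLaw_sub 1 t
  have h2 : ∫ ω, (B 1 - B t) ω ^ 2 ∂P = ∫ x, x ^ 2 ∂(gaussianReal 0 (nndist (1 : ℝ≥0).1 t.1)) := by
    rw [← hl.map_eq, integral_map hl.aemeasurable (by fun_prop)]
  rw [h2]
  have h3 := variance_fun_id_gaussianReal (μ := 0) (v := nndist (1 : ℝ≥0).1 t.1)
  rw [variance_eq_integral (by fun_prop)] at h3
  simp only [integral_id_gaussianReal, sub_zero] at h3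
  rw [h3]
  have h4 : (t : ℝ) ≤ 1 := by exact_mod_cast ht
  rw [coe_nndist, Real.dist_eq]
  show |(1 : ℝ) - t| = 1 - t
  exact abs_of_nonneg (by linarith)

theorem ZB_mem : ZB hB ∈ HB P (brownianFiltration B hBm) := by
  rw [mem_HB, tendsto_iff_norm_sub_tendsto_zero]
  have h1 : Tendsto (fun t : ℝ => Real.sqrt (1 - t)) (𝓝[<] 1) (𝓝 0) := by
    have : Tendsto (fun t : ℝ => Real.sqrt (1 - t)) (𝓝 1) (𝓝 (Real.sqrt (1 - 1))) :=
      (Continuous.tendsto (by fun_prop) _)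
    rw [sub_self, Real.sqrt_zero] at this
    exact this.mono_left nhdsWithin_le_nhds
  refine squeeze_zero' (Eventually.of_forall fun t => norm_nonneg _) ?_ h1
  filter_upwards [Ioo_mem_nhdsLT (show (0 : ℝ) < 1 by norm_num)] with t ht
  have h2 := norm_sub_condPi_le (𝓕 := brownianFiltration B hBm) (P := P) t (x := ZB hB)
    (y := Zt hB t.toNNReal) (by
      have := Zt_fix hBm hB t.toNNReal
      rwa [Real.coe_toNNReal t ht.1.le] at this)
  rw [norm_sub_rev]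
  refine h2.trans (Real.le_sqrt_of_sq_le ?_)
  rw [norm_Zt_sub hB _ (by rw [Real.toNNReal_le_iff_le_coe]; simpa using ht.2.le),
    Real.coe_toNNReal t ht.1.le]

/-- the Hilbert space of the Brownian filtration -/
abbrev HH (P : Measure Ω) [IsProbabilityMeasure P] (B : ℝ≥0 → Ω → ℝ)
    (hBm : ∀ t, Measurable (B t)) : Submodule ℝ (Ω →₂[P] ℝ) := HB P (brownianFiltration B hBm)

/-- `xi k = k + B_1` -/
def xi (k : ℝ) : HH P B hBm := ⟨cst P k + ZB hB, (HH P B hBm).add_mem (cst_mem k) (ZB_mem hBm hB)⟩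

theorem xi_coe (k : ℝ) : ((xi hBm hB k : Ω →₂[P] ℝ) : Ω → ℝ) =ᵐ[P] fun ω => k + B 1 ω := by
  filter_upwards [Lp.coeFn_add (cst P k) (ZB hB), cst_coe (P := P) k, ZB_coe hB] with ω h1 h2 h3
  show (cst P k + ZB hB : Ω →₂[P] ℝ) ω = _
  rw [h1, Pi.add_apply, h2, h3]

variable (P B) in
/-- the cone of nonnegative elements -/
def KB : Set (HH P B hBm) := {x | (x : Ω →₂[P] ℝ) ∈ cone P}

variable (P B) in
theorem KB_closed : IsClosed (KB P B hBm) := cone_closed.preimage continuous_subtype_val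

theorem KB_zero : (0 : HH P B hBm) ∈ KB P B hBm := by
  show (0 : Ω →₂[P] ℝ) ∈ cone P
  exact le_refl (0 : Ω →₂[P] ℝ)

theorem KB_add : ∀ x ∈ KB P B hBm, ∀ y ∈ KB P B hBm, x + y ∈ KB P B hBm :=
  fun x hx y hy => cone_add (x : Ω →₂[P] ℝ) hx y hy

theorem KB_smul : ∀ c : ℝ, 0 ≤ c → ∀ x ∈ KB P B hBm, c • x ∈ KB P B hBm :=
  fun c hc x hx => cone_smul c hc (x : Ω →₂[P] ℝ) hx

theorem condPi_coe (t : ℝ) (x : Ω →₂[P] ℝ) :
    (condPi 𝓕 P t x : Ω → ℝ) =ᵐ[P] P[(x : Ω → ℝ) | 𝓕 t.toNNReal] := by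
  have h := (Lp.memLp x).condExpL2_ae_eq_condExp' (𝕜 := ℝ) (𝓕.le t.toNNReal)
      ((Lp.memLp x).integrable one_le_two)
  rw [Lp.toLp_coeFn] at h
  exact h



end Brownian

end Crest.Agent.R146.DualG_256
end
end

-- ▼ part R146/DualG2_256

/-!
# Row 146, node G of 624 (helper256), part 2: the model and the bridge to `Dop`, `Q`

* `modelB` : `Lev2_576.Model (resB ..) P B hBm`;
* `op_eq_Dop`, `bil_eq_Q` : for an `OverlapProfile`, `A_m x = Dop m.tail x`,
  `bil m x x = Q m.tail x`;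
* `lamH` : the optimal dual variable lies in `HH`; `value_eq_H`, `value_le_H`.
-/

set_option autoImplicit false

noncomputable section

open MeasureTheory Set Filter Topology ProbabilityTheory
open scoped InnerProductSpace RealInnerProductSpace NNReal ENNReal

namespace Crest.Agent.R146.DualG_256

open Crest.ProbabilityR.Perceptron
open Crest.Agent.R146.DualQ_256 Crest.Agent.R146.DualC1_256 Crest.Agent.R146.DualV_256
  Crest.Agent.R146.DualL_256

variable {Ω : Type*} [mΩ : MeasurableSpace Ω] {P : Measure Ω} [IsProbabilityMeasure P]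

section Tail

/-! ### the tail of a profile -/

theorem tail_cont (m : OverlapProfile) : ContinuousOn m.tail (Icc 0 1) := by
  have h2 : Continuous fun t => ∫ s in (0 : ℝ)..t, m.toFun s :=
    intervalIntegral.continuous_primitive (fun a b => m.mono.intervalIntegrable) 0
  have h3 : Continuous fun t => (∫ s in (0 : ℝ)..1, m.toFun s) - ∫ s in (0 : ℝ)..t, m.toFun s :=
    continuous_const.sub h2
  refine h3.continuousOn.congr fun t _ => ?_
  exact (intervalIntegral.integral_interval_sub_left m.mono.intervalIntegrable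
    m.mono.intervalIntegrable).symm


theorem tail_nonneg (m : OverlapProfile) {t : ℝ} (ht : t ∈ Icc (0 : ℝ) 1) : 0 ≤ m.tail t :=
  intervalIntegral.integral_nonneg ht.2 fun u hu => m.nonneg u ⟨ht.1.trans hu.1, hu.2⟩


@[simp] theorem tail_one (m : OverlapProfile) : m.tail 1 = 0 := by
  unfold OverlapProfile.tail; simp


end Tail

section Brownian

variable {B : ℝ≥0 → Ω → ℝ} (hBm : ∀ t, Measurable (B t)) (hB : IsBrownianReal B P)

/-- the conditional expectations of the Brownian filtration on `HH` -/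
abbrev RB (P : Measure Ω) [IsProbabilityMeasure P] (B : ℝ≥0 → Ω → ℝ)
    (hBm : ∀ t, Measurable (B t)) : Hilb.Res (HH P B hBm) := resB P (brownianFiltration B hBm)

variable (P B) in
/-- the model of `Lev2_576` -/
def modelB : Lev2_576.Model (RB P B hBm) P B hBm where
  J := fun x => ((x : Ω →₂[P] ℝ) : Ω → ℝ)
  memLp := fun x => Lp.memLp (x : Ω →₂[P] ℝ)
  add := fun x y => Lp.coeFn_add (x : Ω →₂[P] ℝ) (y : Ω →₂[P] ℝ)
  smul := fun c x => Lp.coeFn_smul c (x : Ω →₂[P] ℝ)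
  inner := fun x y => by
    rw [Submodule.coe_inner]
    exact (inner_eq (x : Ω →₂[P] ℝ) (y : Ω →₂[P] ℝ)).symm
  cond := fun t _ x => condPi_coe t (x : Ω →₂[P] ℝ)

@[simp] theorem modelB_J (x : HH P B hBm) :
    (modelB P B hBm).J x = ((x : Ω →₂[P] ℝ) : Ω → ℝ) := rfl

theorem modelB_xi (k : ℝ) : (modelB P B hBm).J (xi hBm hB k) =ᵐ[P] fun ω => k + B 1 ω :=
  xi_coe hBm hB k

/-! ### bridging -/

theorem inner_Dop_tail (m : OverlapProfile) (x y : HH P B hBm) :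
    ⟪y, (RB P B hBm).Dop m.tail x⟫_ℝ =
      (fam (brownianFiltration B hBm) P).bil m.toFun (x : Ω →₂[P] ℝ) (y : Ω →₂[P] ℝ) := by
  have h := (RB P B hBm).inner_Dop_eq_integral (D := m.tail) (m := m.toFun) (d := 0)
    (tail_cont m) m.mono.intervalIntegrable (fun t _ => by rw [zero_add]; rfl) x y
  rw [h, zero_mul, add_zero, intervalIntegral.integral_of_le zero_le_one,
    ← integral_Icc_eq_integral_Ioc]
  unfold PF.bil
  refine integral_congr_ae (Eventually.of_forall fun t => ?_)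
  simp only
  rw [Submodule.coe_inner, real_inner_comm]
  rfl

theorem bil_eq_Q (m : OverlapProfile) (x : HH P B hBm) :
    (fam (brownianFiltration B hBm) P).bil m.toFun (x : Ω →₂[P] ℝ) (x : Ω →₂[P] ℝ) =
      (RB P B hBm).Q m.tail x := (inner_Dop_tail hBm m x x).symm

theorem op_mem (m : OverlapProfile) (x : Ω →₂[P] ℝ) :
    (fam (brownianFiltration B hBm) P).op (wt_profile m).isWeight x ∈ HH P B hBm := by
  set F := fam (brownianFiltration B hBm) P
  set A := F.op (wt_profile m).isWeight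
  set K := HH P B hBm
  -- orthogonal complement argument
  have hc : IsClosed (K : Set (Ω →₂[P] ℝ)) := HB_closed
  rw [← K.orthogonal_orthogonal, Submodule.mem_orthogonal]
  intro y hy
  rw [Submodule.mem_orthogonal] at hy
  rw [real_inner_comm, PF.inner_op]
  unfold PF.bil
  have h1 : ∀ᵐ t ∂(volume.restrict (Icc (0 : ℝ) 1)), t ≠ 1 := by
    refine ae_restrict_of_ae ?_
    rw [ae_iff]; simp
  refine integral_eq_zero_of_ae ?_
  filter_upwards [h1, ae_restrict_mem measurableSet_Icc] with t ht1 ht2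
  have ht : t < 1 := lt_of_le_of_ne ht2.2 ht1
  have h2 := hy (condPi (brownianFiltration B hBm) P t x) (condPi_mem ht x)
  show m.toFun t * ⟪condPi (brownianFiltration B hBm) P t x, y⟫_ℝ = 0
  rw [h2, mul_zero]

theorem op_eq_Dop (m : OverlapProfile) (x : HH P B hBm) :
    (fam (brownianFiltration B hBm) P).op (wt_profile m).isWeight (x : Ω →₂[P] ℝ) =
      (((RB P B hBm).Dop m.tail x : HH P B hBm) : Ω →₂[P] ℝ) := by
  set z : HH P B hBm := ⟨_, op_mem hBm m (x : Ω →₂[P] ℝ)⟩ with hz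
  have : z = (RB P B hBm).Dop m.tail x := by
    refine ext_inner_left ℝ fun y => ?_
    rw [inner_Dop_tail, Submodule.coe_inner, real_inner_comm]
    exact PF.inner_op _ _ _ _
  rw [← this]

/-! ### the optimal dual variable lies in `HH` -/

theorem kkt_mem {x X : Ω →₂[P] ℝ} {b k : ℝ} {𝓕 : Filtration ℝ≥0 mΩ} (hX : X ∈ HB P 𝓕)
    (h : (x : Ω → ℝ) =ᵐ[P] fun ω => b * max (k - X ω) 0) : x ∈ HB P 𝓕 := by
  -- `x` is the image of `X` by a Lipschitz function `g`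
  set g : ℝ → ℝ := fun u => b * max (k - u) 0 with hg
  have hLg : ∀ u v, |g u - g v| ≤ |b| * |u - v| := by
    intro u v
    simp only [hg]
    rw [← mul_sub, abs_mul]
    refine mul_le_mul_of_nonneg_left ?_ (abs_nonneg b)
    have := abs_max_sub_max_le_abs (k - u) (k - v) 0
    refine this.trans (le_of_eq ?_)
    rw [show k - u - (k - v) = -(u - v) by ring, abs_neg]
  rw [mem_HB, tendsto_iff_norm_sub_tendsto_zero]
  have h0 := tendsto_iff_norm_sub_tendsto_zero.1 (mem_HB.1 hX)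
  have h1 : Tendsto (fun t : ℝ => |b| * ‖condPi 𝓕 P t X - X‖) (𝓝[<] 1) (𝓝 0) := by
    simpa using h0.const_mul |b|
  refine squeeze_zero' (Eventually.of_forall fun t => norm_nonneg _)
    (Eventually.of_forall fun t => ?_) h1
  -- a candidate: `g (E_t X)` is `F_t` measurable
  set Y := condPi 𝓕 P t X with hY
  have hgc : Continuous g := by simp only [hg]; fun_prop
  have hYg : MemLp (fun ω => g (Y ω)) 2 P := by
    have e1 : MemLp (fun ω => k - Y ω) 2 P := (memLp_const k).sub (Lp.memLp Y)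
    have e2 : MemLp (fun ω => max (k - Y ω) 0) 2 P := e1.pos_part
    exact e2.const_mul b
  set W : Ω →₂[P] ℝ := hYg.toLp _ with hW
  have hWc : (W : Ω → ℝ) =ᵐ[P] fun ω => g (Y ω) := MemLp.coeFn_toLp _
  have hfix : condPi 𝓕 P t W = W := by
    refine condPi_of_meas 𝓕 t W ?_
    refine AEStronglyMeasurable.congr ?_ hWc.symm
    exact hgc.comp_aestronglyMeasurable (condPi_meas 𝓕 t X)
  have h2 := norm_sub_condPi_le t (x := x) hfix
  rw [norm_sub_rev]
  refine h2.trans ?_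
  have h3 : ‖x - W‖ ≤ ‖|b| • (X - Y)‖ := by
    refine Lp.norm_le_norm_of_ae_le ?_
    filter_upwards [Lp.coeFn_sub x W, Lp.coeFn_smul |b| (X - Y), Lp.coeFn_sub X Y, h, hWc]
      with ω a1 a2 a3 a4 a5
    rw [a1, a2, Pi.sub_apply, Pi.smul_apply, a3, Pi.sub_apply, a4, a5, smul_eq_mul,
      Real.norm_eq_abs, Real.norm_eq_abs, abs_mul, abs_abs]
    exact hLg _ _
  refine h3.trans (le_of_eq ?_)
  rw [norm_smul, Real.norm_eq_abs, abs_abs, norm_sub_rev]

theorem XP_mem (m : OverlapProfile) {b : ℝ} (hb : 0 < b) (k : ℝ) :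
    XP hBm hB m hb k ∈ HH P B hBm :=
  (HH P B hBm).add_mem (ZB_mem hBm hB) (op_mem hBm m _)

theorem lamP_mem_HB (m : OverlapProfile) {b : ℝ} (hb : 0 < b) (k : ℝ) :
    lamP hBm hB m hb k ∈ HH P B hBm :=
  kkt_mem (XP_mem hBm hB m hb k) (lamP_kkt hBm hB m hb k)

/-- the optimal dual variable as an element of `HH` -/
def lamH (m : OverlapProfile) {b : ℝ} (hb : 0 < b) (k : ℝ) : HH P B hBm :=
  ⟨lamP hBm hB m hb k, lamP_mem_HB hBm hB m hb k⟩

theorem lamH_mem (m : OverlapProfile) {b : ℝ} (hb : 0 < b) (k : ℝ) :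
    lamH hBm hB m hb k ∈ KB P B hBm := lamP_mem hBm hB m hb k

/-- `QQ` in the frame of `HilbA_356` -/
theorem QQ_eq (m : OverlapProfile) (b k : ℝ) (x : HH P B hBm) :
    QQ (brownianFiltration B hBm) m.toFun b k (ZB hB) (x : Ω →₂[P] ℝ) =
      ⟪x, xi hBm hB (-k)⟫_ℝ + 1 / (2 * b) * ‖x‖ ^ 2 + 1 / 2 * (RB P B hBm).Q m.tail x := by
  rw [QQ_def, bil_eq_Q, Submodule.coe_inner]
  have h1 : ((xi hBm hB (-k) : HH P B hBm) : Ω →₂[P] ℝ) = ZB hB - cst P k := by
    show cst P (-k) + ZB hB = _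
    have : cst P (-k) = - cst P k := by
      refine Lp.ext ?_
      filter_upwards [cst_coe (P := P) (-k), cst_coe (P := P) k, Lp.coeFn_neg (cst P k)]
        with ω h1 h2 h3
      rw [h1, h3, Pi.neg_apply, h2]
    rw [this]; abel
  rw [h1, real_inner_comm]
  have h2 : ‖(x : Ω →₂[P] ℝ)‖ = ‖x‖ := rfl
  rw [h2]
  ring

/-- **(G)** the control value as a minimum over the cone of `HH` -/
theorem value_le_H (m : OverlapProfile) {b : ℝ} (hb : 0 < b) (k : ℝ) {x : HH P B hBm}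
    (hx : x ∈ KB P B hBm) : controlValue P B hBm (fbk b k) m ≤
      ⟪x, xi hBm hB (-k)⟫_ℝ + 1 / (2 * b) * ‖x‖ ^ 2 + 1 / 2 * (RB P B hBm).Q m.tail x := by
  rw [← QQ_eq hBm hB m b k x]
  exact value_fbk_le hBm hB m hb k hx

theorem value_eq_H (m : OverlapProfile) {b : ℝ} (hb : 0 < b) (k : ℝ) :
    controlValue P B hBm (fbk b k) m =
      ⟪lamH hBm hB m hb k, xi hBm hB (-k)⟫_ℝ + 1 / (2 * b) * ‖lamH hBm hB m hb k‖ ^ 2 +
        1 / 2 * (RB P B hBm).Q m.tail (lamH hBm hB m hb k) := by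
  rw [← QQ_eq hBm hB m b k, value_fbk hBm hB m hb k]
  rfl

/-- the terminal variable: `X* - k = xi(-k) + Dop tail lam*` -/
theorem XP_eq (m : OverlapProfile) {b : ℝ} (hb : 0 < b) (k : ℝ) :
    ((xi hBm hB (-k) + (RB P B hBm).Dop m.tail (lamH hBm hB m hb k) : HH P B hBm) : Ω → ℝ)
      =ᵐ[P] fun ω => XP hBm hB m hb k ω - k := by
  have h1 : ((xi hBm hB (-k) + (RB P B hBm).Dop m.tail (lamH hBm hB m hb k) : HH P B hBm) :
      Ω →₂[P] ℝ) = cst P (-k) + XP hBm hB m hb k := by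
    show (cst P (-k) + ZB hB) + (((RB P B hBm).Dop m.tail (lamH hBm hB m hb k) : HH P B hBm) :
      Ω →₂[P] ℝ) = _
    rw [← op_eq_Dop]
    unfold XP
    rw [add_assoc]; rfl
  rw [h1]
  filter_upwards [Lp.coeFn_add (cst P (-k)) (XP hBm hB m hb k), cst_coe (P := P) (-k)]
    with ω h2 h3
  rw [h2, Pi.add_apply, h3]; ring

end Brownian

end Crest.Agent.R146.DualG_256
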