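import Mathlib

/-!
# Row 146, NUMREF, closure certificates (helper924)

One-point algebra of the closure inequalities with the dual functions `G± = g± G₀`, `G₀ = -H`,
`H' = k H - I² + 2 c w` (`' = d/dξ`, `w = V R²`, `R = 1 - V`), in the form (CLO) of helper355 #1357:

`E(j, L) = I² j (j - g) + 2 w (c j g - T) + g H (j k - L) + j g1 H`,   `J = j I`,

which is `J² - 2 T w - J G'(v) + L G(v)`.
* upper side: only the corner `j = 1 + y`, `L = max 0 (k - F)` has to be checked;
* lower side: only the corner `j = 1 - y`, `L = k + F`.

`up_corner`, `lo_corner`: the corner inequality for `g = 1 ± a δ V` from ONE linear inequality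
in each of the quantities (`(U')`, `(L')` of post 146-924-5).
-/

set_option autoImplicit false

namespace Crest.Agent.R146.Dual_924

/-- the closure expression of #1357 (CLO) -/
def EE (I w H k c g g1 T j L : ℝ) : ℝ :=
  I ^ 2 * (j * (j - g)) + 2 * w * (c * j * g - T) + g * H * (j * k - L) + j * g1 * H

variable {I w H k c g g1 T j j1 L L1 : ℝ}




section corner
variable {V a b F δ G : ℝ}




end corner

end Crest.Agent.R146.Dual_924
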