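import Mathlib
import Crest.Agent.R146.LevC_4
import Crest.Agent.R146.LevK_4
import Crest.Agent.R146.JamAsm_576

-- ▼ part R146/SubG_4
section

/-!
Row 146 (task 58, helper4): conditional sub-Gaussian bounds in set form.

`SubG P G X v` : `E[exp(μ X); C] ≤ exp(μ² v / 2) P(C)` for every real `μ` and every `C ∈ G`.
Consequences: tails, variances, closure under convergence in measure.
-/

set_option autoImplicit false

namespace Crest.Agent.R146.SubG_4

open MeasureTheory ProbabilityTheory Filter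
open scoped ENNReal NNReal Topology

variable {Ω : Type*} {G G' mΩ : MeasurableSpace Ω} {P : Measure Ω}

/-- conditional sub-Gaussian bound, set form -/
def SubG (P : Measure Ω) (G : MeasurableSpace Ω) (X : Ω → ℝ) (v : ℝ) : Prop :=
  ∀ μ : ℝ, ∀ C, MeasurableSet[G] C →
    ∫⁻ ω in C, ENNReal.ofReal (Real.exp (μ * X ω)) ∂P ≤ ENNReal.ofReal (Real.exp (μ ^ 2 * v / 2)) * P C

theorem SubG.congr {X Y : Ω → ℝ} {v : ℝ} (h : SubG P G X v) (hXY : X =ᵐ[P] Y) : SubG P G Y v := by
  intro μ C hC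
  rw [← lintegral_congr_ae (μ := P.restrict C)
    (f := fun ω => ENNReal.ofReal (Real.exp (μ * X ω)))]
  · exact h μ C hC
  · filter_upwards [ae_restrict_of_ae hXY] with ω hω
    rw [hω]

theorem SubG.mono {X : Ω → ℝ} {v : ℝ} (h : SubG P G' X v) (hG : G ≤ G') : SubG P G X v :=
  fun μ C hC => h μ C (hG C hC)


theorem SubG.neg {X : Ω → ℝ} {v : ℝ} (h : SubG P G X v) : SubG P G (fun ω => - X ω) v := by
  intro μ C hC
  have := h (-μ) C hC
  simpa only [mul_neg, neg_mul, neg_sq] using this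

theorem SubG.const_mul {X : Ω → ℝ} {v : ℝ} (h : SubG P G X v) (a : ℝ) :
    SubG P G (fun ω => a * X ω) (a ^ 2 * v) := by
  intro μ C hC
  have := h (μ * a) C hC
  have e : (μ * a) ^ 2 * v / 2 = μ ^ 2 * (a ^ 2 * v) / 2 := by ring
  rw [e] at this
  refine le_trans (le_of_eq ?_) this
  congr 1; funext ω; ring_nf

/-- **tails** -/
theorem SubG.tail {X : Ω → ℝ} {v : ℝ} (h : SubG P G X v) (hX : AEMeasurable X P) (hG : G ≤ mΩ)
    (hv : 0 < v) {x : ℝ}
    {C : Set Ω} (hC : MeasurableSet[G] C) (hx : 0 ≤ x) :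
    P ({ω | X ω ≤ -x} ∩ C) ≤ ENNReal.ofReal (Real.exp (-(x ^ 2 / (2 * v)))) * P C := by
  have h1 := h (-(x / v)) C hC
  have h2 : ENNReal.ofReal (Real.exp (x ^ 2 / v)) * P ({ω | X ω ≤ -x} ∩ C) ≤
      ∫⁻ ω in C, ENNReal.ofReal (Real.exp (-(x / v) * X ω)) ∂P := by
    have e1 : P ({ω | X ω ≤ -x} ∩ C) = (P.restrict C) {ω | X ω ≤ -x} :=
      (Measure.restrict_apply' (hG C hC)).symm
    rw [e1]
    have e2 : {ω | X ω ≤ -x} ⊆ {ω | ENNReal.ofReal (Real.exp (x ^ 2 / v)) ≤
        ENNReal.ofReal (Real.exp (-(x / v) * X ω))} := by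
      intro ω hω
      have hω : X ω ≤ -x := hω
      apply ENNReal.ofReal_le_ofReal
      apply Real.exp_le_exp.2
      have h3 : 0 ≤ x / v := by positivity
      calc x ^ 2 / v = (x / v) * x := by ring
        _ ≤ (x / v) * (- X ω) := by gcongr; linarith
        _ = _ := by ring
    have e3 : AEMeasurable (fun ω => ENNReal.ofReal (Real.exp (-(x / v) * X ω))) (P.restrict C) :=
      (Real.measurable_exp.comp_aemeasurable (hX.restrict.const_mul _)).ennreal_ofReal
    exact le_trans (by gcongr) (mul_meas_ge_le_lintegral₀ e3 _)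
  have h3 : ENNReal.ofReal (Real.exp (x ^ 2 / v)) * P ({ω | X ω ≤ -x} ∩ C) ≤
      ENNReal.ofReal (Real.exp (x ^ 2 / v)) *
        (ENNReal.ofReal (Real.exp (-(x ^ 2 / (2 * v)))) * P C) := by
    refine (h2.trans h1).trans (le_of_eq ?_)
    rw [← mul_assoc, ← ENNReal.ofReal_mul (Real.exp_pos _).le, ← Real.exp_add]
    congr 3
    field_simp
    ring
  have h4 : ENNReal.ofReal (Real.exp (x ^ 2 / v)) ≠ 0 := by
    rw [Ne, ENNReal.ofReal_eq_zero, not_le]; exact Real.exp_pos _
  exact (ENNReal.mul_le_mul_iff_right h4 ENNReal.ofReal_ne_top).1 h3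


/-- integration against `G`-measurable functions -/
theorem SubG.lintegral_mul {X : Ω → ℝ} {v : ℝ} (h : SubG P G X v) (hX : AEMeasurable X P)
    (hG : G ≤ mΩ) (μ : ℝ) {f : Ω → ℝ≥0∞} (hf : Measurable[G] f) :
    ∫⁻ ω, f ω * ENNReal.ofReal (Real.exp (μ * X ω)) ∂P ≤
      ENNReal.ofReal (Real.exp (μ ^ 2 * v / 2)) * ∫⁻ ω, f ω ∂P := by
  have hexp : AEMeasurable (fun ω => ENNReal.ofReal (Real.exp (μ * X ω))) P :=
    (Real.measurable_exp.comp_aemeasurable (hX.const_mul _)).ennreal_ofReal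
  refine Measurable.ennreal_induction (mα := G) (motive := fun f =>
    ∫⁻ ω, f ω * ENNReal.ofReal (Real.exp (μ * X ω)) ∂P ≤
      ENNReal.ofReal (Real.exp (μ ^ 2 * v / 2)) * ∫⁻ ω, f ω ∂P) ?_ ?_ ?_ hf
  · intro c s hs
    have e1 : ∀ ω, s.indicator (fun _ => c) ω * ENNReal.ofReal (Real.exp (μ * X ω)) =
        s.indicator (fun ω => c * ENNReal.ofReal (Real.exp (μ * X ω))) ω := by
      intro ω
      by_cases hω : ω ∈ s <;> simp [hω]
    simp only [e1]
    rw [lintegral_indicator (hG s hs), lintegral_indicator (hG s hs), setLIntegral_const,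
      lintegral_const_mul'' _ hexp.restrict]
    calc c * ∫⁻ ω in s, ENNReal.ofReal (Real.exp (μ * X ω)) ∂P
        ≤ c * (ENNReal.ofReal (Real.exp (μ ^ 2 * v / 2)) * P s) := by gcongr; exact h μ s hs
      _ = _ := by ring
  · intro f g _ hf hg ihf ihg
    have hf' : Measurable f := hf.mono hG le_rfl
    simp only [Pi.add_apply, add_mul]
    have hm : AEMeasurable (fun ω => f ω * ENNReal.ofReal (Real.exp (μ * X ω))) P :=
      hf'.aemeasurable.mul hexp
    rw [lintegral_add_left' hm, lintegral_add_left hf', mul_add]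
    exact add_le_add ihf ihg
  · intro f hf hmono ih
    have hf' : ∀ n, Measurable (f n) := fun n => (hf n).mono hG le_rfl
    have e1 : ∀ ω, (⨆ n, f n ω) * ENNReal.ofReal (Real.exp (μ * X ω)) =
        ⨆ n, f n ω * ENNReal.ofReal (Real.exp (μ * X ω)) := fun ω => ENNReal.iSup_mul _ _
    have hm : ∀ n, AEMeasurable (fun ω => f n ω * ENNReal.ofReal (Real.exp (μ * X ω))) P :=
      fun n => (hf' n).aemeasurable.mul hexp
    have hmn : ∀ᵐ ω ∂P, Monotone fun n => f n ω * ENNReal.ofReal (Real.exp (μ * X ω)) := by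
      refine ae_of_all _ fun ω i j hij => ?_
      have := hmono hij ω
      exact mul_le_mul_left this _
    simp only [e1]
    rw [lintegral_iSup' hm hmn, lintegral_iSup hf' hmono, ENNReal.mul_iSup]
    exact iSup_mono ih

/-- sums along a filtration -/
theorem SubG.add {X Y : Ω → ℝ} {v w : ℝ} (h : SubG P G X v) (hGG : G ≤ G') (hG' : G' ≤ mΩ)
    (hXm : Measurable[G'] X) (h' : SubG P G' Y w) (hY : AEMeasurable Y P) :
    SubG P G (fun ω => X ω + Y ω) (v + w) := by
  intro μ C hC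
  have hf : Measurable[G'] (C.indicator fun ω => ENNReal.ofReal (Real.exp (μ * X ω))) :=
    (Measurable.ennreal_ofReal (Real.measurable_exp.comp (hXm.const_mul μ))).indicator (hGG C hC)
  have h1 := h'.lintegral_mul hY hG' μ hf
  have hCm : MeasurableSet C := hG' C (hGG C hC)
  rw [lintegral_indicator hCm] at h1
  have e1 : ∫⁻ ω in C, ENNReal.ofReal (Real.exp (μ * (X ω + Y ω))) ∂P =
      ∫⁻ ω, C.indicator (fun ω => ENNReal.ofReal (Real.exp (μ * X ω))) ω *
        ENNReal.ofReal (Real.exp (μ * Y ω)) ∂P := by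
    rw [← lintegral_indicator hCm]
    congr 1
    funext ω
    by_cases hω : ω ∈ C
    · rw [Set.indicator_of_mem hω, Set.indicator_of_mem hω, ← ENNReal.ofReal_mul (Real.exp_pos _).le,
        ← Real.exp_add, mul_add]
    · simp [hω]
  rw [e1]
  refine h1.trans ?_
  calc ENNReal.ofReal (Real.exp (μ ^ 2 * w / 2)) * ∫⁻ ω in C, ENNReal.ofReal (Real.exp (μ * X ω)) ∂P
      ≤ ENNReal.ofReal (Real.exp (μ ^ 2 * w / 2)) *
        (ENNReal.ofReal (Real.exp (μ ^ 2 * v / 2)) * P C) := by gcongr; exact h μ C hC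
    _ = _ := by
      rw [← mul_assoc, ← ENNReal.ofReal_mul (Real.exp_pos _).le, ← Real.exp_add]
      congr 3; ring

theorem SubG.zero [IsProbabilityMeasure P] {v : ℝ} (hv : 0 ≤ v) : SubG P G (fun _ => (0 : ℝ)) v := by
  intro μ C hC
  simp only [mul_zero, Real.exp_zero, ENNReal.ofReal_one, setLIntegral_one]
  calc P C = 1 * P C := (one_mul _).symm
    _ ≤ _ := by
      gcongr
      rw [ENNReal.one_le_ofReal]
      exact Real.one_le_exp (by positivity)



theorem cosh_ge (x : ℝ) : 2 + x ^ 2 ≤ Real.exp x + Real.exp (-x) := by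
  have h1 : (x / 2) ^ 2 ≤ Real.sinh (x / 2) ^ 2 := by
    rcases le_total 0 (x / 2) with h | h
    · have := Real.self_le_sinh_iff.2 h
      gcongr
    · have h2 : 0 ≤ -(x / 2) := by linarith
      have := Real.self_le_sinh_iff.2 h2
      rw [Real.sinh_neg] at this
      nlinarith
  have h2 := Real.cosh_two_mul (x / 2)
  rw [Real.cosh_sq, mul_div_cancel₀ x (two_ne_zero)] at h2
  have h3 := Real.cosh_eq x
  nlinarith

/-- **variance** -/
theorem SubG.var {X : Ω → ℝ} {v : ℝ} [IsFiniteMeasure P] (h : SubG P G X v) (hX : AEMeasurable X P)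
    {C : Set Ω} (hC : MeasurableSet[G] C) (hv : 0 ≤ v) :
    ∫⁻ ω in C, ENNReal.ofReal (X ω ^ 2) ∂P ≤ ENNReal.ofReal v * P C := by
  have key : ∀ μ : ℝ, 0 < μ → ENNReal.ofReal (μ ^ 2) * ∫⁻ ω in C, ENNReal.ofReal (X ω ^ 2) ∂P +
      2 * P C ≤ 2 * (ENNReal.ofReal (Real.exp (μ ^ 2 * v / 2)) * P C) := by
    intro μ hμ
    have h1 := h μ C hC
    have h2 := h (-μ) C hC
    rw [neg_sq] at h2
    have hm1 : AEMeasurable (fun ω => ENNReal.ofReal (Real.exp (μ * X ω))) (P.restrict C) :=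
      (Real.measurable_exp.comp_aemeasurable (hX.restrict.const_mul _)).ennreal_ofReal
    calc ENNReal.ofReal (μ ^ 2) * ∫⁻ ω in C, ENNReal.ofReal (X ω ^ 2) ∂P + 2 * P C
        = ∫⁻ ω in C, (ENNReal.ofReal (μ ^ 2) * ENNReal.ofReal (X ω ^ 2) + 2) ∂P := by
          rw [lintegral_add_right _ measurable_const,
            lintegral_const_mul'' _ (hX.restrict.pow_const 2).ennreal_ofReal, setLIntegral_const]
      _ ≤ ∫⁻ ω in C, (ENNReal.ofReal (Real.exp (μ * X ω)) +
            ENNReal.ofReal (Real.exp (-μ * X ω))) ∂P := by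
          apply lintegral_mono
          intro ω
          change ENNReal.ofReal (μ ^ 2) * ENNReal.ofReal (X ω ^ 2) + 2 ≤
            ENNReal.ofReal (Real.exp (μ * X ω)) + ENNReal.ofReal (Real.exp (-μ * X ω))
          rw [← ENNReal.ofReal_mul (by positivity),
            ← ENNReal.ofReal_add (Real.exp_pos _).le (Real.exp_pos _).le,
            show (2 : ℝ≥0∞) = ENNReal.ofReal 2 by simp,
            ← ENNReal.ofReal_add (by positivity) (by norm_num)]
          apply ENNReal.ofReal_le_ofReal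
          have := cosh_ge (μ * X ω)
          rw [neg_mul]
          nlinarith
      _ = ∫⁻ ω in C, ENNReal.ofReal (Real.exp (μ * X ω)) ∂P +
            ∫⁻ ω in C, ENNReal.ofReal (Real.exp (-μ * X ω)) ∂P := lintegral_add_left' hm1 _
      _ ≤ _ := by rw [two_mul]; exact add_le_add h1 h2
  -- real form
  set I : ℝ≥0∞ := ∫⁻ ω in C, ENNReal.ofReal (X ω ^ 2) ∂P with hI
  have hPC : P C ≠ ⊤ := measure_ne_top _ _
  have hIfin : I ≠ ⊤ := by
    intro hI'
    have := key 1 one_pos
    rw [hI'] at this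
    have e : ENNReal.ofReal (1 ^ 2) * ⊤ + 2 * P C = ⊤ := by simp
    rw [e, top_le_iff] at this
    exact absurd this (ENNReal.mul_ne_top (by norm_num) (ENNReal.mul_ne_top ENNReal.ofReal_ne_top hPC))
  have keyR : ∀ μ : ℝ, 0 < μ → μ ^ 2 * I.toReal + 2 * (P C).toReal ≤
      2 * (Real.exp (μ ^ 2 * v / 2) * (P C).toReal) := by
    intro μ hμ
    have h1 := ENNReal.toReal_mono (ENNReal.mul_ne_top (by norm_num)
      (ENNReal.mul_ne_top ENNReal.ofReal_ne_top hPC)) (key μ hμ)
    rw [ENNReal.toReal_add (ENNReal.mul_ne_top ENNReal.ofReal_ne_top hIfin)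
      (ENNReal.mul_ne_top (by norm_num) hPC), ENNReal.toReal_mul, ENNReal.toReal_mul,
      ENNReal.toReal_mul, ENNReal.toReal_mul, ENNReal.toReal_ofReal (by positivity),
      ENNReal.toReal_ofReal (Real.exp_pos _).le] at h1
    simpa using h1
  have hfin : I.toReal ≤ v * (P C).toReal := by
    -- `2 (exp(y v/2) - 1)/y → v` as `y → 0+`
    have hlim : Tendsto (fun y : ℝ => 2 * ((Real.exp (y * v / 2) - 1) / y) * (P C).toReal)
        (𝓝[>] 0) (𝓝 (2 * (v / 2) * (P C).toReal)) := by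
      have hd : HasDerivAt (fun y : ℝ => Real.exp (y * v / 2)) (v / 2) 0 := by
        have h1 : HasDerivAt (fun y : ℝ => y * v / 2) (v / 2) 0 := by
          simpa using ((hasDerivAt_id (0 : ℝ)).mul_const v).div_const 2
        simpa using h1.exp
      have h2 := hd.tendsto_slope_zero_right
      simp only [zero_add, zero_mul, zero_div, Real.exp_zero, smul_eq_mul] at h2
      have h3 : Tendsto (fun y : ℝ => (Real.exp (y * v / 2) - 1) / y) (𝓝[>] 0) (𝓝 (v / 2)) := by
        refine h2.congr fun y => ?_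
        exact (div_eq_inv_mul _ _).symm
      exact (h3.const_mul 2).mul_const _
    have h4 : I.toReal ≤ 2 * (v / 2) * (P C).toReal := by
      refine ge_of_tendsto hlim ?_
      filter_upwards [self_mem_nhdsWithin] with y hy
      have hy : 0 < y := hy
      have h5 := keyR (√y) (Real.sqrt_pos.2 hy)
      rw [Real.sq_sqrt hy.le] at h5
      rw [← sub_nonneg]
      have h6 : 2 * ((Real.exp (y * v / 2) - 1) / y) * (P C).toReal - I.toReal =
          (2 * (Real.exp (y * v / 2) * (P C).toReal) - (y * I.toReal + 2 * (P C).toReal)) / y := by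
        field_simp
        ring
      rw [h6]
      exact div_nonneg (by linarith) hy.le
    linarith
  rw [← ENNReal.ofReal_toReal hIfin, ← ENNReal.ofReal_toReal hPC, ← ENNReal.ofReal_mul hv]
  exact ENNReal.ofReal_le_ofReal hfin

theorem SubG.memLp [IsFiniteMeasure P] {X : Ω → ℝ} {v : ℝ} (h : SubG P G X v)
    (hX : AEMeasurable X P) (hv : 0 ≤ v) : MemLp X 2 P := by
  rw [memLp_two_iff_integrable_sq hX.aestronglyMeasurable]
  refine ⟨(hX.pow_const 2).aestronglyMeasurable, ?_⟩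
  have h1 := h.var hX (C := Set.univ) MeasurableSet.univ hv
  rw [Measure.restrict_univ] at h1
  rw [hasFiniteIntegral_iff_ofReal (ae_of_all _ fun ω => sq_nonneg _)]
  exact lt_of_le_of_lt h1 (ENNReal.mul_lt_top ENNReal.ofReal_lt_top (measure_lt_top _ _))

theorem SubG.var_real [IsFiniteMeasure P] {X : Ω → ℝ} {v : ℝ} (h : SubG P G X v)
    (hX : AEMeasurable X P) (hv : 0 ≤ v) {C : Set Ω} (hC : MeasurableSet[G] C) :
    ∫ ω in C, X ω ^ 2 ∂P ≤ v * P.real C := by
  rw [integral_eq_lintegral_of_nonneg_ae (ae_of_all _ fun ω => sq_nonneg _)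
    (hX.restrict.pow_const 2).aestronglyMeasurable]
  apply ENNReal.toReal_le_of_le_ofReal (by positivity)
  refine (h.var hX hC hv).trans (le_of_eq ?_)
  rw [ENNReal.ofReal_mul hv, Measure.real, ENNReal.ofReal_toReal (measure_ne_top _ _)]

end Crest.Agent.R146.SubG_4
end

-- ▼ part R146/LevD_4
section

/-!
Row 146, node (4d) of post 459 (task 58, helper4): strict complementarity `P(h = 0 = lam) = 0` at
jamming.
-/

set_option autoImplicit false

namespace Crest.Agent.R146.LevD_4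

open MeasureTheory ProbabilityTheory Filter
open scoped ENNReal NNReal Topology
open Crest.Agent.R146.LevC_4 Crest.Agent.R146.SubG_4

variable {Ω : Type*} {mΩ : MeasurableSpace Ω} {P : Measure Ω}

/-- Gaussian tail at two standard deviations -/
noncomputable def c0 : ℝ := (gaussianReal 0 1).real (Set.Ici 2)

theorem c0_pos : 0 < c0 := by
  have h1 : volume (Set.Ici (2 : ℝ)) ≠ 0 := by simp
  have h2 : gaussianReal 0 1 (Set.Ici (2 : ℝ)) ≠ 0 := fun h =>
    h1 (gaussianReal_absolutelyContinuous' 0 one_ne_zero h)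
  exact ENNReal.toReal_pos h2 (measure_ne_top _ _)

theorem gauss_Ici {τ : ℝ} (hτ : 0 < τ) :
    gaussianReal 0 τ.toNNReal (Set.Ici (2 * √τ)) = ENNReal.ofReal c0 := by
  have h1 : gaussianReal 0 τ.toNNReal = (gaussianReal 0 1).map (fun x => √τ * x) := by
    rw [gaussianReal_map_const_mul, mul_zero, mul_one]
    congr 1
    rw [← NNReal.coe_inj, Real.coe_toNNReal _ hτ.le]
    exact (Real.sq_sqrt hτ.le).symm
  rw [h1, Measure.map_apply (measurable_const_mul _) measurableSet_Ici]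
  have h2 : (fun x => √τ * x) ⁻¹' Set.Ici (2 * √τ) = Set.Ici 2 := by
    ext x
    simp only [Set.mem_preimage, Set.mem_Ici]
    rw [mul_comm 2]
    exact mul_le_mul_iff_right₀ (Real.sqrt_pos.2 hτ)
  rw [h2, c0, Measure.real, ENNReal.ofReal_toReal (measure_ne_top _ _)]

/-- data of (4d) -/
structure Strict (P : Measure Ω) (F : ℝ → MeasurableSpace Ω) (W : ℝ → Ω → ℝ) (h lam : Ω → ℝ)
    (E K : ℝ → ℝ) : Prop where
  bm : BM P F W
  h2 : MemLp h 2 P
  l2 : MemLp lam 2 P
  h0 : 0 ≤ᵐ[P] h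
  l0 : 0 ≤ᵐ[P] lam
  Epos : ∀ s, 0 ≤ s → s < 1 → 0 < E s
  Kpos : ∀ s, 0 ≤ s → s < 1 → 0 < K s
  Klim : Tendsto K (𝓝[<] 1) (𝓝 0)
  sgh : ∀ s, 0 ≤ s → s < 1 → SubG P (F s) (fun ω => h ω - (P[h | F s]) ω) (1 - s)
  sgl : ∀ s, 0 ≤ s → s < 1 → SubG P (F s) (fun ω => lam ω - (P[lam | F s]) ω) (K s)
  pos : ∀ s, 0 ≤ s → s < 1 → ∀ᵐ ω ∂P,
    ((P[h | F s]) ω - (E s)⁻¹ * (P[lam | F s]) ω) + (W 1 ω - W s ω) ≤ h ω

namespace Strict

variable {F : ℝ → MeasurableSpace Ω} {W : ℝ → Ω → ℝ} {h lam : Ω → ℝ} {E K : ℝ → ℝ}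

theorem d1 [IsProbabilityMeasure P] (H : Strict P F W h lam E K) {s : ℝ} (hs : 0 ≤ s)
    (hs1 : s < 1) : ∀ᵐ ω ∂P, -√(1 - s) ≤ (P[h | F s]) ω - (E s)⁻¹ * (P[lam | F s]) ω →
      c0 * √(1 - s) ≤ (P[h | F s]) ω := by
  have hle := H.bm.le s hs hs1.le
  set τ := 1 - s with hτ
  have hτ0 : 0 < τ := sub_pos.2 hs1
  have hsq : 0 < √τ := Real.sqrt_pos.2 hτ0
  have hhm : Measurable[F s] (P[h | F s]) := stronglyMeasurable_condExp.measurable
  have hlm : Measurable[F s] (P[lam | F s]) := stronglyMeasurable_condExp.measurable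
  set C : Set Ω := {ω | -√τ ≤ (P[h | F s]) ω - (E s)⁻¹ * (P[lam | F s]) ω} ∩
    {ω | (P[h | F s]) ω < c0 * √τ} with hC
  have hCa : MeasurableSet[F s] {ω | -√τ ≤ (P[h | F s]) ω - (E s)⁻¹ * (P[lam | F s]) ω} :=
    measurableSet_le measurable_const (hhm.sub (hlm.const_mul _))
  have hCb : MeasurableSet[F s] {ω | (P[h | F s]) ω < c0 * √τ} :=
    measurableSet_lt hhm measurable_const
  have hCm : MeasurableSet[F s] C := hCa.inter hCb
  have hCm' : MeasurableSet C := hle C hCm
  have hW1 : Measurable (W 1) := (H.bm.adapted 1 zero_le_one le_rfl).mono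
    (H.bm.le 1 zero_le_one le_rfl) le_rfl
  have hWs : Measurable (W s) := (H.bm.adapted s hs hs1.le).mono hle le_rfl
  have hhI : Integrable h P := H.h2.integrable (by norm_num)
  suffices hPC : P C = 0 by
    have : ∀ᵐ ω ∂P, ω ∉ C := measure_eq_zero_iff_ae_notMem.1 hPC
    filter_upwards [this] with ω hω h1
    by_contra h2
    exact hω ⟨h1, not_le.1 h2⟩
  by_contra hPC
  have e1 : ∫ ω in C, (P[h | F s]) ω ∂P = ∫ ω in C, h ω ∂P := setIntegral_condExp hle hhI hCm
  set T : Set Ω := (fun ω => W 1 ω - W s ω) ⁻¹' Set.Ici (2 * √τ) with hT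
  have hTm : MeasurableSet T := (hW1.sub hWs) measurableSet_Ici
  have e2 : P.real (C ∩ T) = P.real C * c0 := by
    have := H.bm.incr s 1 hs hs1.le le_rfl C hCm (Set.Ici (2 * √τ)) measurableSet_Ici
    rw [gauss_Ici hτ0] at this
    rw [Measure.real, this, ENNReal.toReal_mul, ENNReal.toReal_ofReal c0_pos.le]
    rfl
  have e3 : √τ * P.real (C ∩ T) ≤ ∫ ω in C, h ω ∂P := by
    have e4 : ∫ ω in C, (T.indicator (fun _ => √τ) ω) ∂P = √τ * P.real (C ∩ T) := by
      rw [setIntegral_indicator hTm, setIntegral_const, smul_eq_mul, mul_comm]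
    rw [← e4]
    apply setIntegral_mono_on_ae ((integrable_const _).indicator hTm).integrableOn
      hhI.integrableOn hCm'
    filter_upwards [H.pos s hs hs1, H.h0] with ω h1 h2 h3
    by_cases h4 : ω ∈ T
    · rw [Set.indicator_of_mem h4]
      have h5 : 2 * √τ ≤ W 1 ω - W s ω := h4
      have h6 : -√τ ≤ (P[h | F s]) ω - (E s)⁻¹ * (P[lam | F s]) ω := h3.1
      linarith
    · rw [Set.indicator_of_notMem h4]; exact h2
  have e5 : ∫ ω in C, (P[h | F s]) ω ∂P < c0 * √τ * P.real C := by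
    have hci : Integrable (P[h | F s]) P := integrable_condExp
    have h1 : 0 < ∫ ω in C, (c0 * √τ - (P[h | F s]) ω) ∂P := by
      rw [setIntegral_pos_iff_support_of_nonneg_ae]
      · have : C ⊆ (Function.support fun ω => c0 * √τ - (P[h | F s]) ω) ∩ C := by
          intro ω hω
          refine ⟨?_, hω⟩
          have h2 : (P[h | F s]) ω < c0 * √τ := hω.2
          exact (sub_pos.2 h2).ne'
        exact lt_of_lt_of_le (pos_iff_ne_zero.2 hPC) (measure_mono this)
      · rw [EventuallyLE, ae_restrict_iff' hCm']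
        refine ae_of_all _ fun ω hω => ?_
        have h2 : (P[h | F s]) ω < c0 * √τ := hω.2
        exact (sub_pos.2 h2).le
      · exact ((integrable_const _).sub hci).integrableOn
    rw [integral_sub (integrable_const _).integrableOn hci.integrableOn, setIntegral_const,
      smul_eq_mul] at h1
    linarith [mul_comm (P.real C) (c0 * √τ)]
  rw [e1] at e5
  rw [e2] at e3
  have : c0 * √τ * P.real C = √τ * (P.real C * c0) := by ring
  linarith

/-- one scale -/
theorem one_scale [IsProbabilityMeasure P] (H : Strict P F W h lam E K) {C : ℝ} (hC : 0 < C)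
    {s : ℝ} (hs : 0 ≤ s) (hs1 : s < 1) (tip : K s ≤ C ^ 2 * (1 - s) * E s ^ 2) {η : ℝ} (hη : 0 < η)
    (hη1 : η < c0) (hηC : η * C ≤ 1) {A : Set Ω} (hA : MeasurableSet[F s] A) :
    P ({ω | h ω = 0 ∧ lam ω = 0} ∩ A) ≤ ENNReal.ofReal (Real.exp (-(η ^ 2 / 2))) * P A := by
  have hle := H.bm.le s hs hs1.le
  set τ := 1 - s with hτ
  have hτ0 : 0 < τ := sub_pos.2 hs1
  have hsq : 0 < √τ := Real.sqrt_pos.2 hτ0
  have hK0 := H.Kpos s hs hs1
  have hKs : 0 < √(K s) := Real.sqrt_pos.2 hK0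
  have hE0 := H.Epos s hs hs1
  have hhm : Measurable[F s] (P[h | F s]) := stronglyMeasurable_condExp.measurable
  have hlm : Measurable[F s] (P[lam | F s]) := stronglyMeasurable_condExp.measurable
  set A1 : Set Ω := A ∩ {ω | η * √τ < (P[h | F s]) ω} with hA1
  set A2 : Set Ω := A \ {ω | η * √τ < (P[h | F s]) ω} with hA2
  have hB1 : MeasurableSet[F s] {ω | η * √τ < (P[h | F s]) ω} :=
    measurableSet_lt measurable_const hhm
  have hA1m : MeasurableSet[F s] A1 := hA.inter hB1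
  have hA2m : MeasurableSet[F s] A2 := hA.diff hB1
  have hunion : A = A1 ∪ A2 := by rw [hA1, hA2, Set.inter_union_sdiff]
  have hPA : P A = P A1 + P A2 := (measure_inter_add_sdiff A (hle _ hB1)).symm
  have hXm : AEMeasurable (fun ω => h ω - (P[h | F s]) ω) P :=
    H.h2.1.aemeasurable.sub (hhm.mono hle le_rfl).aemeasurable
  have hYm : AEMeasurable (fun ω => lam ω - (P[lam | F s]) ω) P :=
    H.l2.1.aemeasurable.sub (hlm.mono hle le_rfl).aemeasurable
  have b1 : P ({ω | h ω = 0 ∧ lam ω = 0} ∩ A1) ≤ ENNReal.ofReal (Real.exp (-(η ^ 2 / 2))) * P A1 := by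
    have h1 := (H.sgh s hs hs1).tail hXm hle hτ0 (x := η * √τ) hA1m (by positivity)
    have e : (η * √τ) ^ 2 / (2 * τ) = η ^ 2 / 2 := by
      rw [mul_pow, Real.sq_sqrt hτ0.le]; field_simp
    rw [e] at h1
    refine (measure_mono ?_).trans h1
    rintro ω ⟨⟨h2, h3⟩, h4⟩
    refine ⟨?_, h4⟩
    have h5 : η * √τ < (P[h | F s]) ω := h4.2
    change h ω - (P[h | F s]) ω ≤ -(η * √τ)
    rw [h2]; linarith
  have b2 : P ({ω | h ω = 0 ∧ lam ω = 0} ∩ A2) ≤ ENNReal.ofReal (Real.exp (-(η ^ 2 / 2))) * P A2 := by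
    have h1 := (H.sgl s hs hs1).tail hYm hle hK0 (x := η * √(K s)) hA2m (by positivity)
    have e : (η * √(K s)) ^ 2 / (2 * K s) = η ^ 2 / 2 := by
      rw [mul_pow, Real.sq_sqrt hK0.le]; field_simp
    rw [e] at h1
    refine le_trans (measure_mono_ae ?_) h1
    filter_upwards [H.d1 hs hs1, condExp_nonneg (m := F s) H.h0] with ω h2 h3 h4
    have h3 : 0 ≤ (P[h | F s]) ω := h3
    obtain ⟨⟨h5, h6⟩, h7⟩ := h4
    refine ⟨?_, h7⟩
    have h8 : (P[h | F s]) ω ≤ η * √τ := not_lt.1 h7.2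
    change lam ω - (P[lam | F s]) ω ≤ -(η * √(K s))
    rw [h6]
    by_contra hcon
    have h9 : (P[lam | F s]) ω < η * √(K s) := by linarith
    have h10 : √(K s) ≤ C * √τ * E s := by
      rw [Real.sqrt_le_left (by positivity), mul_pow, mul_pow, Real.sq_sqrt hτ0.le]
      exact tip
    have h11 : (E s)⁻¹ * (P[lam | F s]) ω ≤ √τ := by
      calc (E s)⁻¹ * (P[lam | F s]) ω ≤ (E s)⁻¹ * (η * (C * √τ * E s)) := by
            gcongr
            exact h9.le.trans (by gcongr)
        _ = η * C * √τ := by field_simp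
        _ ≤ 1 * √τ := by gcongr
        _ = √τ := one_mul _
    have h13 : c0 * √τ ≤ (P[h | F s]) ω := h2 (by linarith)
    have h14 : c0 * √τ ≤ η * √τ := h13.trans h8
    have h15 := le_of_mul_le_mul_right h14 hsq
    linarith
  rw [hunion, Set.inter_union_distrib_left, ← hunion, hPA, mul_add]
  exact (measure_union_le _ _).trans (add_le_add b1 b2)


/-- **(4d)** strict complementarity -/
theorem strict_comp [IsProbabilityMeasure P] (H : Strict P F W h lam E K) {C : ℝ} (hC : 0 < C)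
    (good : ∃ᶠ s in 𝓝[<] (1 : ℝ), K s ≤ C ^ 2 * (1 - s) * E s ^ 2) :
    P {ω | h ω = 0 ∧ lam ω = 0} = 0 := by
  set N : Set Ω := {ω | h ω = 0 ∧ lam ω = 0} with hN
  set η : ℝ := min (c0 / 2) (1 / C) with hη
  have hη0 : 0 < η := lt_min (half_pos c0_pos) (by positivity)
  have hη1 : η < c0 := lt_of_le_of_lt (min_le_left _ _) (half_lt_self c0_pos)
  have hηC : η * C ≤ 1 := by
    calc η * C ≤ 1 / C * C := by gcongr; exact min_le_right _ _
      _ = 1 := by field_simp
  set θ : ℝ := Real.exp (-(η ^ 2 / 2)) with hθ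
  have hθ1 : θ < 1 := by rw [hθ, Real.exp_lt_one_iff]; simpa using by positivity
  have hθ0 : 0 < θ := Real.exp_pos _
  -- for every `ε`: `P N ≤ θ P {h ≤ 2 ε, lam ≤ 2 ε}`
  have key : ∀ ε : ℝ, 0 < ε → P.real N ≤ θ * P.real {ω | h ω ≤ 2 * ε ∧ lam ω ≤ 2 * ε} := by
    intro ε hε
    -- for every `s` close to one
    have h1 : ∀ s, 0 ≤ s → K s ≤ C ^ 2 * (1 - s) * E s ^ 2 → s < 1 → P.real N ≤
        θ * (P.real {ω | h ω ≤ 2 * ε ∧ lam ω ≤ 2 * ε} + ((1 - s) + K s) / ε ^ 2) +
          ((1 - s) + K s) / ε ^ 2 := by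
      intro s hs hst hs1
      have hle := H.bm.le s hs hs1.le
      have hhm : Measurable[F s] (P[h | F s]) := stronglyMeasurable_condExp.measurable
      have hlm : Measurable[F s] (P[lam | F s]) := stronglyMeasurable_condExp.measurable
      have hXm : AEMeasurable (fun ω => h ω - (P[h | F s]) ω) P :=
        H.h2.1.aemeasurable.sub (hhm.mono hle le_rfl).aemeasurable
      have hYm : AEMeasurable (fun ω => lam ω - (P[lam | F s]) ω) P :=
        H.l2.1.aemeasurable.sub (hlm.mono hle le_rfl).aemeasurable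
      have hX2 : MemLp (fun ω => h ω - (P[h | F s]) ω) 2 P :=
        H.h2.sub (H.h2.condExp (by norm_num))
      have hY2 : MemLp (fun ω => lam ω - (P[lam | F s]) ω) 2 P :=
        H.l2.sub (H.l2.condExp (by norm_num))
      set U : Set Ω := {ω | ε ≤ |h ω - (P[h | F s]) ω|} with hU
      set V : Set Ω := {ω | ε ≤ |lam ω - (P[lam | F s]) ω|} with hV
      have hUb : P.real U ≤ (1 - s) / ε ^ 2 := by
        have e1 := Lev_576.markov_sq (P := P) hX2 hε
        have e2 := (H.sgh s hs hs1).var_real hXm (sub_pos.2 hs1).le (C := Set.univ)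
          MeasurableSet.univ
        rw [setIntegral_univ, probReal_univ, mul_one] at e2
        apply ENNReal.toReal_le_of_le_ofReal (by have := (sub_pos.2 hs1).le; positivity)
        refine e1.trans (ENNReal.ofReal_le_ofReal ?_)
        gcongr
      have hVb : P.real V ≤ K s / ε ^ 2 := by
        have e1 := Lev_576.markov_sq (P := P) hY2 hε
        have e2 := (H.sgl s hs hs1).var_real hYm (H.Kpos s hs hs1).le (C := Set.univ)
          MeasurableSet.univ
        rw [setIntegral_univ, probReal_univ, mul_one] at e2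
        apply ENNReal.toReal_le_of_le_ofReal (by have := (H.Kpos s hs hs1).le; positivity)
        refine e1.trans (ENNReal.ofReal_le_ofReal ?_)
        gcongr
      set A : Set Ω := {ω | (P[h | F s]) ω ≤ ε} ∩ {ω | (P[lam | F s]) ω ≤ ε} with hA
      have hAm : MeasurableSet[F s] A := by
        have ha : MeasurableSet[F s] {ω | (P[h | F s]) ω ≤ ε} := measurableSet_le hhm measurable_const
        have hb : MeasurableSet[F s] {ω | (P[lam | F s]) ω ≤ ε} :=
          measurableSet_le hlm measurable_const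
        exact ha.inter hb
      have hbase := H.one_scale hC hs hs1 hst hη0 hη1 hηC hAm
      have hbaseR : P.real (N ∩ A) ≤ θ * P.real A := by
        have := ENNReal.toReal_mono (ENNReal.mul_ne_top ENNReal.ofReal_ne_top
          (measure_ne_top _ _)) hbase
        rwa [ENNReal.toReal_mul, ENNReal.toReal_ofReal hθ0.le] at this
      have hsub1 : N ⊆ (N ∩ A) ∪ (U ∪ V) := by
        rintro ω ⟨h1, h2⟩
        by_cases hu : ω ∈ U
        · right; left; exact hu
        by_cases hv : ω ∈ V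
        · right; right; exact hv
        left
        refine ⟨⟨h1, h2⟩, ?_, ?_⟩
        · have h3 : |h ω - (P[h | F s]) ω| < ε := not_le.1 hu
          rw [h1, abs_lt] at h3
          change (P[h | F s]) ω ≤ ε
          linarith
        · have h3 : |lam ω - (P[lam | F s]) ω| < ε := not_le.1 hv
          rw [h2, abs_lt] at h3
          change (P[lam | F s]) ω ≤ ε
          linarith
      have hsub2 : A ⊆ {ω | h ω ≤ 2 * ε ∧ lam ω ≤ 2 * ε} ∪ (U ∪ V) := by
        rintro ω ⟨h1, h2⟩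
        have h1 : (P[h | F s]) ω ≤ ε := h1
        have h2 : (P[lam | F s]) ω ≤ ε := h2
        by_cases hu : ω ∈ U
        · right; left; exact hu
        by_cases hv : ω ∈ V
        · right; right; exact hv
        left
        have h3 : |h ω - (P[h | F s]) ω| < ε := not_le.1 hu
        have h4 : |lam ω - (P[lam | F s]) ω| < ε := not_le.1 hv
        rw [abs_lt] at h3 h4
        exact ⟨by linarith, by linarith⟩
      have hUV : P.real (U ∪ V) ≤ ((1 - s) + K s) / ε ^ 2 := by
        refine (measureReal_union_le _ _).trans ?_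
        rw [add_div]
        exact add_le_add hUb hVb
      have h5 : P.real N ≤ P.real (N ∩ A) + P.real (U ∪ V) :=
        (measureReal_mono hsub1).trans (measureReal_union_le _ _)
      have h6 : P.real A ≤ P.real {ω | h ω ≤ 2 * ε ∧ lam ω ≤ 2 * ε} + P.real (U ∪ V) :=
        (measureReal_mono hsub2).trans (measureReal_union_le _ _)
      calc P.real N ≤ P.real (N ∩ A) + P.real (U ∪ V) := h5
        _ ≤ θ * P.real A + P.real (U ∪ V) := by gcongr
        _ ≤ θ * (P.real {ω | h ω ≤ 2 * ε ∧ lam ω ≤ 2 * ε} + P.real (U ∪ V)) + P.real (U ∪ V) := by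
            gcongr
        _ ≤ _ := by gcongr
    -- `s → 1`
    have hlim : Tendsto (fun s => θ * (P.real {ω | h ω ≤ 2 * ε ∧ lam ω ≤ 2 * ε} +
        ((1 - s) + K s) / ε ^ 2) + ((1 - s) + K s) / ε ^ 2) (𝓝[<] 1)
        (𝓝 (θ * (P.real {ω | h ω ≤ 2 * ε ∧ lam ω ≤ 2 * ε} + ((1 - 1) + 0) / ε ^ 2) +
          ((1 - 1) + 0) / ε ^ 2)) := by
      have h2 : Tendsto (fun s : ℝ => ((1 - s) + K s) / ε ^ 2) (𝓝[<] 1)
          (𝓝 (((1 - 1) + 0) / ε ^ 2)) := by
        apply Tendsto.div_const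
        apply Tendsto.add _ H.Klim
        exact ((continuous_const.sub continuous_id).tendsto 1).mono_left nhdsWithin_le_nhds
      exact ((h2.const_add _).const_mul _).add h2
    have h3 : P.real N ≤ θ * (P.real {ω | h ω ≤ 2 * ε ∧ lam ω ≤ 2 * ε} +
        ((1 - 1) + 0) / ε ^ 2) + ((1 - 1) + 0) / ε ^ 2 := by
      refine ge_of_tendsto_of_frequently hlim ?_
      have hm : Set.Ioo 0 1 ∈ 𝓝[<] (1 : ℝ) := Ioo_mem_nhdsLT one_pos
      exact (good.and_eventually hm).mono fun s hs => h1 s hs.2.1.le hs.1 hs.2.2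
    simpa using h3
  -- `ε → 0`
  have hlim2 : Tendsto (fun n : ℕ => P {ω | h ω ≤ 2 * (1 / ((n : ℝ) + 1)) ∧
      lam ω ≤ 2 * (1 / ((n : ℝ) + 1))}) atTop (𝓝 (P (⋂ n : ℕ, {ω | h ω ≤ 2 * (1 / ((n : ℝ) + 1)) ∧
      lam ω ≤ 2 * (1 / ((n : ℝ) + 1))}))) := by
    apply tendsto_measure_iInter_atTop
    · intro n
      exact (H.h2.1.aemeasurable.nullMeasurable measurableSet_Iic).inter
        (H.l2.1.aemeasurable.nullMeasurable measurableSet_Iic)
    · intro m n hmn ω hω
      have h1 : 1 / ((n : ℝ) + 1) ≤ 1 / ((m : ℝ) + 1) := by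
        have : (m : ℝ) ≤ n := by exact_mod_cast hmn
        gcongr
      exact ⟨hω.1.trans (by linarith), hω.2.trans (by linarith)⟩
    · exact ⟨0, measure_ne_top _ _⟩
  have hinter : P (⋂ n : ℕ, {ω | h ω ≤ 2 * (1 / ((n : ℝ) + 1)) ∧
      lam ω ≤ 2 * (1 / ((n : ℝ) + 1))}) = P N := by
    apply measure_congr
    filter_upwards [H.h0, H.l0] with ω h1 h2
    have h1 : 0 ≤ h ω := h1
    have h2 : 0 ≤ lam ω := h2
    apply propext
    change (ω ∈ ⋂ n : ℕ, {ω | h ω ≤ 2 * (1 / ((n : ℝ) + 1)) ∧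
      lam ω ≤ 2 * (1 / ((n : ℝ) + 1))}) ↔ (h ω = 0 ∧ lam ω = 0)
    rw [Set.mem_iInter]
    have hl : Tendsto (fun n : ℕ => 2 * (1 / ((n : ℝ) + 1))) atTop (𝓝 0) := by
      simpa using tendsto_one_div_add_atTop_nhds_zero_nat.const_mul (2 : ℝ)
    constructor
    · intro h3
      exact ⟨le_antisymm (ge_of_tendsto' hl fun n => (h3 n).1) h1,
        le_antisymm (ge_of_tendsto' hl fun n => (h3 n).2) h2⟩
    · rintro ⟨h3, h4⟩ n
      have : 0 ≤ 2 * (1 / ((n : ℝ) + 1)) := by positivity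
      exact ⟨by rw [h3]; exact this, by rw [h4]; exact this⟩
  rw [hinter] at hlim2
  have hlim3 : Tendsto (fun n : ℕ => θ * P.real {ω | h ω ≤ 2 * (1 / ((n : ℝ) + 1)) ∧
      lam ω ≤ 2 * (1 / ((n : ℝ) + 1))}) atTop (𝓝 (θ * P.real N)) :=
    ((ENNReal.tendsto_toReal (measure_ne_top _ _)).comp hlim2).const_mul _
  have h1 : P.real N ≤ θ * P.real N :=
    ge_of_tendsto' hlim3 fun n => key (1 / ((n : ℝ) + 1)) (by positivity)
  have h2 : 0 ≤ P.real N := measureReal_nonneg
  have h3 : P.real N = 0 := by nlinarith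
  rwa [measureReal_eq_zero_iff] at h3

end Strict

end Crest.Agent.R146.LevD_4
end

-- ▼ part R146/LevE_4

/-!
Row 146 (task 58, helper4): (4c), (4d) of post 459 in the frame `Lev2_576.Model`, `JamAsm_576.LCP`.

`levels_cd`: at jamming (`c = 0`), from the sub-Gaussian bounds (EMh), (EMl) and `D t ≥ (1-t)^(2/5)`
near `1`: no atom of the force at `l > 0`, and strict complementarity.
-/

set_option autoImplicit false

namespace Crest.Agent.R146.LevE_4

open Set Filter Topology MeasureTheory ProbabilityTheory Crest.Agent.R146.Hilb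
  Crest.Agent.R146.Lev_576 Crest.Agent.R146.Lev2_576 Crest.Agent.R146.JamAsm_576
open Crest.Agent.R146.LevC_4 Crest.Agent.R146.LevD_4 Crest.Agent.R146.LevK_4
  Crest.Agent.R146.SubG_4
open Crest.ProbabilityR.Perceptron
open scoped RealInnerProductSpace NNReal ENNReal

section Hilbert

variable {H : Type*} [NormedAddCommGroup H] [InnerProductSpace ℝ H] [CompleteSpace H] (R : Res H)

/-- `Dop k` only sees the past of `t` on `P_t x` -/
theorem Dop_vanish {k : ℝ → ℝ} (hk : ContinuousOn k (Icc 0 1)) {t : ℝ} (ht : t ∈ Icc (0 : ℝ) 1)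
    (h0 : ∀ s ∈ Icc (0 : ℝ) 1, s ≤ t → k s = 0) (x : H) : R.Dop k (R.P t x) = 0 := by
  have e : R.Dop k = R.Dop (gT k t) := by
    apply R.Dop_congr
    intro s hs
    unfold gT
    rcases le_total s t with h | h
    · rw [max_eq_right h, h0 s hs h, h0 t ht le_rfl]
    · rw [max_eq_left h]
  rw [← P_Dop R hk, e, P_Dop_gT R hk ht, h0 t ht le_rfl, zero_smul]

theorem rel_norm {D : ℝ → ℝ} (hD : ContinuousOn D (Icc 0 1)) (ha : AntitoneOn D (Icc 0 1))
    {s t : ℝ} (hs : 0 ≤ s) (hst : s ≤ t) (ht : t ≤ 1) (x : H) :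
    ‖R.inc s t (R.Dop D x) - D s • R.inc s t x‖ ≤ (D s - D t) * ‖R.inc s t x‖ := by
  have htI : t ∈ Icc (0 : ℝ) 1 := ⟨hs.trans hst, ht⟩
  have hsI : s ∈ Icc (0 : ℝ) 1 := ⟨hs, hst.trans ht⟩
  set y := R.inc s t x with hy
  have hyt : R.P t y = y := by
    rw [hy, R.inc_apply, map_sub, R.idem, R.mul' hst]
  have hys : R.P s y = 0 := R.P_inc hst x
  set D1 : ℝ → ℝ := fun r => D (min r t) with hD1
  have hD1c : ContinuousOn D1 (Icc 0 1) := by
    refine hD.comp (by fun_prop) fun r hr => ?_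
    exact ⟨le_min hr.1 htI.1, min_le_of_left_le hr.2⟩
  have e1 : R.inc s t (R.Dop D x) = R.Dop D y := by
    rw [hy, R.inc_apply, R.inc_apply, P_Dop R hD, P_Dop R hD, map_sub]
  have e2 : R.Dop D y = R.Dop D1 y := by
    have h1 := Dop_vanish R (k := fun r => D r - D1 r) (hD.sub hD1c) htI (fun r _ hr => by
      simp only [hD1, min_eq_left hr, sub_self]) y
    have h2 : R.Dop (fun r => D r - D1 r) = R.Dop D - R.Dop D1 := R.Dop_sub hD hD1c
    rw [hyt, h2] at h1
    exact sub_eq_zero.1 h1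
  have e3 : R.Dop D1 y - D s • y = R.Dop (fun r => D1 r - D s) y := by
    have h2 : R.Dop (fun r => D1 r - D s) = R.Dop D1 - R.Dop (fun _ => D s) :=
      R.Dop_sub hD1c continuousOn_const
    rw [h2, sub_apply, R.Dop_const]
  rw [e1, e2, e3]
  refine norm_Dop_high R (hD1c.sub continuousOn_const) hs (sub_nonneg.2 (ha hsI htI hst)) ?_ hys
  intro r hr hsr
  change |D (min r t) - D s| ≤ D s - D t
  have h1 : D t ≤ D (min r t) :=
    ha ⟨le_min hr.1 htI.1, min_le_of_left_le hr.2⟩ htI (min_le_right _ _)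
  have h2 : D (min r t) ≤ D s :=
    ha hsI ⟨le_min hr.1 htI.1, min_le_of_left_le hr.2⟩ (le_min hsr hst)
  rw [abs_le]; constructor <;> linarith

end Hilbert

section Brown

variable {Ω : Type*} {mΩ : MeasurableSpace Ω} {P : Measure Ω} {B : ℝ≥0 → Ω → ℝ}
  (hBm : ∀ t, Measurable (B t))

/-- real-time filtration -/
noncomputable abbrev Fl (t : ℝ) : MeasurableSpace Ω := brownianFiltration B hBm t.toNNReal

theorem indep_incr (hB : IsPreBrownianReal B P) {s t : ℝ≥0} (hst : s ≤ t) :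
    Indep (brownianFiltration B hBm s)
      (MeasurableSpace.comap (fun ω => B t ω - B s ω) inferInstance) P := by
  have h := (hB.indepFun_shift s).symm
  rw [IndepFun_iff_Indep] at h
  refine indep_of_indep_of_le_left (indep_of_indep_of_le_right h ?_) (past_le hBm s)
  rw [← measurable_iff_comap_le]
  have h1 : Measurable[MeasurableSpace.comap (fun ω r => B (s + r) ω - B s ω) inferInstance]
      (fun ω (r : ℝ≥0) => B (s + r) ω - B s ω) := comap_measurable _
  have h2 := (measurable_pi_apply (t - s : ℝ≥0)).comp h1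
  have h3 : ((fun b : ℝ≥0 → ℝ => b (t - s)) ∘ fun ω (r : ℝ≥0) => B (s + r) ω - B s ω) =
      fun ω => B t ω - B s ω := by
    funext ω
    simp only [Function.comp]
    rw [add_tsub_cancel_of_le hst]
  rw [h3] at h2
  exact h2

theorem law_incr' (hB : IsPreBrownianReal B P) {s t : ℝ≥0} (hst : s ≤ t) :
    P.map (fun ω => B t ω - B s ω) = gaussianReal 0 (t - s) := by
  have h := (hB.hasLaw_sub t s).map_eq
  have h2 : nndist (t : ℝ≥0).1 s.1 = t - s := by
    rw [← NNReal.coe_inj, coe_nndist, Real.dist_eq, NNReal.coe_sub hst]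
    have h4 : (s.1 : ℝ) ≤ t.1 := hst
    rw [abs_of_nonneg (sub_nonneg.2 h4)]; rfl
  rw [h2] at h
  exact h

theorem bm_of_brown [IsProbabilityMeasure P] (hB : IsPreBrownianReal B P) :
    BM P (Fl hBm) (fun t => B t.toNNReal) where
  mono s t _ hst _ := (brownianFiltration B hBm).mono (Real.toNNReal_le_toNNReal hst)
  le t _ _ := (brownianFiltration B hBm).le _
  adapted t _ _ :=
    (Filtration.stronglyAdapted_natural (fun t => (hBm t).stronglyMeasurable) _).measurable
  incr s t hs hst _ := by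
    have h1 : s.toNNReal ≤ t.toNNReal := Real.toNNReal_le_toNNReal hst
    have h2 : (t - s).toNNReal = t.toNNReal - s.toNNReal := by
      rw [← NNReal.coe_inj, Real.coe_toNNReal _ (sub_nonneg.2 hst), NNReal.coe_sub h1,
        Real.coe_toNNReal _ (hs.trans hst), Real.coe_toNNReal _ hs]
    rw [h2]
    exact IG.of_indep ((hBm _).sub (hBm _)) (law_incr' hB h1) (indep_incr hBm hB h1)

end Brown

section Frame

variable {H : Type*} [NormedAddCommGroup H] [InnerProductSpace ℝ H] [CompleteSpace H] {R : Res H}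
  {Ω : Type*} {mΩ : MeasurableSpace Ω} {P : Measure Ω} {B : ℝ≥0 → Ω → ℝ}
  {hBm : ∀ t, Measurable (B t)} {M : Model R P B hBm} {ξ : H} {D : ℝ → ℝ} {x : H}

omit [CompleteSpace H] in
/-- `P_t ξ = κ + B_t` -/
theorem cond_xi [IsProbabilityMeasure P] (M : Model R P B hBm) (hB : IsPreBrownianReal B P) {κ : ℝ}
    (hξ : M.J ξ =ᵐ[P] fun ω => κ + B 1 ω) {t : ℝ} (ht : t ∈ Icc (0 : ℝ) 1) :
    M.J (R.P t ξ) =ᵐ[P] fun ω => κ + B t.toNNReal ω := by
  have hbm := bm_of_brown hBm hB
  have ht1 : t.toNNReal ≤ 1 := by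
    rw [← Real.toNNReal_one]; exact Real.toNNReal_le_toNNReal ht.2
  set u := t.toNNReal with hu
  have hle : brownianFiltration B hBm u ≤ mΩ := (brownianFiltration B hBm).le u
  have hZm : Measurable fun ω => B 1 ω - B u ω := (hBm 1).sub (hBm u)
  obtain ⟨hZ2, hZ0, hZs⟩ := gauss_sq (P := P) hZm (law_incr' hB ht1)
  have hEZ : P[fun ω => B 1 ω - B u ω | brownianFiltration B hBm u] =ᵐ[P] fun _ => 0 := by
    have := condExp_indep_eq (μ := P) (f := fun ω => B 1 ω - B u ω) hZm.comap_le hle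
      (comap_measurable _).stronglyMeasurable (indep_incr hBm hB ht1).symm
    rw [hZ0] at this
    exact this
  have hBu : StronglyMeasurable[brownianFiltration B hBm u] (fun ω => κ + B u ω) :=
    ((Filtration.stronglyAdapted_natural (fun t => (hBm t).stronglyMeasurable) u).measurable.const_add
      κ).stronglyMeasurable
  have hZi : Integrable (fun ω => B 1 ω - B u ω) P := hZ2.integrable (by norm_num)
  have hξi : Integrable (M.J ξ) P := (M.memLp ξ).integrable (by norm_num)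
  have hBi : Integrable (fun ω => κ + B u ω) P := by
    have h1 : Integrable (fun ω => (κ + B 1 ω) - (B 1 ω - B u ω)) P :=
      ((integrable_congr hξ).1 hξi).sub hZi
    refine (integrable_congr (ae_of_all _ fun ω => ?_)).1 h1
    ring
  have e1 : P[M.J ξ | brownianFiltration B hBm u] =ᵐ[P]
      P[fun ω => (κ + B u ω) + (B 1 ω - B u ω) | brownianFiltration B hBm u] := by
    apply condExp_congr_ae
    filter_upwards [hξ] with ω h
    rw [h]; ring
  have e2 : P[fun ω => (κ + B u ω) + (B 1 ω - B u ω) | brownianFiltration B hBm u] =ᵐ[P]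
      P[fun ω => κ + B u ω | brownianFiltration B hBm u] +
        P[fun ω => B 1 ω - B u ω | brownianFiltration B hBm u] := condExp_add hBi hZi _
  have e3 : P[fun ω => κ + B u ω | brownianFiltration B hBm u] = fun ω => κ + B u ω :=
    condExp_of_stronglyMeasurable hle hBu hBi
  filter_upwards [M.cond t ht ξ, e1, e2, hEZ] with ω h1 h2 h3 h4
  rw [h1, h2, h3, Pi.add_apply, e3, h4, add_zero]

omit [CompleteSpace H] in
/-- `J (inc s t z) = E_t z - E_s z` -/
theorem J_inc (M : Model R P B hBm) {s t : ℝ} (hs : s ∈ Icc (0 : ℝ) 1) (ht : t ∈ Icc (0 : ℝ) 1)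
    (z : H) : M.J (R.inc s t z) =ᵐ[P] fun ω =>
      (P[M.J z | Fl hBm t]) ω - (P[M.J z | Fl hBm s]) ω := by
  have h1 := M.sub (R.P t z) (R.P s z)
  filter_upwards [h1, M.cond t ht z, M.cond s hs z] with ω h1 h2 h3
  rw [R.inc_apply, h1, h2, h3]

/-- (POS) -/
theorem pos_frame [IsProbabilityMeasure P] (hB : IsPreBrownianReal B P) {κ : ℝ}
    (hξ : M.J ξ =ᵐ[P] fun ω => κ + B 1 ω) (L : LCP M ξ 0 D x) (hD1 : 0 ≤ D 1) {s : ℝ}
    (hs : s ∈ Icc (0 : ℝ) 1) : ∀ᵐ ω ∂P,
      ((P[M.J (ξ + R.Dop D x) | Fl hBm s]) ω - D s * (P[M.J x | Fl hBm s]) ω) +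
        (B 1 ω - B s.toNNReal ω) ≤ M.J (ξ + R.Dop D x) ω := by
  set T := R.Dop (gT D s) x with hT
  have h1I : (1 : ℝ) ∈ Icc (0 : ℝ) 1 := ⟨zero_le_one, le_rfl⟩
  -- `T ≥ 0`
  have hTpos : 0 ≤ᵐ[P] M.J T := by
    have hmem := Dop_mem_cone R (K := {z : H | 0 ≤ᵐ[P] M.J z}) (gT_cont L.cont hs) (x := x)
      (by
        intro a ha b hb hab
        exact L.anti ⟨le_max_of_le_left ha.1, max_le ha.2 hs.2⟩
          ⟨le_max_of_le_left hb.1, max_le hb.2 hs.2⟩ (max_le_max_right s hab))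
      (by unfold gT; rw [max_eq_left hs.2]; exact hD1)
      (Model.isClosed_nonneg M) ?_ ?_ ?_ ?_ L.x_nonneg
    · exact hmem
    · have h0 : M.J (0 : H) =ᵐ[P] fun _ => 0 := by
        have := M.smul 0 (0 : H)
        rw [zero_smul] at this
        filter_upwards [this] with ω h
        rw [h, zero_mul]
      filter_upwards [h0] with ω h
      rw [h]; exact le_rfl
    · intro a ha b hb
      change 0 ≤ᵐ[P] M.J (a + b)
      filter_upwards [M.add a b, ha, hb] with ω h1 h2 h3
      rw [h1]; exact add_nonneg h2 h3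
    · intro c hc a ha
      change 0 ≤ᵐ[P] M.J (c • a)
      filter_upwards [M.smul c a, ha] with ω h1 h2
      rw [h1]; exact mul_nonneg hc h2
    · intro t ht z hz
      have h1 : 0 ≤ᵐ[P] P[M.J z | brownianFiltration B hBm t.toNNReal] := condExp_nonneg hz
      filter_upwards [M.cond t ht z, h1] with ω h2 h3
      rw [h2]; exact h3
  -- `h - P_s h - (ξ - P_s ξ) + D s P_s x = T`
  have hlow := P_Dop_low R L.cont hs x
  have hgT := P_Dop_gT R L.cont hs x
  have e1 : (ξ + R.Dop D x) - R.P s (ξ + R.Dop D x) - (ξ - R.P s ξ) + D s • R.P s x = T := by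
    rw [map_sub, hgT] at hlow
    rw [map_add, hT]
    have : R.P s (R.Dop D x) = R.Dop D x - R.Dop (gT D s) x + D s • R.P s x := by
      rw [← hlow]; abel
    rw [this]; abel
  have j1 := M.sub (ξ + R.Dop D x) (R.P s (ξ + R.Dop D x))
  have j2 := M.sub ξ (R.P s ξ)
  have j3 := M.sub ((ξ + R.Dop D x) - R.P s (ξ + R.Dop D x)) (ξ - R.P s ξ)
  have j4 := M.add ((ξ + R.Dop D x) - R.P s (ξ + R.Dop D x) - (ξ - R.P s ξ)) (D s • R.P s x)
  have j5 := M.smul (D s) (R.P s x)
  rw [e1] at j4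
  filter_upwards [j1, j2, j3, j4, j5, hTpos, hξ, cond_xi M hB hξ hs,
    M.cond s hs (ξ + R.Dop D x), M.cond s hs x] with ω j1 j2 j3 j4 j5 h6 h7 h8 h9 h10
  have h6 : 0 ≤ M.J T ω := h6
  rw [j4, j3, j1, j2, j5, h7, h8, h9, h10] at h6
  linarith

/-- **(4c), (4d)** in the frame. -/
theorem levels_cd [IsProbabilityMeasure P] (hB : IsPreBrownianReal B P) {κ : ℝ}
    (hξ : M.J ξ =ᵐ[P] fun ω => κ + B 1 ω) (L : LCP M ξ 0 D x) (hpos : ∀ t ∈ Ico (0 : ℝ) 1, 0 < D t)
    (hD1 : 0 ≤ D 1) (hlow : ∀ᶠ t in 𝓝[<] (1 : ℝ), (1 - t) ^ (2 / 5 : ℝ) ≤ D t)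
    (EMh : ∀ s ∈ Ico (0 : ℝ) 1, SubG P (Fl hBm s)
      (fun ω => M.J (ξ + R.Dop D x) ω - (P[M.J (ξ + R.Dop D x) | Fl hBm s]) ω) (1 - s))
    (EMl : ∀ s ∈ Ico (0 : ℝ) 1, SubG P (Fl hBm s)
      (fun ω => M.J x ω - (P[M.J x | Fl hBm s]) ω) (K D s))
    (EMl2 : ∀ s t, 0 ≤ s → s ≤ t → t < 1 → ‖R.inc s t x‖ ^ 2 ≤ K D s - K D t) :
    (∀ l : ℝ, 0 < l → P {ω | M.J x ω = l} = 0) ∧
      P {ω | M.J (ξ + R.Dop D x) ω = 0 ∧ M.J x ω = 0} = 0 := by
  have hPrf : Prf D := ⟨L.cont, L.anti, hpos, hlow⟩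
  set h : H := ξ + R.Dop D x with hh
  have hc0 : ξ + R.Dop D x + (0 : ℝ) • x = h := by rw [zero_smul, add_zero]
  have h2 : MemLp (M.J h) 2 P := M.memLp _
  have l2 : MemLp (M.J x) 2 P := M.memLp _
  have hcomp : ∀ᵐ ω ∂P, M.J h ω * M.J x ω = 0 := by
    have := L.ae
    rwa [hc0] at this
  have hh0 : 0 ≤ᵐ[P] M.J h := by
    have := L.h_nonneg
    rwa [hc0] at this
  have hFle : ∀ s, Fl hBm s ≤ mΩ := fun s => (brownianFiltration B hBm).le _
  have hmh : ∀ s, AEMeasurable (fun ω => M.J h ω - (P[M.J h | Fl hBm s]) ω) P := fun s =>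
    h2.1.aemeasurable.sub
      ((stronglyMeasurable_condExp.measurable.mono (hFle s) le_rfl).aemeasurable)
  have hml : ∀ s, AEMeasurable (fun ω => M.J x ω - (P[M.J x | Fl hBm s]) ω) P := fun s =>
    l2.1.aemeasurable.sub
      ((stronglyMeasurable_condExp.measurable.mono (hFle s) le_rfl).aemeasurable)
  have HF : Force P (Fl hBm) (fun t => B t.toNNReal) (M.J h) (M.J x) (fun t => (D t)⁻¹) (K D)
      (J D) :=
    { bm := bm_of_brown hBm hB
      h2 := h2
      l2 := l2
      h0 := hh0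
      l0 := L.x_nonneg
      comp := hcomp
      Epos := fun s hs hs1 => hPrf.inv_pos' hs hs1
      Emono := fun s t hs hst ht => hPrf.inv_mono hs hst ht
      Kcont := hPrf.K_cont
      Klim := hPrf.K_lim
      Kdec := fun s t hs hst ht => hPrf.K_dec hs hst ht
      J0 := fun s hs hs1 => hPrf.J_nonneg hs hs1.le
      Jlim := hPrf.J_lim
      Jdec := fun s t hs hst ht => hPrf.J_dec hs hst ht
      varl1 := fun s hs hs1 => by
        have := (EMl s ⟨hs, hs1⟩).var_real (hml s) (hPrf.K_nonneg hs hs1.le) (C := Set.univ)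
          MeasurableSet.univ
        rwa [setIntegral_univ, probReal_univ, mul_one] at this
      varh1 := fun s hs hs1 => by
        have := (EMh s ⟨hs, hs1⟩).var_real (hmh s) (sub_pos.2 hs1).le (C := Set.univ)
          MeasurableSet.univ
        rwa [setIntegral_univ, probReal_univ, mul_one] at this
      rel := fun s t hs hst ht => by
        have hsI : s ∈ Icc (0 : ℝ) 1 := ⟨hs, hst.trans ht.le⟩
        have htI : t ∈ Icc (0 : ℝ) 1 := ⟨hs.trans hst, ht.le⟩
        have hDs : 0 < D s := hpos s ⟨hs, lt_of_le_of_lt hst ht⟩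
        have hDt : 0 < D t := hpos t ⟨hs.trans hst, ht⟩
        -- vector
        set z : H := -(D s)⁻¹ • (R.inc s t (R.Dop D x) - D s • R.inc s t x) with hz
        have e1 : (fun ω => |((P[M.J x | Fl hBm t]) ω - (P[M.J x | Fl hBm s]) ω) -
            (D s)⁻¹ * (((P[M.J h | Fl hBm t]) ω - (P[M.J h | Fl hBm s]) ω) -
              (B t.toNNReal ω - B s.toNNReal ω))|) =ᵐ[P] fun ω => |M.J z ω| := by
          have j1 := J_inc M hsI htI x
          have j2 := J_inc M hsI htI h
          have j3 := M.smul (-(D s)⁻¹) (R.inc s t (R.Dop D x) - D s • R.inc s t x)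
          have j4 := M.sub (R.inc s t (R.Dop D x)) (D s • R.inc s t x)
          have j5 := M.smul (D s) (R.inc s t x)
          have j6 : M.J (R.inc s t h) =ᵐ[P] fun ω =>
              M.J (R.inc s t ξ) ω + M.J (R.inc s t (R.Dop D x)) ω := by
            rw [hh, map_add]; exact M.add _ _
          have j7 := M.sub (R.P t ξ) (R.P s ξ)
          filter_upwards [j1, j2, j3, j4, j5, j6, j7, cond_xi M hB hξ hsI, cond_xi M hB hξ htI]
            with ω j1 j2 j3 j4 j5 j6 j7 j8 j9
          have j7' : M.J (R.inc s t ξ) ω = B t.toNNReal ω - B s.toNNReal ω := by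
            rw [R.inc_apply, j7, j8, j9]; ring
          rw [← j1, ← j2, hz, j3, j4, j5, j6, j7']
          congr 1
          field_simp
          ring
        rw [integral_congr_ae e1]
        refine (int_abs_le M z).trans ?_
        rw [hz, norm_smul, norm_neg, Real.norm_of_nonneg (inv_pos.2 hDs).le]
        have h3 := rel_norm R L.cont L.anti hs hst ht.le x
        have h4 : ‖R.inc s t x‖ ≤ √(K D s - K D t) := by
          apply Real.le_sqrt_of_sq_le
          exact EMl2 s t hs hst ht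
        have h5 : 0 ≤ D s - D t := sub_nonneg.2 (L.anti hsI htI hst)
        calc (D s)⁻¹ * ‖R.inc s t (R.Dop D x) - D s • R.inc s t x‖
            ≤ (D s)⁻¹ * ((D s - D t) * √(K D s - K D t)) := by
              have := (inv_pos.2 hDs).le
              gcongr
              exact h3.trans (by gcongr)
          _ = (1 - (D s)⁻¹ / (D t)⁻¹) * √(K D s - K D t) := by
              field_simp }
  have HS : Strict P (Fl hBm) (fun t => B t.toNNReal) (M.J h) (M.J x) (fun t => (D t)⁻¹)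
      (K D) :=
    { bm := bm_of_brown hBm hB
      h2 := h2
      l2 := l2
      h0 := hh0
      l0 := L.x_nonneg
      Epos := fun s hs hs1 => hPrf.inv_pos' hs hs1
      Kpos := fun s hs hs1 => hPrf.K_pos hs hs1
      Klim := hPrf.K_lim
      sgh := fun s hs hs1 => EMh s ⟨hs, hs1⟩
      sgl := fun s hs hs1 => EMl s ⟨hs, hs1⟩
      pos := fun s hs hs1 => by
        have := pos_frame hB hξ L hD1 (s := s) ⟨hs, hs1.le⟩
        filter_upwards [this] with ω hω
        rw [inv_inv]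
        have h1 : B ((1 : ℝ).toNNReal) ω = B 1 ω := by rw [Real.toNNReal_one]
        rw [h1]
        exact hω }
  exact ⟨fun l hl => HF.no_atom_force (C := 4) (by norm_num) hPrf.good hl,
    HS.strict_comp (C := 4) (by norm_num) hPrf.good⟩

end Frame

end Crest.Agent.R146.LevE_4
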