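import Mathlib

/-!
# R146, package P5, abstract Hilbert part (helper356): increasing projections and spectral integrals

`Res H` : an increasing family of orthogonal projections `P t` of a real Hilbert space with
`P 1 = id`.  For a function `g` continuous on `[0,1]`, `Dop g` is the spectral integral
`g(0) P_0 + ∫_0^1 g dP`, the operator norm limit of the dyadic sums `S g n`.
-/

set_option autoImplicit false

namespace Crest.Agent.R146.Hilb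

open Set Filter Topology MeasureTheory
open scoped RealInnerProductSpace

variable {H : Type*} [NormedAddCommGroup H] [InnerProductSpace ℝ H]

/-- An increasing family of orthogonal projections, `P 1 = id`, left continuous at `1`. -/
structure Res (H : Type*) [NormedAddCommGroup H] [InnerProductSpace ℝ H] where
  P : ℝ → H →L[ℝ] H
  symm : ∀ t x y, ⟪P t x, y⟫ = ⟪x, P t y⟫
  mul : ∀ s t, s ≤ t → ∀ x, P s (P t x) = P s x
  one : ∀ x, P 1 x = x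
  left : ∀ x, Tendsto (fun t => P t x) (𝓝[<] 1) (𝓝 x)

namespace Res

variable (R : Res H)

lemma idem (t : ℝ) (x : H) : R.P t (R.P t x) = R.P t x := R.mul t t le_rfl x

lemma mul' {s t : ℝ} (h : s ≤ t) (x : H) : R.P t (R.P s x) = R.P s x := by
  refine ext_inner_right ℝ fun y => ?_
  rw [R.symm, R.symm, R.mul s t h, ← R.symm]

/-- the increment `P_t - P_s` -/
def inc (s t : ℝ) : H →L[ℝ] H := R.P t - R.P s

lemma inc_apply (s t : ℝ) (x : H) : R.inc s t x = R.P t x - R.P s x := rfl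

lemma P_inc {s t : ℝ} (h : s ≤ t) (x : H) : R.P s (R.inc s t x) = 0 := by
  rw [inc_apply, map_sub, R.mul s t h, R.idem, sub_self]

lemma inc_inner {s t : ℝ} (h : s ≤ t) (x y : H) :
    ⟪R.inc s t x, y⟫ = ⟪R.inc s t x, R.inc s t y⟫ := by
  simp only [inc_apply, inner_sub_left, inner_sub_right]
  have h1 : ⟪R.P t x, R.P t y⟫ = ⟪R.P t x, y⟫ := by rw [← R.symm, R.idem]
  have h2 : ⟪R.P s x, R.P s y⟫ = ⟪R.P s x, y⟫ := by rw [← R.symm, R.idem]
  have h3 : ⟪R.P s x, R.P t y⟫ = ⟪R.P s x, y⟫ := by rw [← R.symm, R.mul' h]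
  have h4 : ⟪R.P t x, R.P s y⟫ = ⟪R.P s x, y⟫ := by rw [← R.symm, R.mul s t h]
  rw [h1, h2, h3, h4]; ring

lemma P_inner (t : ℝ) (x y : H) : ⟪R.P t x, y⟫ = ⟪R.P t x, R.P t y⟫ := by
  rw [← R.symm, R.idem]


lemma norm_sq_inc {s t : ℝ} (h : s ≤ t) (x : H) :
    ‖R.inc s t x‖ ^ 2 = ‖R.P t x‖ ^ 2 - ‖R.P s x‖ ^ 2 := by
  have h1 : ⟪R.P t x, R.P s x⟫ = ⟪R.P s x, R.P s x⟫ := by
    rw [← R.symm s (R.P t x) x, R.mul s t h, ← R.P_inner]
  rw [inc_apply, @norm_sub_sq ℝ, ]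
  simp only [RCLike.re_to_real]
  rw [h1, real_inner_self_eq_norm_sq]; ring

lemma norm_P_mono {s t : ℝ} (h : s ≤ t) (x : H) : ‖R.P s x‖ ≤ ‖R.P t x‖ := by
  have := R.norm_sq_inc h x
  have h2 : 0 ≤ ‖R.inc s t x‖ ^ 2 := by positivity
  exact abs_le_of_sq_le_sq' (by nlinarith) (norm_nonneg _) |>.2

lemma norm_P_le {t : ℝ} (h : t ≤ 1) (x : H) : ‖R.P t x‖ ≤ ‖x‖ := by
  have := R.norm_P_mono h x
  rwa [R.one] at this

/-- Riemann–Stieltjes sums with respect to the increments of `P` along `t`. -/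
def RS (t c : ℕ → ℝ) (N : ℕ) : H →L[ℝ] H :=
  ∑ i ∈ Finset.range N, c i • R.inc (t i) (t (i + 1))

lemma RS_zero (t c : ℕ → ℝ) : R.RS t c 0 = 0 := by simp [RS]

lemma RS_succ (t c : ℕ → ℝ) (N : ℕ) :
    R.RS t c (N + 1) = R.RS t c N + c N • R.inc (t N) (t (N + 1)) := by
  simp [RS, Finset.sum_range_succ]

lemma RS_apply (t c : ℕ → ℝ) (N : ℕ) (x : H) :
    R.RS t c N x = ∑ i ∈ Finset.range N, c i • R.inc (t i) (t (i + 1)) x := by
  simp [RS]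

lemma P_RS {t : ℕ → ℝ} (ht : Monotone t) (c : ℕ → ℝ) {N : ℕ} {s : ℝ} (hs : t N ≤ s) (x : H) :
    R.P s (R.RS t c N x) = R.RS t c N x := by
  rw [RS_apply, map_sum]
  refine Finset.sum_congr rfl fun i hi => ?_
  have hi' : i + 1 ≤ N := Finset.mem_range.1 hi
  rw [map_smul, inc_apply, map_sub, R.mul' ((ht hi').trans hs),
    R.mul' ((ht (i.le_succ.trans hi')).trans hs)]

lemma inc_inner_fixed {s t : ℝ} (h : s ≤ t) (x y : H) (hy : R.P s y = y) :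
    ⟪R.inc s t x, y⟫ = 0 := by
  rw [← hy, ← R.symm, R.P_inc h, inner_zero_left]

lemma inner_RS {t : ℕ → ℝ} (ht : Monotone t) (c d : ℕ → ℝ) (N : ℕ) (x y : H) :
    ⟪R.RS t c N x, R.RS t d N y⟫ =
      ∑ i ∈ Finset.range N, c i * d i * ⟪R.inc (t i) (t (i + 1)) x, R.inc (t i) (t (i + 1)) y⟫ := by
  induction N with
  | zero => simp [RS_zero]
  | succ N ih =>
    rw [Finset.sum_range_succ, ← ih, RS_succ, RS_succ]
    have h1 := R.inc_inner_fixed (ht N.le_succ) x _ (R.P_RS ht d (le_refl (t N)) y)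
    have h2 := R.inc_inner_fixed (ht N.le_succ) y _ (R.P_RS ht c (le_refl (t N)) x)
    rw [real_inner_comm] at h2
    simp only [add_apply, smul_apply, inner_add_left,
      inner_add_right, real_inner_smul_left, real_inner_smul_right, h1, h2]
    ring

lemma inner_RS_left {t : ℕ → ℝ} (ht : Monotone t) (c : ℕ → ℝ) (N : ℕ) (x y : H) :
    ⟪R.RS t c N x, y⟫ =
      ∑ i ∈ Finset.range N, c i * ⟪R.inc (t i) (t (i + 1)) x, R.inc (t i) (t (i + 1)) y⟫ := by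
  rw [RS_apply, sum_inner]
  refine Finset.sum_congr rfl fun i _ => ?_
  rw [real_inner_smul_left, R.inc_inner (ht i.le_succ)]

lemma sum_norm_inc {t : ℕ → ℝ} (ht : Monotone t) (N : ℕ) (x : H) :
    ∑ i ∈ Finset.range N, ‖R.inc (t i) (t (i + 1)) x‖ ^ 2 = ‖R.P (t N) x‖ ^ 2 - ‖R.P (t 0) x‖ ^ 2 := by
  rw [← Finset.sum_range_sub (fun i => ‖R.P (t i) x‖ ^ 2)]
  exact Finset.sum_congr rfl fun i _ => R.norm_sq_inc (ht i.le_succ) x

/-- dyadic points -/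
noncomputable def dy (n : ℕ) (i : ℕ) : ℝ := (i : ℝ) / 2 ^ n

lemma dy_mono (n : ℕ) : Monotone (dy n) := by
  intro i j h
  unfold dy
  gcongr

@[simp] lemma dy_zero (n : ℕ) : dy n 0 = 0 := by simp [dy]

@[simp] lemma dy_end (n : ℕ) : dy n (2 ^ n) = 1 := by simp [dy]

lemma dy_nonneg (n i : ℕ) : 0 ≤ dy n i := by unfold dy; positivity

lemma dy_le_one {n i : ℕ} (h : i ≤ 2 ^ n) : dy n i ≤ 1 := by
  rw [← dy_end n]; exact dy_mono n h

lemma dy_mem {n i : ℕ} (h : i ≤ 2 ^ n) : dy n i ∈ Icc (0 : ℝ) 1 := ⟨dy_nonneg n i, dy_le_one h⟩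

lemma dy_succ (n i : ℕ) : dy n (i + 1) = dy n i + 1 / 2 ^ n := by
  unfold dy; push_cast; ring

/-- dyadic sums of the spectral integral -/
noncomputable def S (g : ℝ → ℝ) (n : ℕ) : H →L[ℝ] H :=
  g 0 • R.P 0 + R.RS (dy n) (fun i => g (dy n (i + 1))) (2 ^ n)

lemma S_apply (g : ℝ → ℝ) (n : ℕ) (x : H) :
    R.S g n x = g 0 • R.P 0 x + R.RS (dy n) (fun i => g (dy n (i + 1))) (2 ^ n) x := rfl

lemma P0_inner_RS {t : ℕ → ℝ} (ht : Monotone t) (c : ℕ → ℝ) (N : ℕ) (x y : H) :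
    ⟪R.P (t 0) x, R.RS t c N y⟫ = 0 := by
  rw [RS_apply, inner_sum]
  refine Finset.sum_eq_zero fun i _ => ?_
  rw [real_inner_smul_right, real_inner_comm,
    R.inc_inner_fixed (ht i.le_succ) y _ (R.mul' (ht (Nat.zero_le i)) x), mul_zero]

lemma inner_S (g k : ℝ → ℝ) (n : ℕ) (x y : H) :
    ⟪R.S g n x, R.S k n y⟫ = g 0 * k 0 * ⟪R.P 0 x, R.P 0 y⟫ +
      ∑ i ∈ Finset.range (2 ^ n), g (dy n (i + 1)) * k (dy n (i + 1)) *
        ⟪R.inc (dy n i) (dy n (i + 1)) x, R.inc (dy n i) (dy n (i + 1)) y⟫ := by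
  have h1 := R.P0_inner_RS (dy_mono n) (fun i => k (dy n (i + 1))) (2 ^ n) x y
  have h2 := R.P0_inner_RS (dy_mono n) (fun i => g (dy n (i + 1))) (2 ^ n) y x
  rw [dy_zero] at h1 h2
  rw [real_inner_comm] at h2
  simp only [S_apply, inner_add_left, inner_add_right, real_inner_smul_left, real_inner_smul_right,
    h1, h2, R.inner_RS (dy_mono n)]
  ring

lemma inner_S_left (g : ℝ → ℝ) (n : ℕ) (x y : H) :
    ⟪R.S g n x, y⟫ = g 0 * ⟪R.P 0 x, R.P 0 y⟫ +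
      ∑ i ∈ Finset.range (2 ^ n), g (dy n (i + 1)) *
        ⟪R.inc (dy n i) (dy n (i + 1)) x, R.inc (dy n i) (dy n (i + 1)) y⟫ := by
  rw [S_apply, inner_add_left, R.inner_RS_left (dy_mono n), real_inner_smul_left, R.P_inner]

lemma S_symm (g : ℝ → ℝ) (n : ℕ) (x y : H) : ⟪R.S g n x, y⟫ = ⟪x, R.S g n y⟫ := by
  rw [real_inner_comm (R.S g n y) x, R.inner_S_left, R.inner_S_left, real_inner_comm (R.P 0 x)]
  congr 1
  exact Finset.sum_congr rfl fun i _ => by rw [real_inner_comm]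

/-- mass identity: the squares of the pieces add up to `‖x‖²` -/
lemma mass (n : ℕ) (x : H) :
    ‖R.P 0 x‖ ^ 2 + ∑ i ∈ Finset.range (2 ^ n), ‖R.inc (dy n i) (dy n (i + 1)) x‖ ^ 2 = ‖x‖ ^ 2 := by
  rw [R.sum_norm_inc (dy_mono n), dy_end, dy_zero, R.one]; ring

lemma norm_S_sq (g : ℝ → ℝ) (n : ℕ) (x : H) :
    ‖R.S g n x‖ ^ 2 = g 0 ^ 2 * ‖R.P 0 x‖ ^ 2 +
      ∑ i ∈ Finset.range (2 ^ n), g (dy n (i + 1)) ^ 2 * ‖R.inc (dy n i) (dy n (i + 1)) x‖ ^ 2 := by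
  rw [← real_inner_self_eq_norm_sq, R.inner_S]
  simp only [real_inner_self_eq_norm_sq, pow_two]

lemma inner_S_self (g : ℝ → ℝ) (n : ℕ) (x : H) :
    ⟪R.S g n x, x⟫ = g 0 * ‖R.P 0 x‖ ^ 2 +
      ∑ i ∈ Finset.range (2 ^ n), g (dy n (i + 1)) * ‖R.inc (dy n i) (dy n (i + 1)) x‖ ^ 2 := by
  rw [R.inner_S_left]
  simp only [real_inner_self_eq_norm_sq]

lemma norm_S_apply_le {g : ℝ → ℝ} {B : ℝ} (hB : ∀ t ∈ Icc (0 : ℝ) 1, |g t| ≤ B) (n : ℕ) (x : H) :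
    ‖R.S g n x‖ ≤ B * ‖x‖ := by
  have hB0 : 0 ≤ B := (abs_nonneg _).trans (hB 0 (by simp))
  have h : ‖R.S g n x‖ ^ 2 ≤ (B * ‖x‖) ^ 2 := by
    rw [R.norm_S_sq, mul_pow, ← R.mass n x, mul_add, Finset.mul_sum]
    have hsq : ∀ t ∈ Icc (0 : ℝ) 1, g t ^ 2 ≤ B ^ 2 := fun t ht => by
      rw [← sq_abs]; exact pow_le_pow_left₀ (abs_nonneg _) (hB t ht) 2
    refine add_le_add (mul_le_mul_of_nonneg_right (hsq 0 (by simp)) (sq_nonneg _)) ?_
    refine Finset.sum_le_sum fun i hi => ?_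
    exact mul_le_mul_of_nonneg_right (hsq _ (dy_mem (Finset.mem_range.1 hi))) (sq_nonneg _)
  exact abs_le_of_sq_le_sq' h (by positivity) |>.2


lemma S_add (g k : ℝ → ℝ) (n : ℕ) : R.S (g + k) n = R.S g n + R.S k n := by
  simp only [S, RS, Pi.add_apply, add_smul, Finset.sum_add_distrib]
  abel

lemma S_smul (a : ℝ) (g : ℝ → ℝ) (n : ℕ) : R.S (fun t => a * g t) n = a • R.S g n := by
  simp only [S, RS, mul_smul, smul_add, Finset.smul_sum]

lemma S_const (a : ℝ) (n : ℕ) (x : H) : R.S (fun _ => a) n x = a • x := by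
  rw [S_apply, RS_apply, ← Finset.smul_sum, ← smul_add]
  congr 1
  have : ∀ N, ∑ i ∈ Finset.range N, R.inc (dy n i) (dy n (i + 1)) x =
      R.P (dy n N) x - R.P (dy n 0) x := fun N => by
    rw [← Finset.sum_range_sub (fun i => R.P (dy n i) x)]
    rfl
  rw [this, dy_end, dy_zero, R.one]; abel

lemma S_congr {g k : ℝ → ℝ} (h : ∀ t ∈ Icc (0 : ℝ) 1, g t = k t) (n : ℕ) : R.S g n = R.S k n := by
  unfold S RS
  rw [h 0 (by simp)]
  congr 1
  refine Finset.sum_congr rfl fun i hi => ?_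
  dsimp only
  rw [h _ (dy_mem (Finset.mem_range.1 hi))]

/-- refinement of Riemann–Stieltjes sums -/
lemma RS_refine (t c : ℕ → ℝ) {k : ℕ} (hk : 0 < k) (N : ℕ) :
    R.RS (fun i => t (k * i)) c N = R.RS t (fun j => c (j / k)) (k * N) := by
  induction N with
  | zero => simp [RS_zero]
  | succ N ih =>
    rw [RS_succ, ih, RS, RS, mul_add, mul_one, Finset.sum_range_add]
    congr 1
    have h1 : ∀ j ∈ Finset.range k, c ((k * N + j) / k) • R.inc (t (k * N + j)) (t (k * N + j + 1)) =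
        c N • (R.P (t (k * N + (j + 1))) - R.P (t (k * N + j))) := by
      intro j hj
      have : (k * N + j) / k = N := by
        rw [Nat.mul_add_div hk, Nat.div_eq_of_lt (Finset.mem_range.1 hj), add_zero]
      rw [this]; rfl
    rw [Finset.sum_congr rfl h1, ← Finset.smul_sum,
      Finset.sum_range_sub (fun j => R.P (t (k * N + j)))]
    rfl

lemma norm_RS_apply_le {t : ℕ → ℝ} (ht : Monotone t) {c : ℕ → ℝ} {N : ℕ} {B : ℝ} (hB : 0 ≤ B)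
    (hc : ∀ i < N, |c i| ≤ B) (h1 : t N ≤ 1) (x : H) : ‖R.RS t c N x‖ ≤ B * ‖x‖ := by
  have h : ‖R.RS t c N x‖ ^ 2 ≤ (B * ‖x‖) ^ 2 := by
    rw [← real_inner_self_eq_norm_sq, R.inner_RS ht]
    have h2 : ∑ i ∈ Finset.range N, c i * c i *
        ⟪R.inc (t i) (t (i + 1)) x, R.inc (t i) (t (i + 1)) x⟫ ≤
        ∑ i ∈ Finset.range N, B ^ 2 * ‖R.inc (t i) (t (i + 1)) x‖ ^ 2 := by
      refine Finset.sum_le_sum fun i hi => ?_
      rw [real_inner_self_eq_norm_sq]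
      refine mul_le_mul_of_nonneg_right ?_ (sq_nonneg _)
      rw [← pow_two, ← sq_abs]
      exact pow_le_pow_left₀ (abs_nonneg _) (hc i (Finset.mem_range.1 hi)) 2
    refine h2.trans ?_
    rw [← Finset.mul_sum, R.sum_norm_inc ht, mul_pow]
    refine mul_le_mul_of_nonneg_left ?_ (sq_nonneg _)
    have := R.norm_P_le h1 x
    nlinarith [sq_nonneg ‖R.P (t 0) x‖, norm_nonneg (R.P (t N) x)]
  exact abs_le_of_sq_le_sq' h (by positivity) |>.2

lemma RS_sub (t c d : ℕ → ℝ) (N : ℕ) : R.RS t c N - R.RS t d N = R.RS t (fun i => c i - d i) N := by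
  simp only [RS, sub_smul, Finset.sum_sub_distrib]

lemma dy_mul {n m : ℕ} (h : n ≤ m) (i : ℕ) : dy n i = dy m (2 ^ (m - n) * i) := by
  unfold dy
  have : (2 : ℝ) ^ m = 2 ^ (m - n) * 2 ^ n := by rw [← pow_add]; congr 1; omega
  rw [this]
  push_cast
  field_simp

lemma S_refine (g : ℝ → ℝ) {n m : ℕ} (h : n ≤ m) :
    R.S g n = g 0 • R.P 0 + R.RS (dy m) (fun j => g (dy n (j / 2 ^ (m - n) + 1))) (2 ^ m) := by
  have h1 : dy n = fun i => dy m (2 ^ (m - n) * i) := funext fun i => dy_mul h i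
  have h2 := R.RS_refine (dy m) (fun i => g (dy n (i + 1))) (k := 2 ^ (m - n)) (by positivity) (2 ^ n)
  have h3 : 2 ^ (m - n) * 2 ^ n = 2 ^ m := by rw [← pow_add]; congr 1; omega
  rw [h3, ← h1] at h2
  rw [S, h2]

lemma norm_S_sub_le {g : ℝ → ℝ} {n m : ℕ} (h : n ≤ m) {ε : ℝ} (hε : 0 ≤ ε)
    (hg : ∀ s ∈ Icc (0 : ℝ) 1, ∀ t ∈ Icc (0 : ℝ) 1, |s - t| ≤ 1 / 2 ^ n → |g s - g t| ≤ ε) :
    ‖R.S g m - R.S g n‖ ≤ ε := by
  refine ContinuousLinearMap.opNorm_le_bound _ hε fun x => ?_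
  have h1 : R.S g m - R.S g n = R.RS (dy m)
      (fun j => g (dy m (j + 1)) - g (dy n (j / 2 ^ (m - n) + 1))) (2 ^ m) := by
    rw [R.S_refine g h, S, ← RS_sub]; abel
  rw [h1]
  refine R.norm_RS_apply_le (dy_mono m) hε (fun j hj => ?_) (dy_end m).le x
  have hk : 0 < 2 ^ (m - n) := by positivity
  have h3 : 2 ^ (m - n) * 2 ^ n = 2 ^ m := by rw [← pow_add]; congr 1; omega
  have h4 : j / 2 ^ (m - n) < 2 ^ n := by
    rw [Nat.div_lt_iff_lt_mul hk, mul_comm, h3]; exact hj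
  refine hg _ (dy_mem hj) _ (dy_mem h4) ?_
  have h5 : dy n (j / 2 ^ (m - n) + 1) = dy m (2 ^ (m - n) * (j / 2 ^ (m - n) + 1)) := dy_mul h _
  have h6 : dy n (j / 2 ^ (m - n)) = dy m (2 ^ (m - n) * (j / 2 ^ (m - n))) := dy_mul h _
  have h7 : dy m (j + 1) ≤ dy n (j / 2 ^ (m - n) + 1) := by
    rw [h5]
    apply dy_mono
    have := Nat.lt_mul_div_succ j hk
    exact this
  have h8 : dy n (j / 2 ^ (m - n)) ≤ dy m (j + 1) := by
    rw [h6]
    apply dy_mono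
    exact (Nat.mul_div_le j _).trans j.le_succ
  rw [abs_sub_comm, abs_of_nonneg (by linarith)]
  have h9 := dy_succ n (j / 2 ^ (m - n))
  linarith

section Complete

variable [CompleteSpace H]

/-- The spectral integral `g(0) P_0 + ∫_0^1 g dP`. -/
noncomputable def Dop (g : ℝ → ℝ) : H →L[ℝ] H := limUnder atTop (R.S g)

omit [CompleteSpace H] in
lemma S_cauchy {g : ℝ → ℝ} (hg : ContinuousOn g (Icc 0 1)) : CauchySeq (R.S g) := by
  have hu := isCompact_Icc.uniformContinuousOn_of_continuous hg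
  rw [Metric.uniformContinuousOn_iff] at hu
  rw [Metric.cauchySeq_iff']
  intro ε hε
  obtain ⟨δ, hδ, h⟩ := hu (ε / 2) (by positivity)
  obtain ⟨n, hn⟩ := exists_pow_lt_of_lt_one hδ (by norm_num : (1 / 2 : ℝ) < 1)
  refine ⟨n, fun m hm => ?_⟩
  rw [dist_eq_norm]
  refine lt_of_le_of_lt (R.norm_S_sub_le hm (by positivity : 0 ≤ ε / 2) ?_) (by linarith)
  intro s hs t ht hst
  have := h s hs t ht (by
    rw [Real.dist_eq]
    refine lt_of_le_of_lt hst ?_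
    rwa [one_div_pow] at hn)
  rw [Real.dist_eq] at this
  exact this.le

lemma S_tendsto {g : ℝ → ℝ} (hg : ContinuousOn g (Icc 0 1)) :
    Tendsto (R.S g) atTop (𝓝 (R.Dop g)) := (R.S_cauchy hg).tendsto_limUnder

lemma S_tendsto_apply {g : ℝ → ℝ} (hg : ContinuousOn g (Icc 0 1)) (x : H) :
    Tendsto (fun n => R.S g n x) atTop (𝓝 (R.Dop g x)) :=
  ((ContinuousLinearMap.apply ℝ H x).continuous.tendsto _).comp (R.S_tendsto hg)

omit [CompleteSpace H] in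
lemma Dop_congr {g k : ℝ → ℝ} (h : ∀ t ∈ Icc (0 : ℝ) 1, g t = k t) : R.Dop g = R.Dop k := by
  have : R.S g = R.S k := funext fun n => R.S_congr h n
  rw [Dop, this, Dop]

lemma Dop_add {g k : ℝ → ℝ} (hg : ContinuousOn g (Icc 0 1)) (hk : ContinuousOn k (Icc 0 1)) :
    R.Dop (fun t => g t + k t) = R.Dop g + R.Dop k := by
  refine tendsto_nhds_unique (R.S_tendsto (hg.add hk)) ?_
  have := (R.S_tendsto hg).add (R.S_tendsto hk)
  exact this.congr fun n => (R.S_add g k n).symm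

lemma Dop_smul {g : ℝ → ℝ} (hg : ContinuousOn g (Icc 0 1)) (a : ℝ) :
    R.Dop (fun t => a * g t) = a • R.Dop g := by
  refine tendsto_nhds_unique (R.S_tendsto (hg.const_smul a)) ?_
  have := (R.S_tendsto hg).const_smul a
  exact this.congr fun n => (R.S_smul a g n).symm

lemma Dop_sub {g k : ℝ → ℝ} (hg : ContinuousOn g (Icc 0 1)) (hk : ContinuousOn k (Icc 0 1)) :
    R.Dop (fun t => g t - k t) = R.Dop g - R.Dop k := by
  have h1 := R.Dop_add (g := fun t => g t - k t) (hg.sub hk) hk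
  have h2 : R.Dop (fun t => g t - k t + k t) = R.Dop g := R.Dop_congr fun t _ => by ring
  rw [h2] at h1
  rw [h1]; abel

lemma Dop_const (a : ℝ) (x : H) : R.Dop (fun _ => a) x = a • x := by
  refine tendsto_nhds_unique (R.S_tendsto_apply continuousOn_const x) ?_
  exact tendsto_const_nhds.congr fun n => (R.S_const a n x).symm

lemma Dop_symm {g : ℝ → ℝ} (hg : ContinuousOn g (Icc 0 1)) (x y : H) :
    ⟪R.Dop g x, y⟫ = ⟪x, R.Dop g y⟫ := by
  have h1 := (R.S_tendsto_apply hg x).inner (tendsto_const_nhds (x := y)) (𝕜 := ℝ)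
  have h2 := (tendsto_const_nhds (x := x)).inner (R.S_tendsto_apply hg y) (𝕜 := ℝ)
  exact tendsto_nhds_unique (h1.congr fun n => R.S_symm g n x y) h2

lemma Dop_norm_apply_le {g : ℝ → ℝ} (hg : ContinuousOn g (Icc 0 1)) {B : ℝ}
    (hB : ∀ t ∈ Icc (0 : ℝ) 1, |g t| ≤ B) (x : H) : ‖R.Dop g x‖ ≤ B * ‖x‖ :=
  le_of_tendsto' (R.S_tendsto_apply hg x).norm fun n => R.norm_S_apply_le hB n x


/-- the quadratic form `Q(g,x) = ⟨x, Dop g x⟩` -/
noncomputable def Q (g : ℝ → ℝ) (x : H) : ℝ := ⟪x, R.Dop g x⟫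

lemma Q_tendsto {g : ℝ → ℝ} (hg : ContinuousOn g (Icc 0 1)) (x : H) :
    Tendsto (fun n => g 0 * ‖R.P 0 x‖ ^ 2 +
      ∑ i ∈ Finset.range (2 ^ n), g (dy n (i + 1)) * ‖R.inc (dy n i) (dy n (i + 1)) x‖ ^ 2)
      atTop (𝓝 (R.Q g x)) := by
  have h2 := (tendsto_const_nhds (x := x)).inner (R.S_tendsto_apply hg x) (𝕜 := ℝ)
  refine h2.congr fun n => ?_
  rw [real_inner_comm, R.inner_S_self]

lemma Q_mono {g k : ℝ → ℝ} (hg : ContinuousOn g (Icc 0 1)) (hk : ContinuousOn k (Icc 0 1))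
    (h : ∀ t ∈ Icc (0 : ℝ) 1, g t ≤ k t) (x : H) : R.Q g x ≤ R.Q k x := by
  refine le_of_tendsto_of_tendsto' (R.Q_tendsto hg x) (R.Q_tendsto hk x) fun n => ?_
  refine add_le_add (mul_le_mul_of_nonneg_right (h 0 (by simp)) (sq_nonneg _)) ?_
  refine Finset.sum_le_sum fun i hi => ?_
  exact mul_le_mul_of_nonneg_right (h _ (dy_mem (Finset.mem_range.1 hi))) (sq_nonneg _)

omit [CompleteSpace H] in
lemma Q_congr {g k : ℝ → ℝ} (h : ∀ t ∈ Icc (0 : ℝ) 1, g t = k t) (x : H) : R.Q g x = R.Q k x := by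
  rw [Q, R.Dop_congr h, Q]

lemma Q_nonneg {g : ℝ → ℝ} (hg : ContinuousOn g (Icc 0 1))
    (h : ∀ t ∈ Icc (0 : ℝ) 1, 0 ≤ g t) (x : H) : 0 ≤ R.Q g x := by
  refine ge_of_tendsto' (R.Q_tendsto hg x) fun n => ?_
  refine add_nonneg (mul_nonneg (h 0 (by simp)) (sq_nonneg _)) ?_
  exact Finset.sum_nonneg fun i hi =>
    mul_nonneg (h _ (dy_mem (Finset.mem_range.1 hi))) (sq_nonneg _)

lemma Q_add {g k : ℝ → ℝ} (hg : ContinuousOn g (Icc 0 1)) (hk : ContinuousOn k (Icc 0 1)) (x : H) :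
    R.Q (fun t => g t + k t) x = R.Q g x + R.Q k x := by
  rw [Q, R.Dop_add hg hk, add_apply, inner_add_right]; rfl

lemma Q_smul {g : ℝ → ℝ} (hg : ContinuousOn g (Icc 0 1)) (a : ℝ) (x : H) :
    R.Q (fun t => a * g t) x = a * R.Q g x := by
  rw [Q, R.Dop_smul hg, smul_apply, real_inner_smul_right]; rfl

lemma Q_sub {g k : ℝ → ℝ} (hg : ContinuousOn g (Icc 0 1)) (hk : ContinuousOn k (Icc 0 1)) (x : H) :
    R.Q (fun t => g t - k t) x = R.Q g x - R.Q k x := by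
  rw [Q, R.Dop_sub hg hk, sub_apply, inner_sub_right]; rfl

lemma Q_const (a : ℝ) (x : H) : R.Q (fun _ => a) x = a * ‖x‖ ^ 2 := by
  rw [Q, R.Dop_const, real_inner_smul_right, real_inner_self_eq_norm_sq]

omit [CompleteSpace H] in
lemma Q_smul_vec (g : ℝ → ℝ) (a : ℝ) (x : H) : R.Q g (a • x) = a ^ 2 * R.Q g x := by
  rw [Q, map_smul, real_inner_smul_left, real_inner_smul_right, Q]; ring

lemma Q_add_vec {g : ℝ → ℝ} (hg : ContinuousOn g (Icc 0 1)) (x y : H) :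
    R.Q g (x + y) = R.Q g x + 2 * ⟪y, R.Dop g x⟫ + R.Q g y := by
  have h : ⟪x, R.Dop g y⟫ = ⟪y, R.Dop g x⟫ := by
    rw [← R.Dop_symm hg, real_inner_comm]
  simp only [Q, map_add, inner_add_left, inner_add_right, h]; ring

/-- bounds of `Q` through bounds on `g` -/
lemma Q_le {g : ℝ → ℝ} (hg : ContinuousOn g (Icc 0 1)) {B : ℝ}
    (h : ∀ t ∈ Icc (0 : ℝ) 1, g t ≤ B) (x : H) : R.Q g x ≤ B * ‖x‖ ^ 2 := by
  rw [← R.Q_const]; exact R.Q_mono hg continuousOn_const h x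



/-- `Q g x ≥ g(t)‖P_t x‖²` for antitone `g ≥ 0` -/
lemma Q_ge_norm_P {g : ℝ → ℝ} (hg : ContinuousOn g (Icc 0 1)) (ha : AntitoneOn g (Icc 0 1))
    (h1 : 0 ≤ g 1) {t : ℝ} (ht : t ∈ Icc (0 : ℝ) 1) (x : H) : g t * ‖R.P t x‖ ^ 2 ≤ R.Q g x := by
  have hpos : ∀ s ∈ Icc (0 : ℝ) 1, 0 ≤ g s := fun s hs => h1.trans (ha hs (by simp) hs.2)
  let k : ℕ → ℕ := fun n => ⌈t * 2 ^ n⌉₊
  have hk1 : ∀ n, k n ≤ 2 ^ n := fun n => by
    refine Nat.ceil_le.2 ?_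
    push_cast
    nlinarith [ht.2, pow_pos (two_pos : (0 : ℝ) < 2) n]
  have hk2 : ∀ n, t ≤ dy n (k n) := fun n => by
    unfold dy
    rw [le_div_iff₀ (by positivity)]
    exact Nat.le_ceil _
  have hk3 : ∀ n, dy n (k n) ≤ t + (1 / 2) ^ n := fun n => by
    unfold dy
    rw [div_le_iff₀ (by positivity)]
    have h := (Nat.ceil_lt_add_one (mul_nonneg ht.1 (by positivity : (0 : ℝ) ≤ 2 ^ n))).le
    refine h.trans (le_of_eq ?_)
    rw [one_div, inv_pow]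
    field_simp
  have hlim : Tendsto (fun n => dy n (k n)) atTop (𝓝[Icc 0 1] t) := by
    refine tendsto_nhdsWithin_iff.2 ⟨?_, Eventually.of_forall fun n => dy_mem (hk1 n)⟩
    have h0 : Tendsto (fun n : ℕ => t + (1 / 2 : ℝ) ^ n) atTop (𝓝 (t + 0)) :=
      tendsto_const_nhds.add (tendsto_pow_atTop_nhds_zero_of_lt_one (by norm_num) (by norm_num))
    rw [add_zero] at h0
    exact tendsto_of_tendsto_of_tendsto_of_le_of_le tendsto_const_nhds h0 hk2 hk3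
  have hg' : Tendsto (fun n => g (dy n (k n)) * ‖R.P t x‖ ^ 2) atTop (𝓝 (g t * ‖R.P t x‖ ^ 2)) :=
    ((hg t ht).tendsto.comp hlim).mul_const _
  refine le_of_tendsto_of_tendsto' hg' (R.Q_tendsto hg x) fun n => ?_
  have hN := hk1 n
  have hsum : ∑ i ∈ Finset.range (k n), g (dy n (i + 1)) *
      ‖R.inc (dy n i) (dy n (i + 1)) x‖ ^ 2 ≤ ∑ i ∈ Finset.range (2 ^ n), g (dy n (i + 1)) *
      ‖R.inc (dy n i) (dy n (i + 1)) x‖ ^ 2 := by
    refine Finset.sum_le_sum_of_subset_of_nonneg (Finset.range_mono hN) fun i hi _ => ?_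
    exact mul_nonneg (hpos _ (dy_mem (Finset.mem_range.1 hi))) (sq_nonneg _)
  have hsum2 : ∑ i ∈ Finset.range (k n), g (dy n (k n)) *
      ‖R.inc (dy n i) (dy n (i + 1)) x‖ ^ 2 ≤ ∑ i ∈ Finset.range (k n), g (dy n (i + 1)) *
      ‖R.inc (dy n i) (dy n (i + 1)) x‖ ^ 2 := by
    refine Finset.sum_le_sum fun i hi => ?_
    have hi' : i + 1 ≤ k n := Finset.mem_range.1 hi
    exact mul_le_mul_of_nonneg_right
      (ha (dy_mem (hi'.trans hN)) (dy_mem hN) (dy_mono n hi')) (sq_nonneg _)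
  rw [← Finset.mul_sum, R.sum_norm_inc (dy_mono n), dy_zero] at hsum2
  have h3 : ‖R.P t x‖ ^ 2 ≤ ‖R.P (dy n (k n)) x‖ ^ 2 :=
    pow_le_pow_left₀ (norm_nonneg _) (R.norm_P_mono (hk2 n) x) 2
  have h4 := hpos _ (dy_mem hN)
  have h5 : g (dy n (k n)) ≤ g 0 := ha (by simp) (dy_mem hN) (dy_nonneg _ _)
  nlinarith [mul_le_mul_of_nonneg_left h3 h4, mul_le_mul_of_nonneg_right h5 (sq_nonneg ‖R.P 0 x‖)]

/-- localisation: if `|g| ≤ b` on `[0,T]` and `|g| ≤ B` on `[0,1]`, then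
`‖Dop g x‖² ≤ b²‖x‖² + B²(‖x‖² - ‖P_{T'}x‖²)` for every `T' < T`. -/
lemma norm_Dop_local {g : ℝ → ℝ} (hg : ContinuousOn g (Icc 0 1)) {b B T T' : ℝ}
    (hb : ∀ t ∈ Icc (0 : ℝ) 1, t ≤ T → |g t| ≤ b) (hB : ∀ t ∈ Icc (0 : ℝ) 1, |g t| ≤ B)
    (hT : T' < T) (hT0 : 0 ≤ T') (hT1 : T ≤ 1) (x : H) :
    ‖R.Dop g x‖ ^ 2 ≤ b ^ 2 * ‖x‖ ^ 2 + B ^ 2 * (‖x‖ ^ 2 - ‖R.P T' x‖ ^ 2) := by
  obtain ⟨n₀, hn₀⟩ := exists_pow_lt_of_lt_one (sub_pos.2 hT) (by norm_num : (1 / 2 : ℝ) < 1)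
  refine le_of_tendsto (((R.S_tendsto_apply hg x).norm).pow 2)
    (eventually_atTop.2 ⟨n₀, fun n hn => ?_⟩)
  have hn1 : (1 : ℝ) / 2 ^ n < T - T' := by
    refine lt_of_le_of_lt ?_ hn₀
    rw [← one_div_pow]
    exact pow_le_pow_of_le_one (by norm_num) (by norm_num) hn
  have hb2 : ∀ t ∈ Icc (0 : ℝ) 1, t ≤ T → g t ^ 2 ≤ b ^ 2 := fun t ht h => by
    rw [← sq_abs]; exact pow_le_pow_left₀ (abs_nonneg _) (hb t ht h) 2
  have hB2 : ∀ t ∈ Icc (0 : ℝ) 1, g t ^ 2 ≤ B ^ 2 := fun t ht => by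
    rw [← sq_abs]; exact pow_le_pow_left₀ (abs_nonneg _) (hB t ht) 2
  let φ : ℕ → ℝ := fun i => ‖R.P (max (dy n i) T') x‖ ^ 2
  have hφ : ∀ i, φ i ≤ φ (i + 1) := fun i =>
    pow_le_pow_left₀ (norm_nonneg _)
      (R.norm_P_mono (max_le_max (dy_mono n i.le_succ) le_rfl) x) 2
  have key : ∀ i < 2 ^ n, g (dy n (i + 1)) ^ 2 * ‖R.inc (dy n i) (dy n (i + 1)) x‖ ^ 2 ≤
      b ^ 2 * ‖R.inc (dy n i) (dy n (i + 1)) x‖ ^ 2 + B ^ 2 * (φ (i + 1) - φ i) := by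
    intro i hi
    by_cases h : dy n (i + 1) ≤ T
    · refine le_add_of_le_of_nonneg
        (mul_le_mul_of_nonneg_right (hb2 _ (dy_mem hi) h) (sq_nonneg _)) ?_
      exact mul_nonneg (sq_nonneg _) (sub_nonneg.2 (hφ i))
    · have h1 : T' ≤ dy n i := by
        rw [dy_succ] at h; push Not at h; linarith
      have h2 : φ (i + 1) - φ i = ‖R.inc (dy n i) (dy n (i + 1)) x‖ ^ 2 := by
        simp only [φ]
        rw [max_eq_left h1, max_eq_left (h1.trans (dy_mono n i.le_succ)),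
          R.norm_sq_inc (dy_mono n i.le_succ)]
      rw [h2]
      refine le_add_of_nonneg_of_le (mul_nonneg (sq_nonneg _) (sq_nonneg _)) ?_
      exact mul_le_mul_of_nonneg_right (hB2 _ (dy_mem hi)) (sq_nonneg _)
  rw [R.norm_S_sq]
  have h0 : g 0 ^ 2 * ‖R.P 0 x‖ ^ 2 ≤ b ^ 2 * ‖R.P 0 x‖ ^ 2 :=
    mul_le_mul_of_nonneg_right (hb2 0 (by simp) (hT0.trans hT.le)) (sq_nonneg _)
  have h1 := Finset.sum_le_sum fun i (hi : i ∈ Finset.range (2 ^ n)) =>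
    key i (Finset.mem_range.1 hi)
  rw [Finset.sum_add_distrib, ← Finset.mul_sum, ← Finset.mul_sum, Finset.sum_range_sub φ] at h1
  have h2 : φ (2 ^ n) = ‖x‖ ^ 2 := by
    simp only [φ]
    rw [dy_end, max_eq_left (hT.le.trans hT1), R.one]
  have h3 : φ 0 = ‖R.P T' x‖ ^ 2 := by
    simp only [φ]
    rw [dy_zero, max_eq_right hT0]
  rw [h2, h3] at h1
  have h4 := R.mass n x
  nlinarith [h0, h1, h4]

end Complete


end Res

end Crest.Agent.R146.Hilb
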