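import Mathlib

-- ▼ part R146/ProfA_540
section

/-!
# Parallel sums and harmonic means (node B of the split 624, row 146)

`psum a b = a b / (a + b)` (`= 0` at `a = b = 0`), so `1 / psum a b = 1 / a + 1 / b`.
-/

namespace Crest.Agent.R146.ProfA_540

open Set MeasureTheory Filter Topology

/-- the parallel sum of two nonnegative numbers -/
noncomputable def psum (a b : ℝ) : ℝ := a * b / (a + b)


@[simp] lemma psum_zero_left (b : ℝ) : psum 0 b = 0 := by simp [psum]

@[simp] lemma psum_zero_right (a : ℝ) : psum a 0 = 0 := by simp [psum]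

lemma psum_nonneg {a b : ℝ} (ha : 0 ≤ a) (hb : 0 ≤ b) : 0 ≤ psum a b := by
  unfold psum; positivity

lemma psum_pos {a b : ℝ} (ha : 0 < a) (hb : 0 < b) : 0 < psum a b := by
  unfold psum; positivity


lemma psum_mul (c a b : ℝ) : psum (c * a) (c * b) = c * psum a b := by
  unfold psum
  by_cases hc : c = 0
  · simp [hc]
  by_cases h : a + b = 0
  · have : c * a + c * b = 0 := by rw [← mul_add, h, mul_zero]
    simp [h, this]
  · have : c * a + c * b ≠ 0 := by rw [← mul_add]; exact mul_ne_zero hc h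
    field_simp

lemma one_div_psum {a b : ℝ} (ha : 0 < a) (hb : 0 < b) :
    1 / psum a b = 1 / a + 1 / b := by
  unfold psum
  have : a + b ≠ 0 := by positivity
  field_simp
  ring


/-- variational form, upper bound -/
lemma psum_le_form {a b : ℝ} (ha : 0 ≤ a) (hb : 0 ≤ b) (s : ℝ) :
    psum a b ≤ s ^ 2 * a + (1 - s) ^ 2 * b := by
  unfold psum
  rcases eq_or_lt_of_le (add_nonneg ha hb) with h | h
  · have : a + b = 0 := h.symm
    rw [this, div_zero]; positivity
  · rw [div_le_iff₀ h]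
    nlinarith [sq_nonneg (s * a - (1 - s) * b), mul_nonneg ha hb]

/-- variational form, attained -/
lemma psum_eq_form {a b : ℝ} (ha : 0 ≤ a) (hb : 0 ≤ b) :
    psum a b = (b / (a + b)) ^ 2 * a + (1 - b / (a + b)) ^ 2 * b := by
  unfold psum
  rcases eq_or_lt_of_le (add_nonneg ha hb) with h | h
  · have h1 : a = 0 := by linarith
    have h2 : b = 0 := by linarith
    simp [h1, h2]
  · have : a + b ≠ 0 := h.ne'
    field_simp
    ring

lemma psum_add_le {a b a' b' : ℝ} (ha : 0 ≤ a) (hb : 0 ≤ b) (ha' : 0 ≤ a') (hb' : 0 ≤ b') :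
    psum a b + psum a' b' ≤ psum (a + a') (b + b') := by
  have h := psum_eq_form (add_nonneg ha ha') (add_nonneg hb hb')
  set s := (b + b') / (a + a' + (b + b')) with hs
  rw [h]
  have h1 := psum_le_form ha hb s
  have h2 := psum_le_form ha' hb' s
  nlinarith

lemma psum_mono {a b a' b' : ℝ} (ha : 0 ≤ a) (hb : 0 ≤ b) (ha' : a ≤ a') (hb' : b ≤ b') :
    psum a b ≤ psum a' b' := by
  have h := psum_add_le ha hb (sub_nonneg.2 ha') (sub_nonneg.2 hb')
  have h2 := psum_nonneg (sub_nonneg.2 ha') (sub_nonneg.2 hb')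
  have e1 : a + (a' - a) = a' := by ring
  have e2 : b + (b' - b) = b' := by ring
  rw [e1, e2] at h
  linarith

lemma psum_le_left {a b : ℝ} (ha : 0 ≤ a) (hb : 0 ≤ b) : psum a b ≤ a := by
  have := psum_le_form ha hb 1
  simpa using this





/-- exact gain of the arithmetic mean over the harmonic mean in `1 / D` -/
lemma inv_deficit {a b : ℝ} (ha : 0 < a) (hb : 0 < b) :
    (1 / a + 1 / b) / 2 - 2 / (a + b) = (a - b) ^ 2 / (2 * a * b * (a + b)) := by
  have : a + b ≠ 0 := by positivity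
  field_simp
  ring

lemma inv_deficit_le {a b C : ℝ} (ha : 0 < a) (hb : 0 < b) (haC : a ≤ C) (hbC : b ≤ C) :
    (a - b) ^ 2 ≤ 4 * C ^ 3 * ((1 / a + 1 / b) / 2 - 2 / (a + b)) := by
  rw [inv_deficit ha hb]
  have hC : 0 < C := ha.trans_le haC
  have h1 : 2 * a * b * (a + b) ≤ 4 * C ^ 3 := by
    have h2 : a * b ≤ C * C := mul_le_mul haC hbC hb.le hC.le
    have h3 : a + b ≤ 2 * C := by linarith
    have h4 : 0 < a * b := mul_pos ha hb
    calc 2 * a * b * (a + b) = 2 * ((a * b) * (a + b)) := by ring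
      _ ≤ 2 * ((C * C) * (2 * C)) := by
          have := mul_le_mul h2 h3 (by positivity) (by positivity)
          linarith
      _ = 4 * C ^ 3 := by ring
  have h5 : 0 < 2 * a * b * (a + b) := by positivity
  rw [mul_div_assoc', le_div_iff₀ h5]
  have := sq_nonneg (a - b)
  nlinarith

lemma continuousOn_psum :
    ContinuousOn (fun p : ℝ × ℝ => psum p.1 p.2) {p | 0 ≤ p.1 ∧ 0 ≤ p.2} := by
  intro p hp
  rcases eq_or_lt_of_le (add_nonneg hp.1 hp.2) with h | h
  · have h1 : p.1 = 0 := by linarith [hp.1, hp.2]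
    have h2 : p.2 = 0 := by linarith [hp.1, hp.2]
    have hval : psum p.1 p.2 = 0 := by simp [h1]
    have hlim : Tendsto (fun q : ℝ × ℝ => q.1) (𝓝[{p | 0 ≤ p.1 ∧ 0 ≤ p.2}] p) (𝓝 0) := by
      have : Tendsto (fun q : ℝ × ℝ => q.1) (𝓝 p) (𝓝 p.1) := continuous_fst.continuousAt
      rw [h1] at this
      exact this.mono_left nhdsWithin_le_nhds
    show Tendsto (fun p : ℝ × ℝ => psum p.1 p.2) _ (𝓝 (psum p.1 p.2))
    rw [hval]
    refine tendsto_of_tendsto_of_tendsto_of_le_of_le' tendsto_const_nhds hlim ?_ ?_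
    · filter_upwards [self_mem_nhdsWithin] with q hq using psum_nonneg hq.1 hq.2
    · filter_upwards [self_mem_nhdsWithin] with q hq using psum_le_left hq.1 hq.2
  · refine ContinuousAt.continuousWithinAt ?_
    unfold psum
    refine ContinuousAt.div (by fun_prop) (by fun_prop) h.ne'

end Crest.Agent.R146.ProfA_540
end

-- ▼ part R146/ProfB_540

/-!
# Profiles (node B of the split 624, row 146)

`Prof D`: concave, antitone, continuous on `[0,1]`, positive on `[0,1)`, `0 ≤ D 1`.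
`Adm e D`: a profile with cap `e * D t ≤ 1 - t` and `1 / D - e / (1 - t)` integrable on `[0,1]`
(`e = 0`: zero temperature / jamming; `e = 1 / b`: finite inverse temperature `b`).
-/

namespace Crest.Agent.R146.ProfB_540

open Set MeasureTheory Filter Topology
open Crest.Agent.R146.ProfA_540

/-- profiles -/
structure Prof (D : ℝ → ℝ) : Prop where
  conc : ConcaveOn ℝ (Icc 0 1) D
  anti : AntitoneOn D (Icc 0 1)
  cont : ContinuousOn D (Icc 0 1)
  pos : ∀ t ∈ Ico (0 : ℝ) 1, 0 < D t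
  one : 0 ≤ D 1

/-- the entropy integrand -/
noncomputable def entF (e : ℝ) (D : ℝ → ℝ) (t : ℝ) : ℝ := 1 / D t - e / (1 - t)

/-- the entropy (Bochner; only meaningful for admissible profiles) -/
noncomputable def Ent (e : ℝ) (D : ℝ → ℝ) : ℝ := ∫ t in (0 : ℝ)..1, entF e D t

/-- admissible profiles -/
structure Adm (e : ℝ) (D : ℝ → ℝ) : Prop where
  prof : Prof D
  cap : ∀ t ∈ Icc (0 : ℝ) 1, e * D t ≤ 1 - t
  int : IntervalIntegrable (entF e D) volume 0 1

/-- pointwise parallel sum: `1 / par D E = 1 / D + 1 / E` -/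
noncomputable def par (D E : ℝ → ℝ) (t : ℝ) : ℝ := psum (D t) (E t)


/-- arithmetic mean -/
noncomputable def amean (D E : ℝ → ℝ) (t : ℝ) : ℝ := (D t + E t) / 2

namespace Prof

variable {D E : ℝ → ℝ}

lemma nonneg (h : Prof D) {t : ℝ} (ht : t ∈ Icc (0 : ℝ) 1) : 0 ≤ D t := by
  rcases eq_or_lt_of_le ht.2 with h1 | h1
  · rw [h1]; exact h.one
  · exact (h.pos t ⟨ht.1, h1⟩).le

lemma le_zero (h : Prof D) {t : ℝ} (ht : t ∈ Icc (0 : ℝ) 1) : D t ≤ D 0 :=
  h.anti ⟨le_rfl, zero_le_one⟩ ht ht.1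

lemma pos_zero (h : Prof D) : 0 < D 0 := h.pos 0 ⟨le_rfl, zero_lt_one⟩

lemma abs_le (h : Prof D) {t : ℝ} (ht : t ∈ Icc (0 : ℝ) 1) : |D t| ≤ D 0 := by
  rw [abs_of_nonneg (h.nonneg ht)]; exact h.le_zero ht

/-- `D t ≥ (1 - t) D 0` -/
lemma lower (h : Prof D) {t : ℝ} (ht : t ∈ Icc (0 : ℝ) 1) : (1 - t) * D 0 ≤ D t := by
  have m0 : (0 : ℝ) ∈ Icc (0 : ℝ) 1 := ⟨le_rfl, zero_le_one⟩
  have m1 : (1 : ℝ) ∈ Icc (0 : ℝ) 1 := ⟨zero_le_one, le_rfl⟩
  have a0 : 0 ≤ 1 - t := by linarith [ht.2]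
  have h1 := h.conc.2 m0 m1 a0 ht.1 (by ring)
  have h2 : (1 - t) • (0 : ℝ) + t • (1 : ℝ) = t := by simp
  rw [h2] at h1
  have h3 := mul_nonneg ht.1 h.one
  simp only [smul_eq_mul] at h1
  linarith

/-- `(1 - s) D t ≥ (1 - t) D s` for `s ≤ t` -/
lemma ratio_mono (h : Prof D) {s t : ℝ} (hs : 0 ≤ s) (hst : s ≤ t) (ht : t ≤ 1) :
    (1 - t) * D s ≤ (1 - s) * D t := by
  rcases eq_or_lt_of_le (hst.trans ht) with h1 | h1
  · have : t = 1 := le_antisymm ht (h1 ▸ hst)
    rw [this, h1]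
  · have hs1 : 0 < 1 - s := by linarith
    have ms : s ∈ Icc (0 : ℝ) 1 := ⟨hs, h1.le⟩
    have m1 : (1 : ℝ) ∈ Icc (0 : ℝ) 1 := ⟨zero_le_one, le_rfl⟩
    have a0 : 0 ≤ (1 - t) / (1 - s) := div_nonneg (by linarith) hs1.le
    have b0 : 0 ≤ (t - s) / (1 - s) := div_nonneg (by linarith) hs1.le
    have h2 := h.conc.2 ms m1 a0 b0 (by field_simp; ring)
    have h3 : ((1 - t) / (1 - s)) • s + ((t - s) / (1 - s)) • (1 : ℝ) = t := by
      simp only [smul_eq_mul]; field_simp; ring
    rw [h3] at h2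
    simp only [smul_eq_mul] at h2
    have h4 : 0 ≤ (t - s) / (1 - s) * D 1 := mul_nonneg (div_nonneg (by linarith) hs1.le) h.one
    have h5 : (1 - t) / (1 - s) * D s ≤ D t := by linarith
    rw [div_mul_eq_mul_div, div_le_iff₀ hs1] at h5
    linarith

/-- equi-Lipschitz bound on `[0,1)` -/
lemma sub_le (h : Prof D) {s t : ℝ} (hs : 0 ≤ s) (hst : s ≤ t) (ht : t < 1) :
    D s - D t ≤ (t - s) * (D t / (1 - t)) := by
  have h1 := h.ratio_mono hs hst ht.le
  have h2 : 0 < 1 - t := by linarith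
  rw [mul_div_assoc', le_div_iff₀ h2]
  nlinarith

lemma sub_nonneg' (h : Prof D) {s t : ℝ} (hs : 0 ≤ s) (hst : s ≤ t) (ht : t ≤ 1) :
    0 ≤ D s - D t :=
  sub_nonneg.2 (h.anti ⟨hs, hst.trans ht⟩ ⟨hs.trans hst, ht⟩ hst)

lemma smul (h : Prof D) {c : ℝ} (hc : 0 < c) : Prof (fun t => c * D t) where
  conc := h.conc.smul hc.le
  anti := fun _ hs _ ht hst => mul_le_mul_of_nonneg_left (h.anti hs ht hst) hc.le
  cont := continuousOn_const.mul h.cont
  pos := fun t ht => mul_pos hc (h.pos t ht)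
  one := mul_nonneg hc.le h.one

lemma add (h : Prof D) (k : Prof E) : Prof (fun t => D t + E t) where
  conc := h.conc.add k.conc
  anti := fun _ hs _ ht hst => add_le_add (h.anti hs ht hst) (k.anti hs ht hst)
  cont := h.cont.add k.cont
  pos := fun t ht => add_pos (h.pos t ht) (k.pos t ht)
  one := add_nonneg h.one k.one

lemma amean (h : Prof D) (k : Prof E) : Prof (amean D E) := by
  have := (h.add k).smul (c := 1 / 2) (by norm_num)
  have e : (fun t => 1 / 2 * (D t + E t)) = ProfB_540.amean D E := by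
    funext t; unfold ProfB_540.amean; ring
  rw [e] at this; exact this

lemma const {c : ℝ} (hc : 0 < c) : Prof (fun _ => c) where
  conc := concaveOn_const c (convex_Icc 0 1)
  anti := fun _ _ _ _ _ => le_rfl
  cont := continuousOn_const
  pos := fun _ _ => hc
  one := hc.le

/-- the cap `c (1 - t)` -/
lemma lin {c : ℝ} (hc : 0 < c) : Prof (fun t => c * (1 - t)) where
  conc := by
    refine ⟨convex_Icc 0 1, fun x _ y _ a b _ _ hab => ?_⟩
    simp only [smul_eq_mul]
    have : b = 1 - a := by linarith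
    subst this
    nlinarith
  anti := fun s _ t _ hst => mul_le_mul_of_nonneg_left (by linarith) hc.le
  cont := by fun_prop
  pos := fun t ht => mul_pos hc (by linarith [ht.2])
  one := by simp

/-- minimum of two profiles -/
lemma min (h : Prof D) (k : Prof E) : Prof (fun t => min (D t) (E t)) where
  conc := h.conc.inf k.conc
  anti := fun _ hs _ ht hst => min_le_min (h.anti hs ht hst) (k.anti hs ht hst)
  cont := h.cont.inf k.cont
  pos := fun t ht => lt_min (h.pos t ht) (k.pos t ht)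
  one := le_min h.one k.one

/-- the parallel sum of two profiles is a profile -/
lemma par (h : Prof D) (k : Prof E) : Prof (par D E) where
  conc := by
    refine ⟨convex_Icc 0 1, fun x hx y hy a b ha hb hab => ?_⟩
    have hz : a • x + b • y ∈ Icc (0 : ℝ) 1 := (convex_Icc 0 1) hx hy ha hb hab
    have h1 := h.conc.2 hx hy ha hb hab
    have k1 := k.conc.2 hx hy ha hb hab
    simp only [smul_eq_mul] at h1 k1 hz ⊢
    unfold ProfB_540.par
    have e1 : a * psum (D x) (E x) = psum (a * D x) (a * E x) := (psum_mul _ _ _).symm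
    have e2 : b * psum (D y) (E y) = psum (b * D y) (b * E y) := (psum_mul _ _ _).symm
    rw [e1, e2]
    have p1 := mul_nonneg ha (h.nonneg hx)
    have p2 := mul_nonneg ha (k.nonneg hx)
    have p3 := mul_nonneg hb (h.nonneg hy)
    have p4 := mul_nonneg hb (k.nonneg hy)
    exact (psum_add_le p1 p2 p3 p4).trans (psum_mono (by positivity) (by positivity) h1 k1)
  anti := fun s hs t ht hst =>
    psum_mono (h.nonneg ht) (k.nonneg ht) (h.anti hs ht hst) (k.anti hs ht hst)
  cont := by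
    have := continuousOn_psum.comp (h.cont.prodMk k.cont)
      (fun t ht => (⟨h.nonneg ht, k.nonneg ht⟩ : 0 ≤ D t ∧ 0 ≤ E t))
    exact this
  pos := fun t ht => psum_pos (h.pos t ht) (k.pos t ht)
  one := psum_nonneg h.one k.one



end Prof


lemma one_div_par {D E : ℝ → ℝ} (h : Prof D) (k : Prof E) {t : ℝ} (ht : t ∈ Ico (0 : ℝ) 1) :
    1 / par D E t = 1 / D t + 1 / E t := one_div_psum (h.pos t ht) (k.pos t ht)


end Crest.Agent.R146.ProfB_540
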