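import Mathlib
import Crest.Agent.R146.HilbA_356
import Crest.Agent.R146.ProfB_540

-- ▼ part R146/HilbE0_12
section

/-!
Node E (b → ∞) of package P5, row 146 (helper12): the real-variable facts.
`cap b t = b * (1 - t)`.
-/

set_option autoImplicit false

open MeasureTheory Set Filter Topology

namespace Crest.Agent.R146.HilbE

/-- the truncation of a profile at the cap `b (1-t)` -/
noncomputable def capD (b : ℝ) (D : ℝ → ℝ) : ℝ → ℝ := fun t => min (D t) (b * (1 - t))

theorem capD_concave {b : ℝ} {D : ℝ → ℝ} (hD : ConcaveOn ℝ (Icc 0 1) D) :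
    ConcaveOn ℝ (Icc 0 1) (capD b D) := by
  refine hD.inf ⟨convex_Icc 0 1, ?_⟩
  intro x _ y _ p q hp hq hpq
  simp only [smul_eq_mul]
  have hq' : q = 1 - p := by linarith
  subst hq'
  exact le_of_eq (by ring)

theorem capD_antitone {b : ℝ} (hb : 0 ≤ b) {D : ℝ → ℝ} (hD : AntitoneOn D (Icc 0 1)) :
    AntitoneOn (capD b D) (Icc 0 1) := by
  intro x hx y hy hxy
  refine min_le_min (hD hx hy hxy) ?_
  exact mul_le_mul_of_nonneg_left (by linarith) hb

theorem capD_continuous {b : ℝ} {D : ℝ → ℝ} (hD : ContinuousOn D (Icc 0 1)) :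
    ContinuousOn (capD b D) (Icc 0 1) := by
  refine hD.inf ?_
  fun_prop

theorem capD_pos {b : ℝ} (hb : 0 < b) {D : ℝ → ℝ} {t : ℝ} (h : 0 < D t) (ht : t < 1) :
    0 < capD b D t := lt_min h (mul_pos hb (by linarith))

theorem capD_nonneg_one {b : ℝ} {D : ℝ → ℝ} (h : 0 ≤ D 1) : 0 ≤ capD b D 1 := by
  simp [capD, h]

theorem capD_le_cap (b : ℝ) (D : ℝ → ℝ) (t : ℝ) : capD b D t ≤ b * (1 - t) := min_le_right _ _

theorem capD_le (b : ℝ) (D : ℝ → ℝ) (t : ℝ) : capD b D t ≤ D t := min_le_left _ _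

/-- pointwise bounds for the truncated entropy integrand -/
theorem capD_integrand {b : ℝ} (hb : 0 < b) {D : ℝ → ℝ} {t : ℝ} (h : 0 < D t) (ht : t < 1) :
    0 ≤ 1 / capD b D t - 1 / (b * (1 - t)) ∧ 1 / capD b D t - 1 / (b * (1 - t)) ≤ 1 / D t := by
  have hc : 0 < b * (1 - t) := mul_pos hb (by linarith)
  have h1 : 0 < capD b D t := capD_pos hb h ht
  constructor
  · exact sub_nonneg.2 (one_div_le_one_div_of_le h1 (capD_le_cap b D t))
  · rcases le_total (D t) (b * (1 - t)) with h2 | h2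
    · have : capD b D t = D t := min_eq_left h2
      rw [this]
      have : 0 ≤ 1 / (b * (1 - t)) := by positivity
      linarith
    · have : capD b D t = b * (1 - t) := min_eq_right h2
      rw [this, sub_self]
      positivity

theorem ae_lt_one : ∀ᵐ t ∂(volume.restrict (Ioc (0:ℝ) 1)), t < 1 := by
  have h : ∀ᵐ t ∂(volume : Measure ℝ), t ≠ 1 := by
    rw [ae_iff]; simp
  filter_upwards [ae_restrict_of_ae h, ae_restrict_mem measurableSet_Ioc] with t h1 h2
  exact lt_of_le_of_ne h2.2 h1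

theorem aesm_of_continuousOn {D : ℝ → ℝ} (hD : ContinuousOn D (Icc 0 1)) :
    AEStronglyMeasurable D (volume.restrict (Ioc (0:ℝ) 1)) :=
  (hD.mono Ioc_subset_Icc_self).aestronglyMeasurable measurableSet_Ioc

theorem capD_integrable {b : ℝ} (hb : 0 < b) {D : ℝ → ℝ} (hc : ContinuousOn D (Icc 0 1))
    (hpos : ∀ t ∈ Ico (0:ℝ) 1, 0 < D t) (hi : IntervalIntegrable (fun t => 1 / D t) volume 0 1) :
    IntervalIntegrable (fun t => 1 / capD b D t - 1 / (b * (1 - t))) volume 0 1 := by
  rw [intervalIntegrable_iff_integrableOn_Ioc_of_le zero_le_one] at hi ⊢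
  refine Integrable.mono' hi ?_ ?_
  · refine AEStronglyMeasurable.sub ?_ ?_
    · have h1 : AEMeasurable (capD b D) (volume.restrict (Ioc (0:ℝ) 1)) :=
        (aesm_of_continuousOn (capD_continuous hc)).aemeasurable
      exact (h1.const_div 1).aestronglyMeasurable
    · exact (by fun_prop : Measurable fun t : ℝ => 1 / (b * (1 - t))).aestronglyMeasurable
  · filter_upwards [ae_lt_one, ae_restrict_mem measurableSet_Ioc] with t h1 h2
    have := capD_integrand hb (hpos t ⟨h2.1.le, h1⟩) h1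
    rw [Real.norm_eq_abs, abs_of_nonneg this.1]
    exact this.2

theorem capD_integral_le {b : ℝ} (hb : 0 < b) {D : ℝ → ℝ} (hc : ContinuousOn D (Icc 0 1))
    (hpos : ∀ t ∈ Ico (0:ℝ) 1, 0 < D t) (hi : IntervalIntegrable (fun t => 1 / D t) volume 0 1) :
    ∫ t in (0:ℝ)..1, (1 / capD b D t - 1 / (b * (1 - t))) ≤ ∫ t in (0:ℝ)..1, 1 / D t := by
  rw [intervalIntegral.integral_of_le zero_le_one, intervalIntegral.integral_of_le zero_le_one]
  refine integral_mono_ae ?_ ?_ ?_
  · exact (intervalIntegrable_iff_integrableOn_Ioc_of_le zero_le_one).1 (capD_integrable hb hc hpos hi)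
  · exact (intervalIntegrable_iff_integrableOn_Ioc_of_le zero_le_one).1 hi
  · filter_upwards [ae_lt_one, ae_restrict_mem measurableSet_Ioc] with t h1 h2
    exact (capD_integrand hb (hpos t ⟨h2.1.le, h1⟩) h1).2

/-! ### adding `1/b` -/

/-- pointwise comparison -/
theorem add_integrand {b : ℝ} (hb : 0 < b) {d t : ℝ} (h : 0 < d) (hd : d ≤ b * (1 - t))
    (ht : t < 1) :
    1 / (d + 1 / b) ≤ (1 / d - 1 / (b * (1 - t))) + min (1 / (b * (1 - t))) b := by
  have hc : 0 < b * (1 - t) := mul_pos hb (by linarith)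
  have hib : 0 < 1 / b := by positivity
  have h1 : 1 / (d + 1 / b) ≤ 1 / d := one_div_le_one_div_of_le h (by linarith)
  have h2 : 1 / (d + 1 / b) ≤ b := by
    rw [div_le_iff₀ (by positivity)]
    have : b * (1 / b) = 1 := by field_simp
    nlinarith [mul_pos hb h]
  have h3 : 1 / (b * (1 - t)) ≤ 1 / d := one_div_le_one_div_of_le h hd
  rcases le_total (1 / (b * (1 - t))) b with h4 | h4
  · rw [min_eq_left h4]; linarith
  · rw [min_eq_right h4]; linarith

theorem min_integrable {b : ℝ} (hb : 0 < b) :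
    IntervalIntegrable (fun t : ℝ => min (1 / (b * (1 - t))) b) volume 0 1 := by
  rw [intervalIntegrable_iff_integrableOn_Ioc_of_le zero_le_one]
  have hbi : Integrable (fun _ : ℝ => b) (volume.restrict (Ioc (0:ℝ) 1)) := by
    exact integrable_const b
  refine Integrable.mono' hbi ?_ ?_
  · exact (by fun_prop : Measurable fun t : ℝ => min (1 / (b * (1 - t))) b).aestronglyMeasurable
  · filter_upwards [ae_lt_one, ae_restrict_mem measurableSet_Ioc] with t h1 h2
    have hc : 0 < b * (1 - t) := mul_pos hb (by linarith)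
    rw [Real.norm_eq_abs, abs_of_nonneg (le_min (by positivity) hb.le)]
    exact min_le_right _ _

theorem min_integral_le {b : ℝ} (hb : 1 ≤ b) :
    ∫ t in (0:ℝ)..1, min (1 / (b * (1 - t))) b ≤ (1 + 2 * Real.log b) / b := by
  have hb0 : 0 < b := by linarith
  have e1 : ∫ t in (0:ℝ)..1, min (1 / (b * (1 - t))) b = ∫ s in (0:ℝ)..1, min (1 / (b * s)) b := by
    have := intervalIntegral.integral_comp_sub_left (a := (0:ℝ)) (b := 1)
      (fun s => min (1 / (b * s)) b) 1
    simpa using this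
  rw [e1]
  have hint : ∀ u v : ℝ, 0 ≤ u → 0 ≤ v →
      IntervalIntegrable (fun s : ℝ => min (1 / (b * s)) b) volume u v := by
    intro u v hu hv
    have hbi : IntervalIntegrable (fun _ : ℝ => b) volume u v := intervalIntegrable_const
    refine hbi.mono_fun' ?_ ?_
    · exact (by fun_prop : Measurable fun s : ℝ => min (1 / (b * s)) b).aestronglyMeasurable
    · filter_upwards [ae_restrict_mem measurableSet_uIoc] with s hs
      have hs0 : 0 ≤ s := by
        rcases le_total u v with h | h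
        · rw [uIoc_of_le h] at hs; linarith [hs.1]
        · rw [uIoc_of_ge h] at hs; linarith [hs.1]
      rw [Real.norm_eq_abs, abs_of_nonneg (le_min (by positivity) hb0.le)]
      exact min_le_right _ _
  set c : ℝ := 1 / b ^ 2 with hc
  have hc0 : 0 < c := by positivity
  have hc1 : c ≤ 1 := by
    rw [hc, div_le_one (by positivity)]
    exact one_le_pow₀ hb
  rw [← intervalIntegral.integral_add_adjacent_intervals (hint 0 c le_rfl hc0.le)
    (hint c 1 hc0.le zero_le_one)]
  have h1 : ∫ s in (0:ℝ)..c, min (1 / (b * s)) b ≤ 1 / b := by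
    calc ∫ s in (0:ℝ)..c, min (1 / (b * s)) b ≤ ∫ _s in (0:ℝ)..c, b := by
          refine intervalIntegral.integral_mono_on hc0.le (hint 0 c le_rfl hc0.le)
            intervalIntegrable_const fun s _ => min_le_right _ _
      _ = 1 / b := by
          rw [intervalIntegral.integral_const, hc]
          simp only [sub_zero, smul_eq_mul]
          field_simp
  have h2 : ∫ s in c..1, min (1 / (b * s)) b ≤ 2 * Real.log b / b := by
    have hi : IntervalIntegrable (fun s : ℝ => (1 / b) * s⁻¹) volume c 1 := by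
      refine IntervalIntegrable.const_mul ?_ _
      refine ContinuousOn.intervalIntegrable ?_
      rw [uIcc_of_le hc1]
      intro s hs
      exact (continuousAt_inv₀ (by linarith [hs.1] : s ≠ 0)).continuousWithinAt
    calc ∫ s in c..1, min (1 / (b * s)) b ≤ ∫ s in c..1, (1 / b) * s⁻¹ := by
          refine intervalIntegral.integral_mono_on hc1 (hint c 1 hc0.le zero_le_one) hi fun s hs => ?_
          refine (min_le_left _ _).trans (le_of_eq ?_)
          rw [one_div, mul_inv, one_div]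
      _ = 2 * Real.log b / b := by
          rw [intervalIntegral.integral_const_mul, integral_inv_of_pos hc0 one_pos, hc]
          rw [one_div_one_div, Real.log_pow]
          push_cast
          ring
  calc _ ≤ 1 / b + 2 * Real.log b / b := add_le_add h1 h2
    _ = _ := by ring

theorem add_integrable {b : ℝ} (hb : 0 < b) {D : ℝ → ℝ} (hc : ContinuousOn D (Icc 0 1))
    (hpos : ∀ t ∈ Icc (0:ℝ) 1, 0 ≤ D t) :
    IntervalIntegrable (fun t => 1 / (D t + 1 / b)) volume 0 1 := by
  refine ContinuousOn.intervalIntegrable ?_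
  rw [uIcc_of_le zero_le_one]
  refine ContinuousOn.div continuousOn_const (hc.add continuousOn_const) fun t ht => ?_
  have := hpos t ht
  have : 0 < 1 / b := by positivity
  positivity

theorem add_integral_le {b : ℝ} (hb : 1 ≤ b) {D : ℝ → ℝ} (hc : ContinuousOn D (Icc 0 1))
    (hpos : ∀ t ∈ Ico (0:ℝ) 1, 0 < D t) (h1 : 0 ≤ D 1)
    (hcap : ∀ t ∈ Icc (0:ℝ) 1, D t ≤ b * (1 - t))
    (hi : IntervalIntegrable (fun t => 1 / D t - 1 / (b * (1 - t))) volume 0 1) :
    ∫ t in (0:ℝ)..1, 1 / (D t + 1 / b)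
      ≤ (∫ t in (0:ℝ)..1, (1 / D t - 1 / (b * (1 - t)))) + (1 + 2 * Real.log b) / b := by
  have hb0 : 0 < b := by linarith
  have hnn : ∀ t ∈ Icc (0:ℝ) 1, 0 ≤ D t := by
    intro t ht
    rcases eq_or_lt_of_le ht.2 with h | h
    · rw [h]; exact h1
    · exact (hpos t ⟨ht.1, h⟩).le
  have key : ∫ t in (0:ℝ)..1, 1 / (D t + 1 / b)
      ≤ ∫ t in (0:ℝ)..1, ((1 / D t - 1 / (b * (1 - t))) + min (1 / (b * (1 - t))) b) := by
    rw [intervalIntegral.integral_of_le zero_le_one, intervalIntegral.integral_of_le zero_le_one]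
    refine integral_mono_ae ?_ ?_ ?_
    · exact (intervalIntegrable_iff_integrableOn_Ioc_of_le zero_le_one).1
        (add_integrable hb0 hc hnn)
    · exact (intervalIntegrable_iff_integrableOn_Ioc_of_le zero_le_one).1
        (hi.add (min_integrable hb0))
    · filter_upwards [ae_lt_one, ae_restrict_mem measurableSet_Ioc] with t ht1 ht2
      exact add_integrand hb0 (hpos t ⟨ht2.1.le, ht1⟩) (hcap t ⟨ht2.1.le, ht1.le⟩) ht1
  refine key.trans ?_
  rw [intervalIntegral.integral_add hi (min_integrable hb0)]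
  exact add_le_add le_rfl (min_integral_le hb)

/-- nonnegativity of the entropy integral under the cap -/
theorem cap_integral_nonneg {b : ℝ} {D : ℝ → ℝ}
    (hpos : ∀ t ∈ Ico (0:ℝ) 1, 0 < D t)
    (hcap : ∀ t ∈ Icc (0:ℝ) 1, D t ≤ b * (1 - t)) :
    0 ≤ ∫ t in (0:ℝ)..1, (1 / D t - 1 / (b * (1 - t))) := by
  rw [intervalIntegral.integral_of_le zero_le_one]
  refine integral_nonneg_of_ae ?_
  filter_upwards [ae_lt_one, ae_restrict_mem measurableSet_Ioc] with t h1 h2
  exact sub_nonneg.2 (one_div_le_one_div_of_le (hpos t ⟨h2.1.le, h1⟩) (hcap t ⟨h2.1.le, h1.le⟩))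

theorem err_tendsto : Tendsto (fun b : ℝ => (1 + 2 * Real.log b) / b) atTop (𝓝 0) := by
  have h1 : Tendsto (fun b : ℝ => Real.log b / b) atTop (𝓝 0) := by
    have := Real.isLittleO_log_id_atTop.tendsto_div_nhds_zero
    simpa using this
  have h2 : Tendsto (fun b : ℝ => 1 / b) atTop (𝓝 0) := by
    simpa using tendsto_inv_atTop_zero
  have h3 := h2.add (h1.const_mul 2)
  simp only [mul_zero, add_zero] at h3
  refine h3.congr fun b => by ring

end Crest.Agent.R146.HilbE
end

-- ▼ part R146/HilbE1_12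

/-!
Node E (b → ∞), package P5, row 146 (helper12): comparison of the capped functional (`e = 1/b`)
with the zero temperature functional (`e = 0`), in the frame of `HilbA_356`.
-/

set_option autoImplicit false

open MeasureTheory Set Filter Topology
open scoped RealInnerProductSpace

namespace Crest.Agent.R146.HilbE

open Crest.Agent.R146.Hilb Crest.Agent.R146.ProfB_540

variable {H : Type*} [NormedAddCommGroup H] [InnerProductSpace ℝ H]

/-- the functional `α⟨x,ξ⟩ + (α c/2)‖x‖² + (α/2) Q D x + ½ ∫ (1/D - e/(1-t))` -/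
noncomputable def Je (R : Res H) [CompleteSpace H] (α c e : ℝ) (ξ x : H) (D : ℝ → ℝ) : ℝ :=
  α * ⟪x, ξ⟫ + α * c / 2 * ‖x‖ ^ 2 + α / 2 * R.Q D x
    + 1 / 2 * Ent e D

theorem cap_eq {e : ℝ} (t : ℝ) : 1 / (1 / e * (1 - t)) = e / (1 - t) := by
  rw [one_div, mul_inv, one_div, inv_inv, div_eq_mul_inv]

theorem entF_zero (D : ℝ → ℝ) : entF 0 D = fun t => 1 / D t := by
  funext t; simp only [entF, zero_div, sub_zero]

theorem entF_cap (e : ℝ) (D : ℝ → ℝ) :
    entF e D = fun t => 1 / D t - 1 / (1 / e * (1 - t)) := by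
  funext t; simp only [entF, cap_eq]

/-- truncation at the cap -/
theorem adm_cap {e : ℝ} (he : 0 < e) {D : ℝ → ℝ} (h : Adm 0 D) :
    Adm e (capD (1 / e) D) where
  prof :=
    { conc := capD_concave h.prof.conc
      anti := capD_antitone (by positivity) h.prof.anti
      cont := capD_continuous h.prof.cont
      pos := fun t ht => capD_pos (by positivity) (h.prof.pos t ht) ht.2
      one := capD_nonneg_one h.prof.one }
  cap := fun t _ => by
    have := mul_le_mul_of_nonneg_left (capD_le_cap (1 / e) D t) he.le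
    have e1 : e * (1 / e * (1 - t)) = 1 - t := by field_simp
    linarith
  int := by
    have hi : IntervalIntegrable (fun t => 1 / D t) volume 0 1 := by
      rw [← entF_zero]; exact h.int
    have := capD_integrable (b := 1 / e) (by positivity) h.prof.cont h.prof.pos hi
    rw [entF_cap]; exact this

section Complete

variable [CompleteSpace H] (R : Res H)

theorem Je_cap_le {α e : ℝ} (hα : 0 ≤ α) (he : 0 < e) (c : ℝ) (ξ x : H) {D : ℝ → ℝ}
    (h : Adm 0 D) : Je R α c e ξ x (capD (1 / e) D) ≤ Je R α c 0 ξ x D := by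
  have hi : IntervalIntegrable (fun t => 1 / D t) volume 0 1 := by
    rw [← entF_zero]; exact h.int
  have h1 := capD_integral_le (b := 1 / e) (by positivity) h.prof.cont h.prof.pos hi
  simp only [cap_eq] at h1
  have h2 : R.Q (capD (1 / e) D) x ≤ R.Q D x :=
    R.Q_mono (capD_continuous h.prof.cont) h.prof.cont (fun t _ => capD_le _ _ t) x
  have h3 := mul_le_mul_of_nonneg_left h2 (by positivity : 0 ≤ α / 2)
  unfold Je Ent entF
  simp only [zero_div, sub_zero]
  linarith

theorem adm_add {e : ℝ} (he : 0 < e) {D : ℝ → ℝ} (h : Adm e D) :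
    Adm 0 (fun t => D t + e) where
  prof :=
    { conc := h.prof.conc.add_const e
      anti := fun x hx y hy hxy => add_le_add (h.prof.anti hx hy hxy) le_rfl
      cont := h.prof.cont.add continuousOn_const
      pos := fun t ht => add_pos (h.prof.pos t ht) he
      one := by have := h.prof.one; positivity }
  cap := fun t ht => by rw [zero_mul]; linarith [ht.2]
  int := by
    have := add_integrable (b := 1 / e) (by positivity) h.prof.cont (fun t ht => h.prof.nonneg ht)
    rw [one_div_one_div] at this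
    rw [entF_zero]; exact this

theorem Je_add_le {α e : ℝ} (he : 0 < e) (he1 : e ≤ 1) (c : ℝ) (ξ x : H)
    {D : ℝ → ℝ} (h : Adm e D) :
    Je R α c 0 ξ x (fun t => D t + e) ≤
      Je R α c e ξ x D + α / 2 * e * ‖x‖ ^ 2 + 1 / 2 * (e * (1 + 2 * Real.log (1 / e))) := by
  have hb : 1 ≤ 1 / e := by rw [le_div_iff₀ he]; linarith
  have h1 := add_integral_le (b := 1 / e) hb h.prof.cont h.prof.pos h.prof.one ?_ ?_
  · rw [one_div_one_div] at h1
    simp only [cap_eq] at h1
    have e1 : (1 + 2 * Real.log (1 / e)) / (1 / e) = e * (1 + 2 * Real.log (1 / e)) := by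
      field_simp
    rw [e1] at h1
    have h2 : R.Q (fun t => D t + e) x = R.Q D x + e * ‖x‖ ^ 2 := by
      have := R.Q_add h.prof.cont (continuousOn_const : ContinuousOn (fun _ : ℝ => e) (Icc 0 1)) x
      rw [this, R.Q_const]
    unfold Je Ent entF
    rw [h2]
    simp only [zero_div, sub_zero]
    nlinarith [h1]
  · intro t ht
    have := h.cap t ht
    rw [one_div, inv_mul_eq_div, le_div_iff₀ he]
    linarith
  · rw [← entF_cap]; exact h.int

theorem adm_top {e : ℝ} (he : 0 < e) : Adm e (fun t => 1 / e * (1 - t)) where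
  prof := Prof.lin (by positivity)
  cap := fun t _ => le_of_eq (by field_simp)
  int := by
    have : entF e (fun t => 1 / e * (1 - t)) = fun _ => 0 := by
      funext t; simp only [entF, cap_eq, sub_self]
    rw [this]; exact intervalIntegrable_const

/-- a minimiser of the capped functional has norm at most `2‖ξ‖` -/
theorem norm_le_of_min {α e : ℝ} (hα : 0 < α) (he : 0 < e) (ξ x : H) {D : ℝ → ℝ}
    (h : Adm e D) (hle : Je R α 1 e ξ x D ≤ 0) : ‖x‖ ≤ 2 * ‖ξ‖ := by
  have h1 : 0 ≤ R.Q D x := R.Q_nonneg h.prof.cont (fun t ht => h.prof.nonneg ht) x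
  have h2 : 0 ≤ Ent e D := by
    have := cap_integral_nonneg (b := 1 / e) h.prof.pos (fun t ht => ?_)
    · simpa only [cap_eq, Ent, entF] using this
    · have := h.cap t ht
      rw [one_div, inv_mul_eq_div, le_div_iff₀ he]
      linarith
  have h3 : -(‖x‖ * ‖ξ‖) ≤ ⟪x, ξ⟫ := neg_le_of_abs_le (abs_real_inner_le_norm x ξ)
  unfold Je at hle
  have h4 : α * (‖x‖ ^ 2 / 2 - ‖x‖ * ‖ξ‖) ≤ 0 := by nlinarith
  have h5 : ‖x‖ ^ 2 / 2 - ‖x‖ * ‖ξ‖ ≤ 0 := by
    by_contra hcon
    push Not at hcon
    nlinarith [mul_pos hα hcon]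
  by_contra hcon
  push Not at hcon
  have hx : 0 < ‖x‖ := lt_of_le_of_lt (by positivity) hcon
  nlinarith

theorem Je_top (α c : ℝ) {e : ℝ} (ξ : H) :
    Je R α c e ξ 0 (fun t => 1 / e * (1 - t)) = 0 := by
  unfold Je Ent entF
  have : ∀ t : ℝ, 1 / (1 / e * (1 - t)) - e / (1 - t) = 0 := fun t => by rw [cap_eq, sub_self]
  simp only [this]
  simp [Res.Q]

/-- the error of node E -/
noncomputable def errE (α r e : ℝ) : ℝ :=
  2 * α * e * r ^ 2 + 1 / 2 * (e * (1 + 2 * Real.log (1 / e)))

theorem errE_tendsto (α r : ℝ) : Tendsto (errE α r) (𝓝[>] 0) (𝓝 0) := by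
  have h1 : Tendsto (fun e : ℝ => e * (1 + 2 * Real.log (1 / e))) (𝓝[>] 0) (𝓝 0) := by
    have h0 : Tendsto (fun e : ℝ => 1 / e) (𝓝[>] 0) atTop := by
      simpa using tendsto_inv_nhdsGT_zero (𝕜 := ℝ)
    have := err_tendsto.comp h0
    refine this.congr' ?_
    filter_upwards [self_mem_nhdsWithin] with e he
    have he' : (e:ℝ) ≠ 0 := ne_of_gt he
    simp only [Function.comp]
    field_simp
  have h2 : Tendsto (fun e : ℝ => 2 * α * e * r ^ 2) (𝓝[>] 0) (𝓝 0) := by
    have : Tendsto (fun e : ℝ => 2 * α * e * r ^ 2) (𝓝 0) (𝓝 (2 * α * 0 * r ^ 2)) :=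
      (by fun_prop : Continuous fun e : ℝ => 2 * α * e * r ^ 2).tendsto 0
    simp only [mul_zero, zero_mul] at this
    exact this.mono_left nhdsWithin_le_nhds
  have := h2.add (h1.const_mul (1/2))
  rw [mul_zero, add_zero] at this
  exact this

/-- NODE E, main inequality: if `(x, D)` minimises the capped functional (`c = 1`, cap `e`) over
`K ×` admissible profiles, then `(x, D + e)` is admissible for the zero temperature functional and
minimises it up to `errE α ‖ξ‖ e → 0`. -/
theorem near_min {α e : ℝ} (hα : 0 < α) (he : 0 < e) (he1 : e ≤ 1) {K : Set H} (h0 : (0:H) ∈ K)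
    (ξ x : H) {D : ℝ → ℝ} (hD : Adm e D)
    (hmin : ∀ y ∈ K, ∀ D', Adm e D' → Je R α 1 e ξ x D ≤ Je R α 1 e ξ y D') :
    ‖x‖ ≤ 2 * ‖ξ‖ ∧ Adm 0 (fun t => D t + e) ∧
      ∀ y ∈ K, ∀ D', Adm 0 D' →
        Je R α 1 0 ξ x (fun t => D t + e) ≤ Je R α 1 0 ξ y D' + errE α ‖ξ‖ e := by
  have hn : ‖x‖ ≤ 2 * ‖ξ‖ := by
    refine norm_le_of_min R hα he ξ x hD ?_
    have := hmin 0 h0 _ (adm_top he)
    rwa [Je_top] at this
  refine ⟨hn, adm_add he hD, fun y hy D' hD' => ?_⟩
  have h1 := Je_add_le R (α := α) he he1 1 ξ x hD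
  have h2 := hmin y hy _ (adm_cap he hD')
  have h3 := Je_cap_le R hα.le he 1 ξ y hD'
  have h4 : ‖x‖ ^ 2 ≤ 4 * ‖ξ‖ ^ 2 := by nlinarith [norm_nonneg x, norm_nonneg ξ]
  have h5 : α / 2 * e * ‖x‖ ^ 2 ≤ 2 * α * e * ‖ξ‖ ^ 2 := by
    have : 0 ≤ α / 2 * e := by positivity
    nlinarith [mul_le_mul_of_nonneg_left h4 this]
  unfold errE
  linarith

end Complete

end Crest.Agent.R146.HilbE
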