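import Crest.Agent.R146.ProfC_540

-- ▼ part R146/ProfD_540
section

/-!
# Lower bounds, lower semicontinuity and compactness of profiles (node B of the split 624)
-/

namespace Crest.Agent.R146.ProfD_540

open Set MeasureTheory Filter Topology
open Crest.Agent.R146.ProfA_540 Crest.Agent.R146.ProfB_540 Crest.Agent.R146.ProfC_540

section lower

variable {D E : ℝ → ℝ} {e : ℝ}

/-- `1 ≤ D 0 * ∫ 1 / D` -/
lemma one_le_zero_mul_Ent (h : Adm 0 D) : 1 ≤ D 0 * Ent 0 D := by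
  have h0 := h.prof.pos_zero
  have h1 : ∀ t ∈ Ioo (0 : ℝ) 1, (fun _ : ℝ => 1 / D 0) t ≤ entF 0 D t := fun t ht => by
    unfold entF
    have := one_div_le_one_div_of_le (h.prof.pos t (Ioo_sub_Ico ht))
      (h.prof.le_zero (Ioo_sub_Icc ht))
    simpa using this
  have h2 := integral_mono_Ioo intervalIntegrable_const h.int h1
  have h3 : 1 / D 0 ≤ Ent 0 D := by
    unfold Ent; simpa using h2
  rw [div_le_iff₀ h0] at h3
  linarith






end lower

section fatou

variable {e : ℝ}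

/-- lower semicontinuity of the entropy along sequences (pointwise convergence on `(0,1)`) -/
theorem Ent_lsc {Dn : ℕ → ℝ → ℝ} {D : ℝ → ℝ} (hn : ∀ n, Adm e (Dn n)) (hD : Prof D)
    (hlim : ∀ t ∈ Ioo (0 : ℝ) 1, Tendsto (fun n => Dn n t) atTop (𝓝 (D t)))
    {Kn : ℕ → ℝ} {K : ℝ} (hK : ∀ n, Ent e (Dn n) ≤ Kn n) (hKn : Tendsto Kn atTop (𝓝 K)) :
    Adm e D ∧ Ent e D ≤ K := by
  have hcap' : ∀ t ∈ Ioo (0 : ℝ) 1, e * D t ≤ 1 - t := fun t ht =>
    le_of_tendsto' ((hlim t ht).const_mul e) fun n => (hn n).cap t (Ioo_sub_Icc ht)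
  have hcap : ∀ t ∈ Icc (0 : ℝ) 1, e * D t ≤ 1 - t := by
    have hcl : Icc (0 : ℝ) 1 ⊆ closure (Ioo (0 : ℝ) 1) := by
      rw [closure_Ioo (zero_ne_one)]
    intro t ht
    have hc1 : ContinuousOn (fun t => e * D t) (Icc 0 1) := continuousOn_const.mul hD.cont
    have hc2 : ContinuousOn (fun t : ℝ => 1 - t) (Icc 0 1) := by fun_prop
    have hne : (𝓝[Ioo (0 : ℝ) 1] t).NeBot := mem_closure_iff_nhdsWithin_neBot.1 (hcl ht)
    have t1 : Tendsto (fun t => e * D t) (𝓝[Ioo (0 : ℝ) 1] t) (𝓝 (e * D t)) :=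
      (hc1 t ht).mono_left (nhdsWithin_mono _ Ioo_subset_Icc_self)
    have t2 : Tendsto (fun t : ℝ => 1 - t) (𝓝[Ioo (0 : ℝ) 1] t) (𝓝 (1 - t)) :=
      (hc2 t ht).mono_left (nhdsWithin_mono _ Ioo_subset_Icc_self)
    refine le_of_tendsto_of_tendsto t1 t2 ?_
    filter_upwards [self_mem_nhdsWithin] with s hs using hcap' s hs
  set μ := (volume : Measure ℝ).restrict (Ioc 0 1) with hμ
  have hpt : ∀ᵐ t ∂μ, Tendsto (fun n => entF e (Dn n) t) atTop (𝓝 (entF e D t)) :=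
    ae_Ioo fun t ht => by
      unfold entF
      have h1 := hD.pos t (Ioo_sub_Ico ht)
      exact (tendsto_const_nhds.div (hlim t ht) h1.ne').sub tendsto_const_nhds
  have hnn : ∀ n, 0 ≤ᵐ[μ] entF e (Dn n) := fun n =>
    ae_Ioo fun t ht => entF_nonneg (hn n).prof (hn n).cap (Ioo_sub_Ico ht)
  have hnnD : 0 ≤ᵐ[μ] entF e D := ae_Ioo fun t ht => entF_nonneg hD hcap (Ioo_sub_Ico ht)
  have hintn : ∀ n, Integrable (entF e (Dn n)) μ := fun n => intervalIntegrable_iff'.1 (hn n).int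
  have hmeasD : AEStronglyMeasurable (entF e D) μ := by
    rw [hμ, ProfC_540.restrict_eq]
    exact ((continuousOn_entF hD e).mono Ioo_subset_Ico_self).aestronglyMeasurable
      measurableSet_Ioo
  have hl : ∫⁻ t, ENNReal.ofReal (entF e D t) ∂μ ≤ ENNReal.ofReal K := by
    have h1 : ∀ᵐ t ∂μ, ENNReal.ofReal (entF e D t)
        = liminf (fun n => ENNReal.ofReal (entF e (Dn n) t)) atTop := by
      filter_upwards [hpt] with t ht
      exact ((ENNReal.continuous_ofReal.tendsto _).comp ht).liminf_eq.symm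
    rw [lintegral_congr_ae h1]
    refine (lintegral_liminf_le' fun n => (hintn n).1.aemeasurable.ennreal_ofReal).trans ?_
    have h2 : ∀ n, ∫⁻ t, ENNReal.ofReal (entF e (Dn n) t) ∂μ ≤ ENNReal.ofReal (Kn n) := by
      intro n
      rw [← ofReal_integral_eq_lintegral_ofReal (hintn n) (hnn n)]
      refine ENNReal.ofReal_le_ofReal ?_
      have := hK n
      unfold Ent at this
      rwa [ProfC_540.integral_eq] at this
    refine (liminf_le_liminf (Eventually.of_forall h2)).trans ?_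
    exact ((ENNReal.continuous_ofReal.tendsto _).comp hKn).liminf_eq.le
  have hI : Integrable (entF e D) μ :=
    ⟨hmeasD, by
      rw [hasFiniteIntegral_iff_ofReal hnnD]
      exact hl.trans_lt ENNReal.ofReal_lt_top⟩
  have hK0 : 0 ≤ K := ge_of_tendsto' hKn fun n => (Ent_nonneg (hn n)).trans (hK n)
  refine ⟨⟨hD, hcap, intervalIntegrable_iff'.2 hI⟩, ?_⟩
  unfold Ent
  rw [ProfC_540.integral_eq, integral_eq_lintegral_of_nonneg_ae hnnD hmeasD]
  exact ENNReal.toReal_le_of_le_ofReal hK0 hl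

end fatou

section limit

/-- data of a limit: concave, antitone, positive on `[0,1)` -/
lemma exists_prof {F : ℝ → ℝ} (hc : ConcaveOn ℝ (Ico 0 1) F) (ha : AntitoneOn F (Ico 0 1))
    (hp : ∀ t ∈ Ico (0 : ℝ) 1, 0 < F t)
    (hl : ∀ s t, 0 ≤ s → s ≤ t → t < 1 → F s - F t ≤ (t - s) * (F t / (1 - t))) :
    ∃ D : ℝ → ℝ, Prof D ∧ ∀ t ∈ Ico (0 : ℝ) 1, D t = F t := by
  -- left limit at 1
  have hbdd : BddBelow (F '' Ico 0 1) := ⟨0, by rintro _ ⟨t, ht, rfl⟩; exact (hp t ht).le⟩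
  have hne : (F '' Ico (0 : ℝ) 1).Nonempty := ⟨F 0, 0, ⟨le_rfl, zero_lt_one⟩, rfl⟩
  set d := sInf (F '' Ico 0 1) with hd
  have hd0 : 0 ≤ d := le_csInf hne (by rintro _ ⟨t, ht, rfl⟩; exact (hp t ht).le)
  have hdle : ∀ t ∈ Ico (0 : ℝ) 1, d ≤ F t := fun t ht => csInf_le hbdd ⟨t, ht, rfl⟩
  have hlim : Tendsto F (𝓝[<] 1) (𝓝 d) := by
    rw [tendsto_order]
    constructor
    · intro a had
      have : ∀ᶠ t in 𝓝[<] (1 : ℝ), t ∈ Ico (0 : ℝ) 1 := Ico_mem_nhdsLT zero_lt_one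
      filter_upwards [this] with t ht using had.trans_le (hdle t ht)
    · intro a had
      obtain ⟨_, ⟨s, hs, rfl⟩, hsa⟩ := exists_lt_of_csInf_lt hne had
      have : ∀ᶠ t in 𝓝[<] (1 : ℝ), t ∈ Ico s 1 := Ico_mem_nhdsLT hs.2
      filter_upwards [this] with t ht
      exact (ha hs ⟨hs.1.trans ht.1, ht.2⟩ ht.1).trans_lt hsa
  classical
  set D : ℝ → ℝ := fun t => if t < 1 then F t else d with hD
  have hDF : ∀ t, t < 1 → D t = F t := fun t ht => by simp [hD, ht]
  have hD1 : D 1 = d := by simp [hD]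
  have hlimD : Tendsto D (𝓝[<] 1) (𝓝 (D 1)) := by
    rw [hD1]
    refine hlim.congr' ?_
    filter_upwards [self_mem_nhdsWithin] with t ht using (hDF t ht).symm
  -- continuity on `[0,1)`
  have hFc : ContinuousOn F (Ico 0 1) := by
    intro s hs
    have hT : s < (s + 1) / 2 := by linarith [hs.2]
    have hT1 : (s + 1) / 2 < 1 := by linarith [hs.2]
    set T := (s + 1) / 2 with hTdef
    have hT0 : 0 ≤ T := hs.1.trans hT.le
    have key : ∀ u ∈ Icc 0 T, ∀ v ∈ Icc 0 T, |F u - F v| ≤ (F 0 / (1 - T)) * |u - v| := by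
      have key1 : ∀ u ∈ Icc 0 T, ∀ v ∈ Icc 0 T, u ≤ v → |F u - F v| ≤ (F 0 / (1 - T)) * |u - v| := by
        intro u hu v hv huv
        have hv1 : v < 1 := hv.2.trans_lt hT1
        have h1 := hl u v hu.1 huv hv1
        have h2 : F v ≤ F u := ha ⟨hu.1, hu.2.trans_lt hT1⟩ ⟨hv.1, hv1⟩ huv
        rw [abs_of_nonneg (sub_nonneg.2 h2), abs_of_nonpos (by linarith)]
        have h3 : F v ≤ F 0 := ha ⟨le_rfl, zero_lt_one⟩ ⟨hv.1, hv1⟩ hv.1
        have h4 : F v / (1 - v) ≤ F 0 / (1 - T) := by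
          have := hp v ⟨hv.1, hv1⟩
          have := hp 0 ⟨le_rfl, zero_lt_one⟩
          have h6 : 0 < 1 - T := by linarith
          have h7 : 1 - T ≤ 1 - v := by linarith [hv.2]
          gcongr
        have h5 : 0 ≤ v - u := by linarith
        nlinarith
      intro u hu v hv
      rcases le_total u v with h | h
      · exact key1 u hu v hv h
      · rw [abs_sub_comm, abs_sub_comm u v]; exact key1 v hv u hu h
    have hLip : ContinuousOn F (Icc 0 T) := by
      have hpos : 0 ≤ F 0 / (1 - T) := by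
        have := hp 0 ⟨le_rfl, zero_lt_one⟩
        have : 0 < 1 - T := by linarith
        positivity
      refine (LipschitzOnWith.of_dist_le_mul (K := ⟨F 0 / (1 - T), hpos⟩) ?_).continuousOn
      intro u hu v hv
      rw [Real.dist_eq, Real.dist_eq]
      exact key u hu v hv
    have hsI : s ∈ Icc 0 T := ⟨hs.1, hT.le⟩
    refine (hLip s hsI).mono_of_mem_nhdsWithin ?_
    rw [mem_nhdsWithin]
    refine ⟨Iio T, isOpen_Iio, hT, ?_⟩
    rintro x ⟨hx1, hx2⟩
    exact ⟨hx2.1, le_of_lt hx1⟩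
  have hcont : ContinuousOn D (Icc 0 1) := by
    intro t ht
    rcases eq_or_lt_of_le ht.2 with h1 | h1
    · rw [h1]
      have h2 : ContinuousWithinAt D (Iio 1) 1 := hlimD
      have h3 : ContinuousWithinAt D (Iic 1) 1 := by
        rw [← Iio_insert]
        exact h2.insert
      exact h3.mono fun x hx => hx.2
    · have h2 : ContinuousWithinAt F (Icc 0 1) t := by
        refine (hFc t ⟨ht.1, h1⟩).mono_of_mem_nhdsWithin ?_
        rw [mem_nhdsWithin]
        exact ⟨Iio 1, isOpen_Iio, h1, fun x hx => ⟨hx.2.1, hx.1⟩⟩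
      refine h2.congr_of_eventuallyEq ?_ (hDF t h1)
      have : Iio (1 : ℝ) ∈ 𝓝[Icc 0 1] t := mem_nhdsWithin_of_mem_nhds (isOpen_Iio.mem_nhds h1)
      filter_upwards [this] with x hx using hDF x hx
  have hconcF : ConcaveOn ℝ (Ico 0 1) D := hc.congr fun t ht => (hDF t ht.2).symm
  have hconc : ConcaveOn ℝ (Icc 0 1) D := by
    have hcl : Icc (0 : ℝ) 1 ⊆ closure (Ico (0 : ℝ) 1) := by rw [closure_Ico (zero_ne_one)]
    refine ⟨convex_Icc 0 1, fun x hx y hy a b ha' hb' hab => ?_⟩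
    -- approximate `x` and `y` from inside
    have hseq : ∀ z ∈ Icc (0 : ℝ) 1, Tendsto (fun n : ℕ => (1 - 1 / ((n : ℝ) + 1)) * z) atTop (𝓝 z) := by
      intro z _
      have h1 : Tendsto (fun n : ℕ => 1 / ((n : ℝ) + 1)) atTop (𝓝 0) :=
        tendsto_one_div_add_atTop_nhds_zero_nat
      have h2 : Tendsto (fun n : ℕ => (1 - 1 / ((n : ℝ) + 1)) * z) atTop (𝓝 ((1 - 0) * z)) :=
        (tendsto_const_nhds.sub h1).mul_const z
      simpa using h2
    have hmem : ∀ z ∈ Icc (0 : ℝ) 1, ∀ n : ℕ, (1 - 1 / ((n : ℝ) + 1)) * z ∈ Ico (0 : ℝ) 1 := by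
      intro z hz n
      have h1 : (0 : ℝ) < 1 / ((n : ℝ) + 1) := by positivity
      have h2 : 1 / ((n : ℝ) + 1) ≤ 1 := by
        rw [div_le_one (by positivity)]
        have : (0 : ℝ) ≤ n := Nat.cast_nonneg n
        linarith
      constructor
      · exact mul_nonneg (by linarith) hz.1
      · nlinarith [hz.1, hz.2]
    have hDt : ∀ z ∈ Icc (0 : ℝ) 1,
        Tendsto (fun n : ℕ => D ((1 - 1 / ((n : ℝ) + 1)) * z)) atTop (𝓝 (D z)) := by
      intro z hz
      refine (hcont z hz).tendsto.comp ?_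
      rw [tendsto_nhdsWithin_iff]
      exact ⟨hseq z hz, Eventually.of_forall fun n => Ico_subset_Icc_self (hmem z hz n)⟩
    have hz : a • x + b • y ∈ Icc (0 : ℝ) 1 := convex_Icc 0 1 hx hy ha' hb' hab
    have t1 := ((hDt x hx).const_mul a).add ((hDt y hy).const_mul b)
    have t2 := hDt _ hz
    refine le_of_tendsto_of_tendsto' t1 t2 fun n => ?_
    have h1 := hconcF.2 (hmem x hx n) (hmem y hy n) ha' hb' hab
    have e1 : a • ((1 - 1 / ((n : ℝ) + 1)) * x) + b • ((1 - 1 / ((n : ℝ) + 1)) * y)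
        = (1 - 1 / ((n : ℝ) + 1)) * (a • x + b • y) := by
      simp only [smul_eq_mul]; ring
    rw [e1] at h1
    exact h1
  refine ⟨D, ⟨hconc, ?_, hcont, fun t ht => ?_, ?_⟩, fun t ht => hDF t ht.2⟩
  · intro s hs t ht hst
    rcases eq_or_lt_of_le ht.2 with h1 | h1
    · rcases eq_or_lt_of_le hs.2 with h2 | h2
      · rw [h1, h2]
      · rw [h1, hD1, hDF s h2]; exact hdle s ⟨hs.1, h2⟩
    · have h2 : s < 1 := hst.trans_lt h1
      rw [hDF t h1, hDF s h2]
      exact ha ⟨hs.1, h2⟩ ⟨ht.1, h1⟩ hst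
  · rw [hDF t ht.2]; exact hp t ht
  · rw [hD1]; exact hd0

/-- pointwise limits (along any filter) of profiles bounded below by `c (1 - t)` are profiles -/
theorem prof_of_tendsto {ι : Type*} {l : Filter ι} [l.NeBot] {Dn : ι → ℝ → ℝ} {F : ℝ → ℝ}
    (hn : ∀ᶠ i in l, Prof (Dn i)) {c : ℝ} (hc : 0 < c)
    (hlow : ∀ᶠ i in l, c ≤ Dn i 0)
    (hlim : ∀ t ∈ Ico (0 : ℝ) 1, Tendsto (fun i => Dn i t) l (𝓝 (F t))) :
    ∃ D : ℝ → ℝ, Prof D ∧ ∀ t ∈ Ico (0 : ℝ) 1, D t = F t := by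
  refine exists_prof ?_ ?_ ?_ ?_
  · refine ⟨convex_Ico 0 1, fun x hx y hy a b ha hb hab => ?_⟩
    have hz : a • x + b • y ∈ Ico (0 : ℝ) 1 := convex_Ico 0 1 hx hy ha hb hab
    refine le_of_tendsto_of_tendsto (((hlim x hx).const_mul a).add ((hlim y hy).const_mul b))
      (hlim _ hz) ?_
    filter_upwards [hn] with i hi
    exact hi.conc.2 (Ico_subset_Icc_self hx) (Ico_subset_Icc_self hy) ha hb hab
  · intro s hs t ht hst
    refine le_of_tendsto_of_tendsto (hlim t ht) (hlim s hs) ?_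
    filter_upwards [hn] with i hi
    exact hi.anti (Ico_subset_Icc_self hs) (Ico_subset_Icc_self ht) hst
  · intro t ht
    have h1 : 0 < (1 - t) * c := mul_pos (sub_pos.2 ht.2) hc
    refine h1.trans_le (ge_of_tendsto (hlim t ht) ?_)
    filter_upwards [hn, hlow] with i hi hci
    have h2 := hi.lower (Ico_subset_Icc_self ht)
    have h3 : 0 ≤ 1 - t := by linarith [ht.2]
    nlinarith
  · intro s t hs hst ht
    have hs' : s ∈ Ico (0 : ℝ) 1 := ⟨hs, hst.trans_lt ht⟩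
    have ht' : t ∈ Ico (0 : ℝ) 1 := ⟨hs.trans hst, ht⟩
    refine le_of_tendsto_of_tendsto ((hlim s hs').sub (hlim t ht'))
      (((hlim t ht').div_const (1 - t)).const_mul (t - s)) ?_
    filter_upwards [hn] with i hi
    exact hi.sub_le hs hst ht

end limit

end Crest.Agent.R146.ProfD_540
end

-- ▼ part R146/ProfE_540

/-!
# `L²`-Cauchy sequences of profiles, Helly selection (node B of the split 624)
-/

namespace Crest.Agent.R146.ProfE_540

open Set MeasureTheory Filter Topology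
open Crest.Agent.R146.ProfA_540 Crest.Agent.R146.ProfB_540 Crest.Agent.R146.ProfC_540
open Crest.Agent.R146.ProfD_540

section dist

variable {D E : ℝ → ℝ}

lemma sq_integrable (h : Prof D) (k : Prof E) :
    IntervalIntegrable (fun t => (D t - E t) ^ 2) volume 0 1 := by
  refine ContinuousOn.intervalIntegrable ?_
  rw [uIcc_of_le zero_le_one]
  exact (h.cont.sub k.cont).pow 2

/-- `L²` controls the values: `|D s - E s|³ (1 - s) ≤ 16 C ∫ (D - E)²` -/
theorem cube_le (h : Prof D) (k : Prof E) {C : ℝ} (hC : D 0 ≤ C) (kC : E 0 ≤ C) {s : ℝ}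
    (hs : s ∈ Ico (0 : ℝ) 1) :
    |D s - E s| ^ 3 * (1 - s) ≤ 16 * C * ∫ t in (0 : ℝ)..1, (D t - E t) ^ 2 := by
  have hCp : 0 < C := h.pos_zero.trans_le hC
  set δ := |D s - E s| with hδ
  have hδ0 : 0 ≤ δ := abs_nonneg _
  have h1s : 0 < 1 - s := sub_pos.2 hs.2
  have hsI : s ∈ Icc (0 : ℝ) 1 := Ico_subset_Icc_self hs
  have hδC : δ ≤ C := by
    have a1 := h.nonneg hsI
    have a2 := k.nonneg hsI
    have a3 := (h.le_zero hsI).trans hC
    have a4 := (k.le_zero hsI).trans kC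
    rw [hδ, abs_le]; constructor <;> linarith
  rcases eq_or_lt_of_le hδ0 with h0 | h0
  · rw [← h0]
    have : 0 ≤ ∫ t in (0 : ℝ)..1, (D t - E t) ^ 2 := integral_nonneg_Ioo fun t _ => sq_nonneg _
    have : 0 ≤ 16 * C * ∫ t in (0 : ℝ)..1, (D t - E t) ^ 2 := by positivity
    simpa using this
  -- length of the interval
  set η := δ * (1 - s) / (4 * C) with hη
  have hη0 : 0 < η := by positivity
  have hη1 : η ≤ (1 - s) / 4 := by
    rw [hη, div_le_div_iff₀ (by positivity) (by norm_num)]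
    nlinarith
  have hkey : ∀ t ∈ Ioo s (s + η), δ / 2 ≤ |D t - E t| := by
    intro t ht
    have ht1 : t < 1 := by linarith [ht.2]
    have b1 := h.sub_le hs.1 ht.1.le ht1
    have b2 := k.sub_le hs.1 ht.1.le ht1
    have b3 := h.sub_nonneg' hs.1 ht.1.le ht1.le
    have b4 := k.sub_nonneg' hs.1 ht.1.le ht1.le
    have h1t : 0 < 1 - t := by linarith
    have htI : t ∈ Icc (0 : ℝ) 1 := ⟨hs.1.trans ht.1.le, ht1.le⟩
    have c1 : ∀ F : ℝ → ℝ, Prof F → F 0 ≤ C → (t - s) * (F t / (1 - t)) ≤ δ / 2 := by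
      intro F hF hFC
      have d1 : F t ≤ C := (hF.le_zero htI).trans hFC
      have d2 : (1 - s) / 2 ≤ 1 - t := by linarith [ht.2]
      have d0 := hF.nonneg htI
      have d3 : F t / (1 - t) ≤ C / ((1 - s) / 2) := by
        gcongr
      have d4 : 0 ≤ t - s := by linarith [ht.1]
      have d5 : t - s ≤ η := by linarith [ht.2]
      have d6 : 0 ≤ F t / (1 - t) := by positivity
      calc (t - s) * (F t / (1 - t)) ≤ η * (C / ((1 - s) / 2)) :=
            mul_le_mul d5 d3 d6 hη0.le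
        _ = δ / 2 := by rw [hη]; field_simp; ring
    have e1 := c1 D h hC
    have e2 := c1 E k kC
    -- |(D s - E s) - (D t - E t)| ≤ δ / 2
    have f1 : |(D s - E s) - (D t - E t)| ≤ δ / 2 := by
      rw [abs_le]; constructor <;> linarith
    have f2 := abs_sub_abs_le_abs_sub (D s - E s) (D t - E t)
    rw [← hδ] at f2
    linarith
  have hsub : Ioo s (s + η) ⊆ Ioc (0 : ℝ) 1 := fun t ht =>
    ⟨hs.1.trans_lt ht.1, by linarith [ht.2]⟩
  have h1 : ∀ t ∈ Ioo (0 : ℝ) 1,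
      (Ioo s (s + η)).indicator (fun _ => (δ / 2) ^ 2) t ≤ (D t - E t) ^ 2 := by
    intro t _
    by_cases ht : t ∈ Ioo s (s + η)
    · rw [indicator_of_mem ht, ← sq_abs (D t - E t)]
      have := hkey t ht
      gcongr
    · rw [indicator_of_notMem ht]; positivity
  have hint : IntervalIntegrable ((Ioo s (s + η)).indicator (fun _ => (δ / 2) ^ 2)) volume 0 1 := by
    rw [intervalIntegrable_iff']
    exact (integrable_const _).indicator measurableSet_Ioo
  have h2 := integral_mono_Ioo hint (sq_integrable h k) h1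
  have h3 : ∫ t in (0 : ℝ)..1, (Ioo s (s + η)).indicator (fun _ => (δ / 2) ^ 2) t
      = η * (δ / 2) ^ 2 := by
    rw [ProfC_540.integral_eq, integral_indicator measurableSet_Ioo,
      Measure.restrict_restrict measurableSet_Ioo, inter_eq_left.2 hsub, setIntegral_const,
      Measure.real, Real.volume_Ioo, smul_eq_mul, add_sub_cancel_left,
      ENNReal.toReal_ofReal hη0.le]
  rw [h3] at h2
  have h4 : η * (δ / 2) ^ 2 = δ ^ 3 * (1 - s) / (16 * C) := by rw [hη]; field_simp; ring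
  rw [h4, div_le_iff₀ (by positivity)] at h2
  linarith

lemma cube_root_bound {a b : ℝ} (hb : 0 < b) (h : a ^ 3 ≤ b ^ 3) : a ≤ b := by
  by_contra hc
  push Not at hc
  have : b ^ 3 < a ^ 3 := by gcongr
  linarith

end dist

/-- an `L²`-Cauchy family of bounded profiles converges locally uniformly on `[0,1)`; the limit is
a profile as soon as the values at `0` stay away from `0`. -/
theorem tendsto_of_cauchy {Dn : ℕ → ℝ → ℝ} (hn : ∀ n, Prof (Dn n)) {C c : ℝ} (hC : ∀ n, Dn n 0 ≤ C)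
    (hc : 0 < c) (hlow : ∀ n, c ≤ Dn n 0)
    (hcau : ∀ ε > 0, ∃ N, ∀ m ≥ N, ∀ n ≥ N, ∫ t in (0 : ℝ)..1, (Dn m t - Dn n t) ^ 2 ≤ ε) :
    ∃ D : ℝ → ℝ, Prof D ∧ (∀ t ∈ Ico (0 : ℝ) 1, Tendsto (fun n => Dn n t) atTop (𝓝 (D t))) ∧
      ∀ T < (1 : ℝ), TendstoUniformlyOn Dn D atTop (Icc 0 T) := by
  have hCp : 0 < C := (hn 0).pos_zero.trans_le (hC 0)
  -- uniform Cauchy on `[0,T]`
  have hU : ∀ T < (1 : ℝ), ∀ ε > 0, ∃ N, ∀ m ≥ N, ∀ n ≥ N, ∀ s ∈ Icc 0 T,
      |Dn m s - Dn n s| ≤ ε := by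
    intro T hT ε hε
    have hT' : 0 < 1 - T := by linarith
    obtain ⟨N, hN⟩ := hcau (ε ^ 3 * (1 - T) / (16 * C)) (by positivity)
    refine ⟨N, fun m hm n hn' s hs => ?_⟩
    have h1 := cube_le (hn m) (hn n) (hC m) (hC n) (s := s) ⟨hs.1, hs.2.trans_lt hT⟩
    have h2 := hN m hm n hn'
    have h3 : |Dn m s - Dn n s| ^ 3 * (1 - T) ≤ ε ^ 3 * (1 - T) := by
      calc |Dn m s - Dn n s| ^ 3 * (1 - T) ≤ |Dn m s - Dn n s| ^ 3 * (1 - s) := by
            have := hs.2
            gcongr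
        _ ≤ 16 * C * ∫ t in (0 : ℝ)..1, (Dn m t - Dn n t) ^ 2 := h1
        _ ≤ 16 * C * (ε ^ 3 * (1 - T) / (16 * C)) := by gcongr
        _ = ε ^ 3 * (1 - T) := by field_simp
    have h4 : |Dn m s - Dn n s| ^ 3 ≤ ε ^ 3 := le_of_mul_le_mul_right h3 hT'
    exact cube_root_bound hε h4
  have hpt : ∀ t ∈ Ico (0 : ℝ) 1, ∃ x, Tendsto (fun n => Dn n t) atTop (𝓝 x) := by
    intro t ht
    refine cauchySeq_tendsto_of_complete ?_
    rw [Metric.cauchySeq_iff]
    intro ε hε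
    obtain ⟨N, hN⟩ := hU t ht.2 (ε / 2) (by positivity)
    refine ⟨N, fun m hm n hn' => ?_⟩
    rw [Real.dist_eq]
    have := hN m hm n hn' t ⟨ht.1, le_rfl⟩
    linarith
  choose! F hF using hpt
  obtain ⟨D, hD, hDF⟩ := prof_of_tendsto (l := atTop) (Eventually.of_forall hn) hc
    (Eventually.of_forall hlow) hF
  have hlim : ∀ t ∈ Ico (0 : ℝ) 1, Tendsto (fun n => Dn n t) atTop (𝓝 (D t)) := fun t ht => by
    rw [hDF t ht]; exact hF t ht
  refine ⟨D, hD, hlim, fun T hT => ?_⟩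
  rw [Metric.tendstoUniformlyOn_iff]
  intro ε hε
  obtain ⟨N, hN⟩ := hU T hT (ε / 2) (by positivity)
  filter_upwards [eventually_ge_atTop N] with n hn' s hs
  have h1 : Tendsto (fun m => |Dn m s - Dn n s|) atTop (𝓝 |D s - Dn n s|) :=
    ((hlim s ⟨hs.1, hs.2.trans_lt hT⟩).sub tendsto_const_nhds).abs
  have h2 : |D s - Dn n s| ≤ ε / 2 := by
    refine le_of_tendsto h1 ?_
    filter_upwards [eventually_ge_atTop N] with m hm using hN m hm n hn' s hs
  rw [Real.dist_eq]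
  linarith






end Crest.Agent.R146.ProfE_540
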