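import Mathlib
import Crest.Agent.R146.HilbB_356
import Crest.Agent.R146.HilbE1_12
import Crest.Agent.R146.ProfC_540
import Crest.Agent.R146.ProfE_540

-- ▼ part R146/NormF0_491
section

/-!
Row 146, package P5, node F (helper491).  Pure Hilbert-space part:
minimisation of a continuous convex function plus half the squared norm on a closed convex set,
and the penalty family used for the passage to the critical density.
-/

set_option autoImplicit false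

namespace Crest.Agent.R146.NormF0_491

open Filter Topology Set
open scoped InnerProductSpace

variable {H : Type*} [NormedAddCommGroup H] [InnerProductSpace ℝ H]

/-- Exact convexity identity for half the squared norm. -/
lemma sq_comb (x y : H) (t : ℝ) :
    (1 / 2 : ℝ) * ‖(1 - t) • x + t • y‖ ^ 2 =
      (1 - t) * ((1 / 2 : ℝ) * ‖x‖ ^ 2) + t * ((1 / 2 : ℝ) * ‖y‖ ^ 2)
        - (1 / 2 : ℝ) * t * (1 - t) * ‖y - x‖ ^ 2 := by
  have h1 : ‖(1 - t) • x + t • y‖ ^ 2 =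
      (1 - t) ^ 2 * ‖x‖ ^ 2 + 2 * ((1 - t) * t * ⟪x, y⟫_ℝ) + t ^ 2 * ‖y‖ ^ 2 := by
    rw [norm_add_sq_real, norm_smul, norm_smul, inner_smul_left, inner_smul_right]
    simp only [Real.norm_eq_abs, mul_pow, sq_abs, conj_trivial]
    ring
  have h2 : ‖y - x‖ ^ 2 = ‖y‖ ^ 2 - 2 * ⟪y, x⟫_ℝ + ‖x‖ ^ 2 := norm_sub_sq_real y x
  rw [h1, h2, real_inner_comm x y]
  ring

/-- Existence of the minimiser of `G + ½‖·‖²` on a closed convex set, with the quadratic growth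
inequality (which contains uniqueness). -/
theorem exists_min [CompleteSpace H] {K : Set H} (hKc : IsClosed K) (hKne : K.Nonempty)
    {G : H → ℝ} (hG : ConvexOn ℝ K G) (hGc : ContinuousOn G K)
    (hb : BddBelow ((fun x => G x + (1 / 2 : ℝ) * ‖x‖ ^ 2) '' K)) :
    ∃ x ∈ K, ∀ y ∈ K, G x + (1 / 2 : ℝ) * ‖x‖ ^ 2 + (1 / 2 : ℝ) * ‖y - x‖ ^ 2
      ≤ G y + (1 / 2 : ℝ) * ‖y‖ ^ 2 := by
  classical
  set F : H → ℝ := fun x => G x + (1 / 2 : ℝ) * ‖x‖ ^ 2 with hF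
  set m : ℝ := sInf (F '' K) with hm
  have hmle : ∀ y ∈ K, m ≤ F y := fun y hy => csInf_le hb (mem_image_of_mem F hy)
  have hcomb : ∀ x ∈ K, ∀ y ∈ K, ∀ t : ℝ, 0 ≤ t → t ≤ 1 →
      F ((1 - t) • x + t • y) ≤ (1 - t) * F x + t * F y
        - (1 / 2 : ℝ) * t * (1 - t) * ‖y - x‖ ^ 2 := by
    intro x hx y hy t ht0 ht1
    have h1 := hG.2 hx hy (sub_nonneg.2 ht1) ht0 (by ring)
    simp only [smul_eq_mul] at h1
    have h2 := sq_comb x y t
    simp only [hF]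
    rw [h2]
    nlinarith [h1]
  -- minimising sequence
  have hex : ∀ n : ℕ, ∃ x ∈ K, F x < m + 1 / ((n : ℝ) + 1) := by
    intro n
    have hlt : m < m + 1 / ((n : ℝ) + 1) := by
      have : (0 : ℝ) < 1 / ((n : ℝ) + 1) := by positivity
      linarith
    obtain ⟨_, ⟨x, hx, rfl⟩, hlt2⟩ := exists_lt_of_csInf_lt (hKne.image F) hlt
    exact ⟨x, hx, hlt2⟩
  choose u huK hu using hex
  have hdist : ∀ a b : ℕ, ‖u b - u a‖ ^ 2 ≤ 4 * (1 / ((a : ℝ) + 1) + 1 / ((b : ℝ) + 1)) := by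
    intro a b
    have h1 := hcomb (u a) (huK a) (u b) (huK b) (1 / 2) (by norm_num) (by norm_num)
    have hmem : (1 - (1 / 2 : ℝ)) • u a + (1 / 2 : ℝ) • u b ∈ K :=
      hG.1 (huK a) (huK b) (by norm_num) (by norm_num) (by norm_num)
    have h2 := hmle _ hmem
    have h3 := hu a
    have h4 := hu b
    nlinarith
  have hcau : CauchySeq u := by
    rw [Metric.cauchySeq_iff']
    intro ε hε
    obtain ⟨n, hn⟩ := exists_nat_one_div_lt (show (0 : ℝ) < ε ^ 2 / 8 by positivity)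
    refine ⟨n, fun k hk => ?_⟩
    have h1 := hdist n k
    have h2 : 1 / ((k : ℝ) + 1) ≤ 1 / ((n : ℝ) + 1) := by
      apply one_div_le_one_div_of_le (by positivity)
      have : (n : ℝ) ≤ k := by exact_mod_cast hk
      linarith
    have h3 : ‖u k - u n‖ ^ 2 < ε ^ 2 := by
      calc ‖u k - u n‖ ^ 2 ≤ 4 * (1 / ((n : ℝ) + 1) + 1 / ((k : ℝ) + 1)) := h1
        _ ≤ 8 * (1 / ((n : ℝ) + 1)) := by linarith
        _ < ε ^ 2 := by linarith
    rw [dist_eq_norm]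
    exact lt_of_pow_lt_pow_left₀ 2 hε.le h3
  obtain ⟨x, hx⟩ := cauchySeq_tendsto_of_complete hcau
  have hxK : x ∈ K := hKc.mem_of_tendsto hx (Eventually.of_forall huK)
  have hFx : F x ≤ m := by
    have hc : ContinuousOn F K := by
      apply hGc.add
      exact (continuous_const.mul ((continuous_norm).pow 2)).continuousOn
    have h1 : Tendsto (fun n => F (u n)) atTop (𝓝 (F x)) := by
      have := (hc x hxK).tendsto
      exact this.comp (tendsto_nhdsWithin_iff.2 ⟨hx, Eventually.of_forall huK⟩)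
    have h2 : Tendsto (fun n : ℕ => m + 1 / ((n : ℝ) + 1)) atTop (𝓝 (m + 0)) :=
      tendsto_const_nhds.add tendsto_one_div_add_atTop_nhds_zero_nat
    rw [add_zero] at h2
    exact le_of_tendsto_of_tendsto' h1 h2 (fun n => (hu n).le)
  refine ⟨x, hxK, fun y hy => ?_⟩
  -- growth inequality
  have hgr : ∀ t : ℝ, 0 < t → t ≤ 1 → F x + (1 / 2 : ℝ) * (1 - t) * ‖y - x‖ ^ 2 ≤ F y := by
    intro t ht0 ht1
    have h1 := hcomb x hxK y hy t ht0.le ht1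
    have hmem : (1 - t) • x + t • y ∈ K := hG.1 hxK hy (sub_nonneg.2 ht1) ht0.le (by ring)
    have h2 := (hFx.trans (hmle _ hmem))
    have h3 : t * (F x + (1 / 2 : ℝ) * (1 - t) * ‖y - x‖ ^ 2) ≤ t * F y := by nlinarith
    exact le_of_mul_le_mul_left h3 ht0
  have hlim : Tendsto (fun t : ℝ => F x + (1 / 2 : ℝ) * (1 - t) * ‖y - x‖ ^ 2) (𝓝[>] 0)
      (𝓝 (F x + (1 / 2 : ℝ) * (1 - 0) * ‖y - x‖ ^ 2)) := by
    apply Tendsto.mono_left _ nhdsWithin_le_nhds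
    have : Continuous (fun t : ℝ => F x + (1 / 2 : ℝ) * (1 - t) * ‖y - x‖ ^ 2) := by fun_prop
    exact this.tendsto 0
  have h5 := le_of_tendsto hlim (by
    filter_upwards [Ioc_mem_nhdsGT (show (0 : ℝ) < 1 by norm_num)] with t ht
    exact hgr t ht.1 ht.2)
  simpa [hF] using h5

end Crest.Agent.R146.NormF0_491
end

-- ▼ part R146/NormF1_491
section

/-!
Row 146, package P5, node F (helper491).  The penalty family: for a sublinear continuous `N`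
(the reduced norm) and `g x = ⟪x,ξ⟫ + κ N x ≥ 0` on a closed convex cone, the minimisers `Y ε` of
`ε⁻¹ (⟪y,ξ⟫ + (κ - ε) N y) + ½‖y‖²` converge strongly as `ε ↓ 0`.
-/

set_option autoImplicit false

namespace Crest.Agent.R146.NormF1_491

open Filter Topology Set
open scoped InnerProductSpace
open Crest.Agent.R146.NormF0_491

variable {H : Type*} [NormedAddCommGroup H] [InnerProductSpace ℝ H]

/-- A closed convex cone, as a set. -/
structure ClCone (K : Set H) : Prop where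
  closed : IsClosed K
  zero : (0 : H) ∈ K
  smul : ∀ t : ℝ, 0 ≤ t → ∀ x ∈ K, t • x ∈ K
  add : ∀ x ∈ K, ∀ y ∈ K, x + y ∈ K

lemma ClCone.convex {K : Set H} (hK : ClCone K) : Convex ℝ K := by
  intro x hx y hy a b ha hb _
  exact hK.add _ (hK.smul a ha x hx) _ (hK.smul b hb y hy)

/-- A continuous sublinear functional bounded by the norm. -/
structure SubLin (N : H → ℝ) : Prop where
  smul : ∀ t : ℝ, 0 ≤ t → ∀ x, N (t • x) = t * N x
  add : ∀ x y, N (x + y) ≤ N x + N y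
  le : ∀ x, N x ≤ ‖x‖

lemma SubLin.lip {N : H → ℝ} (hN : SubLin N) (x y : H) : |N x - N y| ≤ ‖x - y‖ := by
  have h1 : N x ≤ N y + ‖x - y‖ := by
    have := hN.add y (x - y)
    have h2 := hN.le (x - y)
    simp only [add_sub_cancel] at this
    linarith
  have h2 : N y ≤ N x + ‖x - y‖ := by
    have := hN.add x (y - x)
    have h2 := hN.le (y - x)
    rw [norm_sub_rev] at h2
    simp only [add_sub_cancel] at this
    linarith
  rw [abs_le]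
  constructor <;> linarith

lemma SubLin.continuous {N : H → ℝ} (hN : SubLin N) : Continuous N := by
  rw [Metric.continuous_iff]
  intro x ε hε
  refine ⟨ε, hε, fun y hy => ?_⟩
  rw [Real.dist_eq]
  rw [dist_eq_norm] at hy
  exact lt_of_le_of_lt (hN.lip y x) hy

lemma SubLin.zero {N : H → ℝ} (hN : SubLin N) : N 0 = 0 := by
  have := hN.smul 0 le_rfl 0
  simpa using this

lemma SubLin.convexOn {N : H → ℝ} (hN : SubLin N) {K : Set H} (hK : Convex ℝ K) :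
    ConvexOn ℝ K N := by
  refine ⟨hK, fun x _ y _ a b ha hb _ => ?_⟩
  have h1 := hN.add (a • x) (b • y)
  rw [hN.smul a ha, hN.smul b hb] at h1
  simpa using h1

/-- The convex part of the penalised functional. -/
noncomputable def Gf (N : H → ℝ) (ξ : H) (κ ε : ℝ) (y : H) : ℝ :=
  ε⁻¹ * (⟪y, ξ⟫_ℝ + (κ - ε) * N y)

lemma Gf_eq {N : H → ℝ} {ξ : H} {κ ε : ℝ} (hε : 0 < ε) (y : H) :
    Gf N ξ κ ε y = (⟪y, ξ⟫_ℝ + κ * N y) / ε - N y := by
  unfold Gf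
  field_simp
  ring

lemma Gf_smul {N : H → ℝ} (hN : SubLin N) {ξ : H} {κ ε : ℝ} {t : ℝ} (ht : 0 ≤ t) (y : H) :
    Gf N ξ κ ε (t • y) = t * Gf N ξ κ ε y := by
  unfold Gf
  rw [hN.smul t ht, inner_smul_left]
  simp only [conj_trivial]
  ring

lemma Gf_convex {N : H → ℝ} (hN : SubLin N) {ξ : H} {κ ε : ℝ} (hε : 0 < ε) (hεκ : ε ≤ κ)
    {K : Set H} (hK : Convex ℝ K) : ConvexOn ℝ K (Gf N ξ κ ε) := by
  refine ⟨hK, fun x hx y hy a b ha hb hab => ?_⟩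
  have h1 := (hN.convexOn hK).2 hx hy ha hb hab
  simp only [smul_eq_mul] at h1 ⊢
  unfold Gf
  rw [inner_add_left, inner_smul_left, inner_smul_left]
  simp only [conj_trivial]
  have h2 : 0 ≤ ε⁻¹ := (inv_pos.2 hε).le
  have h3 : 0 ≤ κ - ε := by linarith
  have h4 : (κ - ε) * N (a • x + b • y) ≤ (κ - ε) * (a * N x + b * N y) :=
    mul_le_mul_of_nonneg_left h1 h3
  nlinarith [mul_le_mul_of_nonneg_left h4 h2]

lemma Gf_cont {N : H → ℝ} (hN : SubLin N) {ξ : H} {κ ε : ℝ} : Continuous (Gf N ξ κ ε) := by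
  unfold Gf
  have := hN.continuous
  fun_prop

/-- `Y` is the (quadratically growing) minimiser of `Gf + ½‖·‖²` on `K`. -/
def IsMin (K : Set H) (N : H → ℝ) (ξ : H) (κ ε : ℝ) (Y : H) : Prop :=
  Y ∈ K ∧ ∀ y ∈ K, Gf N ξ κ ε Y + (1 / 2 : ℝ) * ‖Y‖ ^ 2 + (1 / 2 : ℝ) * ‖y - Y‖ ^ 2
      ≤ Gf N ξ κ ε y + (1 / 2 : ℝ) * ‖y‖ ^ 2

theorem exists_isMin [CompleteSpace H] {K : Set H} (hK : ClCone K) {N : H → ℝ} (hN : SubLin N)
    (hN0 : ∀ x, 0 ≤ N x) (ξ : H) {κ ε : ℝ} (hε : 0 < ε) (hεκ : ε ≤ κ) :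
    ∃ Y, IsMin K N ξ κ ε Y := by
  have hb : BddBelow ((fun x => Gf N ξ κ ε x + (1 / 2 : ℝ) * ‖x‖ ^ 2) '' K) := by
    refine ⟨-(1 / 2 : ℝ) * (ε⁻¹ * ‖ξ‖) ^ 2, ?_⟩
    rintro _ ⟨x, _, rfl⟩
    have h1 : -(‖x‖ * ‖ξ‖) ≤ ⟪x, ξ⟫_ℝ := by
      have := abs_real_inner_le_norm x ξ
      exact (abs_le.1 this).1
    have h2 : 0 ≤ (κ - ε) * N x := mul_nonneg (by linarith) (hN0 x)
    have h3 : ε⁻¹ * (-(‖x‖ * ‖ξ‖)) ≤ Gf N ξ κ ε x := by
      unfold Gf
      exact mul_le_mul_of_nonneg_left (by linarith) (inv_pos.2 hε).le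
    have h4 : (0 : ℝ) ≤ (‖x‖ - ε⁻¹ * ‖ξ‖) ^ 2 := sq_nonneg _
    show -(1 / 2 : ℝ) * (ε⁻¹ * ‖ξ‖) ^ 2 ≤ Gf N ξ κ ε x + (1 / 2 : ℝ) * ‖x‖ ^ 2
    nlinarith
  obtain ⟨x, hx, h⟩ := exists_min hK.closed ⟨0, hK.zero⟩ (Gf_convex hN hε hεκ hK.convex)
    (Gf_cont hN (ξ := ξ)).continuousOn hb
  exact ⟨x, hx, h⟩

lemma IsMin.G_eq {K : Set H} (hK : ClCone K) {N : H → ℝ} (hN : SubLin N) {ξ : H} {κ ε : ℝ}
    {Y : H} (hY : IsMin K N ξ κ ε Y) : Gf N ξ κ ε Y = -‖Y‖ ^ 2 := by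
  have key : ∀ t : ℝ, 0 ≤ t → (1 - t) * (Gf N ξ κ ε Y + ‖Y‖ ^ 2) ≤ 0 := by
    intro t ht
    have h1 := hY.2 (t • Y) (hK.smul t ht Y hY.1)
    rw [Gf_smul hN ht] at h1
    have h2 : ‖t • Y‖ ^ 2 = t ^ 2 * ‖Y‖ ^ 2 := by
      rw [norm_smul, mul_pow, Real.norm_eq_abs, sq_abs]
    have h3 : ‖t • Y - Y‖ ^ 2 = (t - 1) ^ 2 * ‖Y‖ ^ 2 := by
      have : t • Y - Y = (t - 1) • Y := by rw [sub_smul, one_smul]
      rw [this, norm_smul, mul_pow, Real.norm_eq_abs, sq_abs]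
    rw [h2, h3] at h1
    nlinarith
  have h0 := key 0 le_rfl
  have h2 := key 2 (by norm_num)
  linarith

lemma IsMin.val {K : Set H} (hK : ClCone K) {N : H → ℝ} (hN : SubLin N) {ξ : H} {κ ε : ℝ}
    {Y : H} (hY : IsMin K N ξ κ ε Y) :
    ∀ y ∈ K, -(1 / 2 : ℝ) * ‖Y‖ ^ 2 + (1 / 2 : ℝ) * ‖y - Y‖ ^ 2
      ≤ Gf N ξ κ ε y + (1 / 2 : ℝ) * ‖y‖ ^ 2 := by
  intro y hy
  have := hY.2 y hy
  rw [hY.G_eq hK hN] at this
  linarith

/-- Monotone comparison of two penalised minimisers. -/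
lemma IsMin.comp {K : Set H} (hK : ClCone K) {N : H → ℝ} (hN : SubLin N) {ξ : H} {κ : ℝ}
    (hg : ∀ x ∈ K, 0 ≤ ⟪x, ξ⟫_ℝ + κ * N x) {ε ε' : ℝ} (hε' : 0 < ε') (hle : ε' ≤ ε)
    {Y Y' : H} (hY : IsMin K N ξ κ ε Y) (hY' : IsMin K N ξ κ ε' Y') :
    ‖Y' - Y‖ ^ 2 ≤ ‖Y‖ ^ 2 - ‖Y'‖ ^ 2 := by
  have hε : 0 < ε := lt_of_lt_of_le hε' hle
  have h1 := hY.val hK hN Y' hY'.1
  have h2 := hY'.G_eq hK hN
  have h3 : Gf N ξ κ ε Y' ≤ Gf N ξ κ ε' Y' := by
    rw [Gf_eq hε, Gf_eq hε']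
    have := div_le_div_of_nonneg_left (hg Y' hY'.1) hε' hle
    linarith
  linarith

/-- **Convergence of the penalised minimisers** (no non-degeneracy yet). -/
theorem tendsto_isMin [CompleteSpace H] {K : Set H} (hK : ClCone K) {N : H → ℝ} (hN : SubLin N)
    {ξ : H} {κ : ℝ} (hκ : 0 < κ) (hg : ∀ x ∈ K, 0 ≤ ⟪x, ξ⟫_ℝ + κ * N x)
    {Y : ℝ → H} (hY : ∀ ε, 0 < ε → ε < κ → IsMin K N ξ κ ε (Y ε)) :
    ∃ y0 ∈ K, Tendsto Y (𝓝[>] 0) (𝓝 y0) ∧ ⟪y0, ξ⟫_ℝ + κ * N y0 = 0 ∧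
      (∀ ε, 0 < ε → ε < κ → ‖y0‖ ≤ ‖Y ε‖) ∧
      ∀ y ∈ K, ⟪y, ξ⟫_ℝ + κ * N y = 0 →
        -N y0 + (1 / 2 : ℝ) * ‖y0‖ ^ 2 + (1 / 2 : ℝ) * ‖y - y0‖ ^ 2
          ≤ -N y + (1 / 2 : ℝ) * ‖y‖ ^ 2 := by
  set S : Set ℝ := (fun ε => ‖Y ε‖ ^ 2) '' Ioo 0 κ with hS
  have hSne : S.Nonempty := ⟨_, κ / 2, ⟨by positivity, by linarith⟩, rfl⟩
  have hSb : BddBelow S := ⟨0, by rintro _ ⟨ε, _, rfl⟩; positivity⟩
  set L := sInf S with hL
  have hcau : Cauchy (map Y (𝓝[>] 0)) := by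
    rw [Metric.cauchy_iff]
    refine ⟨inferInstance, fun δ hδ => ?_⟩
    obtain ⟨_, ⟨ε1, hε1, rfl⟩, h1⟩ := exists_lt_of_csInf_lt hSne
      (show L < L + (δ / 2) ^ 2 / 2 by have : 0 < (δ / 2) ^ 2 / 2 := by positivity
                                       linarith)
    refine ⟨Y '' Ioc 0 ε1, image_mem_map (Ioc_mem_nhdsGT hε1.1), ?_⟩
    have hd : ∀ ε ∈ Ioc 0 ε1, ‖Y ε - Y ε1‖ < δ / 2 := by
      intro ε hε
      have h2 := (hY ε1 hε1.1 hε1.2).comp hK hN hg hε.1 hε.2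
        (hY ε hε.1 (lt_of_le_of_lt hε.2 hε1.2))
      have h3 : L ≤ ‖Y ε‖ ^ 2 := csInf_le hSb ⟨ε, ⟨hε.1, lt_of_le_of_lt hε.2 hε1.2⟩, rfl⟩
      have h4 : ‖Y ε - Y ε1‖ ^ 2 < (δ / 2) ^ 2 := by
        have : 0 < (δ / 2) ^ 2 := by positivity
        simp only at h1
        linarith
      exact lt_of_pow_lt_pow_left₀ 2 (by positivity) h4
    rintro _ ⟨a, ha, rfl⟩ _ ⟨b, hb, rfl⟩
    have h5 := hd a ha
    have h6 := hd b hb
    rw [dist_eq_norm]
    calc ‖Y a - Y b‖ = ‖(Y a - Y ε1) - (Y b - Y ε1)‖ := by congr 1; abel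
      _ ≤ ‖Y a - Y ε1‖ + ‖Y b - Y ε1‖ := norm_sub_le _ _
      _ < δ := by linarith
  obtain ⟨y0, hy0⟩ := cauchy_map_iff_exists_tendsto.1 hcau
  have hev : ∀ᶠ ε in 𝓝[>] (0 : ℝ), ε ∈ Ioo 0 κ := Ioo_mem_nhdsGT hκ
  have hy0K : y0 ∈ K := hK.closed.mem_of_tendsto hy0
    (hev.mono fun ε hε => (hY ε hε.1 hε.2).1)
  have hnorm : ∀ ε, 0 < ε → ε < κ → ‖y0‖ ≤ ‖Y ε‖ := by
    intro ε hε hεκ
    refine le_of_tendsto hy0.norm ?_
    filter_upwards [Ioc_mem_nhdsGT hε] with ε' hε'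
    have h2 := (hY ε hε hεκ).comp hK hN hg hε'.1 hε'.2
        (hY ε' hε'.1 (lt_of_le_of_lt hε'.2 hεκ))
    have h3 : ‖Y ε'‖ ^ 2 ≤ ‖Y ε‖ ^ 2 := by nlinarith [sq_nonneg ‖Y ε' - Y ε‖]
    exact le_of_sq_le_sq h3 (norm_nonneg _)
  have hgc : Continuous (fun y : H => ⟪y, ξ⟫_ℝ + κ * N y) := by
    have := hN.continuous
    fun_prop
  have hg0 : ⟪y0, ξ⟫_ℝ + κ * N y0 = 0 := by
    have h1 : Tendsto (fun ε => ⟪Y ε, ξ⟫_ℝ + κ * N (Y ε)) (𝓝[>] 0)
        (𝓝 (⟪y0, ξ⟫_ℝ + κ * N y0)) := (hgc.tendsto y0).comp hy0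
    have h2 : Tendsto (fun ε : ℝ => ε * ‖Y ε‖) (𝓝[>] 0) (𝓝 (0 * ‖y0‖)) :=
      Tendsto.mul (tendsto_nhdsWithin_of_tendsto_nhds tendsto_id) hy0.norm
    rw [zero_mul] at h2
    refine le_antisymm (le_of_tendsto_of_tendsto h1 h2 ?_) (ge_of_tendsto h1 ?_)
    · filter_upwards [hev] with ε hε
      have h3 := (hY ε hε.1 hε.2).G_eq hK hN
      rw [Gf_eq hε.1] at h3
      have h4 : (⟪Y ε, ξ⟫_ℝ + κ * N (Y ε)) / ε ≤ ‖Y ε‖ := by
        have := hN.le (Y ε)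
        have h5 : 0 ≤ ‖Y ε‖ ^ 2 := by positivity
        linarith
      rw [div_le_iff₀ hε.1] at h4
      linarith
    · filter_upwards [hev] with ε hε
      exact hg _ (hY ε hε.1 hε.2).1
  refine ⟨y0, hy0K, hy0, hg0, hnorm, fun y hy hgy => ?_⟩
  have h1 : Tendsto (fun ε => -N (Y ε) + (1 / 2 : ℝ) * ‖Y ε‖ ^ 2 + (1 / 2 : ℝ) * ‖y - Y ε‖ ^ 2)
      (𝓝[>] 0) (𝓝 (-N y0 + (1 / 2 : ℝ) * ‖y0‖ ^ 2 + (1 / 2 : ℝ) * ‖y - y0‖ ^ 2)) := by
    have hc : Continuous (fun z : H =>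
        -N z + (1 / 2 : ℝ) * ‖z‖ ^ 2 + (1 / 2 : ℝ) * ‖y - z‖ ^ 2) := by
      have := hN.continuous
      fun_prop
    exact (hc.tendsto y0).comp hy0
  refine le_of_tendsto h1 ?_
  filter_upwards [hev] with ε hε
  have h2 := (hY ε hε.1 hε.2).2 y hy
  rw [Gf_eq hε.1, Gf_eq hε.1, hgy, zero_div] at h2
  have h3 : 0 ≤ (⟪Y ε, ξ⟫_ℝ + κ * N (Y ε)) / ε := div_nonneg (hg _ (hY ε hε.1 hε.2).1) hε.1.le
  linarith

/-- A decreasing family of non-empty closed convex sets with uniformly bounded elements has a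
common point. -/
lemma exists_common [CompleteSpace H] {T : ℝ → Set H} (hTc : ∀ δ, IsClosed (T δ))
    (hTv : ∀ δ, Convex ℝ (T δ)) (hmono : ∀ δ δ', δ' ≤ δ → T δ' ⊆ T δ) {C : ℝ}
    (hTne : ∀ δ : ℝ, 0 < δ → ∃ w ∈ T δ, ‖w‖ ≤ C) :
    ∃ w, ∀ δ, 0 < δ → w ∈ T δ := by
  have hex : ∀ δ : ℝ, 0 < δ → ∃ w ∈ T δ, ∀ y ∈ T δ, ‖y - w‖ ^ 2 ≤ ‖y‖ ^ 2 - ‖w‖ ^ 2 := by
    intro δ hδ
    obtain ⟨w0, hw0, _⟩ := hTne δ hδ
    obtain ⟨w, hw, h⟩ := exists_min (hTc δ) ⟨w0, hw0⟩ (convexOn_const (0 : ℝ) (hTv δ))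
      continuousOn_const ⟨0, by rintro _ ⟨x, _, rfl⟩; simp only; positivity⟩
    refine ⟨w, hw, fun y hy => ?_⟩
    have := h y hy
    linarith
  choose! W hWm hW using hex
  have hWC : ∀ δ : ℝ, 0 < δ → ‖W δ‖ ^ 2 ≤ C ^ 2 := by
    intro δ hδ
    obtain ⟨w0, hw0, hw0C⟩ := hTne δ hδ
    have h1 := hW δ hδ w0 hw0
    have h2 : ‖w0‖ ^ 2 ≤ C ^ 2 := by
      have := norm_nonneg w0
      nlinarith
    nlinarith [sq_nonneg ‖w0 - W δ‖]
  have hcomp : ∀ δ δ' : ℝ, 0 < δ' → δ' ≤ δ → ‖W δ' - W δ‖ ^ 2 ≤ ‖W δ'‖ ^ 2 - ‖W δ‖ ^ 2 :=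
    fun δ δ' h0 hle => hW δ (lt_of_lt_of_le h0 hle) _ (hmono δ δ' hle (hWm δ' h0))
  set S : Set ℝ := (fun δ => ‖W δ‖ ^ 2) '' Ioi 0 with hS
  have hSne : S.Nonempty := ⟨_, 1, mem_Ioi.2 one_pos, rfl⟩
  have hSb : BddAbove S := ⟨C ^ 2, by rintro _ ⟨δ, hδ, rfl⟩; exact hWC δ hδ⟩
  have hcau : Cauchy (map W (𝓝[>] 0)) := by
    rw [Metric.cauchy_iff]
    refine ⟨inferInstance, fun r hr => ?_⟩
    obtain ⟨_, ⟨δ1, hδ1, rfl⟩, h1⟩ := exists_lt_of_lt_csSup hSne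
      (show sSup S - (r / 2) ^ 2 / 2 < sSup S by have : 0 < (r / 2) ^ 2 / 2 := by positivity
                                                 linarith)
    refine ⟨W '' Ioc 0 δ1, image_mem_map (Ioc_mem_nhdsGT hδ1), ?_⟩
    have hd : ∀ δ ∈ Ioc 0 δ1, ‖W δ - W δ1‖ < r / 2 := by
      intro δ hδ
      have h2 := hcomp δ1 δ hδ.1 hδ.2
      have h3 : ‖W δ‖ ^ 2 ≤ sSup S := le_csSup hSb ⟨δ, hδ.1, rfl⟩
      have h4 : ‖W δ - W δ1‖ ^ 2 < (r / 2) ^ 2 := by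
        have : 0 < (r / 2) ^ 2 := by positivity
        simp only at h1
        linarith
      exact lt_of_pow_lt_pow_left₀ 2 (by positivity) h4
    rintro _ ⟨a, ha, rfl⟩ _ ⟨b, hb, rfl⟩
    have h5 := hd a ha
    have h6 := hd b hb
    rw [dist_eq_norm]
    calc ‖W a - W b‖ = ‖(W a - W δ1) - (W b - W δ1)‖ := by congr 1; abel
      _ ≤ ‖W a - W δ1‖ + ‖W b - W δ1‖ := norm_sub_le _ _
      _ < r := by linarith
  obtain ⟨w, hw⟩ := cauchy_map_iff_exists_tendsto.1 hcau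
  refine ⟨w, fun δ hδ => (hTc δ).mem_of_tendsto hw ?_⟩
  filter_upwards [Ioc_mem_nhdsGT hδ] with δ' hδ'
  exact hmono δ δ' hδ'.2 (hWm δ' hδ'.1)

/-- Non-degeneracy: under the bound `‖Y‖ ≤ C ⟪e,Y⟫` (statement (3a)) there is a non-trivial zero
of `g` on the cone and the minimisers stay away from zero. -/
theorem exists_zero_of_g [CompleteSpace H] {K : Set H} (hK : ClCone K) {N : H → ℝ} (hN : SubLin N)
    {e : H} (he : ∀ x ∈ K, 0 ≤ ⟪e, x⟫_ℝ)
    {ξ : H} {κ : ℝ} (hκ : 0 < κ) (hg : ∀ x ∈ K, 0 ≤ ⟪x, ξ⟫_ℝ + κ * N x)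
    {Y : ℝ → H} (hY : ∀ ε, 0 < ε → ε < κ → IsMin K N ξ κ ε (Y ε))
    {C : ℝ} (hC : ∀ᶠ ε in 𝓝[>] (0 : ℝ), ‖Y ε‖ ≤ C * ⟪e, Y ε⟫_ℝ)
    (hne : ∃ᶠ ε in 𝓝[>] (0 : ℝ), Y ε ≠ 0) :
    ∃ w ∈ K, ⟪e, w⟫_ℝ = 1 ∧ ⟪w, ξ⟫_ℝ + κ * N w = 0 := by
  classical
  have hev : ∀ᶠ ε in 𝓝[>] (0 : ℝ), ε ∈ Ioo 0 κ := Ioo_mem_nhdsGT hκ
  -- the level sets
  set T : ℝ → Set H := fun δ => {w | w ∈ K ∧ ⟪e, w⟫_ℝ = 1 ∧ ⟪w, ξ⟫_ℝ + κ * N w ≤ δ} with hT
  have hgc : Continuous (fun y : H => ⟪y, ξ⟫_ℝ + κ * N y) := by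
    have := hN.continuous
    fun_prop
  have hTc : ∀ δ, IsClosed (T δ) := by
    intro δ
    have h1 : IsClosed {w : H | ⟪e, w⟫_ℝ = 1} :=
      isClosed_eq (by fun_prop) continuous_const
    have h2 : IsClosed {w : H | ⟪w, ξ⟫_ℝ + κ * N w ≤ δ} := isClosed_le hgc continuous_const
    exact hK.closed.inter (h1.inter h2)
  have hTv : ∀ δ, Convex ℝ (T δ) := by
    intro δ x hx y hy a b ha hb hab
    refine ⟨hK.convex hx.1 hy.1 ha hb hab, ?_, ?_⟩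
    · rw [inner_add_right, inner_smul_right, inner_smul_right, hx.2.1, hy.2.1]
      linarith
    · have h1 := (hN.convexOn hK.convex).2 hx.1 hy.1 ha hb hab
      simp only [smul_eq_mul] at h1
      rw [inner_add_left, inner_smul_left, inner_smul_left]
      simp only [conj_trivial]
      have h2 := hx.2.2
      have h3 := hy.2.2
      have h4 : κ * N (a • x + b • y) ≤ κ * (a * N x + b * N y) :=
        mul_le_mul_of_nonneg_left h1 hκ.le
      have h5 := mul_le_mul_of_nonneg_left h2 ha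
      have h6 := mul_le_mul_of_nonneg_left h3 hb
      have h7 : a * δ + b * δ = δ := by rw [← add_mul, hab, one_mul]
      nlinarith
  have hmono : ∀ δ δ', δ' ≤ δ → T δ' ⊆ T δ := fun δ δ' h w hw => ⟨hw.1, hw.2.1, hw.2.2.trans h⟩
  -- bounded elements of each level set
  have hfreq : ∃ᶠ ε in 𝓝[>] (0 : ℝ), Y ε ≠ 0 ∧ ‖Y ε‖ ≤ C * ⟪e, Y ε⟫_ℝ ∧ ε ∈ Ioo 0 κ :=
    (hne.and_eventually (hC.and hev)).mono fun ε h => ⟨h.1, h.2.1, h.2.2⟩
  have hTne : ∀ δ : ℝ, 0 < δ → ∃ w ∈ T δ, ‖w‖ ≤ C := by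
    intro δ hδ
    obtain ⟨ε, ⟨⟨h0, h1, h2⟩, h3⟩⟩ := (hfreq.and_eventually
      (Ioc_mem_nhdsGT (show (0 : ℝ) < δ / (|C| + 1) by positivity))).exists
    have hn : 0 < ‖Y ε‖ := norm_pos_iff.2 h0
    have hpos : 0 < ⟪e, Y ε⟫_ℝ := by
      rcases (he _ (hY ε h2.1 h2.2).1).lt_or_eq with h | h
      · exact h
      · rw [← h, mul_zero] at h1
        exact absurd h1 (not_le.2 hn)
    set c : ℝ := ⟪e, Y ε⟫_ℝ with hc
    have hnormw : ‖c⁻¹ • Y ε‖ ≤ C := by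
      rw [norm_smul, Real.norm_eq_abs, abs_of_pos (inv_pos.2 hpos), inv_mul_le_iff₀ hpos]
      linarith
    refine ⟨c⁻¹ • Y ε, ⟨hK.smul _ (inv_pos.2 hpos).le _ (hY ε h2.1 h2.2).1, ?_, ?_⟩, hnormw⟩
    · rw [inner_smul_right, ← hc, inv_mul_cancel₀ hpos.ne']
    · have h4 := (hY ε h2.1 h2.2).G_eq hK hN
      rw [Gf_eq h2.1] at h4
      have h5 : (⟪Y ε, ξ⟫_ℝ + κ * N (Y ε)) / ε ≤ ‖Y ε‖ := by
        have := hN.le (Y ε)
        have h5 : 0 ≤ ‖Y ε‖ ^ 2 := by positivity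
        linarith
      rw [div_le_iff₀ h2.1] at h5
      rw [inner_smul_left, hN.smul _ (inv_pos.2 hpos).le]
      simp only [conj_trivial]
      have h6 : c⁻¹ * ⟪Y ε, ξ⟫_ℝ + κ * (c⁻¹ * N (Y ε)) = c⁻¹ * (⟪Y ε, ξ⟫_ℝ + κ * N (Y ε)) := by
        ring
      rw [h6]
      have h7 : c⁻¹ * (⟪Y ε, ξ⟫_ℝ + κ * N (Y ε)) ≤ c⁻¹ * (‖Y ε‖ * ε) :=
        mul_le_mul_of_nonneg_left h5 (inv_pos.2 hpos).le
      have h8 : c⁻¹ * ‖Y ε‖ ≤ |C| := by
        rw [inv_mul_le_iff₀ hpos]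
        calc ‖Y ε‖ ≤ C * c := h1
          _ ≤ |C| * c := mul_le_mul_of_nonneg_right (le_abs_self C) hpos.le
          _ = c * |C| := mul_comm _ _
      have h9 : ε * (|C| + 1) ≤ δ := by
        have := h3.2
        rwa [le_div_iff₀ (by positivity)] at this
      have h10 : c⁻¹ * (‖Y ε‖ * ε) = (c⁻¹ * ‖Y ε‖) * ε := by ring
      have h11 : (c⁻¹ * ‖Y ε‖) * ε ≤ |C| * ε := mul_le_mul_of_nonneg_right h8 h2.1.le
      nlinarith [h2.1]
  obtain ⟨w, hw⟩ := exists_common hTc hTv hmono hTne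
  refine ⟨w, (hw 1 one_pos).1, (hw 1 one_pos).2.1, le_antisymm ?_ (hg _ (hw 1 one_pos).1)⟩
  exact le_of_forall_pos_le_add fun δ hδ => by simpa using (hw δ hδ).2.2

/-- A non-trivial zero `w` of `g` bounds the minimisers from below. -/
lemma IsMin.norm_ge {K : Set H} (hK : ClCone K) {N : H → ℝ} (hN : SubLin N) {ξ : H} {κ ε : ℝ}
    (hε : 0 < ε) {Y : H} (hY : IsMin K N ξ κ ε Y) {w : H} (hw : w ∈ K) (hw0 : w ≠ 0)
    (hNw : 0 ≤ N w) (hgw : ⟪w, ξ⟫_ℝ + κ * N w = 0) : N w / ‖w‖ ≤ ‖Y‖ := by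
  have hn : 0 < ‖w‖ := norm_pos_iff.2 hw0
  set t : ℝ := N w / ‖w‖ ^ 2 with ht
  have ht0 : 0 ≤ t := div_nonneg hNw (by positivity)
  have h1 := hY.val hK hN (t • w) (hK.smul t ht0 w hw)
  rw [Gf_smul hN ht0, Gf_eq hε, hgw, zero_div] at h1
  have h2 : ‖t • w‖ ^ 2 = t ^ 2 * ‖w‖ ^ 2 := by
    rw [norm_smul, mul_pow, Real.norm_eq_abs, sq_abs]
  rw [h2] at h1
  have h3 : t * ‖w‖ ^ 2 = N w := by rw [ht]; field_simp
  have h4 : (N w / ‖w‖) ^ 2 = t * N w := by rw [ht]; field_simp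
  have h5 : (N w / ‖w‖) ^ 2 ≤ ‖Y‖ ^ 2 := by
    rw [h4]
    nlinarith [sq_nonneg ‖t • w - Y‖]
  exact le_of_sq_le_sq h5 (norm_nonneg _)

/-- **Node F, Hilbert part.** -/
theorem penalty_limit [CompleteSpace H] {K : Set H} (hK : ClCone K) {N : H → ℝ} (hN : SubLin N)
    {e : H} (hNe : ∀ x, |⟪e, x⟫_ℝ| ≤ N x) (he : ∀ x ∈ K, 0 ≤ ⟪e, x⟫_ℝ)
    {ξ : H} {κ : ℝ} (hκ : 0 < κ) (hg : ∀ x ∈ K, 0 ≤ ⟪x, ξ⟫_ℝ + κ * N x)
    {Y : ℝ → H} (hY : ∀ ε, 0 < ε → ε < κ → IsMin K N ξ κ ε (Y ε))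
    {C : ℝ} (hC : ∀ᶠ ε in 𝓝[>] (0 : ℝ), ‖Y ε‖ ≤ C * ⟪e, Y ε⟫_ℝ)
    (hne : ∃ᶠ ε in 𝓝[>] (0 : ℝ), Y ε ≠ 0) :
    ∃ y0 ∈ K, Tendsto Y (𝓝[>] 0) (𝓝 y0) ∧ ⟪y0, ξ⟫_ℝ + κ * N y0 = 0 ∧ 0 < ⟪e, y0⟫_ℝ ∧
      ‖y0‖ ≤ C * ⟪e, y0⟫_ℝ ∧
      (∀ ε, 0 < ε → ε < κ → ‖y0‖ ≤ ‖Y ε‖) ∧
      ∀ y ∈ K, ⟪y, ξ⟫_ℝ + κ * N y = 0 →
        -N y0 + (1 / 2 : ℝ) * ‖y0‖ ^ 2 + (1 / 2 : ℝ) * ‖y - y0‖ ^ 2
          ≤ -N y + (1 / 2 : ℝ) * ‖y‖ ^ 2 := by
  obtain ⟨y0, hy0K, hy0, hg0, hnorm, hmin⟩ := tendsto_isMin hK hN hκ hg hY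
  obtain ⟨w, hwK, hew, hgw⟩ := exists_zero_of_g hK hN he hκ hg hY hC hne
  have hw0 : w ≠ 0 := by
    rintro rfl
    rw [inner_zero_right] at hew
    norm_num at hew
  have hNw : 1 ≤ N w := by
    have := hNe w
    rw [hew, abs_one] at this
    exact this
  have hev : ∀ᶠ ε in 𝓝[>] (0 : ℝ), ε ∈ Ioo 0 κ := Ioo_mem_nhdsGT hκ
  have hlow : N w / ‖w‖ ≤ ‖y0‖ := by
    refine ge_of_tendsto hy0.norm ?_
    filter_upwards [hev] with ε hε
    exact (hY ε hε.1 hε.2).norm_ge hK hN hε.1 hwK hw0 (by linarith) hgw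
  have hpos0 : 0 < ‖y0‖ := lt_of_lt_of_le (div_pos (by linarith) (norm_pos_iff.2 hw0)) hlow
  have hCe : ‖y0‖ ≤ C * ⟪e, y0⟫_ℝ := by
    have hc : Continuous (fun z : H => C * ⟪e, z⟫_ℝ) := by fun_prop
    exact le_of_tendsto_of_tendsto hy0.norm ((hc.tendsto y0).comp hy0) hC
  refine ⟨y0, hy0K, hy0, hg0, ?_, hCe, hnorm, hmin⟩
  rcases (he _ hy0K).lt_or_eq with h | h
  · exact h
  · rw [← h, mul_zero] at hCe
    exact absurd hCe (not_le.2 hpos0)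

end Crest.Agent.R146.NormF1_491
end

-- ▼ part R146/NormF2_491
section

/-!
Row 146, package P5, node F (helper491): the passage `α → α_c+` in the frame
`HilbA_356 / HilbE1_12 / ProfB_540`.

`RedNorm R N` collects the facts (C1), (C2) about the reduced norm
`N x = inf_D ½ (Q D x + Ent 0 D)`; the theorem `nodeF` is the final statement.
-/

set_option autoImplicit false

namespace Crest.Agent.R146.NormF2_491

open Set Filter Topology MeasureTheory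
open scoped RealInnerProductSpace
open Crest.Agent.R146.Hilb Crest.Agent.R146.HilbE Crest.Agent.R146.ProfB_540
open Crest.Agent.R146.NormF1_491 Crest.Agent.R146

variable {H : Type*} [NormedAddCommGroup H] [InnerProductSpace ℝ H] [CompleteSpace H]

/-- value of the reduced problem -/
noncomputable def val (R : Res H) (x : H) (D : ℝ → ℝ) : ℝ := 1 / 2 * (R.Q D x + Ent 0 D)

/-- the facts (C1), (C2) at `e = 0` -/
structure RedNorm (R : Res H) (N : H → ℝ) : Prop where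
  sub : SubLin N
  ge : ∀ x, ‖R.P 0 x‖ ≤ N x
  le_val : ∀ x D, Adm 0 D → N x ≤ val R x D
  attained : ∀ x, x ≠ 0 → ∃ D, Adm 0 D ∧ val R x D = N x
  cont : ∀ {l : Filter ℝ} {x : ℝ → H} {D : ℝ → ℝ → ℝ} {x0 : H} {D0 : ℝ → ℝ}, x0 ≠ 0 →
    Tendsto x l (𝓝 x0) → (∀ᶠ i in l, Adm 0 (D i) ∧ val R (x i) (D i) = N (x i)) →
    Adm 0 D0 → val R x0 D0 = N x0 → ∀ T ∈ Ico (0 : ℝ) 1, TendstoUniformlyOn D D0 l (Icc 0 T)

lemma Je_scale (R : Res H) {α c : ℝ} (hα : 0 < α) (ξ x : H) {D : ℝ → ℝ} (hD : Adm 0 D) :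
    Je R α c 0 ξ x D = α * ⟪x, ξ⟫ + α * c / 2 * ‖x‖ ^ 2
      + Real.sqrt α * val R x (fun t => Real.sqrt α * D t) := by
  have hs : 0 < Real.sqrt α := Real.sqrt_pos.2 hα
  have hs2 : Real.sqrt α * Real.sqrt α = α := Real.mul_self_sqrt hα.le
  unfold Je val
  rw [R.Q_smul hD.prof.cont]
  have h2 := (ProfC_540.Adm.smul hD hs).2
  rw [zero_div] at h2
  rw [h2]
  have h3 : Real.sqrt α * (1 / 2 * (Real.sqrt α * R.Q D x + Ent 0 D / Real.sqrt α))
      = 1 / 2 * ((Real.sqrt α * Real.sqrt α) * R.Q D x + Ent 0 D) := by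
    field_simp
  rw [h3, hs2]
  ring

lemma adm_smul {D : ℝ → ℝ} (hD : Adm 0 D) {c : ℝ} (hc : 0 < c) : Adm 0 (fun t => c * D t) := by
  have := (ProfC_540.Adm.smul hD hc).1
  rwa [zero_div] at this


lemma val_smul (R : Res H) {s : ℝ} (hs : 0 < s) (x : H) {D : ℝ → ℝ} (hD : Adm 0 D) :
    val R (s • x) (fun t => s⁻¹ * D t) = s * val R x D := by
  unfold val
  rw [R.Q_smul hD.prof.cont, R.Q_smul_vec]
  have h2 := (ProfC_540.Adm.smul hD (inv_pos.2 hs)).2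
  rw [zero_div] at h2
  rw [h2]
  field_simp

section OneAlpha

variable {R : Res H} {N : H → ℝ} (hN : RedNorm R N) {K : Set H} (hK : ClCone K) {ξ : H}

/-- the reduced functional at `e = 0`, `c = 1` -/
noncomputable def redF (N : H → ℝ) (α : ℝ) (ξ y : H) : ℝ :=
  α * ⟪y, ξ⟫ + α / 2 * ‖y‖ ^ 2 + Real.sqrt α * N y

include hN in
lemma redF_le {α : ℝ} (hα : 0 < α) (y : H) {D : ℝ → ℝ} (hD : Adm 0 D) :
    redF N α ξ y ≤ Je R α 1 0 ξ y D := by
  rw [Je_scale R hα ξ y hD]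
  have hs : 0 < Real.sqrt α := Real.sqrt_pos.2 hα
  have h1 := hN.le_val y _ (adm_smul hD hs)
  have h2 := mul_le_mul_of_nonneg_left h1 hs.le
  unfold redF
  rw [mul_one]
  linarith

include hN in
lemma exists_redF {α : ℝ} (hα : 0 < α) {y : H} (hy : y ≠ 0) :
    ∃ D, Adm 0 D ∧ Je R α 1 0 ξ y D = redF N α ξ y := by
  have hs : 0 < Real.sqrt α := Real.sqrt_pos.2 hα
  obtain ⟨D, hD, hv⟩ := hN.attained y hy
  refine ⟨fun t => (Real.sqrt α)⁻¹ * D t, adm_smul hD (inv_pos.2 hs), ?_⟩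
  rw [Je_scale R hα ξ y (adm_smul hD (inv_pos.2 hs))]
  have h1 : (fun t => Real.sqrt α * ((Real.sqrt α)⁻¹ * D t)) = D := by
    funext t
    field_simp
  rw [h1, hv]
  unfold redF
  rw [mul_one]

include hN in
/-- The minimiser of the joint functional minimises the reduced functional. -/
lemma redF_min {α : ℝ} (hα : 0 < α) {x : H} {D : ℝ → ℝ} (hD : Adm 0 D)
    (hmin : ∀ y ∈ K, ∀ D', Adm 0 D' → Je R α 1 0 ξ x D ≤ Je R α 1 0 ξ y D') :
    ∀ y ∈ K, redF N α ξ x ≤ redF N α ξ y := by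
  intro y hy
  have h1 := redF_le hN (ξ := ξ) hα x hD
  by_cases hy0 : y = 0
  · subst hy0
    have h2 : ∀ c : ℝ, 0 < c → redF N α ξ x ≤ 1 / 2 * (1 / c) := by
      intro c hc
      obtain ⟨h3, h4⟩ := ProfC_540.Adm.const hc
      have h5 := hmin 0 hy _ h3
      have h6 : Je R α 1 0 ξ 0 (fun _ => c) = 1 / 2 * (1 / c) := by
        unfold Je
        rw [h4, R.Q_const]
        simp
      rw [h6] at h5
      exact h1.trans h5
    have h7 : redF N α ξ x ≤ 0 := by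
      refine le_of_forall_pos_le_add fun δ hδ => ?_
      have := h2 (1 / (2 * δ)) (by positivity)
      have e : 1 / 2 * (1 / (1 / (2 * δ))) = δ := by field_simp
      rw [e] at this
      linarith
    have h8 : redF N α ξ 0 = 0 := by
      unfold redF
      rw [hN.sub.zero]
      simp
    rw [h8]; exact h7
  · obtain ⟨D', hD', hv⟩ := exists_redF hN (ξ := ξ) hα hy0
    rw [← hv]
    exact h1.trans (hmin y hy D' hD')

include hN in
/-- At a minimiser the profile is optimal for `x`. -/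
lemma val_eq {α : ℝ} (hα : 0 < α) {x : H} (hxK : x ∈ K) (hx : x ≠ 0) {D : ℝ → ℝ} (hD : Adm 0 D)
    (hmin : ∀ y ∈ K, ∀ D', Adm 0 D' → Je R α 1 0 ξ x D ≤ Je R α 1 0 ξ y D') :
    val R x (fun t => Real.sqrt α * D t) = N x := by
  have hs : 0 < Real.sqrt α := Real.sqrt_pos.2 hα
  refine le_antisymm ?_ (hN.le_val x _ (adm_smul hD hs))
  obtain ⟨D', hD', hv⟩ := exists_redF hN (ξ := ξ) hα hx
  have h1 := hmin x hxK D' hD'
  rw [hv, Je_scale R hα ξ x hD] at h1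
  unfold redF at h1
  rw [mul_one] at h1
  have h2 : Real.sqrt α * val R x (fun t => Real.sqrt α * D t) ≤ Real.sqrt α * N x := by linarith
  exact le_of_mul_le_mul_left h2 hs

include hK in
/-- Identification with the penalised minimiser. -/
lemma eq_isMin {α κ ε : ℝ} (hα : 0 < α) (hε : 0 < ε) (hεα : κ - ε = 1 / Real.sqrt α)
    (hNs : SubLin N) {x : H} (hxK : x ∈ K) (hmin : ∀ y ∈ K, redF N α ξ x ≤ redF N α ξ y)
    {Y : H} (hY : IsMin K N ξ κ ε Y) : x = ε • Y := by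
  have hs : 0 < Real.sqrt α := Real.sqrt_pos.2 hα
  have hs2 : Real.sqrt α * Real.sqrt α = α := Real.mul_self_sqrt hα.le
  have key : ∀ z : H, redF N α ξ (ε • z) = (α * ε ^ 2) *
      (Gf N ξ κ ε z + (1 / 2 : ℝ) * ‖z‖ ^ 2) := by
    intro z
    unfold redF Gf
    rw [hεα, inner_smul_left, hNs.smul ε hε.le, norm_smul, Real.norm_eq_abs, abs_of_pos hε]
    simp only [conj_trivial]
    have h1 : Real.sqrt α * (ε * N z) = α * ε * (1 / Real.sqrt α * N z) := by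
      field_simp
      rw [sq, hs2, mul_comm]
    rw [h1]
    field_simp
    ring
  set z : H := ε⁻¹ • x with hz
  have hx : x = ε • z := by rw [hz, smul_smul, mul_inv_cancel₀ hε.ne', one_smul]
  have hzK : z ∈ K := hK.smul _ (inv_pos.2 hε).le _ hxK
  have h1 := hmin (ε • Y) (hK.smul _ hε.le _ hY.1)
  rw [hx, key, key] at h1
  have h2 : Gf N ξ κ ε z + (1 / 2 : ℝ) * ‖z‖ ^ 2 ≤ Gf N ξ κ ε Y + (1 / 2 : ℝ) * ‖Y‖ ^ 2 :=
    le_of_mul_le_mul_left h1 (by positivity)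
  have h3 := hY.2 z hzK
  have h4 : ‖z - Y‖ ^ 2 ≤ 0 := by linarith
  have h5 : z = Y := by
    have : ‖z - Y‖ = 0 := by
      have := sq_nonneg ‖z - Y‖
      exact pow_eq_zero_iff (two_ne_zero) |>.1 (le_antisymm h4 this)
    exact sub_eq_zero.1 (norm_eq_zero.1 this)
  rw [hx, h5]

end OneAlpha

/-- **Node F**: passage to the critical density. -/
theorem nodeF {R : Res H} {N : H → ℝ} (hN : RedNorm R N) {K : Set H} (hK : ClCone K)
    {e ξ : H} (heP : ∀ x, |⟪e, x⟫| ≤ ‖R.P 0 x‖) (heK : ∀ x ∈ K, 0 ≤ ⟪e, x⟫)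
    {αc η : ℝ} (hαc : 0 < αc) (hη : 0 < η)
    (hcrit : ∀ x ∈ K, ∀ D, Adm 0 D → 0 ≤ Je R αc 0 0 ξ x D)
    {x : ℝ → H} {D : ℝ → ℝ → ℝ}
    (hxK : ∀ α, αc < α → α < αc + η → x α ∈ K)
    (hDA : ∀ α, αc < α → α < αc + η → Adm 0 (D α))
    (hmin : ∀ α, αc < α → α < αc + η →
      ∀ y ∈ K, ∀ D', Adm 0 D' → Je R α 1 0 ξ (x α) (D α) ≤ Je R α 1 0 ξ y D')
    (hne : ∀ α, αc < α → α < αc + η → x α ≠ 0)
    {C : ℝ} (h3a : ∀ α, αc < α → α < αc + η → ‖x α‖ ≤ C * ⟪e, x α⟫) :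
    ∃ (xJ : H) (DJ : ℝ → ℝ), xJ ∈ K ∧ Adm 0 DJ ∧ Je R αc 0 0 ξ xJ DJ = 0 ∧ ⟪e, xJ⟫ = 1 ∧
      (∀ α, αc < α → α < αc + η → 0 < ⟪e, x α⟫) ∧
      Tendsto (fun α => (⟪e, x α⟫)⁻¹ • x α) (𝓝[>] αc) (𝓝 xJ) ∧
      Tendsto x (𝓝[>] αc) (𝓝 0) ∧
      (∀ T ∈ Ico (0 : ℝ) 1,
        TendstoUniformlyOn (fun α t => ⟪e, x α⟫ * D α t) DJ (𝓝[>] αc) (Icc 0 T)) ∧
      Tendsto (fun α => R.Dop (D α) (x α)) (𝓝[>] αc) (𝓝 (R.Dop DJ xJ)) := by
  classical
  set κ : ℝ := 1 / Real.sqrt αc with hκ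
  have hsc : 0 < Real.sqrt αc := Real.sqrt_pos.2 hαc
  have hκ0 : 0 < κ := by positivity
  have hpos : ∀ α, αc < α → α < αc + η → 0 < ⟪e, x α⟫ := by
    intro α h1 h2
    have h3 := heK _ (hxK α h1 h2)
    have h4 := h3a α h1 h2
    have h5 : 0 < ‖x α‖ := norm_pos_iff.2 (hne α h1 h2)
    rcases h3.lt_or_eq with h | h
    · exact h
    · rw [← h, mul_zero] at h4
      exact absurd h4 (not_le.2 h5)
  -- g ≥ 0
  have hN0 : ∀ y, 0 ≤ N y := fun y => (norm_nonneg _).trans (hN.ge y)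
  have hg : ∀ y ∈ K, 0 ≤ ⟪y, ξ⟫ + κ * N y := by
    intro y hy
    by_cases hy0 : y = 0
    · subst hy0
      rw [hN.sub.zero]
      simp
    · obtain ⟨D', hD', hv⟩ := hN.attained y hy0
      have h1 := hcrit y hy (fun t => (Real.sqrt αc)⁻¹ * D' t) (adm_smul hD' (inv_pos.2 hsc))
      rw [Je_scale R hαc ξ y (adm_smul hD' (inv_pos.2 hsc))] at h1
      have h2 : (fun t => Real.sqrt αc * ((Real.sqrt αc)⁻¹ * D' t)) = D' := by
        funext t
        field_simp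
      rw [h2, hv] at h1
      have h3 : αc * (⟪y, ξ⟫ + κ * N y) = αc * ⟪y, ξ⟫ + αc * 0 / 2 * ‖y‖ ^ 2
          + Real.sqrt αc * N y := by
        have : αc * κ = Real.sqrt αc := by
          rw [hκ]
          have := Real.mul_self_sqrt hαc.le
          field_simp
          rw [sq, this]
        rw [mul_add, ← mul_assoc, this]
        ring
      rw [← h3] at h1
      exact nonneg_of_mul_nonneg_right h1 hαc
  -- penalised minimisers
  have hexY : ∀ ε : ℝ, ∃ Y : H, 0 < ε → ε < κ → IsMin K N ξ κ ε Y := by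
    intro ε
    by_cases h : 0 < ε ∧ ε < κ
    · obtain ⟨Y, hY⟩ := exists_isMin hK hN.sub hN0 ξ h.1 h.2.le
      exact ⟨Y, fun _ _ => hY⟩
    · exact ⟨0, fun h1 h2 => absurd ⟨h1, h2⟩ h⟩
  choose Y hY using hexY
  -- the parameter
  set E : ℝ → ℝ := fun α => κ - 1 / Real.sqrt α with hE
  have hEpos : ∀ α, αc < α → 0 < E α := by
    intro α h
    have h1 : Real.sqrt αc < Real.sqrt α := Real.sqrt_lt_sqrt hαc.le h
    have h2 : 1 / Real.sqrt α < κ := one_div_lt_one_div_of_lt hsc h1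
    simp only [hE]; linarith
  have hElt : ∀ α, αc < α → E α < κ := by
    intro α h
    have : 0 < 1 / Real.sqrt α := by
      have : 0 < Real.sqrt α := Real.sqrt_pos.2 (hαc.trans h)
      positivity
    simp only [hE]; linarith
  have hxY : ∀ α, αc < α → α < αc + η → x α = E α • Y (E α) := by
    intro α h1 h2
    exact eq_isMin hK (hαc.trans h1) (hEpos α h1) (by simp only [hE]; ring) hN.sub (hxK α h1 h2)
      (redF_min hN (hαc.trans h1) (hDA α h1 h2) (hmin α h1 h2)) (hY _ (hEpos α h1) (hElt α h1))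
  -- inverse parametrisation
  set A : ℝ → ℝ := fun ε => (1 / (κ - ε)) ^ 2 with hA
  have hsη : 0 < Real.sqrt (αc + η) := Real.sqrt_pos.2 (by linarith)
  have hε1 : 0 < E (αc + η) := hEpos _ (by linarith)
  have hAprop : ∀ ε ∈ Ioo 0 (E (αc + η)), αc < A ε ∧ A ε < αc + η ∧ E (A ε) = ε := by
    intro ε hε
    have hlt : ε < κ := hε.2.trans (hElt _ (by linarith))
    have h1 : 0 < κ - ε := by linarith
    have h2 : Real.sqrt (A ε) = 1 / (κ - ε) := by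
      simp only [hA]
      rw [Real.sqrt_sq (by positivity)]
    have h3 : E (A ε) = ε := by
      simp only [hE]
      rw [h2]
      field_simp
      ring
    have hAp : 0 < A ε := by simp only [hA]; positivity
    refine ⟨?_, ?_, h3⟩
    · by_contra hcon
      push Not at hcon
      have h4 : Real.sqrt (A ε) ≤ Real.sqrt αc := Real.sqrt_le_sqrt hcon
      have h5 : κ ≤ 1 / Real.sqrt (A ε) :=
        one_div_le_one_div_of_le (Real.sqrt_pos.2 hAp) h4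
      have h6 : 1 / Real.sqrt (A ε) = κ - ε := by rw [h2]; field_simp
      linarith [hε.1]
    · by_contra hcon
      push Not at hcon
      have h4 : Real.sqrt (αc + η) ≤ Real.sqrt (A ε) := Real.sqrt_le_sqrt hcon
      have h5 : 1 / Real.sqrt (A ε) ≤ 1 / Real.sqrt (αc + η) :=
        one_div_le_one_div_of_le hsη h4
      have h6 : 1 / Real.sqrt (A ε) = κ - ε := by rw [h2]; field_simp
      have h7 := hε.2
      simp only [hE] at h7
      linarith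
  have hevε : ∀ᶠ ε in 𝓝[>] (0 : ℝ), ε ∈ Ioo 0 (E (αc + η)) := Ioo_mem_nhdsGT hε1
  have hYx : ∀ ε ∈ Ioo 0 (E (αc + η)), x (A ε) = ε • Y ε := by
    intro ε hε
    obtain ⟨h1, h2, h3⟩ := hAprop ε hε
    have := hxY (A ε) h1 h2
    rwa [h3] at this
  have hC : ∀ᶠ ε in 𝓝[>] (0 : ℝ), ‖Y ε‖ ≤ C * ⟪e, Y ε⟫ := by
    filter_upwards [hevε] with ε hε
    obtain ⟨h1, h2, h3⟩ := hAprop ε hε
    have h4 := h3a (A ε) h1 h2
    rw [hYx ε hε, norm_smul, Real.norm_eq_abs, abs_of_pos hε.1, inner_smul_right] at h4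
    have h5 : ε * ‖Y ε‖ ≤ ε * (C * ⟪e, Y ε⟫) := by linarith
    exact le_of_mul_le_mul_left h5 hε.1
  have hYne : ∃ᶠ ε in 𝓝[>] (0 : ℝ), Y ε ≠ 0 := by
    apply Eventually.frequently
    filter_upwards [hevε] with ε hε
    obtain ⟨h1, h2, h3⟩ := hAprop ε hε
    have h4 := hne (A ε) h1 h2
    rw [hYx ε hε] at h4
    exact fun h => h4 (by rw [h, smul_zero])
  obtain ⟨y0, hy0K, hy0, hg0, hey0, -, -, -⟩ := penalty_limit hK hN.sub
    (fun z => (heP z).trans (hN.ge z)) heK hκ0 hg hY hC hYne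
  -- convergence of E α
  have hEt : Tendsto E (𝓝[>] αc) (𝓝[>] 0) := by
    rw [tendsto_nhdsWithin_iff]
    constructor
    · have h1 : ContinuousAt E αc := by
        simp only [hE]
        apply ContinuousAt.sub continuousAt_const
        apply ContinuousAt.div continuousAt_const (Real.continuous_sqrt.continuousAt)
        exact hsc.ne'
      have h2 : E αc = 0 := by simp only [hE, hκ]; ring
      have h3 := h1.tendsto
      rw [h2] at h3
      exact h3.mono_left nhdsWithin_le_nhds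
    · filter_upwards [self_mem_nhdsWithin] with α hα
      exact hEpos α hα
  have hevα : ∀ᶠ α in 𝓝[>] αc, αc < α ∧ α < αc + η := by
    filter_upwards [Ioo_mem_nhdsGT (show αc < αc + η by linarith)] with α hα
    exact hα
  have hYt : Tendsto (fun α => Y (E α)) (𝓝[>] αc) (𝓝 y0) := hy0.comp hEt
  set c0 : ℝ := ⟪e, y0⟫ with hc0
  set xJ : H := c0⁻¹ • y0 with hxJ
  have hxJK : xJ ∈ K := hK.smul _ (inv_pos.2 hey0).le _ hy0K
  have hexJ : ⟪e, xJ⟫ = 1 := by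
    rw [hxJ, inner_smul_right, ← hc0, inv_mul_cancel₀ hey0.ne']
  have hxJ0 : xJ ≠ 0 := by
    intro h
    rw [h, inner_zero_right] at hexJ
    norm_num at hexJ
  have hhat : Tendsto (fun α => (⟪e, x α⟫)⁻¹ • x α) (𝓝[>] αc) (𝓝 xJ) := by
    have hc : Tendsto (fun α => ⟪e, Y (E α)⟫) (𝓝[>] αc) (𝓝 c0) := by
      have hcc : Continuous (fun z : H => ⟪e, z⟫) := by fun_prop
      exact (hcc.tendsto y0).comp hYt
    have h1 : Tendsto (fun α => (⟪e, Y (E α)⟫)⁻¹ • Y (E α)) (𝓝[>] αc) (𝓝 xJ) :=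
      (hc.inv₀ hey0.ne').smul hYt
    refine h1.congr' ?_
    filter_upwards [hevα] with α hα
    rw [hxY α hα.1 hα.2, inner_smul_right, smul_smul, mul_inv]
    congr 1
    have := (hEpos α hα.1).ne'
    field_simp
  have hx0 : Tendsto x (𝓝[>] αc) (𝓝 0) := by
    have h1 : Tendsto (fun α => E α • Y (E α)) (𝓝[>] αc) (𝓝 ((0 : ℝ) • y0)) :=
      (tendsto_nhds_of_tendsto_nhdsWithin hEt).smul hYt
    rw [zero_smul] at h1
    refine h1.congr' ?_
    filter_upwards [hevα] with α hα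
    exact (hxY α hα.1 hα.2).symm
  -- profiles
  obtain ⟨D0, hD0, hv0⟩ := hN.attained xJ hxJ0
  set DJ : ℝ → ℝ := fun t => (Real.sqrt αc)⁻¹ * D0 t with hDJ
  have hDJA : Adm 0 DJ := adm_smul hD0 (inv_pos.2 hsc)
  have hsD : (fun t => Real.sqrt αc * DJ t) = D0 := by
    funext t
    simp only [hDJ]
    field_simp
  have hJ0 : Je R αc 0 0 ξ xJ DJ = 0 := by
    rw [Je_scale R hαc ξ xJ hDJA, hsD, hv0]
    have h1 : ⟪xJ, ξ⟫ + κ * N xJ = 0 := by
      rw [hxJ, hN.sub.smul _ (inv_pos.2 hey0).le, inner_smul_left]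
      simp only [conj_trivial]
      have : c0⁻¹ * ⟪y0, ξ⟫ + κ * (c0⁻¹ * N y0) = c0⁻¹ * (⟪y0, ξ⟫ + κ * N y0) := by ring
      rw [this, hg0, mul_zero]
    have h2 : αc * κ = Real.sqrt αc := by
      rw [hκ]
      have := Real.mul_self_sqrt hαc.le
      field_simp
      rw [sq, this]
    have h3 : αc * ⟪xJ, ξ⟫ + αc * 0 / 2 * ‖xJ‖ ^ 2 + Real.sqrt αc * N xJ
        = αc * (⟪xJ, ξ⟫ + κ * N xJ) := by rw [← h2]; ring
    rw [h3, h1, mul_zero]
  have hDhat : ∀ T ∈ Ico (0 : ℝ) 1, TendstoUniformlyOn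
      (fun α t => ⟪e, x α⟫ * (Real.sqrt α * D α t)) D0 (𝓝[>] αc) (Icc 0 T) := by
    refine hN.cont hxJ0 hhat ?_ hD0 hv0
    filter_upwards [hevα] with α hα
    have hp := hpos α hα.1 hα.2
    have hsα : 0 < Real.sqrt α := Real.sqrt_pos.2 (hαc.trans hα.1)
    have hA1 : Adm 0 (fun t => Real.sqrt α * D α t) := adm_smul (hDA α hα.1 hα.2) hsα
    refine ⟨adm_smul hA1 hp, ?_⟩
    have h1 := val_smul R (inv_pos.2 hp) (x α) hA1
    rw [inv_inv] at h1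
    rw [h1, val_eq hN (hαc.trans hα.1) (hxK α hα.1 hα.2) (hne α hα.1 hα.2) (hDA α hα.1 hα.2)
      (hmin α hα.1 hα.2), hN.sub.smul _ (inv_pos.2 hp).le]
  have hDt : ∀ T ∈ Ico (0 : ℝ) 1,
        TendstoUniformlyOn (fun α t => ⟪e, x α⟫ * D α t) DJ (𝓝[>] αc) (Icc 0 T) := by
    intro T hT
    have h1 := hDhat T hT
    have hsq : Tendsto (fun α => (Real.sqrt α)⁻¹) (𝓝[>] αc) (𝓝 (Real.sqrt αc)⁻¹) := by
      have : Tendsto (fun α => Real.sqrt α) (𝓝[>] αc) (𝓝 (Real.sqrt αc)) :=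
        (Real.continuous_sqrt.tendsto αc).mono_left nhdsWithin_le_nhds
      exact this.inv₀ hsc.ne'
    rw [Metric.tendstoUniformlyOn_iff] at h1 ⊢
    intro δ hδ
    set M : ℝ := D0 0 + 1 with hM
    have hM0 : 0 < M := by
      have := hD0.prof.nonneg (t := 0) ⟨le_rfl, zero_le_one⟩
      linarith
    have hi0 : 0 < (Real.sqrt αc)⁻¹ := inv_pos.2 hsc
    have h2 := h1 (min 1 (δ / (2 * ((Real.sqrt αc)⁻¹ + 1)))) (by positivity)
    have h3 := (Metric.tendsto_nhds.1 hsq) (min 1 (δ / (2 * M))) (by positivity)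
    filter_upwards [h2, h3, hevα] with α h2 h3 hα t ht
    have hsα : 0 < Real.sqrt α := Real.sqrt_pos.2 (hαc.trans hα.1)
    have h4 := h2 t ht
    rw [Real.dist_eq] at h3 h4 ⊢
    have e1 : ⟪e, x α⟫ * D α t = (Real.sqrt α)⁻¹ * (⟪e, x α⟫ * (Real.sqrt α * D α t)) := by
      field_simp
    rw [e1]
    set u := ⟪e, x α⟫ * (Real.sqrt α * D α t) with hu
    set i := (Real.sqrt α)⁻¹ with hi
    simp only [hDJ]
    set i0 := (Real.sqrt αc)⁻¹ with hi0'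
    have ht1 : t ∈ Icc (0 : ℝ) 1 := ⟨ht.1, ht.2.trans hT.2.le⟩
    have hD0t : |D0 t| ≤ D0 0 := hD0.prof.abs_le ht1
    have h5 : |D0 t - u| < 1 := lt_of_lt_of_le h4 (min_le_left _ _)
    have h6 : |D0 t - u| < δ / (2 * (i0 + 1)) := lt_of_lt_of_le h4 (min_le_right _ _)
    have h7 : |i - i0| < δ / (2 * M) := lt_of_lt_of_le h3 (min_le_right _ _)
    have h8 : |i - i0| < 1 := lt_of_lt_of_le h3 (min_le_left _ _)
    have e2 : i0 * D0 t - i * u = i * (D0 t - u) - (i - i0) * D0 t := by ring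
    rw [e2]
    have hipos : 0 < i := inv_pos.2 hsα
    have h9 : i < i0 + 1 := by
      have := (abs_lt.1 h8).2
      linarith
    calc |i * (D0 t - u) - (i - i0) * D0 t| ≤ |i * (D0 t - u)| + |(i - i0) * D0 t| :=
          abs_sub _ _
      _ = i * |D0 t - u| + |i - i0| * |D0 t| := by rw [abs_mul, abs_mul, abs_of_pos hipos]
      _ ≤ (i0 + 1) * |D0 t - u| + |i - i0| * M := by
          have a1 : i * |D0 t - u| ≤ (i0 + 1) * |D0 t - u| :=
            mul_le_mul_of_nonneg_right h9.le (abs_nonneg _)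
          have a2 : |i - i0| * |D0 t| ≤ |i - i0| * M :=
            mul_le_mul_of_nonneg_left (by linarith) (abs_nonneg _)
          linarith
      _ < (i0 + 1) * (δ / (2 * (i0 + 1))) + δ / (2 * M) * M := by
          have a1 : (i0 + 1) * |D0 t - u| < (i0 + 1) * (δ / (2 * (i0 + 1))) :=
            mul_lt_mul_of_pos_left h6 (by linarith)
          have a2 : |i - i0| * M < δ / (2 * M) * M := mul_lt_mul_of_pos_right h7 hM0
          linarith
      _ = δ := by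
          field_simp
          ring
  -- convergence of Dop
  have hDop : Tendsto (fun α => R.Dop (D α) (x α)) (𝓝[>] αc) (𝓝 (R.Dop DJ xJ)) := by
    have h1 : Tendsto (fun α => R.Dop (fun t => ⟪e, x α⟫ * D α t) ((⟪e, x α⟫)⁻¹ • x α))
        (𝓝[>] αc) (𝓝 (R.Dop DJ xJ)) := by
      refine R.Dop_tendsto (B := DJ 0 + 1) ?_ hDJA.prof.cont ?_ ?_ hDt hhat
      · filter_upwards [hevα] with α hα
        exact ((hDA α hα.1 hα.2).prof.cont).const_smul ⟪e, x α⟫ |>.congr fun t _ => by simp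
      · have h2 := (Metric.tendstoUniformlyOn_iff.1 (hDt 0 ⟨le_rfl, zero_lt_one⟩)) 1 one_pos
        filter_upwards [hevα, h2] with α hα h2 t ht
        have hp := hpos α hα.1 hα.2
        have h3 := h2 0 ⟨le_rfl, le_rfl⟩
        rw [Real.dist_eq] at h3
        have h4 : |D α t| ≤ D α 0 := (hDA α hα.1 hα.2).prof.abs_le ht
        rw [abs_mul, abs_of_pos hp]
        have h5 : ⟪e, x α⟫ * |D α t| ≤ ⟪e, x α⟫ * D α 0 := mul_le_mul_of_nonneg_left h4 hp.le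
        have h6 := (abs_lt.1 h3).1
        linarith
      · intro t ht
        have := hDJA.prof.abs_le ht
        linarith
    refine h1.congr' ?_
    filter_upwards [hevα] with α hα
    have hp := hpos α hα.1 hα.2
    rw [R.Dop_smul (hDA α hα.1 hα.2).prof.cont, map_smul]
    simp only [smul_apply]
    rw [smul_smul, inv_mul_cancel₀ hp.ne', one_smul]
  exact ⟨xJ, DJ, hxJK, hDJA, hJ0, hexJ, hpos, hhat, hx0, hDt, hDop⟩

end Crest.Agent.R146.NormF2_491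
end

-- ▼ part R146/NormF3_491
section

/-!
Row 146, package P5, node F (helper491): the reduced norm
`Nf R x = inf_D ½ (Q D x + Ent 0 D)` satisfies `RedNorm` ((C1), (C2) at `e = 0`).
-/

set_option autoImplicit false

namespace Crest.Agent.R146.NormF3_491

open Set Filter Topology MeasureTheory
open scoped RealInnerProductSpace
open Crest.Agent.R146 Crest.Agent.R146.Hilb Crest.Agent.R146.HilbE Crest.Agent.R146.ProfB_540
open Crest.Agent.R146.NormF1_491 Crest.Agent.R146.NormF2_491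

variable {H : Type*} [NormedAddCommGroup H] [InnerProductSpace ℝ H] [CompleteSpace H]

/-- values of admissible profiles -/
def vals (R : Res H) (x : H) : Set ℝ := {r | ∃ D, Adm 0 D ∧ r = val R x D}

/-- the reduced norm -/
noncomputable def Nf (R : Res H) (x : H) : ℝ := sInf (vals R x)

lemma val_nonneg (R : Res H) (x : H) {D : ℝ → ℝ} (hD : Adm 0 D) : 0 ≤ val R x D := by
  unfold val
  have h1 := R.Q_nonneg hD.prof.cont (fun t ht => hD.prof.nonneg ht) x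
  have h2 := ProfC_540.Ent_nonneg hD
  linarith

lemma bdd (R : Res H) (x : H) : BddBelow (vals R x) :=
  ⟨0, by rintro _ ⟨D, hD, rfl⟩; exact val_nonneg R x hD⟩

omit [CompleteSpace H] in
lemma vals_ne (R : Res H) (x : H) : (vals R x).Nonempty :=
  ⟨_, fun _ => 1, (ProfC_540.Adm.const one_pos).1, rfl⟩

lemma Nf_le (R : Res H) (x : H) {D : ℝ → ℝ} (hD : Adm 0 D) : Nf R x ≤ val R x D :=
  csInf_le (bdd R x) ⟨D, hD, rfl⟩

lemma Nf_nonneg (R : Res H) (x : H) : 0 ≤ Nf R x :=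
  le_csInf (vals_ne R x) (by rintro _ ⟨D, hD, rfl⟩; exact val_nonneg R x hD)

lemma exists_lt (R : Res H) (x : H) {δ : ℝ} (hδ : 0 < δ) :
    ∃ D, Adm 0 D ∧ val R x D < Nf R x + δ := by
  obtain ⟨_, ⟨D, hD, rfl⟩, h⟩ := exists_lt_of_csInf_lt (vals_ne R x)
    (show sInf (vals R x) < Nf R x + δ by unfold Nf; linarith)
  exact ⟨D, hD, h⟩

lemma val_const (R : Res H) (x : H) {c : ℝ} (hc : 0 < c) :
    val R x (fun _ => c) = 1 / 2 * (c * ‖x‖ ^ 2 + 1 / c) := by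
  unfold val
  rw [R.Q_const, (ProfC_540.Adm.const hc).2]

lemma Nf_zero (R : Res H) : Nf R (0 : H) = 0 := by
  refine le_antisymm ?_ (Nf_nonneg R 0)
  refine le_of_forall_pos_le_add fun δ hδ => ?_
  have h1 := Nf_le R (0 : H) (ProfC_540.Adm.const (show 0 < 1 / (2 * δ) by positivity)).1
  rw [val_const R 0 (by positivity)] at h1
  have e : 1 / 2 * (1 / (2 * δ) * ‖(0 : H)‖ ^ 2 + 1 / (1 / (2 * δ))) = δ := by
    rw [norm_zero]
    field_simp
    ring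
  rw [e] at h1
  linarith

lemma Nf_le_norm (R : Res H) (x : H) : Nf R x ≤ ‖x‖ := by
  by_cases hx : x = 0
  · subst hx
    rw [Nf_zero, norm_zero]
  · have hn : 0 < ‖x‖ := norm_pos_iff.2 hx
    have h1 := Nf_le R x (ProfC_540.Adm.const (show 0 < 1 / ‖x‖ by positivity)).1
    rw [val_const R x (by positivity)] at h1
    have e : 1 / 2 * (1 / ‖x‖ * ‖x‖ ^ 2 + 1 / (1 / ‖x‖)) = ‖x‖ := by
      field_simp
      ring
    rwa [e] at h1

lemma Nf_smul (R : Res H) {t : ℝ} (ht : 0 ≤ t) (x : H) : Nf R (t • x) = t * Nf R x := by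
  have key : ∀ (s : ℝ), 0 < s → ∀ y : H, Nf R (s • y) ≤ s * Nf R y := by
    intro s hs y
    refine le_of_forall_pos_le_add fun δ hδ => ?_
    obtain ⟨D, hD, h⟩ := exists_lt R y (show 0 < δ / s by positivity)
    have h1 := Nf_le R (s • y) (adm_smul hD (inv_pos.2 hs))
    rw [val_smul R hs y hD] at h1
    have h2 : s * val R y D ≤ s * (Nf R y + δ / s) := mul_le_mul_of_nonneg_left h.le hs.le
    have h3 : s * (Nf R y + δ / s) = s * Nf R y + δ := by field_simp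
    linarith
  rcases ht.eq_or_lt with h0 | h0
  · rw [← h0, zero_smul, Nf_zero, zero_mul]
  · refine le_antisymm (key t h0 x) ?_
    have h1 := key t⁻¹ (inv_pos.2 h0) (t • x)
    rw [smul_smul, inv_mul_cancel₀ h0.ne', one_smul] at h1
    have h2 := mul_le_mul_of_nonneg_left h1 h0.le
    rw [← mul_assoc, mul_inv_cancel₀ h0.ne', one_mul] at h2
    exact h2

lemma val_par (R : Res H) (x y : H) {D E : ℝ → ℝ} (hD : Adm 0 D) (hE : Adm 0 E) :
    Adm 0 (par D E) ∧ val R (x + y) (par D E) ≤ val R x D + val R y E := by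
  have h1 := ProfC_540.Adm.par hD hE
  rw [add_zero] at h1
  refine ⟨h1.1, ?_⟩
  have hcp : ContinuousOn (par D E) (Icc 0 1) := h1.1.prof.cont
  have hc2 : ContinuousOn (fun t => 2 * par D E t) (Icc 0 1) := hcp.const_smul (2 : ℝ)
  have h2 := R.Q_harm_mid (f := fun t => 2 * par D E t) hc2 hD.prof.cont hE.prof.cont
    hD.prof.pos hE.prof.pos (fun t _ => by
      unfold par ProfA_540.psum
      exact le_of_eq (by ring)) x y
  rw [R.Q_smul_vec, R.Q_smul hcp] at h2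
  unfold val
  rw [h1.2]
  linarith

lemma Nf_add (R : Res H) (x y : H) : Nf R (x + y) ≤ Nf R x + Nf R y := by
  refine le_of_forall_pos_le_add fun δ hδ => ?_
  obtain ⟨D, hD, h⟩ := exists_lt R x (show 0 < δ / 2 by positivity)
  obtain ⟨E, hE, k⟩ := exists_lt R y (show 0 < δ / 2 by positivity)
  obtain ⟨h1, h2⟩ := val_par R x y hD hE
  have h3 := Nf_le R (x + y) h1
  linarith

lemma subLin (R : Res H) : SubLin (Nf R) where
  smul := fun t ht x => Nf_smul R ht x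
  add := Nf_add R
  le := Nf_le_norm R

lemma val_ge (R : Res H) (x : H) {D : ℝ → ℝ} (hD : Adm 0 D) : ‖R.P 0 x‖ ≤ val R x D := by
  have h1 := R.Q_ge_norm_P hD.prof.cont hD.prof.anti hD.prof.one (t := 0)
    ⟨le_rfl, zero_le_one⟩ x
  have h2 := ProfD_540.one_le_zero_mul_Ent hD
  have h3 : 0 < D 0 := hD.prof.pos_zero
  have h4 : 1 / D 0 ≤ Ent 0 D := by
    rw [div_le_iff₀ h3]; linarith
  unfold val
  set p := ‖R.P 0 x‖ with hp
  have h5 : 2 * p ≤ D 0 * p ^ 2 + 1 / D 0 := by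
    have e : D 0 * p ^ 2 + 1 / D 0 - 2 * p = (D 0 * p - 1) ^ 2 / D 0 := by
      field_simp
      ring
    have : 0 ≤ (D 0 * p - 1) ^ 2 / D 0 := by positivity
    linarith
  linarith

lemma Nf_ge (R : Res H) (x : H) : ‖R.P 0 x‖ ≤ Nf R x :=
  le_csInf (vals_ne R x) (by rintro _ ⟨D, hD, rfl⟩; exact val_ge R x hD)

/-- strict convexity in the profile -/
lemma val_mean (R : Res H) (x : H) {D E : ℝ → ℝ} (hD : Adm 0 D) (hE : Adm 0 E) {C : ℝ}
    (hC : D 0 ≤ C) (hC' : E 0 ≤ C) :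
    Nf R x + (∫ t in (0 : ℝ)..1, (D t - E t) ^ 2) / (8 * C ^ 3) ≤ (val R x D + val R x E) / 2 := by
  obtain ⟨h1, h2⟩ := ProfC_540.Adm.amean hD hE hC hC'
  have h3 := Nf_le R x h1
  have hq : R.Q (amean D E) x = (R.Q D x + R.Q E x) / 2 := by
    have e1 : amean D E = fun t => (1 / 2 : ℝ) * (D t + E t) := by
      funext t
      unfold amean
      ring
    have e2 := R.Q_smul (g := fun t => D t + E t) (hD.prof.cont.add hE.prof.cont) (1 / 2 : ℝ) x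
    rw [e1, e2, R.Q_add hD.prof.cont hE.prof.cont]
    ring
  unfold val at h3 ⊢
  rw [hq] at h3
  have hCp : 0 < C := hD.prof.pos_zero.trans_le hC
  have e2 : (∫ t in (0 : ℝ)..1, (D t - E t) ^ 2) / (8 * C ^ 3)
      = 1 / 2 * ((∫ t in (0 : ℝ)..1, (D t - E t) ^ 2) / (4 * C ^ 3)) := by
    field_simp
    ring
  rw [e2]
  linarith

/-- a bound for `D 0` from the value, uniform near a non-zero `x`. -/
lemma D0_bound (R : Res H) {x : H} (hx : x ≠ 0) : ∃ r : ℝ, 0 < r ∧ ∃ k : ℝ, 0 < k ∧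
    ∀ y : H, ‖y - x‖ ≤ r → ∀ D, Adm 0 D → D 0 ≤ k * val R y D := by
  have hn : 0 < ‖x‖ := norm_pos_iff.2 hx
  have h1 : ∀ᶠ t in 𝓝[<] (1 : ℝ), ‖x‖ / 2 < ‖R.P t x‖ :=
    (R.left x).norm.eventually (lt_mem_nhds (by linarith))
  have h2 : ∀ᶠ t in 𝓝[<] (1 : ℝ), t ∈ Ico (0 : ℝ) 1 := by
    filter_upwards [Ioo_mem_nhdsLT (show (0 : ℝ) < 1 by norm_num)] with t ht
    exact ⟨ht.1.le, ht.2⟩
  obtain ⟨t, h3, h4⟩ := (h1.and h2).exists
  have h1t : 0 < 1 - t := by linarith [h4.2]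
  refine ⟨‖x‖ / 4, by positivity, 2 / ((1 - t) * (‖x‖ / 4) ^ 2), by positivity, ?_⟩
  intro y hy D hD
  have h5 : ‖x‖ / 4 ≤ ‖R.P t y‖ := by
    have e1 : R.P t x = R.P t y - R.P t (y - x) := by rw [map_sub]; abel
    have e2 : ‖R.P t x‖ ≤ ‖R.P t y‖ + ‖R.P t (y - x)‖ := by
      rw [e1]; exact norm_sub_le _ _
    have e3 := R.norm_P_le h4.2.le (y - x)
    linarith
  have ht1 : t ∈ Icc (0 : ℝ) 1 := ⟨h4.1, h4.2.le⟩
  have h6 := R.Q_ge_norm_P hD.prof.cont hD.prof.anti hD.prof.one ht1 y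
  have h7 := hD.prof.lower ht1
  have h8 := ProfC_540.Ent_nonneg hD
  have h9 : D t * (‖x‖ / 4) ^ 2 ≤ D t * ‖R.P t y‖ ^ 2 := by
    apply mul_le_mul_of_nonneg_left _ (hD.prof.nonneg ht1)
    exact pow_le_pow_left₀ (by positivity) h5 2
  have h10 : D 0 * ((1 - t) * (‖x‖ / 4) ^ 2) ≤ 2 * val R y D := by
    unfold val
    have : (1 - t) * D 0 * (‖x‖ / 4) ^ 2 ≤ D t * (‖x‖ / 4) ^ 2 :=
      mul_le_mul_of_nonneg_right h7 (by positivity)
    nlinarith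
  rw [← le_div_iff₀ (by positivity)] at h10
  calc D 0 ≤ 2 * val R y D / ((1 - t) * (‖x‖ / 4) ^ 2) := h10
    _ = 2 / ((1 - t) * (‖x‖ / 4) ^ 2) * val R y D := by ring

/-- existence of the optimal profile -/
lemma attained (R : Res H) {x : H} (hx : x ≠ 0) : ∃ D, Adm 0 D ∧ val R x D = Nf R x := by
  obtain ⟨r, hr, k, hk, hb⟩ := D0_bound R hx
  have hex : ∀ n : ℕ, ∃ D, Adm 0 D ∧ val R x D < Nf R x + 1 / ((n : ℝ) + 1) := fun n =>
    exists_lt R x (by positivity)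
  choose Dn hDn hval using hex
  set C : ℝ := k * (Nf R x + 1) with hC
  have hDC : ∀ n, Dn n 0 ≤ C := by
    intro n
    have h1 := hb x (by simpa using hr.le) (Dn n) (hDn n)
    have h2 : val R x (Dn n) ≤ Nf R x + 1 := by
      have : 1 / ((n : ℝ) + 1) ≤ 1 := by
        rw [div_le_one (by positivity)]
        have : (0 : ℝ) ≤ n := Nat.cast_nonneg n
        linarith
      linarith [hval n]
    exact h1.trans (mul_le_mul_of_nonneg_left h2 hk.le)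
  have hCp : 0 < C := (hDn 0).prof.pos_zero.trans_le (hDC 0)
  have hcau : ∀ ε > 0, ∃ N, ∀ m ≥ N, ∀ n ≥ N,
      ∫ t in (0 : ℝ)..1, (Dn m t - Dn n t) ^ 2 ≤ ε := by
    intro ε hε
    obtain ⟨N, hN⟩ := exists_nat_one_div_lt (show (0 : ℝ) < ε / (8 * C ^ 3) by positivity)
    refine ⟨N, fun m hm n hn => ?_⟩
    have h1 := val_mean R x (hDn m) (hDn n) (hDC m) (hDC n)
    have h2 := hval m
    have h3 := hval n
    have h4 : 1 / ((m : ℝ) + 1) ≤ 1 / ((N : ℝ) + 1) := by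
      apply one_div_le_one_div_of_le (by positivity)
      have : (N : ℝ) ≤ m := by exact_mod_cast hm
      linarith
    have h5 : 1 / ((n : ℝ) + 1) ≤ 1 / ((N : ℝ) + 1) := by
      apply one_div_le_one_div_of_le (by positivity)
      have : (N : ℝ) ≤ n := by exact_mod_cast hn
      linarith
    have h6 : (∫ t in (0 : ℝ)..1, (Dn m t - Dn n t) ^ 2) / (8 * C ^ 3) ≤ ε / (8 * C ^ 3) := by
      linarith
    exact (div_le_div_iff_of_pos_right (by positivity)).1 h6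
  -- the limit: first convergence of the profiles
  have hlow : ∃ c : ℝ, 0 < c ∧ ∀ n, c ≤ Dn n 0 := by
    refine ⟨1 / (2 * (Nf R x + 1)), ?_, fun n => ?_⟩
    · have := Nf_nonneg R x
      positivity
    · have h1 := ProfD_540.one_le_zero_mul_Ent (hDn n)
      have h2 : Ent 0 (Dn n) ≤ 2 * (Nf R x + 1) := by
        have h3 := hval n
        have h4 := R.Q_nonneg (hDn n).prof.cont (fun t ht => (hDn n).prof.nonneg ht) x
        unfold val at h3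
        have : 1 / ((n : ℝ) + 1) ≤ 1 := by
          rw [div_le_one (by positivity)]
          have : (0 : ℝ) ≤ n := Nat.cast_nonneg n
          linarith
        linarith
      have h5 : 0 < Dn n 0 := (hDn n).prof.pos_zero
      have hNn := Nf_nonneg R x
      rw [div_le_iff₀ (by positivity)]
      nlinarith
  obtain ⟨c, hc, hlow⟩ := hlow
  obtain ⟨D, hDp, hDlim, hDu⟩ := ProfE_540.tendsto_of_cauchy (fun n => (hDn n).prof) hDC hc hlow hcau
  have hQ : Tendsto (fun n => R.Q (Dn n) x) atTop (𝓝 (R.Q D x)) := by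
    refine R.Q_tendsto_of (B := C) (Eventually.of_forall fun n => (hDn n).prof.cont) hDp.cont
      (Eventually.of_forall fun n t ht => ((hDn n).prof.abs_le ht).trans (hDC n)) ?_ ?_
      tendsto_const_nhds
    · intro t ht
      refine (hDp.abs_le ht).trans ?_
      exact le_of_tendsto' (hDlim 0 ⟨le_rfl, zero_lt_one⟩) hDC
    · intro T hT
      exact hDu T hT.2
  have hE : Adm 0 D ∧ Ent 0 D ≤ 2 * Nf R x - R.Q D x := by
    refine ProfD_540.Ent_lsc hDn hDp (fun t ht => hDlim t ⟨ht.1.le, ht.2⟩)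
      (Kn := fun n => 2 * (Nf R x + 1 / ((n : ℝ) + 1)) - R.Q (Dn n) x) (fun n => ?_) ?_
    · have := hval n
      unfold val at this
      linarith
    · have h1 : Tendsto (fun n : ℕ => 2 * (Nf R x + 1 / ((n : ℝ) + 1)) - R.Q (Dn n) x) atTop
          (𝓝 (2 * (Nf R x + 0) - R.Q D x)) :=
        ((tendsto_const_nhds.add tendsto_one_div_add_atTop_nhds_zero_nat).const_mul 2).sub hQ
      rwa [add_zero] at h1
  refine ⟨D, hE.1, le_antisymm ?_ (Nf_le R x hE.1)⟩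
  unfold val
  linarith [hE.2]

/-- continuity of the form in the vector, with an explicit bound -/
lemma Q_sub_le (R : Res H) {D : ℝ → ℝ} (hD : Adm 0 D) (x y : H) :
    |R.Q D x - R.Q D y| ≤ D 0 * (‖x - y‖ * (‖x - y‖ + 2 * ‖y‖)) := by
  have h1 := R.Q_add_vec hD.prof.cont y (x - y)
  have e : y + (x - y) = x := by abel
  rw [e] at h1
  have h2 : |⟪x - y, R.Dop D y⟫| ≤ ‖x - y‖ * (D 0 * ‖y‖) :=
    (abs_real_inner_le_norm _ _).trans (mul_le_mul_of_nonneg_left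
      (R.Dop_norm_apply_le hD.prof.cont (fun t ht => hD.prof.abs_le ht) y) (norm_nonneg _))
  have h3 : R.Q D (x - y) ≤ D 0 * ‖x - y‖ ^ 2 :=
    R.Q_le hD.prof.cont (fun t ht => hD.prof.le_zero ht) _
  have h4 : 0 ≤ R.Q D (x - y) := R.Q_nonneg hD.prof.cont (fun t ht => hD.prof.nonneg ht) _
  rw [h1]
  have h5 : R.Q D y + 2 * ⟪x - y, R.Dop D y⟫ + R.Q D (x - y) - R.Q D y
      = 2 * ⟪x - y, R.Dop D y⟫ + R.Q D (x - y) := by ring
  rw [h5, abs_le]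
  have h6 := abs_le.1 h2
  constructor <;> nlinarith [h6.1, h6.2]

/-- **(C1) + (C2) at `e = 0`.** -/
theorem redNorm (R : Res H) : RedNorm R (Nf R) where
  sub := subLin R
  ge := Nf_ge R
  le_val := fun x D hD => Nf_le R x hD
  attained := fun x hx => attained R hx
  cont := by
    intro l x D x0 D0 hx0 hx hopt hD0 hv0 T hT
    obtain ⟨r, hr, k, hk, hb⟩ := D0_bound R hx0
    have hNx : Tendsto (fun i => Nf R (x i)) l (𝓝 (Nf R x0)) :=
      ((subLin R).continuous.tendsto x0).comp hx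
    set C : ℝ := max (k * (Nf R x0 + 1)) (D0 0) with hC
    have hCD0 : D0 0 ≤ C := le_max_right _ _
    have hCp : 0 < C := hD0.prof.pos_zero.trans_le hCD0
    have hevn : ∀ᶠ i in l, ‖x i - x0‖ ≤ r := by
      have := (tendsto_iff_norm_sub_tendsto_zero.1 hx).eventually (gt_mem_nhds hr)
      exact this.mono fun i hi => hi.le
    have hevN : ∀ᶠ i in l, Nf R (x i) ≤ Nf R x0 + 1 :=
      (hNx.eventually (gt_mem_nhds (show Nf R x0 < Nf R x0 + 1 by linarith))).mono fun i hi => hi.le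
    have hDC : ∀ᶠ i in l, D i 0 ≤ C := by
      filter_upwards [hevn, hevN, hopt] with i h1 h2 h3
      have h4 := hb (x i) h1 (D i) h3.1
      rw [h3.2] at h4
      exact (h4.trans (mul_le_mul_of_nonneg_left h2 hk.le)).trans (le_max_left _ _)
    -- value of `D i` at `x0`
    have herr : Tendsto (fun i => Nf R (x i) - Nf R x0
        + C * (‖x0 - x i‖ * (‖x0 - x i‖ + 2 * ‖x i‖))) l (𝓝 0) := by
      have h1 : Tendsto (fun i => ‖x0 - x i‖) l (𝓝 0) := by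
        have := (tendsto_iff_norm_sub_tendsto_zero.1 hx)
        refine this.congr fun i => norm_sub_rev _ _
      have h2 : Tendsto (fun i => Nf R (x i) - Nf R x0
          + C * (‖x0 - x i‖ * (‖x0 - x i‖ + 2 * ‖x i‖))) l
          (𝓝 (Nf R x0 - Nf R x0 + C * (0 * (0 + 2 * ‖x0‖)))) :=
        (hNx.sub tendsto_const_nhds).add ((h1.mul (h1.add (hx.norm.const_mul 2))).const_mul C)
      simpa using h2
    have hint : ∀ᶠ i in l, ∫ t in (0 : ℝ)..1, (D i t - D0 t) ^ 2 ≤ 4 * C ^ 3 *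
        (Nf R (x i) - Nf R x0 + C * (‖x0 - x i‖ * (‖x0 - x i‖ + 2 * ‖x i‖))) := by
      filter_upwards [hDC, hopt] with i h1 h2
      have h3 := val_mean R x0 h2.1 hD0 h1 hCD0
      have h4 : val R x0 (D i) ≤ Nf R (x i) + 1 / 2 * (C * (‖x0 - x i‖ * (‖x0 - x i‖ + 2 * ‖x i‖))) := by
        have h5 := (abs_le.1 (Q_sub_le R h2.1 x0 (x i))).2
        have h6 := h2.2
        unfold val at h6 ⊢
        have h7 : D i 0 * (‖x0 - x i‖ * (‖x0 - x i‖ + 2 * ‖x i‖)) ≤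
            C * (‖x0 - x i‖ * (‖x0 - x i‖ + 2 * ‖x i‖)) :=
          mul_le_mul_of_nonneg_right h1 (by positivity)
        linarith
      rw [hv0] at h3
      have h8 : 0 ≤ C * (‖x0 - x i‖ * (‖x0 - x i‖ + 2 * ‖x i‖)) := by positivity
      have h9 : (∫ t in (0 : ℝ)..1, (D i t - D0 t) ^ 2) / (8 * C ^ 3) ≤
          1 / 2 * (Nf R (x i) - Nf R x0 + C * (‖x0 - x i‖ * (‖x0 - x i‖ + 2 * ‖x i‖))) := by
        linarith
      rw [div_le_iff₀ (by positivity)] at h9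
      linarith
    rw [Metric.tendstoUniformlyOn_iff]
    intro δ hδ
    have h1T : 0 < 1 - T := by linarith [hT.2]
    have h1 := herr.eventually (gt_mem_nhds
      (show (0 : ℝ) < δ ^ 3 * (1 - T) / (64 * C ^ 4) by positivity))
    filter_upwards [hint, h1, hopt, hDC] with i h2 h3 h4 h5 t ht
    have ht1 : t ∈ Ico (0 : ℝ) 1 := ⟨ht.1, lt_of_le_of_lt ht.2 hT.2⟩
    have h6 := ProfE_540.cube_le h4.1.prof hD0.prof h5 hCD0 ht1
    rw [Real.dist_eq, abs_sub_comm]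
    by_contra hcon
    push Not at hcon
    have h7 : δ ^ 3 ≤ |D i t - D0 t| ^ 3 := pow_le_pow_left₀ hδ.le hcon 3
    have h8 : δ ^ 3 * (1 - T) ≤ |D i t - D0 t| ^ 3 * (1 - t) := by
      apply mul_le_mul h7 (by linarith [ht.2]) h1T.le (by positivity)
    have h9 : 16 * C * ∫ t in (0 : ℝ)..1, (D i t - D0 t) ^ 2 < δ ^ 3 * (1 - T) := by
      calc 16 * C * ∫ t in (0 : ℝ)..1, (D i t - D0 t) ^ 2
          ≤ 16 * C * (4 * C ^ 3 *
        (Nf R (x i) - Nf R x0 + C * (‖x0 - x i‖ * (‖x0 - x i‖ + 2 * ‖x i‖)))) :=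
            mul_le_mul_of_nonneg_left h2 (by positivity)
        _ < 16 * C * (4 * C ^ 3 * (δ ^ 3 * (1 - T) / (64 * C ^ 4))) := by
            apply mul_lt_mul_of_pos_left _ (by positivity)
            apply mul_lt_mul_of_pos_left h3 (by positivity)
        _ = δ ^ 3 * (1 - T) := by
            field_simp
            ring
    linarith

/-- **Node F** with the reduced norm discharged. -/
theorem nodeF' {R : Res H} {K : Set H} (hK : ClCone K)
    {e ξ : H} (heP : ∀ x, |⟪e, x⟫| ≤ ‖R.P 0 x‖) (heK : ∀ x ∈ K, 0 ≤ ⟪e, x⟫)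
    {αc η : ℝ} (hαc : 0 < αc) (hη : 0 < η)
    (hcrit : ∀ x ∈ K, ∀ D, Adm 0 D → 0 ≤ Je R αc 0 0 ξ x D)
    {x : ℝ → H} {D : ℝ → ℝ → ℝ}
    (hxK : ∀ α, αc < α → α < αc + η → x α ∈ K)
    (hDA : ∀ α, αc < α → α < αc + η → Adm 0 (D α))
    (hmin : ∀ α, αc < α → α < αc + η →
      ∀ y ∈ K, ∀ D', Adm 0 D' → Je R α 1 0 ξ (x α) (D α) ≤ Je R α 1 0 ξ y D')
    (hne : ∀ α, αc < α → α < αc + η → x α ≠ 0)
    {C : ℝ} (h3a : ∀ α, αc < α → α < αc + η → ‖x α‖ ≤ C * ⟪e, x α⟫) :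
    ∃ (xJ : H) (DJ : ℝ → ℝ), xJ ∈ K ∧ Adm 0 DJ ∧ Je R αc 0 0 ξ xJ DJ = 0 ∧ ⟪e, xJ⟫ = 1 ∧
      (∀ α, αc < α → α < αc + η → 0 < ⟪e, x α⟫) ∧
      Tendsto (fun α => (⟪e, x α⟫)⁻¹ • x α) (𝓝[>] αc) (𝓝 xJ) ∧
      Tendsto x (𝓝[>] αc) (𝓝 0) ∧
      (∀ T ∈ Ico (0 : ℝ) 1,
        TendstoUniformlyOn (fun α t => ⟪e, x α⟫ * D α t) DJ (𝓝[>] αc) (Icc 0 T)) ∧
      Tendsto (fun α => R.Dop (D α) (x α)) (𝓝[>] αc) (𝓝 (R.Dop DJ xJ)) :=
  nodeF (redNorm R) hK heP heK hαc hη hcrit hxK hDA hmin hne h3a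

end Crest.Agent.R146.NormF3_491
end

-- ▼ part R146/ThreeA_491

/-!
Row 146, package P5, node F (helper491): glue of statement (3a).

* `inv_sq_integrable` : the variation `D → D + e` gives `∫ 1/D² ≤ c`;
* `k_le_of_moment` : second moment controlled by the mean.
-/

set_option autoImplicit false

namespace Crest.Agent.R146.ThreeA_491

open MeasureTheory Set Filter Topology


/-- pointwise truncation inequality -/
lemma sq_le_trunc {x L : ℝ} (hx : 0 ≤ x) (hL : 0 < L) : x ^ 2 ≤ L * x + x ^ 4 / L ^ 2 := by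
  rcases le_total x L with h | h
  · have h1 : x ^ 2 ≤ L * x := by nlinarith
    have h2 : 0 ≤ x ^ 4 / L ^ 2 := by positivity
    linarith
  · have h1 : x ^ 2 ≤ x ^ 4 / L ^ 2 := by
      rw [le_div_iff₀ (by positivity)]
      have : L ^ 2 ≤ x ^ 2 := by nlinarith
      nlinarith [sq_nonneg x]
    have h2 : 0 ≤ L * x := by positivity
    linarith

/-- The explicit constant of (3a). -/
noncomputable def C3a (C1 a : ℝ) : ℝ := (8 * Real.sqrt (C1 + 1) * a + 1 / a + 1) ^ 2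

/-- Real-variable part of (3a). -/
lemma k_le_real {m k q C1 a : ℝ} (hC1 : 0 ≤ C1) (ha : 0 < a) (hm : 0 ≤ m) (hmk : m ^ 2 ≤ k)
    (h4 : ∀ L : ℝ, 0 < L → k ≤ L * m + q / L ^ 2)
    (hq : q ≤ 8 * m ^ 4 + 8 * C1 * (a * k) ^ 2) : k ≤ C3a C1 a * m ^ 2 := by
  rcases (show 0 ≤ k by nlinarith [sq_nonneg m]).eq_or_lt with hk0 | hk0
  · rw [← hk0]
    unfold C3a
    positivity
  set s : ℝ := Real.sqrt (C1 + 1) with hs
  have hs1 : 0 < s := Real.sqrt_pos.2 (by linarith)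
  have hs2 : s ^ 2 = C1 + 1 := Real.sq_sqrt (by linarith)
  set r : ℝ := Real.sqrt k with hr
  have hr1 : 0 < r := Real.sqrt_pos.2 hk0
  have hr2 : r ^ 2 = k := Real.sq_sqrt hk0.le
  have hmr : m ≤ r := by
    have : m ^ 2 ≤ r ^ 2 := by rw [hr2]; exact hmk
    exact le_of_sq_le_sq this hr1.le
  have hL : 0 < 4 * s * a * r := by positivity
  have h1 := h4 _ hL
  have hL2 : (4 * s * a * r) ^ 2 = 16 * (C1 + 1) * a ^ 2 * k := by
    rw [mul_pow, mul_pow, mul_pow, hs2, hr2]; ring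
  rw [hL2] at h1
  have h2 : q / (16 * (C1 + 1) * a ^ 2 * k) ≤ m ^ 2 / (2 * (C1 + 1) * a ^ 2) + k / 2 := by
    rw [div_le_iff₀ (by positivity)]
    have e1 : (m ^ 2 / (2 * (C1 + 1) * a ^ 2) + k / 2) * (16 * (C1 + 1) * a ^ 2 * k)
        = 8 * m ^ 2 * k + 8 * (C1 + 1) * a ^ 2 * k ^ 2 := by
      field_simp
      ring
    rw [e1]
    have e2 : m ^ 4 ≤ m ^ 2 * k := by nlinarith [sq_nonneg m]
    nlinarith [sq_nonneg (a * k)]
  have h3 : k ≤ 8 * s * a * r * m + m ^ 2 / ((C1 + 1) * a ^ 2) := by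
    have e3 : m ^ 2 / (2 * (C1 + 1) * a ^ 2) = (1 / 2) * (m ^ 2 / ((C1 + 1) * a ^ 2)) := by
      field_simp
    rw [e3] at h2
    linarith
  have h4' : m ^ 2 / ((C1 + 1) * a ^ 2) ≤ (m / a) * (m / a) := by
    have : (m / a) * (m / a) = m ^ 2 / a ^ 2 := by field_simp
    rw [this]
    apply div_le_div_of_nonneg_left (by positivity) (by positivity)
    nlinarith [sq_nonneg a, mul_nonneg hC1 (sq_nonneg a)]
  -- divide by r
  have h5 : r ≤ (8 * s * a + 1 / a + 1) * m := by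
    by_contra hcon
    push Not at hcon
    have hA : 0 < 8 * s * a := by positivity
    have hm1 : m / a ≤ (1 / a + 1) * m := by
      have : m / a = (1 / a) * m := by ring
      rw [this]
      nlinarith
    have hB : m / a < r := lt_of_le_of_lt (by nlinarith [mul_nonneg hA.le hm]) hcon
    have hma : 0 ≤ m / a := div_nonneg hm ha.le
    have h6 : (m / a) * (m / a) ≤ r * (m / a) := mul_le_mul_of_nonneg_right hB.le hma
    have h7 : r ^ 2 ≤ 8 * s * a * r * m + r * (m / a) := by rw [hr2]; linarith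
    have h8 : r * r ≤ r * (8 * s * a * m + m / a) := by nlinarith
    have h9 : r ≤ 8 * s * a * m + m / a := le_of_mul_le_mul_left h8 hr1
    have h10 : m / a = 1 / a * m := by ring
    nlinarith
  unfold C3a
  rw [← hr2, ← mul_pow]
  exact pow_le_pow_left₀ hr1.le h5 2

/-- **(3a), probabilistic form**: the second moment is controlled by the mean. -/
theorem k_le_of_moment {Ω : Type*} [MeasurableSpace Ω] {P : Measure Ω} [IsProbabilityMeasure P]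
    {lam : Ω → ℝ} (h0 : ∀ᵐ ω ∂P, 0 ≤ lam ω) (hL4 : MemLp lam 4 P) {C1 a I : ℝ} (hC1 : 0 ≤ C1)
    (ha : 0 < a) (hI0 : 0 ≤ I)
    (h4 : ∫ ω, (lam ω - ∫ ω', lam ω' ∂P) ^ 4 ∂P ≤ C1 * I ^ 2)
    (hI : I ≤ a * ∫ ω, lam ω ^ 2 ∂P) :
    ∫ ω, lam ω ^ 2 ∂P ≤ C3a C1 a * (∫ ω, lam ω ∂P) ^ 2 := by
  set m := ∫ ω, lam ω ∂P with hm
  set k := ∫ ω, lam ω ^ 2 ∂P with hk
  have hL1 : Integrable lam P := (hL4.mono_exponent (by norm_num : (1 : ENNReal) ≤ 4)).integrable le_rfl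
  have hL2 : MemLp lam 2 P := hL4.mono_exponent (by norm_num)
  have hi2 : Integrable (fun ω => lam ω ^ 2) P := hL2.integrable_sq
  have hi4 : Integrable (fun ω => lam ω ^ 4) P := by
    have := hL4.integrable_norm_pow (by norm_num : (4 : ℕ) ≠ 0)
    refine this.congr (Eventually.of_forall fun ω => ?_)
    simp only [Real.norm_eq_abs]
    rw [← abs_pow, abs_of_nonneg (by positivity)]
  have hi4' : Integrable (fun ω => (lam ω - m) ^ 4) P := by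
    have h5 : MemLp (fun ω => lam ω - m) 4 P := hL4.sub (memLp_const m)
    have := h5.integrable_norm_pow (by norm_num : (4 : ℕ) ≠ 0)
    refine this.congr (Eventually.of_forall fun ω => ?_)
    simp only [Real.norm_eq_abs]
    rw [← abs_pow, abs_of_nonneg (by positivity)]
  have hm0 : 0 ≤ m := integral_nonneg_of_ae h0
  have hmk : m ^ 2 ≤ k := by
    have h6 : 0 ≤ ∫ ω, (lam ω - m) ^ 2 ∂P := integral_nonneg fun ω => sq_nonneg _
    have h7 : ∫ ω, (lam ω - m) ^ 2 ∂P = k - m ^ 2 := by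
      have e : ∀ ω, (lam ω - m) ^ 2 = lam ω ^ 2 - 2 * m * lam ω + m ^ 2 := fun ω => by ring
      simp only [e]
      have e2 : ∫ ω, (lam ω ^ 2 - 2 * m * lam ω + m ^ 2) ∂P
          = (∫ ω, lam ω ^ 2 ∂P - ∫ ω, 2 * m * lam ω ∂P) + ∫ _ω, m ^ 2 ∂P := by
        rw [← integral_sub hi2 (hL1.const_mul (2 * m))]
        exact integral_add (hi2.sub (hL1.const_mul (2 * m))) (integrable_const _)
      rw [e2, integral_const_mul]
      simp only [integral_const, probReal_univ, smul_eq_mul, ← hm, ← hk]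
      ring
    linarith
  refine k_le_real (q := ∫ ω, lam ω ^ 4 ∂P) hC1 ha hm0 hmk (fun L hL => ?_) ?_
  · have h8 : ∫ ω, lam ω ^ 2 ∂P ≤ ∫ ω, (L * lam ω + lam ω ^ 4 / L ^ 2) ∂P := by
      refine integral_mono_ae hi2 ((hL1.const_mul L).add (hi4.div_const _)) ?_
      filter_upwards [h0] with ω hω
      exact sq_le_trunc hω hL
    rw [integral_add (hL1.const_mul L) (hi4.div_const _), integral_const_mul,
      integral_div] at h8
    exact h8
  · have h9 : ∫ ω, lam ω ^ 4 ∂P ≤ ∫ ω, (8 * (lam ω - m) ^ 4 + 8 * m ^ 4) ∂P := by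
      refine integral_mono hi4 ((hi4'.const_mul 8).add (integrable_const _)) fun ω => ?_
      have : lam ω = (lam ω - m) + m := by ring
      set u := lam ω - m with hu
      show lam ω ^ 4 ≤ 8 * u ^ 4 + 8 * m ^ 4
      rw [this]
      nlinarith [sq_nonneg (u - m), sq_nonneg (u + m), sq_nonneg (u ^ 2 - m ^ 2),
        mul_nonneg (sq_nonneg (u - m)) (sq_nonneg (u - m)), mul_nonneg (sq_nonneg (u-m)) (sq_nonneg u),
        mul_nonneg (sq_nonneg (u-m)) (sq_nonneg m), mul_nonneg (sq_nonneg (u-m)) (sq_nonneg (u+m))]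
    rw [integral_add (hi4'.const_mul 8) (integrable_const _), integral_const_mul] at h9
    simp only [integral_const, probReal_univ, smul_eq_mul, one_mul] at h9
    have h10 : C1 * I ^ 2 ≤ C1 * (a * k) ^ 2 :=
      mul_le_mul_of_nonneg_left (pow_le_pow_left₀ hI0 hI 2) hC1
    linarith

end Crest.Agent.R146.ThreeA_491
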