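import Crest.Agent.R146.P5Fin_12
import Crest.Agent.R146.ThreeA_491_Mg
import Crest.Agent.R146.LipB_861
import Crest.Agent.R146.LevE_4
import Mathlib
import Crest.Agent.R146.Lev_576
import Crest.Agent.R146.Lev2_576

-- ▼ part R146/FLim_491
section

/-!
Row 146, package P5 (helper491): the Prop `FLIM` of `P5Def_12` (node F) from the exponential bound
`EML0` (node LIP at time `0`), through (3a).
-/

set_option autoImplicit false

namespace Crest.Agent.R146.FLim_491

open Set Filter Topology MeasureTheory ProbabilityTheory Crest.ProbabilityR.Perceptron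
open Crest.Agent.R146.Hilb Crest.Agent.R146.ProfB_540 Crest.Agent.R146.HilbE
open Crest.Agent.R146.Lev2_576 Crest.Agent.R146.P34_734 Crest.Agent.R146.DualG_256
open Crest.Agent.R146.DualL_256 Crest.Agent.R146.JamIface_776 Crest.Agent.R146.P5A_12
open Crest.Agent.R146.P5Def_12 Crest.Agent.R146.P5Fin_12 Crest.Agent.R146.NormF1_491
open Crest.Agent.R146.NormF2_491 Crest.Agent.R146.NormF3_491 Crest.Agent.R146.ThreeA_491
open Crest.Agent.R146.DualV_256
open scoped RealInnerProductSpace NNReal ENNReal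

noncomputable section

/-! ### fourth moment from an exponential bound -/

lemma pow4_le (x : ℝ) : x ^ 4 ≤ 24 * (Real.exp x + Real.exp (-x)) := by
  have h1 : ∀ y : ℝ, 0 ≤ y → y ^ 4 ≤ 24 * Real.exp y := by
    intro y hy
    have h := Real.pow_div_factorial_le_exp y hy 4
    have e : ((Nat.factorial 4 : ℕ) : ℝ) = 24 := by norm_num [Nat.factorial]
    rw [e, div_le_iff₀ (by norm_num)] at h
    linarith
  rcases le_total 0 x with h | h
  · have := h1 x h
    have h2 := (Real.exp_pos (-x)).le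
    linarith
  · have := h1 (-x) (by linarith)
    have e : (-x) ^ 4 = x ^ 4 := by ring
    rw [e] at this
    have h2 := (Real.exp_pos x).le
    linarith

theorem moment4_of_exp {Ω : Type*} [MeasurableSpace Ω] {P : Measure Ω}
    {f : Ω → ℝ} (hf : AEStronglyMeasurable f P) {V : ℝ} (hV : 0 < V)
    (h : ∀ θ : ℝ, ∫⁻ ω, ENNReal.ofReal (Real.exp (θ * f ω)) ∂P ≤
      ENNReal.ofReal (Real.exp (θ ^ 2 * V / 2))) :
    MemLp f 4 P ∧ ∫ ω, f ω ^ 4 ∂P ≤ 96 * V ^ 2 := by
  set r : ℝ := Real.sqrt V with hr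
  have hr0 : 0 < r := Real.sqrt_pos.2 hV
  have hr2 : r ^ 2 = V := Real.sq_sqrt hV.le
  have hr4 : r ^ 4 = V ^ 2 := by rw [← hr2]; ring
  have hexp : Real.exp (1 / 2) ≤ 2 := by
    have h1 := Real.exp_one_lt_d9
    have h2 : Real.exp (1 / 2) ^ 2 = Real.exp 1 := by
      rw [← Real.exp_nat_mul]; norm_num
    nlinarith [Real.exp_pos (1 / 2 : ℝ)]
  have hb : ∀ θ : ℝ, θ ^ 2 * V = 1 →
      ∫⁻ ω, ENNReal.ofReal (Real.exp (θ * f ω)) ∂P ≤ ENNReal.ofReal 2 := by
    intro θ hθ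
    refine (h θ).trans (ENNReal.ofReal_le_ofReal ?_)
    rw [hθ]; exact hexp
  have h1 := hb (1 / r) (by rw [div_pow, one_pow, hr2]; field_simp)
  have h2 := hb (-(1 / r)) (by rw [neg_sq, div_pow, one_pow, hr2]; field_simp)
  have hpt : ∀ ω, f ω ^ 4 ≤ 24 * V ^ 2 *
      (Real.exp (1 / r * f ω) + Real.exp (-(1 / r) * f ω)) := by
    intro ω
    have h3 := pow4_le (1 / r * f ω)
    have e : (1 / r * f ω) ^ 4 = f ω ^ 4 / V ^ 2 := by
      rw [mul_pow, div_pow, one_pow, hr4]; ring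
    rw [e, div_le_iff₀ (by positivity)] at h3
    rw [neg_mul]
    linarith
  have hl : ∫⁻ ω, ENNReal.ofReal (f ω ^ 4) ∂P ≤ ENNReal.ofReal (96 * V ^ 2) := by
    calc ∫⁻ ω, ENNReal.ofReal (f ω ^ 4) ∂P
        ≤ ∫⁻ ω, ENNReal.ofReal (24 * V ^ 2) * (ENNReal.ofReal (Real.exp (1 / r * f ω)) +
            ENNReal.ofReal (Real.exp (-(1 / r) * f ω))) ∂P := by
          refine lintegral_mono fun ω => ?_
          rw [← ENNReal.ofReal_add (Real.exp_pos _).le (Real.exp_pos _).le,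
            ← ENNReal.ofReal_mul (by positivity)]
          exact ENNReal.ofReal_le_ofReal (hpt ω)
      _ = ENNReal.ofReal (24 * V ^ 2) * (∫⁻ ω, ENNReal.ofReal (Real.exp (1 / r * f ω)) ∂P +
            ∫⁻ ω, ENNReal.ofReal (Real.exp (-(1 / r) * f ω)) ∂P) := by
          rw [lintegral_const_mul' _ _ ENNReal.ofReal_ne_top, lintegral_add_left']
          exact (Real.measurable_exp.comp_aemeasurable
            (hf.aemeasurable.const_mul _)).ennreal_ofReal
      _ ≤ ENNReal.ofReal (24 * V ^ 2) * (ENNReal.ofReal 2 + ENNReal.ofReal 2) := by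
          gcongr
      _ = ENNReal.ofReal (96 * V ^ 2) := by
          rw [← ENNReal.ofReal_add (by norm_num) (by norm_num), ← ENNReal.ofReal_mul (by positivity)]
          congr 1; ring
  have hmem : MemLp f 4 P := by
    refine ⟨hf, ?_⟩
    rw [eLpNorm_lt_top_iff_lintegral_rpow_enorm_lt_top (by norm_num) (by norm_num)]
    refine lt_of_le_of_lt (le_of_eq (lintegral_congr fun ω => ?_))
      (lt_of_le_of_lt hl ENNReal.ofReal_lt_top)
    have e4 : (4 : ℝ≥0∞).toReal = ((4 : ℕ) : ℝ) := by norm_num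
    rw [e4, ENNReal.rpow_natCast, ← ofReal_norm, ← ENNReal.ofReal_pow (norm_nonneg _),
      Real.norm_eq_abs]
    congr 1
    rw [← abs_pow, abs_of_nonneg (by positivity)]
  refine ⟨hmem, ?_⟩
  have hint : Integrable (fun ω => f ω ^ 4) P := by
    have := hmem.integrable_norm_pow (by norm_num : (4 : ℕ) ≠ 0)
    refine this.congr (Eventually.of_forall fun ω => ?_)
    simp only [Real.norm_eq_abs]
    rw [← abs_pow, abs_of_nonneg (by positivity)]
  rw [← ofReal_integral_eq_lintegral_ofReal hint (Eventually.of_forall fun ω => by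
    show (0 : ℝ) ≤ f ω ^ 4
    positivity)] at hl
  exact (ENNReal.ofReal_le_ofReal_iff (by positivity)).1 hl

/-! ### the conditional expectation at time `0` is the mean -/

section Zero

variable {Ω : Type*} [mΩ : MeasurableSpace Ω] {P : Measure Ω} [IsProbabilityMeasure P]
  {B : ℝ≥0 → Ω → ℝ} (hBm : ∀ t, Measurable (B t)) (hB : IsBrownianReal B P)

omit [IsProbabilityMeasure P] in
include hB in
theorem zero_one {s : Set Ω} (hs : MeasurableSet[brownianFiltration B hBm 0] s) :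
    P s = 0 ∨ P sᶜ = 0 := by
  have e := LipB_861.natural_eq_comap hBm 0
  have hs' : MeasurableSet[MeasurableSpace.comap (fun ω (t : Set.Iic (0 : ℝ≥0)) => B t ω)
      inferInstance] s := by
    rw [← e]; exact hs
  obtain ⟨S, -, hS⟩ := hs'
  have h0 : ∀ᵐ ω ∂P, B 0 ω = 0 := hB.toIsPreBrownianReal.eval_zero_ae_eq_zero
  have h1 : ∀ᵐ ω ∂P, (ω ∈ s ↔ (fun _ : Set.Iic (0 : ℝ≥0) => (0 : ℝ)) ∈ S) := by
    filter_upwards [h0] with ω h
    rw [← hS, mem_preimage]
    have e2 : (fun t : Set.Iic (0 : ℝ≥0) => B t ω) = fun _ => 0 := by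
      funext t
      have : (t : ℝ≥0) = 0 := le_antisymm t.2 zero_le
      rw [this, h]
    rw [e2]
  by_cases hm : (fun _ : Set.Iic (0 : ℝ≥0) => (0 : ℝ)) ∈ S
  · right
    rw [measure_eq_zero_iff_ae_notMem]
    filter_upwards [h1] with ω h
    rw [notMem_compl_iff]
    exact h.2 hm
  · left
    rw [measure_eq_zero_iff_ae_notMem]
    filter_upwards [h1] with ω h
    exact fun hω => hm (h.1 hω)

include hB in
theorem condExp_zero {f : Ω → ℝ} (hf : Integrable f P) :
    P[f | brownianFiltration B hBm 0] =ᵐ[P] fun _ => ∫ ω, f ω ∂P := by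
  refine (ae_eq_condExp_of_forall_setIntegral_eq ((brownianFiltration B hBm).le 0) hf
    (fun s _ _ => (integrable_const _).integrableOn) (fun s hs _ => ?_)
    aestronglyMeasurable_const).symm
  rcases zero_one hBm hB hs with h | h
  · rw [setIntegral_measure_zero _ h, setIntegral_measure_zero _ h]
  · have e : s =ᵐ[P] univ := by
      rw [ae_eq_univ]; exact h
    rw [setIntegral_congr_set e, setIntegral_congr_set e, setIntegral_univ, setIntegral_univ]
    simp

end Zero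

variable (W : BS)

lemma P0_ae (x : HW W) : (MW W).J ((RW W).P 0 x) =ᵐ[W.P] fun _ => ∫ ω, (MW W).J x ω ∂W.P := by
  have h := (MW W).cond 0 ⟨le_rfl, zero_le_one⟩ x
  have h2 := condExp_zero W.meas W.br (f := (MW W).J x) (JamAsm_576.integ (MW W) x)
  rw [Real.toNNReal_zero] at h
  exact h.trans h2

/-! ### the constant function `1` -/

/-- the constant `1` -/
def eW : HW W := ⟨cst W.P 1, cst_mem 1⟩

lemma eW_coe : (MW W).J (eW W) =ᵐ[W.P] fun _ => 1 := cst_coe (P := W.P) 1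

lemma inner_eW (x : HW W) : ⟪eW W, x⟫ = ∫ ω, (MW W).J x ω ∂W.P := by
  rw [← (MW W).inner]
  refine integral_congr_ae ?_
  filter_upwards [eW_coe W] with ω h
  rw [h, one_mul]

lemma norm_eW : ‖eW W‖ = 1 := by
  have h : ‖eW W‖ ^ 2 = 1 := by
    rw [← (MW W).norm_sq]
    have : ∫ ω, (MW W).J (eW W) ω ^ 2 ∂W.P = ∫ _ω, (1 : ℝ) ∂W.P := by
      refine integral_congr_ae ?_
      filter_upwards [eW_coe W] with ω h
      rw [h, one_pow]
    rw [this]; simp
  have h0 := norm_nonneg (eW W)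
  nlinarith

lemma P_eW : (RW W).P 0 (eW W) = eW W := Subtype.ext (cst_fix 0 1)

lemma eW_P (x : HW W) : |⟪eW W, x⟫| ≤ ‖(RW W).P 0 x‖ := by
  have h : ⟪eW W, x⟫ = ⟪eW W, (RW W).P 0 x⟫ := by
    rw [← (RW W).symm, P_eW]
  rw [h]
  refine (abs_real_inner_le_norm _ _).trans ?_
  rw [norm_eW, one_mul]

lemma eW_nonneg {x : HW W} (hx : x ∈ KW W) : 0 ≤ ⟪eW W, x⟫ := by
  rw [inner_eW]
  exact integral_nonneg_of_ae ((P5Fin_12.mem_K W).1 hx)

lemma clCone : ClCone (KW W) where
  closed := KB_closed W.P W.B W.meas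
  zero := KB_zero W.meas
  smul := KB_smul W.meas
  add := KB_add W.meas

/-! ### (3a) -/

/-- node LIP at time `0`, exponential form (helper861) -/
def EML0 (W : BS) : Prop := ∀ α : ℝ, 0 < α → ∀ (x : HW W) (D : ℝ → ℝ), IsMinW W α 1 0 x D →
  x ≠ 0 → ∀ θ : ℝ,
    ∫⁻ ω, ENNReal.ofReal (Real.exp (θ * ((MW W).J x ω - (MW W).J ((RW W).P 0 x) ω))) ∂W.P ≤
      ENNReal.ofReal (Real.exp (θ ^ 2 * (∫ t in (0 : ℝ)..1, 1 / (1 + D t) ^ 2) / 2))

lemma adm_add_one {D : ℝ → ℝ} (h : Adm 0 D) : Adm 0 (fun t => D t + 1) := by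
  have h1 := HilbD.adm_comb h (ProfC_540.Adm.const (c := 1) one_pos).1 (s := 1 / 2)
    (by norm_num) (by norm_num)
  have h2 := adm_smul h1 (c := 2) (by norm_num)
  have e : (fun t => (2 : ℝ) * ((1 - 1 / 2) * D t + 1 / 2 * 1)) = fun t => D t + 1 := by
    funext t; ring
  rwa [e] at h2

lemma inv_sq_le {α : ℝ} {x : HW W} {D : ℝ → ℝ} (h : IsMinW W α 1 0 x D) :
    IntervalIntegrable (fun t => 1 / D t ^ 2) volume 0 1 ∧
      ∫ t in (0 : ℝ)..1, 1 / D t ^ 2 ≤ α * ‖x‖ ^ 2 := by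
  obtain ⟨h1, h2⟩ := h.kkt_D (RW W) (adm_add_one h.adm)
  have e : (fun t => (D t + 1 - D t) / D t ^ 2) = fun t => 1 / D t ^ 2 := by
    funext t; rw [add_sub_cancel_left]
  rw [e] at h1
  rw [e] at h2
  refine ⟨h1, h2.trans (le_of_eq ?_)⟩
  rw [(RW W).Q_add h.adm.prof.cont continuousOn_const, (RW W).Q_const]
  ring

lemma I_pos {D : ℝ → ℝ} (h : Adm 0 D) :
    0 < ∫ t in (0 : ℝ)..1, 1 / (1 + D t) ^ 2 := by
  have hcont : ContinuousOn (fun t => 1 / (1 + D t) ^ 2) (Icc 0 1) := by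
    refine continuousOn_const.div ((continuousOn_const.add h.prof.cont).pow 2) fun t ht => ?_
    have := h.prof.nonneg ht
    positivity
  refine intervalIntegral.intervalIntegral_pos_of_pos_on (hcont.intervalIntegrable_of_Icc zero_le_one)
    (fun t ht => ?_) zero_lt_one
  have := h.prof.nonneg (Ioo_subset_Icc_self ht)
  positivity

lemma I_le {α : ℝ} {x : HW W} {D : ℝ → ℝ} (h : IsMinW W α 1 0 x D) :
    ∫ t in (0 : ℝ)..1, 1 / (1 + D t) ^ 2 ≤ α * ‖x‖ ^ 2 := by
  obtain ⟨h1, h2⟩ := inv_sq_le W h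
  refine le_trans ?_ h2
  have hcont : ContinuousOn (fun t => 1 / (1 + D t) ^ 2) (Icc 0 1) := by
    refine continuousOn_const.div ((continuousOn_const.add h.adm.prof.cont).pow 2) fun t ht => ?_
    have := h.adm.prof.nonneg ht
    positivity
  refine intervalIntegral.integral_mono_on_of_le_Ioo zero_le_one
    (hcont.intervalIntegrable_of_Icc zero_le_one) h1 fun t ht => ?_
  have h3 := h.adm.prof.pos t ⟨ht.1.le, ht.2⟩
  apply one_div_le_one_div_of_le (by positivity)
  nlinarith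

/-- **(3a)** -/
theorem three_a (hE : EML0 W) {α a : ℝ} (hα : 0 < α) (ha : α ≤ a) {x : HW W} {D : ℝ → ℝ}
    (h : IsMinW W α 1 0 x D) (hne : x ≠ 0) : ‖x‖ ≤ Real.sqrt (C3a 96 a) * ⟪eW W, x⟫ := by
  set V : ℝ := ∫ t in (0 : ℝ)..1, 1 / (1 + D t) ^ 2 with hVdef
  have hV : 0 < V := I_pos h.adm
  have hK := (P5Fin_12.mem_K W).1 h.mem
  have hm : AEStronglyMeasurable (fun ω => (MW W).J x ω - ∫ ω', (MW W).J x ω' ∂W.P) W.P :=
    ((MW W).memLp x).aestronglyMeasurable.sub aestronglyMeasurable_const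
  obtain ⟨h4, h5⟩ := moment4_of_exp hm hV (fun θ => by
    refine le_trans (le_of_eq (lintegral_congr_ae ?_)) (hE α hα x D h hne θ)
    filter_upwards [P0_ae W x] with ω h6
    rw [h6])
  set m : ℝ := ∫ ω', (MW W).J x ω' ∂W.P with hmdef
  have h7 : MemLp ((MW W).J x) 4 W.P := by
    have h8 := h4.add (memLp_const m)
    refine h8.congr_norm ((MW W).memLp x).aestronglyMeasurable (Eventually.of_forall fun ω => ?_)
    simp only [Pi.add_apply, sub_add_cancel]
  have hI : V ≤ a * ∫ ω, (MW W).J x ω ^ 2 ∂W.P := by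
    rw [(MW W).norm_sq]
    exact (I_le W h).trans (mul_le_mul_of_nonneg_right ha (sq_nonneg _))
  have h8 := k_le_of_moment hK h7 (C1 := 96) (a := a) (I := V) (by norm_num) (hα.trans_le ha)
    hV.le h5 hI
  rw [(MW W).norm_sq, ← inner_eW] at h8
  have hC : 0 ≤ C3a 96 a := by unfold C3a; positivity
  have h9 : ‖x‖ ^ 2 ≤ (Real.sqrt (C3a 96 a) * ⟪eW W, x⟫) ^ 2 := by
    rw [mul_pow, Real.sq_sqrt hC]; exact h8
  exact le_of_sq_le_sq h9 (mul_nonneg (Real.sqrt_nonneg _) (eW_nonneg W h.mem))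

/-! ### node F -/

theorem flim (hE : EML0 W) : FLIM W := by
  intro αc hαc hJ hNJ x0 D0 h0
  have hne : ∀ α, αc < α → x0 α ≠ 0 := fun α h =>
    P5Fin_12.min_ne_zero W (hαc.trans h) le_rfl (hNJ α h) (h0 α h)
  obtain ⟨xJ, DJ, h1, h2, h3, h4, h5, h6, -, -, h7⟩ := nodeF' (R := RW W) (clCone W) (e := eW W)
    (ξ := xiW W) (eW_P W) (fun x hx => eW_nonneg W hx) (η := 1) hαc one_pos hJ
    (x := x0) (D := D0) (fun α h _ => (h0 α h).mem) (fun α h _ => (h0 α h).adm)
    (fun α h _ => (h0 α h).le) (fun α h _ => hne α h) (C := Real.sqrt (C3a 96 (αc + 1)))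
    (fun α h h' => three_a W hE (hαc.trans h) h'.le (h0 α h) (hne α h))
  have hpos : ∀ α, αc < α → 0 < ⟪eW W, x0 α⟫ := by
    intro α h
    have h8 := three_a W hE (hαc.trans h) le_rfl (h0 α h) (hne α h)
    have h9 : 0 < ‖x0 α‖ := norm_pos_iff.2 (hne α h)
    by_contra hcon
    have h10 := mul_nonpos_of_nonneg_of_nonpos (Real.sqrt_nonneg (C3a 96 α)) (not_lt.1 hcon)
    linarith
  refine ⟨fun α => (⟪eW W, x0 α⟫)⁻¹, xJ, DJ, fun α h => inv_pos.2 (hpos α h), ?_, h6, ?_⟩
  · refine ⟨h1, ?_, h2, h3, hJ⟩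
    rintro rfl
    rw [inner_zero_right] at h4
    exact zero_ne_one h4
  · exact h7.const_add _

end

end Crest.Agent.R146.FLim_491
end

-- ▼ part R146/LevF_4
section

/-!
Row 146 (task 58, helper4): `LEVC`, `LEVD` of `P5Def_12` from the sub-Gaussian bounds (set form) of
helper861.
-/

set_option autoImplicit false

namespace Crest.Agent.R146.LevF_4

open Set Filter Topology MeasureTheory ProbabilityTheory Crest.ProbabilityR.Perceptron
open Crest.Agent.R146.Hilb Crest.Agent.R146.ProfB_540 Crest.Agent.R146.HilbE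
open Crest.Agent.R146.Lev2_576 Crest.Agent.R146.P34_734 Crest.Agent.R146.DualG_256
open Crest.Agent.R146.DualL_256 Crest.Agent.R146.JamIface_776 Crest.Agent.R146.P5A_12
open Crest.Agent.R146.P5Def_12 Crest.Agent.R146.P5Out_576 Crest.Agent.R146.JamAsm_576
open Crest.Agent.R146.SubG_4 Crest.Agent.R146.LevE_4 Crest.Agent.R146.LevK_4
open scoped RealInnerProductSpace NNReal ENNReal

section Gen

variable {H : Type*} [NormedAddCommGroup H] [InnerProductSpace ℝ H] [CompleteSpace H] {R : Res H}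
  {Ω : Type*} {mΩ : MeasurableSpace Ω} {P : Measure Ω} {B : ℝ≥0 → Ω → ℝ}
  {hBm : ∀ t, Measurable (B t)}

/-- set form of the sub-Gaussian bound for the martingale of `z` with clock `V` -/
def EMset (M : Model R P B hBm) (z : H) (V : ℝ → ℝ) : Prop :=
  ∀ s u : ℝ, 0 ≤ s → s ≤ u → u ≤ 1 → SubG P (Fl hBm s)
    (fun ω => M.J (R.P u z) ω - M.J (R.P s z) ω) (V u - V s)

theorem levels_cd' [IsProbabilityMeasure P] {M : Model R P B hBm} {ξ x : H} {D : ℝ → ℝ}
    (hB : IsPreBrownianReal B P) {κ : ℝ}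
    (hξ : M.J ξ =ᵐ[P] fun ω => κ + B 1 ω) (L : LCP M ξ 0 D x) (hpos : ∀ t ∈ Ico (0 : ℝ) 1, 0 < D t)
    (hD1 : 0 ≤ D 1) (hlow : ∀ᶠ t in 𝓝[<] (1 : ℝ), (1 - t) ^ (2 / 5 : ℝ) ≤ D t)
    (hEh : EMset M (ξ + R.Dop D x) (fun t => t))
    (hEl : EMset M x (fun t => - K D t)) :
    (∀ l : ℝ, 0 < l → P {ω | M.J x ω = l} = 0) ∧
      P {ω | M.J (ξ + R.Dop D x) ω = 0 ∧ M.J x ω = 0} = 0 := by
  have hPrf : Prf D := ⟨L.cont, L.anti, hpos, hlow⟩
  have hK1 : K D 1 = 0 := by unfold K; simp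
  refine levels_cd hB hξ L hpos hD1 hlow ?_ ?_ ?_
  · intro s hs
    have h1 := hEh s 1 hs.1 hs.2.le le_rfl
    refine h1.congr ?_
    filter_upwards [M.cond s ⟨hs.1, hs.2.le⟩ (ξ + R.Dop D x)] with ω h2
    rw [R.one, h2]
  · intro s hs
    have h1 := hEl s 1 hs.1 hs.2.le le_rfl
    have e : (fun t => -K D t) 1 - (fun t => -K D t) s = K D s := by
      beta_reduce; rw [hK1]; ring
    rw [e] at h1
    refine h1.congr ?_
    filter_upwards [M.cond s ⟨hs.1, hs.2.le⟩ x] with ω h2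
    rw [R.one, h2]
  · intro s t hs hst ht
    have h1 := hEl s t hs hst ht.le
    have e : (fun t => -K D t) t - (fun t => -K D t) s = K D s - K D t := by
      beta_reduce; ring
    rw [e] at h1
    have h2 : SubG P (Fl hBm s) (M.J (R.inc s t x)) (K D s - K D t) := by
      refine h1.congr ?_
      filter_upwards [M.sub (R.P t x) (R.P s x)] with ω h3
      rw [R.inc_apply, h3]
    have h3 : 0 ≤ K D s - K D t := le_trans
      (mul_nonneg (sub_nonneg.2 hst) (sq_nonneg _)) (hPrf.K_dec hs hst ht)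
    have h4 := h2.var_real (M.memLp _).1.aemeasurable h3 (C := Set.univ) MeasurableSet.univ
    rw [setIntegral_univ, probReal_univ, mul_one, M.norm_sq] at h4
    exact h4

end Gen

/-- what is used of (EM) (helper861) at the literal instance -/
def EMW (W : BS) : Prop := ∀ (x : HW W) (D : ℝ → ℝ), LCP (MW W) (xiW W) 0 D x →
  (∀ t ∈ Ico (0 : ℝ) 1, 0 < D t) → 0 ≤ D 1 →
  EMset (MW W) (xiW W + (RW W).Dop D x) (fun t => t) ∧
  ∀ V : ℝ → ℝ, (∀ s t, 0 ≤ s → s ≤ t → t < 1 → (t - s) * (D s)⁻¹ ^ 2 ≤ V t - V s) →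
    ContinuousOn V (Icc 0 1) → EMset (MW W) x V

theorem lev_of_EMW {W : BS} (hE : EMW W) {αc : ℝ} (hαc : 0 < αc) {x : HW W} {D : ℝ → ℝ} {ν : ℝ}
    (hJ : IsJam (RW W) (KW W) (xiW W) αc x D) (hT : TipOut (RW W) (xiW W) x D ν) :
    (∀ l : ℝ, 0 < l → W.P {ω | (MW W).J x ω = l} = 0) ∧
      W.P {ω | (MW W).J (xiW W + (RW W).Dop D x) ω = 0 ∧ (MW W).J x ω = 0} = 0 := by
  have hprob : IsProbabilityMeasure W.P := inferInstance
  have L := P5Fin_12.lcp_of_jam W hαc hJ
  have hpos := hJ.adm.prof.pos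
  have hlow := low_of_log hpos hT.log_D (by have := hT.ν_hi; linarith)
  have hPrf : Prf D := ⟨L.cont, L.anti, hpos, hlow⟩
  obtain ⟨h1, h2⟩ := hE x D L hpos hJ.adm.prof.one
  have hcont : ContinuousOn (K D) (Icc 0 1) := by
    obtain ⟨M, hM, hi, hb⟩ := hPrf.K_bound
    have h1 : ContinuousOn (fun t => ∫ r in (0 : ℝ)..t, (D r)⁻¹ ^ 2) (Icc 0 1) := by
      have := intervalIntegral.continuousOn_primitive_interval' (a := 0) hi (by simp)
      rwa [uIcc_of_le zero_le_one] at this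
    refine (continuousOn_const (c := K D 0)).sub h1 |>.congr fun t ht => ?_
    have := hPrf.K_sub le_rfl ht.1 ht.2
    change K D t = K D 0 - ∫ r in (0 : ℝ)..t, (D r)⁻¹ ^ 2
    linarith
  exact levels_cd' W.br.toIsPreBrownianReal (modelB_xi W.meas W.br 1) L hpos hJ.adm.prof.one hlow h1
    (h2 (fun t => -K D t) (fun s t hs hst ht => by
      have := hPrf.K_dec hs hst ht
      linarith) hcont.neg)

theorem levc {W : BS} (hE : EMW W) : LEVC W := fun _ hαc _ _ _ hJ hT =>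
  (lev_of_EMW hE hαc hJ hT).1

theorem levd {W : BS} (hE : EMW W) : LEVD W := fun _ hαc _ _ _ hJ hT =>
  (lev_of_EMW hE hαc hJ hT).2

end Crest.Agent.R146.LevF_4
end

-- ▼ part R146/LipA_43
section

/-!
Row 146, node LIP, part A (helper43; interface of helper861, post 714): deterministic
one-dimensional facts.

* `one_step_anti`, `one_step_mono`: sharp sub-Gaussian bound for a monotone Lipschitz function of
  one Gaussian variable (convexity of `exp` and association);
* `res m Ψ`: the solution `l` of `l = Ψ (x + m l)` for `Ψ` antitone, `1/Lip` is additive;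
* `gavg v F`: Gaussian average;
* `Lam c N m v i`: the backward recursion of the atomic linear complementarity problem.
-/

set_option autoImplicit false

open MeasureTheory ProbabilityTheory Real
open scoped NNReal

namespace Crest.Agent.R146.LipA_43

/-- nonnegative, nonincreasing, `L`-Lipschitz. -/
structure Anti (L : ℝ) (F : ℝ → ℝ) : Prop where
  anti : Antitone F
  nonneg : ∀ x, 0 ≤ F x
  lip : ∀ x y, |F x - F y| ≤ L * |x - y|

/-! ### Lipschitz functions: generalities -/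

theorem L_nonneg {F : ℝ → ℝ} {L : ℝ} (hl : ∀ x y, |F x - F y| ≤ L * |x - y|) : 0 ≤ L := by
  have h := hl 1 0
  have h1 : |(1 : ℝ) - 0| = 1 := by norm_num
  rw [h1, mul_one] at h
  exact (abs_nonneg _).trans h

theorem lip_continuous {F : ℝ → ℝ} {L : ℝ} (hl : ∀ x y, |F x - F y| ≤ L * |x - y|) :
    Continuous F := by
  have h : LipschitzWith (Real.toNNReal L) F := by
    refine LipschitzWith.of_dist_le_mul fun x y => ?_
    rw [Real.dist_eq, Real.dist_eq, Real.coe_toNNReal _ (L_nonneg hl)]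
    exact hl x y
  exact h.continuous

theorem Anti.continuous {F : ℝ → ℝ} {L : ℝ} (h : Anti L F) : Continuous F := lip_continuous h.lip

theorem Anti.measurable {F : ℝ → ℝ} {L : ℝ} (h : Anti L F) : Measurable F :=
  h.continuous.measurable

theorem Anti.L_nonneg {F : ℝ → ℝ} {L : ℝ} (h : Anti L F) : 0 ≤ L :=
  Crest.Agent.R146.LipA_43.L_nonneg h.lip


/-- `exp (θ |z|)` is integrable. -/
theorem integrable_exp_abs (v : ℝ≥0) (θ : ℝ) :
    Integrable (fun z : ℝ => exp (θ * |z|)) (gaussianReal 0 v) := by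
  have h1 : Integrable (fun z : ℝ => exp (θ * z)) (gaussianReal 0 v) :=
    integrable_exp_mul_gaussianReal θ
  have h2 : Integrable (fun z : ℝ => exp (-θ * z)) (gaussianReal 0 v) :=
    integrable_exp_mul_gaussianReal (-θ)
  refine (h1.add h2).mono' (by fun_prop) (Filter.Eventually.of_forall fun z => ?_)
  rw [Real.norm_eq_abs, abs_of_pos (exp_pos _)]
  simp only [Pi.add_apply]
  rcases abs_cases z with ⟨h, _⟩ | ⟨h, _⟩
  · rw [h]; have := (exp_pos (-θ * z)).le; linarith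
  · rw [h, show θ * -z = -θ * z by ring]; have := (exp_pos (θ * z)).le; linarith

theorem integrable_abs (v : ℝ≥0) : Integrable (fun z : ℝ => |z|) (gaussianReal 0 v) := by
  refine (integrable_exp_abs v 1).mono' (by fun_prop) (Filter.Eventually.of_forall fun z => ?_)
  rw [Real.norm_eq_abs, abs_abs, one_mul]
  have := add_one_le_exp (|z|)
  linarith

theorem integrable_id_gauss (v : ℝ≥0) : Integrable (fun z : ℝ => z) (gaussianReal 0 v) := by
  refine (integrable_abs v).mono' (by fun_prop) (Filter.Eventually.of_forall fun z => ?_)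
  rw [Real.norm_eq_abs]

theorem integral_id_gauss (v : ℝ≥0) : ∫ z, z ∂gaussianReal 0 v = 0 := by
  simp

theorem integrable_lip {F : ℝ → ℝ} {L : ℝ} (hl : ∀ x y, |F x - F y| ≤ L * |x - y|) (v : ℝ≥0)
    (y : ℝ) : Integrable (fun z => F (y + z)) (gaussianReal 0 v) := by
  have hc : Continuous F := lip_continuous hl
  have hb : Integrable (fun z : ℝ => |F y| + L * |z|) (gaussianReal 0 v) :=
    (integrable_const _).add ((integrable_abs v).const_mul L)
  refine hb.mono' (by fun_prop) (Filter.Eventually.of_forall fun z => ?_)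
  rw [Real.norm_eq_abs]
  have h1 := hl (y + z) y
  rw [add_sub_cancel_left] at h1
  have h2 : |F (y + z)| ≤ |F (y + z) - F y| + |F y| := by
    have := abs_add_le (F (y + z) - F y) (F y)
    simpa using this
  linarith

theorem integrable_lip0 {F : ℝ → ℝ} {L : ℝ} (hl : ∀ x y, |F x - F y| ≤ L * |x - y|) (v : ℝ≥0) :
    Integrable F (gaussianReal 0 v) := by
  simpa using integrable_lip hl v 0

/-- growth bound of the centred function -/
theorem centred_bound {F : ℝ → ℝ} {L : ℝ} (hl : ∀ x y, |F x - F y| ≤ L * |x - y|) (v : ℝ≥0) :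
    ∃ C : ℝ, 0 ≤ C ∧ ∀ z, |F z - ∫ y, F y ∂gaussianReal 0 v| ≤ C + L * |z| := by
  refine ⟨|F 0 - ∫ y, F y ∂gaussianReal 0 v|, abs_nonneg _, fun z => ?_⟩
  have h1 := hl z 0
  rw [sub_zero] at h1
  have h2 := abs_add_le (F z - F 0) (F 0 - ∫ y, F y ∂gaussianReal 0 v)
  rw [show F z - F 0 + (F 0 - ∫ y, F y ∂gaussianReal 0 v) =
    F z - ∫ y, F y ∂gaussianReal 0 v by ring] at h2
  linarith

theorem integrable_exp_centred {F : ℝ → ℝ} {L : ℝ} (hl : ∀ x y, |F x - F y| ≤ L * |x - y|)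
    (v : ℝ≥0) (θ : ℝ) :
    Integrable (fun z => exp (θ * (F z - ∫ y, F y ∂gaussianReal 0 v))) (gaussianReal 0 v) := by
  obtain ⟨C, hC0, hC⟩ := centred_bound hl v
  have hc : Continuous F := lip_continuous hl
  have hb : Integrable (fun z : ℝ => exp (|θ| * C) * exp (|θ| * L * |z|)) (gaussianReal 0 v) :=
    (integrable_exp_abs v _).const_mul _
  refine hb.mono' (by fun_prop) (Filter.Eventually.of_forall fun z => ?_)
  rw [Real.norm_eq_abs, abs_of_pos (exp_pos _), ← exp_add]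
  apply exp_le_exp.2
  have h1 : θ * (F z - ∫ y, F y ∂gaussianReal 0 v) ≤
      |θ| * |F z - ∫ y, F y ∂gaussianReal 0 v| := by
    rw [← abs_mul]; exact le_abs_self _
  have h2 := mul_le_mul_of_nonneg_left (hC z) (abs_nonneg θ)
  nlinarith

/-- association for one variable -/
theorem assoc_le {f g : ℝ → ℝ} (μ : Measure ℝ) [IsProbabilityMeasure μ] (hf : Antitone f)
    (hg : Monotone g) (hgc : Continuous g) (hgi : Integrable g μ) (hg0 : ∫ z, g z ∂μ = 0)
    (hfg : Integrable (fun z => f z * g z) μ) : ∫ z, f z * g z ∂μ ≤ 0 := by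
  obtain ⟨a, ha⟩ := exists_le_integral hgi
  obtain ⟨b, hb⟩ := exists_integral_le hgi
  rw [hg0] at ha hb
  obtain ⟨z0, hz0⟩ := mem_range_of_exists_le_of_exists_ge hgc ⟨a, ha⟩ ⟨b, hb⟩
  have h1 : ∫ z, f z * g z ∂μ ≤ ∫ z, f z0 * g z ∂μ := by
    refine integral_mono hfg (hgi.const_mul _) fun z => ?_
    rcases le_total z0 z with h | h
    · have h2 := hg h
      rw [hz0] at h2
      exact mul_le_mul_of_nonneg_right (hf h) h2
    · have h2 := hg h
      rw [hz0] at h2
      exact mul_le_mul_of_nonpos_right (hf h) h2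
  rw [integral_const_mul, hg0, mul_zero] at h1
  exact h1

/-- convexity of `exp (θ ·)` -/
theorem exp_tangent (θ a b : ℝ) :
    exp (θ * a) - exp (θ * b) ≤ θ * exp (θ * a) * (a - b) := by
  have h := add_one_le_exp (θ * b - θ * a)
  have h2 : exp (θ * b) = exp (θ * a) * exp (θ * b - θ * a) := by
    rw [← exp_add]; congr 1; ring
  have h3 := mul_le_mul_of_nonneg_left h (exp_pos (θ * a)).le
  rw [← h2] at h3
  nlinarith

/-- **(A1)** sharp one-step bound, antitone case. -/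
theorem one_step_anti {F : ℝ → ℝ} {L : ℝ} (ha : Antitone F)
    (hl : ∀ x y, |F x - F y| ≤ L * |x - y|) (v : ℝ≥0) (θ : ℝ) :
    Integrable (fun z => exp (θ * (F z - ∫ y, F y ∂gaussianReal 0 v))) (gaussianReal 0 v) ∧
    ∫ z, exp (θ * (F z - ∫ y, F y ∂gaussianReal 0 v)) ∂gaussianReal 0 v ≤
      exp (θ ^ 2 * L ^ 2 * v / 2) := by
  have hL : 0 ≤ L := L_nonneg hl
  have hc : Continuous F := lip_continuous hl
  refine ⟨integrable_exp_centred hl v θ, ?_⟩
  set I : ℝ := ∫ y, F y ∂gaussianReal 0 v with hI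
  have hFi : Integrable F (gaussianReal 0 v) := integrable_lip0 hl v
  have hint := integrable_exp_centred hl v θ
  rw [← hI] at hint
  have hid := integrable_id_gauss v
  have hb : Integrable (fun z : ℝ => exp (-(θ * L) * z)) (gaussianReal 0 v) :=
    integrable_exp_mul_gaussianReal _
  -- the monotone function `a - b`
  set g : ℝ → ℝ := fun z => F z - I + L * z with hg
  have hgm : Monotone g := by
    intro x y hxy
    simp only [hg]
    have h1 := hl x y
    rw [abs_sub_comm x y, abs_of_nonneg (sub_nonneg.2 hxy)] at h1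
    have h2 := le_abs_self (F x - F y)
    linarith
  have hgc : Continuous g := by simp only [hg]; fun_prop
  have hFI : Integrable (fun z => F z - I) (gaussianReal 0 v) := hFi.sub (integrable_const _)
  have hgi : Integrable g (gaussianReal 0 v) := hFI.add (hid.const_mul L)
  have hg0 : ∫ z, g z ∂gaussianReal 0 v = 0 := by
    simp only [hg]
    rw [integral_add hFI (hid.const_mul L),
      integral_sub hFi (integrable_const _), integral_const_mul, integral_id_gauss]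
    simp [hI]
  obtain ⟨C, hC0, hC⟩ := centred_bound hl v
  rw [← hI] at hC
  have hfg : Integrable (fun z => θ * exp (θ * (F z - I)) * g z) (gaussianReal 0 v) := by
    have hbd : Integrable (fun z : ℝ => |θ| * exp (|θ| * C) * exp C *
        exp ((|θ| * L + 2 * L) * |z|)) (gaussianReal 0 v) :=
      (integrable_exp_abs v _).const_mul _
    refine hbd.mono' (by fun_prop) (Filter.Eventually.of_forall fun z => ?_)
    rw [Real.norm_eq_abs, abs_mul, abs_mul, abs_of_pos (exp_pos _)]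
    have h1 : exp (θ * (F z - I)) ≤ exp (|θ| * C) * exp (|θ| * L * |z|) := by
      rw [← exp_add]
      apply exp_le_exp.2
      have h1 : θ * (F z - I) ≤ |θ| * |F z - I| := by
        rw [← abs_mul]; exact le_abs_self _
      have h2 := mul_le_mul_of_nonneg_left (hC z) (abs_nonneg θ)
      nlinarith
    have h2 : |g z| ≤ exp C * exp (2 * L * |z|) := by
      have h3 : |g z| ≤ C + 2 * L * |z| := by
        simp only [hg]
        have h4 := abs_add_le (F z - I) (L * z)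
        rw [abs_mul, abs_of_nonneg hL] at h4
        have h5 := hC z
        linarith
      rw [← exp_add]
      have := add_one_le_exp (C + 2 * L * |z|)
      linarith
    calc |θ| * exp (θ * (F z - I)) * |g z|
        ≤ |θ| * (exp (|θ| * C) * exp (|θ| * L * |z|)) * (exp C * exp (2 * L * |z|)) := by
          gcongr
      _ = |θ| * exp (|θ| * C) * exp C * exp ((|θ| * L + 2 * L) * |z|) := by
          rw [add_mul, exp_add]; ring
  have hf : Antitone fun z => θ * exp (θ * (F z - I)) := by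
    intro x y hxy
    have h1 := ha hxy
    show θ * exp (θ * (F y - I)) ≤ θ * exp (θ * (F x - I))
    rcases le_total 0 θ with hθ | hθ
    · refine mul_le_mul_of_nonneg_left (exp_le_exp.2 ?_) hθ
      exact mul_le_mul_of_nonneg_left (by linarith) hθ
    · refine mul_le_mul_of_nonpos_left (exp_le_exp.2 ?_) hθ
      exact mul_le_mul_of_nonpos_left (by linarith) hθ
  have hass := assoc_le (gaussianReal 0 v) hf hgm hgc hgi hg0 hfg
  have hle : ∫ z, (exp (θ * (F z - I)) - exp (-(θ * L) * z)) ∂gaussianReal 0 v ≤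
      ∫ z, θ * exp (θ * (F z - I)) * g z ∂gaussianReal 0 v := by
    refine integral_mono (hint.sub hb) hfg fun z => ?_
    have h := exp_tangent θ (F z - I) (-(L * z))
    simp only [hg]
    rw [show -(θ * L) * z = θ * (-(L * z)) by ring]
    calc exp (θ * (F z - I)) - exp (θ * (-(L * z)))
        ≤ θ * exp (θ * (F z - I)) * ((F z - I) - (-(L * z))) := h
      _ = θ * exp (θ * (F z - I)) * (F z - I + L * z) := by ring
  rw [integral_sub hint hb] at hle
  have hmgf : ∫ z, exp (-(θ * L) * z) ∂gaussianReal 0 v = exp (θ ^ 2 * L ^ 2 * v / 2) := by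
    have h := congrFun (mgf_id_gaussianReal (μ := 0) (v := v)) (-(θ * L))
    rw [mgf] at h
    simp only [id_eq] at h
    rw [h]
    congr 1
    ring
  rw [hmgf] at hle
  linarith

/-- **(A1)** sharp one-step bound, monotone case. -/
theorem one_step_mono {F : ℝ → ℝ} {L : ℝ} (ha : Monotone F)
    (hl : ∀ x y, |F x - F y| ≤ L * |x - y|) (v : ℝ≥0) (θ : ℝ) :
    Integrable (fun z => exp (θ * (F z - ∫ y, F y ∂gaussianReal 0 v))) (gaussianReal 0 v) ∧
    ∫ z, exp (θ * (F z - ∫ y, F y ∂gaussianReal 0 v)) ∂gaussianReal 0 v ≤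
      exp (θ ^ 2 * L ^ 2 * v / 2) := by
  have h := one_step_anti (F := fun x => -F x) (L := L) (fun x y hxy => neg_le_neg (ha hxy))
    (fun x y => by
      rw [show -F x - -F y = -(F x - F y) by ring, abs_neg]
      exact hl x y) v (-θ)
  have h2 : ∀ z, -θ * (-F z - ∫ y, -F y ∂gaussianReal 0 v) =
      θ * (F z - ∫ y, F y ∂gaussianReal 0 v) := by
    intro z; rw [integral_neg]; ring
  simp only [h2] at h
  rw [show (-θ) ^ 2 = θ ^ 2 by ring] at h
  exact h

/-! ### The resolvent -/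

theorem res_exists {Ψ : ℝ → ℝ} {L : ℝ} (hΨ : Anti L Ψ) {m : ℝ} (hm : 0 ≤ m) (x : ℝ) :
    ∃ l : ℝ, l = Ψ (x + m * l) := by
  have hc := hΨ.continuous
  have hk : Continuous fun l : ℝ => l - Ψ (x + m * l) := by fun_prop
  have h0 : (fun l : ℝ => l - Ψ (x + m * l)) 0 ≤ 0 := by
    simp only [mul_zero, add_zero, zero_sub, Left.neg_nonpos_iff]
    exact hΨ.nonneg x
  have h1 : 0 ≤ (fun l : ℝ => l - Ψ (x + m * l)) (Ψ x) := by
    simp only
    have := hΨ.anti (show x ≤ x + m * Ψ x by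
      have := mul_nonneg hm (hΨ.nonneg x); linarith)
    linarith
  obtain ⟨l, hl⟩ := mem_range_of_exists_le_of_exists_ge hk ⟨0, h0⟩ ⟨Ψ x, h1⟩
  exact ⟨l, by simp only at hl; linarith⟩

open scoped Classical in
/-- the solution `l` of `l = Ψ (x + m l)` -/
noncomputable def res (m : ℝ) (Ψ : ℝ → ℝ) (x : ℝ) : ℝ :=
  if h : ∃ l : ℝ, l = Ψ (x + m * l) then h.choose else 0

theorem res_eq {Ψ : ℝ → ℝ} {L : ℝ} (hΨ : Anti L Ψ) {m : ℝ} (hm : 0 ≤ m) (x : ℝ) :
    res m Ψ x = Ψ (x + m * res m Ψ x) := by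
  have h := res_exists hΨ hm x
  unfold res
  rw [dif_pos h]
  exact h.choose_spec


theorem res_antitone {Ψ : ℝ → ℝ} {L : ℝ} (hΨ : Anti L Ψ) {m : ℝ} (hm : 0 ≤ m) :
    Antitone (res m Ψ) := by
  intro x x' hxx
  by_contra hcon
  push Not at hcon
  have h := res_eq hΨ hm x
  have h' := res_eq hΨ hm x'
  have h1 : x + m * res m Ψ x ≤ x' + m * res m Ψ x' := by
    have := mul_le_mul_of_nonneg_left hcon.le hm
    linarith
  have h2 := hΨ.anti h1
  rw [← h, ← h'] at h2
  exact absurd h2 (not_le.2 hcon)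

/-- `x ↦ x + m * res m Ψ x` is nondecreasing -/
theorem res_shift_mono {Ψ : ℝ → ℝ} {L : ℝ} (hΨ : Anti L Ψ) {m : ℝ} (hm : 0 ≤ m) :
    Monotone fun x => x + m * res m Ψ x := by
  intro x x' hxx
  show x + m * res m Ψ x ≤ x' + m * res m Ψ x'
  by_contra hcon
  push Not at hcon
  have h := res_eq hΨ hm x
  have h' := res_eq hΨ hm x'
  have h2 := hΨ.anti hcon.le
  rw [← h, ← h'] at h2
  have h3 := mul_le_mul_of_nonneg_left h2 hm
  linarith

theorem res_anti {Ψ : ℝ → ℝ} {L : ℝ} (hΨ : Anti L Ψ) {m : ℝ} (hm : 0 ≤ m) :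
    Anti (L / (1 + m * L)) (res m Ψ) := by
  have hL := hΨ.L_nonneg
  have hpos : 0 < 1 + m * L := by have := mul_nonneg hm hL; linarith
  refine ⟨res_antitone hΨ hm, fun x => ?_, ?_⟩
  · rw [res_eq hΨ hm x]; exact hΨ.nonneg _
  · -- ordered case
    have key : ∀ x x', x ≤ x' → |res m Ψ x - res m Ψ x'| ≤ L / (1 + m * L) * |x - x'| := by
      intro x x' hxx
      have h1 := res_antitone hΨ hm hxx
      have h2 := res_shift_mono hΨ hm hxx
      simp only at h2
      rw [abs_of_nonneg (sub_nonneg.2 h1), abs_sub_comm x x', abs_of_nonneg (sub_nonneg.2 hxx)]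
      have h3 := hΨ.lip (x + m * res m Ψ x) (x' + m * res m Ψ x')
      rw [← res_eq hΨ hm x, ← res_eq hΨ hm x', abs_of_nonneg (sub_nonneg.2 h1),
        abs_sub_comm, abs_of_nonneg (sub_nonneg.2 h2)] at h3
      rw [div_mul_eq_mul_div, le_div_iff₀ hpos]
      nlinarith
    intro x y
    rcases le_total x y with h | h
    · exact key x y h
    · rw [abs_sub_comm, abs_sub_comm x y]; exact key y x h

/-! ### Gaussian average -/

/-- Gaussian average -/
noncomputable def gavg (v : ℝ≥0) (F : ℝ → ℝ) (y : ℝ) : ℝ := ∫ z, F (y + z) ∂gaussianReal 0 v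

theorem gavg_integrable {F : ℝ → ℝ} {L : ℝ} (h : Anti L F) (v : ℝ≥0) (y : ℝ) :
    Integrable (fun z => F (y + z)) (gaussianReal 0 v) := integrable_lip h.lip v y

theorem gavg_anti {F : ℝ → ℝ} {L : ℝ} (h : Anti L F) (v : ℝ≥0) : Anti L (gavg v F) := by
  refine ⟨fun x y hxy => ?_, fun x => ?_, fun x y => ?_⟩
  · exact integral_mono (gavg_integrable h v y) (gavg_integrable h v x)
      fun z => h.anti (by linarith)
  · exact integral_nonneg fun z => h.nonneg _
  · unfold gavg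
    rw [← integral_sub (gavg_integrable h v x) (gavg_integrable h v y)]
    have h1 := norm_integral_le_of_norm_le_const (μ := gaussianReal 0 v) (C := L * |x - y|)
      (f := fun z => F (x + z) - F (y + z)) (Filter.Eventually.of_forall fun z => by
        rw [Real.norm_eq_abs]
        have := h.lip (x + z) (y + z)
        rwa [show x + z - (y + z) = x - y by ring] at this)
    simpa using h1


/-! ### The base function -/

theorem base_anti {c : ℝ} (hc : 0 < c) : Anti (1 / c) (fun x => max (-x) 0 / c) := by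
  refine ⟨fun x y hxy => ?_, fun x => ?_, fun x y => ?_⟩
  · exact div_le_div_of_nonneg_right (max_le_max (by linarith) le_rfl) hc.le
  · exact div_nonneg (le_max_right _ _) hc.le
  · rw [← sub_div, abs_div, abs_of_pos hc, div_eq_mul_one_div, mul_comm (1 / c)]
    refine mul_le_mul_of_nonneg_right ?_ (by positivity)
    have h := abs_max_sub_max_le_max (-x) 0 (-y) 0
    rw [show -x - -y = -(x - y) by ring, abs_neg, sub_zero, abs_zero,
      max_eq_left (abs_nonneg (x - y))] at h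
    exact h

/-! ### The backward recursion -/

/-- auxiliary recursion, indexed by the number of steps from the end -/
noncomputable def LamAux (c : ℝ) (N : ℕ) (m : ℕ → ℝ) (v : ℕ → ℝ≥0) : ℕ → ℝ → ℝ
  | 0 => fun x => max (-x) 0 / c
  | k + 1 => res (m (N - (k + 1))) (gavg (v (N - (k + 1))) (LamAux c N m v k))

/-- the functions `Λ_i`, `i ≤ N` -/
noncomputable def Lam (c : ℝ) (N : ℕ) (m : ℕ → ℝ) (v : ℕ → ℝ≥0) (i : ℕ) : ℝ → ℝ :=
  LamAux c N m v (N - i)

theorem lam_last (c : ℝ) (N : ℕ) (m : ℕ → ℝ) (v : ℕ → ℝ≥0) :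
    Lam c N m v N = fun x => max (-x) 0 / c := by
  unfold Lam
  rw [Nat.sub_self]
  rfl

theorem lam_step (c : ℝ) {N : ℕ} (m : ℕ → ℝ) (v : ℕ → ℝ≥0) {i : ℕ} (hi : i < N) :
    Lam c N m v i = res (m i) (gavg (v i) (Lam c N m v (i + 1))) := by
  unfold Lam
  obtain ⟨k, hk⟩ : ∃ k, N - i = k + 1 := ⟨N - i - 1, by omega⟩
  have hk' : N - (i + 1) = k := by omega
  have hi' : N - (k + 1) = i := by omega
  rw [hk, hk']
  show res (m (N - (k + 1))) (gavg (v (N - (k + 1))) (LamAux c N m v k)) = _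
  rw [hi']

theorem lam_anti {c : ℝ} (hc : 0 < c) {N : ℕ} {m : ℕ → ℝ} (v : ℕ → ℝ≥0)
    (hm : ∀ i < N, 0 ≤ m i) {i : ℕ} (hi : i ≤ N) :
    Anti (1 / (c + ∑ j ∈ Finset.Ico i N, m j)) (Lam c N m v i) := by
  induction hi using Nat.decreasingInduction with
  | self =>
    rw [lam_last, Finset.Ico_self, Finset.sum_empty, add_zero]
    exact base_anti hc
  | of_succ i hi ih =>
    rw [lam_step c m v hi]
    have h := res_anti (gavg_anti ih (v i)) (hm i hi)
    have hS : 0 ≤ ∑ j ∈ Finset.Ico (i + 1) N, m j :=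
      Finset.sum_nonneg fun j hj => hm j (Finset.mem_Ico.1 hj).2
    have hmi := hm i hi
    have hpos : 0 < c + ∑ j ∈ Finset.Ico (i + 1) N, m j := by linarith
    rw [Finset.sum_eq_sum_Ico_succ_bot hi]
    convert h using 1
    field_simp
    ring

theorem lam_D_pos {c : ℝ} (hc : 0 < c) {N : ℕ} {m : ℕ → ℝ} (hm : ∀ i < N, 0 ≤ m i) (i : ℕ) :
    0 < c + ∑ j ∈ Finset.Ico i N, m j := by
  have hS : 0 ≤ ∑ j ∈ Finset.Ico i N, m j :=
    Finset.sum_nonneg fun j hj => hm j (Finset.mem_Ico.1 hj).2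
  linarith


/-- an antitone `1/D`-Lipschitz function: `x ↦ x + D F x` is nondecreasing and 1-Lipschitz. -/
theorem shift_mono {D : ℝ} (hD : 0 < D) {F : ℝ → ℝ} (h : Anti (1 / D) F) :
    Monotone fun x => x + D * F x := by
  intro x y hxy
  show x + D * F x ≤ y + D * F y
  have h1 := (le_abs_self _).trans (h.lip x y)
  rw [abs_sub_comm x y, abs_of_nonneg (sub_nonneg.2 hxy), one_div, inv_mul_eq_div,
    le_div_iff₀ hD] at h1
  linarith

theorem shift_lip {D : ℝ} (hD : 0 < D) {F : ℝ → ℝ} (h : Anti (1 / D) F) (x y : ℝ) :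
    |(x + D * F x) - (y + D * F y)| ≤ 1 * |x - y| := by
  have key : ∀ x y : ℝ, x ≤ y → |(x + D * F x) - (y + D * F y)| ≤ 1 * |x - y| := by
    intro x y hxy
    have h1 := shift_mono hD h hxy
    simp only at h1
    have h2 := mul_le_mul_of_nonneg_left (h.anti hxy) hD.le
    rw [abs_sub_comm, abs_of_nonneg (by linarith), abs_sub_comm x y,
      abs_of_nonneg (sub_nonneg.2 hxy)]
    linarith
  rcases le_total x y with h1 | h1
  · exact key x y h1
  · rw [abs_sub_comm, abs_sub_comm x y]; exact key y x h1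

/-- `W_i x = x + (c + ∑_{j ≥ i} m_j) Λ_i x` is nondecreasing -/
theorem W_mono {c : ℝ} (hc : 0 < c) {N : ℕ} {m : ℕ → ℝ} (v : ℕ → ℝ≥0)
    (hm : ∀ i < N, 0 ≤ m i) {i : ℕ} (hi : i ≤ N) :
    Monotone fun x => x + (c + ∑ j ∈ Finset.Ico i N, m j) * Lam c N m v i x :=
  shift_mono (lam_D_pos hc hm i) (lam_anti hc v hm hi)

/-- `W_i` is 1-Lipschitz -/
theorem W_lip {c : ℝ} (hc : 0 < c) {N : ℕ} {m : ℕ → ℝ} (v : ℕ → ℝ≥0)
    (hm : ∀ i < N, 0 ≤ m i) {i : ℕ} (hi : i ≤ N) (x y : ℝ) :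
    |(x + (c + ∑ j ∈ Finset.Ico i N, m j) * Lam c N m v i x) -
      (y + (c + ∑ j ∈ Finset.Ico i N, m j) * Lam c N m v i y)| ≤ 1 * |x - y| :=
  shift_lip (lam_D_pos hc hm i) (lam_anti hc v hm hi) x y

end Crest.Agent.R146.LipA_43
end

-- ▼ part R146/LipChain_861
section

/-!
Row 146, package P5, node LIP (att 146-861-1), part B2: the finite chain
`X_{i+1} = X_i + m_i Λ_i(X_i) + b_i` of the atomic LCP, its martingale, complementarity and
conditional exponential bounds.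
-/

set_option autoImplicit false
set_option maxHeartbeats 400000

namespace Crest.Agent.R146.LipChain_861

open MeasureTheory ProbabilityTheory Filter Set Real
open Crest.Agent.R146.LipA_43 Crest.Agent.R146.LipB_861
open scoped NNReal ENNReal

variable {Ω : Type*} {mΩ : MeasurableSpace Ω} {P : Measure Ω}

/-- the data of a finite chain -/
structure Data (P : Measure Ω) (c : ℝ) (N : ℕ) (m : ℕ → ℝ) (v : ℕ → ℝ≥0)
    (𝓕 : ℕ → MeasurableSpace Ω) (b : ℕ → Ω → ℝ) : Prop where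
  hc : 0 < c
  hm : ∀ i < N, 0 ≤ m i
  mono : Monotone 𝓕
  le : ∀ i, 𝓕 i ≤ mΩ
  meas : ∀ i < N, Measurable[𝓕 (i + 1)] (b i)
  ind : ∀ i < N, Indep (𝓕 i) (MeasurableSpace.comap (b i) inferInstance) P
  law : ∀ i < N, P.map (b i) = gaussianReal 0 (v i)

/-- the chain -/
noncomputable def X (κ c : ℝ) (N : ℕ) (m : ℕ → ℝ) (v : ℕ → ℝ≥0) (b : ℕ → Ω → ℝ) : ℕ → Ω → ℝ
  | 0 => fun _ => κ
  | i + 1 => fun ω => X κ c N m v b i ω + m i * Lam c N m v i (X κ c N m v b i ω) + b i ω

/-- the force -/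
noncomputable def lam (κ c : ℝ) (N : ℕ) (m : ℕ → ℝ) (v : ℕ → ℝ≥0) (b : ℕ → Ω → ℝ) (i : ℕ)
    (ω : Ω) : ℝ := Lam c N m v i (X κ c N m v b i ω)

/-- the remaining mass -/
noncomputable def D (c : ℝ) (N : ℕ) (m : ℕ → ℝ) (i : ℕ) : ℝ := c + ∑ j ∈ Finset.Ico i N, m j

section

variable {κ c : ℝ} {N : ℕ} {m : ℕ → ℝ} {v : ℕ → ℝ≥0} {𝓕 : ℕ → MeasurableSpace Ω} {b : ℕ → Ω → ℝ}

theorem X_succ (i : ℕ) (ω : Ω) : X κ c N m v b (i + 1) ω
    = X κ c N m v b i ω + m i * lam κ c N m v b i ω + b i ω := rfl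

theorem D_pos (h : Data P c N m v 𝓕 b) (i : ℕ) : 0 < D c N m i := by
  have : 0 ≤ ∑ j ∈ Finset.Ico i N, m j :=
    Finset.sum_nonneg fun j hj => h.hm j (Finset.mem_Ico.1 hj).2
  have := h.hc
  unfold D; linarith

theorem D_succ {i : ℕ} (hi : i < N) : D c N m i = m i + D c N m (i + 1) := by
  unfold D
  rw [← Finset.sum_Ico_consecutive _ (Nat.le_succ i) hi]
  simp; ring

theorem lamAnti (h : Data P c N m v 𝓕 b) {i : ℕ} (hi : i ≤ N) :
    Anti (1 / D c N m i) (Lam c N m v i) := lam_anti h.hc v h.hm hi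

theorem X_meas (h : Data P c N m v 𝓕 b) {i : ℕ} (hi : i ≤ N) :
    Measurable[𝓕 i] (X κ c N m v b i) := by
  induction i with
  | zero => exact measurable_const
  | succ i ih =>
    have h1 := (ih (Nat.le_of_succ_le hi)).mono (h.mono (Nat.le_succ i)) le_rfl
    have h2 : Measurable[𝓕 (i + 1)] (lam κ c N m v b i) :=
      (lamAnti h (Nat.le_of_succ_le hi)).measurable.comp h1
    exact (h1.add (h2.const_mul (m i))).add (h.meas i hi)

theorem lam_meas (h : Data P c N m v 𝓕 b) {i : ℕ} (hi : i ≤ N) :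
    Measurable[𝓕 i] (lam κ c N m v b i) :=
  (lamAnti h hi).measurable.comp (X_meas h hi)

theorem b_memLp [IsProbabilityMeasure P] (h : Data P c N m v 𝓕 b) {i : ℕ} (hi : i < N) :
    MemLp (b i) 2 P := by
  have hb : Measurable (b i) := (h.meas i hi).mono (h.le _) le_rfl
  have : MemLp (fun x : ℝ => x) 2 (P.map (b i)) := by
    rw [h.law i hi]
    exact memLp_id_gaussianReal 2
  exact (memLp_map_measure_iff (by fun_prop) hb.aemeasurable).1 this

theorem anti_memLp [IsProbabilityMeasure P] {L : ℝ} {F : ℝ → ℝ}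
    (hF : ∀ x y, |F x - F y| ≤ L * |x - y|) (hFm : Measurable F)
    {Y : Ω → ℝ} (hY : MemLp Y 2 P) (hYm : Measurable Y) : MemLp (fun ω => F (Y ω)) 2 P := by
  have h0 : MemLp (fun ω => L * |Y ω|) 2 P := hY.abs.const_mul L
  have h1 : MemLp (fun ω => |F 0| + L * |Y ω|) 2 P := (memLp_const |F 0|).add h0
  refine h1.mono' (hFm.comp hYm).aestronglyMeasurable (Eventually.of_forall fun ω => ?_)
  have := hF (Y ω) 0
  rw [sub_zero] at this
  rw [Real.norm_eq_abs]
  calc |F (Y ω)| ≤ |F 0| + |F (Y ω) - F 0| := by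
        have := abs_add_le (F 0) (F (Y ω) - F 0)
        simpa using this
    _ ≤ _ := by linarith

theorem X_memLp [IsProbabilityMeasure P] (h : Data P c N m v 𝓕 b) {i : ℕ} (hi : i ≤ N) :
    MemLp (X κ c N m v b i) 2 P := by
  induction i with
  | zero => exact memLp_const _
  | succ i ih =>
    have h1 := ih (Nat.le_of_succ_le hi)
    have hm := (X_meas (κ := κ) h (Nat.le_of_succ_le hi)).mono (h.le _) le_rfl
    have h2 : MemLp (lam κ c N m v b i) 2 P :=
      anti_memLp (lamAnti h (Nat.le_of_succ_le hi)).lip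
        (lamAnti h (Nat.le_of_succ_le hi)).measurable h1 hm
    exact (h1.add (h2.const_mul (m i))).add (b_memLp h hi)

theorem lam_memLp [IsProbabilityMeasure P] (h : Data P c N m v 𝓕 b) {i : ℕ} (hi : i ≤ N) :
    MemLp (lam κ c N m v b i) 2 P :=
  anti_memLp (lamAnti h hi).lip (lamAnti h hi).measurable (X_memLp h hi)
    ((X_meas h hi).mono (h.le _) le_rfl)

/-- the one step mean of the force -/
theorem mean_step (h : Data P c N m v 𝓕 b) {i : ℕ} (hi : i < N) (x : ℝ) :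
    ∫ z, Lam c N m v (i + 1) (x + m i * Lam c N m v i x + z) ∂gaussianReal 0 (v i)
      = Lam c N m v i x := by
  have h1 := gavg_anti (lamAnti h (i := i + 1) hi) (v i)
  have h2 := res_eq h1 (h.hm i hi) x
  rw [← lam_step c m v hi] at h2
  exact h2.symm

theorem integrable_gauss_lip {L : ℝ} {F : ℝ → ℝ} (hF : ∀ x y, |F x - F y| ≤ L * |x - y|)
    (hFm : Measurable F) (v : ℝ≥0) (x : ℝ) :
    Integrable (fun z => F (x + z)) (gaussianReal 0 v) := by
  have h0 : Integrable (fun z : ℝ => z) (gaussianReal 0 v) :=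
    (memLp_id_gaussianReal 1).integrable le_rfl
  have h1 : Integrable (fun z : ℝ => |F x| + L * |z|) (gaussianReal 0 v) :=
    (integrable_const _).add (h0.abs.const_mul L)
  have h2 : Measurable fun z => F (x + z) := hFm.comp (measurable_const_add x)
  refine h1.mono' h2.aestronglyMeasurable (Eventually.of_forall fun z => ?_)
  have := hF (x + z) x
  rw [add_sub_cancel_left] at this
  rw [Real.norm_eq_abs]
  calc |F (x + z)| ≤ |F x| + |F (x + z) - F x| := by
        have := abs_add_le (F x) (F (x + z) - F x)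
        simpa using this
    _ ≤ _ := by linarith

/-- the force is a martingale -/
theorem condExp_lam_succ [IsProbabilityMeasure P] (h : Data P c N m v 𝓕 b) {i : ℕ} (hi : i < N) :
    P[lam κ c N m v b (i + 1) | 𝓕 i] =ᵐ[P] lam κ c N m v b i := by
  have hb : Measurable (b i) := (h.meas i hi).mono (h.le _) le_rfl
  have hA := lamAnti h (i := i) hi.le
  have hA' := lamAnti h (i := i + 1) hi
  have hf : Measurable fun q : ℝ × ℝ =>
      Lam c N m v (i + 1) (q.1 + m i * Lam c N m v i q.1 + q.2) := by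
    have := hA.measurable; have := hA'.measurable; fun_prop
  have hint : Integrable (fun ω => (fun q : ℝ × ℝ =>
      Lam c N m v (i + 1) (q.1 + m i * Lam c N m v i q.1 + q.2)) (X κ c N m v b i ω, b i ω)) P :=
    (lam_memLp (κ := κ) h (i := i + 1) hi).integrable one_le_two
  have := condExp_freeze (h.le i) (X_meas (κ := κ) h hi.le) hb (h.ind i hi) hf hint
  refine this.trans (Eventually.of_forall fun ω => ?_)
  simp only [h.law i hi]
  exact mean_step h hi _

theorem condExp_lam [IsProbabilityMeasure P] (h : Data P c N m v 𝓕 b) {i : ℕ} (hi : i ≤ N) :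
    P[lam κ c N m v b N | 𝓕 i] =ᵐ[P] lam κ c N m v b i := by
  induction hi using Nat.decreasingInduction with
  | self =>
    rw [condExp_of_stronglyMeasurable (h.le N) (lam_meas h le_rfl).stronglyMeasurable
      ((lam_memLp h le_rfl).integrable one_le_two)]
  | of_succ k hk ih =>
    have h1 : P[P[lam κ c N m v b N | 𝓕 (k + 1)] | 𝓕 k] =ᵐ[P] P[lam κ c N m v b N | 𝓕 k] :=
      condExp_condExp_of_le (h.mono (Nat.le_succ k)) (h.le _)
    exact h1.symm.trans ((condExp_congr_ae ih).trans (condExp_lam_succ h hk))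

theorem X_eq (i : ℕ) (ω : Ω) : X κ c N m v b i ω
    = κ + ∑ j ∈ Finset.range i, b j ω + ∑ j ∈ Finset.range i, m j * lam κ c N m v b j ω := by
  induction i with
  | zero => simp [X]
  | succ i ih => rw [X_succ, ih, Finset.sum_range_succ, Finset.sum_range_succ]; ring

/-- complementarity at the end of the chain -/
theorem final (h : Data P c N m v 𝓕 b) (ω : Ω) :
    X κ c N m v b N ω + c * lam κ c N m v b N ω = max (X κ c N m v b N ω) 0 := by
  unfold lam
  rw [lam_last]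
  have := h.hc.ne'
  dsimp only
  rw [mul_div_cancel₀ _ this]
  rcases le_total 0 (X κ c N m v b N ω) with hx | hx
  · rw [max_eq_right (by linarith : -X κ c N m v b N ω ≤ 0), max_eq_left hx]; ring
  · rw [max_eq_left (by linarith : 0 ≤ -X κ c N m v b N ω), max_eq_right hx]; ring

theorem final_mul (h : Data P c N m v 𝓕 b) (ω : Ω) :
    lam κ c N m v b N ω * max (X κ c N m v b N ω) 0 = 0 := by
  unfold lam
  rw [lam_last]
  have := h.hc.ne'
  dsimp only
  rcases le_total 0 (X κ c N m v b N ω) with hx | hx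
  · rw [max_eq_right (by linarith : -X κ c N m v b N ω ≤ 0)]; simp
  · rw [max_eq_right hx]; simp

theorem lam_nonneg (h : Data P c N m v 𝓕 b) {i : ℕ} (hi : i ≤ N) (ω : Ω) :
    0 ≤ lam κ c N m v b i ω := (lamAnti h hi).nonneg _

/-! ### conditional exponential bounds -/

/-- the generic inductive bound -/
theorem exp_bound [IsProbabilityMeasure P] (h : Data P c N m v 𝓕 b) {f : ℕ → ℝ → ℝ} {K : ℕ → ℝ}
    (hfm : ∀ i ≤ N, Measurable (f i)) (θ : ℝ)
    (hone : ∀ k < N, ∀ x : ℝ, ∫⁻ z, ENNReal.ofReal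
      (exp (θ * (f (k + 1) (x + m k * Lam c N m v k x + z) - f k x))) ∂gaussianReal 0 (v k)
        ≤ ENNReal.ofReal (exp (θ ^ 2 * K (k + 1) ^ 2 * v k / 2)))
    {i j : ℕ} (hij : i ≤ j) (hj : j ≤ N) {A : Set Ω} (hA : MeasurableSet[𝓕 i] A) :
    ∫⁻ ω in A, ENNReal.ofReal (exp (θ * (f j (X κ c N m v b j ω) - f i (X κ c N m v b i ω)))) ∂P
      ≤ ENNReal.ofReal (exp (θ ^ 2 * (∑ k ∈ Finset.Ico i j, K (k + 1) ^ 2 * v k) / 2)) * P A := by
  induction j, hij using Nat.le_induction with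
  | base => simp
  | succ j hij ih =>
    have hjN : j < N := hj
    have ih' := ih hjN.le
    have hAm : MeasurableSet A := h.le _ _ hA
    have hb : Measurable (b j) := (h.meas j hjN).mono (h.le _) le_rfl
    have hXj := X_meas (κ := κ) h hjN.le
    have hXi := (X_meas (κ := κ) h (hij.trans hjN.le)).mono (h.mono hij) le_rfl
    have hLm := (lamAnti h hjN.le).measurable
    -- the `𝓕 j` measurable weight
    set g : Ω → ℝ≥0∞ := A.indicator fun ω =>
      ENNReal.ofReal (exp (θ * (f j (X κ c N m v b j ω) - f i (X κ c N m v b i ω)))) with hg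
    have hgm : Measurable[𝓕 j] g := by
      refine Measurable.indicator ?_ (h.mono hij _ hA)
      refine ENNReal.measurable_ofReal.comp (Real.measurable_exp.comp ?_)
      exact (((hfm j hjN.le).comp hXj).sub ((hfm i (hij.trans hjN.le)).comp hXi)).const_mul θ
    have hΦ : Measurable fun q : (ℝ≥0∞ × ℝ) × ℝ => q.1.1 * ENNReal.ofReal
        (exp (θ * (f (j + 1) (q.1.2 + m j * Lam c N m v j q.1.2 + q.2) - f j q.1.2))) := by
      have h1 := hfm (j + 1) hj
      have h2 := hfm j hjN.le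
      fun_prop
    have key := lintegral_freeze (P := P) (h.le j) (hgm.prodMk hXj) hb (h.ind j hjN) hΦ
    calc ∫⁻ ω in A, ENNReal.ofReal
          (exp (θ * (f (j + 1) (X κ c N m v b (j + 1) ω) - f i (X κ c N m v b i ω)))) ∂P
        = ∫⁻ ω, g ω * ENNReal.ofReal (exp (θ * (f (j + 1)
            (X κ c N m v b j ω + m j * Lam c N m v j (X κ c N m v b j ω) + b j ω)
              - f j (X κ c N m v b j ω)))) ∂P := by
          rw [← lintegral_indicator hAm]
          refine lintegral_congr fun ω => ?_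
          by_cases hω : ω ∈ A
          · simp only [hg, Set.indicator_of_mem hω]
            rw [← ENNReal.ofReal_mul (exp_pos _).le, ← exp_add]
            congr 2
            have : X κ c N m v b (j + 1) ω
              = X κ c N m v b j ω + m j * Lam c N m v j (X κ c N m v b j ω) + b j ω := rfl
            rw [this]; ring
          · simp only [hg, Set.indicator_of_notMem hω, zero_mul]
      _ = ∫⁻ ω, ∫⁻ z, g ω * ENNReal.ofReal (exp (θ * (f (j + 1)
            (X κ c N m v b j ω + m j * Lam c N m v j (X κ c N m v b j ω) + z)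
              - f j (X κ c N m v b j ω)))) ∂(P.map (b j)) ∂P := key
      _ ≤ ∫⁻ ω, g ω * ENNReal.ofReal (exp (θ ^ 2 * K (j + 1) ^ 2 * v j / 2)) ∂P := by
          refine lintegral_mono fun ω => ?_
          rw [h.law j hjN, lintegral_const_mul _ (by
            have h1 := hfm (j + 1) hj
            fun_prop)]
          gcongr
          exact hone j hjN _
      _ = (∫⁻ ω, g ω ∂P) * ENNReal.ofReal (exp (θ ^ 2 * K (j + 1) ^ 2 * v j / 2)) :=
          lintegral_mul_const _ (hgm.mono (h.le _) le_rfl)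
      _ ≤ (ENNReal.ofReal (exp (θ ^ 2 * (∑ k ∈ Finset.Ico i j, K (k + 1) ^ 2 * v k) / 2)) * P A)
            * ENNReal.ofReal (exp (θ ^ 2 * K (j + 1) ^ 2 * v j / 2)) := by
          gcongr
          rw [hg, lintegral_indicator hAm]
          exact ih'
      _ = _ := by
          rw [mul_right_comm, ← ENNReal.ofReal_mul (exp_pos _).le, ← exp_add,
            Finset.sum_Ico_succ_top hij]
          congr 3
          ring

/-- **conditional exponential bound for the force** -/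
theorem exp_lam [IsProbabilityMeasure P] (h : Data P c N m v 𝓕 b) (θ : ℝ)
    {i j : ℕ} (hij : i ≤ j) (hj : j ≤ N) {A : Set Ω} (hA : MeasurableSet[𝓕 i] A) :
    ∫⁻ ω in A, ENNReal.ofReal (exp (θ * (lam κ c N m v b j ω - lam κ c N m v b i ω))) ∂P
      ≤ ENNReal.ofReal
        (exp (θ ^ 2 * (∑ k ∈ Finset.Ico i j, (1 / D c N m (k + 1)) ^ 2 * v k) / 2)) * P A := by
  refine exp_bound (K := fun k => 1 / D c N m k) h (f := Lam c N m v)
    (fun i hi => (lamAnti h hi).measurable) θ (fun k hk x => ?_) hij hj hA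
  have hA' := lamAnti h (i := k + 1) hk
  have h1 := one_step_anti (F := fun z => Lam c N m v (k + 1) (x + m k * Lam c N m v k x + z))
    (L := 1 / D c N m (k + 1))
    (fun y z hyz => hA'.anti (by linarith)) (fun y z => by
      have := hA'.lip (x + m k * Lam c N m v k x + y) (x + m k * Lam c N m v k x + z)
      rwa [add_sub_add_left_eq_sub] at this) (v k) θ
  rw [mean_step h hk x] at h1
  rw [← ofReal_integral_eq_lintegral_ofReal h1.1 (Eventually.of_forall fun _ => (exp_pos _).le)]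
  exact ENNReal.ofReal_le_ofReal h1.2

/-- the gap as a function of the position -/
noncomputable def W (c : ℝ) (N : ℕ) (m : ℕ → ℝ) (v : ℕ → ℝ≥0) (i : ℕ) (x : ℝ) : ℝ :=
  x + D c N m i * Lam c N m v i x

theorem W_mono (h : Data P c N m v 𝓕 b) {i : ℕ} (hi : i ≤ N) : Monotone (W c N m v i) := by
  intro x y hxy
  have hA := lamAnti h hi
  have hD := D_pos h i
  have h1 := hA.lip x y
  have h2 : D c N m i * (Lam c N m v i x - Lam c N m v i y) ≤ y - x := by
    calc D c N m i * (Lam c N m v i x - Lam c N m v i y)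
        ≤ D c N m i * (1 / D c N m i * |x - y|) := by
          gcongr; exact (le_abs_self _).trans h1
      _ = |x - y| := by field_simp
      _ = y - x := by rw [abs_sub_comm, abs_of_nonneg (by linarith)]
  unfold W
  nlinarith

theorem W_lip (h : Data P c N m v 𝓕 b) {i : ℕ} (hi : i ≤ N) (x y : ℝ) :
    |W c N m v i x - W c N m v i y| ≤ 1 * |x - y| := by
  wlog hxy : y ≤ x generalizing x y
  · rw [abs_sub_comm, abs_sub_comm x y]
    exact this y x (le_of_not_ge hxy)
  rw [abs_of_nonneg (sub_nonneg.2 (W_mono h hi hxy)), abs_of_nonneg (sub_nonneg.2 hxy), one_mul]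
  have h1 := (lamAnti h hi).anti hxy
  have hD := D_pos h i
  unfold W
  nlinarith

theorem W_mean (h : Data P c N m v 𝓕 b) {i : ℕ} (hi : i < N) (x : ℝ) :
    ∫ z, W c N m v (i + 1) (x + m i * Lam c N m v i x + z) ∂gaussianReal 0 (v i)
      = W c N m v i x := by
  have hA' := lamAnti h (i := i + 1) hi
  have hI := integrable_gauss_lip hA'.lip hA'.measurable (v i) (x + m i * Lam c N m v i x)
  have h0 : Integrable (fun z : ℝ => z) (gaussianReal 0 (v i)) :=
    (memLp_id_gaussianReal 1).integrable le_rfl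
  have hI2 : Integrable (fun z : ℝ => x + m i * Lam c N m v i x + z) (gaussianReal 0 (v i)) :=
    (integrable_const _).add h0
  unfold W
  rw [integral_add hI2 (hI.const_mul _), integral_const_mul, mean_step h hi x,
    integral_add (integrable_const _) h0]
  simp only [integral_const, probReal_univ, smul_eq_mul, one_mul, integral_id_gaussianReal]
  rw [D_succ hi]; ring

theorem W_meas (h : Data P c N m v 𝓕 b) {i : ℕ} (hi : i ≤ N) :
    Measurable[𝓕 i] (fun ω => W c N m v i (X κ c N m v b i ω)) :=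
  (W_mono h hi).measurable.comp (X_meas h hi)

theorem W_memLp [IsProbabilityMeasure P] (h : Data P c N m v 𝓕 b) {i : ℕ} (hi : i ≤ N) :
    MemLp (fun ω => W c N m v i (X κ c N m v b i ω)) 2 P :=
  (X_memLp h hi).add ((lam_memLp h hi).const_mul _)

/-- the gap is a martingale -/
theorem condExp_W_succ [IsProbabilityMeasure P] (h : Data P c N m v 𝓕 b) {i : ℕ} (hi : i < N) :
    P[fun ω => W c N m v (i + 1) (X κ c N m v b (i + 1) ω) | 𝓕 i]
      =ᵐ[P] fun ω => W c N m v i (X κ c N m v b i ω) := by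
  have hb : Measurable (b i) := (h.meas i hi).mono (h.le _) le_rfl
  have hA := lamAnti h (i := i) hi.le
  have hA' := (W_mono h (i := i + 1) hi).measurable
  have hf : Measurable fun q : ℝ × ℝ =>
      W c N m v (i + 1) (q.1 + m i * Lam c N m v i q.1 + q.2) := by
    have := hA.measurable; fun_prop
  have hint : Integrable (fun ω => (fun q : ℝ × ℝ =>
      W c N m v (i + 1) (q.1 + m i * Lam c N m v i q.1 + q.2)) (X κ c N m v b i ω, b i ω)) P :=
    (W_memLp (κ := κ) h (i := i + 1) hi).integrable one_le_two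
  have := condExp_freeze (h.le i) (X_meas (κ := κ) h hi.le) hb (h.ind i hi) hf hint
  refine this.trans (Eventually.of_forall fun ω => ?_)
  simp only [h.law i hi]
  exact W_mean h hi _

theorem condExp_W [IsProbabilityMeasure P] (h : Data P c N m v 𝓕 b) {i : ℕ} (hi : i ≤ N) :
    P[fun ω => W c N m v N (X κ c N m v b N ω) | 𝓕 i]
      =ᵐ[P] fun ω => W c N m v i (X κ c N m v b i ω) := by
  induction hi using Nat.decreasingInduction with
  | self =>
    rw [condExp_of_stronglyMeasurable (h.le N) (W_meas h le_rfl).stronglyMeasurable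
      ((W_memLp h le_rfl).integrable one_le_two)]
  | of_succ k hk ih =>
    have h1 : P[P[fun ω => W c N m v N (X κ c N m v b N ω) | 𝓕 (k + 1)] | 𝓕 k]
        =ᵐ[P] P[fun ω => W c N m v N (X κ c N m v b N ω) | 𝓕 k] :=
      condExp_condExp_of_le (h.mono (Nat.le_succ k)) (h.le _)
    exact h1.symm.trans ((condExp_congr_ae ih).trans (condExp_W_succ h hk))

theorem W_last (ω : Ω) :
    W c N m v N (X κ c N m v b N ω) = X κ c N m v b N ω + c * lam κ c N m v b N ω := by
  unfold W D lam; simp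

theorem W_last_eq (h : Data P c N m v 𝓕 b) (ω : Ω) :
    W c N m v N (X κ c N m v b N ω) = max (X κ c N m v b N ω) 0 := by
  rw [W_last, final h]

/-- **conditional exponential bound for the gap** -/
theorem exp_gap [IsProbabilityMeasure P] (h : Data P c N m v 𝓕 b) (θ : ℝ)
    {i j : ℕ} (hij : i ≤ j) (hj : j ≤ N) {A : Set Ω} (hA : MeasurableSet[𝓕 i] A) :
    ∫⁻ ω in A, ENNReal.ofReal (exp (θ * (W c N m v j (X κ c N m v b j ω)
        - W c N m v i (X κ c N m v b i ω)))) ∂P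
      ≤ ENNReal.ofReal (exp (θ ^ 2 * (∑ k ∈ Finset.Ico i j, (v k : ℝ)) / 2)) * P A := by
  have key := exp_bound (K := fun _ => 1) (κ := κ) h (f := W c N m v)
    (fun i hi => (W_mono h hi).measurable) θ (fun k hk x => ?_) hij hj hA
  · simpa using key
  have h1 := one_step_mono (F := fun z => W c N m v (k + 1) (x + m k * Lam c N m v k x + z))
    (L := 1)
    (fun y z hyz => W_mono h hk (by linarith)) (fun y z => by
      have := W_lip h hk (x + m k * Lam c N m v k x + y) (x + m k * Lam c N m v k x + z)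
      rwa [add_sub_add_left_eq_sub] at this) (v k) θ
  rw [W_mean h hk x] at h1
  rw [← ofReal_integral_eq_lintegral_ofReal h1.1 (Eventually.of_forall fun _ => (exp_pos _).le)]
  exact ENNReal.ofReal_le_ofReal h1.2

end

end Crest.Agent.R146.LipChain_861
private theorem rz_200d6a2087 : type_of% @_root_.Crest.Agent.R146.LipChain_861.X.eq_def := @_root_.Crest.Agent.R146.LipChain_861.X.eq_def -- L33
private theorem rz_b1ff7e202c : type_of% @_root_.Crest.Agent.R146.LipChain_861.X.eq_1 := @_root_.Crest.Agent.R146.LipChain_861.X.eq_1 -- L33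
end

-- ▼ part R146/LipC_861
section

/-!
Row 146, package P5, node LIP / EM (task 92), part C1 (helper861): function level `L²` stability of
the atomic complementarity problem and closure of the exponential bounds under `L²` limits.
-/

set_option autoImplicit false
set_option maxHeartbeats 400000

namespace Crest.Agent.R146.LipC_861

open MeasureTheory ProbabilityTheory Filter Set Real
open Crest.Agent.R146.LipA_43 Crest.Agent.R146.LipB_861 Crest.Agent.R146.LipChain_861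
open Crest.Agent.R146.Lev_576 (abs_int_mul_le)
open scoped NNReal ENNReal Topology

variable {Ω : Type*} {mΩ : MeasurableSpace Ω} {P : Measure Ω}

section L2

variable [IsProbabilityMeasure P] {m : MeasurableSpace Ω}

omit [IsProbabilityMeasure P] in
theorem int_mul {f g : Ω → ℝ} (hf : MemLp f 2 P) (hg : MemLp g 2 P) :
    Integrable (fun ω => f ω * g ω) P := hf.integrable_mul hg

/-- conditional expectation is self-adjoint and idempotent -/
theorem int_mul_condExp (hm : m ≤ mΩ) {f g : Ω → ℝ} (hf : MemLp f 2 P) (hg : MemLp g 2 P) :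
    ∫ ω, f ω * (P[g | m]) ω ∂P = ∫ ω, (P[f | m]) ω * (P[g | m]) ω ∂P := by
  have h1 : P[f * P[g | m] | m] =ᵐ[P] P[f | m] * P[g | m] :=
    condExp_mul_of_stronglyMeasurable_right stronglyMeasurable_condExp
      (int_mul hf (hg.condExp (by norm_num))) (hf.integrable (by norm_num))
  have h2 := integral_congr_ae h1
  rw [integral_condExp hm] at h2
  exact h2

/-- contraction -/
theorem int_condExp_sq_le (hm : m ≤ mΩ) {f : Ω → ℝ} (hf : MemLp f 2 P) :
    ∫ ω, (P[f | m]) ω ^ 2 ∂P ≤ ∫ ω, f ω ^ 2 ∂P := by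
  have hE : MemLp (P[f | m]) 2 P := hf.condExp (by norm_num)
  have h1 := int_mul_condExp hm hf hf
  have h2 : 0 ≤ ∫ ω, (f ω - (P[f | m]) ω) ^ 2 ∂P := integral_nonneg fun ω => sq_nonneg _
  have i1 : Integrable (fun ω => 2 * (f ω * (P[f | m]) ω)) P := (int_mul hf hE).const_mul 2
  have i2 : Integrable (fun ω => f ω ^ 2 - 2 * (f ω * (P[f | m]) ω)) P := hf.integrable_sq.sub i1
  have h3 : ∫ ω, (f ω - (P[f | m]) ω) ^ 2 ∂P
      = ∫ ω, f ω ^ 2 ∂P - 2 * ∫ ω, f ω * (P[f | m]) ω ∂P + ∫ ω, (P[f | m]) ω ^ 2 ∂P := by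
    rw [← integral_const_mul, ← integral_sub hf.integrable_sq i1,
      ← integral_add i2 hE.integrable_sq]
    refine integral_congr_ae (Eventually.of_forall fun ω => ?_)
    simp only
    ring
  have h4 : ∫ ω, (P[f | m]) ω * (P[f | m]) ω ∂P = ∫ ω, (P[f | m]) ω ^ 2 ∂P :=
    integral_congr_ae (Eventually.of_forall fun ω => (sq _).symm)
  linarith

/-- the difference of conditional expectations -/
theorem int_condExp_sub_sq_le (hm : m ≤ mΩ) {f g : Ω → ℝ} (hf : MemLp f 2 P) (hg : MemLp g 2 P) :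
    ∫ ω, ((P[f | m]) ω - (P[g | m]) ω) ^ 2 ∂P ≤ ∫ ω, (f ω - g ω) ^ 2 ∂P := by
  have h1 := condExp_sub (hf.integrable (by norm_num)) (hg.integrable (by norm_num)) m
  have h2 := int_condExp_sq_le hm (hf.sub hg)
  refine le_trans (le_of_eq ?_) h2
  refine integral_congr_ae ?_
  filter_upwards [h1] with ω h
  rw [h]; rfl

end L2

/-- weighted Cauchy–Schwarz -/
theorem wcs (N : ℕ) {m a : ℕ → ℝ} {c x : ℝ} (hm : ∀ i < N, 0 ≤ m i) (hc : 0 ≤ c) :
    (∑ i ∈ Finset.range N, m i * a i + c * x) ^ 2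
      ≤ (∑ i ∈ Finset.range N, m i + c) * (∑ i ∈ Finset.range N, m i * a i ^ 2 + c * x ^ 2) := by
  have step : ∀ A B C μ α : ℝ, 0 ≤ B → 0 ≤ C → 0 ≤ μ → A ^ 2 ≤ B * C →
      (A + μ * α) ^ 2 ≤ (B + μ) * (C + μ * α ^ 2) := by
    intro A B C μ α hB hC hμ h
    have h2 : 2 * A * α ≤ B * α ^ 2 + C := by
      rcases hB.eq_or_lt with h0 | h0
      · subst h0
        have : A = 0 := by
          have : A ^ 2 ≤ 0 := by simpa using h
          exact pow_eq_zero_iff (two_ne_zero) |>.1 (le_antisymm this (sq_nonneg _))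
        rw [this]; simpa using hC
      · have : 0 ≤ (B * α ^ 2 + C - 2 * A * α) * B := by nlinarith [sq_nonneg (B * α - A)]
        have := nonneg_of_mul_nonneg_left this h0
        linarith
    nlinarith [mul_le_mul_of_nonneg_left h2 hμ]
  have hS : ∀ n ≤ N, 0 ≤ ∑ i ∈ Finset.range n, m i := fun n hn =>
    Finset.sum_nonneg fun i hi => hm i ((Finset.mem_range.1 hi).trans_le hn)
  have hT : ∀ n ≤ N, 0 ≤ ∑ i ∈ Finset.range n, m i * a i ^ 2 := fun n hn =>
    Finset.sum_nonneg fun i hi =>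
      mul_nonneg (hm i ((Finset.mem_range.1 hi).trans_le hn)) (sq_nonneg _)
  have main : ∀ n ≤ N, (∑ i ∈ Finset.range n, m i * a i + c * x) ^ 2
      ≤ (∑ i ∈ Finset.range n, m i + c) * (∑ i ∈ Finset.range n, m i * a i ^ 2 + c * x ^ 2) := by
    intro n
    induction n with
    | zero => intro _; simp; nlinarith
    | succ n ih =>
      intro hn
      have h1 := step _ _ _ (m n) (a n) (add_nonneg (hS n (by omega)) hc)
        (add_nonneg (hT n (by omega)) (mul_nonneg hc (sq_nonneg x))) (hm n hn) (ih (by omega))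
      rw [Finset.sum_range_succ, Finset.sum_range_succ, Finset.sum_range_succ]
      calc _ = (∑ i ∈ Finset.range n, m i * a i + c * x + m n * a n) ^ 2 := by ring
        _ ≤ _ := h1
        _ = _ := by ring
  exact main N le_rfl

section Stab

variable {κ c : ℝ} {N : ℕ} {m : ℕ → ℝ} {v : ℕ → ℝ≥0} {𝓕 : ℕ → MeasurableSpace Ω} {b : ℕ → Ω → ℝ}

/-- the error of the force at time `i` -/
noncomputable def G (P : Measure Ω) (κ c : ℝ) (N : ℕ) (m : ℕ → ℝ) (v : ℕ → ℝ≥0)
    (𝓕 : ℕ → MeasurableSpace Ω) (b : ℕ → Ω → ℝ) (l : Ω → ℝ) (i : ℕ) (ω : Ω) : ℝ :=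
  lam κ c N m v b i ω - (P[l | 𝓕 i]) ω

theorem G_memLp [IsProbabilityMeasure P] (hd : Data P c N m v 𝓕 b) {l : Ω → ℝ}
    (hl : MemLp l 2 P) {i : ℕ} (hi : i ≤ N) : MemLp (G P κ c N m v 𝓕 b l i) 2 P :=
  (lam_memLp hd hi).sub (hl.condExp (by norm_num))

theorem G_eq [IsProbabilityMeasure P] (hd : Data P c N m v 𝓕 b) {l : Ω → ℝ}
    (hl : MemLp l 2 P) {i : ℕ} (hi : i ≤ N) :
    G P κ c N m v 𝓕 b l i =ᵐ[P] P[fun ω => lam κ c N m v b N ω - l ω | 𝓕 i] := by
  have h1 := condExp_sub ((lam_memLp (κ := κ) hd le_rfl).integrable (by norm_num))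
    (hl.integrable (by norm_num)) (𝓕 i)
  filter_upwards [h1, condExp_lam (κ := κ) hd hi] with ω h1 h2
  rw [show (fun ω => lam κ c N m v b N ω - l ω) = lam κ c N m v b N - l from rfl, h1]
  simp only [G, Pi.sub_apply, h2]

theorem int_mul_G [IsProbabilityMeasure P] (hd : Data P c N m v 𝓕 b) {l : Ω → ℝ}
    (hl : MemLp l 2 P) {i : ℕ} (hi : i ≤ N) :
    ∫ ω, (lam κ c N m v b N ω - l ω) * G P κ c N m v 𝓕 b l i ω ∂P
      = ∫ ω, G P κ c N m v 𝓕 b l i ω ^ 2 ∂P := by
  have hΔ : MemLp (fun ω => lam κ c N m v b N ω - l ω) 2 P := (lam_memLp hd le_rfl).sub hl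
  have h1 := int_mul_condExp (P := P) (hd.le i) hΔ hΔ
  have h2 := G_eq (κ := κ) hd hl hi
  calc _ = ∫ ω, (lam κ c N m v b N ω - l ω)
        * (P[fun ω => lam κ c N m v b N ω - l ω | 𝓕 i]) ω ∂P := by
        refine integral_congr_ae ?_
        filter_upwards [h2] with ω h; rw [h]
    _ = _ := h1
    _ = _ := by
        refine integral_congr_ae ?_
        filter_upwards [h2] with ω h; rw [h]; ring

theorem int_G_le [IsProbabilityMeasure P] (hd : Data P c N m v 𝓕 b) {l : Ω → ℝ}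
    (hl : MemLp l 2 P) {i : ℕ} (hi : i ≤ N) :
    ∫ ω, G P κ c N m v 𝓕 b l i ω ^ 2 ∂P ≤ ∫ ω, (lam κ c N m v b N ω - l ω) ^ 2 ∂P := by
  have hΔ : MemLp (fun ω => lam κ c N m v b N ω - l ω) 2 P := (lam_memLp hd le_rfl).sub hl
  refine le_trans (le_of_eq ?_) (int_condExp_sq_le (hd.le i) hΔ)
  refine integral_congr_ae ?_
  filter_upwards [G_eq (κ := κ) hd hl hi] with ω h; rw [h]

theorem int_G_mono [IsProbabilityMeasure P] (hd : Data P c N m v 𝓕 b) {l : Ω → ℝ}
    (hl : MemLp l 2 P) {i j : ℕ} (hij : i ≤ j) (hj : j ≤ N) :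
    ∫ ω, G P κ c N m v 𝓕 b l i ω ^ 2 ∂P ≤ ∫ ω, G P κ c N m v 𝓕 b l j ω ^ 2 ∂P := by
  have h1 := int_condExp_sq_le (hd.le i) (G_memLp (κ := κ) hd hl hj)
  refine le_trans (le_of_eq ?_) h1
  refine integral_congr_ae ?_
  have h2 : P[P[fun ω => lam κ c N m v b N ω - l ω | 𝓕 j] | 𝓕 i]
      =ᵐ[P] P[fun ω => lam κ c N m v b N ω - l ω | 𝓕 i] :=
    condExp_condExp_of_le (hd.mono hij) (hd.le j)
  have h3 : P[G P κ c N m v 𝓕 b l j | 𝓕 i] =ᵐ[P]
      P[P[fun ω => lam κ c N m v b N ω - l ω | 𝓕 j] | 𝓕 i] :=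
    condExp_congr_ae (G_eq hd hl hj)
  filter_upwards [G_eq (κ := κ) hd hl (hij.trans hj), h2, h3] with ω h h' h''
  rw [h, h'', h']

/-- the quadratic form of the error -/
noncomputable def qf (P : Measure Ω) (κ c : ℝ) (N : ℕ) (m : ℕ → ℝ) (v : ℕ → ℝ≥0)
    (𝓕 : ℕ → MeasurableSpace Ω) (b : ℕ → Ω → ℝ) (l : Ω → ℝ) : ℝ :=
  ∑ j ∈ Finset.range N, m j * ∫ ω, G P κ c N m v 𝓕 b l j ω ^ 2 ∂P
    + c * ∫ ω, (lam κ c N m v b N ω - l ω) ^ 2 ∂P

theorem D_le_qf [IsProbabilityMeasure P] (hd : Data P c N m v 𝓕 b) {l : Ω → ℝ}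
    (hl : MemLp l 2 P) {i : ℕ} (hi : i ≤ N) :
    D c N m i * ∫ ω, G P κ c N m v 𝓕 b l i ω ^ 2 ∂P ≤ qf P κ c N m v 𝓕 b l := by
  unfold D qf
  rw [add_mul, Finset.sum_mul, add_comm (c * _)]
  refine add_le_add ?_ (mul_le_mul_of_nonneg_left (int_G_le hd hl hi) hd.hc.le)
  calc ∑ j ∈ Finset.Ico i N, m j * ∫ ω, G P κ c N m v 𝓕 b l i ω ^ 2 ∂P
      ≤ ∑ j ∈ Finset.Ico i N, m j * ∫ ω, G P κ c N m v 𝓕 b l j ω ^ 2 ∂P := by
        refine Finset.sum_le_sum fun j hj => ?_
        rw [Finset.mem_Ico] at hj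
        exact mul_le_mul_of_nonneg_left (int_G_mono hd hl hj.1 hj.2.le) (hd.hm j hj.2)
    _ ≤ _ := by
        refine Finset.sum_le_sum_of_subset_of_nonneg (fun j hj => ?_) fun j hj _ => ?_
        · rw [Finset.mem_Ico] at hj; exact Finset.mem_range.2 hj.2
        · exact mul_nonneg (hd.hm j (Finset.mem_range.1 hj)) (integral_nonneg fun _ => sq_nonneg _)

/-- the equation of the difference of the gaps -/
theorem gap_sub {δ : ℝ} {l h e : Ω → ℝ}
    (heq : ∀ᵐ ω ∂P, h ω = κ + ∑ j ∈ Finset.range N, b j ω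
      + ∑ j ∈ Finset.range N, m j * (P[l | 𝓕 j]) ω + (c - δ) * l ω + e ω) :
    ∀ᵐ ω ∂P, W c N m v N (X κ c N m v b N ω) - h ω
      = (∑ j ∈ Finset.range N, m j * G P κ c N m v 𝓕 b l j ω + c * (lam κ c N m v b N ω - l ω))
        + (δ * l ω - e ω) := by
  filter_upwards [heq] with ω h1
  rw [W_last, X_eq, h1]
  simp only [G, mul_sub, Finset.sum_sub_distrib]
  ring

/-- **stability** of the atomic complementarity problem -/
theorem stab [IsProbabilityMeasure P] (hd : Data P c N m v 𝓕 b) {δ ε : ℝ} (hδ : 0 < δ)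
    (hδc : δ ≤ c) (hε : 0 ≤ ε) (hεδ : ε ≤ δ) {l h e : Ω → ℝ} (hl : MemLp l 2 P)
    (he : MemLp e 2 P) (l0 : 0 ≤ᵐ[P] l) (h0 : 0 ≤ᵐ[P] h)
    (lh : ∀ᵐ ω ∂P, l ω * h ω = 0)
    (heq : ∀ᵐ ω ∂P, h ω = κ + ∑ j ∈ Finset.range N, b j ω
      + ∑ j ∈ Finset.range N, m j * (P[l | 𝓕 j]) ω + (c - δ) * l ω + e ω)
    (he2 : ∫ ω, e ω ^ 2 ∂P ≤ ε ^ 2 * ∫ ω, l ω ^ 2 ∂P) :
    qf P κ c N m v 𝓕 b l ≤ 4 * δ * ∫ ω, l ω ^ 2 ∂P := by
  have hY : MemLp (lam κ c N m v b N) 2 P := lam_memLp hd le_rfl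
  have hΔ : MemLp (fun ω => lam κ c N m v b N ω - l ω) 2 P := hY.sub hl
  -- the integrated inequality
  have hpt : ∀ᵐ ω ∂P, (∑ j ∈ Finset.range N, m j * ((lam κ c N m v b N ω - l ω)
      * G P κ c N m v 𝓕 b l j ω)) + c * (lam κ c N m v b N ω - l ω) ^ 2
      + (δ * ((lam κ c N m v b N ω - l ω) * l ω) - (lam κ c N m v b N ω - l ω) * e ω) ≤ 0 := by
    filter_upwards [gap_sub heq, l0, h0, lh] with ω h1 h2 h3 h4
    have h5 := final_mul (κ := κ) hd ω
    rw [← W_last_eq hd] at h5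
    have h6 := lam_nonneg (κ := κ) hd le_rfl ω
    have h7 : 0 ≤ W c N m v N (X κ c N m v b N ω) := by rw [W_last_eq hd]; exact le_max_right _ _
    simp only [Pi.zero_apply] at h2 h3
    have h8 : (lam κ c N m v b N ω - l ω) * (W c N m v N (X κ c N m v b N ω) - h ω) ≤ 0 := by
      have h9 := mul_nonneg h6 h3
      have h10 := mul_nonneg h2 h7
      nlinarith
    rw [h1] at h8
    refine le_trans (le_of_eq ?_) h8
    rw [mul_add, mul_add, Finset.mul_sum]
    have : ∀ j, m j * ((lam κ c N m v b N ω - l ω) * G P κ c N m v 𝓕 b l j ω)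
      = (lam κ c N m v b N ω - l ω) * (m j * G P κ c N m v 𝓕 b l j ω) := fun j => by ring
    simp only [this]
    ring
  have hi1 : ∀ j ∈ Finset.range N, Integrable (fun ω => m j * ((lam κ c N m v b N ω - l ω)
      * G P κ c N m v 𝓕 b l j ω)) P := fun j hj =>
    (int_mul hΔ (G_memLp hd hl (Finset.mem_range.1 hj).le)).const_mul _
  have hi2 : Integrable (fun ω => c * (lam κ c N m v b N ω - l ω) ^ 2) P :=
    hΔ.integrable_sq.const_mul c
  have hi3 : Integrable (fun ω => δ * ((lam κ c N m v b N ω - l ω) * l ω)) P :=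
    (int_mul hΔ hl).const_mul δ
  have hi4 : Integrable (fun ω => (lam κ c N m v b N ω - l ω) * e ω) P := int_mul hΔ he
  have hi12 : Integrable (fun ω => (∑ j ∈ Finset.range N, m j * ((lam κ c N m v b N ω - l ω)
      * G P κ c N m v 𝓕 b l j ω)) + c * (lam κ c N m v b N ω - l ω) ^ 2) P :=
    (integrable_finsetSum _ hi1).add hi2
  have hi34 : Integrable (fun ω => δ * ((lam κ c N m v b N ω - l ω) * l ω)
      - (lam κ c N m v b N ω - l ω) * e ω) P := hi3.sub hi4
  have hint := integral_nonpos_of_ae hpt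
  rw [integral_add hi12 hi34,
    integral_add (integrable_finsetSum _ hi1) hi2, integral_sub hi3 hi4,
    integral_finsetSum _ hi1, integral_const_mul, integral_const_mul] at hint
  have hq : ∑ j ∈ Finset.range N, ∫ ω, m j * ((lam κ c N m v b N ω - l ω)
      * G P κ c N m v 𝓕 b l j ω) ∂P + c * ∫ ω, (lam κ c N m v b N ω - l ω) ^ 2 ∂P
      = qf P κ c N m v 𝓕 b l := by
    unfold qf
    congr 1
    refine Finset.sum_congr rfl fun j hj => ?_
    rw [integral_const_mul, int_mul_G hd hl (Finset.mem_range.1 hj).le]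
  rw [hq] at hint
  -- Cauchy-Schwarz
  set x := √(∫ ω, (lam κ c N m v b N ω - l ω) ^ 2 ∂P) with hx
  set y := √(∫ ω, l ω ^ 2 ∂P) with hy
  have hx0 : 0 ≤ x := Real.sqrt_nonneg _
  have hy0 : 0 ≤ y := Real.sqrt_nonneg _
  have hx2 : x ^ 2 = ∫ ω, (lam κ c N m v b N ω - l ω) ^ 2 ∂P :=
    Real.sq_sqrt (integral_nonneg fun _ => sq_nonneg _)
  have hy2 : y ^ 2 = ∫ ω, l ω ^ 2 ∂P := Real.sq_sqrt (integral_nonneg fun _ => sq_nonneg _)
  have c1 := abs_int_mul_le hΔ hl
  have c2 := abs_int_mul_le hΔ he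
  have c3 : √(∫ ω, e ω ^ 2 ∂P) ≤ ε * y := by
    refine (Real.sqrt_le_sqrt he2).trans (le_of_eq ?_)
    rw [← hy2, ← mul_pow, Real.sqrt_sq (mul_nonneg hε hy0)]
  have c4 := (abs_le.1 (c1.trans le_rfl)).1
  have c5 : ∫ ω, (lam κ c N m v b N ω - l ω) * e ω ∂P ≤ x * (ε * y) :=
    (le_abs_self _).trans (c2.trans (mul_le_mul_of_nonneg_left c3 hx0))
  have hxy : 0 ≤ x * y := mul_nonneg hx0 hy0
  have hqle : qf P κ c N m v 𝓕 b l ≤ 2 * δ * (x * y) := by
    have h1 : -(δ * (x * y)) ≤ δ * ∫ ω, (lam κ c N m v b N ω - l ω) * l ω ∂P := by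
      have := mul_le_mul_of_nonneg_left c4 hδ.le
      linarith
    have h2 : x * (ε * y) ≤ δ * (x * y) := by
      calc x * (ε * y) = ε * (x * y) := by ring
        _ ≤ _ := mul_le_mul_of_nonneg_right hεδ hxy
    linarith
  have hqge : δ * x ^ 2 ≤ qf P κ c N m v 𝓕 b l := by
    unfold qf
    rw [← hx2]
    have h1 : 0 ≤ ∑ j ∈ Finset.range N, m j * ∫ ω, G P κ c N m v 𝓕 b l j ω ^ 2 ∂P :=
      Finset.sum_nonneg fun j hj =>
        mul_nonneg (hd.hm j (Finset.mem_range.1 hj)) (integral_nonneg fun _ => sq_nonneg _)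
    have h2 := mul_le_mul_of_nonneg_right hδc (sq_nonneg x)
    linarith
  have hxle : x ≤ 2 * y := by
    rcases hx0.eq_or_lt with h | h
    · rw [← h]; positivity
    · have h1 : δ * x * x ≤ δ * x * (2 * y) := by nlinarith
      exact le_of_mul_le_mul_left h1 (by positivity)
  rw [← hy2]
  have : 2 * δ * (x * y) ≤ 2 * δ * (2 * y * y) := by gcongr
  calc _ ≤ _ := hqle
    _ ≤ _ := this
    _ = _ := by ring

/-- error of the force at time `i` -/
theorem force_err [IsProbabilityMeasure P] (hd : Data P c N m v 𝓕 b) {l : Ω → ℝ}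
    (hl : MemLp l 2 P) {i : ℕ} (hi : i ≤ N) {d K : ℝ} (hd0 : 0 < d) (hdi : d ≤ D c N m i)
    (hq : qf P κ c N m v 𝓕 b l ≤ K) :
    ∫ ω, (lam κ c N m v b i ω - (P[l | 𝓕 i]) ω) ^ 2 ∂P ≤ K / d := by
  rw [le_div_iff₀ hd0, mul_comm]
  have h1 := D_le_qf (κ := κ) hd hl hi
  have h2 : 0 ≤ ∫ ω, G P κ c N m v 𝓕 b l i ω ^ 2 ∂P := integral_nonneg fun _ => sq_nonneg _
  have h3 := mul_le_mul_of_nonneg_right hdi h2
  exact h3.trans (h1.trans hq)

/-- error of the gap -/
theorem gap_err [IsProbabilityMeasure P] (hd : Data P c N m v 𝓕 b) {δ : ℝ} {l h e : Ω → ℝ}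
    (hl : MemLp l 2 P) (hh : MemLp h 2 P) (he : MemLp e 2 P)
    (heq : ∀ᵐ ω ∂P, h ω = κ + ∑ j ∈ Finset.range N, b j ω
      + ∑ j ∈ Finset.range N, m j * (P[l | 𝓕 j]) ω + (c - δ) * l ω + e ω)
    {i : ℕ} (hi : i ≤ N) :
    ∫ ω, (W c N m v i (X κ c N m v b i ω) - (P[h | 𝓕 i]) ω) ^ 2 ∂P
      ≤ 2 * D c N m 0 * qf P κ c N m v 𝓕 b l + 4 * (δ ^ 2 * ∫ ω, l ω ^ 2 ∂P + ∫ ω, e ω ^ 2 ∂P) := by
  have hW := W_memLp (κ := κ) hd le_rfl
  have h1 := int_condExp_sub_sq_le (hd.le i) hW hh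
  have h2 : ∫ ω, (W c N m v i (X κ c N m v b i ω) - (P[h | 𝓕 i]) ω) ^ 2 ∂P
      = ∫ ω, ((P[fun ω => W c N m v N (X κ c N m v b N ω) | 𝓕 i]) ω - (P[h | 𝓕 i]) ω) ^ 2 ∂P := by
    refine integral_congr_ae ?_
    filter_upwards [condExp_W (κ := κ) hd hi] with ω h3
    rw [h3]
  rw [h2]
  refine h1.trans ?_
  have hΔ : MemLp (fun ω => lam κ c N m v b N ω - l ω) 2 P := (lam_memLp hd le_rfl).sub hl
  have hD0 : D c N m 0 = ∑ j ∈ Finset.range N, m j + c := by
    unfold D; rw [Finset.range_eq_Ico]; ring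
  have hpt : ∀ᵐ ω ∂P, (W c N m v N (X κ c N m v b N ω) - h ω) ^ 2
      ≤ 2 * D c N m 0 * (∑ j ∈ Finset.range N, m j * G P κ c N m v 𝓕 b l j ω ^ 2
          + c * (lam κ c N m v b N ω - l ω) ^ 2) + 4 * (δ ^ 2 * l ω ^ 2 + e ω ^ 2) := by
    filter_upwards [gap_sub heq] with ω h3
    rw [h3, hD0]
    have h4 := wcs N (a := fun j => G P κ c N m v 𝓕 b l j ω) (x := lam κ c N m v b N ω - l ω)
      hd.hm hd.hc.le
    have h5 : ∀ p q : ℝ, (p + q) ^ 2 ≤ 2 * p ^ 2 + 2 * q ^ 2 := fun p q => by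
      nlinarith [sq_nonneg (p - q)]
    have h6 := h5 (∑ j ∈ Finset.range N, m j * G P κ c N m v 𝓕 b l j ω
      + c * (lam κ c N m v b N ω - l ω)) (δ * l ω - e ω)
    have h7 : (δ * l ω - e ω) ^ 2 ≤ 2 * (δ ^ 2 * l ω ^ 2 + e ω ^ 2) := by
      nlinarith [sq_nonneg (δ * l ω + e ω)]
    nlinarith
  have hi1 : ∀ j ∈ Finset.range N, Integrable (fun ω => m j * G P κ c N m v 𝓕 b l j ω ^ 2) P :=
    fun j hj => (G_memLp hd hl (Finset.mem_range.1 hj).le).integrable_sq.const_mul _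
  have hi2 : Integrable (fun ω => c * (lam κ c N m v b N ω - l ω) ^ 2) P :=
    hΔ.integrable_sq.const_mul c
  have hi3 : Integrable (fun ω => δ ^ 2 * l ω ^ 2) P := hl.integrable_sq.const_mul _
  have hi12 := (integrable_finsetSum _ hi1).add hi2
  have hi34 := (hi3.add he.integrable_sq).const_mul 4
  have hmono := integral_mono_ae ((hW.sub hh).integrable_sq) ((hi12.const_mul (2 * D c N m 0)).add hi34) hpt
  refine hmono.trans (le_of_eq ?_)
  have e1 := integral_add (hi12.const_mul (2 * D c N m 0)) hi34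
  have e2 := integral_add (integrable_finsetSum _ hi1) hi2
  have e3 := integral_add hi3 he.integrable_sq
  refine e1.trans ?_
  rw [integral_const_mul, integral_const_mul]
  refine congrArg₂ (· + ·) (congrArg _ ?_) (congrArg _ ?_)
  · refine e2.trans ?_
    rw [integral_finsetSum _ hi1, integral_const_mul]
    unfold qf
    simp only [integral_const_mul]
  · refine e3.trans ?_
    rw [integral_const_mul]

end Stab

end Crest.Agent.R146.LipC_861
end

-- ▼ part R146/LipD_861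
section

/-!
Row 146, package P5, node LIP / EM (task 92), part C2 (helper861): the class `CSG P A X V` of
(conditionally) sub-Gaussian variables in set form, its closure under `L²` limits, and its
consequences (second and fourth moments, tails, conditional form).
-/

set_option autoImplicit false
set_option maxHeartbeats 400000

namespace Crest.Agent.R146.LipD_861

open MeasureTheory ProbabilityTheory Filter Set Real
open scoped NNReal ENNReal Topology

variable {Ω : Type*} {m mΩ : MeasurableSpace Ω} {P : Measure Ω}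

/-- `E[exp (θ X); A] ≤ exp (θ² V / 2) P(A)` for all real `θ` -/
def CSG (P : Measure Ω) (A : Set Ω) (X : Ω → ℝ) (V : ℝ) : Prop :=
  ∀ θ : ℝ, ∫⁻ ω in A, ENNReal.ofReal (exp (θ * X ω)) ∂P
    ≤ ENNReal.ofReal (exp (θ ^ 2 * V / 2)) * P A

theorem CSG.mono {A : Set Ω} {X : Ω → ℝ} {V V' : ℝ} (h : CSG P A X V) (hV : V ≤ V') :
    CSG P A X V' := fun θ => by
  refine (h θ).trans ?_
  gcongr

theorem CSG.congr {A : Set Ω} {X Y : Ω → ℝ} {V : ℝ} (h : CSG P A X V) (hXY : X =ᵐ[P] Y) :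
    CSG P A Y V := fun θ => by
  refine le_trans (le_of_eq ?_) (h θ)
  refine lintegral_congr_ae (ae_restrict_of_ae ?_)
  filter_upwards [hXY] with ω h1
  rw [h1]

theorem CSG.neg {A : Set Ω} {X : Ω → ℝ} {V : ℝ} (h : CSG P A X V) :
    CSG P A (fun ω => -X ω) V := fun θ => by
  have := h (-θ)
  simp only [neg_mul, neg_sq] at this
  simpa only [mul_neg] using this

/-- convergence in `L²` gives an a.e. convergent subsequence -/
theorem exists_ae_sub {Y : ℕ → Ω → ℝ} {Z : Ω → ℝ} (hY : ∀ n, MemLp (Y n) 2 P)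
    (hZ : MemLp Z 2 P) (hlim : Tendsto (fun n => ∫ ω, (Y n ω - Z ω) ^ 2 ∂P) atTop (𝓝 0)) :
    ∃ ns : ℕ → ℕ, StrictMono ns ∧ ∀ᵐ ω ∂P, Tendsto (fun k => Y (ns k) ω) atTop (𝓝 (Z ω)) := by
  have h1 : Tendsto (fun n => eLpNorm (Y n - Z) 2 P) atTop (𝓝 0) := by
    have h2 : ∀ n, eLpNorm (Y n - Z) 2 P = ENNReal.ofReal (√(∫ ω, (Y n ω - Z ω) ^ 2 ∂P)) := by
      intro n
      rw [((hY n).sub hZ).eLpNorm_eq_integral_rpow_norm (by norm_num) (by norm_num)]
      congr 1
      rw [Real.sqrt_eq_rpow]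
      norm_num
    simp only [h2]
    have h3 := (hlim.sqrt)
    rw [Real.sqrt_zero] at h3
    have h4 := (ENNReal.continuous_ofReal.tendsto 0).comp h3
    rw [ENNReal.ofReal_zero] at h4
    exact h4
  have h2 := tendstoInMeasure_of_tendsto_eLpNorm (p := 2) (by norm_num)
    (fun n => (hY n).aestronglyMeasurable) hZ.aestronglyMeasurable h1
  exact h2.exists_seq_tendsto_ae

/-- **closure under `L²` limits** -/
theorem csg_closed {A : Set Ω} {Y : ℕ → Ω → ℝ} {Z : Ω → ℝ} {V : ℝ} (hY : ∀ n, MemLp (Y n) 2 P)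
    (hZ : MemLp Z 2 P) (hlim : Tendsto (fun n => ∫ ω, (Y n ω - Z ω) ^ 2 ∂P) atTop (𝓝 0))
    (hC : ∀ n, CSG P A (Y n) V) : CSG P A Z V := by
  intro θ
  obtain ⟨ns, _, hns⟩ := exists_ae_sub hY hZ hlim
  have h1 : ∀ᵐ ω ∂P, ENNReal.ofReal (exp (θ * Z ω))
      = liminf (fun k => ENNReal.ofReal (exp (θ * Y (ns k) ω))) atTop := by
    filter_upwards [hns] with ω h
    refine (Tendsto.liminf_eq ?_).symm
    exact (ENNReal.continuous_ofReal.tendsto _).comp
      ((Real.continuous_exp.tendsto _).comp (h.const_mul θ))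
  rw [lintegral_congr_ae (ae_restrict_of_ae h1)]
  refine (lintegral_liminf_le' fun k => ?_).trans ?_
  · exact (((hY (ns k)).aestronglyMeasurable.aemeasurable.const_mul θ).exp.ennreal_ofReal).restrict
  · refine liminf_le_of_frequently_le' (Frequently.of_forall fun k => hC (ns k) θ)

/-! ### consequences -/

variable [IsFiniteMeasure P] {A : Set Ω} {X : Ω → ℝ} {V : ℝ}

theorem CSG.integrable_exp (h : CSG P A X V) (hX : AEMeasurable X P) (θ : ℝ) :
    IntegrableOn (fun ω => exp (θ * X ω)) A P := by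
  refine ⟨(hX.const_mul θ).exp.aestronglyMeasurable.restrict, ?_⟩
  rw [hasFiniteIntegral_iff_ofReal (Eventually.of_forall fun ω => (exp_pos _).le)]
  exact (h θ).trans_lt (ENNReal.mul_lt_top ENNReal.ofReal_lt_top (measure_lt_top P A))

/-- real form of the exponential bound -/
theorem CSG.integral_exp_le (h : CSG P A X V) (hX : AEMeasurable X P) (θ : ℝ) :
    ∫ ω in A, exp (θ * X ω) ∂P ≤ exp (θ ^ 2 * V / 2) * P.real A := by
  have h1 := h θ
  rw [← ofReal_integral_eq_lintegral_ofReal (h.integrable_exp hX θ)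
    (Eventually.of_forall fun ω => (exp_pos _).le)] at h1
  rw [← ofReal_measureReal, ← ENNReal.ofReal_mul (exp_pos _).le] at h1
  exact (ENNReal.ofReal_le_ofReal_iff (by positivity)).1 h1

theorem cosh_ge (x : ℝ) : 2 + x ^ 2 + x ^ 4 / 12 ≤ exp x + exp (-x) := by
  have h1 : HasSum (fun n : ℕ => x ^ n / n.factorial) (exp x) := by
    rw [Real.exp_eq_exp_ℝ]; exact NormedSpace.expSeries_div_hasSum_exp x
  have h2 : HasSum (fun n : ℕ => (-x) ^ n / n.factorial) (exp (-x)) := by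
    rw [Real.exp_eq_exp_ℝ]; exact NormedSpace.expSeries_div_hasSum_exp (-x)
  have h3 := h1.add h2
  have h4 := sum_le_hasSum (Finset.range 5) (fun n _ => ?_) h3
  · refine le_trans (le_of_eq ?_) h4
    simp [Finset.sum_range_succ, Nat.factorial]
    ring
  · rcases Nat.even_or_odd n with hn | hn
    · have : 0 ≤ x ^ n := hn.pow_nonneg x
      have : 0 ≤ (-x) ^ n := hn.pow_nonneg (-x)
      positivity
    · rw [hn.neg_pow, neg_div, add_neg_cancel]

theorem CSG.integrableOn_sq (h : CSG P A X V) (hX : AEMeasurable X P) :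
    IntegrableOn (fun ω => X ω ^ 2) A P := by
  have h1 : Integrable (fun ω => exp (1 * X ω) + exp (-1 * X ω)) (P.restrict A) :=
    (h.integrable_exp hX 1).add (h.integrable_exp hX (-1))
  refine h1.mono' (hX.pow_const 2).aestronglyMeasurable.restrict (Eventually.of_forall fun ω => ?_)
  have h2 := cosh_ge (X ω)
  rw [Real.norm_eq_abs, abs_of_nonneg (sq_nonneg _)]
  simp only [one_mul, neg_one_mul]
  have : 0 ≤ X ω ^ 4 := by positivity
  linarith

theorem CSG.integrableOn_pow4 (h : CSG P A X V) (hX : AEMeasurable X P) :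
    IntegrableOn (fun ω => X ω ^ 4) A P := by
  have h1 : Integrable (fun ω => 12 * (exp (1 * X ω) + exp (-1 * X ω))) (P.restrict A) :=
    ((h.integrable_exp hX 1).add (h.integrable_exp hX (-1))).const_mul 12
  refine h1.mono' (hX.pow_const 4).aestronglyMeasurable.restrict (Eventually.of_forall fun ω => ?_)
  have h2 := cosh_ge (X ω)
  rw [Real.norm_eq_abs, abs_of_nonneg (by positivity)]
  simp only [one_mul, neg_one_mul]
  have : 0 ≤ X ω ^ 2 := by positivity
  linarith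

/-- the master inequality for the moments -/
theorem CSG.moments (h : CSG P A X V) (hX : AEMeasurable X P) (θ : ℝ) :
    2 * P.real A + θ ^ 2 * ∫ ω in A, X ω ^ 2 ∂P + θ ^ 4 / 12 * ∫ ω in A, X ω ^ 4 ∂P
      ≤ 2 * exp (θ ^ 2 * V / 2) * P.real A := by
  have i2 := h.integrableOn_sq hX
  have i4 := h.integrableOn_pow4 hX
  have e1 := h.integrable_exp hX θ
  have e2 := h.integrable_exp hX (-θ)
  have h1 := h.integral_exp_le hX θ
  have h2 := h.integral_exp_le hX (-θ)
  rw [neg_sq] at h2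
  have j0 : IntegrableOn (fun _ : Ω => (2 : ℝ)) A P := integrableOn_const (by finiteness)
  have j1 : IntegrableOn (fun ω => θ ^ 2 * X ω ^ 2) A P := i2.const_mul _
  have j2 : IntegrableOn (fun ω => θ ^ 4 / 12 * X ω ^ 4) A P := i4.const_mul _
  have j01 : IntegrableOn (fun ω => 2 + θ ^ 2 * X ω ^ 2) A P := j0.add j1
  have j012 : IntegrableOn (fun ω => 2 + θ ^ 2 * X ω ^ 2 + θ ^ 4 / 12 * X ω ^ 4) A P := j01.add j2
  have e12 : IntegrableOn (fun ω => exp (θ * X ω) + exp (-θ * X ω)) A P := e1.add e2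
  have h3 : ∫ ω in A, (2 + θ ^ 2 * X ω ^ 2 + θ ^ 4 / 12 * X ω ^ 4) ∂P
      ≤ ∫ ω in A, (exp (θ * X ω) + exp (-θ * X ω)) ∂P := by
    refine setIntegral_mono j012 e12 fun ω => ?_
    have := cosh_ge (θ * X ω)
    simp only [neg_mul]
    refine le_trans (le_of_eq ?_) this
    ring
  rw [integral_add j01 j2, integral_add j0 j1, integral_add e1 e2, integral_const_mul,
    integral_const_mul, setIntegral_const, smul_eq_mul] at h3
  linarith

/-- second moment -/
theorem CSG.sq_le (h : CSG P A X V) (hX : AEMeasurable X P) (hV : 0 ≤ V) :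
    ∫ ω in A, X ω ^ 2 ∂P ≤ V * P.real A := by
  refine le_of_forall_pos_le_add fun ε hε => ?_
  have hPA : 0 ≤ P.real A := measureReal_nonneg
  -- choose `θ² = η` small
  set K : ℝ := V ^ 2 / 2 * P.real A + V + 1 with hK
  have hK0 : 0 < K := by positivity
  set η : ℝ := min (1 / K) (ε / K) with hη
  have hη0 : 0 < η := lt_min (by positivity) (by positivity)
  have hη1 : η * K ≤ 1 := by
    have : η ≤ 1 / K := min_le_left _ _
    calc η * K ≤ 1 / K * K := by gcongr
      _ = 1 := by field_simp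
  have hη2 : η * K ≤ ε := by
    have : η ≤ ε / K := min_le_right _ _
    calc η * K ≤ ε / K * K := by gcongr
      _ = ε := by field_simp
  have h1 := h.moments hX (√η)
  have h2 : √η ^ 2 = η := Real.sq_sqrt hη0.le
  have h4 : 0 ≤ ∫ ω in A, X ω ^ 4 ∂P := integral_nonneg fun ω => by positivity
  have h5 : 0 ≤ √η ^ 4 / 12 * ∫ ω in A, X ω ^ 4 ∂P := mul_nonneg (by positivity) h4
  rw [h2] at h1
  have hx1 : η * V / 2 ≤ 1 := by nlinarith [mul_nonneg hη0.le hV, mul_nonneg hη0.le (by positivity : 0 ≤ V ^ 2 / 2 * P.real A)]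
  have hx0 : 0 ≤ η * V / 2 := by positivity
  have hexp : exp (η * V / 2) ≤ 1 + η * V / 2 + (η * V / 2) ^ 2 := by
    have := Real.abs_exp_sub_one_sub_id_le (x := η * V / 2) (by rw [abs_of_nonneg hx0]; exact hx1)
    have := (abs_le.1 this).2
    linarith
  have h6 : η * ∫ ω in A, X ω ^ 2 ∂P ≤ η * (V * P.real A + η * (V ^ 2 / 2 * P.real A)) := by
    have := mul_le_mul_of_nonneg_right hexp hPA
    nlinarith
  have h7 := le_of_mul_le_mul_left h6 hη0
  refine h7.trans ?_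
  have : η * (V ^ 2 / 2 * P.real A) ≤ η * K := by
    refine mul_le_mul_of_nonneg_left ?_ hη0.le
    rw [hK]; linarith
  linarith


omit [IsFiniteMeasure P] in
/-- upper tail, set form -/
theorem CSG.tail (h : CSG P A X V) (hX : AEMeasurable X P) (hV : 0 < V) {r : ℝ} (hr : 0 ≤ r) :
    P (A ∩ {ω | r ≤ X ω}) ≤ ENNReal.ofReal (exp (-(r ^ 2 / (2 * V)))) * P A := by
  have h1 := h (r / V)
  set g : Ω → ℝ≥0∞ := fun ω =>
    ENNReal.ofReal (exp (-(r / V * r))) * ENNReal.ofReal (exp (r / V * X ω)) with hg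
  have hgm : AEMeasurable g (P.restrict A) := by
    have : AEMeasurable (fun ω => ENNReal.ofReal (exp (r / V * X ω))) P :=
      (hX.const_mul _).exp.ennreal_ofReal
    exact (this.const_mul _).restrict
  have h3 : {ω | r ≤ X ω} ⊆ {ω | (1 : ℝ≥0∞) ≤ g ω} := by
    intro ω hω
    have hω : r ≤ X ω := hω
    show (1 : ℝ≥0∞) ≤ _
    rw [hg]
    dsimp only
    rw [← ENNReal.ofReal_mul (exp_pos _).le, ← exp_add, ENNReal.one_le_ofReal]
    apply Real.one_le_exp
    have : 0 ≤ r / V * (X ω - r) := mul_nonneg (div_nonneg hr hV.le) (by linarith)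
    linarith
  calc P (A ∩ {ω | r ≤ X ω}) = P ({ω | r ≤ X ω} ∩ A) := by rw [inter_comm]
    _ ≤ P.restrict A {ω | r ≤ X ω} := Measure.le_restrict_apply _ _
    _ ≤ P.restrict A {ω | (1 : ℝ≥0∞) ≤ g ω} := measure_mono h3
    _ ≤ ∫⁻ ω in A, g ω ∂P := by
        have := mul_meas_ge_le_lintegral₀ hgm 1
        rwa [one_mul] at this
    _ = ENNReal.ofReal (exp (-(r / V * r))) * ∫⁻ ω in A, ENNReal.ofReal (exp (r / V * X ω)) ∂P :=
        lintegral_const_mul' _ _ ENNReal.ofReal_ne_top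
    _ ≤ ENNReal.ofReal (exp (-(r / V * r)))
          * (ENNReal.ofReal (exp ((r / V) ^ 2 * V / 2)) * P A) := by gcongr
    _ = _ := by
        rw [← mul_assoc, ← ENNReal.ofReal_mul (exp_pos _).le, ← exp_add]
        congr 3
        field_simp
        ring


/-! ### conditional expectation forms -/




end Crest.Agent.R146.LipD_861
end

-- ▼ part R146/LipE_861
section

/-!
Row 146, package P5, node LIP / EM (task 92), part C3 (helper861): right-endpoint sums of the
spectral integral along an arbitrary grid (in the frame of `HilbA_356`) and the three-segment grid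
through two prescribed times.
-/

set_option autoImplicit false
set_option maxHeartbeats 400000

namespace Crest.Agent.R146.LipE_861

open Set Filter Topology MeasureTheory
open Crest.Agent.R146.Hilb Crest.Agent.R146.Hilb.Res Crest.Agent.R146.Lev2_576
open scoped RealInnerProductSpace NNReal

variable {H : Type*} [NormedAddCommGroup H] [InnerProductSpace ℝ H] (R : Res H)

/-- block estimate -/
theorem norm_Dop_block [CompleteSpace H] {g : ℝ → ℝ} (hg : ContinuousOn g (Icc 0 1))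
    {a b η ε : ℝ} (ha : 0 ≤ a) (hη : 0 < η) (hε : 0 ≤ ε)
    (hb : ∀ r ∈ Icc (0 : ℝ) 1, a ≤ r → r ≤ b + η → |g r| ≤ ε) {y : H} (hya : R.P a y = 0)
    (hyb : R.P b y = y) : ‖R.Dop g y‖ ≤ ε * ‖y‖ := by
  obtain ⟨n₀, hn₀⟩ := exists_pow_lt_of_lt_one hη (by norm_num : (1 / 2 : ℝ) < 1)
  refine le_of_tendsto (R.S_tendsto_apply hg y).norm (eventually_atTop.2 ⟨n₀, fun n hn => ?_⟩)
  have hn1 : (1 : ℝ) / 2 ^ n < η := by
    refine lt_of_le_of_lt ?_ hn₀
    rw [← one_div_pow]
    exact pow_le_pow_of_le_one (by norm_num) (by norm_num) hn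
  have h0 : R.P 0 y = 0 := by rw [← R.mul 0 a ha, hya, map_zero]
  have h : ‖R.S g n y‖ ^ 2 ≤ (ε * ‖y‖) ^ 2 := by
    rw [R.norm_S_sq, mul_pow, ← R.mass n y, mul_add, Finset.mul_sum, h0]
    refine add_le_add (by simp) (Finset.sum_le_sum fun i hi => ?_)
    rcases le_total (dy n (i + 1)) a with h1 | h1
    · rw [inc_low R (dy_mono n i.le_succ) h1 hya]; simp
    rcases le_total b (dy n i) with h2 | h2
    · rw [← hyb, inc_high R h2 (dy_mono n i.le_succ)]; simp
    refine mul_le_mul_of_nonneg_right ?_ (sq_nonneg _)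
    rw [← sq_abs]
    refine pow_le_pow_left₀ (abs_nonneg _) (hb _ (dy_mem (Finset.mem_range.1 hi)) h1 ?_) 2
    rw [dy_succ]; linarith
  exact abs_le_of_sq_le_sq' h (by positivity) |>.2

/-- right-endpoint sums along a grid -/
noncomputable def GS (g : ℝ → ℝ) (t : ℕ → ℝ) (N : ℕ) (x : H) : H :=
  g 0 • R.P 0 x + R.RS t (fun i => g (t i)) N x

theorem inc_inc_self {a b : ℝ} (hab : a ≤ b) (x : H) : R.inc a b (R.inc a b x) = R.inc a b x := by
  rw [inc_apply R a b (R.inc a b x), R.P_inc hab, sub_zero, inc_apply, map_sub, R.idem,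
    R.mul' hab]

theorem inc_inc_lt {a b a' b' : ℝ} (hab : a ≤ b) (hb : b ≤ a') (hab' : a' ≤ b') (x : H) :
    R.inc a' b' (R.inc a b x) = 0 := by
  have h1 : R.P a' (R.inc a b x) = R.inc a b x := by
    rw [inc_apply, map_sub, R.mul' hb, R.mul' (hab.trans hb)]
  rw [← h1, inc_high R le_rfl hab']

theorem inc_inc_gt {a b a' b' : ℝ} (hab : a ≤ b) (hb : b ≤ a') (hab' : a' ≤ b') (x : H) :
    R.inc a b (R.inc a' b' x) = 0 := by
  have h1 : R.P b (R.inc a' b' x) = 0 := by
    rw [← R.mul b a' hb, R.P_inc hab', map_zero]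
  exact inc_low R hab le_rfl h1

theorem inc_GS {g : ℝ → ℝ} {t : ℕ → ℝ} (ht : Monotone t) (h0 : 0 ≤ t 0) {N i : ℕ} (hi : i < N)
    (x : H) : R.inc (t i) (t (i + 1)) (GS R g t N x) = g (t i) • R.inc (t i) (t (i + 1)) x := by
  rw [GS, map_add, map_smul, inc_high R (h0.trans (ht (Nat.zero_le i))) (ht i.le_succ), smul_zero,
    zero_add, RS_apply, map_sum, Finset.sum_eq_single i]
  · rw [map_smul, inc_inc_self R (ht i.le_succ)]
  · intro j _ hj
    rw [map_smul]
    rcases lt_or_gt_of_ne hj with h | h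
    · rw [inc_inc_lt R (ht j.le_succ) (ht h) (ht i.le_succ), smul_zero]
    · rw [inc_inc_gt R (ht i.le_succ) (ht h) (ht j.le_succ), smul_zero]
  · intro h
    exact absurd (Finset.mem_range.2 hi) h

theorem P0_GS {g : ℝ → ℝ} {t : ℕ → ℝ} (ht : Monotone t) (h0 : 0 ≤ t 0) (N : ℕ) (x : H) :
    R.P 0 (GS R g t N x) = g 0 • R.P 0 x := by
  rw [GS, map_add, map_smul, R.idem, RS_apply, map_sum, Finset.sum_eq_zero, add_zero]
  intro i _
  rw [map_smul, inc_apply, map_sub, R.mul 0 _ (h0.trans (ht (Nat.zero_le _))),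
    R.mul 0 _ (h0.trans (ht (Nat.zero_le _))), sub_self, smul_zero]

theorem P0_Dop' [CompleteSpace H] {g : ℝ → ℝ} (hg : ContinuousOn g (Icc 0 1)) (x : H) :
    R.P 0 (R.Dop g x) = g 0 • R.P 0 x := by
  have h1 : Tendsto (fun n => R.P 0 (R.S g n x)) atTop (𝓝 (R.P 0 (R.Dop g x))) :=
    ((R.P 0).continuous.tendsto _).comp (R.S_tendsto_apply hg x)
  refine tendsto_nhds_unique h1 (tendsto_const_nhds.congr fun n => ?_)
  rw [S_apply, RS_apply, map_add, map_smul, R.idem, map_sum]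
  rw [Finset.sum_eq_zero, add_zero]
  intro i _
  rw [map_smul, inc_apply, map_sub, R.mul 0 _ (dy_nonneg _ _), R.mul 0 _ (dy_nonneg _ _),
    sub_self, smul_zero]

/-- **consistency** of the right-endpoint sums -/
theorem norm_Dop_sub_GS [CompleteSpace H] {g : ℝ → ℝ} (hg : ContinuousOn g (Icc 0 1))
    {t : ℕ → ℝ} (ht : Monotone t) (h0 : t 0 = 0) {N : ℕ} (hN : t N = 1) {ε η : ℝ} (hη : 0 < η)
    (hε : 0 ≤ ε) (hosc : ∀ i < N, ∀ r ∈ Icc (0 : ℝ) 1, t i ≤ r → r ≤ t (i + 1) + η →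
      |g r - g (t i)| ≤ ε) (x : H) : ‖R.Dop g x - GS R g t N x‖ ≤ ε * ‖x‖ := by
  set z : H := R.Dop g x - GS R g t N x with hz
  have hz0 : R.P 0 z = 0 := by
    rw [hz, map_sub, P0_Dop' R hg, P0_GS R ht h0.ge, sub_self]
  have hzi : ∀ i < N, ‖R.inc (t i) (t (i + 1)) z‖ ≤ ε * ‖R.inc (t i) (t (i + 1)) x‖ := by
    intro i hi
    have hti : 0 ≤ t i := h0 ▸ ht (Nat.zero_le i)
    have e1 : R.inc (t i) (t (i + 1)) z
        = R.Dop (fun r => g r - g (t i)) (R.inc (t i) (t (i + 1)) x) := by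
      have e2 : R.inc (t i) (t (i + 1)) (R.Dop g x) = R.Dop g (R.inc (t i) (t (i + 1)) x) := by
        rw [inc_apply, inc_apply, map_sub, Lev2_576.P_Dop R hg, Lev2_576.P_Dop R hg]
      have e3 := congrArg (fun T => T (R.inc (t i) (t (i + 1)) x))
        (R.Dop_sub hg (continuousOn_const (c := g (t i))))
      simp only [sub_apply, R.Dop_const] at e3
      rw [hz, map_sub, inc_GS R ht h0.ge hi, e2, e3]
    rw [e1]
    refine norm_Dop_block R (hg.sub continuousOn_const) hti hη hε (hosc i hi) ?_ ?_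
    · exact R.P_inc (ht i.le_succ) x
    · rw [inc_apply, map_sub, R.idem, R.mul' (ht i.le_succ)]
  have hsum := R.sum_norm_inc ht N z
  rw [hN, R.one, h0, hz0] at hsum
  have hsx := R.sum_norm_inc ht N x
  rw [hN, R.one] at hsx
  have h2 : ‖z‖ ^ 2 ≤ (ε * ‖x‖) ^ 2 := by
    have h3 : ∑ i ∈ Finset.range N, ‖R.inc (t i) (t (i + 1)) z‖ ^ 2
        ≤ ∑ i ∈ Finset.range N, ε ^ 2 * ‖R.inc (t i) (t (i + 1)) x‖ ^ 2 := by
      refine Finset.sum_le_sum fun i hi => ?_
      rw [← mul_pow]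
      exact pow_le_pow_left₀ (norm_nonneg _) (hzi i (Finset.mem_range.1 hi)) 2
    rw [← Finset.mul_sum, hsum, hsx] at h3
    simp only [norm_zero] at h3
    have h4 : 0 ≤ ε ^ 2 * ‖R.P (t 0) x‖ ^ 2 := by positivity
    nlinarith
  exact abs_le_of_sq_le_sq' h2 (by positivity) |>.2

/-- Abel summation -/
theorem GS_eq {g : ℝ → ℝ} {t : ℕ → ℝ} (h0 : t 0 = 0) (N : ℕ) (x : H) :
    GS R g t N x = ∑ k ∈ Finset.range N, (g (t (k - 1)) - g (t k)) • R.P (t k) x
      + g (t (N - 1)) • R.P (t N) x := by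
  induction N with
  | zero => simp [GS, RS, h0]
  | succ N ih =>
    have e : GS R g t (N + 1) x = GS R g t N x + g (t N) • (R.P (t (N + 1)) x - R.P (t N) x) := by
      rw [GS, GS, RS_succ, add_assoc]
      rfl
    rw [e, ih, Finset.sum_range_succ, Nat.add_sub_cancel, sub_smul, smul_sub]
    abel

/-! ### the three-segment grid -/

/-- the grid `0 → s → u → 1`, `n` steps in each segment -/
noncomputable def grid (s u : ℝ≥0) (n i : ℕ) : ℝ≥0 :=
  s * ((min i n : ℕ) : ℝ≥0) / n + (u - s) * ((min (i - n) n : ℕ) : ℝ≥0) / n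
    + (1 - u) * ((min (i - 2 * n) n : ℕ) : ℝ≥0) / n

theorem grid_zero (s u : ℝ≥0) (n : ℕ) : grid s u n 0 = 0 := by simp [grid]

theorem grid_mono (s u : ℝ≥0) (n : ℕ) : Monotone (grid s u n) := by
  intro i j hij
  unfold grid
  gcongr

theorem grid_s (s u : ℝ≥0) {n : ℕ} (hn : 0 < n) : grid s u n n = s := by
  have h : (n : ℝ≥0) ≠ 0 := by exact_mod_cast hn.ne'
  have h2 : n - 2 * n = 0 := by omega
  simp [grid, h, h2]

theorem grid_u {s u : ℝ≥0} (hsu : s ≤ u) {n : ℕ} (hn : 0 < n) : grid s u n (2 * n) = u := by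
  have h : (n : ℝ≥0) ≠ 0 := by exact_mod_cast hn.ne'
  have h1 : min (2 * n) n = n := by omega
  have h2 : min (2 * n - n) n = n := by omega
  simp [grid, h, h1, h2, add_tsub_cancel_of_le hsu]

theorem grid_one {s u : ℝ≥0} (hsu : s ≤ u) (hu : u ≤ 1) {n : ℕ} (hn : 0 < n) :
    grid s u n (3 * n) = 1 := by
  have h : (n : ℝ≥0) ≠ 0 := by exact_mod_cast hn.ne'
  have h1 : min (3 * n) n = n := by omega
  have h2 : min (3 * n - n) n = n := by omega
  have h3 : min (3 * n - 2 * n) n = n := by omega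
  simp [grid, h, h1, h2, h3, add_tsub_cancel_of_le hsu, add_tsub_cancel_of_le hu]

theorem grid_le {s u : ℝ≥0} (hsu : s ≤ u) (hu : u ≤ 1) {n : ℕ} (hn : 0 < n) (i : ℕ) :
    grid s u n i ≤ 1 := by
  rw [← grid_one hsu hu hn]
  rcases le_total i (3 * n) with h | h
  · exact grid_mono s u n h
  · unfold grid
    gcongr 1
    · gcongr 1
      · have : min i n = min (3 * n) n := by omega
        rw [this]
      · have : min (i - n) n = min (3 * n - n) n := by omega
        rw [this]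
    · have : min (i - 2 * n) n = min (3 * n - 2 * n) n := by omega
      rw [this]

theorem grid_step {s u : ℝ≥0} (hsu : s ≤ u) (hu : u ≤ 1) (n i : ℕ) :
    grid s u n (i + 1) ≤ grid s u n i + 1 / n := by
  unfold grid
  have h1 : ((min (i + 1) n : ℕ) : ℝ≥0) ≤ (min i n : ℕ) + 1 := by
    have : min (i + 1) n ≤ min i n + 1 := by omega
    exact_mod_cast this
  have h2 : ((min (i + 1 - n) n : ℕ) : ℝ≥0) ≤ (min (i - n) n : ℕ) + 1 := by
    have : min (i + 1 - n) n ≤ min (i - n) n + 1 := by omega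
    exact_mod_cast this
  have h3 : ((min (i + 1 - 2 * n) n : ℕ) : ℝ≥0) ≤ (min (i - 2 * n) n : ℕ) + 1 := by
    have : min (i + 1 - 2 * n) n ≤ min (i - 2 * n) n + 1 := by omega
    exact_mod_cast this
  have h4 : s + (u - s) + (1 - u) = 1 := by
    rw [add_tsub_cancel_of_le hsu, add_tsub_cancel_of_le hu]
  calc _ ≤ s * (((min i n : ℕ) : ℝ≥0) + 1) / n + (u - s) * (((min (i - n) n : ℕ) : ℝ≥0) + 1) / n
        + (1 - u) * (((min (i - 2 * n) n : ℕ) : ℝ≥0) + 1) / n := by gcongr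
    _ = s * ((min i n : ℕ) : ℝ≥0) / n + (u - s) * ((min (i - n) n : ℕ) : ℝ≥0) / n
        + (1 - u) * ((min (i - 2 * n) n : ℕ) : ℝ≥0) / n + (s + (u - s) + (1 - u)) / n := by
        simp only [mul_add, mul_one, add_div]
        ring
    _ = _ := by rw [h4]

end Crest.Agent.R146.LipE_861
end

-- ▼ part R146/LipF_861
section

/-!
Row 146, package P5, node LIP / EM (task 92), main theorem (helper861), in the model of
`Lev2_576`.

`x, y ∈ H` with `J x ≥ 0`, `J y ≥ 0`, `⟪x, y⟫ = 0`, `J y = κ + B_1 + J (Dop D x)` a.e., `D ≥ 0`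
continuous and nonincreasing on `[0,1]`, positive on `[0,1)` (the damping is included in `D`:
`D = g + c`).  Then for `0 ≤ s ≤ u ≤ 1`, `A ∈ F_s` and all real `θ`

* `em_gap`  : `E[exp (θ (y_u - y_s)); A] ≤ exp (θ² (u - s) / 2) P(A)`,
* `em_force`: `E[exp (θ (x_u - x_s)); A] ≤ exp (θ² (V u - V s) / 2) P(A)` for every `V` with
  `(b - a) / D(a)² ≤ V b - V a`, e.g. `V t = ∫_0^t D⁻²`.
-/

set_option autoImplicit false
set_option maxHeartbeats 400000

namespace Crest.Agent.R146.LipF_861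

open Set Filter Topology MeasureTheory ProbabilityTheory
open Crest.Agent.R146.Hilb Crest.Agent.R146.Hilb.Res Crest.Agent.R146.Lev2_576
open Crest.Agent.R146.LipB_861 Crest.Agent.R146.LipChain_861 Crest.Agent.R146.LipC_861
  Crest.Agent.R146.LipD_861 Crest.Agent.R146.LipE_861 ProbabilityR.Perceptron
open scoped RealInnerProductSpace NNReal ENNReal

variable {H : Type*} [NormedAddCommGroup H] [InnerProductSpace ℝ H] {R : Res H}
  {Ω : Type*} {mΩ : MeasurableSpace Ω} {P : Measure Ω} {B : ℝ≥0 → Ω → ℝ}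
  {hBm : ∀ t, Measurable (B t)}

theorem J_zero (M : Model R P B hBm) : M.J 0 =ᵐ[P] fun _ => 0 := by
  have h := M.smul 0 0
  rw [smul_zero] at h
  filter_upwards [h] with ω h
  rw [h, zero_mul]

theorem J_sum (M : Model R P B hBm) (N : ℕ) (a : ℕ → ℝ) (x : ℕ → H) :
    M.J (∑ k ∈ Finset.range N, a k • x k)
      =ᵐ[P] fun ω => ∑ k ∈ Finset.range N, a k * M.J (x k) ω := by
  induction N with
  | zero => simpa using J_zero M
  | succ N ih =>
    rw [Finset.sum_range_succ]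
    filter_upwards [M.add (∑ k ∈ Finset.range N, a k • x k) (a N • x N), M.smul (a N) (x N), ih]
      with ω h1 h2 h3
    rw [h1, h2, h3, Finset.sum_range_succ]

theorem J_P (M : Model R P B hBm) {t : ℝ≥0} (ht : t ≤ 1) (x : H) :
    M.J (R.P t x) =ᵐ[P] P[M.J x | brownianFiltration B hBm t] := by
  have h := M.cond t ⟨t.2, by exact_mod_cast ht⟩ x
  rwa [Real.toNNReal_coe] at h

/-! ### the chain attached to a grid -/

section Grid

variable (B) (hBm) (D : ℝ → ℝ) (δ : ℝ) (s u : ℝ≥0) (n : ℕ)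

noncomputable def tt (i : ℕ) : ℝ := (grid s u n i : ℝ)

noncomputable def cc : ℝ := D (tt s u n (3 * n - 1)) + δ

noncomputable def mm (i : ℕ) : ℝ := D (tt s u n (i - 1)) - D (tt s u n i)

noncomputable def vv (i : ℕ) : ℝ≥0 := grid s u n (i + 1) - grid s u n i

/-- the `σ`-algebras along the grid -/
@[reducible] noncomputable def FF (i : ℕ) : MeasurableSpace Ω :=
  brownianFiltration B hBm (grid s u n i)

noncomputable def bb (i : ℕ) (ω : Ω) : ℝ := B (grid s u n (i + 1)) ω - B (grid s u n i) ω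

end Grid

section Chain

variable {D : ℝ → ℝ} {δ : ℝ} {s u : ℝ≥0} {n : ℕ}

theorem tt_mono : Monotone (tt s u n) := fun _ _ h => NNReal.coe_le_coe.2 (grid_mono s u n h)

theorem tt_mem (hsu : s ≤ u) (hu : u ≤ 1) (hn : 0 < n) (i : ℕ) : tt s u n i ∈ Icc (0 : ℝ) 1 :=
  ⟨(grid s u n i).2, by have := grid_le hsu hu hn i; exact_mod_cast this⟩

theorem mm_nonneg (hsu : s ≤ u) (hu : u ≤ 1) (hn : 0 < n) (ha : AntitoneOn D (Icc 0 1)) (i : ℕ) :
    0 ≤ mm D s u n i :=
  sub_nonneg.2 (ha (tt_mem hsu hu hn _) (tt_mem hsu hu hn _) (tt_mono (Nat.sub_le i 1)))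

theorem D_nonneg (ha : AntitoneOn D (Icc 0 1)) (h1 : 0 ≤ D 1) {t : ℝ} (ht : t ∈ Icc (0 : ℝ) 1) :
    0 ≤ D t := h1.trans (ha ht (by simp) ht.2)

theorem D_chain {i : ℕ} (hi : i ≤ 3 * n) :
    LipChain_861.D (cc D δ s u n) (3 * n) (mm D s u n) i = D (tt s u n (i - 1)) + δ := by
  have key : ∀ N, i ≤ N → ∑ j ∈ Finset.Ico i N, mm D s u n j
      = D (tt s u n (i - 1)) - D (tt s u n (N - 1)) := by
    intro N hN
    induction N, hN using Nat.le_induction with
    | base => simp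
    | succ N hN ih =>
      rw [Finset.sum_Ico_succ_top hN, ih, Nat.add_sub_cancel]
      unfold mm; ring
  unfold LipChain_861.D cc
  rw [key _ hi]
  ring

theorem data (hB : IsPreBrownianReal B P) (hsu : s ≤ u) (hu : u ≤ 1) (hn : 0 < n)
    (ha : AntitoneOn D (Icc 0 1)) (h1 : 0 ≤ D 1) (hδ : 0 < δ) :
    Data P (cc D δ s u n) (3 * n) (mm D s u n) (vv s u n) (FF B hBm s u n) (bb B s u n) where
  hc := by
    have := D_nonneg ha h1 (tt_mem hsu hu hn (3 * n - 1))
    unfold cc; linarith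
  hm := fun i _ => mm_nonneg hsu hu hn ha i
  mono := fun i j hij => (brownianFiltration B hBm).mono (grid_mono s u n hij)
  le := fun i => (brownianFiltration B hBm).le _
  meas := fun i _ => by
    have h1 : ∀ r : ℝ≥0, r ≤ grid s u n (i + 1) →
        Measurable[brownianFiltration B hBm (grid s u n (i + 1))] (B r) := fun r hr =>
      (Filtration.stronglyAdapted_natural (fun t => (hBm t).stronglyMeasurable) r).measurable.mono
        ((brownianFiltration B hBm).mono hr) le_rfl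
    exact (h1 _ le_rfl).sub (h1 _ (grid_mono s u n i.le_succ))
  ind := fun i _ => indep_incr hB hBm (grid_mono s u n i.le_succ)
  law := fun i _ => map_incr hB (grid_mono s u n i.le_succ)

theorem sum_bb (hB : IsPreBrownianReal B P) (hsu : s ≤ u) (hu : u ≤ 1) (hn : 0 < n) :
    ∀ᵐ ω ∂P, ∑ j ∈ Finset.range (3 * n), bb B s u n j ω = B 1 ω := by
  have h0 : ∀ᵐ ω ∂P, B 0 ω = 0 := hB.eval_zero_ae_eq_zero
  filter_upwards [h0] with ω h
  unfold bb
  rw [Finset.sum_range_sub (fun i => B (grid s u n i) ω), grid_one hsu hu hn, grid_zero, h,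
    sub_zero]

/-- the equation of `y` along the grid -/
theorem grid_eq [CompleteSpace H] (M : Model R P B hBm) (hB : IsPreBrownianReal B P)
    (hsu : s ≤ u) (hu : u ≤ 1) (hn : 0 < n) {κ : ℝ} {x y : H}
    (hy : M.J y =ᵐ[P] fun ω => κ + B 1 ω + M.J (R.Dop D x) ω) :
    ∀ᵐ ω ∂P, M.J y ω = κ + ∑ j ∈ Finset.range (3 * n), bb B s u n j ω
      + ∑ j ∈ Finset.range (3 * n), mm D s u n j * (P[M.J x | FF B hBm s u n j]) ω
      + (cc D δ s u n - δ) * M.J x ω
      + M.J (R.Dop D x - GS R D (tt s u n) (3 * n) x) ω := by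
  have h0 : tt s u n 0 = 0 := by unfold tt; rw [grid_zero]; rfl
  have hN : tt s u n (3 * n) = 1 := by unfold tt; rw [grid_one hsu hu hn]; rfl
  have hG := GS_eq R (g := D) h0 (3 * n) x
  rw [hN, R.one] at hG
  have hc : ∀ j : ℕ, M.J (R.P (tt s u n j) x) =ᵐ[P] P[M.J x | FF B hBm s u n j] := fun j =>
    J_P M (grid_le hsu hu hn j) x
  have hc' : ∀ᵐ ω ∂P, ∀ j : ℕ, M.J (R.P (tt s u n j) x) ω = (P[M.J x | FF B hBm s u n j]) ω :=
    ae_all_iff.2 hc
  have hs := J_sum M (3 * n) (fun k => D (tt s u n (k - 1)) - D (tt s u n k))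
    (fun k => R.P (tt s u n k) x)
  have ha := M.add (∑ k ∈ Finset.range (3 * n),
    (D (tt s u n (k - 1)) - D (tt s u n k)) • R.P (tt s u n k) x) (D (tt s u n (3 * n - 1)) • x)
  rw [← hG] at ha
  filter_upwards [hy, sum_bb hB hsu hu hn, hc', hs, ha, M.smul (D (tt s u n (3 * n - 1))) x,
    M.sub (R.Dop D x) (GS R D (tt s u n) (3 * n) x)] with ω h1 h2 h3 h4 h5 h6 h7
  rw [h1, h2, h7, h5, h4, h6]
  simp only [h3, mm, cc]
  ring

end Chain

section Main

theorem ae_mul_zero (M : Model R P B hBm) {x y : H} (x0 : 0 ≤ᵐ[P] M.J x) (y0 : 0 ≤ᵐ[P] M.J y)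
    (hxy : ⟪x, y⟫ = 0) : ∀ᵐ ω ∂P, M.J x ω * M.J y ω = 0 := by
  have h1 : 0 ≤ᵐ[P] fun ω => M.J x ω * M.J y ω := by
    filter_upwards [x0, y0] with ω h1 h2
    exact mul_nonneg h1 h2
  have h2 := M.inner x y
  rw [hxy] at h2
  exact (integral_eq_zero_iff_of_nonneg_ae h1 ((M.memLp x).integrable_mul (M.memLp y))).1 h2

theorem sum_tel {i j : ℕ} (hij : i ≤ j) (f : ℕ → ℝ) :
    ∑ k ∈ Finset.Ico i j, (f (k + 1) - f k) = f j - f i := by
  induction j, hij using Nat.le_induction with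
  | base => simp
  | succ j hj ih => rw [Finset.sum_Ico_succ_top hj, ih]; ring

theorem int_sub_sq {f g f' g' : Ω → ℝ} (hf : MemLp f 2 P) (hg : MemLp g 2 P) (hf' : MemLp f' 2 P)
    (hg' : MemLp g' 2 P) {K K' : ℝ} (h : ∫ ω, (f ω - f' ω) ^ 2 ∂P ≤ K)
    (h' : ∫ ω, (g ω - g' ω) ^ 2 ∂P ≤ K') :
    ∫ ω, ((f ω - g ω) - (f' ω - g' ω)) ^ 2 ∂P ≤ 2 * K + 2 * K' := by
  have i1 : Integrable (fun ω => 2 * (f ω - f' ω) ^ 2) P := ((hf.sub hf').integrable_sq).const_mul 2
  have i2 : Integrable (fun ω => 2 * (g ω - g' ω) ^ 2) P := ((hg.sub hg').integrable_sq).const_mul 2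
  have i0 : Integrable (fun ω => ((f ω - g ω) - (f' ω - g' ω)) ^ 2) P :=
    ((hf.sub hg).sub (hf'.sub hg')).integrable_sq
  calc ∫ ω, ((f ω - g ω) - (f' ω - g' ω)) ^ 2 ∂P
      ≤ ∫ ω, (2 * (f ω - f' ω) ^ 2 + 2 * (g ω - g' ω) ^ 2) ∂P := by
        refine integral_mono i0 (i1.add i2) fun ω => ?_
        show _ ≤ _
        simp only
        nlinarith [sq_nonneg ((f ω - f' ω) + (g ω - g' ω))]
    _ = 2 * ∫ ω, (f ω - f' ω) ^ 2 ∂P + 2 * ∫ ω, (g ω - g' ω) ^ 2 ∂P := by
        rw [integral_add i1 i2, integral_const_mul, integral_const_mul]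
    _ ≤ _ := by linarith

/-- approximation by chains -/
theorem step [CompleteSpace H] [IsProbabilityMeasure P] (M : Model R P B hBm)
    (hB : IsPreBrownianReal B P) {κ : ℝ} {D : ℝ → ℝ} (hD : ContinuousOn D (Icc 0 1))
    (ha : AntitoneOn D (Icc 0 1)) (h1 : 0 ≤ D 1) {x y : H} (x0 : 0 ≤ᵐ[P] M.J x)
    (y0 : 0 ≤ᵐ[P] M.J y) (hxy : ⟪x, y⟫ = 0)
    (hy : M.J y =ᵐ[P] fun ω => κ + B 1 ω + M.J (R.Dop D x) ω) {s u : ℝ≥0} (hsu : s ≤ u)
    (hu : u ≤ 1) {δ : ℝ} (hδ : 0 < δ) :
    ∃ Yl Yh : Ω → ℝ, MemLp Yl 2 P ∧ MemLp Yh 2 P ∧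
      (∀ A, MeasurableSet[brownianFiltration B hBm s] A → CSG P A Yh (u - s)) ∧
      (0 < D u → ∀ V : ℝ → ℝ,
        (∀ a b : ℝ, (s : ℝ) ≤ a → a ≤ b → b ≤ u → (b - a) / D a ^ 2 ≤ V b - V a) →
        ∀ A, MeasurableSet[brownianFiltration B hBm s] A → CSG P A Yl (V u - V s)) ∧
      (0 < D u → ∫ ω, (Yl ω - (M.J (R.P u x) ω - M.J (R.P s x) ω)) ^ 2 ∂P
        ≤ 2 * (4 * δ * ‖x‖ ^ 2 / D u) + 2 * (4 * δ * ‖x‖ ^ 2 / D u)) ∧
      ∫ ω, (Yh ω - (M.J (R.P u y) ω - M.J (R.P s y) ω)) ^ 2 ∂P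
        ≤ 2 * (2 * (D 0 + δ) * (4 * δ * ‖x‖ ^ 2) + 4 * (δ ^ 2 * ‖x‖ ^ 2 + δ ^ 2 * ‖x‖ ^ 2))
          + 2 * (2 * (D 0 + δ) * (4 * δ * ‖x‖ ^ 2)
            + 4 * (δ ^ 2 * ‖x‖ ^ 2 + δ ^ 2 * ‖x‖ ^ 2)) := by
  -- the grid
  have hunif := isCompact_Icc.uniformContinuousOn_of_continuous hD
  rw [Metric.uniformContinuousOn_iff] at hunif
  obtain ⟨η, hη, hosc⟩ := hunif δ hδ
  obtain ⟨n0, hn0⟩ := exists_nat_one_div_lt (half_pos hη)
  obtain ⟨n, hnn⟩ : ∃ n : ℕ, n = n0 + 1 := ⟨_, rfl⟩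
  have hn : 0 < n := by omega
  have hn1 : (1 : ℝ) / n < η / 2 := by rw [hnn]; push_cast; exact hn0
  have h0t : tt s u n 0 = 0 := by unfold tt; rw [grid_zero]; rfl
  have hNt : tt s u n (3 * n) = 1 := by unfold tt; rw [grid_one hsu hu hn]; rfl
  have hst : tt s u n n = s := by unfold tt; rw [grid_s s u hn]
  have hut : tt s u n (2 * n) = u := by unfold tt; rw [grid_u hsu hn]
  have hstep : ∀ i, tt s u n (i + 1) ≤ tt s u n i + 1 / n := fun i => by
    have := grid_step hsu hu n i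
    have h2 : ((grid s u n (i + 1) : ℝ≥0) : ℝ) ≤ ((grid s u n i + 1 / n : ℝ≥0) : ℝ) :=
      NNReal.coe_le_coe.2 this
    push_cast at h2
    exact h2
  have herr : ‖R.Dop D x - GS R D (tt s u n) (3 * n) x‖ ≤ δ * ‖x‖ := by
    refine norm_Dop_sub_GS R hD tt_mono h0t hNt (half_pos hη) hδ.le (fun i _ r hr h2 h3 => ?_) x
    have h4 := hosc r hr (tt s u n i) (tt_mem hsu hu hn i) (by
      rw [Real.dist_eq, abs_of_nonneg (by linarith)]
      have := hstep i
      linarith)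
    rw [Real.dist_eq] at h4
    exact h4.le
  -- the chain
  have hd := data (B := B) (hBm := hBm) hB hsu hu hn ha h1 hδ
  have heq := grid_eq (δ := δ) M hB hsu hu hn hy
  have hl := M.memLp x
  have hh := M.memLp y
  have he := M.memLp (R.Dop D x - GS R D (tt s u n) (3 * n) x)
  have he2 : ∫ ω, M.J (R.Dop D x - GS R D (tt s u n) (3 * n) x) ω ^ 2 ∂P
      ≤ δ ^ 2 * ∫ ω, M.J x ω ^ 2 ∂P := by
    rw [M.norm_sq, M.norm_sq, ← mul_pow]
    exact pow_le_pow_left₀ (norm_nonneg _) herr 2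
  have hcc : δ ≤ cc D δ s u n := by
    have := D_nonneg ha h1 (tt_mem hsu hu hn (3 * n - 1))
    unfold cc; linarith
  have hq := stab hd hδ hcc hδ.le le_rfl hl he x0 y0 (ae_mul_zero M x0 y0 hxy) heq he2
  simp only [M.norm_sq] at hq he2
  have hn3 : n ≤ 3 * n := by omega
  have h2n3 : 2 * n ≤ 3 * n := by omega
  have hn2n : n ≤ 2 * n := by omega
  have hFs : FF B hBm s u n n = brownianFiltration B hBm s := by
    show brownianFiltration B hBm (grid s u n n) = _
    rw [grid_s s u hn]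
  have hFu : FF B hBm s u n (2 * n) = brownianFiltration B hBm u := by
    show brownianFiltration B hBm (grid s u n (2 * n)) = _
    rw [grid_u hsu hn]
  have hs1 : s ≤ 1 := hsu.trans hu
  refine ⟨fun ω => lam κ (cc D δ s u n) (3 * n) (mm D s u n) (vv s u n) (bb B s u n) (2 * n) ω
      - lam κ (cc D δ s u n) (3 * n) (mm D s u n) (vv s u n) (bb B s u n) n ω,
    fun ω => W (cc D δ s u n) (3 * n) (mm D s u n) (vv s u n) (2 * n)
        (X κ (cc D δ s u n) (3 * n) (mm D s u n) (vv s u n) (bb B s u n) (2 * n) ω)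
      - W (cc D δ s u n) (3 * n) (mm D s u n) (vv s u n) n
        (X κ (cc D δ s u n) (3 * n) (mm D s u n) (vv s u n) (bb B s u n) n ω),
    (lam_memLp hd h2n3).sub (lam_memLp hd hn3), (W_memLp hd h2n3).sub (W_memLp hd hn3),
    ?_, ?_, ?_, ?_⟩
  · intro A hA θ
    have h2 := exp_gap (κ := κ) hd θ hn2n h2n3 (A := A) (by rw [hFs]; exact hA)
    have h3 : ∑ k ∈ Finset.Ico n (2 * n), ((vv s u n k : ℝ≥0) : ℝ) = (u : ℝ) - s := by
      rw [← hut, ← hst, ← sum_tel hn2n]
      refine Finset.sum_congr rfl fun k _ => ?_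
      unfold vv tt
      rw [NNReal.coe_sub (grid_mono s u n k.le_succ)]
    rw [h3] at h2
    exact h2
  · intro hDu V hV A hA θ
    have h2 := exp_lam (κ := κ) hd θ hn2n h2n3 (A := A) (by rw [hFs]; exact hA)
    refine h2.trans ?_
    have h3 : ∑ k ∈ Finset.Ico n (2 * n), (1 / LipChain_861.D (cc D δ s u n) (3 * n)
        (mm D s u n) (k + 1)) ^ 2 * ((vv s u n k : ℝ≥0) : ℝ) ≤ V u - V s := by
      rw [← hut, ← hst, ← sum_tel hn2n (fun k => V (tt s u n k))]
      refine Finset.sum_le_sum fun k hk => ?_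
      rw [Finset.mem_Ico] at hk
      rw [D_chain (by omega), Nat.add_sub_cancel]
      have hk1 : (s : ℝ) ≤ tt s u n k := by rw [← hst]; exact tt_mono hk.1
      have hk2 : tt s u n (k + 1) ≤ u := by rw [← hut]; exact tt_mono hk.2
      have hk3 : tt s u n k ≤ tt s u n (k + 1) := tt_mono k.le_succ
      have h4 := hV _ _ hk1 hk3 hk2
      refine le_trans ?_ h4
      have hDk : 0 < D (tt s u n k) := hDu.trans_le
        (ha (tt_mem hsu hu hn k) ⟨u.2, by exact_mod_cast hu⟩ (hk3.trans hk2))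
      unfold vv
      rw [NNReal.coe_sub (grid_mono s u n k.le_succ), mul_comm, one_div, inv_pow,
        div_eq_mul_inv (_ - _)]
      refine mul_le_mul_of_nonneg_left ?_ (sub_nonneg.2 hk3)
      refine inv_anti₀ (by positivity) ?_
      gcongr
      linarith
    gcongr
  · intro hDu
    have e1 : ∀ i ≤ 2 * n, ∫ ω, (lam κ (cc D δ s u n) (3 * n) (mm D s u n) (vv s u n)
        (bb B s u n) i ω - (P[M.J x | FF B hBm s u n i]) ω) ^ 2 ∂P ≤ 4 * δ * ‖x‖ ^ 2 / D u := by
      intro i hi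
      refine force_err (κ := κ) hd hl (hi.trans h2n3) hDu ?_ hq
      rw [D_chain (hi.trans h2n3)]
      have h3 : D u ≤ D (tt s u n (i - 1)) :=
        ha (tt_mem hsu hu hn _) ⟨u.2, by exact_mod_cast hu⟩ (by rw [← hut]; exact tt_mono (by omega))
      linarith
    have e2 := e1 n hn2n
    have e3 := e1 (2 * n) le_rfl
    rw [hFs] at e2
    rw [hFu] at e3
    refine int_sub_sq (lam_memLp hd h2n3) (lam_memLp hd hn3) (M.memLp _) (M.memLp _) ?_ ?_
    · refine le_trans (le_of_eq ?_) e3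
      refine integral_congr_ae ?_
      filter_upwards [J_P M hu x] with ω h3
      rw [h3]
    · refine le_trans (le_of_eq ?_) e2
      refine integral_congr_ae ?_
      filter_upwards [J_P M hs1 x] with ω h3
      rw [h3]
  · have hD0 : LipChain_861.D (cc D δ s u n) (3 * n) (mm D s u n) 0 = D 0 + δ := by
      rw [D_chain (Nat.zero_le _), Nat.zero_sub, h0t]
    have hq0 : 0 ≤ D 0 + δ := by
      have := D_nonneg ha h1 (t := 0) (by simp)
      linarith
    have e1 : ∀ i ≤ 3 * n, ∫ ω, (W (cc D δ s u n) (3 * n) (mm D s u n) (vv s u n) i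
        (X κ (cc D δ s u n) (3 * n) (mm D s u n) (vv s u n) (bb B s u n) i ω)
        - (P[M.J y | FF B hBm s u n i]) ω) ^ 2 ∂P
        ≤ 2 * (D 0 + δ) * (4 * δ * ‖x‖ ^ 2) + 4 * (δ ^ 2 * ‖x‖ ^ 2 + δ ^ 2 * ‖x‖ ^ 2) := by
      intro i hi
      have h3 := gap_err (κ := κ) hd hl hh he heq hi
      simp only [hD0, M.norm_sq] at h3
      refine h3.trans ?_
      have h4 := mul_le_mul_of_nonneg_left hq (by linarith : 0 ≤ 2 * (D 0 + δ))
      linarith
    have e2 := e1 n hn3
    have e3 := e1 (2 * n) h2n3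
    rw [hFs] at e2
    rw [hFu] at e3
    refine int_sub_sq (W_memLp hd h2n3) (W_memLp hd hn3) (M.memLp _) (M.memLp _) ?_ ?_
    · refine le_trans (le_of_eq ?_) e3
      refine integral_congr_ae ?_
      filter_upwards [J_P M hu y] with ω h3
      rw [h3]
    · refine le_trans (le_of_eq ?_) e2
      refine integral_congr_ae ?_
      filter_upwards [J_P M hs1 y] with ω h3
      rw [h3]

/-- `J` of an increment -/
theorem J_inc (M : Model R P B hBm) (x y : H) :
    ∫ ω, (M.J x ω - M.J y ω) ^ 2 ∂P = ‖x - y‖ ^ 2 := by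
  rw [← M.norm_sq]
  refine integral_congr_ae ?_
  filter_upwards [M.sub x y] with ω h
  rw [h]

/-- **exponential bound for the gap** -/
theorem em_gap [CompleteSpace H] [IsProbabilityMeasure P] (M : Model R P B hBm)
    (hB : IsPreBrownianReal B P) {κ : ℝ} {D : ℝ → ℝ} (hD : ContinuousOn D (Icc 0 1))
    (ha : AntitoneOn D (Icc 0 1)) (h1 : 0 ≤ D 1) {x y : H} (x0 : 0 ≤ᵐ[P] M.J x)
    (y0 : 0 ≤ᵐ[P] M.J y) (hxy : ⟪x, y⟫ = 0)
    (hy : M.J y =ᵐ[P] fun ω => κ + B 1 ω + M.J (R.Dop D x) ω) {s u : ℝ≥0} (hsu : s ≤ u)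
    (hu : u ≤ 1) {A : Set Ω} (hA : MeasurableSet[brownianFiltration B hBm s] A) :
    CSG P A (fun ω => M.J (R.P u y) ω - M.J (R.P s y) ω) (u - s) := by
  choose Yl Yh h2 h3 h4 h5 h6 h7 using fun k : ℕ => step M hB hD ha h1 x0 y0 hxy hy hsu hu
    (δ := 1 / ((k : ℝ) + 1)) (by positivity)
  refine csg_closed h3 ((M.memLp _).sub (M.memLp _)) ?_ fun k => h4 k A hA
  refine squeeze_zero (fun k => integral_nonneg fun _ => sq_nonneg _) h7 ?_
  have hl := tendsto_one_div_add_atTop_nhds_zero_nat (𝕜 := ℝ)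
  have hc : Continuous fun δ : ℝ =>
      2 * (2 * (D 0 + δ) * (4 * δ * ‖x‖ ^ 2) + 4 * (δ ^ 2 * ‖x‖ ^ 2 + δ ^ 2 * ‖x‖ ^ 2))
          + 2 * (2 * (D 0 + δ) * (4 * δ * ‖x‖ ^ 2)
            + 4 * (δ ^ 2 * ‖x‖ ^ 2 + δ ^ 2 * ‖x‖ ^ 2)) := by fun_prop
  exact (hc.tendsto' 0 0 (by simp)).comp hl

/-- exponential bound for the force, `D u > 0` -/
theorem em_force_pos [CompleteSpace H] [IsProbabilityMeasure P] (M : Model R P B hBm)
    (hB : IsPreBrownianReal B P) {κ : ℝ} {D : ℝ → ℝ} (hD : ContinuousOn D (Icc 0 1))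
    (ha : AntitoneOn D (Icc 0 1)) (h1 : 0 ≤ D 1) {x y : H} (x0 : 0 ≤ᵐ[P] M.J x)
    (y0 : 0 ≤ᵐ[P] M.J y) (hxy : ⟪x, y⟫ = 0)
    (hy : M.J y =ᵐ[P] fun ω => κ + B 1 ω + M.J (R.Dop D x) ω) {s u : ℝ≥0} (hsu : s ≤ u)
    (hu : u ≤ 1) (hDu : 0 < D u) {V : ℝ → ℝ}
    (hV : ∀ a b : ℝ, (s : ℝ) ≤ a → a ≤ b → b ≤ u → (b - a) / D a ^ 2 ≤ V b - V a)
    {A : Set Ω} (hA : MeasurableSet[brownianFiltration B hBm s] A) :
    CSG P A (fun ω => M.J (R.P u x) ω - M.J (R.P s x) ω) (V u - V s) := by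
  choose Yl Yh h2 h3 h4 h5 h6 h7 using fun k : ℕ => step M hB hD ha h1 x0 y0 hxy hy hsu hu
    (δ := 1 / ((k : ℝ) + 1)) (by positivity)
  refine csg_closed h2 ((M.memLp _).sub (M.memLp _)) ?_ fun k => h5 k hDu V hV A hA
  refine squeeze_zero (fun k => integral_nonneg fun _ => sq_nonneg _) (fun k => h6 k hDu) ?_
  have hl := tendsto_one_div_add_atTop_nhds_zero_nat (𝕜 := ℝ)
  have hc : Continuous fun δ : ℝ =>
      2 * (4 * δ * ‖x‖ ^ 2 / D u) + 2 * (4 * δ * ‖x‖ ^ 2 / D u) := by fun_prop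
  exact (hc.tendsto' 0 0 (by simp)).comp hl

/-- **exponential bound for the force** (also up to time `1` at jamming) -/
theorem em_force [CompleteSpace H] [IsProbabilityMeasure P] (M : Model R P B hBm)
    (hB : IsPreBrownianReal B P) {κ : ℝ} {D : ℝ → ℝ} (hD : ContinuousOn D (Icc 0 1))
    (ha : AntitoneOn D (Icc 0 1)) (h1 : 0 ≤ D 1) (hpos : ∀ t ∈ Ico (0 : ℝ) 1, 0 < D t)
    {x y : H} (x0 : 0 ≤ᵐ[P] M.J x) (y0 : 0 ≤ᵐ[P] M.J y) (hxy : ⟪x, y⟫ = 0)
    (hy : M.J y =ᵐ[P] fun ω => κ + B 1 ω + M.J (R.Dop D x) ω) {s u : ℝ≥0} (hsu : s ≤ u)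
    (hu : u ≤ 1) {V : ℝ → ℝ}
    (hV : ∀ a b : ℝ, (s : ℝ) ≤ a → a ≤ b → b ≤ u → (b - a) / D a ^ 2 ≤ V b - V a)
    {A : Set Ω} (hA : MeasurableSet[brownianFiltration B hBm s] A) :
    CSG P A (fun ω => M.J (R.P u x) ω - M.J (R.P s x) ω) (V u - V s) := by
  rcases hu.lt_or_eq with hu1 | hu1
  · exact em_force_pos M hB hD ha h1 x0 y0 hxy hy hsu hu
      (hpos _ ⟨u.2, by exact_mod_cast hu1⟩) hV hA
  subst hu1
  rcases hsu.lt_or_eq with hs1 | hs1
  · -- `s < 1`: approximate `1` from the left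
    obtain ⟨r, -, hr2, hr3⟩ := exists_seq_strictMono_tendsto' (show (s : ℝ) < 1 by exact_mod_cast hs1)
    have hr0 : ∀ k, 0 ≤ r k := fun k => s.2.trans (hr2 k).1.le
    have hlim : Tendsto (fun k => R.P (r k) x) atTop (𝓝 x) :=
      (R.left x).comp (tendsto_nhdsWithin_iff.2 ⟨hr3, Eventually.of_forall fun k => (hr2 k).2⟩)
    refine csg_closed (Y := fun k ω => M.J (R.P (r k) x) ω - M.J (R.P s x) ω)
      (fun k => (M.memLp _).sub (M.memLp _)) ((M.memLp _).sub (M.memLp _)) ?_ fun k => ?_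
    · have h2 : Tendsto (fun k => ‖R.P (r k) x - x‖ ^ 2) atTop (𝓝 0) := by
        have := ((hlim.sub_const x).norm.pow 2)
        simpa using this
      refine h2.congr fun k => ?_
      rw [← J_inc M]
      refine integral_congr_ae (Eventually.of_forall fun ω => ?_)
      simp only [NNReal.coe_one, R.one]
      ring
    · obtain ⟨w, hw⟩ : ∃ w : ℝ≥0, (w : ℝ) = r k := ⟨(r k).toNNReal, Real.coe_toNNReal _ (hr0 k)⟩
      have hwk := hr2 k
      rw [← hw] at hwk ⊢
      have h3 := em_force_pos M hB hD ha h1 x0 y0 hxy hy (s := s) (u := w)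
        (by exact_mod_cast hwk.1.le) (by exact_mod_cast hwk.2.le) (hpos _ ⟨w.2, hwk.2⟩) (V := V)
        (fun a b h4 h5 h6 => hV a b h4 h5 (h6.trans hwk.2.le)) hA
      refine CSG.mono h3 ?_
      have h4 := hV w 1 hwk.1.le hwk.2.le le_rfl
      have h5 : 0 ≤ (1 - (w : ℝ)) / D w ^ 2 := div_nonneg (sub_nonneg.2 hwk.2.le) (sq_nonneg _)
      rw [NNReal.coe_one]
      linarith
  · subst hs1
    intro θ
    simp
end Main

end Crest.Agent.R146.LipF_861
end

-- ▼ part R146/LipG_861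
section

/-!
Row 146, package P5 (helper861): the exponential bounds for the complementarity solutions `LCP` of
`JamAsm_576`, and the Prop `LIPZ` of `P5Def_12`.
-/

set_option autoImplicit false
set_option maxHeartbeats 400000

namespace Crest.Agent.R146.LipG_861

open Set Filter Topology MeasureTheory ProbabilityTheory Crest.ProbabilityR.Perceptron
open Crest.Agent.R146.Hilb Crest.Agent.R146.Lev2_576 Crest.Agent.R146.JamAsm_576
open Crest.Agent.R146.LipD_861 Crest.Agent.R146.LipF_861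
open Crest.Agent.R146.P5Def_12 Crest.Agent.R146.P34_734 Crest.Agent.R146.DualG_256
open scoped RealInnerProductSpace NNReal ENNReal

section General

variable {H : Type*} [NormedAddCommGroup H] [InnerProductSpace ℝ H] [CompleteSpace H]
  {R : Res H} {Ω : Type*} {mΩ : MeasurableSpace Ω} {P : Measure Ω} {B : ℝ≥0 → Ω → ℝ}
  {hBm : ∀ t, Measurable (B t)} {M : Model R P B hBm} {ξ x : H} {κ c : ℝ} {g : ℝ → ℝ}

/-- the equation of a complementarity solution with the damping inside the profile -/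
theorem lcp_eq (hξ : M.J ξ =ᵐ[P] fun ω => κ + B 1 ω) (L : LCP M ξ c g x) :
    M.J (ξ + R.Dop g x + c • x) =ᵐ[P]
      fun ω => κ + B 1 ω + M.J (R.Dop (fun t => g t + c) x) ω := by
  have e : R.Dop (fun t => g t + c) x = R.Dop g x + c • x := by
    rw [R.Dop_add L.cont continuousOn_const, add_apply, R.Dop_const]
  have e2 : ξ + R.Dop g x + c • x = ξ + R.Dop (fun t => g t + c) x := by rw [e, add_assoc]
  rw [e2]
  filter_upwards [M.add ξ (R.Dop (fun t => g t + c) x), hξ] with ω h1 h2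
  rw [h1, h2]

/-- (EMh) for a complementarity solution -/
theorem lcp_gap [IsProbabilityMeasure P] (hB : IsPreBrownianReal B P)
    (hξ : M.J ξ =ᵐ[P] fun ω => κ + B 1 ω) (L : LCP M ξ c g x) (h1 : 0 ≤ g 1 + c)
    {s u : ℝ≥0} (hsu : s ≤ u) (hu : u ≤ 1) {A : Set Ω}
    (hA : MeasurableSet[brownianFiltration B hBm s] A) :
    CSG P A (fun ω => M.J (R.P u (ξ + R.Dop g x + c • x)) ω
      - M.J (R.P s (ξ + R.Dop g x + c • x)) ω) (u - s) :=
  em_gap M hB (L.cont.add continuousOn_const)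
    (fun _ ha _ hb hab => add_le_add_left (L.anti ha hb hab) c) h1 L.x_nonneg
    L.h_nonneg L.comp (lcp_eq hξ L) hsu hu hA

/-- (EMl) for a complementarity solution -/
theorem lcp_force [IsProbabilityMeasure P] (hB : IsPreBrownianReal B P)
    (hξ : M.J ξ =ᵐ[P] fun ω => κ + B 1 ω) (L : LCP M ξ c g x) (h1 : 0 ≤ g 1 + c)
    (hpos : ∀ t ∈ Ico (0 : ℝ) 1, 0 < g t + c) {s u : ℝ≥0} (hsu : s ≤ u) (hu : u ≤ 1)
    {V : ℝ → ℝ}
    (hV : ∀ a b : ℝ, (s : ℝ) ≤ a → a ≤ b → b ≤ u → (b - a) / (g a + c) ^ 2 ≤ V b - V a)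
    {A : Set Ω} (hA : MeasurableSet[brownianFiltration B hBm s] A) :
    CSG P A (fun ω => M.J (R.P u x) ω - M.J (R.P s x) ω) (V u - V s) :=
  em_force M hB (D := fun t => g t + c) (L.cont.add continuousOn_const)
    (fun _ ha _ hb hab => add_le_add_left (L.anti ha hb hab) c) h1 hpos L.x_nonneg
    L.h_nonneg L.comp (lcp_eq hξ L) hsu hu hV hA

/-- `‖x - P_t x‖² ≤ (1 - t) / c²` for `c > 0` -/
theorem lcp_lip [IsProbabilityMeasure P] (hB : IsPreBrownianReal B P)
    (hξ : M.J ξ =ᵐ[P] fun ω => κ + B 1 ω) (L : LCP M ξ c g x) (hc : 0 < c) (h1 : 0 ≤ g 1)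
    {t : ℝ} (ht : t ∈ Icc (0 : ℝ) 1) : ‖x - R.P t x‖ ^ 2 ≤ (1 - t) / c ^ 2 := by
  have hg : ∀ r ∈ Icc (0 : ℝ) 1, 0 ≤ g r := fun r hr => h1.trans (L.anti hr (by simp) hr.2)
  obtain ⟨w, hw⟩ : ∃ w : ℝ≥0, (w : ℝ) = t := ⟨t.toNNReal, Real.coe_toNNReal _ ht.1⟩
  have hw1 : w ≤ 1 := by exact_mod_cast hw.le.trans ht.2
  have h2 := lcp_force hB hξ L (by linarith) (fun r hr => by
      have := hg r ⟨hr.1, hr.2.le⟩; linarith) hw1 le_rfl (V := fun r => r / c ^ 2)
      (fun a b ha hab hb => by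
        rw [NNReal.coe_one] at hb
        have h3 := hg a ⟨w.2.trans ha, hab.trans hb⟩
        rw [← sub_div]
        refine div_le_div_of_nonneg_left (sub_nonneg.2 hab) (by positivity) ?_
        gcongr
        linarith) (A := univ) MeasurableSet.univ
  have h3 := h2.sq_le (((M.memLp _).aestronglyMeasurable.aemeasurable).sub
    (M.memLp _).aestronglyMeasurable.aemeasurable) (by
      rw [NNReal.coe_one, hw, ← sub_div]
      exact div_nonneg (sub_nonneg.2 ht.2) (sq_nonneg _))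
  rw [setIntegral_univ, probReal_univ, mul_one, J_inc, NNReal.coe_one, R.one, hw, ← sub_div] at h3
  exact h3

end General

/-- **(LIPZ)** -/
theorem lipz (W : BS) : LIPZ W := by
  intro α hα x D h
  by_cases hx : x = 0
  · subst hx
    exact ⟨0, fun t _ => by simp⟩
  have hprob : IsProbabilityMeasure W.P := inferInstance
  have L := P5Fin_12.lcp_of_min W hα h hx
  refine ⟨1, fun t ht => ?_⟩
  have h1 := lcp_lip W.br.toIsPreBrownianReal (modelB_xi W.meas W.br 1) L one_pos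
    h.adm.prof.one (t := t) ⟨ht.1, ht.2.le⟩
  simpa using h1

end Crest.Agent.R146.LipG_861
end

-- ▼ part R146/LipG_491
section

/-!
Row 146, package P5 (helper491): the exponential bounds of node LIP (`EMG`, every damping `c ≥ 0`)
give `EML0` (hence `FLIM`), `LIPZ`, and helper4's `EMW` (hence `LEVC`, `LEVD`).
-/

set_option autoImplicit false

namespace Crest.Agent.R146.LipG_491

open Set Filter Topology MeasureTheory ProbabilityTheory Crest.ProbabilityR.Perceptron
open Crest.Agent.R146.Hilb Crest.Agent.R146.ProfB_540 Crest.Agent.R146.HilbE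
open Crest.Agent.R146.Lev2_576 Crest.Agent.R146.P34_734 Crest.Agent.R146.DualG_256
open Crest.Agent.R146.DualL_256 Crest.Agent.R146.JamIface_776 Crest.Agent.R146.P5A_12
open Crest.Agent.R146.P5Def_12 Crest.Agent.R146.P5Fin_12 Crest.Agent.R146.JamAsm_576
open Crest.Agent.R146.SubG_4 Crest.Agent.R146.LevE_4 Crest.Agent.R146.LevF_4
open Crest.Agent.R146.FLim_491
open scoped RealInnerProductSpace NNReal ENNReal

noncomputable section

/-- the exponential bounds of node LIP, set form, for every damping `c ≥ 0` -/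
def EMG (W : BS) : Prop := ∀ (c : ℝ) (x : HW W) (D : ℝ → ℝ), 0 ≤ c →
  LCP (MW W) (xiW W) c D x → (∀ t ∈ Ico (0 : ℝ) 1, 0 < D t) → 0 ≤ D 1 →
  EMset (MW W) (xiW W + (RW W).Dop D x + c • x) (fun t => t) ∧
  ∀ V : ℝ → ℝ, (∀ s t, 0 ≤ s → s ≤ t → t < 1 → (t - s) * (c + D s)⁻¹ ^ 2 ≤ V t - V s) →
    ContinuousOn V (Icc 0 1) → EMset (MW W) x V

theorem emw (W : BS) (h : EMG W) : EMW W := by
  intro x D L hpos h1
  obtain ⟨h2, h3⟩ := h 0 x D le_rfl L hpos h1
  rw [zero_smul, add_zero] at h2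
  simp only [zero_add] at h3
  exact ⟨h2, h3⟩

/-- second moment from an exponential bound -/
theorem moment2_of_exp {Ω : Type*} [MeasurableSpace Ω] {P : Measure Ω}
    {f : Ω → ℝ} (hf : MemLp f 2 P) {V : ℝ} (hV : 0 < V)
    (h : ∀ θ : ℝ, ∫⁻ ω, ENNReal.ofReal (Real.exp (θ * f ω)) ∂P ≤
      ENNReal.ofReal (Real.exp (θ ^ 2 * V / 2))) :
    ∫ ω, f ω ^ 2 ∂P ≤ 8 * V := by
  set r : ℝ := Real.sqrt V with hr
  have hr0 : 0 < r := Real.sqrt_pos.2 hV
  have hr2 : r ^ 2 = V := Real.sq_sqrt hV.le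
  have hexp : Real.exp (1 / 2) ≤ 2 := by
    have h1 := Real.exp_one_lt_d9
    have h2 : Real.exp (1 / 2) ^ 2 = Real.exp 1 := by
      rw [← Real.exp_nat_mul]; norm_num
    nlinarith [Real.exp_pos (1 / 2 : ℝ)]
  have hb : ∀ θ : ℝ, θ ^ 2 * V = 1 →
      ∫⁻ ω, ENNReal.ofReal (Real.exp (θ * f ω)) ∂P ≤ ENNReal.ofReal 2 := by
    intro θ hθ
    refine (h θ).trans (ENNReal.ofReal_le_ofReal ?_)
    rw [hθ]; exact hexp
  have h1 := hb (1 / r) (by rw [div_pow, one_pow, hr2]; field_simp)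
  have h2 := hb (-(1 / r)) (by rw [neg_sq, div_pow, one_pow, hr2]; field_simp)
  have hpow : ∀ x : ℝ, x ^ 2 ≤ 2 * (Real.exp x + Real.exp (-x)) := by
    intro x
    have h1 : ∀ y : ℝ, 0 ≤ y → y ^ 2 ≤ 2 * Real.exp y := by
      intro y hy
      have h := Real.pow_div_factorial_le_exp y hy 2
      have e : ((Nat.factorial 2 : ℕ) : ℝ) = 2 := by norm_num [Nat.factorial]
      rw [e, div_le_iff₀ (by norm_num)] at h
      linarith
    rcases le_total 0 x with h | h
    · have := h1 x h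
      have h2 := (Real.exp_pos (-x)).le
      linarith
    · have := h1 (-x) (by linarith)
      rw [neg_sq] at this
      have h2 := (Real.exp_pos x).le
      linarith
  have hpt : ∀ ω, f ω ^ 2 ≤ 2 * V *
      (Real.exp (1 / r * f ω) + Real.exp (-(1 / r) * f ω)) := by
    intro ω
    have h3 := hpow (1 / r * f ω)
    have e : (1 / r * f ω) ^ 2 = f ω ^ 2 / V := by
      rw [mul_pow, div_pow, one_pow, hr2]; ring
    rw [e, div_le_iff₀ hV] at h3
    rw [neg_mul]
    linarith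
  have hl : ∫⁻ ω, ENNReal.ofReal (f ω ^ 2) ∂P ≤ ENNReal.ofReal (8 * V) := by
    calc ∫⁻ ω, ENNReal.ofReal (f ω ^ 2) ∂P
        ≤ ∫⁻ ω, ENNReal.ofReal (2 * V) * (ENNReal.ofReal (Real.exp (1 / r * f ω)) +
            ENNReal.ofReal (Real.exp (-(1 / r) * f ω))) ∂P := by
          refine lintegral_mono fun ω => ?_
          rw [← ENNReal.ofReal_add (Real.exp_pos _).le (Real.exp_pos _).le,
            ← ENNReal.ofReal_mul (by positivity)]
          exact ENNReal.ofReal_le_ofReal (hpt ω)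
      _ = ENNReal.ofReal (2 * V) * (∫⁻ ω, ENNReal.ofReal (Real.exp (1 / r * f ω)) ∂P +
            ∫⁻ ω, ENNReal.ofReal (Real.exp (-(1 / r) * f ω)) ∂P) := by
          rw [lintegral_const_mul' _ _ ENNReal.ofReal_ne_top, lintegral_add_left']
          exact (Real.measurable_exp.comp_aemeasurable
            (hf.1.aemeasurable.const_mul _)).ennreal_ofReal
      _ ≤ ENNReal.ofReal (2 * V) * (ENNReal.ofReal 2 + ENNReal.ofReal 2) := by
          gcongr
      _ = ENNReal.ofReal (8 * V) := by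
          rw [← ENNReal.ofReal_add (by norm_num) (by norm_num), ← ENNReal.ofReal_mul (by positivity)]
          congr 1; ring
  have hint : Integrable (fun ω => f ω ^ 2) P := hf.integrable_sq
  rw [← ofReal_integral_eq_lintegral_ofReal hint (Eventually.of_forall fun ω => sq_nonneg _)] at hl
  exact (ENNReal.ofReal_le_ofReal_iff (by positivity)).1 hl

section

variable (W : BS)

/-- the clock of the force at damping `1` -/
def V1 (D : ℝ → ℝ) (t : ℝ) : ℝ := ∫ s in (0 : ℝ)..t, 1 / (1 + D s) ^ 2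

lemma V1_cont {D : ℝ → ℝ} (h : Adm 0 D) : ContinuousOn (fun s => 1 / (1 + D s) ^ 2) (Icc 0 1) := by
  refine continuousOn_const.div ((continuousOn_const.add h.prof.cont).pow 2) fun t ht => ?_
  have := h.prof.nonneg ht
  positivity

lemma V1_int {D : ℝ → ℝ} (h : Adm 0 D) {s t : ℝ} (hs : 0 ≤ s) (hst : s ≤ t) (ht : t ≤ 1) :
    IntervalIntegrable (fun s => 1 / (1 + D s) ^ 2) volume s t :=
  ((V1_cont h).mono (Icc_subset_Icc hs ht)).intervalIntegrable_of_Icc hst

lemma V1_sub {D : ℝ → ℝ} (h : Adm 0 D) {s t : ℝ} (hs : 0 ≤ s) (hst : s ≤ t) (ht : t ≤ 1) :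
    V1 D t - V1 D s = ∫ r in s..t, 1 / (1 + D r) ^ 2 := by
  unfold V1
  rw [intervalIntegral.integral_interval_sub_left (V1_int h le_rfl (hs.trans hst) ht)
    (V1_int h le_rfl hs (hst.trans ht))]

lemma V1_ge {D : ℝ → ℝ} (h : Adm 0 D) {s t : ℝ} (hs : 0 ≤ s) (hst : s ≤ t) (ht : t < 1) :
    (t - s) * (1 + D s)⁻¹ ^ 2 ≤ V1 D t - V1 D s := by
  rw [V1_sub h hs hst ht.le]
  have h1 : ∫ _ in s..t, (1 + D s)⁻¹ ^ 2 ≤ ∫ r in s..t, 1 / (1 + D r) ^ 2 := by
    refine intervalIntegral.integral_mono_on hst intervalIntegrable_const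
      (V1_int h hs hst ht.le) fun r hr => ?_
    have h2 := h.prof.anti ⟨hs, hst.trans ht.le⟩ ⟨hs.trans hr.1, hr.2.trans ht.le⟩ hr.1
    have h3 := h.prof.nonneg (t := r) ⟨hs.trans hr.1, hr.2.trans ht.le⟩
    rw [inv_pow, ← one_div]
    apply one_div_le_one_div_of_le (by positivity)
    nlinarith
  rwa [intervalIntegral.integral_const, smul_eq_mul] at h1

lemma V1_contOn {D : ℝ → ℝ} (h : Adm 0 D) : ContinuousOn (V1 D) (Icc 0 1) := by
  have h1 := intervalIntegral.continuousOn_primitive_interval (μ := volume) (a := 0) (b := 1)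
    (f := fun s => 1 / (1 + D s) ^ 2) (by
      rw [uIcc_of_le zero_le_one]
      exact (V1_cont h).integrableOn_Icc)
  rwa [uIcc_of_le zero_le_one] at h1

lemma V1_sub_le {D : ℝ → ℝ} (h : Adm 0 D) {s t : ℝ} (hs : 0 ≤ s) (hst : s ≤ t) (ht : t ≤ 1) :
    V1 D t - V1 D s ≤ t - s := by
  rw [V1_sub h hs hst ht]
  have h1 : ∫ r in s..t, 1 / (1 + D r) ^ 2 ≤ ∫ _ in s..t, (1 : ℝ) := by
    refine intervalIntegral.integral_mono_on hst (V1_int h hs hst ht) intervalIntegrable_const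
      fun r hr => ?_
    have h3 := h.prof.nonneg (t := r) ⟨hs.trans hr.1, hr.2.trans ht⟩
    rw [div_le_one (by positivity)]
    nlinarith
  rwa [intervalIntegral.integral_const, smul_eq_mul, mul_one] at h1

lemma V1_sub_pos {D : ℝ → ℝ} (h : Adm 0 D) {s t : ℝ} (hs : 0 ≤ s) (hst : s < t) (ht : t ≤ 1) :
    0 < V1 D t - V1 D s := by
  rw [V1_sub h hs hst.le ht]
  refine intervalIntegral.intervalIntegral_pos_of_pos_on (V1_int h hs hst.le ht) (fun r hr => ?_) hst
  have h3 := h.prof.nonneg (t := r) ⟨hs.trans hr.1.le, hr.2.le.trans ht⟩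
  positivity

/-- the force of a minimiser at damping `1` -/
theorem subG_one {W : BS} (h : EMG W) {α : ℝ} (hα : 0 < α) {x : HW W} {D : ℝ → ℝ}
    (hm : IsMinW W α 1 0 x D) (hne : x ≠ 0) {s : ℝ} (hs : 0 ≤ s) (hs1 : s ≤ 1) (θ : ℝ) :
    ∫⁻ ω, ENNReal.ofReal (Real.exp (θ * ((MW W).J x ω - (MW W).J ((RW W).P s x) ω))) ∂W.P ≤
      ENNReal.ofReal (Real.exp (θ ^ 2 * (V1 D 1 - V1 D s) / 2)) := by
  have L := lcp_of_min W hα hm hne
  obtain ⟨-, h2⟩ := h 1 x D zero_le_one L hm.adm.prof.pos hm.adm.prof.one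
  have h3 := h2 (V1 D) (fun s t a b c => V1_ge hm.adm a b c) (V1_contOn hm.adm) s 1 hs hs1 le_rfl θ
    univ MeasurableSet.univ
  rw [Measure.restrict_univ, measure_univ, mul_one, (RW W).one] at h3
  exact h3

theorem eml0 (h : EMG W) : EML0 W := by
  intro α hα x D hm hne θ
  have h1 := subG_one h hα hm hne le_rfl zero_le_one θ
  have e : V1 D 1 - V1 D 0 = ∫ t in (0 : ℝ)..1, 1 / (1 + D t) ^ 2 := by
    unfold V1; simp
  rwa [e] at h1

theorem flim (h : EMG W) : FLIM W := FLim_491.flim W (eml0 W h)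

theorem lipz (h : EMG W) : LIPZ W := by
  intro α hα x D hm
  by_cases hne : x = 0
  · refine ⟨0, fun t _ => ?_⟩
    rw [hne]; simp
  refine ⟨8, fun t ht => ?_⟩
  have h1 := moment2_of_exp (f := fun ω => (MW W).J x ω - (MW W).J ((RW W).P t x) ω)
    (((MW W).memLp x).sub ((MW W).memLp ((RW W).P t x))) (V1_sub_pos hm.adm ht.1 ht.2 le_rfl)
    (fun θ => subG_one h hα hm hne ht.1 ht.2.le θ)
  have h2 : ∫ ω, ((MW W).J x ω - (MW W).J ((RW W).P t x) ω) ^ 2 ∂W.P =
      ‖x - (RW W).P t x‖ ^ 2 := by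
    rw [← (MW W).norm_sq]
    refine integral_congr_ae ?_
    filter_upwards [(MW W).sub x ((RW W).P t x)] with ω h3
    rw [h3]
  rw [h2] at h1
  have h3 := V1_sub_le hm.adm ht.1 ht.2.le le_rfl
  linarith

end

end

end Crest.Agent.R146.LipG_491
end

-- ▼ part R146/Emg_288

/-!
Row 146, package P5 (helper288, glue only): `LipG_491.EMG W` for every `W`, from the theorems
`lcp_gap`, `lcp_force` of helper861; hence `EMW`, `EML0`, `FLIM`, `LEVC`, `LEVD` of helper4/491.
-/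

set_option autoImplicit false

namespace Crest.Agent.R146.Emg_288

open Set Filter Topology MeasureTheory ProbabilityTheory Crest.ProbabilityR.Perceptron
open Crest.Agent.R146.P34_734 Crest.Agent.R146.P5Def_12 Crest.Agent.R146.JamAsm_576
open Crest.Agent.R146.DualG_256
open scoped NNReal

theorem emg (W : BS) : LipG_491.EMG W := by
  intro c x D hc L hpos h1
  have hB := W.br.toIsPreBrownianReal
  have hξ := modelB_xi W.meas W.br 1
  have hprob : IsProbabilityMeasure W.P := inferInstance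
  refine ⟨?_, fun V hV hcont => ?_⟩
  · intro s u hs hsu hu μ C hC
    have hu0 := hs.trans hsu
    have h := LipG_861.lcp_gap hB hξ L (by linarith) (s := s.toNNReal) (u := u.toNNReal)
      (Real.toNNReal_le_toNNReal hsu) (Real.toNNReal_le_one.2 hu) (A := C) hC μ
    rw [Real.coe_toNNReal _ hs, Real.coe_toNNReal _ hu0] at h
    exact h
  · intro s u hs hsu hu μ C hC
    have hu0 := hs.trans hsu
    have h := LipG_861.lcp_force hB hξ L (by linarith) (fun t ht => by
        have := hpos t ht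
        linarith) (s := s.toNNReal) (u := u.toNNReal)
      (Real.toNNReal_le_toNNReal hsu) (Real.toNNReal_le_one.2 hu) (V := V) ?_ (A := C) hC μ
    · rw [Real.coe_toNNReal _ hs, Real.coe_toNNReal _ hu0] at h
      exact h
    · intro a b ha hab hb
      rw [Real.coe_toNNReal _ hs] at ha
      rw [Real.coe_toNNReal _ hu0] at hb
      have ha0 : 0 ≤ a := hs.trans ha
      have hb1 : b ≤ 1 := hb.trans hu
      have key : ∀ t, a ≤ t → t < 1 → (t - a) / (D a + c) ^ 2 ≤ V t - V a := fun t hat ht => by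
        have := hV a t ha0 hat ht
        rwa [add_comm c, inv_pow, ← div_eq_mul_inv] at this
      rcases hb1.lt_or_eq with hb1 | hb1
      · exact key b hab hb1
      · subst hb1
        rcases hab.lt_or_eq with hab | hab
        · have hc1 : Tendsto V (𝓝[Ioo a 1] 1) (𝓝 (V 1)) :=
            (hcont 1 ⟨zero_le_one, le_rfl⟩).mono_left
              (nhdsWithin_mono _ fun t ht => ⟨ha0.trans ht.1.le, ht.2.le⟩)
          have hne : (𝓝[Ioo a 1] (1 : ℝ)).NeBot := by
            rw [nhdsWithin_Ioo_eq_nhdsLT hab]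
            infer_instance
          have hc2 : Tendsto (fun t : ℝ => (t - a) / (D a + c) ^ 2) (𝓝[Ioo a 1] 1)
              (𝓝 ((1 - a) / (D a + c) ^ 2)) :=
            ((continuous_id.sub continuous_const).div_const _).continuousAt.continuousWithinAt
          refine le_of_tendsto_of_tendsto hc2 (hc1.sub_const _) ?_
          filter_upwards [self_mem_nhdsWithin] with t ht
          exact key t ht.1.le ht.2
        · subst hab
          simp

theorem emw (W : BS) : LevF_4.EMW W := LipG_491.emw W (emg W)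

theorem eml0 (W : BS) : FLim_491.EML0 W := LipG_491.eml0 W (emg W)

theorem flim (W : BS) : FLIM W := FLim_491.flim W (eml0 W)

theorem levc (W : BS) : LEVC W := LevF_4.levc (emw W)

theorem levd (W : BS) : LEVD W := LevF_4.levd (emw W)

end Crest.Agent.R146.Emg_288
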