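import Crest.Agent.R146.Stat7_307

-- ▼ part R146/Fix_181
section

/-!
# Row 146: uniqueness and closedness of the stationary family

* `W_eq`, `lam_eq` : for one `c`, the profile `W` and the eigenvalue `lam` of an `SPair` are unique;
* `isStat_closed` : the set of `(ν, lam)` of stationary pairs is closed in `0 < ν < 1/2`;
* `spair_of_isStat` : scaling (proof of `Stat7_307.exists_spair`);
* `closed` : limits of `SPair`s (in `c` and `lam`) are `SPair`s.
-/

set_option autoImplicit false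

namespace Crest.Agent.R146.Fix_181

open Set Filter Topology Metric
open Stat1_307 Stat2_307 Stat3_307 Stat4_307 Stat5_307 Stat6_307 Stat7_307 SPair_307
open scoped NNReal

/-! ## uniqueness of the profile -/

section uniq

variable {c : ℝ} {W V I k W2 V2 I2 k2 : ℝ → ℝ} {lam lam2 : ℝ}

lemma W_le_of (h : SPair c W V I k lam) (h2 : SPair c W2 V2 I2 k2 lam2) (x0 : ℝ) :
    W x0 ≤ W2 x0 := by
  by_contra hcon
  push Not at hcon
  set e : ℝ → ℝ := fun x => W x - W2 x with he
  have he0 : 0 < e x0 := sub_pos.2 hcon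
  have hcont : Continuous e := h.cW.sub h2.cW
  have hbot : Tendsto e atBot (𝓝 0) := by
    simpa using (tendsto_W h).sub (tendsto_W h2)
  have htop : Tendsto e atTop (𝓝 0) := by
    have h3 := (tendsto_U h).sub (tendsto_U h2)
    rw [sub_self] at h3
    refine h3.congr fun x => ?_
    simp only [he]
    ring
  have hev : ∀ᶠ x in cocompact ℝ, e x ≤ e x0 := by
    rw [cocompact_eq_atBot_atTop]
    exact eventually_sup.2 ⟨(hbot.eventually_lt_const he0).mono fun x hx => hx.le,
      (htop.eventually_lt_const he0).mono fun x hx => hx.le⟩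
  obtain ⟨x1, hx1⟩ := hcont.exists_forall_ge' x0 hev
  have hpos : 0 < e x1 := he0.trans_le (hx1 x0)
  obtain ⟨hd, hdd⟩ := second_deriv_nonpos (g := e) (g1 := fun x => V x - V2 x)
    (g2 := I x1 - I2 x1) (x := x1) (a := x1 - 1) (b := x1 + 1) ⟨by linarith, by linarith⟩
    (fun t _ => (h.dW t).sub (h2.dW t)) ((h.dV x1).sub (h2.dV x1)) (fun t _ => hx1 t)
  have hVV : V2 x1 = V x1 := by linarith
  have h5 : I x1 - I2 x1 = (1 + c - 2 * c * V x1) * e x1 := by
    rw [h.eqI, h2.eqI, hVV]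
    simp only [he, Ad]
    ring
  rw [h5] at hdd
  have h6 := h.V_lt x1
  have h7 := h.c_pos
  have h8 := h.c_lt
  have h9 : 0 < 1 + c - 2 * c * V x1 := by nlinarith
  have := mul_pos h9 hpos
  linarith

/-- The profile is unique. -/
theorem W_eq (h : SPair c W V I k lam) (h2 : SPair c W2 V2 I2 k2 lam2) : W = W2 :=
  funext fun x => le_antisymm (W_le_of h h2 x) (W_le_of h2 h x)

theorem V_eq (h : SPair c W V I k lam) (h2 : SPair c W2 V2 I2 k2 lam2) : V = V2 := by
  funext x
  have h3 := h.dW x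
  rw [W_eq h h2] at h3
  exact h3.unique (h2.dW x)

/-- no jump up of the eigenvalue -/
lemma lam_le_of (h : SPair c W V I k lam) (h2 : SPair c W2 V2 I2 k2 lam2) : lam2 ≤ lam := by
  by_contra hcon
  push Not at hcon
  have hW := W_eq h h2
  have hV := V_eq h h2
  set D : ℝ := 2 * (lam2 - lam) with hD
  have hD0 : 0 < D := by rw [hD]; linarith
  set d : ℝ → ℝ := fun x => k2 x - k x with hd
  set a : ℝ → ℝ := fun x => k2 x + k x + 2 * Ad c W x with ha
  have hder : ∀ x, HasDerivAt d (a x * d x + D) x := by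
    intro x
    have h3 := (h2.dk x).sub (h.dk x)
    refine h3.congr_deriv ?_
    rw [← hW, ← hV]
    simp only [ha, hd, hD]
    ring
  have hac : Continuous a := by
    have h3 : Continuous (Ad c W) := continuous_iff_continuousAt.2 fun x => (h.dA x).continuousAt
    exact (h2.ck.add h.ck).add (h3.const_mul 2 |> fun h => by simpa using h)
  -- integrating factor
  obtain ⟨m, hm0, hm⟩ : ∃ m : ℝ → ℝ, (∀ t, 0 < m t) ∧ ∀ t, HasDerivAt m (-(m t * a t)) t := by
    refine ⟨fun t => Real.exp (-∫ r in (0 : ℝ)..t, a r), fun t => Real.exp_pos _, fun t => ?_⟩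
    have h1 := (hac.integral_hasStrictDerivAt 0 t).hasDerivAt
    refine h1.neg.exp.congr_deriv ?_
    show Real.exp (-∫ r in (0 : ℝ)..t, a r) * -(a t) = -(Real.exp (-∫ r in (0 : ℝ)..t, a r) * a t)
    ring
  have hmono : StrictMono fun t => m t * d t := by
    apply strictMono_of_deriv_pos
    intro t
    have hdd : deriv (fun t => m t * d t) t = -(m t * a t) * d t + m t * (a t * d t + D) :=
      ((hm t).mul (hder t)).deriv
    rw [hdd]
    have := mul_pos (hm0 t) hD0
    linarith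
  obtain ⟨C1, hC1⟩ := h.k_bdd
  obtain ⟨C2, hC2⟩ := h2.k_bdd
  have hC1' : 0 < C1 := (h.k_pos 0).trans_le (hC1 0)
  have hC2' : 0 < C2 := (h2.k_pos 0).trans_le (hC2 0)
  -- right side
  have hR : d 0 < 0 := by
    by_contra hc
    push Not at hc
    have hpos : ∀ x, 0 ≤ x → 0 ≤ d x := by
      intro x hx
      have h3 : m 0 * d 0 ≤ m x * d x := hmono.monotone hx
      have h4 : 0 ≤ m 0 * d 0 := mul_nonneg (hm0 0).le hc
      by_contra h5
      push Not at h5
      have := mul_neg_of_pos_of_neg (hm0 x) h5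
      linarith
    have hlin : MonotoneOn (fun x => d x - D * x) (Ici 0) := by
      apply monotoneOn_of_deriv_nonneg (convex_Ici 0)
      · exact fun t _ => ((hder t).sub ((hasDerivAt_id t).const_mul D)).continuousAt.continuousWithinAt
      · exact fun t _ =>
          ((hder t).sub ((hasDerivAt_id t).const_mul D)).differentiableAt.differentiableWithinAt
      · intro t ht
        rw [interior_Ici] at ht
        have ht' : 0 < t := ht
        have hdd : deriv (fun x => d x - D * x) t = a t * d t + D - D * 1 :=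
          ((hder t).sub ((hasDerivAt_id t).const_mul D)).deriv
        rw [hdd]
        have h3 : 0 ≤ a t := by
          have h4 := h.k_pos t
          have h5 := h2.k_pos t
          have h6 := h.U_pos t
          have h7 := h.c_pos
          simp only [ha, Ad]
          have h8 : 0 < (1 + c) / 2 * t := by positivity
          have h9 : 0 < c * (W t - t) := mul_pos h7 (by linarith)
          linarith
        have := mul_nonneg h3 (hpos t ht'.le)
        linarith
    set x := (C1 + C2 + 1) / D with hx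
    have hx0 : 0 < x := by positivity
    have h3 := hlin (mem_Ici.2 le_rfl) (mem_Ici.2 hx0.le) hx0.le
    simp only [mul_zero, sub_zero] at h3
    have h4 : D * x = C1 + C2 + 1 := by rw [hx]; field_simp
    have h5 := hC2 x
    have h6 := (h.k_pos x)
    have h7 : d x ≤ C2 := by simp only [hd]; linarith
    linarith
  -- left side
  have hL : ∃ X, X < 0 ∧ 0 < d X := by
    have h7 := h.c_pos
    have h8 := h.c_lt
    have hW0 := h.W_pos 0
    set X0 : ℝ := -((C1 + C2 + 2 * c * W 0) / (1 - c)) with hX0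
    have hpos1 : 0 < (C1 + C2 + 2 * c * W 0) / (1 - c) := by
      have : 0 < 1 - c := by linarith
      positivity
    have hX0n : X0 < 0 := by rw [hX0]; linarith
    have haneg : ∀ t, t ≤ X0 → a t ≤ 0 := by
      intro t ht
      have h4 := hC1 t
      have h5 := hC2 t
      have h6 : W t ≤ W 0 := h.W_strictMono.monotone (by linarith)
      have h9 : (1 - c) * t ≤ -(C1 + C2 + 2 * c * W 0) := by
        have : (1 - c) * t ≤ (1 - c) * X0 := mul_le_mul_of_nonneg_left ht (by linarith)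
        have h10 : (1 - c) * X0 = -(C1 + C2 + 2 * c * W 0) := by
          rw [hX0, mul_neg, mul_div_cancel₀ _ (by linarith)]
        linarith
      simp only [ha, Ad]
      have h11 : c * W t ≤ c * W 0 := mul_le_mul_of_nonneg_left h6 h7.le
      nlinarith
    refine ⟨X0, hX0n, ?_⟩
    by_contra hc
    push Not at hc
    have hneg : ∀ x, x ≤ X0 → d x ≤ 0 := by
      intro x hx
      have h3 : m x * d x ≤ m X0 * d X0 := hmono.monotone hx
      have h4 : m X0 * d X0 ≤ 0 := mul_nonpos_of_nonneg_of_nonpos (hm0 X0).le hc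
      by_contra h5
      push Not at h5
      have := mul_pos (hm0 x) h5
      linarith
    have hlin : MonotoneOn (fun x => d x - D * x) (Iic X0) := by
      apply monotoneOn_of_deriv_nonneg (convex_Iic X0)
      · exact fun t _ => ((hder t).sub ((hasDerivAt_id t).const_mul D)).continuousAt.continuousWithinAt
      · exact fun t _ =>
          ((hder t).sub ((hasDerivAt_id t).const_mul D)).differentiableAt.differentiableWithinAt
      · intro t ht
        rw [interior_Iic] at ht
        have ht' : t < X0 := ht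
        have hdd : deriv (fun x => d x - D * x) t = a t * d t + D - D * 1 :=
          ((hder t).sub ((hasDerivAt_id t).const_mul D)).deriv
        rw [hdd]
        have := mul_nonneg_of_nonpos_of_nonpos (haneg t ht'.le) (hneg t ht'.le)
        linarith
    set x := X0 - (C1 + C2 + 1) / D with hx
    have hq : 0 < (C1 + C2 + 1) / D := by positivity
    have hxX : x ≤ X0 := by rw [hx]; linarith
    have h3 := hlin (mem_Iic.2 hxX) (mem_Iic.2 (le_refl X0)) hxX
    simp only at h3
    have h4 : D * x = D * X0 - (C1 + C2 + 1) := by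
      rw [hx, mul_sub, mul_div_cancel₀ _ hD0.ne']
    have h5 := hC1 x
    have h6 := (h2.k_pos x)
    have h9 : -C1 ≤ d x := by simp only [hd]; linarith
    have h10 : d X0 ≤ 0 := hc
    linarith
  obtain ⟨X, hX, hdX⟩ := hL
  have h3 := hmono hX
  have h4 := mul_pos (hm0 X) hdX
  have h5 := mul_neg_of_pos_of_neg (hm0 0) hR
  simp only at h3
  linarith

/-- The eigenvalue is unique. -/
theorem lam_eq (h : SPair c W V I k lam) (h2 : SPair c W2 V2 I2 k2 lam2) : lam = lam2 :=
  le_antisymm (lam_le_of h2 h) (lam_le_of h h2)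

end uniq

/-! ## closedness of the stationary family in `(ν, lam)` -/

/-- state space: `(ν, lam, W, W', Y)` -/
abbrev E := ℝ × ℝ × ℝ × ℝ × ℝ

/-- the vector field (the parameters `ν`, `lam` are constants of the motion) -/
def F (t : ℝ) (x : E) : E :=
  (0, 0, x.2.2.2.1, -(t + 2 * x.1 * (x.2.2.1 - t)) * x.2.2.2.1 + x.2.2.1,
    x.2.2.2.2 ^ 2 + (t + 2 * x.1 * (x.2.2.1 - t)) * x.2.2.2.2 - (1 + 2 * x.1 * (x.2.2.2.1 - 1))
      + x.2.1)

lemma contDiff_F : ContDiff ℝ 1 (fun p : ℝ × E => F p.1 p.2) := by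
  unfold F
  fun_prop

/-- the box -/
def bx (M T : ℝ) : Set E := Icc (0, 0, 0, 0, 0) (1, 1, T + 2, 1, M)

lemma bx_mono {M T T' : ℝ} (h : T ≤ T') : bx M T ⊆ bx M T' :=
  Icc_subset_Icc_right (by
    refine Prod.mk_le_mk.2 ⟨le_rfl, Prod.mk_le_mk.2 ⟨le_rfl, Prod.mk_le_mk.2 ⟨by linarith, le_rfl⟩⟩⟩)

lemma mem_bx {M T : ℝ} {x : E} : x ∈ bx M T ↔ (0 ≤ x.1 ∧ x.1 ≤ 1) ∧ (0 ≤ x.2.1 ∧ x.2.1 ≤ 1) ∧
    (0 ≤ x.2.2.1 ∧ x.2.2.1 ≤ T + 2) ∧ (0 ≤ x.2.2.2.1 ∧ x.2.2.2.1 ≤ 1) ∧
    (0 ≤ x.2.2.2.2 ∧ x.2.2.2.2 ≤ M) := by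
  unfold bx
  rw [mem_Icc]
  simp only [Prod.le_def]
  tauto

lemma lip_F (M : ℝ) (N : ℕ) : ∃ K : ℝ≥0, ∀ t ∈ Ioo (-(N : ℝ)) N,
    LipschitzOnWith K (F t) (bx M |t|) := by
  have hc : IsCompact (Icc (-(N : ℝ)) N ×ˢ bx M N) := isCompact_Icc.prod isCompact_Icc
  have hconv : Convex ℝ (Icc (-(N : ℝ)) N ×ˢ bx M N) := (convex_Icc _ _).prod (convex_Icc _ _)
  obtain ⟨K, hK⟩ := contDiff_F.contDiffOn.exists_lipschitzOnWith one_ne_zero hconv hc
  refine ⟨K, fun t ht => ?_⟩
  have htN : |t| ≤ N := (abs_lt.2 ⟨ht.1, ht.2⟩).le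
  intro x hx y hy
  have hx' : (t, x) ∈ Icc (-(N : ℝ)) N ×ˢ bx M N := ⟨⟨ht.1.le, ht.2.le⟩, bx_mono htN hx⟩
  have hy' : (t, y) ∈ Icc (-(N : ℝ)) N ×ˢ bx M N := ⟨⟨ht.1.le, ht.2.le⟩, bx_mono htN hy⟩
  have h1 := hK hx' hy'
  simpa [Prod.edist_eq] using h1

lemma hd_fst {A B : Type*} [NormedAddCommGroup A] [NormedSpace ℝ A] [NormedAddCommGroup B]
    [NormedSpace ℝ B] {w : ℝ → A × B} {w' : A × B} {t : ℝ} (h : HasDerivAt w w' t) :
    HasDerivAt (fun t => (w t).1) w'.1 t :=
  (ContinuousLinearMap.fst ℝ A B).hasFDerivAt.comp_hasDerivAt t h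

lemma hd_snd {A B : Type*} [NormedAddCommGroup A] [NormedSpace ℝ A] [NormedAddCommGroup B]
    [NormedSpace ℝ B] {w : ℝ → A × B} {w' : A × B} {t : ℝ} (h : HasDerivAt w w' t) :
    HasDerivAt (fun t => (w t).2) w'.2 t :=
  (ContinuousLinearMap.snd ℝ A B).hasFDerivAt.comp_hasDerivAt t h

section closed

variable {ν l : ℝ} {νn ln : ℕ → ℝ} {Wn W1n Yn : ℕ → ℝ → ℝ}

lemma tendsto_Wp {νn : ℕ → ℝ} (hν : ν < 1 / 2) (hn : Tendsto νn atTop (𝓝 ν)) (t : ℝ) :
    Tendsto (fun n => Wp (νn n) t) atTop (𝓝 (Wp ν t)) := by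
  unfold Wp rr
  have h1 : (1 : ℝ) - ν ≠ 0 := by linarith
  refine Tendsto.div_const (tendsto_const_nhds.add ?_) 2
  refine (Real.continuous_sqrt.tendsto _).comp ?_
  exact tendsto_const_nhds.add (tendsto_const_nhds.div (tendsto_const_nhds.sub hn) h1)

lemma tendsto_aC (hn : Tendsto νn atTop (𝓝 ν)) :
    Tendsto (fun n => aC (νn n)) atTop (𝓝 (aC ν)) := by
  unfold aC
  exact tendsto_const_nhds.sub (hn.const_mul 2)

lemma tendsto_MC (hν : ν < 1 / 2) (hn : Tendsto νn atTop (𝓝 ν)) :
    Tendsto (fun n => MC (νn n)) atTop (𝓝 (MC ν)) := by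
  unfold MC
  exact tendsto_const_nhds.div (tendsto_const_nhds.sub (hn.const_mul 2)) (by linarith)

lemma tendsto_ZC (hν : ν < 1 / 2) (hn : Tendsto νn atTop (𝓝 ν)) :
    Tendsto (fun n => ZC (νn n)) atTop (𝓝 (ZC ν)) := by
  unfold ZC
  exact (((tendsto_MC hν hn).const_mul 2).add_const 1).div
    (tendsto_const_nhds.sub (hn.const_mul 2)) (by linarith)

/-- **Closedness of the stationary family.** -/
theorem isStat_closed (hν0 : 0 < ν) (hν : ν < 1 / 2)
    (h : ∀ n, IsStat (νn n) (Wn n) (W1n n) (ln n) (Yn n))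
    (hn : Tendsto νn atTop (𝓝 ν)) (hl : Tendsto ln atTop (𝓝 l)) :
    ∃ W W1 Y : ℝ → ℝ, IsStat ν W W1 l Y := by
  -- uniform bound
  have hev : ∀ᶠ n in atTop, MC (νn n) ≤ MC ν + 1 := by
    have := (tendsto_MC hν hn).eventually_lt_const (show MC ν < MC ν + 1 by linarith)
    exact this.mono fun n hn => hn.le
  obtain ⟨n0, hn0⟩ := eventually_atTop.1 hev
  set M := MC ν + 1 with hM
  have hM0 : 0 < M := by
    have : 0 < MC ν := by unfold MC; apply one_div_pos.2; linarith
    linarith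
  set y : ℕ → ℝ → E := fun n t =>
    (νn (n + n0), ln (n + n0), Wn (n + n0) t, W1n (n + n0) t, Yn (n + n0) t) with hy
  have hmem : ∀ n t, y n t ∈ bx M |t| := by
    intro n t
    have hs := h (n + n0)
    rw [mem_bx]
    refine ⟨⟨hs.pos.le, by linarith [hs.lt]⟩, ⟨?_, hs.lam_le⟩, ⟨hs.prof.nonneg t, ?_⟩,
      ⟨hs.prof.p_nonneg t, hs.prof.p_le t⟩, hs.Y_nonneg t, ?_⟩
    · exact le_trans (by linarith [hs.lt]) hs.lam_ge
    · exact (hs.prof.W_le t).trans (Wp_lt hs.lt (le_refl |t|)).le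
    · exact (hs.Y_le_M t).trans (hn0 (n + n0) (by omega))
  have hder : ∀ n t, HasDerivAt (y n) (F t (y n t)) t := by
    intro n t
    have hs := h (n + n0)
    exact (hasDerivAt_const t (νn (n + n0))).prodMk ((hasDerivAt_const t (ln (n + n0))).prodMk
      ((hs.prof.d0 t).prodMk ((hs.prof.d1 t).prodMk (hs.dY t))))
  obtain ⟨w, hw, φ, hφ, hlim⟩ := exists_limit (f := F) (s := fun t => bx M |t|)
    (fun t => isClosed_Icc) isCompact_Icc (fun N => lip_F M N)
    (y := y) (fun n t _ => ⟨hder n t, hmem n t⟩)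
  have hφt : Tendsto (fun n => φ n + n0) atTop atTop :=
    tendsto_atTop_mono (fun n => Nat.le_add_right _ _) hφ.tendsto_atTop
  have hnφ := hn.comp hφt
  have hlφ := hl.comp hφt
  -- components
  have l1 : ∀ t, (w t).1 = ν := fun t =>
    tendsto_nhds_unique ((continuous_fst.tendsto _).comp (hlim t)) hnφ
  have l2 : ∀ t, (w t).2.1 = l := fun t =>
    tendsto_nhds_unique (((continuous_fst.comp continuous_snd).tendsto _).comp (hlim t)) hlφ
  have l3 : ∀ t, Tendsto (fun n => Wn (φ n + n0) t) atTop (𝓝 (w t).2.2.1) := fun t =>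
    ((continuous_fst.comp (continuous_snd.comp continuous_snd)).tendsto _).comp (hlim t)
  have l4 : ∀ t, Tendsto (fun n => W1n (φ n + n0) t) atTop (𝓝 (w t).2.2.2.1) := fun t =>
    ((continuous_fst.comp (continuous_snd.comp (continuous_snd.comp continuous_snd))).tendsto
      _).comp (hlim t)
  have l5 : ∀ t, Tendsto (fun n => Yn (φ n + n0) t) atTop (𝓝 (w t).2.2.2.2) := fun t =>
    ((continuous_snd.comp (continuous_snd.comp (continuous_snd.comp continuous_snd))).tendsto
      _).comp (hlim t)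
  have d : ∀ t, HasDerivAt w (F t (w t)) t := fun t => (hw t).1
  have dd2 : ∀ t, HasDerivAt (fun t => (w t).2) (F t (w t)).2 t := fun t => hd_snd (d t)
  have dd3 : ∀ t, HasDerivAt (fun t => (w t).2.2) (F t (w t)).2.2 t := fun t => hd_snd (dd2 t)
  have dd4 : ∀ t, HasDerivAt (fun t => (w t).2.2.2) (F t (w t)).2.2.2 t := fun t =>
    hd_snd (dd3 t)
  have dW : ∀ t, HasDerivAt (fun t => (w t).2.2.1) (F t (w t)).2.2.1 t := fun t => hd_fst (dd3 t)
  have dW1 : ∀ t, HasDerivAt (fun t => (w t).2.2.2.1) (F t (w t)).2.2.2.1 t := fun t =>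
    hd_fst (dd4 t)
  have dY : ∀ t, HasDerivAt (fun t => (w t).2.2.2.2) (F t (w t)).2.2.2.2 t := fun t =>
    hd_snd (dd4 t)
  have hb := fun t => mem_bx.1 (hw t).2
  set W : ℝ → ℝ := fun t => (w t).2.2.1 with hW
  set W1 : ℝ → ℝ := fun t => (w t).2.2.2.1 with hW1
  set Y : ℝ → ℝ := fun t => (w t).2.2.2.2 with hY
  have hprof : IsProf ν W W1 := by
    refine ⟨dW, fun t => ?_, fun t => (hb t).2.2.1.1, fun t => ?_, fun t => ?_,
      fun t => (hb t).2.2.2.1.1, fun t => (hb t).2.2.2.1.2⟩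
    · refine (dW1 t).congr_deriv ?_
      show -(t + 2 * (w t).1 * ((w t).2.2.1 - t)) * (w t).2.2.2.1 + (w t).2.2.1 = _
      rw [l1]
    · exact ge_of_tendsto (l3 t) (Eventually.of_forall fun n => (h _).prof.le_W t)
    · exact le_of_tendsto_of_tendsto (l3 t) (tendsto_Wp hν hnφ t)
        (Eventually.of_forall fun n => (h _).prof.W_le t)
  have hY0 : ∀ t, 0 ≤ Y t := fun t => (hb t).2.2.2.2.1
  have hYc : Continuous Y := continuous_iff_continuousAt.2 fun t => (dY t).continuousAt
  have hYM : ∀ t, Y t ≤ MC ν := fun t =>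
    le_of_tendsto_of_tendsto (l5 t) (tendsto_MC hν hnφ)
      (Eventually.of_forall fun n => (h _).Y_le_M t)
  have ha0 : 0 < aC ν := by unfold aC; linarith
  have hZ0 : 0 < ZC ν := by
    have : 0 < MC ν := by unfold MC; apply one_div_pos.2; linarith
    have h3 : 0 < 1 - 2 * ν := by linarith
    unfold ZC
    positivity
  have hleft : ∀ t, t < -ZC ν → Y t ≤ (2 / aC ν + 1) / (-t) := by
    intro t ht
    have h1 : Tendsto (fun n => (2 / aC (νn (φ n + n0)) + 1) / (-t)) atTop
        (𝓝 ((2 / aC ν + 1) / (-t))) :=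
      ((tendsto_const_nhds.div (tendsto_aC hnφ) ha0.ne').add_const 1).div_const _
    refine le_of_tendsto_of_tendsto (l5 t) h1 ?_
    have h2 : ∀ᶠ n in atTop, ZC (νn (φ n + n0)) < -t :=
      (tendsto_ZC hν hnφ).eventually_lt_const (by linarith)
    filter_upwards [h2] with n hn2
    have h3 := (h (φ n + n0)).Y_le t
    unfold bd at h3
    rw [if_pos (by linarith)] at h3
    exact h3.trans (min_le_right _ _)
  refine ⟨W, W1, Y, hν0, hν, hprof, fun t => ?_, hY0, fun t => ?_, ?_, ?_⟩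
  · refine (dY t).congr_deriv ?_
    show (w t).2.2.2.2 ^ 2 + (t + 2 * (w t).1 * ((w t).2.2.1 - t)) * (w t).2.2.2.2
      - (1 + 2 * (w t).1 * ((w t).2.2.2.1 - 1)) + (w t).2.1 = _
    rw [l1, l2]
    rfl
  · unfold bd
    split_ifs with h1 h2
    · refine le_min (hYM t) ?_
      rcases eq_or_lt_of_le h1 with h3 | h3
      · have hcont : Tendsto (fun s => (2 / aC ν + 1) / (-s)) (𝓝[<] t)
            (𝓝 ((2 / aC ν + 1) / (-t))) := by
          have : ContinuousAt (fun s : ℝ => (2 / aC ν + 1) / (-s)) t :=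
            continuousAt_const.div continuousAt_neg (by linarith)
          exact this.tendsto.mono_left nhdsWithin_le_nhds
        refine le_of_tendsto_of_tendsto (hYc.continuousAt.tendsto.mono_left nhdsWithin_le_nhds)
          hcont ?_
        filter_upwards [self_mem_nhdsWithin] with s hs
        exact hleft s (by rw [← h3]; exact hs)
      · exact hleft t h3
    · refine le_min (hYM t) ?_
      have h3 : Tendsto (fun n => (MC (νn (φ n + n0)) + 1) / t) atTop (𝓝 ((MC ν + 1) / t)) :=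
        ((tendsto_MC hν hnφ).add_const 1).div_const _
      refine le_of_tendsto_of_tendsto (l5 t) h3 (Eventually.of_forall fun n => ?_)
      have h4 := (h (φ n + n0)).Y_le t
      have h5 := (drift (h (φ n + n0)).pos (h (φ n + n0)).lt (h (φ n + n0)).prof).Z_pos
      unfold bd at h4
      rw [if_neg (by linarith), if_pos h2] at h4
      exact h4.trans (min_le_right _ _)
    · exact hYM t
  · exact le_of_tendsto_of_tendsto (tendsto_const_nhds.sub (hnφ.const_mul 2)) hlφ
      (Eventually.of_forall fun n => (h _).lam_ge)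
  · exact le_of_tendsto hlφ (Eventually.of_forall fun n => (h _).lam_le)

end closed

/-! ## from `IsStat` to `SPair` and closedness of the pairs -/

/-- scaling: the stationary pair of `Stat6_307` in the clock `χ = D K₀` (proof of
`Stat7_307.exists_spair`). -/
theorem spair_of_isStat {c lamo : ℝ} {Wo W1o Yo : ℝ → ℝ} (hc0 : 0 < c) (hc1 : c < 1)
    (h : IsStat (c / (1 + c)) Wo W1o lamo Yo) :
    ∃ W V I k : ℝ → ℝ, SPair c W V I k ((1 + c) / 2 * lamo) := by
  set ν := c / (1 + c) with hν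
  have h1c : 0 < 1 + c := by linarith
  have hν0 : 0 < ν := by positivity
  have hν1 : ν < 1 / 2 := by rw [hν, div_lt_div_iff₀ h1c (by norm_num)]; linarith
  set s := Real.sqrt (1 + c) with hs
  have hs0 : 0 < s := Real.sqrt_pos.2 h1c
  have hss : s ^ 2 = 1 + c := Real.sq_sqrt h1c.le
  have hνc : ν * (1 + c) = c := by rw [hν]; field_simp
  have hνs : ν * s ^ 2 = c := by rw [hss, hνc]
  have hk1 : 1 / (1 - ν) = s ^ 2 := by
    rw [hss, hν]
    field_simp
    ring
  have hWm : StrictMono Wo := strictMono_of_deriv_pos fun t => by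
    rw [(h.prof.d0 t).deriv]; exact h.prof.p_pos hν0 hν1 t
  have hUm : StrictAnti fun t => Wo t - t := by
    apply strictAnti_of_deriv_neg
    intro t
    have e : deriv (fun t => Wo t - t) t = W1o t - 1 :=
      ((h.prof.d0 t).sub (hasDerivAt_id t)).deriv
    rw [e]
    linarith [h.prof.p_lt hν0 hν1 t]
  have hmul : ∀ x : ℝ, HasDerivAt (fun x => s * x) s x := fun x => by
    simpa using (hasDerivAt_id x).const_mul s
  have hD := drift hν0 hν1 h.prof
  refine ⟨fun x => Wo (s * x) / s, fun x => W1o (s * x), fun x => s * W2f ν Wo W1o (s * x),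
    fun x => s * Yo (s * x), ?_⟩
  refine
    { c_pos := hc0
      c_lt := hc1
      dW := fun x => ?_
      dV := fun x => ?_
      eqI := fun x => ?_
      W_pos := fun x => ?_
      U_pos := fun x => ?_
      W_le := fun x => ?_
      V_pos := fun x => h.prof.p_pos hν0 hν1 _
      V_lt := fun x => h.prof.p_lt hν0 hν1 _
      I_pos := fun x => mul_pos hs0 (h.prof.W2_pos hν0 hν1 _)
      I_le := fun x => ?_
      dk := fun x => ?_
      k_pos := fun x => mul_pos hs0 (h.Y_pos _)
      k_bdd := ⟨s * MC ν, fun x => mul_le_mul_of_nonneg_left (h.Y_le_M _) hs0.le⟩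
      k_right := ⟨MC ν + 1, fun x hx => ?_⟩
      k_left := ⟨max (2 / aC ν + 1) (MC ν * ZC ν), fun x hx => ?_⟩
      lam_gt := ?_
      lam_lt := ?_ }
  · have h1 := ((h.prof.d0 (s * x)).comp x (hmul x)).div_const s
    refine h1.congr_deriv ?_
    field_simp
  · have h1 := (h.prof.hW1 (s * x)).comp x (hmul x)
    refine h1.congr_deriv ?_
    ring
  · simp only [W2f, Af, Ad]
    have e1 : (1 + c) * (Wo (s * x) / s) = s * Wo (s * x) := by
      rw [← hss]; field_simp
    rw [e1, ← hss, ← hνs]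
    field_simp
    ring
  · have h1 := hWm (show s * x - 1 < s * x by linarith)
    have h2 := h.prof.nonneg (s * x - 1)
    have : 0 < Wo (s * x) := by linarith
    positivity
  · have h1 := hUm (show s * x < s * x + 1 by linarith)
    have h2 := h.prof.le_W (s * x + 1)
    simp only at h1
    rw [lt_div_iff₀ hs0]
    linarith
  · have h1 := h.prof.W_le (s * x)
    have h2 : rr ν (s * x) = s * Real.sqrt (x ^ 2 + 1) := by
      rw [rr, hk1, show (s * x) ^ 2 + s ^ 2 = s ^ 2 * (x ^ 2 + 1) by ring,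
        Real.sqrt_mul (by positivity), Real.sqrt_sq hs0.le]
    rw [Wp, h2] at h1
    show Wo (s * x) / s ≤ _
    rw [div_le_iff₀ hs0]
    linarith
  · show s * W2f ν Wo W1o (s * x) ≤ (1 + c) * (Wo (s * 0) / s)
    have h1 := h.prof.W2_le hν0 hν1 (s * x)
    have e1 : (1 + c) * (Wo (s * 0) / s) = s * Wo 0 := by
      rw [mul_zero, ← hss]; field_simp
    rw [e1]
    exact mul_le_mul_of_nonneg_left h1 hs0.le
  · have h1 := ((h.dY (s * x)).comp x (hmul x)).const_mul s
    refine h1.congr_deriv ?_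
    simp only [Af, A1f, Ad, Ad1]
    have hs' : s ≠ 0 := hs0.ne'
    have e1 : s * ((Yo (s * x) ^ 2 + (s * x + 2 * ν * (Wo (s * x) - s * x)) * Yo (s * x)
        - (1 + 2 * ν * (W1o (s * x) - 1)) + lamo) * s) =
        (s * Yo (s * x)) ^ 2 + (s ^ 2 * x + 2 * (ν * s ^ 2) * (Wo (s * x) / s - x)) *
          (s * Yo (s * x)) - (s ^ 2 - 2 * (ν * s ^ 2) * (1 - W1o (s * x))) + s ^ 2 * lamo := by
      field_simp
      ring
    rw [e1, hνs, hss]
    ring
  · show s * Yo (s * x) ≤ (MC ν + 1) / x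
    have h1 := h.Y_le (s * x)
    have hsx : 0 < s * x := mul_pos hs0 hx
    have hZ := hD.Z_pos
    unfold bd at h1
    rw [if_neg (by linarith), if_pos hsx] at h1
    have h2 := h1.trans (min_le_right _ _)
    rw [le_div_iff₀ hsx] at h2
    rw [le_div_iff₀ hx]
    linarith
  · show s * Yo (s * x) ≤ _ / (-x)
    have hnx : 0 < -x := by linarith
    rw [le_div_iff₀ hnx]
    have hZ := hD.Z_pos
    by_cases hcase : s * x ≤ -ZC ν
    · have h1 := h.Y_le (s * x)
      unfold bd at h1
      rw [if_pos hcase] at h1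
      have h2 := h1.trans (min_le_right _ _)
      have h3 : 0 < -(s * x) := by nlinarith
      rw [le_div_iff₀ h3] at h2
      refine le_trans ?_ (le_max_left _ _)
      linarith
    · push Not at hcase
      refine le_trans ?_ (le_max_right _ _)
      have h1 := h.Y_le_M (s * x)
      have h2 := h.Y_nonneg (s * x)
      have h3 : -(s * x) ≤ ZC ν := by linarith
      have h4 : 0 ≤ -(s * x) := by nlinarith
      calc s * Yo (s * x) * -x = Yo (s * x) * (-(s * x)) := by ring
        _ ≤ MC ν * ZC ν := mul_le_mul h1 h3 h4 (h2.trans h1)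
  · have h1 := h.lt_lam
    have h2 : (1 + c) / 2 * (1 - 2 * ν) = (1 - c) / 2 := by linear_combination -hνc
    have h3 : (1 + c) / 2 * (1 - 2 * ν) < (1 + c) / 2 * lamo :=
      mul_lt_mul_of_pos_left h1 (by linarith)
    linarith
  · have h1 := h.lam_lt
    have h3 : (1 + c) / 2 * lamo < (1 + c) / 2 * 1 := mul_lt_mul_of_pos_left h1 (by linarith)
    linarith

/-- Existence with the underlying `IsStat` (used to identify `lam`). -/
theorem exists_isStat_of_spair {c lam : ℝ} {W V I k : ℝ → ℝ} (h : SPair c W V I k lam) :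
    ∃ Wo W1o Yo : ℝ → ℝ, IsStat (c / (1 + c)) Wo W1o (2 * lam / (1 + c)) Yo := by
  have hc0 := h.c_pos
  have hc1 := h.c_lt
  have h1c : 0 < 1 + c := by linarith
  have hν0 : 0 < c / (1 + c) := by positivity
  have hν1 : c / (1 + c) < 1 / 2 := by rw [div_lt_div_iff₀ h1c (by norm_num)]; linarith
  obtain ⟨Wo, W1o, lamo, Yo, ho⟩ := exists_isStat hν0 hν1
  obtain ⟨W', V', I', k', h'⟩ := spair_of_isStat hc0 hc1 ho
  have he := lam_eq h h'
  have : 2 * lam / (1 + c) = lamo := by
    rw [he]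
    field_simp
  rw [this]
  exact ⟨Wo, W1o, Yo, ho⟩

/-- **Closedness of the stationary pairs** in `(c, lam)`. -/
theorem closed {c l : ℝ} {cn ln : ℕ → ℝ} {Wn Vn In kn : ℕ → ℝ → ℝ}
    (h : ∀ n, SPair (cn n) (Wn n) (Vn n) (In n) (kn n) (ln n))
    (hc0 : 0 < c) (hc1 : c < 1) (hc : Tendsto cn atTop (𝓝 c)) (hl : Tendsto ln atTop (𝓝 l)) :
    ∃ W V I k : ℝ → ℝ, SPair c W V I k l := by
  choose Wo W1o Yo ho using fun n => exists_isStat_of_spair (h n)
  have h1c : 0 < 1 + c := by linarith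
  have hν0 : 0 < c / (1 + c) := by positivity
  have hν1 : c / (1 + c) < 1 / 2 := by rw [div_lt_div_iff₀ h1c (by norm_num)]; linarith
  have hn : Tendsto (fun n => cn n / (1 + cn n)) atTop (𝓝 (c / (1 + c))) :=
    hc.div (hc.const_add 1) h1c.ne'
  have hl' : Tendsto (fun n => 2 * ln n / (1 + cn n)) atTop (𝓝 (2 * l / (1 + c))) :=
    (hl.const_mul 2).div (hc.const_add 1) h1c.ne'
  obtain ⟨W, W1, Y, hs⟩ := isStat_closed hν0 hν1 ho hn hl'
  obtain ⟨W', V', I', k', h'⟩ := spair_of_isStat hc0 hc1 hs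
  have : (1 + c) / 2 * (2 * l / (1 + c)) = l := by field_simp
  rw [this] at h'
  exact ⟨W', V', I', k', h'⟩

/-- The eigenvalue is a continuous function of `c`: every sequence of pairs with `cn → c` has
`ln → lam`. -/
theorem tendsto_lam {c lam : ℝ} {W V I k : ℝ → ℝ} (h0 : SPair c W V I k lam) {cn ln : ℕ → ℝ}
    {Wn Vn In kn : ℕ → ℝ → ℝ} (h : ∀ n, SPair (cn n) (Wn n) (Vn n) (In n) (kn n) (ln n))
    (hc : Tendsto cn atTop (𝓝 c)) : Tendsto ln atTop (𝓝 lam) := by
  refine tendsto_of_subseq_tendsto fun ns hns => ?_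
  have hmem : ∀ n, ln (ns n) ∈ Icc (0 : ℝ) 1 := fun n => by
    have h1 := (h (ns n)).lam_gt
    have h2 := (h (ns n)).lam_lt
    have h3 := (h (ns n)).c_lt
    exact ⟨by linarith, by linarith⟩
  obtain ⟨l, -, φ, hφ, hlim⟩ := isCompact_Icc.tendsto_subseq hmem
  refine ⟨φ, ?_⟩
  obtain ⟨W', V', I', k', h'⟩ := closed (fun n => h (ns (φ n))) h0.c_pos h0.c_lt
    (hc.comp (hns.comp hφ.tendsto_atTop)) hlim
  rw [lam_eq h0 h']
  exact hlim

end Crest.Agent.R146.Fix_181
end

-- ▼ part R146/Fix2_181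

/-!
# Row 146: existence of the CLOSED stationary pair (`lam = c`)

`exists_closed : ∃ c W V I k, 1/3 < c ∧ c < 9/10 ∧ SPair c W V I k c` and
`0.2936533 < c / (1 + c) < 0.2936535` for every closed pair (`enclosure_of_closure` of helper307/109).
-/

set_option autoImplicit false

namespace Crest.Agent.R146.Fix2_181

open Set Filter Topology
open Stat7_307 SPair_307 Fix_181

variable {c lam : ℝ} {W V I k : ℝ → ℝ}

/-- `lam > c` for `c ≤ 1/3`. -/
lemma lt_lam (h : SPair c W V I k lam) (hc : c ≤ 1 / 3) : c < lam := by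
  have := h.lam_gt
  linarith

lemma W_zero_le (h : SPair c W V I k lam) : W 0 ≤ 1 / 2 := by
  have h1 := h.W_le 0
  have h2 : Real.sqrt ((0 : ℝ) ^ 2 + 1) = 1 := by norm_num
  rw [h2] at h1
  linarith

lemma V_le_half (h : SPair c W V I k lam) {x : ℝ} (hx : x ≤ -1) : V x ≤ 1 / 2 := by
  have h1 : V (-1) ≤ W 0 - W (-1) := by
    have hmono : MonotoneOn (fun t => W t - V (-1) * t) (Ici (-1)) := by
      apply monotoneOn_of_deriv_nonneg (convex_Ici _)
      · exact fun t _ => ((h.dW t).sub ((hasDerivAt_id t).const_mul _)).continuousAt.continuousWithinAt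
      · exact fun t _ =>
          ((h.dW t).sub ((hasDerivAt_id t).const_mul _)).differentiableAt.differentiableWithinAt
      · intro t ht
        rw [interior_Ici] at ht
        have ht' : -1 < t := ht
        have hdd : deriv (fun t => W t - V (-1) * t) t = V t - V (-1) * 1 :=
          ((h.dW t).sub ((hasDerivAt_id t).const_mul _)).deriv
        rw [hdd]
        have := h.V_strictMono ht'
        linarith
    have h2 := hmono (mem_Ici.2 (le_refl (-1 : ℝ))) (mem_Ici.2 (by norm_num : (-1 : ℝ) ≤ 0))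
      (by norm_num)
    simp only [mul_zero, sub_zero] at h2
    linarith
  have h2 := h.V_strictMono.monotone hx
  have h3 := W_zero_le h
  have h4 := h.W_pos (-1)
  linarith

/-- `lam < c` at `c = 9/10` (Riccati blow-up on `[-4,-1]`). -/
lemma lam_lt_of (h : SPair (9 / 10) W V I k lam) : lam < 9 / 10 := by
  by_contra hcon
  push Not at hcon
  have hder : ∀ x, x ≤ -1 → -4 ≤ x →
      (k x - 1 / 5) ^ 2 + 3 / 4 ≤ k x ^ 2 + 2 * Ad (9 / 10) W x * k x - 2 * Ad1 (9 / 10) V x
        + 2 * lam := by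
    intro x hx hx4
    have h1 := V_le_half h hx
    have h2 := h.k_pos x
    have h3 := h.W_pos x
    have h4 : -(1 / 5) ≤ Ad (9 / 10) W x := by
      unfold Ad
      linarith
    have h5 : Ad1 (9 / 10) V x ≤ 1 / 2 := by
      unfold Ad1
      linarith
    nlinarith
  have hdx := h.dk
  -- stage 1
  have hm1 : MonotoneOn (fun x => k x - 3 / 4 * x) (Icc (-4) (-1)) := by
    apply monotoneOn_of_deriv_nonneg (convex_Icc _ _)
    · exact fun t _ => ((hdx t).sub ((hasDerivAt_id t).const_mul _)).continuousAt.continuousWithinAt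
    · exact fun t _ =>
        ((hdx t).sub ((hasDerivAt_id t).const_mul _)).differentiableAt.differentiableWithinAt
    · intro t ht
      rw [interior_Icc] at ht
      have hdd : deriv (fun x => k x - 3 / 4 * x) t =
          (k t ^ 2 + 2 * Ad (9 / 10) W t * k t - 2 * Ad1 (9 / 10) V t + 2 * lam) - 3 / 4 * 1 :=
        ((hdx t).sub ((hasDerivAt_id t).const_mul _)).deriv
      rw [hdd]
      have := hder t ht.2.le ht.1.le
      nlinarith [sq_nonneg (k t - 1 / 5)]
  have hk2 : ∀ x ∈ Icc (-2 : ℝ) (-1), 3 / 2 ≤ k x := by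
    intro x hx
    have h1 := hm1 (a := -4) ⟨le_rfl, by norm_num⟩ (b := x) ⟨by linarith [hx.1], hx.2⟩
      (by linarith [hx.1])
    simp only at h1
    have h2 := h.k_pos (-4)
    linarith [hx.1]
  -- stage 2
  have hd2 : ∀ x ∈ Icc (-2 : ℝ) (-1), HasDerivAt (fun x => (k x - 1 / 5)⁻¹ + x)
      (-(k x ^ 2 + 2 * Ad (9 / 10) W x * k x - 2 * Ad1 (9 / 10) V x + 2 * lam)
        / (k x - 1 / 5) ^ 2 + 1) x := by
    intro x hx
    have h1 := hk2 x hx
    exact (((hdx x).sub_const (1 / 5)).inv (by linarith)).add (hasDerivAt_id x)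
  have hm2 : AntitoneOn (fun x => (k x - 1 / 5)⁻¹ + x) (Icc (-2) (-1)) := by
    apply antitoneOn_of_deriv_nonpos (convex_Icc _ _)
    · exact fun t ht => (hd2 t ht).continuousAt.continuousWithinAt
    · intro t ht
      rw [interior_Icc] at ht
      exact (hd2 t ⟨ht.1.le, ht.2.le⟩).differentiableAt.differentiableWithinAt
    · intro t ht
      rw [interior_Icc] at ht
      rw [(hd2 t ⟨ht.1.le, ht.2.le⟩).deriv]
      have h1 := hk2 t ⟨ht.1.le, ht.2.le⟩
      have h2 := hder t ht.2.le (by linarith [ht.1])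
      have h3 : 0 < (k t - 1 / 5) ^ 2 := by
        have : 0 < k t - 1 / 5 := by linarith
        positivity
      have h4 : -(k t ^ 2 + 2 * Ad (9 / 10) W t * k t - 2 * Ad1 (9 / 10) V t + 2 * lam)
        / (k t - 1 / 5) ^ 2 ≤ -1 := by
        rw [div_le_iff₀ h3]
        linarith
      linarith
  have h1 := hm2 (a := -2) ⟨le_rfl, by norm_num⟩ (b := -1) ⟨by norm_num, le_rfl⟩ (by norm_num)
  simp only at h1
  have h2 := hk2 (-2) ⟨le_rfl, by norm_num⟩
  have h3 := hk2 (-1) ⟨by norm_num, le_rfl⟩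
  have h4 : (k (-2) - 1 / 5)⁻¹ < 1 := by
    apply inv_lt_one_of_one_lt₀
    linarith
  have h5 : 0 < (k (-1) - 1 / 5)⁻¹ := inv_pos.2 (by linarith)
  linarith

/-- **Existence of the closed pair.** -/
theorem exists_closed : ∃ (c : ℝ) (W V I k : ℝ → ℝ), 1 / 3 < c ∧ c < 9 / 10 ∧
    SPair c W V I k c := by
  have hex : ∀ c : Icc (1 / 3 : ℝ) (9 / 10), ∃ lam : ℝ, ∃ W V I k : ℝ → ℝ,
      SPair (c : ℝ) W V I k lam := by
    intro c
    obtain ⟨W, V, I, k, lam, h⟩ := exists_spair (c := (c : ℝ)) (by linarith [c.2.1])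
      (by linarith [c.2.2])
    exact ⟨lam, W, V, I, k, h⟩
  choose L W V I k h using hex
  have hcont : Continuous L := by
    rw [continuous_iff_seqContinuous]
    intro cn c hcn
    exact tendsto_lam (h c) (fun n => h (cn n))
      ((continuous_subtype_val.tendsto c).comp hcn)
  have hcont2 : Continuous fun c : Icc (1 / 3 : ℝ) (9 / 10) => L c - c :=
    hcont.sub continuous_subtype_val
  have : PreconnectedSpace (Icc (1 / 3 : ℝ) (9 / 10)) :=
    Subtype.preconnectedSpace isPreconnected_Icc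
  have ha : (0 : ℝ) ≤ L ⟨1 / 3, by norm_num, by norm_num⟩ -
      ((⟨1 / 3, by norm_num, by norm_num⟩ : Icc (1 / 3 : ℝ) (9 / 10)) : ℝ) := by
    have := lt_lam (h ⟨1 / 3, by norm_num, by norm_num⟩) le_rfl
    linarith
  have hb : L ⟨9 / 10, by norm_num, by norm_num⟩ -
      ((⟨9 / 10, by norm_num, by norm_num⟩ : Icc (1 / 3 : ℝ) (9 / 10)) : ℝ) ≤ 0 := by
    have := lam_lt_of (h ⟨9 / 10, by norm_num, by norm_num⟩)
    simp only
    linarith
  obtain ⟨c, hc⟩ := mem_range_of_exists_le_of_exists_ge hcont2 ⟨_, hb⟩ ⟨_, ha⟩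
  have hc' : L c = c := by simp only at hc; linarith
  have hs := h c
  rw [hc'] at hs
  refine ⟨c, W c, V c, I c, k c, ?_, ?_, hs⟩
  · rcases eq_or_lt_of_le c.2.1 with h1 | h1
    · exfalso
      have := lt_lam hs h1.symm.le
      exact lt_irrefl _ this
    · exact h1
  · rcases eq_or_lt_of_le c.2.2 with h1 | h1
    · exfalso
      have h2 := hs
      rw [h1] at h2
      exact lt_irrefl _ (lam_lt_of h2)
    · exact h1

/-- digits of the constant of a closed pair. -/
theorem closed_digits (h : SPair c W V I k c) : 0.415735 < c ∧ c < 0.415736 := by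
  obtain ⟨h1, h2⟩ := enclosure_of_closure h
  have h1c : 0 < 1 + c := by linarith [h.c_pos]
  rw [lt_div_iff₀ h1c] at h1
  rw [div_lt_iff₀ h1c] at h2
  constructor <;> norm_num at * <;> linarith


end Crest.Agent.R146.Fix2_181
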