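import Crest.Agent.R146.Apri_384
import Crest.Agent.R146.StepClk_900

/-!
Law transients on the step system (row 146, helper384; posts 1008, 1085, 1213).

* `FF`        : `x + u ≤ (D - x) V` on `x ≤ 0`;
* `start_up`, `start_low` : bounds of `Y` on `(0,t0]` from the first-cell formula, explicit constants;
* `hpt_low`   : the pointwise condition of `Flat_384.add_le_Y` for `S = 0`;
* `law_low`   : `-C E (15 + σ(-xE)) ≤ Y` on `[t0,T]`, `C = Cst x0 t0 B e0` explicit;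
* `law_start_up` : `Y(t0,x) ≤ C E(t0) (15 + σ(x E(t0)))`, the same constant.
-/

set_option autoImplicit false

open Set Filter Topology

namespace Crest.Agent.R146.FlatStep_384

open MaxP_371 MaxP2_371 MaxPCmp_371 MaxPCmp2_371 Pos_371 Mills_384 StepStart_483 StepDef_791
open Flat_384 Apri_384

noncomputable section


section gen

variable {t0 t1 : ℝ} {b D : ℝ → ℝ} {u V P Px Pxx : ℝ → ℝ → ℝ} {M : ℝ}

/-- the half strip `[t0,t1] × (-∞,0]` -/
def half (t0 t1 : ℝ) : Set (ℝ × ℝ) := Icc t0 t1 ×ˢ Iic (0:ℝ)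

/-- `x + u ≤ (D - x) V` on `x ≤ 0`. -/
theorem FF (h : BSys t0 t1 b u V P Px Pxx M)
    (hDc : ContinuousOn D (Icc t0 t1)) (hD0 : ∀ t ∈ Icc t0 t1, 0 < D t)
    (hD : ∀ t ∈ Ico t0 t1, HasDerivWithinAt D (-(b t * D t)) (Ici t) t)
    (hw : ∀ t ∈ Icc t0 t1, ∀ x, 0 ≤ x + u t x)
    (hbd : ∀ t ∈ Icc t0 t1, u t 0 ≤ D t * V t 0)
    (hterm : ∀ x ≤ 0, x + u t1 x ≤ (D t1 - x) * V t1 x) :
    ∀ t ∈ Icc t0 t1, ∀ x ≤ 0, x + u t x ≤ (D t - x) * V t x := by
  have key := backward_max1 (K := half t0 t1) (isClosed_Icc.prod isClosed_Iic) (t0 := t0) (t1 := t1)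
    (fun p hp => hp.1) (w := fun t x => (x + u t x) - (D t - x) * V t x) ?_
    (A := 1) (B := M * M) (C := 0) (M := M) ?_ ?_
  · intro t ht x hx
    have := key t x ⟨ht, hx⟩
    linarith
  · have hsub : half t0 t1 ⊆ strip t0 t1 := fun p hp => ⟨hp.1, mem_univ _⟩
    have h1 : ContinuousOn (fun p : ℝ × ℝ => D p.1) (half t0 t1) :=
      hDc.comp continuousOn_fst fun p hp => hp.1
    exact (continuousOn_snd.add (h.cu.mono hsub)).sub
      ((h1.sub continuousOn_snd).mul (h.cV.mono hsub))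
  · rintro ⟨t, x⟩ ⟨ht, hx⟩
    simp only at ht hx ⊢
    have h1 := h.u_le t ht x
    have h2 := h.V_pos t ht x
    have h3 := hD0 t ht
    have hx' : x ≤ 0 := hx
    have h4 : 0 ≤ (D t - x) * V t x := mul_nonneg (by linarith) h2.le
    linarith
  · rintro t x ⟨ht, hx⟩ hpos
    simp only at ht hpos
    have hx' : x ≤ 0 := hx
    have htlt : t < t1 := by
      rcases lt_or_eq_of_le ht.2 with h1 | h1
      · exact h1
      · exfalso
        rw [h1] at hpos
        have := hterm x hx'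
        linarith
    have hxlt : x < 0 := by
      rcases lt_or_eq_of_le hx' with h1 | h1
      · exact h1
      · exfalso
        rw [h1] at hpos
        have := hbd t ht
        linarith
    have htI : t ∈ Ico t0 t1 := ⟨ht.1, htlt⟩
    refine ⟨_, 2 * P t x + P t x - (D t - x) * Px t x, 1/2, b t * u t x, 0,
      fun y => V t y + V t y - (D t - y) * P t y, ?_, ?_,
      ((h.hut t htI x).const_add x).sub (((hD t htI).sub_const x).mul (h.hVt t htI x)), ?_, ?_,
      by norm_num, ?_, h.drift_le ht x, le_refl _, ?_⟩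
    · have h1 : ∀ᶠ s in 𝓝[>] t, s < t1 := (eventually_lt_nhds htlt).filter_mono nhdsWithin_le_nhds
      filter_upwards [h1, self_mem_nhdsWithin] with s hs hst
      exact ⟨⟨ht.1.trans (le_of_lt hst), hs.le⟩, hx'⟩
    · filter_upwards [eventually_lt_nhds hxlt] with y hy
      exact ⟨ht, hy.le⟩
    · refine Eventually.of_forall fun y => ?_
      have h1 := ((hasDerivAt_id y).add (h.hux t htI y)).sub
        (((hasDerivAt_id y).const_sub (D t)).mul (h.hVx t htI y))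
      refine h1.congr_deriv ?_
      simp only [id]
      ring
    · have h1 := ((h.hVx t htI x).add (h.hVx t htI x)).sub
        (((hasDerivAt_id x).const_sub (D t)).mul (h.hPx t htI x))
      refine HasSide.of_hasDerivAt (h1.congr_deriv ?_)
      simp only [id]
      ring
    · nlinarith [sq_nonneg x]
    · have h1 := h.b_nonneg t ht
      have h2 := h.V_pos t ht x
      have h3 := hD0 t ht
      have h4 := hw t ht x
      have h5 := h.P_nonneg t ht x
      have h6 : 0 ≤ b t * V t x * (D t * V t x + (x + u t x) - x * V t x) := by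
        apply mul_nonneg (mul_nonneg h1 h2.le)
        have h7 : 0 ≤ D t * V t x := mul_nonneg h3.le h2.le
        have h8 : 0 ≤ -x * V t x := mul_nonneg (by linarith) h2.le
        linarith
      simp only
      nlinarith

/-- the pointwise condition for the lower side with `S = 0` -/
lemma hpt_low {x e β : ℝ} {uu VV : ℝ → ℝ} (hβ : 0 ≤ β) (he : 0 < e)
    (hneg : x ≤ 0 → e * (x + uu x) ≤ (1 - x * e) * VV x)
    (hpos : 0 ≤ x → e * (x + uu x) ≤ x * e + 1 / 21 ∧ 1 / 25 ≤ VV x)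
    (hV : 0 ≤ VV x) :
    0 ≤ β * (VV x * (15 + sg (-(x * e))) - e * (x + uu x) * sg1 (-(x * e))) := by
  apply mul_nonneg hβ
  set y := x * e with hy
  have hs := sqrt_pos' (-y)
  have hsq := sqrt_sq' (-y)
  have h1s := one_le_sqrt (-y)
  set s := Real.sqrt (1 + (-y) ^ 2) with hsd
  have hsg : sg (-y) = -y + s := rfl
  have hsg1 : sg1 (-y) = (-y + s) / s := rfl
  have hpos1 := sg1_pos (-y)
  rcases le_total x 0 with hx | hx
  · have hy0 : y ≤ 0 := mul_nonpos_of_nonpos_of_nonneg hx he.le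
    have h1 := hneg hx
    have h2 : e * (x + uu x) * sg1 (-y) ≤ (1 - y) * VV x * sg1 (-y) :=
      mul_le_mul_of_nonneg_right h1 hpos1.le
    have h3 : (1 - y) * sg1 (-y) ≤ 15 + sg (-y) := by
      rw [hsg1, hsg, mul_div_assoc', div_le_iff₀ hs]
      have h4 : -y ≤ s := by
        have := abs_lt_sqrt (-y)
        exact (le_abs_self _).trans this.le
      nlinarith
    have h5 : VV x * ((1 - y) * sg1 (-y)) ≤ VV x * (15 + sg (-y)) :=
      mul_le_mul_of_nonneg_left h3 hV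
    linarith
  · have hy0 : 0 ≤ y := mul_nonneg hx he.le
    obtain ⟨h1, h2⟩ := hpos hx
    have hms : sg (-y) * (s + y) = 1 := by
      rw [hsg]; nlinarith
    have hsgp := sg_pos (-y)
    have h3 : sg1 (-y) ≤ 1 := by
      rw [hsg1, div_le_one hs]; linarith
    have h4 : y * sg1 (-y) ≤ 1 / 2 := by
      rw [hsg1, ← hsg, mul_div_assoc', div_le_iff₀ hs]
      nlinarith
    have h5 : e * (x + uu x) * sg1 (-y) ≤ (y + 1 / 21) * sg1 (-y) :=
      mul_le_mul_of_nonneg_right h1 hpos1.le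
    have h6 : (y + 1 / 21) * sg1 (-y) ≤ 1 / 2 + 1 / 21 := by nlinarith
    have h7 : (1 / 25 : ℝ) * 15 ≤ VV x * (15 + sg (-y)) :=
      mul_le_mul h2 (by linarith) (by norm_num) hV
    norm_num at h7
    linarith

end gen

/-- restriction of `YSys` to a shorter interval -/
lemma YSys.mono' {t0 t1 s0 s1 : ℝ} {b : ℝ → ℝ} {u V P Y Yx Yxx : ℝ → ℝ → ℝ} {M : ℝ}
    (h : YSys t0 t1 b u V P Y Yx Yxx M) (h0 : t0 ≤ s0) (h1 : s1 ≤ t1) :
    YSys s0 s1 b u V P Y Yx Yxx M where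
  cY := h.cY.mono fun _ hp => ⟨⟨h0.trans hp.1.1, hp.1.2.trans h1⟩, hp.2⟩
  hYt := fun t ht => h.hYt t ⟨h0.trans_lt ht.1, ht.2.trans h1⟩
  hYx := fun t ht => h.hYx t ⟨h0.trans_lt ht.1, ht.2.trans h1⟩
  hYxx := fun t ht => h.hYxx t ⟨h0.trans_lt ht.1, ht.2.trans h1⟩
  b_nonneg := fun t ht => h.b_nonneg t ⟨h0.trans ht.1, ht.2.trans h1⟩
  b_le := fun t ht => h.b_le t ⟨h0.trans ht.1, ht.2.trans h1⟩
  V_pos := fun t ht => h.V_pos t ⟨h0.trans ht.1, ht.2.trans h1⟩
  drift := fun t ht => h.drift t ⟨h0.trans ht.1, ht.2.trans h1⟩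
  Y_le := fun t ht => h.Y_le t ⟨h0.trans ht.1, ht.2.trans h1⟩

/-- restriction of `BSys` to a shorter interval -/
lemma BSys.mono' {t0 t1 s0 s1 : ℝ} {b : ℝ → ℝ} {u V P Px Pxx : ℝ → ℝ → ℝ} {M : ℝ}
    (h : BSys t0 t1 b u V P Px Pxx M) (h0 : t0 ≤ s0) (h1 : s1 ≤ t1) :
    BSys s0 s1 b u V P Px Pxx M where
  hux := fun t ht => h.hux t ⟨h0.trans ht.1, ht.2.trans_le h1⟩
  hVx := fun t ht => h.hVx t ⟨h0.trans ht.1, ht.2.trans_le h1⟩
  hPx := fun t ht => h.hPx t ⟨h0.trans ht.1, ht.2.trans_le h1⟩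
  hPxx := fun t ht => h.hPxx t ⟨h0.trans ht.1, ht.2.trans_le h1⟩
  hut := fun t ht => h.hut t ⟨h0.trans ht.1, ht.2.trans_le h1⟩
  hVt := fun t ht => h.hVt t ⟨h0.trans ht.1, ht.2.trans_le h1⟩
  hPt := fun t ht => h.hPt t ⟨h0.trans ht.1, ht.2.trans_le h1⟩
  cu := h.cu.mono fun _ hp => ⟨⟨h0.trans hp.1.1, hp.1.2.trans h1⟩, hp.2⟩
  cV := h.cV.mono fun _ hp => ⟨⟨h0.trans hp.1.1, hp.1.2.trans h1⟩, hp.2⟩
  cP := h.cP.mono fun _ hp => ⟨⟨h0.trans hp.1.1, hp.1.2.trans h1⟩, hp.2⟩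
  b_nonneg := fun t ht => h.b_nonneg t ⟨h0.trans ht.1, ht.2.trans h1⟩
  b_le := fun t ht => h.b_le t ⟨h0.trans ht.1, ht.2.trans h1⟩
  V_pos := fun t ht => h.V_pos t ⟨h0.trans ht.1, ht.2.trans h1⟩
  V_lt := fun t ht => h.V_lt t ⟨h0.trans ht.1, ht.2.trans h1⟩
  u_nonneg := fun t ht => h.u_nonneg t ⟨h0.trans ht.1, ht.2.trans h1⟩
  u_le := fun t ht => h.u_le t ⟨h0.trans ht.1, ht.2.trans h1⟩
  P_nonneg := fun t ht => h.P_nonneg t ⟨h0.trans ht.1, ht.2.trans h1⟩
  P_le := fun t ht => h.P_le t ⟨h0.trans ht.1, ht.2.trans h1⟩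

section step

variable {A : SD}

/-- facts of `Back` at every `t ∈ [0,T]` -/
lemma V_mono (hB : Back A) {t : ℝ} (ht : t ∈ Icc 0 A.T) : Monotone (A.V t) := by
  apply monotone_of_deriv_nonneg
  · intro x; exact (hB.V_x t ht x).differentiableAt
  · intro x; rw [(hB.V_x t ht x).deriv]; exact (hB.P_pos t ht x).le

lemma V_01 (hB : Back A) {t : ℝ} (ht : t ∈ Icc 0 A.T) (x : ℝ) : 0 < A.V t x ∧ A.V t x < 1 := by
  obtain ⟨M, h⟩ := hB.bsys
  exact ⟨h.V_pos t ht x, h.V_lt t ht x⟩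

/-- tangent line: `u(x) - (1-V(x))(x0 - x) ≤ u(x0)` -/
lemma u_tangent (hB : Back A) {t : ℝ} (ht : t ∈ Icc 0 A.T) (x x0 : ℝ) :
    A.u t x + (A.V t x - 1) * (x0 - x) ≤ A.u t x0 := by
  have hd : ∀ y, HasDerivAt (A.u t) (A.V t y - 1) y := fun y => hB.u_x t ht y
  have hm := V_mono hB ht
  rcases le_total x x0 with hx | hx
  · have h1 := (convex_Ici x).mul_sub_le_image_sub_of_le_deriv (f := A.u t) (C := A.V t x - 1)
      (fun y _ => (hd y).continuousAt.continuousWithinAt)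
      (fun y _ => (hd y).differentiableAt.differentiableWithinAt) (fun y hy => by
        rw [(hd y).deriv]
        rw [interior_Ici] at hy
        have := hm (le_of_lt hy)
        linarith) x (le_refl x) x0 hx hx
    linarith
  · have h1 := (convex_Iic x).image_sub_le_mul_sub_of_deriv_le (f := A.u t) (C := A.V t x - 1)
      (fun y _ => (hd y).continuousAt.continuousWithinAt)
      (fun y _ => (hd y).differentiableAt.differentiableWithinAt) (fun y hy => by
        rw [(hd y).deriv]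
        rw [interior_Iic] at hy
        have := hm (le_of_lt hy)
        linarith) x0 hx x (le_refl x) hx
    linarith

/-- the growing constant of the start bounds -/
def mst (B P0 t : ℝ) : ℝ := (B * P0 + B + 1) * Real.exp ((P0 + 2 * B + 1) * t)

lemma mst_deriv (B P0 t : ℝ) : HasDerivAt (mst B P0) ((P0 + 2 * B + 1) * mst B P0 t) t := by
  have h1 : HasDerivAt (fun t : ℝ => (P0 + 2 * B + 1) * t) (P0 + 2 * B + 1) t := by
    simpa using (hasDerivAt_id t).const_mul (P0 + 2 * B + 1)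
  have h2 := (h1.exp).const_mul (B * P0 + B + 1)
  refine h2.congr_deriv ?_
  unfold mst; ring

lemma mst_ge {B P0 t : ℝ} (hB : 0 ≤ B) (hP : 0 ≤ P0) (ht : 0 ≤ t) : B * P0 + B + 1 ≤ mst B P0 t := by
  have h1 : 1 ≤ Real.exp ((P0 + 2 * B + 1) * t) := Real.one_le_exp (by positivity)
  have h2 : 0 ≤ B * P0 + B + 1 := by positivity
  unfold mst
  nlinarith

variable {x0 t0 B P0 : ℝ} {Y Yx Yxx : ℝ → ℝ → ℝ}

/-- **Start, upper bound.** -/
theorem start_up (hBk : Back A)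
    (hY : ∀ t0 ∈ Ioo 0 A.T, ∃ M, YSys t0 A.T A.bl A.u A.V A.P Y Yx Yxx M)
    (hfirst : ∃ s1, 0 < s1 ∧ ∀ t ∈ Ioc 0 s1, ∀ x, Y t x = (x - x0) / t - A.bl t * A.u t x)
    (ht0 : t0 ≤ A.T) (hB0 : 0 ≤ B) (hBt : ∀ t ∈ Ioc 0 t0, A.bl t ≤ B)
    (hP0 : 0 ≤ P0) (hP : ∀ t ∈ Ioc 0 t0, ∀ x, A.P t x ≤ P0)
    (hU : ∀ t ∈ Ioc 0 t0, A.u t x0 ≤ 1) :
    ∀ t ∈ Ioc 0 t0, ∀ x, Y t x ≤ (x - x0) / t + mst B P0 t := by
  intro T1 hT1 x1
  obtain ⟨s1, hs1, hf⟩ := hfirst
  set ε := min s1 T1 / 2 with hε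
  have hm : 0 < min s1 T1 := lt_min hs1 hT1.1
  have hε0 : 0 < ε := by rw [hε]; linarith
  have hεs : ε ≤ s1 := by rw [hε]; linarith [min_le_left s1 T1]
  have hεT : ε < T1 := by rw [hε]; linarith [min_le_right s1 T1]
  obtain ⟨M, hM⟩ := hY ε ⟨hε0, hεT.trans_le (hT1.2.trans ht0)⟩
  have hM' := YSys.mono' hM (le_refl ε) ht0
  have hbar : FBar ε t0 (fun t x => (x - x0) / t + mst B P0 t)
      (fun t x => -((x - x0) / t ^ 2) + (P0 + 2 * B + 1) * mst B P0 t)
      (fun t _ => 1 / t) (fun _ _ => 0) := by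
    constructor
    · have h1 : ContinuousOn (fun p : ℝ × ℝ => (p.2 - x0) / p.1) (strip ε t0) :=
        (continuousOn_snd.sub continuousOn_const).div continuousOn_fst
          fun p hp => (hε0.trans_le hp.1.1).ne'
      have h2 : ContinuousOn (fun p : ℝ × ℝ => mst B P0 p.1) (strip ε t0) := by
        unfold mst; fun_prop
      exact h1.add h2
    · intro t ht x
      have ht' : 0 < t := hε0.trans ht.1
      have h1 : HasDerivAt (fun s : ℝ => (x - x0) / s) (-((x - x0) / t ^ 2)) t := by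
        have := (hasDerivAt_inv ht'.ne').const_mul (x - x0)
        refine this.congr_deriv ?_
        field_simp
      exact (h1.add (mst_deriv B P0 t)).hasDerivWithinAt
    · intro t ht x
      have h1 := (((hasDerivAt_id x).sub_const x0).div_const t).add_const (mst B P0 t)
      exact h1
    · intro t ht x
      exact HasSide.of_hasDerivAt (hasDerivAt_const x (1 / t))
  refine Y_le_bar hM' hbar (L := |x0| / ε + 1 / ε) ?_ ?_ ?_ ?_ T1 ⟨hεT.le, hT1.2⟩ x1
  · intro t ht x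
    have ht' : 0 < t := hε0.trans_le ht.1
    have h1 : 0 ≤ mst B P0 t := by unfold mst; positivity
    have h2 : -((|x| + |x0|) / ε) ≤ (x - x0) / t := by
      have h3 : -(|x| + |x0|) ≤ x - x0 := by
        have := neg_abs_le x
        have := le_abs_self x0
        linarith
      have h4 : -((|x| + |x0|) / t) ≤ (x - x0) / t := by
        rw [← neg_div]; exact div_le_div_of_nonneg_right h3 ht'.le
      have h5 : (|x| + |x0|) / t ≤ (|x| + |x0|) / ε :=
        div_le_div_of_nonneg_left (by positivity) hε0 ht.1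
      linarith
    have e1 : (|x0| / ε + 1 / ε) * (1 + |x|) =
        (|x| + |x0|) / ε + (|x0| * |x| + 1) / ε := by
      field_simp; ring
    have h6 : 0 ≤ (|x0| * |x| + 1) / ε := by positivity
    rw [e1]; linarith
  · intro t ht x
    have ht' : 0 < t := hε0.trans ht.1
    have : 0 ≤ |x0| / ε + 1 / ε := by positivity
    have : 0 ≤ 1 / t := by positivity
    linarith
  · intro t ht x
    have ht' : 0 < t := hε0.trans ht.1
    have htI : t ∈ Icc 0 A.T := ⟨ht'.le, ht.2.trans ht0⟩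
    have hb1 := A.bl_nonneg t
    have hb2 := hBt t ⟨ht', ht.2⟩
    have hP1 := hP t ⟨ht', ht.2⟩ x
    have hP2 := (hBk.P_pos t htI x).le
    have hU1 := hU t ⟨ht', ht.2⟩
    have hV := V_01 hBk htI x
    have hu := (hBk.u_pos t htI x).le
    have htan := u_tangent hBk htI x x0
    have hmg := mst_ge (t := t) hB0 hP0 ht'.le
    set m := mst B P0 t with hmd
    set bb := A.bl t with hbb
    set R := 1 - A.V t x with hR
    have hBP : 0 ≤ B * P0 := mul_nonneg hB0 hP0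
    have hm0 : 0 ≤ m := by linarith
    -- b [R(x-x0) - u]/t ≤ m / t
    have h1 : bb * (R * (x - x0) - A.u t x) ≤ m := by
      have h2 : R * (x - x0) - A.u t x ≤ 1 := by
        have : (A.V t x - 1) * (x0 - x) = R * (x - x0) := by rw [hR]; ring
        linarith
      have h3 : bb * (R * (x - x0) - A.u t x) ≤ bb * 1 := mul_le_mul_of_nonneg_left h2 hb1
      linarith
    have h1' : (bb * (R * (x - x0) - A.u t x) - m) / t ≤ 0 :=
      div_nonpos_of_nonpos_of_nonneg (by linarith) ht'.le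
    have h4 : bb * R * m ≤ B * m := by
      have hR1 : R ≤ 1 := by rw [hR]; linarith
      have hR0 : 0 ≤ R := by rw [hR]; linarith
      have : bb * R ≤ B := by nlinarith
      exact mul_le_mul_of_nonneg_right this hm0
    have h5 : bb * A.P t x ≤ B * P0 := mul_le_mul hb2 hP1 hP2 hB0
    have e : (0:ℝ) / 2 - ((x - x0) / t + m + bb * A.u t x) * (1 / t) + bb * R * ((x - x0) / t + m)
        + bb * A.P t x = -((x - x0) / t ^ 2) + (bb * (R * (x - x0) - A.u t x) - m) / t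
          + bb * R * m + bb * A.P t x := by
      field_simp
      ring
    rw [e]
    nlinarith [mul_nonneg hP0 hm0, mul_nonneg hB0 hm0]
  · intro x
    have h1 := hf ε ⟨hε0, hεs⟩ x
    have htI : ε ∈ Icc 0 A.T := ⟨hε0.le, (hεT.le.trans hT1.2).trans ht0⟩
    have h2 := A.bl_nonneg ε
    have h3 := (hBk.u_pos ε htI x).le
    have h4 : 0 ≤ mst B P0 ε := by unfold mst; positivity
    have h5 := mul_nonneg h2 h3
    rw [h1]; linarith

/-- **Start, lower bound.** -/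
theorem start_low (hBk : Back A)
    (hY : ∀ t0 ∈ Ioo 0 A.T, ∃ M, YSys t0 A.T A.bl A.u A.V A.P Y Yx Yxx M)
    (hfirst : ∃ s1, 0 < s1 ∧ ∀ t ∈ Ioc 0 s1, ∀ x, Y t x = (x - x0) / t - A.bl t * A.u t x)
    (ht0 : t0 ≤ A.T) (hB0 : 0 ≤ B) (hBt : ∀ t ∈ Ioc 0 t0, A.bl t ≤ B)
    (hP0 : 0 ≤ P0) (hP : ∀ t ∈ Ioc 0 t0, ∀ x, A.P t x ≤ P0)
    (hU : ∀ t ∈ Ioc 0 t0, A.u t x0 ≤ 1) :
    ∀ t ∈ Ioc 0 t0, ∀ x, (x - x0) / t - mst B P0 t * (1 + A.u t x) ≤ Y t x := by
  intro T1 hT1 x1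
  obtain ⟨s1, hs1, hf⟩ := hfirst
  set ε := min s1 T1 / 2 with hε
  have hm : 0 < min s1 T1 := lt_min hs1 hT1.1
  have hε0 : 0 < ε := by rw [hε]; linarith
  have hεs : ε ≤ s1 := by rw [hε]; linarith [min_le_left s1 T1]
  have hεT : ε < T1 := by rw [hε]; linarith [min_le_right s1 T1]
  obtain ⟨M, hM⟩ := hY ε ⟨hε0, hεT.trans_le (hT1.2.trans ht0)⟩
  obtain ⟨MB, hMB⟩ := hBk.bsys
  have hM' := YSys.mono' hM (le_refl ε) ht0
  have hsub : strip ε t0 ⊆ strip 0 A.T := fun p hp =>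
    ⟨⟨hε0.le.trans hp.1.1, hp.1.2.trans ht0⟩, mem_univ _⟩
  have hbar : FBar ε t0 (fun t x => (x - x0) / t - mst B P0 t * (1 + A.u t x))
      (fun t x => -((x - x0) / t ^ 2) - (((P0 + 2 * B + 1) * mst B P0 t) * (1 + A.u t x) +
        mst B P0 t * (-(A.P t x / 2 + A.bl t * A.u t x * A.V t x))))
      (fun t x => 1 / t - mst B P0 t * (A.V t x - 1)) (fun t x => 0 - mst B P0 t * A.P t x) := by
    constructor
    · have h1 : ContinuousOn (fun p : ℝ × ℝ => (p.2 - x0) / p.1) (strip ε t0) :=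
        (continuousOn_snd.sub continuousOn_const).div continuousOn_fst
          fun p hp => (hε0.trans_le hp.1.1).ne'
      have h2 : ContinuousOn (fun p : ℝ × ℝ => mst B P0 p.1) (strip ε t0) := by
        unfold mst; fun_prop
      exact h1.sub (h2.mul (continuousOn_const.add (hMB.cu.mono hsub)))
    · intro t ht x
      have ht' : 0 < t := hε0.trans ht.1
      have h1 : HasDerivAt (fun s : ℝ => (x - x0) / s) (-((x - x0) / t ^ 2)) t := by
        have := (hasDerivAt_inv ht'.ne').const_mul (x - x0)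
        refine this.congr_deriv ?_
        field_simp
      exact h1.hasDerivWithinAt.sub ((mst_deriv B P0 t).hasDerivWithinAt.mul
        ((hBk.u_tl t ⟨ht', ht.2.trans ht0⟩ x).const_add 1))
    · intro t ht x
      have ht' : 0 < t := hε0.trans ht.1
      exact (((hasDerivAt_id x).sub_const x0).div_const t).sub
        (((hBk.u_x t ⟨ht'.le, ht.2.trans ht0⟩ x).const_add 1).const_mul (mst B P0 t))
    · intro t ht x
      have ht' : 0 < t := hε0.trans ht.1
      exact HasSide.of_hasDerivAt ((hasDerivAt_const x (1 / t)).sub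
        (((hBk.V_x t ⟨ht'.le, ht.2.trans ht0⟩ x).sub_const 1).const_mul (mst B P0 t)))
  refine bar_le_Y hM' hbar (L := |x0| / ε + 1 / ε) ?_ ?_ ?_ ?_ T1 ⟨hεT.le, hT1.2⟩ x1
  · intro t ht x
    have ht' : 0 < t := hε0.trans_le ht.1
    have htI : t ∈ Icc 0 A.T := ⟨ht'.le, ht.2.trans ht0⟩
    have h1 : 0 ≤ mst B P0 t * (1 + A.u t x) := by
      have := (hBk.u_pos t htI x).le
      unfold mst; positivity
    have h2 : (x - x0) / t ≤ (|x| + |x0|) / ε := by
      have h3 : x - x0 ≤ |x| + |x0| := by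
        have := le_abs_self x
        have := neg_abs_le x0
        linarith
      have h4 : (x - x0) / t ≤ (|x| + |x0|) / t := div_le_div_of_nonneg_right h3 ht'.le
      have h5 : (|x| + |x0|) / t ≤ (|x| + |x0|) / ε :=
        div_le_div_of_nonneg_left (by positivity) hε0 ht.1
      linarith
    have e1 : (|x0| / ε + 1 / ε) * (1 + |x|) =
        (|x| + |x0|) / ε + (|x0| * |x| + 1) / ε := by
      field_simp; ring
    have h6 : 0 ≤ (|x0| * |x| + 1) / ε := by positivity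
    rw [e1]; linarith
  · intro t ht x
    have ht' : 0 < t := hε0.trans ht.1
    have htI : t ∈ Icc 0 A.T := ⟨ht'.le, ht.2.trans ht0⟩
    have h0 : 0 ≤ |x0| / ε + 1 / ε := by positivity
    have h1 : 0 ≤ 1 / t := by positivity
    have h2 : 0 ≤ mst B P0 t := by unfold mst; positivity
    have h3 := (V_01 hBk htI x).2
    nlinarith
  · intro t ht x
    have ht' : 0 < t := hε0.trans ht.1
    have htI : t ∈ Icc 0 A.T := ⟨ht'.le, ht.2.trans ht0⟩
    have hb1 := A.bl_nonneg t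
    have hb2 := hBt t ⟨ht', ht.2⟩
    have hP1 := hP t ⟨ht', ht.2⟩ x
    have hP2 := (hBk.P_pos t htI x).le
    have hU1 := hU t ⟨ht', ht.2⟩
    have hV := V_01 hBk htI x
    have hu := (hBk.u_pos t htI x).le
    have htan := u_tangent hBk htI x x0
    have hmg := mst_ge (t := t) hB0 hP0 ht'.le
    set m := mst B P0 t with hmd
    set bb := A.bl t with hbb
    set u := A.u t x with hud
    set V := A.V t x with hVd
    have hBP : 0 ≤ B * P0 := mul_nonneg hB0 hP0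
    have hm0 : 0 ≤ m := by linarith
    have hmb : bb ≤ m := by linarith
    have hR0 : 0 < 1 - V := by linarith
    have hR1 : 1 - V ≤ 1 := by linarith
    -- (m-b)(u - R(x-x0)) + m ≥ 0
    have h1 : 0 ≤ (m - bb) * (u - (1 - V) * (x - x0)) + m := by
      have h2 : -1 ≤ u - (1 - V) * (x - x0) := by
        have : (V - 1) * (x0 - x) = (1 - V) * (x - x0) := by ring
        linarith
      nlinarith
    have h1' : 0 ≤ ((m - bb) * (u - (1 - V) * (x - x0)) + m) / t := div_nonneg h1 ht'.le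
    have h3 : m * A.P t x ≤ m * P0 := mul_le_mul_of_nonneg_left hP1 hm0
    have h4 : bb * m * ((1 - V) * (1 + 2 * u) + u * V) ≤ B * m * (2 * (1 + u)) := by
      apply mul_le_mul _ _ _ (mul_nonneg hB0 hm0)
      · exact mul_le_mul_of_nonneg_right hb2 hm0
      · nlinarith [mul_nonneg hu hR0.le, mul_nonneg hu hV.1.le]
      · have := mul_nonneg hu hV.1.le
        have := mul_nonneg hR0.le (show (0:ℝ) ≤ 1 + 2 * u by linarith)
        linarith
    have h5 : 0 ≤ m ^ 2 * (1 - V) * (1 + u) := by positivity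
    have h6 : 0 ≤ bb * A.P t x := mul_nonneg hb1 hP2
    have h7 : 0 ≤ m * P0 * u := by positivity
    have e : ((0 - m * A.P t x) / 2 - ((x - x0) / t - m * (1 + u) + bb * u) *
          (1 / t - m * (V - 1)) + bb * (1 - V) * ((x - x0) / t - m * (1 + u)) + bb * A.P t x) -
        (-((x - x0) / t ^ 2) - (((P0 + 2 * B + 1) * m) * (1 + u) +
          m * (-(A.P t x / 2 + bb * u * V)))) =
        (bb - m) * A.P t x + ((m - bb) * (u - (1 - V) * (x - x0)) + m) / t +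
          m ^ 2 * (1 - V) * (1 + u) - bb * m * ((1 - V) * (1 + 2 * u) + u * V) +
          (P0 + 2 * B + 1) * m * (1 + u) := by
      field_simp
      ring
    have h8 : 0 ≤ (bb - m) * A.P t x + ((m - bb) * (u - (1 - V) * (x - x0)) + m) / t +
          m ^ 2 * (1 - V) * (1 + u) - bb * m * ((1 - V) * (1 + 2 * u) + u * V) +
          (P0 + 2 * B + 1) * m * (1 + u) := by
      have h9 : 0 ≤ m * (1 + u) := mul_nonneg hm0 (by linarith)
      nlinarith
    linarith
  · intro x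
    have h1 := hf ε ⟨hε0, hεs⟩ x
    have htI : ε ∈ Icc 0 A.T := ⟨hε0.le, (hεT.le.trans hT1.2).trans ht0⟩
    have h2 := A.bl_nonneg ε
    have h3 := (hBk.u_pos ε htI x).le
    have h4 := mst_ge (t := ε) hB0 hP0 hε0.le
    have h5 := hBt ε ⟨hε0, hεT.le.trans hT1.2⟩
    have h6 : A.bl ε * A.u ε x ≤ mst B P0 ε * A.u ε x :=
      mul_le_mul_of_nonneg_right (by nlinarith [mul_nonneg hB0 hP0]) h3
    have h7 : 0 ≤ mst B P0 ε := by unfold mst; positivity
    rw [h1]; nlinarith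

/-! ### A priori bounds on the step system, `b τ ≤ 1` -/

/-- `u ≤ √τ hz(x/√τ)` -/
theorem step_u_le (hB : Back A) (hν : ∀ t ∈ Ico 0 A.T, A.b t * (1 - t) ≤ 1) :
    ∀ t ∈ Icc 0 A.T, ∀ x, A.u t x ≤ √(1 - t) * hz (x / √(1 - t)) := by
  obtain ⟨M, h⟩ := hB.bsys
  refine u_le_hz h (le_refl 0) A.hT1 hν fun x => ?_
  rw [hB.u_T x]
  exact mul_le_mul_of_nonneg_left (U0_le_hz _) (Real.sqrt_nonneg _)

/-- `√τ U0(x/√τ) ≤ u` -/
theorem step_le_u (hB : Back A) :
    ∀ t ∈ Icc 0 A.T, ∀ x, √(1 - t) * U0 (x / √(1 - t)) ≤ A.u t x := by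
  obtain ⟨M, h⟩ := hB.bsys
  refine U0_le_u h (le_refl 0) A.hT1 fun x => ?_
  rw [hB.u_T x]
  exact le_refl _


/-- `V(t,0) ≥ 1/25` -/
theorem step_V_zero (hB : Back A) (hν : ∀ t ∈ Ico 0 A.T, A.b t * (1 - t) ≤ 1) :
    ∀ t ∈ Icc 0 A.T, 1 / 25 ≤ A.V t 0 := by
  intro t ht
  rcases lt_or_eq_of_le ht.2 with h1 | h1
  · obtain ⟨M, h⟩ := hB.bsys
    exact V_zero_ge h ⟨ht.1, h1⟩ (h1.trans A.hT1) (step_u_le hB hν t ht) (step_le_u hB t ht)
  · rw [h1, hB.V_T 0, zero_div]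
    have : (ProbabilityTheory.gaussianReal 0 1).real (Iic (0:ℝ)) = Phi 0 := rfl
    rw [this, Phi_zero]
    norm_num

/-- `V_x ≤ √(V(1-V))/√τ` -/
theorem step_P_le (hB : Back A) (hν : ∀ t ∈ Ico 0 A.T, A.b t * (1 - t) ≤ 1) :
    ∀ t ∈ Icc 0 A.T, ∀ x, A.P t x ≤ (√(1 - t))⁻¹ * √(A.V t x * (1 - A.V t x)) := by
  obtain ⟨M, h⟩ := hB.bsys
  refine P_le_root h A.hT1 hν fun x => ?_
  have e1 : A.V A.T x = Phi (x / √A.dl) := hB.V_T x
  rw [hB.P_T x, e1, div_eq_inv_mul]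
  refine mul_le_mul_of_nonneg_left ?_ (by positivity)
  apply Real.le_sqrt_of_sq_le
  exact ph_sq_le _

lemma step_P_le' (hB : Back A) (hν : ∀ t ∈ Ico 0 A.T, A.b t * (1 - t) ≤ 1) {t0 : ℝ}
    (ht0 : t0 ≤ A.T) : ∀ t ∈ Ioc 0 t0, ∀ x, A.P t x ≤ (√(1 - t0))⁻¹ := by
  intro t ht x
  have htI : t ∈ Icc 0 A.T := ⟨ht.1.le, ht.2.trans ht0⟩
  have h1 := step_P_le hB hν t htI x
  have hV := V_01 hB htI x
  have h2 : √(A.V t x * (1 - A.V t x)) ≤ 1 := by
    have := Real.sqrt_le_sqrt (show A.V t x * (1 - A.V t x) ≤ 1 by nlinarith)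
    rwa [Real.sqrt_one] at this
  have ht0' : t0 < 1 := ht0.trans_lt A.hT1
  have h3 : (√(1 - t))⁻¹ ≤ (√(1 - t0))⁻¹ :=
    inv_anti₀ (sqrt_tau_pos ht0') (Real.sqrt_le_sqrt (by linarith [ht.2]))
  have h4 : 0 < (√(1 - t))⁻¹ := inv_pos.2 (sqrt_tau_pos (ht.2.trans_lt ht0'))
  calc A.P t x ≤ (√(1 - t))⁻¹ * √(A.V t x * (1 - A.V t x)) := h1
    _ ≤ (√(1 - t))⁻¹ * 1 := mul_le_mul_of_nonneg_left h2 h4.le
    _ ≤ (√(1 - t0))⁻¹ := by rw [mul_one]; exact h3

/-- `u(t,0) ≤ .8 √τ` -/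
lemma step_u_zero (hB : Back A) (hν : ∀ t ∈ Ico 0 A.T, A.b t * (1 - t) ≤ 1) {t : ℝ}
    (ht : t ∈ Icc 0 A.T) : A.u t 0 ≤ 0.8 * √(1 - t) := by
  have h1 := step_u_le hB hν t ht 0
  rw [zero_div] at h1
  have h2 := hz_zero_le
  have h3 := Real.sqrt_nonneg (1 - t)
  nlinarith

lemma u_anti (hB : Back A) {t : ℝ} (ht : t ∈ Icc 0 A.T) : Antitone (A.u t) := by
  apply antitone_of_deriv_nonpos
  · intro x; exact (hB.u_x t ht x).differentiableAt
  · intro x
    rw [(hB.u_x t ht x).deriv]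
    have := (V_01 hB ht x).2
    linarith

/-- `u(t,x0) ≤ 1` for `x0 ≥ 0` -/
lemma step_u_x0 (hB : Back A) (hν : ∀ t ∈ Ico 0 A.T, A.b t * (1 - t) ≤ 1) {t : ℝ}
    (ht : t ∈ Icc 0 A.T) {x0 : ℝ} (hx0 : 0 ≤ x0) : A.u t x0 ≤ 1 := by
  have h1 := step_u_zero hB hν ht
  have h2 := u_anti hB ht hx0
  have h3 : √(1 - t) ≤ 1 := by
    have := Real.sqrt_le_sqrt (show 1 - t ≤ 1 by linarith [ht.1])
    rwa [Real.sqrt_one] at this
  have h4 := Real.sqrt_nonneg (1 - t)
  nlinarith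

/-- `x + u ≤ (D - x) V` on `x ≤ 0`, late times -/
theorem step_FF (hB : Back A) (hν : ∀ t ∈ Ico 0 A.T, A.b t * (1 - t) ≤ 1) {t0 : ℝ}
    (ht0 : 0 ≤ t0) (ht0T : t0 ≤ A.T) (hD : ∀ t ∈ Icc t0 A.T, 21 * √(1 - t) ≤ A.D t) :
    ∀ t ∈ Icc t0 A.T, ∀ x ≤ 0, A.w t x ≤ (A.D t - x) * A.V t x := by
  obtain ⟨M, h⟩ := hB.bsys
  refine FF (BSys.mono' h ht0 (le_refl _)) (StepClk_900.D_cont A).continuousOn
    (fun t _ => A.D_pos t) ?_ ?_ ?_ ?_
  · intro t ht
    have h1 := StepClk_900.D_r A t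
    have e : -(A.b t * A.D t) = -A.m t := by
      unfold SD.b
      have := (A.D_pos t).ne'
      field_simp
    rw [e]; exact h1
  · intro t ht x
    exact (hB.w_pos t ⟨ht0.trans ht.1, ht.2⟩ x).le
  · intro t ht
    have htI : t ∈ Icc 0 A.T := ⟨ht0.trans ht.1, ht.2⟩
    have h1 := step_u_zero hB hν htI
    have h2 := step_V_zero hB hν t htI
    have h3 := hD t ht
    have h4 := Real.sqrt_nonneg (1 - t)
    have h5 : 21 * √(1 - t) * (1 / 25) ≤ A.D t * A.V t 0 :=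
      mul_le_mul h3 h2 (by norm_num) (A.D_pos t).le
    linarith
  · intro x hx
    have hs : 0 < √A.dl := Real.sqrt_pos.2 A.dl_pos
    have e1 : A.V A.T x = Phi (x / √A.dl) := hB.V_T x
    have hd := hD A.T ⟨ht0T, le_refl _⟩
    have hDT : A.D A.T = A.d := StepStart_483.D_T A
    rw [hB.u_T x, e1, hDT]
    rw [hDT] at hd
    have e2 : √(1 - A.T) = √A.dl := rfl
    rw [e2] at hd
    set s := √A.dl with hsd
    set z := x / s with hz'
    have hxz : x = s * z := by rw [hz']; field_simp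
    have hz0 : z ≤ 0 := div_nonpos_of_nonpos_of_nonneg hx hs.le
    have hm := U0_eq z
    have hle := hz_le z
    rw [abs_of_nonpos hz0] at hle
    have hph : ph z ≤ (1 - z) * Phi z := by
      have := Phi_pos z
      have h1 : ph z = hz z * Phi z := by unfold hz; field_simp
      rw [h1]
      exact mul_le_mul_of_nonneg_right (by linarith) this.le
    rw [hm]
    have hP := Phi_pos z
    have h1 : s * ph z ≤ s * ((1 - z) * Phi z) := mul_le_mul_of_nonneg_left hph hs.le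
    have h2 : s * Phi z ≤ A.d * Phi z := mul_le_mul_of_nonneg_right (by linarith) hP.le
    have h3 : 0 ≤ s * (-z) * Phi z := mul_nonneg (mul_nonneg hs.le (by linarith)) hP.le
    have e4 : x + s * (ph z - z * (1 - Phi z)) = s * ph z + s * z * Phi z := by
      rw [hxz]; ring
    rw [e4]
    have e5 : (A.d - x) * Phi z = A.d * Phi z - s * z * Phi z := by rw [hxz]; ring
    rw [e5]
    nlinarith




variable {e0 : ℝ}




end step

end

end Crest.Agent.R146.FlatStep_384
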