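import Mathlib
import Crest.Agent.R146.S6U_988
import Crest.Agent.R164.ObsFin

-- ▼ part R146/WrapA_947
section

/-!
# R146 (helper947): row-wise tools for log partition functions (abstract)

* `integral_resample`: resampling one coordinate of a finite product law.
* `var_le`: variance of a function with bounded differences on a finite product, `Var f ≤ ∑ c_i^2`.
* `tail_le`: the corresponding Chebyshev bound.
* `logZ`: `log ∫ exp (∑_a u_a(x_a, y)) ρ(dy)`; bounds, measurability, bounded differences,
  stability in the potentials (`abs_integral_logZ_sub_le`).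
-/

set_option autoImplicit false
set_option linter.unusedSectionVars false

open MeasureTheory ProbabilityTheory Filter Topology

namespace Crest.Agent.R146.WrapA_947

section basic

lemma integrable_of_bound {Ω : Type*} [MeasurableSpace Ω] (μ : Measure Ω) [IsFiniteMeasure μ]
    {f : Ω → ℝ} (hf : Measurable f) {C : ℝ} (hb : ∀ x, |f x| ≤ C) : Integrable f μ :=
  Integrable.of_bound hf.aestronglyMeasurable C (Eventually.of_forall fun x => by
    rw [Real.norm_eq_abs]; exact hb x)

lemma abs_integral_le {Ω : Type*} [MeasurableSpace Ω] (μ : Measure Ω) [IsProbabilityMeasure μ]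
    {f : Ω → ℝ} {C : ℝ} (hb : ∀ x, |f x| ≤ C) : |∫ x, f x ∂μ| ≤ C := by
  have := norm_integral_le_of_norm_le_const (μ := μ) (f := f) (C := C)
    (Eventually.of_forall fun x => by rw [Real.norm_eq_abs]; exact hb x)
  simpa using this

end basic

section prod

variable {X : Type*} [MeasurableSpace X]

/-- splitting off the coordinate `i` of a finite product law -/
theorem integral_split {n : ℕ} (μ : Fin (n + 1) → Measure X) [∀ i, IsProbabilityMeasure (μ i)]
    (i : Fin (n + 1)) {F : (Fin (n + 1) → X) → ℝ} (hF : Measurable F) {C : ℝ}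
    (hb : ∀ x, |F x| ≤ C) :
    ∫ x, F x ∂(Measure.pi μ) =
      ∫ y, ∫ t, F (i.insertNth t y) ∂(μ i) ∂(Measure.pi fun j => μ (i.succAbove j)) := by
  have hmp := measurePreserving_piFinSuccAbove μ i
  have h1 : ∫ x, F x ∂(Measure.pi μ) =
      ∫ p, F ((MeasurableEquiv.piFinSuccAbove (fun _ => X) i).symm p)
        ∂((μ i).prod (Measure.pi fun j => μ (i.succAbove j))) := by
    rw [← hmp.integral_comp (MeasurableEquiv.measurableEmbedding _)]
    refine integral_congr_ae (Eventually.of_forall fun x => ?_)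
    show F x = F ((MeasurableEquiv.piFinSuccAbove (fun _ => X) i).symm
      ((MeasurableEquiv.piFinSuccAbove (fun _ => X) i) x))
    rw [MeasurableEquiv.symm_apply_apply]
  rw [h1, integral_prod_symm]
  · rfl
  · refine integrable_of_bound _ (C := C) ?_ (fun _ => hb _)
    exact hF.comp (MeasurableEquiv.measurable _)

lemma measurable_insertNth {n : ℕ} (i : Fin (n + 1)) :
    Measurable (fun p : X × (Fin n → X) => (i.insertNth p.1 p.2 : Fin (n + 1) → X)) :=
  (MeasurableEquiv.piFinSuccAbove (fun _ => X) i).symm.measurable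

/-- resampling the coordinate `i` -/
theorem integral_resample {n : ℕ} (μ : Fin n → Measure X) [∀ i, IsProbabilityMeasure (μ i)]
    (i : Fin n) {F : (Fin n → X) → ℝ} (hF : Measurable F) {C : ℝ} (hb : ∀ x, |F x| ≤ C) :
    ∫ x, F x ∂(Measure.pi μ) =
      ∫ x, ∫ t, F (Function.update x i t) ∂(μ i) ∂(Measure.pi μ) := by
  cases n with
  | zero => exact i.elim0
  | succ n =>
    have hG : Measurable (fun x : Fin (n + 1) → X => ∫ t, F (Function.update x i t) ∂(μ i)) := by
      have h : Measurable (fun p : (Fin (n + 1) → X) × X => F (Function.update p.1 i p.2)) :=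
        hF.comp measurable_update'
      exact (h.stronglyMeasurable.integral_prod_right').measurable
    have hGb : ∀ x : Fin (n + 1) → X, |∫ t, F (Function.update x i t) ∂(μ i)| ≤ C :=
      fun x => abs_integral_le _ fun t => hb _
    rw [integral_split μ i hF hb, integral_split μ i hG hGb]
    refine integral_congr_ae (Eventually.of_forall fun y => ?_)
    simp only [Fin.update_insertNth]
    rw [integral_const]
    simp

/-- **variance bound by bounded differences** on a finite product -/
theorem var_le : ∀ (n : ℕ) (μ : Fin n → Measure X) [∀ i, IsProbabilityMeasure (μ i)]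
    (f : (Fin n → X) → ℝ) (c : Fin n → ℝ), Measurable f → ∀ C : ℝ, (∀ x, |f x| ≤ C) →
    (∀ x i t, |f (Function.update x i t) - f x| ≤ c i) →
    ∫ x, (f x - ∫ z, f z ∂(Measure.pi μ)) ^ 2 ∂(Measure.pi μ) ≤ ∑ i, c i ^ 2 := by
  intro n
  induction n with
  | zero =>
    intro μ _ f c hf C hb hc
    have h : ∀ x, f x = f (fun i => i.elim0) := fun x => by
      congr 1; funext i; exact i.elim0
    have h2 : ∫ z, f z ∂(Measure.pi μ) = f (fun i => i.elim0) := by
      simp_rw [fun z => h z]
      simp
    rw [h2]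
    simp_rw [fun z => h z]
    simp
  | succ n ih =>
    intro μ _ f c hf C hb hc
    set P := Measure.pi μ with hP
    set Q := Measure.pi (fun j => μ ((0 : Fin (n + 1)).succAbove j)) with hQ
    set g : (Fin n → X) → ℝ := fun y => ∫ t, f ((0 : Fin (n + 1)).insertNth t y) ∂(μ 0) with hg
    have hfm : Measurable (fun p : X × (Fin n → X) =>
        f ((0 : Fin (n + 1)).insertNth p.1 p.2)) := hf.comp (measurable_insertNth 0)
    have hfm' : Measurable (fun p : (Fin n → X) × X =>
        f ((0 : Fin (n + 1)).insertNth p.2 p.1)) := hfm.comp measurable_swap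
    have hgm : Measurable g := (hfm'.stronglyMeasurable.integral_prod_right').measurable
    have hgb : ∀ y, |g y| ≤ C := fun y => abs_integral_le _ fun t => hb _
    have hfy : ∀ y, Measurable (fun t => f ((0 : Fin (n + 1)).insertNth t y)) := fun y =>
      hfm.comp (measurable_id.prodMk measurable_const)
    have hC : 0 ≤ C := (abs_nonneg _).trans (hgb (fun j => Classical.choice
      (by
        have : IsProbabilityMeasure (μ 0) := inferInstance
        exact nonempty_of_isProbabilityMeasure (μ 0))))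
    have hsmall : ∀ y t, |f ((0 : Fin (n + 1)).insertNth t y) - g y| ≤ c 0 := by
      intro y t
      have h1 : f ((0 : Fin (n + 1)).insertNth t y) - g y =
          ∫ s, (f ((0 : Fin (n + 1)).insertNth t y) - f ((0 : Fin (n + 1)).insertNth s y))
            ∂(μ 0) := by
        rw [integral_sub (integrable_const _) (integrable_of_bound _ (hfy y) fun _ => hb _)]
        simp [hg]
      rw [h1]
      refine abs_integral_le _ fun s => ?_
      have := hc ((0 : Fin (n + 1)).insertNth s y) 0 t
      rwa [Fin.update_insertNth] at this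
    have hint : ∫ z, f z ∂P = ∫ y, g y ∂Q := integral_split μ 0 hf hb
    have hgv : ∫ y, (g y - ∫ z, g z ∂Q) ^ 2 ∂Q ≤ ∑ i : Fin n, c i.succ ^ 2 := by
      refine ih (fun j => μ ((0 : Fin (n + 1)).succAbove j)) g (fun i => c i.succ) hgm C hgb ?_
      intro y i t
      have h1 : g (Function.update y i t) - g y =
          ∫ s, (f ((0 : Fin (n + 1)).insertNth s (Function.update y i t)) -
            f ((0 : Fin (n + 1)).insertNth s y)) ∂(μ 0) := by
        rw [integral_sub (integrable_of_bound _ (hfy _) fun _ => hb _)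
          (integrable_of_bound _ (hfy _) fun _ => hb _)]
      rw [h1]
      refine abs_integral_le _ fun s => ?_
      have := hc ((0 : Fin (n + 1)).insertNth s y) i.succ t
      have h2 : Function.update ((0 : Fin (n + 1)).insertNth s y : Fin (n + 1) → X) i.succ t =
          (0 : Fin (n + 1)).insertNth s (Function.update y i t) := by
        rw [Fin.insertNth_zero, Fin.insertNth_zero]
        exact (Fin.cons_update (α := fun _ => X) s y i t).symm
      rwa [h2] at this
    set A := ∫ z, g z ∂Q with hA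
    have hAC : |A| ≤ C := abs_integral_le _ hgb
    have hsq : ∀ a : ℝ, |a| ≤ C → |(a - A) ^ 2| ≤ (2 * C) ^ 2 := by
      intro a ha
      rw [abs_pow]
      gcongr
      calc |a - A| ≤ |a| + |A| := abs_sub a A
        _ ≤ 2 * C := by linarith
    rw [hint, integral_split μ 0 (F := fun x => (f x - A) ^ 2) ((hf.sub_const A).pow_const 2)
      (C := (2 * C) ^ 2) (fun x => hsq _ (hb x))]
    have hin : ∀ y, ∫ t, (f ((0 : Fin (n + 1)).insertNth t y) - A) ^ 2 ∂(μ 0) ≤
        c 0 ^ 2 + (g y - A) ^ 2 := by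
      intro y
      have h1 : ∀ t, (f ((0 : Fin (n + 1)).insertNth t y) - A) ^ 2 =
          (f ((0 : Fin (n + 1)).insertNth t y) - g y) ^ 2 +
            (2 * (g y - A)) * (f ((0 : Fin (n + 1)).insertNth t y) - g y) + (g y - A) ^ 2 := by
        intro t; ring
      simp_rw [h1]
      have i1 : Integrable (fun t => (f ((0 : Fin (n + 1)).insertNth t y) - g y) ^ 2) (μ 0) := by
        refine integrable_of_bound _ (((hfy y).sub_const _).pow_const 2) (C := c 0 ^ 2) ?_
        intro t
        rw [abs_pow]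
        gcongr
        exact hsmall y t
      have i2 : Integrable (fun t => f ((0 : Fin (n + 1)).insertNth t y) - g y) (μ 0) :=
        integrable_of_bound _ ((hfy y).sub_const _) (hsmall y)
      have i3 : Integrable (fun t => (2 * (g y - A)) *
          (f ((0 : Fin (n + 1)).insertNth t y) - g y)) (μ 0) := i2.const_mul _
      have i4 : Integrable (fun t => (f ((0 : Fin (n + 1)).insertNth t y) - g y) ^ 2 +
          (2 * (g y - A)) * (f ((0 : Fin (n + 1)).insertNth t y) - g y)) (μ 0) := i1.add i3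
      rw [integral_add i4 (integrable_const _), integral_add i1 i3, integral_const_mul]
      have h0 : ∫ t, (f ((0 : Fin (n + 1)).insertNth t y) - g y) ∂(μ 0) = 0 := by
        rw [integral_sub (integrable_of_bound _ (hfy _) fun _ => hb _) (integrable_const _)]
        simp [hg]
      rw [h0]
      have h2 : ∫ t, (f ((0 : Fin (n + 1)).insertNth t y) - g y) ^ 2 ∂(μ 0) ≤ c 0 ^ 2 := by
        calc _ ≤ ∫ _t, c 0 ^ 2 ∂(μ 0) := by
              refine integral_mono i1 (integrable_const _) fun t => ?_
              have := hsmall y t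
              calc _ = |f ((0 : Fin (n + 1)).insertNth t y) - g y| ^ 2 := (sq_abs _).symm
                _ ≤ c 0 ^ 2 := by gcongr
          _ = c 0 ^ 2 := by simp
      simp only [mul_zero, add_zero, integral_const, probReal_univ, smul_eq_mul, one_mul]
      linarith
    have hm1 : Integrable (fun y => ∫ t, (f ((0 : Fin (n + 1)).insertNth t y) - A) ^ 2 ∂(μ 0)) Q := by
      refine integrable_of_bound _ (C := (2 * C) ^ 2) ?_ ?_
      · have h : Measurable (fun p : (Fin n → X) × X =>
            (f ((0 : Fin (n + 1)).insertNth p.2 p.1) - A) ^ 2) := (hfm'.sub_const A).pow_const 2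
        exact (h.stronglyMeasurable.integral_prod_right').measurable
      · intro y
        exact abs_integral_le _ fun t => hsq _ (hb _)
    have hm2 : Integrable (fun y => (g y - A) ^ 2) Q :=
      integrable_of_bound _ ((hgm.sub_const A).pow_const 2) (fun y => hsq _ (hgb y))
    calc _ ≤ ∫ y, (c 0 ^ 2 + (g y - A) ^ 2) ∂Q :=
          integral_mono hm1 ((integrable_const _).add hm2) hin
      _ = c 0 ^ 2 + ∫ y, (g y - A) ^ 2 ∂Q := by
          rw [integral_add (integrable_const _) hm2]; simp
      _ ≤ c 0 ^ 2 + ∑ i : Fin n, c i.succ ^ 2 := by linarith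
      _ = ∑ i, c i ^ 2 := (Fin.sum_univ_succ (fun i => c i ^ 2)).symm


end prod

end Crest.Agent.R146.WrapA_947
end

-- ▼ part R146/FobL_998

/-!
Row 146, S0206, lower bound (task FOBS-L, helper998): for all strengths outside a set of small
measure the field observables are concentrated.

Part 1: basic facts about the system of `S6Def_988`.
-/

set_option autoImplicit false

namespace Crest.Agent.R146.FobL_998

open Finset MeasureTheory ProbabilityTheory Crest.Agent.R141
open Crest.Agent.R146.S6Def_988 Crest.Agent.R146.S6U_988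
open Crest.Agent.R164.ObsConc

noncomputable section

/-! ### the system -/

section basic

variable {N : ℕ} (C : Cfg N) (nc n : ℕ)

theorem prior_isProb : IsProb (prior C nc n) where
  pos ω := mul_pos (C.hq.pos _) (inv_pos.2 (by exact_mod_cast Fintype.card_pos))
  sum := by
    unfold prior
    rw [Fintype.sum_prod_type]
    simp only [sum_const, card_univ, nsmul_eq_mul]
    have h : (Fintype.card (Coins nc n N) : ℝ) ≠ 0 := by
      exact_mod_cast Fintype.card_ne_zero
    have e : ∀ y, (Fintype.card (Coins nc n N) : ℝ) * (C.q y * (Fintype.card (Coins nc n N) : ℝ)⁻¹) =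
        C.q y := fun y => by field_simp
    simp only [e]
    exact C.hq.sum

theorem xs_lower (k : ℕ) : ((nc : ℝ) + 1)⁻¹ ≤ xs nc n k := by
  unfold xs
  refine le_min ?_ ?_
  · exact inv_le_one_of_one_le₀ (by linarith [(Nat.cast_nonneg nc : (0:ℝ) ≤ nc)])
  · rw [inv_eq_one_div]
    apply div_le_div_of_nonneg_right _ (by positivity)
    push_cast
    linarith [(Nat.cast_nonneg ((k - 1) / n) : (0:ℝ) ≤ ((k - 1) / n : ℕ))]

theorem xs_isExpo : IsExpo (xs nc n) where
  pos k := lt_of_lt_of_le (by positivity) (xs_lower nc n k)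
  mono := by
    intro i j h
    unfold xs
    refine min_le_min le_rfl (div_le_div_of_nonneg_right ?_ (by positivity))
    have : (i - 1) / n ≤ (j - 1) / n := Nat.div_le_div_right (by omega)
    exact_mod_cast Nat.add_le_add_right this 1
  le_one k := min_le_left _ _

theorem fil_zero : (fil C nc n).F 0 = ⊤ := by
  ext ω ω'
  constructor
  · intro _; trivial
  · intro _
    refine ⟨fun g t h => absurd h (Nat.not_lt_zero _), fun h => ?_⟩
    unfold Lv at h
    omega

/-- unnormalised field observable -/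
def Vf (g : Fin nc) (ω : Om C nc n) : ℝ := ∑ i, zf ω.2 g i * C.x ω.1 i

theorem Dobs_eq (g : Fin nc) (ω : Om C nc n) : Dobs C nc n g ω = (N : ℝ)⁻¹ * Vf C nc n g ω := rfl

variable {C nc n}

theorem fieldE_update (s : Fin nc → ℝ) (g : Fin nc) (y : ℝ) (ω : Om C nc n) :
    fieldE (Function.update s g (s g + y)) ω = fieldE s ω + y * Vf C nc n g ω := by
  unfold fieldE Vf
  rw [← sub_eq_iff_eq_add', ← Finset.sum_sub_distrib, Finset.sum_eq_single g]
  · simp only [Function.update_self]; ring
  · intro b _ hb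
    rw [Function.update_of_ne hb]; ring
  · intro h; exact absurd (mem_univ g) h

theorem UU_update {M : ℕ} (f : ℕ → ℝ → ℝ) (G : Fin M → Fin N → ℝ) (s : Fin nc → ℝ) (g : Fin nc)
    (y : ℝ) (ω : Om C nc n) :
    UU f G (Function.update s g (s g + y)) ω = UU f G s ω + y * Vf C nc n g ω := by
  unfold UU
  rw [fieldE_update]; ring

theorem Phi_update {M : ℕ} (f : ℕ → ℝ → ℝ) (G : Fin M → Fin N → ℝ) (s : Fin nc → ℝ) (g : Fin nc)
    (y : ℝ) :
    Phi C nc n f G (Function.update s g (s g + y)) =
      gA (prior C nc n) (fil C nc n) (xs nc n) (UU f G s) (Vf C nc n g) y := by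
  unfold Phi gA
  congr 2
  funext ω
  exact UU_update f G s g y ω


/-! ### dependence on the rows -/


instance gam_prob (M N : ℕ) : IsProbabilityMeasure (gam M N) := by
  unfold gam; infer_instance

theorem measurable_rowE {M : ℕ} {f : ℕ → ℝ → ℝ} (hf : ∀ a, Measurable (f a)) (x : Fin N → ℝ) :
    Measurable fun G : Fin M → Fin N → ℝ => rowE f G x := by
  unfold rowE
  refine Finset.measurable_sum _ fun a _ => (hf a).comp ?_
  refine Finset.measurable_sum _ fun i _ => ?_
  exact ((measurable_pi_apply i).comp (measurable_pi_apply a)).mul_const _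

theorem abs_rowE_le {M : ℕ} {f : ℕ → ℝ → ℝ} {K : ℝ} (hK : ∀ a x, |f a x| ≤ K)
    (G : Fin M → Fin N → ℝ) (x : Fin N → ℝ) : |rowE f G x| ≤ M * K := by
  unfold rowE
  refine (Finset.abs_sum_le_sum_abs _ _).trans ?_
  refine (Finset.sum_le_sum fun (a : Fin M) _ => hK (a : ℕ)
    (∑ i, G a i * (x i / Real.sqrt N))).trans ?_
  simp

theorem rowE_update_le {M : ℕ} {f : ℕ → ℝ → ℝ} {K : ℝ} (hK : ∀ a x, |f a x| ≤ K)
    (G : Fin M → Fin N → ℝ) (a : Fin M) (t : Fin N → ℝ) (x : Fin N → ℝ) :
    |rowE f (Function.update G a t) x - rowE f G x| ≤ 2 * K := by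
  unfold rowE
  rw [← Finset.sum_sub_distrib, Finset.sum_eq_single a]
  · refine (abs_sub _ _).trans ?_
    linarith [hK a (∑ i, Function.update G a t a i * (x i / Real.sqrt N)),
      hK a (∑ i, G a i * (x i / Real.sqrt N))]
  · intro b _ hb
    rw [Function.update_of_ne hb]; ring
  · intro h; exact absurd (mem_univ a) h

/-- crude bound of the field energy -/
def fB (C : Cfg N) (nc n : ℕ) (s : Fin nc → ℝ) : ℝ := ∑ ω : Om C nc n, |fieldE s ω|

theorem abs_fieldE_le (s : Fin nc → ℝ) (ω : Om C nc n) : |fieldE s ω| ≤ fB C nc n s :=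
  Finset.single_le_sum (f := fun ω : Om C nc n => |fieldE s ω|) (fun _ _ => abs_nonneg _)
    (mem_univ ω)


theorem abs_UU_le {M : ℕ} {f : ℕ → ℝ → ℝ} {K : ℝ} (hK : ∀ a x, |f a x| ≤ K)
    (G : Fin M → Fin N → ℝ) (s : Fin nc → ℝ) (ω : Om C nc n) :
    |UU f G s ω| ≤ M * K + fB C nc n s := by
  unfold UU
  exact (abs_add_le _ _).trans (add_le_add (abs_rowE_le hK G _) (abs_fieldE_le s ω))

theorem abs_Phi_le {M : ℕ} {f : ℕ → ℝ → ℝ} {K : ℝ} (hK : ∀ a x, |f a x| ≤ K)
    (G : Fin M → Fin N → ℝ) (s : Fin nc → ℝ) :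
    |Phi C nc n f G s| ≤ M * K + fB C nc n s := by
  have hP := prior_isProb C nc n
  have hx := (xs_isExpo nc n).pos
  unfold Phi
  refine (eE_abs_le hP _).trans ?_
  exact eE_le_of_le hP fun ω => A_abs_le hP hx (fun ω => abs_UU_le hK G s ω) 0 ω

theorem Phi_update_row {M : ℕ} {f : ℕ → ℝ → ℝ} {K : ℝ} (hK : ∀ a x, |f a x| ≤ K)
    (G : Fin M → Fin N → ℝ) (s : Fin nc → ℝ) (a : Fin M) (t : Fin N → ℝ) :
    |Phi C nc n f (Function.update G a t) s - Phi C nc n f G s| ≤ 2 * K := by
  have hP := prior_isProb C nc n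
  have hx := (xs_isExpo nc n).pos
  unfold Phi
  rw [← eE_sub]
  refine (eE_abs_le hP _).trans ?_
  refine eE_le_of_le hP fun ω => A_sub_abs_le hP hx (fun ω => ?_) 0 ω
  unfold UU
  have : rowE f (Function.update G a t) (C.x ω.1) + fieldE s ω - (rowE f G (C.x ω.1) + fieldE s ω) =
    rowE f (Function.update G a t) (C.x ω.1) - rowE f G (C.x ω.1) := by ring
  rw [this]
  exact rowE_update_le hK G a t _

end basic

/-! ### measurability -/

section meas

variable {Θ : Type*} [MeasurableSpace Θ] {Ω : Type*} [Fintype Ω]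

theorem meas_eE {P f : Θ → Ω → ℝ} (hP : ∀ ω, Measurable fun θ => P θ ω)
    (hf : ∀ ω, Measurable fun θ => f θ ω) : Measurable fun θ => eE (P θ) (f θ) := by
  unfold eE
  exact Finset.measurable_sum _ fun ω _ => (hP ω).mul (hf ω)

theorem meas_cE {P f : Θ → Ω → ℝ} (hP : ∀ ω, Measurable fun θ => P θ ω)
    (hf : ∀ ω, Measurable fun θ => f θ ω) (r : Setoid Ω) (ω : Ω) :
    Measurable fun θ => cE (P θ) r (f θ) ω := by
  unfold cE
  exact (Finset.measurable_sum _ fun a _ => (hP a).mul (hf a)).div
    (Finset.measurable_sum _ fun a _ => hP a)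

theorem meas_A {P : Ω → ℝ} (hP : IsProb P) {𝓕 : Filt Ω} {x : ℕ → ℝ} (hx : ∀ k, 0 < x k)
    {U : Θ → Ω → ℝ} (hU : ∀ ω, Measurable fun θ => U θ ω) (k : ℕ) :
    ∀ ω, Measurable fun θ => A P 𝓕 x (U θ) k ω := by
  induction k using back_induction 𝓕 with
  | h0 k hk =>
    intro ω
    simp only [A_of_ge _ hk]
    exact hU ω
  | h1 k ih =>
    intro ω
    have h : (fun θ => A P 𝓕 x (U θ) k ω) =
        fun θ => pm P (𝓕.F k) (x (k + 1)) (A P 𝓕 x (U θ) (k + 1)) ω := by
      funext θ
      rw [A_step hP hx (U θ) k]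
    rw [h]
    unfold pm
    have h2 : Measurable fun θ => cE P (𝓕.F k)
        (fun w => Real.exp (x (k + 1) * A P 𝓕 x (U θ) (k + 1) w)) ω :=
      meas_cE (P := fun _ => P) (fun _ => measurable_const)
        (fun w => (Real.measurable_exp.comp ((ih w).const_mul _))) (𝓕.F k) ω
    exact (Real.measurable_log.comp h2).const_mul _

theorem meas_tl {P : Ω → ℝ} (hP : IsProb P) {𝓕 : Filt Ω} {x : ℕ → ℝ} (hx : ∀ k, 0 < x k)
    {U : Θ → Ω → ℝ} (hU : ∀ ω, Measurable fun θ => U θ ω) (ω : Ω) :
    Measurable fun θ => tl P 𝓕 x (U θ) ω := by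
  unfold tl
  refine (Real.measurable_exp.comp ?_).const_mul _
  unfold S
  exact Finset.measurable_sum _ fun l _ =>
    ((meas_A hP hx hU _ ω).sub (meas_A hP hx hU _ ω)).const_mul _

end meas

section basic2

variable {N : ℕ} {C : Cfg N} {nc n : ℕ}

theorem measurable_UU {M : ℕ} {f : ℕ → ℝ → ℝ} (hf : ∀ a, Measurable (f a)) (ω : Om C nc n) :
    Measurable fun p : (Fin nc → ℝ) × (Fin M → Fin N → ℝ) => UU f p.2 p.1 ω := by
  unfold UU
  refine ((measurable_rowE hf _).comp measurable_snd).add ?_
  unfold fieldE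
  exact Finset.measurable_sum _ fun g _ =>
    ((measurable_pi_apply g).comp measurable_fst).mul_const _

theorem measurable_Phi2 {M : ℕ} {f : ℕ → ℝ → ℝ} (hf : ∀ a, Measurable (f a)) :
    Measurable fun p : (Fin nc → ℝ) × (Fin M → Fin N → ℝ) => Phi C nc n f p.2 p.1 := by
  unfold Phi
  exact meas_eE (P := fun _ => prior C nc n) (fun _ => measurable_const)
    (fun ω => meas_A (prior_isProb C nc n) (xs_isExpo nc n).pos (fun ω => measurable_UU hf ω) 0 ω)

theorem measurable_Phi {M : ℕ} {f : ℕ → ℝ → ℝ} (hf : ∀ a, Measurable (f a)) (s : Fin nc → ℝ) :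
    Measurable fun G : Fin M → Fin N → ℝ => Phi C nc n f G s := by
  have h1 : Measurable fun G : Fin M → Fin N → ℝ => (s, G) :=
    measurable_const.prodMk measurable_id
  have h2 := (measurable_Phi2 (C := C) (nc := nc) (n := n) (M := M) hf).comp h1
  exact h2

theorem integrable_Phi {M : ℕ} {f : ℕ → ℝ → ℝ} {K : ℝ} (hf : ∀ a, Measurable (f a))
    (hK : ∀ a x, |f a x| ≤ K) (s : Fin nc → ℝ) :
    Integrable (fun G : Fin M → Fin N → ℝ => Phi C nc n f G s) (gam M N) :=
  WrapA_947.integrable_of_bound _ (measurable_Phi hf s) fun G => abs_Phi_le hK G s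

/-- averaged free energy -/
def ph (C : Cfg N) (nc n : ℕ) (f : ℕ → ℝ → ℝ) (M : ℕ) (s : Fin nc → ℝ) : ℝ :=
  ∫ G, Phi C nc n (M := M) f G s ∂(gam M N)

theorem measurable_ph {f : ℕ → ℝ → ℝ} (hf : ∀ a, Measurable (f a)) (M : ℕ) :
    Measurable (ph C nc n f M) := by
  unfold ph
  exact ((measurable_Phi2 hf).stronglyMeasurable.integral_prod_right').measurable

/-- Efron-Stein -/
theorem var_Phi_le {M : ℕ} {f : ℕ → ℝ → ℝ} {K : ℝ} (hf : ∀ a, Measurable (f a))
    (hK : ∀ a x, |f a x| ≤ K) (s : Fin nc → ℝ) :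
    ∫ G, (Phi C nc n f G s - ph C nc n f M s) ^ 2 ∂(gam M N) ≤ 4 * K ^ 2 * M := by
  have h := WrapA_947.var_le M (fun _ => Measure.pi fun _ : Fin N => gaussianReal 0 1)
    (fun G => Phi C nc n f G s) (fun _ => 2 * K) (measurable_Phi hf s) _
    (fun G => abs_Phi_le hK G s) (fun G a t => Phi_update_row hK G s a t)
  refine h.trans (le_of_eq ?_)
  simp
  ring

theorem abs_dev_Phi_le {M : ℕ} {f : ℕ → ℝ → ℝ} {K : ℝ} (hf : ∀ a, Measurable (f a))
    (hK : ∀ a x, |f a x| ≤ K) (s : Fin nc → ℝ) {r : ℝ} (hr : 0 < r) :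
    ∫ G, |Phi C nc n f G s - ph C nc n f M s| ∂(gam M N) ≤ (4 * K ^ 2 * M / r + r) / 2 := by
  have hi := integrable_Phi (C := C) (nc := nc) (n := n) (M := M) hf hK s
  have i1 : Integrable (fun G => Phi C nc n f G s - ph C nc n f M s) (gam M N) :=
    hi.sub (integrable_const _)
  have i2 : Integrable (fun G => (Phi C nc n f G s - ph C nc n f M s) ^ 2) (gam M N) := by
    refine WrapA_947.integrable_of_bound _ (((measurable_Phi hf s).sub_const _).pow_const 2)
      (C := (M * K + fB C nc n s + |ph C nc n f M s|) ^ 2) fun G => ?_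
    rw [abs_pow]
    have h1 := abs_Phi_le (C := C) (nc := nc) (n := n) hK G s
    have h2 := abs_sub (Phi C nc n f G s) (ph C nc n f M s)
    exact pow_le_pow_left₀ (abs_nonneg _) (by linarith) 2
  have h1 : ∫ G, |Phi C nc n f G s - ph C nc n f M s| ∂(gam M N) ≤
      ∫ G, (((Phi C nc n f G s - ph C nc n f M s) ^ 2 / r + r) / 2) ∂(gam M N) := by
    refine integral_mono i1.abs (((i2.div_const r).add (integrable_const _)).div_const 2) fun G => ?_
    have h0 := sq_nonneg (|Phi C nc n f G s - ph C nc n f M s| - r)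
    have h3 := sq_abs (Phi C nc n f G s - ph C nc n f M s)
    show |Phi C nc n f G s - ph C nc n f M s| ≤
      ((Phi C nc n f G s - ph C nc n f M s) ^ 2 / r + r) / 2
    rw [le_div_iff₀ (by norm_num), ← sub_nonneg]
    have e : (Phi C nc n f G s - ph C nc n f M s) ^ 2 / r + r -
        |Phi C nc n f G s - ph C nc n f M s| * 2 =
        (|Phi C nc n f G s - ph C nc n f M s| - r) ^ 2 / r := by
      rw [← h3]; field_simp; ring
    rw [e]
    positivity
  refine h1.trans ?_
  rw [integral_div, integral_add (i2.div_const r) (integrable_const _), integral_div]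
  simp only [integral_const, probReal_univ, smul_eq_mul, one_mul]
  have := var_Phi_le (C := C) (nc := nc) (n := n) (M := M) hf hK s
  have h4 := div_le_div_of_nonneg_right this hr.le
  linarith

/-- second difference of the averaged free energy is nonnegative -/
theorem ph_convex {M : ℕ} {f : ℕ → ℝ → ℝ} {K : ℝ} (hf : ∀ a, Measurable (f a))
    (hK : ∀ a x, |f a x| ≤ K) (s : Fin nc → ℝ) (g : Fin nc) {y : ℝ} (hy : 0 < y) :
    2 * ph C nc n f M s ≤ ph C nc n f M (Function.update s g (s g + y)) +
      ph C nc n f M (Function.update s g (s g - y)) := by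
  have hP := prior_isProb C nc n
  have hx := (xs_isExpo nc n).pos
  have key : ∀ G : Fin M → Fin N → ℝ, 2 * Phi C nc n f G s ≤
      Phi C nc n f G (Function.update s g (s g + y)) +
      Phi C nc n f G (Function.update s g (s g - y)) := by
    intro G
    have h := gA_sub hP hx (fil_zero C nc n) (UU f G s) (Vf C nc n g) 0 y hy
    rw [zero_add, zero_sub] at h
    have e0 : gA (prior C nc n) (fil C nc n) (xs nc n) (UU f G s) (Vf C nc n g) 0 =
        Phi C nc n f G s := by
      unfold gA Phi
      simp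
    rw [e0, ← Phi_update, ← Phi_update, ← sub_eq_add_neg] at h
    linarith [h.1, h.2]
  unfold ph
  rw [← integral_const_mul, ← integral_add (integrable_Phi hf hK _) (integrable_Phi hf hK _)]
  exact integral_mono ((integrable_Phi hf hK s).const_mul 2)
    ((integrable_Phi hf hK _).add (integrable_Phi hf hK _)) key

/-- **main finite-difference estimate** -/
theorem dobs_le {M : ℕ} {f : ℕ → ℝ → ℝ} {K : ℝ} (hf : ∀ a, Measurable (f a))
    (hK : ∀ a x, |f a x| ≤ K) (s : Fin nc → ℝ) (g : Fin nc) {y r : ℝ} (hy : 0 < y) (hr : 0 < r)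
    (hN : 0 < N) :
    ∃ d : ℝ, ∫ G, eE (QQ C nc n (M := M) f G s) (fun ω => |Dobs C nc n g ω - d|) ∂(gam M N) ≤
      (2 * (ph C nc n f M (Function.update s g (s g + y)) +
        ph C nc n f M (Function.update s g (s g - y)) - 2 * ph C nc n f M s) +
        8 * ((4 * K ^ 2 * M / r + r) / 2) + Real.log 2 * ((nc : ℝ) + 1)) / (y * N) := by
  have hP := prior_isProb C nc n
  have hx := (xs_isExpo nc n).pos
  have hN' : (0:ℝ) < N := by exact_mod_cast hN
  set fp := ph C nc n f M (Function.update s g (s g + y)) with hfp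
  set fm := ph C nc n f M (Function.update s g (s g - y)) with hfm
  set f0 := ph C nc n f M s with hf0
  have hconv : 2 * f0 ≤ fp + fm := ph_convex hf hK s g hy
  set c : ℝ := (fp - fm) / (2 * y) with hc
  have hyc : y * c = (fp - fm) / 2 := by rw [hc]; field_simp
  refine ⟨c / N, ?_⟩
  have key : ∀ G : Fin M → Fin N → ℝ,
      (y * N) * eE (QQ C nc n f G s) (fun ω => |Dobs C nc n g ω - c / N|) ≤
      2 * (fp + fm - 2 * f0) + 2 * |Phi C nc n f G (Function.update s g (s g + y)) - fp| +
        2 * |Phi C nc n f G (Function.update s g (s g - y)) - fm| +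
        4 * |Phi C nc n f G s - f0| + Real.log 2 * ((nc : ℝ) + 1) := by
    intro G
    have h := obs_pt hP hx (fil_zero C nc n) (xm := ((nc : ℝ) + 1)⁻¹) (by positivity)
      (xs_lower nc n) (UU f G s) (Vf C nc n g) hy (f0 := f0) (fp := fp) (fm := fm) (c := c)
      (by rw [hyc]; linarith) (by rw [hyc]; linarith)
    have e1 : gA (prior C nc n) (fil C nc n) (xs nc n) (UU f G s) (Vf C nc n g) (-y) =
        Phi C nc n f G (Function.update s g (s g - y)) := by
      rw [sub_eq_add_neg, Phi_update]
    have e2 : (y * N) * eE (QQ C nc n f G s) (fun ω => |Dobs C nc n g ω - c / N|) =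
        y * eE (tl (prior C nc n) (fil C nc n) (xs nc n) (UU f G s))
          (fun w => |Vf C nc n g w - c|) := by
      rw [mul_assoc, ← eE_smul]
      unfold QQ
      congr 2
      funext ω
      rw [Dobs_eq]
      have : Vf C nc n g ω - c = N * ((N : ℝ)⁻¹ * Vf C nc n g ω - c / N) := by
        field_simp
      rw [this, abs_mul, abs_of_pos hN']
    rw [e2]
    rw [← Phi_update, e1, div_inv_eq_mul] at h
    exact h
  have mQ : Measurable fun G : Fin M → Fin N → ℝ =>
      eE (QQ C nc n f G s) (fun ω => |Dobs C nc n g ω - c / N|) := by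
    refine meas_eE (fun ω => ?_) (fun ω => measurable_const)
    unfold QQ
    exact meas_tl hP hx (fun ω => (measurable_UU hf ω).comp
      (measurable_const.prodMk measurable_id)) ω
  have nonneg : ∀ G : Fin M → Fin N → ℝ,
      0 ≤ eE (QQ C nc n f G s) (fun ω => |Dobs C nc n g ω - c / N|) := fun G =>
    eE_nonneg (tl_isProb hP hx _) fun ω => abs_nonneg _
  rw [le_div_iff₀ (by positivity), mul_comm, ← integral_const_mul]
  have ip : ∀ s' : Fin nc → ℝ, Integrable (fun G => |Phi C nc n f G s' - ph C nc n f M s'|)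
      (gam M N) := fun s' => ((integrable_Phi hf hK s').sub (integrable_const _)).abs
  have j1 := (ip (Function.update s g (s g + y))).const_mul 2
  have j2 := (ip (Function.update s g (s g - y))).const_mul 2
  have j3 := (ip s).const_mul 4
  have j0 : Integrable (fun _ : Fin M → Fin N → ℝ => 2 * (fp + fm - 2 * f0)) (gam M N) :=
    integrable_const _
  have jl : Integrable (fun _ : Fin M → Fin N → ℝ => Real.log 2 * ((nc : ℝ) + 1)) (gam M N) :=
    integrable_const _
  refine (integral_mono_of_nonneg (Filter.Eventually.of_forall fun G => by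
    have := nonneg G; positivity) ((((j0.add j1).add j2).add j3).add jl)
    (Filter.Eventually.of_forall key)).trans ?_
  rw [integral_add' (((j0.add j1).add j2).add j3) jl, integral_add' ((j0.add j1).add j2) j3,
    integral_add' (j0.add j1) j2, integral_add' j0 j1]
  simp only [integral_const_mul, integral_const, probReal_univ, smul_eq_mul, one_mul]
  have a1 := abs_dev_Phi_le (C := C) (nc := nc) (n := n) (M := M) hf hK
    (Function.update s g (s g + y)) hr
  have a2 := abs_dev_Phi_le (C := C) (nc := nc) (n := n) (M := M) hf hK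
    (Function.update s g (s g - y)) hr
  have a3 := abs_dev_Phi_le (C := C) (nc := nc) (n := n) (M := M) hf hK s hr
  linarith


/-! ### bounds of the averaged free energy -/

theorem sum_cosh_bool (a : ℝ) : (Real.exp (a * sv true) + Real.exp (a * sv false)) / 2 =
    Real.cosh a := by
  unfold sv
  simp only [if_true]
  rw [Real.cosh_eq]
  simp

/-- exponential moment of a linear form of the coins -/
theorem coins_exp {ι : Type*} [Fintype ι] [DecidableEq ι] (c : ι → ℝ) :
    (Fintype.card (ι → Bool) : ℝ)⁻¹ * ∑ w : ι → Bool, Real.exp (∑ j, c j * sv (w j)) ≤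
      Real.exp (1 / 2 * ∑ j, c j ^ 2) := by
  have h1 : ∑ w : ι → Bool, Real.exp (∑ j, c j * sv (w j)) =
      ∏ j, ∑ b : Bool, Real.exp (c j * sv b) := by
    rw [Finset.prod_univ_sum]
    simp only [Fintype.piFinset_univ]
    refine Finset.sum_congr rfl fun w _ => ?_
    rw [Real.exp_sum]
  rw [h1, Fintype.card_fun, Fintype.card_bool, Nat.cast_pow, Nat.cast_ofNat, ← inv_pow,
    ← Finset.card_univ, ← Finset.prod_const, ← Finset.prod_mul_distrib, Finset.mul_sum,
    Real.exp_sum]
  refine Finset.prod_le_prod (fun j _ => ?_) fun j _ => ?_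
  · exact mul_nonneg (by positivity) (Finset.sum_nonneg fun _ _ => (Real.exp_pos _).le)
  · rw [Fintype.sum_bool]
    have := sum_cosh_bool (c j)
    have h2 := Real.cosh_le_exp_half_sq (c j)
    have e : (2:ℝ)⁻¹ * (Real.exp (c j * sv true) + Real.exp (c j * sv false)) = Real.cosh (c j) := by
      rw [← this]; ring
    rw [e]
    refine h2.trans (le_of_eq ?_)
    congr 1; ring

/-- the mean of a linear form of the coins vanishes -/
theorem coins_lin {ι : Type*} [Fintype ι] [DecidableEq ι] (c : ι → ℝ) :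
    ∑ w : ι → Bool, ∑ j, c j * sv (w j) = 0 := by
  rw [Finset.sum_comm]
  refine Finset.sum_eq_zero fun j _ => ?_
  rw [← Finset.mul_sum]
  have : ∑ w : ι → Bool, sv (w j) = 0 := by
    have h := Finset.sum_involution (s := (Finset.univ : Finset (ι → Bool)))
      (f := fun w => sv (w j)) (fun w _ => Function.update w j (!(w j)))
      (by
        intro w _
        simp only [Function.update_self]
        unfold sv
        cases w j <;> simp)
      (by
        intro w _ _ h
        have := congrFun h j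
        simp at this)
      (fun _ _ => mem_univ _)
      (by
        intro w _
        simp)
    exact h
  rw [this, mul_zero]


/-- coefficients of the field energy as a linear form of the coins -/
def cf (C : Cfg N) (nc n : ℕ) (s : Fin nc → ℝ) (y : C.Y) (j : Fin nc × Fin n × Fin N) : ℝ :=
  s j.1 * ((Real.sqrt n)⁻¹ * C.x y j.2.2)

theorem fieldE_eq_lin (s : Fin nc → ℝ) (ω : Om C nc n) :
    fieldE s ω = ∑ j : Fin nc × Fin n × Fin N, cf C nc n s ω.1 j * sv (ω.2 j.1 j.2.1 j.2.2) := by
  unfold fieldE zf cf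
  rw [Fintype.sum_prod_type]
  refine Finset.sum_congr rfl fun g _ => ?_
  rw [Fintype.sum_prod_type, Finset.sum_comm, Finset.mul_sum]
  refine Finset.sum_congr rfl fun i _ => ?_
  simp only [Finset.mul_sum, Finset.sum_mul]
  refine Finset.sum_congr rfl fun t _ => ?_
  ring

/-- currying of the coins -/
def cuE (nc n N : ℕ) : ((Fin nc × Fin n × Fin N) → Bool) ≃ Coins nc n N where
  toFun w g t i := w (g, t, i)
  invFun c j := c j.1 j.2.1 j.2.2
  left_inv w := by funext ⟨g, t, i⟩; rfl
  right_inv c := rfl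

theorem card_coins : (Fintype.card (Coins nc n N) : ℝ) =
    Fintype.card ((Fin nc × Fin n × Fin N) → Bool) := by
  rw [Fintype.card_congr (cuE nc n N)]

theorem cf_sq (hn : 0 < n) (s : Fin nc → ℝ) (y : C.Y) :
    ∑ j, cf C nc n s y j ^ 2 = N * ∑ g, s g ^ 2 := by
  unfold cf
  rw [Fintype.sum_prod_type, Finset.mul_sum]
  refine Finset.sum_congr rfl fun g _ => ?_
  rw [Fintype.sum_prod_type]
  simp only [mul_pow, ← Finset.mul_sum, C.hx, sum_const, card_univ, Fintype.card_fin, nsmul_eq_mul]
  have hn' : (0:ℝ) < n := by exact_mod_cast hn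
  rw [inv_pow, Real.sq_sqrt hn'.le]
  field_simp

theorem eE_exp_field_le (hn : 0 < n) (s : Fin nc → ℝ) :
    eE (prior C nc n) (fun ω => Real.exp (fieldE s ω)) ≤ Real.exp (N / 2 * ∑ g, s g ^ 2) := by
  unfold eE prior
  rw [Fintype.sum_prod_type]
  have key : ∀ y : C.Y, ∑ c : Coins nc n N, C.q y * (Fintype.card (Coins nc n N) : ℝ)⁻¹ *
      Real.exp (fieldE s ((y, c) : Om C nc n)) ≤ C.q y * Real.exp (N / 2 * ∑ g, s g ^ 2) := by
    intro y
    have h := coins_exp (cf C nc n s y)
    rw [cf_sq hn] at h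
    have e : ∑ c : Coins nc n N, C.q y * (Fintype.card (Coins nc n N) : ℝ)⁻¹ *
        Real.exp (fieldE s ((y, c) : Om C nc n)) =
        C.q y * ((Fintype.card ((Fin nc × Fin n × Fin N) → Bool) : ℝ)⁻¹ *
          ∑ w : (Fin nc × Fin n × Fin N) → Bool, Real.exp (∑ j, cf C nc n s y j * sv (w j))) := by
      rw [← card_coins (nc := nc) (n := n) (N := N), ← (cuE nc n N).sum_comp, Finset.mul_sum,
        Finset.mul_sum]
      refine Finset.sum_congr rfl fun w _ => ?_
      rw [fieldE_eq_lin, mul_assoc]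
      rfl
    rw [e]
    refine mul_le_mul_of_nonneg_left (h.trans (le_of_eq ?_)) (C.hq.pos y).le
    congr 1; ring
  refine (Finset.sum_le_sum fun y _ => key y).trans (le_of_eq ?_)
  rw [← Finset.sum_mul, C.hq.sum, one_mul]

theorem eE_field (s : Fin nc → ℝ) : eE (prior C nc n) (fun ω => fieldE s ω) = 0 := by
  unfold eE prior
  rw [Fintype.sum_prod_type]
  refine Finset.sum_eq_zero fun y _ => ?_
  show ∑ c : Coins nc n N, C.q y * (Fintype.card (Coins nc n N) : ℝ)⁻¹ *
    fieldE s ((y, c) : Om C nc n) = 0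
  rw [← Finset.mul_sum, ← (cuE nc n N).sum_comp]
  have := coins_lin (cf C nc n s y)
  have e : ∀ w : (Fin nc × Fin n × Fin N) → Bool, fieldE s ((y, cuE nc n N w) : Om C nc n) =
      ∑ j, cf C nc n s y j * sv (w j) := fun w => by rw [fieldE_eq_lin]; rfl
  simp only [e]
  rw [this, mul_zero]

theorem Phi_le {M : ℕ} {f : ℕ → ℝ → ℝ} {K : ℝ} (hK : ∀ a x, |f a x| ≤ K) (hn : 0 < n)
    (G : Fin M → Fin N → ℝ) (s : Fin nc → ℝ) :
    Phi C nc n f G s ≤ M * K + N / 2 * ∑ g, s g ^ 2 := by
  have hP := prior_isProb C nc n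
  unfold Phi
  refine eE_le_of_le hP fun ω => ?_
  refine (A_le_log hP (xs_isExpo nc n) _ 0 ω).trans ?_
  rw [cE_top (fil_zero C nc n) hP]
  have h1 : eE (prior C nc n) (fun ω => Real.exp (UU f G s ω)) ≤
      Real.exp (M * K) * eE (prior C nc n) (fun ω => Real.exp (fieldE s ω)) := by
    rw [← eE_smul]
    refine eE_mono hP fun ω => ?_
    unfold UU
    rw [Real.exp_add]
    refine mul_le_mul_of_nonneg_right (Real.exp_le_exp.2 ?_) (Real.exp_pos _).le
    exact (le_abs_self _).trans (abs_rowE_le hK G _)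
  have h2 : eE (prior C nc n) (fun ω => Real.exp (UU f G s ω)) ≤
      Real.exp (M * K + N / 2 * ∑ g, s g ^ 2) := by
    rw [Real.exp_add]
    exact h1.trans (mul_le_mul_of_nonneg_left (eE_exp_field_le hn s) (Real.exp_pos _).le)
  have hpos : 0 < eE (prior C nc n) (fun ω => Real.exp (UU f G s ω)) := by
    rw [← cE_top (r := ⊤) rfl hP _ ω]
    exact cE_pos hP (fun _ => Real.exp_pos _) ω
  rw [← Real.log_exp (M * K + N / 2 * ∑ g, s g ^ 2)]
  exact Real.log_le_log hpos h2

theorem le_Phi {M : ℕ} {f : ℕ → ℝ → ℝ} {K : ℝ} (hK : ∀ a x, |f a x| ≤ K)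
    (G : Fin M → Fin N → ℝ) (s : Fin nc → ℝ) :
    -(M * K) ≤ Phi C nc n f G s := by
  have hP := prior_isProb C nc n
  unfold Phi
  refine le_trans ?_ (eE_le_A0 hP (xs_isExpo nc n).pos _)
  have : -(M * K) = eE (prior C nc n) (fun ω => -(M * K) + fieldE s ω) := by
    rw [eE_add, eE_const hP, eE_field, add_zero]
  rw [this]
  refine eE_mono hP fun ω => ?_
  unfold UU
  have := (neg_le_neg (abs_rowE_le (M := M) hK G (C.x ω.1))).trans (neg_abs_le _)
  linarith

theorem ph_le {M : ℕ} {f : ℕ → ℝ → ℝ} {K : ℝ} (hf : ∀ a, Measurable (f a))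
    (hK : ∀ a x, |f a x| ≤ K) (hn : 0 < n) (s : Fin nc → ℝ) :
    ph C nc n f M s ≤ M * K + N / 2 * ∑ g, s g ^ 2 := by
  unfold ph
  have := integral_mono (integrable_Phi (C := C) (nc := nc) (n := n) (M := M) hf hK s)
    (integrable_const (M * K + N / 2 * ∑ g, s g ^ 2)) fun G => Phi_le hK hn G s
  simpa using this

theorem le_ph {M : ℕ} {f : ℕ → ℝ → ℝ} {K : ℝ} (hf : ∀ a, Measurable (f a))
    (hK : ∀ a x, |f a x| ≤ K) (s : Fin nc → ℝ) :
    -(M * K) ≤ ph C nc n f M s := by
  unfold ph
  have := integral_mono (integrable_const (-(M * K)))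
    (integrable_Phi (C := C) (nc := nc) (n := n) (M := M) hf hK s) fun G => le_Phi hK G s
  simpa using this


end basic2

/-! ### one variable: convex functions -/

section onevar

/-- Lipschitz bound of a convex function bounded by `B` on `[-1,4]`. -/
theorem conv_lip {u : ℝ → ℝ} (hu : ConvexOn ℝ Set.univ u) {B : ℝ}
    (hB : ∀ t ∈ Set.Icc (-1:ℝ) 4, |u t| ≤ B) {a b : ℝ} (ha : 0 ≤ a) (hab : a ≤ b) (hb : b ≤ 3) :
    |u b - u a| ≤ 2 * B * (b - a) := by
  rcases eq_or_lt_of_le hab with h | h
  · rw [h]; simp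
  have hB0 : 0 ≤ B := (abs_nonneg _).trans (hB 0 (by constructor <;> norm_num))
  have h1 := hu.slope_mono_adjacent (x := -1) (y := a) (z := b) (Set.mem_univ _) (Set.mem_univ _)
    (by linarith) h
  have h2 := hu.slope_mono_adjacent (x := a) (y := b) (z := 4) (Set.mem_univ _) (Set.mem_univ _)
    h (by linarith)
  have b1 := abs_le.1 (hB (-1) (by constructor <;> norm_num))
  have b2 := abs_le.1 (hB 4 (by constructor <;> norm_num))
  have b3 := abs_le.1 (hB a (by constructor <;> linarith))
  have b4 := abs_le.1 (hB b (by constructor <;> linarith))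
  have l1 : -(2 * B) ≤ (u a - u (-1)) / (a - -1) := by
    rw [le_div_iff₀ (by linarith)]
    nlinarith [b1.2, b3.1]
  have l2 : (u 4 - u b) / (4 - b) ≤ 2 * B := by
    rw [div_le_iff₀ (by linarith)]
    nlinarith [b2.2, b4.1]
  have hba : 0 < b - a := by linarith
  have k1 := l1.trans h1
  have k2 := h2.trans l2
  rw [le_div_iff₀ hba] at k1
  rw [div_le_iff₀ hba] at k2
  rw [abs_le]
  constructor <;> linarith

/-- averaged second difference of a convex function -/
theorem avg_second_diff {u : ℝ → ℝ} (hu : ConvexOn ℝ Set.univ u) {B : ℝ}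
    (hB : ∀ t ∈ Set.Icc (-1:ℝ) 4, |u t| ≤ B) {h : ℝ} (h0 : 0 < h) (h1 : h ≤ 1) :
    ∫ t in (1:ℝ)..2, (u (t + h) + u (t - h) - 2 * u t) ≤ 4 * B * h ^ 2 := by
  have hc : Continuous u := by
    have := hu.continuousOn isOpen_univ
    rwa [← continuousOn_univ]
  have ii : ∀ a b : ℝ, IntervalIntegrable u volume a b := fun a b => hc.intervalIntegrable a b
  have c1 : Continuous fun t => u (t + h) := hc.comp (continuous_id.add continuous_const)
  have c2 : Continuous fun t => u (t - h) := hc.comp (continuous_id.sub continuous_const)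
  have e1 : ∫ t in (1:ℝ)..2, (u (t + h) + u (t - h) - 2 * u t) =
      (∫ t in (1:ℝ)..2, u (t + h)) + (∫ t in (1:ℝ)..2, u (t - h)) - 2 * ∫ t in (1:ℝ)..2, u t := by
    rw [intervalIntegral.integral_sub, intervalIntegral.integral_add,
      intervalIntegral.integral_const_mul]
    · exact c1.intervalIntegrable _ _
    · exact c2.intervalIntegrable _ _
    · exact (c1.add c2).intervalIntegrable _ _
    · exact (continuous_const.mul hc).intervalIntegrable _ _
  rw [e1, intervalIntegral.integral_comp_add_right, intervalIntegral.integral_comp_sub_right]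
  have a1 : ∫ t in (1 + h)..(2 + h), u t =
      (∫ t in (1:ℝ)..2, u t) + (∫ t in (2:ℝ)..(2 + h), u t) - ∫ t in (1:ℝ)..(1 + h), u t := by
    have p1 := intervalIntegral.integral_add_adjacent_intervals (ii 1 (1 + h)) (ii (1 + h) (2 + h))
    have p2 := intervalIntegral.integral_add_adjacent_intervals (ii 1 2) (ii 2 (2 + h))
    linarith
  have a2 : ∫ t in (1 - h)..(2 - h), u t =
      (∫ t in (1:ℝ)..2, u t) + (∫ t in (1 - h)..1, u t) - ∫ t in (2 - h)..2, u t := by
    have p1 := intervalIntegral.integral_add_adjacent_intervals (ii (1 - h) 1) (ii 1 2)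
    have p2 := intervalIntegral.integral_add_adjacent_intervals (ii (1 - h) (2 - h)) (ii (2 - h) 2)
    linarith
  rw [a1, a2]
  have s1 : (∫ t in (2:ℝ)..(2 + h), u t) - ∫ t in (2 - h)..2, u t ≤ 2 * B * h ^ 2 := by
    have q : ∫ t in (2 - h)..2, u t = ∫ t in (2:ℝ)..(2 + h), u (t - h) := by
      rw [intervalIntegral.integral_comp_sub_right]
      congr 1; ring
    rw [q, ← intervalIntegral.integral_sub (ii _ _) (c2.intervalIntegrable _ _)]
    have : ∫ t in (2:ℝ)..(2 + h), (u t - u (t - h)) ≤ ∫ _t in (2:ℝ)..(2 + h), 2 * B * h := by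
      refine intervalIntegral.integral_mono_on (by linarith) ((ii _ _).sub
        (c2.intervalIntegrable _ _)) (by simp) fun t ht => ?_
      have := conv_lip hu hB (a := t - h) (b := t) (by linarith [ht.1]) (by linarith)
        (by linarith [ht.2])
      have h3 := (le_abs_self _).trans this
      linarith
    refine this.trans (le_of_eq ?_)
    rw [intervalIntegral.integral_const, smul_eq_mul]; ring
  have s2 : (∫ t in (1 - h)..1, u t) - ∫ t in (1:ℝ)..(1 + h), u t ≤ 2 * B * h ^ 2 := by
    have q : ∫ t in (1 - h)..1, u t = ∫ t in (1:ℝ)..(1 + h), u (t - h) := by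
      rw [intervalIntegral.integral_comp_sub_right]
      congr 1; ring
    rw [q, ← intervalIntegral.integral_sub (c2.intervalIntegrable _ _) (ii _ _)]
    have : ∫ t in (1:ℝ)..(1 + h), (u (t - h) - u t) ≤ ∫ _t in (1:ℝ)..(1 + h), 2 * B * h := by
      refine intervalIntegral.integral_mono_on (by linarith) ((c2.intervalIntegrable _ _).sub
        (ii _ _)) (by simp) fun t ht => ?_
      have := conv_lip hu hB (a := t - h) (b := t) (by linarith [ht.1]) (by linarith)
        (by linarith [ht.2])
      have h3 := (neg_abs_le (u t - u (t - h)))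
      linarith
    refine this.trans (le_of_eq ?_)
    rw [intervalIntegral.integral_const, smul_eq_mul]; ring
  linarith


end onevar

/-! ### strengths in a box -/

section box

variable {N : ℕ} {C : Cfg N} {nc n : ℕ}

theorem Phi_convexOn {M : ℕ} (f : ℕ → ℝ → ℝ) (G : Fin M → Fin N → ℝ) (s : Fin nc → ℝ)
    (g : Fin nc) :
    ConvexOn ℝ Set.univ (fun t => Phi C nc n f G (Function.update s g t)) := by
  have h := convexOn_gA (𝓕 := fil C nc n) (prior_isProb C nc n) (xs_isExpo nc n).pos
    (fil_zero C nc n) (UU f G s) (Vf C nc n g)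
  refine ⟨convex_univ, fun t _ t' _ a c ha hc hac => ?_⟩
  have h2 := h.2 (Set.mem_univ (t - s g)) (Set.mem_univ (t' - s g)) ha hc hac
  have e : ∀ t, Phi C nc n f G (Function.update s g t) =
      gA (prior C nc n) (fil C nc n) (xs nc n) (UU f G s) (Vf C nc n g) (t - s g) := by
    intro t
    rw [← Phi_update]
    congr 2; ring
  simp only [smul_eq_mul] at h2 ⊢
  rw [e, e, e]
  have e2 : a * t + c * t' - s g = a * (t - s g) + c * (t' - s g) := by
    have : s g = (a + c) * s g := by rw [hac, one_mul]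
    nlinarith [this]
  rw [e2]
  exact h2

theorem ph_convexOn {f : ℕ → ℝ → ℝ} {K : ℝ} (hf : ∀ a, Measurable (f a))
    (hK : ∀ a x, |f a x| ≤ K) (M : ℕ) (s : Fin nc → ℝ) (g : Fin nc) :
    ConvexOn ℝ Set.univ (fun t => ph C nc n f M (Function.update s g t)) := by
  refine ⟨convex_univ, fun t _ t' _ a c ha hc hac => ?_⟩
  simp only [smul_eq_mul]
  unfold ph
  rw [← integral_const_mul, ← integral_const_mul,
    ← integral_add ((integrable_Phi hf hK _).const_mul _) ((integrable_Phi hf hK _).const_mul _)]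
  refine integral_mono (integrable_Phi hf hK _) (((integrable_Phi hf hK _).const_mul _).add
    ((integrable_Phi hf hK _).const_mul _)) fun G => ?_
  have h := (Phi_convexOn (C := C) (n := n) f G s g).2 (Set.mem_univ t) (Set.mem_univ t') ha hc hac
  simpa using h

/-- normalised averaged free energy at strengths `b l`. -/
def Fl (C : Cfg N) (nc n : ℕ) (f : ℕ → ℝ → ℝ) (M : ℕ) (b : ℝ) (l : Fin nc → ℝ) : ℝ :=
  (N : ℝ)⁻¹ * ph C nc n f M (fun g => b * l g)

theorem upd_smul (b : ℝ) (l : Fin nc → ℝ) (g : Fin nc) (t : ℝ) :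
    (fun g' => b * Function.update l g t g') = Function.update (fun g' => b * l g') g (b * t) := by
  funext g'
  by_cases h : g' = g
  · subst h; simp
  · simp [Function.update_of_ne h]

theorem Fl_convexOn {f : ℕ → ℝ → ℝ} {K : ℝ} (hf : ∀ a, Measurable (f a))
    (hK : ∀ a x, |f a x| ≤ K) (M : ℕ) (b : ℝ) (l : Fin nc → ℝ) (g : Fin nc) :
    ConvexOn ℝ Set.univ (fun t => Fl C nc n f M b (Function.update l g t)) := by
  refine ⟨convex_univ, fun t _ t' _ a c ha hc hac => ?_⟩
  have h := (ph_convexOn (C := C) (n := n) hf hK M (fun g' => b * l g') g).2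
    (Set.mem_univ (b * t)) (Set.mem_univ (b * t')) ha hc hac
  simp only [smul_eq_mul] at h ⊢
  unfold Fl
  rw [upd_smul, upd_smul, upd_smul]
  have e : b * (a * t + c * t') = a * (b * t) + c * (b * t') := by ring
  rw [e]
  have hN : (0:ℝ) ≤ (N:ℝ)⁻¹ := by positivity
  have := mul_le_mul_of_nonneg_left h hN
  linarith

theorem abs_Fl_le {f : ℕ → ℝ → ℝ} {K : ℝ} (hf : ∀ a, Measurable (f a))
    (hK : ∀ a x, |f a x| ≤ K) {M : ℕ} {αm : ℝ} (hN : 0 < N) (hn : 0 < n) (hM : (M : ℝ) ≤ αm * N)
    (b : ℝ) (l : Fin nc → ℝ) (hl : ∀ g, |l g| ≤ 4) :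
    |Fl C nc n f M b l| ≤ αm * K + 8 * b ^ 2 * nc := by
  have hN' : (0:ℝ) < N := by exact_mod_cast hN
  have hK0 : 0 ≤ K := (abs_nonneg _).trans (hK 0 0)
  have h1 := ph_le (C := C) (nc := nc) (n := n) (M := M) hf hK hn (fun g => b * l g)
  have h2 := le_ph (C := C) (nc := nc) (n := n) (M := M) hf hK (fun g => b * l g)
  have h3 : ∑ g, (b * l g) ^ 2 ≤ 16 * b ^ 2 * nc := by
    have : ∀ g ∈ (univ : Finset (Fin nc)), (b * l g) ^ 2 ≤ 16 * b ^ 2 := by
      intro g _
      have h := hl g
      have h' : l g ^ 2 ≤ 4 ^ 2 := sq_le_sq' (by linarith [(abs_le.1 h).1]) (abs_le.1 h).2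
      rw [mul_pow]
      nlinarith [sq_nonneg b]
    refine (Finset.sum_le_sum this).trans (le_of_eq ?_)
    simp; ring
  have h4 : (M : ℝ) * K ≤ αm * K * N := by nlinarith
  unfold Fl
  rw [abs_mul, abs_of_pos (inv_pos.2 hN'), inv_mul_le_iff₀ hN', abs_le]
  have h5 : 0 ≤ 8 * b ^ 2 * (nc:ℝ) * N := by positivity
  constructor
  · nlinarith
  · nlinarith

theorem measurable_Fl {f : ℕ → ℝ → ℝ} (hf : ∀ a, Measurable (f a)) (M : ℕ) (b : ℝ) :
    Measurable (Fl C nc n f M b) := by
  unfold Fl
  refine Measurable.const_mul ((measurable_ph hf M).comp ?_) _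
  exact measurable_pi_lambda _ fun g =>
    Measurable.const_mul (f := fun l : Fin nc → ℝ => l g) (measurable_pi_apply g) b

/-- second difference in the coordinate `g` -/
def D2 (C : Cfg N) (nc n : ℕ) (f : ℕ → ℝ → ℝ) (M : ℕ) (b h : ℝ) (g : Fin nc)
    (l : Fin nc → ℝ) : ℝ :=
  Fl C nc n f M b (Function.update l g (l g + h)) +
    Fl C nc n f M b (Function.update l g (l g - h)) - 2 * Fl C nc n f M b l

theorem measurable_D2 {f : ℕ → ℝ → ℝ} (hf : ∀ a, Measurable (f a)) (M : ℕ) (b h : ℝ)
    (g : Fin nc) : Measurable (D2 C nc n f M b h g) := by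
  unfold D2
  have hm := measurable_Fl (C := C) (nc := nc) (n := n) hf M b
  have hu : ∀ c : ℝ, Measurable fun l : Fin nc → ℝ => Function.update l g (l g + c) := by
    intro c
    refine measurable_pi_lambda _ fun g' => ?_
    by_cases h : g' = g
    · subst h
      simp only [Function.update_self]
      exact Measurable.add_const (f := fun l : Fin nc → ℝ => l g') (measurable_pi_apply g') c
    · simp only [Function.update_of_ne h]
      exact measurable_pi_apply _
  have hu2 : Measurable fun l : Fin nc → ℝ => Function.update l g (l g - h) := by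
    simpa [sub_eq_add_neg] using hu (-h)
  exact ((hm.comp (hu h)).add (hm.comp hu2)).sub (hm.const_mul 2)

theorem D2_nonneg {f : ℕ → ℝ → ℝ} {K : ℝ} (hf : ∀ a, Measurable (f a))
    (hK : ∀ a x, |f a x| ≤ K) (M : ℕ) (b : ℝ) {h : ℝ} (g : Fin nc) (l : Fin nc → ℝ) :
    0 ≤ D2 C nc n f M b h g l := by
  have hc := (Fl_convexOn (C := C) (n := n) hf hK M b l g).2 (Set.mem_univ (l g + h))
    (Set.mem_univ (l g - h)) (show (0:ℝ) ≤ 1 / 2 by norm_num) (show (0:ℝ) ≤ 1 / 2 by norm_num)
    (by norm_num)
  simp only [smul_eq_mul] at hc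
  have e : (1:ℝ) / 2 * (l g + h) + 1 / 2 * (l g - h) = l g := by ring
  rw [e, Function.update_eq_self] at hc
  unfold D2
  linarith

/-- clamping to `[1,2]` -/
def cl (t : ℝ) : ℝ := max 1 (min 2 t)

theorem cl_mem (t : ℝ) : 1 ≤ cl t ∧ cl t ≤ 2 :=
  ⟨le_max_left _ _, max_le (by norm_num) (min_le_left _ _)⟩

theorem cl_of_mem {t : ℝ} (h : t ∈ Set.Icc (1:ℝ) 2) : cl t = t := by
  unfold cl
  rw [min_eq_right h.2, max_eq_right h.1]

theorem measurable_cl : Measurable cl := measurable_const.max (measurable_const.min measurable_id)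

/-- the uniform law on `[1,2]` -/
def u12 : Measure ℝ := volume.restrict (Set.Icc 1 2)

instance : IsProbabilityMeasure u12 := by
  constructor
  unfold u12
  rw [Measure.restrict_apply_univ, Real.volume_Icc]
  norm_num

theorem integral_D2_le {f : ℕ → ℝ → ℝ} {K : ℝ} (hf : ∀ a, Measurable (f a))
    (hK : ∀ a x, |f a x| ≤ K) {M : ℕ} {αm : ℝ} (hN : 0 < N) (hn : 0 < n) (hM : (M : ℝ) ≤ αm * N)
    (b : ℝ) {h : ℝ} (h0 : 0 < h) (h1 : h ≤ 1) (g : Fin nc) :
    ∫ l : Fin nc → ℝ, D2 C nc n f M b h g (fun g' => cl (l g')) ∂(Measure.pi fun _ => u12) ≤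
      4 * (αm * K + 8 * b ^ 2 * nc) * h ^ 2 := by
  set B := αm * K + 8 * b ^ 2 * (nc:ℝ) with hB
  have mcl : Measurable fun l : Fin nc → ℝ => fun g' => cl (l g') :=
    measurable_pi_lambda _ fun g' => measurable_cl.comp (measurable_pi_apply g')
  have hF := (measurable_D2 (C := C) (n := n) hf M b h g).comp mcl
  have hbd : ∀ l : Fin nc → ℝ, |D2 C nc n f M b h g (fun g' => cl (l g'))| ≤ 4 * B := by
    intro l
    have hb : ∀ t : ℝ, |t| ≤ 4 → |Fl C nc n f M b (Function.update (fun g' => cl (l g')) g t)| ≤ B := by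
      intro t ht
      refine abs_Fl_le hf hK hN hn hM b _ fun g' => ?_
      by_cases hg : g' = g
      · subst hg; simpa using ht
      · rw [Function.update_of_ne hg]
        have := cl_mem (l g')
        rw [abs_le]; constructor <;> linarith
    have hc := cl_mem (l g)
    have b1 := abs_le.1 (hb (cl (l g) + h) (by rw [abs_le]; constructor <;> linarith))
    have b2 := abs_le.1 (hb (cl (l g) - h) (by rw [abs_le]; constructor <;> linarith))
    have b3 := abs_le.1 (hb (cl (l g)) (by rw [abs_le]; constructor <;> linarith))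
    have e3 : Function.update (fun g' => cl (l g')) g (cl (l g)) = fun g' => cl (l g') :=
      Function.update_eq_self (f := fun g' => cl (l g')) g
    rw [e3] at b3
    unfold D2
    rw [abs_le]
    constructor <;> linarith [b1.1, b1.2, b2.1, b2.2, b3.1, b3.2]
  have hr := WrapA_947.integral_resample (fun _ : Fin nc => u12) g hF hbd
  have hr' : ∫ l : Fin nc → ℝ, D2 C nc n f M b h g (fun g' => cl (l g')) ∂(Measure.pi fun _ => u12) =
    ∫ l : Fin nc → ℝ, ∫ t, D2 C nc n f M b h g (fun g' => cl (Function.update l g t g')) ∂u12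
      ∂(Measure.pi fun _ => u12) := hr
  rw [hr']
  have inner : ∀ l : Fin nc → ℝ,
      ∫ t, D2 C nc n f M b h g (fun g' => cl (Function.update l g t g')) ∂u12 ≤ 4 * B * h ^ 2 := by
    intro l
    set l' : Fin nc → ℝ := fun g' => cl (l g') with hl'
    have e1 : ∫ t, D2 C nc n f M b h g (fun g' => cl (Function.update l g t g')) ∂u12 =
        ∫ t in (1:ℝ)..2, (Fl C nc n f M b (Function.update l' g (t + h)) +
          Fl C nc n f M b (Function.update l' g (t - h)) -
          2 * Fl C nc n f M b (Function.update l' g t)) := by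
      rw [intervalIntegral.integral_of_le (by norm_num), ← integral_Icc_eq_integral_Ioc]
      unfold u12
      refine setIntegral_congr_fun measurableSet_Icc fun t ht => ?_
      have e2 : (fun g' => cl (Function.update l g t g')) = Function.update l' g t := by
        funext g'
        by_cases hg : g' = g
        · subst hg; simp [cl_of_mem ht]
        · simp [Function.update_of_ne hg, hl']
      show D2 C nc n f M b h g (fun g' => cl (Function.update l g t g')) = _
      rw [e2]
      unfold D2
      simp only [Function.update_self, Function.update_idem]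
    rw [e1]
    refine avg_second_diff (u := fun t => Fl C nc n f M b (Function.update l' g t))
      (Fl_convexOn hf hK M b l' g) (fun t ht => ?_) h0 h1
    refine abs_Fl_le hf hK hN hn hM b _ fun g' => ?_
    by_cases hg : g' = g
    · subst hg
      simp only [Function.update_self]
      rw [abs_le]; constructor <;> linarith [ht.1, ht.2]
    · rw [Function.update_of_ne hg]
      have := cl_mem (l g')
      rw [abs_le]; constructor <;> simp only [hl'] <;> linarith
  have := integral_mono_of_nonneg (μ := Measure.pi fun _ : Fin nc => u12)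
    (f := fun l : Fin nc → ℝ =>
      ∫ t, D2 C nc n f M b h g (fun g' => cl (Function.update l g t g')) ∂u12)
    (g := fun _ => 4 * B * h ^ 2)
    (Filter.Eventually.of_forall fun l => integral_nonneg fun t => D2_nonneg hf hK M b g _)
    (integrable_const _) (Filter.Eventually.of_forall inner)
  simpa using this


theorem restrict_box (nc : ℕ) : Measure.pi (fun _ : Fin nc => u12) =
    (volume : Measure (Fin nc → ℝ)).restrict (Set.Icc (fun _ => 1) (fun _ => 2)) := by
  unfold u12
  rw [← Set.pi_univ_Icc, volume_pi, Measure.restrict_pi_pi]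

/-- **(L form)** for all strengths `b l`, `l ∈ [1,2]^nc`, outside a set of measure `≤ ε`, all field
observables are concentrated. -/
theorem good_strengths (nc : ℕ) (b K αm δ ε : ℝ) (hb : 0 < b) (hδ : 0 < δ) (hε : 0 < ε) :
    ∃ N0 : ℕ, ∀ N, N0 ≤ N → ∀ n, 0 < n → ∀ (C : Cfg N) (f : ℕ → ℝ → ℝ) (M : ℕ),
    (M : ℝ) ≤ αm * N → (∀ a, Measurable (f a)) → (∀ a x, |f a x| ≤ K) →
    ∃ S : Set (Fin nc → ℝ), MeasurableSet S ∧ S ⊆ Set.Icc (fun _ => 1) (fun _ => 2) ∧
      volume (Set.Icc (fun _ => (1:ℝ)) (fun _ => 2) \ S) ≤ ENNReal.ofReal ε ∧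
      ∀ l ∈ S, ∀ g, Dconc C nc n f M (fun g => b * l g) g δ := by
  set B : ℝ := |αm| * |K| + 8 * b ^ 2 * nc with hB
  have hB0 : 0 ≤ B := by positivity
  set h : ℝ := min 1 (ε * (b * δ) / (16 * B * nc + 1)) with hh
  have hh0 : 0 < h := lt_min one_pos (by positivity)
  have hh1 : h ≤ 1 := min_le_left _ _
  have hh2 : h * (16 * B * nc + 1) ≤ ε * (b * δ) := by
    have := min_le_right (1:ℝ) (ε * (b * δ) / (16 * B * nc + 1))
    rwa [← hh, le_div_iff₀ (by positivity)] at this
  set c1 : ℝ := 4 * (4 * K ^ 2 * |αm| + 1) + ((nc : ℝ) + 1) with hc1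
  have hc10 : 0 < c1 := by positivity
  refine ⟨⌈(2 * c1 / (b * h * δ)) ^ 2⌉₊ + 1, fun N hN n hn C f M hM hf hK => ?_⟩
  have hN0 : 0 < N := by omega
  have hN' : (0:ℝ) < N := by exact_mod_cast hN0
  have hαm : 0 ≤ αm := by
    by_contra hneg
    push Not at hneg
    have : αm * N < 0 := mul_neg_of_neg_of_pos hneg hN'
    linarith [(Nat.cast_nonneg M : (0:ℝ) ≤ M)]
  have hK0 : 0 ≤ K := (abs_nonneg _).trans (hK 0 0)
  have hBe : αm * K + 8 * b ^ 2 * nc = B := by rw [hB, abs_of_nonneg hαm, abs_of_nonneg hK0]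
  have hsq : 2 * c1 / (b * h * δ) ≤ Real.sqrt N := by
    apply Real.le_sqrt_of_sq_le
    have h1 := Nat.le_ceil ((2 * c1 / (b * h * δ)) ^ 2)
    have h2 : ((⌈(2 * c1 / (b * h * δ)) ^ 2⌉₊ : ℕ) : ℝ) ≤ N := by exact_mod_cast (by omega)
    linarith
  have hs1 : 1 ≤ Real.sqrt N := by
    rw [Real.one_le_sqrt]; exact_mod_cast hN0
  have hs0 : 0 < Real.sqrt N := by linarith
  have hss : Real.sqrt N * Real.sqrt N = N := Real.mul_self_sqrt hN'.le
  set θ : ℝ := b * h * δ / 4 with hθ
  have hθ0 : 0 < θ := by positivity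
  set S : Set (Fin nc → ℝ) := {l | l ∈ Set.Icc (fun _ => (1:ℝ)) (fun _ => (2:ℝ)) ∧
    ∀ g, D2 C nc n f M b h g l < θ} with hS
  have mD := fun g => measurable_D2 (C := C) (nc := nc) (n := n) hf M b h g
  refine ⟨S, ?_, fun l hl => hl.1, ?_, ?_⟩
  · have : S = Set.Icc (fun _ => (1:ℝ)) (fun _ => (2:ℝ)) ∩ ⋂ g, {l | D2 C nc n f M b h g l < θ} := by
      ext l; simp [hS]
    rw [this]
    exact measurableSet_Icc.inter (MeasurableSet.iInter fun g => measurableSet_lt (mD g)
      measurable_const)
  · -- measure of the bad set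
    have hsub : Set.Icc (fun _ => (1:ℝ)) (fun _ => (2:ℝ)) \ S ⊆
        ⋃ g : Fin nc, (Set.Icc (fun _ => (1:ℝ)) (fun _ => (2:ℝ)) ∩
          {l | θ ≤ D2 C nc n f M b h g (fun g' => cl (l g'))}) := by
      intro l hl
      have h1 : ¬ ∀ g, D2 C nc n f M b h g l < θ := fun h => hl.2 ⟨hl.1, h⟩
      push Not at h1
      obtain ⟨g, hg⟩ := h1
      have e : (fun g' => cl (l g')) = l := by
        funext g'
        exact cl_of_mem ⟨hl.1.1 g', hl.1.2 g'⟩
      refine Set.mem_iUnion.2 ⟨g, hl.1, ?_⟩
      show θ ≤ D2 C nc n f M b h g (fun g' => cl (l g'))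
      rw [e]; exact hg
    refine (measure_mono hsub).trans ((measure_iUnion_fintype_le _ _).trans ?_)
    have one : ∀ g : Fin nc, volume (Set.Icc (fun _ => (1:ℝ)) (fun _ => (2:ℝ)) ∩
        {l : Fin nc → ℝ | θ ≤ D2 C nc n f M b h g (fun g' => cl (l g'))}) ≤
        ENNReal.ofReal (16 * B * h / (b * δ)) := by
      intro g
      have mcl : Measurable fun l : Fin nc → ℝ => fun g' => cl (l g') :=
        measurable_pi_lambda _ fun g' => measurable_cl.comp (measurable_pi_apply g')
      have hF : Measurable fun l : Fin nc → ℝ => D2 C nc n f M b h g (fun g' => cl (l g')) :=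
        (mD g).comp mcl
      have e1 : volume (Set.Icc (fun _ => (1:ℝ)) (fun _ => (2:ℝ)) ∩
          {l : Fin nc → ℝ | θ ≤ D2 C nc n f M b h g (fun g' => cl (l g'))}) =
          (Measure.pi fun _ : Fin nc => u12)
            {l : Fin nc → ℝ | θ ≤ D2 C nc n f M b h g (fun g' => cl (l g'))} := by
        rw [restrict_box, Measure.restrict_apply (measurableSet_le measurable_const hF),
          Set.inter_comm]
      rw [e1]
      have hnn : ∀ l : Fin nc → ℝ, 0 ≤ D2 C nc n f M b h g (fun g' => cl (l g')) :=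
        fun l => D2_nonneg hf hK M b g _
      have hint := integral_D2_le (C := C) (nc := nc) hf hK hN0 hn hM b hh0 hh1 g
      rw [hBe] at hint
      have hbd : ∀ l : Fin nc → ℝ, |D2 C nc n f M b h g (fun g' => cl (l g'))| ≤ 4 * B := by
        intro l
        have hb : ∀ t : ℝ, |t| ≤ 4 →
            |Fl C nc n f M b (Function.update (fun g' => cl (l g')) g t)| ≤ B := by
          intro t ht
          rw [← hBe]
          refine abs_Fl_le hf hK hN0 hn hM b _ fun g' => ?_
          by_cases hg : g' = g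
          · subst hg; simpa using ht
          · rw [Function.update_of_ne hg]
            have := cl_mem (l g')
            rw [abs_le]; constructor <;> linarith
        have hc := cl_mem (l g)
        have b1 := abs_le.1 (hb (cl (l g) + h) (by rw [abs_le]; constructor <;> linarith))
        have b2 := abs_le.1 (hb (cl (l g) - h) (by rw [abs_le]; constructor <;> linarith))
        have b3 := abs_le.1 (hb (cl (l g)) (by rw [abs_le]; constructor <;> linarith))
        have e3 : Function.update (fun g' => cl (l g')) g (cl (l g)) = fun g' => cl (l g') :=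
          Function.update_eq_self (f := fun g' => cl (l g')) g
        rw [e3] at b3
        unfold D2
        rw [abs_le]
        constructor <;> linarith [b1.1, b1.2, b2.1, b2.2, b3.1, b3.2]
      have hI : Integrable (fun l : Fin nc → ℝ => D2 C nc n f M b h g (fun g' => cl (l g')))
          (Measure.pi fun _ => u12) := WrapA_947.integrable_of_bound _ hF hbd
      have hmk := mul_meas_ge_le_integral_of_nonneg (Filter.Eventually.of_forall hnn) hI θ
      have hr : (Measure.pi fun _ : Fin nc => u12).real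
          {l : Fin nc → ℝ | θ ≤ D2 C nc n f M b h g (fun g' => cl (l g'))} ≤
          16 * B * h / (b * δ) := by
        have h2 : θ * (Measure.pi fun _ : Fin nc => u12).real
          {l : Fin nc → ℝ | θ ≤ D2 C nc n f M b h g (fun g' => cl (l g'))} ≤ 4 * B * h ^ 2 :=
          hmk.trans hint
        have h3 : 4 * B * h ^ 2 = θ * (16 * B * h / (b * δ)) := by
          rw [hθ]; field_simp; ring
        rw [h3] at h2
        exact le_of_mul_le_mul_left h2 hθ0
      rw [← ENNReal.ofReal_toReal (measure_ne_top (Measure.pi fun _ : Fin nc => u12) _)]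
      exact ENNReal.ofReal_le_ofReal hr
    refine (Finset.sum_le_sum fun g _ => one g).trans ?_
    rw [Finset.sum_const, Finset.card_univ, Fintype.card_fin, ← ENNReal.ofReal_nsmul]
    refine ENNReal.ofReal_le_ofReal ?_
    rw [nsmul_eq_mul, ← mul_div_assoc, div_le_iff₀ (by positivity)]
    nlinarith
  · -- concentration
    intro l hl g
    obtain ⟨d, hd⟩ := dobs_le (C := C) (nc := nc) (n := n) (M := M) hf hK (fun g => b * l g) g
      (y := b * h) (r := Real.sqrt N) (by positivity) hs0 hN0
    refine ⟨d, hd.trans ?_⟩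
    have hD := hl.2 g
    have e1 : ph C nc n f M (Function.update (fun g => b * l g) g (b * l g + b * h)) =
        N * Fl C nc n f M b (Function.update l g (l g + h)) := by
      unfold Fl
      rw [upd_smul, mul_add]
      field_simp
    have e2 : ph C nc n f M (Function.update (fun g => b * l g) g (b * l g - b * h)) =
        N * Fl C nc n f M b (Function.update l g (l g - h)) := by
      unfold Fl
      rw [upd_smul, mul_sub]
      field_simp
    have e3 : ph C nc n f M (fun g => b * l g) = N * Fl C nc n f M b l := by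
      unfold Fl
      field_simp
    rw [div_le_iff₀ (by positivity)]
    show 2 * (ph C nc n f M (Function.update (fun g => b * l g) g (b * l g + b * h)) +
      ph C nc n f M (Function.update (fun g => b * l g) g (b * l g - b * h)) -
      2 * ph C nc n f M (fun g => b * l g)) + _ + _ ≤ _
    rw [e1, e2, e3]
    have h1 : 2 * (N * Fl C nc n f M b (Function.update l g (l g + h)) +
        N * Fl C nc n f M b (Function.update l g (l g - h)) - 2 * (N * Fl C nc n f M b l)) =
        2 * N * D2 C nc n f M b h g l := by unfold D2; ring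
    rw [h1]
    have h2 : 2 * N * D2 C nc n f M b h g l ≤ 2 * N * θ :=
      mul_le_mul_of_nonneg_left hD.le (by positivity)
    have h3 : 4 * K ^ 2 * M / Real.sqrt N ≤ 4 * K ^ 2 * |αm| * Real.sqrt N := by
      rw [div_le_iff₀ hs0]
      have e : 4 * K ^ 2 * |αm| * Real.sqrt N * Real.sqrt N = 4 * K ^ 2 * (αm * N) := by
        rw [mul_assoc (4 * K ^ 2 * |αm|), hss, abs_of_nonneg hαm]; ring
      rw [e]
      exact mul_le_mul_of_nonneg_left hM (by positivity)
    have h4 : Real.log 2 * ((nc : ℝ) + 1) ≤ ((nc : ℝ) + 1) * Real.sqrt N := by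
      have := Real.log_two_lt_d9
      have h5 : Real.log 2 ≤ Real.sqrt N := by linarith
      rw [mul_comm]
      exact mul_le_mul_of_nonneg_left h5 (by positivity)
    have h6 : 2 * c1 ≤ Real.sqrt N * (b * h * δ) := by
      rwa [div_le_iff₀ (by positivity)] at hsq
    have h7 : c1 * Real.sqrt N ≤ N * (b * h * δ) / 2 := by
      have := mul_le_mul_of_nonneg_right h6 hs0.le
      nlinarith
    have h8 : 8 * ((4 * K ^ 2 * M / Real.sqrt N + Real.sqrt N) / 2) + Real.log 2 * ((nc : ℝ) + 1) ≤
        c1 * Real.sqrt N := by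
      rw [hc1]; nlinarith
    have h9 : 2 * N * θ = N * (b * h * δ) / 2 := by rw [hθ]; ring
    nlinarith

end box

end

end Crest.Agent.R146.FobL_998
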