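import Crest.Agent.R146.S6U_988
import Crest.Agent.R164.ObsFin
import Crest.Agent.R151.V1

/-!
Row 146, statement S0206 (S6 project): BASIC FACTS of the enriched system of `S6Def_988`
(helper52): prior, exponents, measurability in the rows, bounds, change of one strength,
Efron-Stein over the rows.
-/

set_option autoImplicit false

namespace Crest.Agent.R146.SysA_52

open Finset MeasureTheory ProbabilityTheory Crest.Agent.R141
open Crest.Agent.R146.S6Def_988
open Crest.Agent.R164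

noncomputable section

/-! ### Measurability in a parameter (copied from `R164/GSpin`, which cannot be opened together with
the definitions of row 146) -/

section meas

variable {Θ : Type*} [MeasurableSpace Θ] {Ω : Type*} [Fintype Ω]

theorem meas_eE {P f : Θ → Ω → ℝ} (hP : ∀ ω, Measurable fun θ => P θ ω)
    (hf : ∀ ω, Measurable fun θ => f θ ω) : Measurable fun θ => eE (P θ) (f θ) := by
  unfold eE
  exact Finset.measurable_sum _ fun ω _ => (hP ω).mul (hf ω)

theorem meas_cE {P f : Θ → Ω → ℝ} (hP : ∀ ω, Measurable fun θ => P θ ω)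
    (hf : ∀ ω, Measurable fun θ => f θ ω) (r : Setoid Ω) (ω : Ω) :
    Measurable fun θ => cE (P θ) r (f θ) ω := by
  unfold cE
  exact (Finset.measurable_sum _ fun a _ => (hP a).mul (hf a)).div
    (Finset.measurable_sum _ fun a _ => hP a)

theorem meas_A {P : Ω → ℝ} (hP : IsProb P) {𝓕 : Filt Ω} {x : ℕ → ℝ} (hx : ∀ k, 0 < x k)
    {U : Θ → Ω → ℝ} (hU : ∀ ω, Measurable fun θ => U θ ω) (k : ℕ) :
    ∀ ω, Measurable fun θ => A P 𝓕 x (U θ) k ω := by
  induction k using back_induction 𝓕 with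
  | h0 k hk =>
    intro ω
    simp only [A_of_ge _ hk]
    exact hU ω
  | h1 k ih =>
    intro ω
    have h : (fun θ => A P 𝓕 x (U θ) k ω) =
        fun θ => pm P (𝓕.F k) (x (k + 1)) (A P 𝓕 x (U θ) (k + 1)) ω := by
      funext θ
      rw [A_step hP hx (U θ) k]
    rw [h]
    unfold pm
    have h2 : Measurable fun θ => cE P (𝓕.F k)
        (fun w => Real.exp (x (k + 1) * A P 𝓕 x (U θ) (k + 1) w)) ω :=
      meas_cE (P := fun _ => P) (fun _ => measurable_const)
        (fun w => (Real.measurable_exp.comp ((ih w).const_mul _))) (𝓕.F k) ω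
    exact (Real.measurable_log.comp h2).const_mul _

theorem meas_S {P : Ω → ℝ} (hP : IsProb P) {𝓕 : Filt Ω} {x : ℕ → ℝ} (hx : ∀ k, 0 < x k)
    {U : Θ → Ω → ℝ} (hU : ∀ ω, Measurable fun θ => U θ ω) (k m : ℕ) (ω : Ω) :
    Measurable fun θ => S P 𝓕 x (U θ) k m ω := by
  unfold S
  exact Finset.measurable_sum _ fun l _ =>
    ((meas_A hP hx hU _ ω).sub (meas_A hP hx hU _ ω)).const_mul _

theorem meas_tl {P : Ω → ℝ} (hP : IsProb P) {𝓕 : Filt Ω} {x : ℕ → ℝ} (hx : ∀ k, 0 < x k)
    {U : Θ → Ω → ℝ} (hU : ∀ ω, Measurable fun θ => U θ ω) (ω : Ω) :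
    Measurable fun θ => tl P 𝓕 x (U θ) ω := by
  unfold tl
  exact (Real.measurable_exp.comp (meas_S hP hx hU _ _ ω)).const_mul _

end meas

variable {N : ℕ} (C : Cfg N) (nc n : ℕ)

/-! ### prior, exponents, filtration -/

theorem card_coins_pos (nc n N : ℕ) : (0 : ℝ) < (Fintype.card (Coins nc n N) : ℝ) := by
  exact_mod_cast Fintype.card_pos

theorem prior_isProb : IsProb (prior C nc n) where
  pos ω := mul_pos (C.hq.pos _) (inv_pos.mpr (card_coins_pos nc n N))
  sum := by
    unfold prior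
    rw [Fintype.sum_prod_type]
    have h : ∀ y : C.Y, ∑ _c : Coins nc n N, C.q y * (Fintype.card (Coins nc n N) : ℝ)⁻¹ = C.q y := by
      intro y
      rw [Finset.sum_const, Finset.card_univ, nsmul_eq_mul]
      have := (card_coins_pos nc n N).ne'
      field_simp
    simp only [h]
    exact C.hq.sum

theorem xs_pos (k : ℕ) : 0 < xs nc n k := by
  unfold xs; exact lt_min one_pos (by positivity)


theorem xs_ge (k : ℕ) : 1 / ((nc : ℝ) + 1) ≤ xs nc n k := by
  unfold xs
  refine le_min ?_ ?_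
  · rw [div_le_one (by positivity)]
    have : (0 : ℝ) ≤ nc := Nat.cast_nonneg _
    linarith
  · refine div_le_div_of_nonneg_right ?_ (by positivity)
    push_cast
    have : (0 : ℝ) ≤ ((k - 1) / n : ℕ) := Nat.cast_nonneg _
    linarith




theorem xs_last (hn : 0 < n) : xs nc n (Lv nc n) = 1 := by
  unfold xs Lv
  rw [Nat.add_sub_cancel, Nat.mul_div_cancel _ hn]
  push_cast
  rw [div_self (by positivity), min_self]

theorem fil_zero : (fil C nc n).F 0 = ⊤ := by
  ext a b
  constructor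
  · intro _; trivial
  · intro _
    refine ⟨fun g t h => absurd h (by omega), fun h => ?_⟩
    unfold Lv at h; omega


theorem fil_iff (k : ℕ) (a b : Om C nc n) : (fil C nc n).F k a b ↔
    (∀ (g : Fin nc) (t : Fin n), (g : ℕ) * n + t < k → a.2 g t = b.2 g t) ∧
    (Lv nc n ≤ k → a.1 = b.1) := Iff.rfl

/-! ### log-weights -/

variable {C nc n}
variable {M : ℕ} {f : ℕ → ℝ → ℝ} {K : ℝ}

theorem sv_abs (b : Bool) : |sv b| = 1 := by
  unfold sv; split <;> simp


theorem zf_abs_le (c : Coins nc n N) (g : Fin nc) (i : Fin N) : |zf c g i| ≤ Real.sqrt n := by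
  unfold zf
  rw [abs_mul, abs_of_nonneg (inv_nonneg.mpr (Real.sqrt_nonneg _))]
  have h1 : |∑ t : Fin n, sv (c g t i)| ≤ n := by
    refine (Finset.abs_sum_le_sum_abs _ _).trans ?_
    simp [sv_abs]
  rcases Nat.eq_zero_or_pos n with h | h
  · subst h; simp
  · have hn : (0 : ℝ) < Real.sqrt n := Real.sqrt_pos.mpr (by exact_mod_cast h)
    rw [inv_mul_le_iff₀ hn, Real.mul_self_sqrt (Nat.cast_nonneg n)]
    exact h1

theorem mul_Dobs (g : Fin nc) (ω : Om C nc n) :
    (N : ℝ) * Dobs C nc n g ω = ∑ i, zf ω.2 g i * C.x ω.1 i := by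
  unfold Dobs
  rcases Nat.eq_zero_or_pos N with h | h
  · subst h; simp
  · have hN : (N : ℝ) ≠ 0 := by positivity
    rw [← mul_assoc, mul_inv_cancel₀ hN, one_mul]

theorem Dobs_abs_le (g : Fin nc) (ω : Om C nc n) : |Dobs C nc n g ω| ≤ Real.sqrt n := by
  rcases Nat.eq_zero_or_pos N with h | h
  · subst h
    unfold Dobs
    simp
  · have hN : (0 : ℝ) < N := by exact_mod_cast h
    unfold Dobs
    rw [abs_mul, abs_of_nonneg (inv_nonneg.mpr hN.le), inv_mul_le_iff₀ hN]
    have h1 : (∑ i, zf ω.2 g i * C.x ω.1 i) ^ 2 ≤ (∑ i, zf ω.2 g i ^ 2) * ∑ i, C.x ω.1 i ^ 2 :=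
      Finset.sum_mul_sq_le_sq_mul_sq _ _ _
    have h2 : ∑ i, zf ω.2 g i ^ 2 ≤ (N : ℝ) * n := by
      have : ∀ i : Fin N, zf ω.2 g i ^ 2 ≤ (n : ℝ) := fun i => by
        rw [← sq_abs, ← Real.sq_sqrt (Nat.cast_nonneg n : (0 : ℝ) ≤ n)]
        exact pow_le_pow_left₀ (abs_nonneg _) (zf_abs_le _ _ _) 2
      refine (Finset.sum_le_sum fun i _ => this i).trans ?_
      simp
    rw [C.hx] at h1
    refine abs_le_of_sq_le_sq (h1.trans ?_) (by positivity)
    rw [mul_pow, Real.sq_sqrt (Nat.cast_nonneg n)]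
    nlinarith

theorem fieldE_abs_le (s : Fin nc → ℝ) (ω : Om C nc n) :
    |fieldE s ω| ≤ (∑ g, |s g|) * (N * Real.sqrt n) := by
  unfold fieldE
  refine (Finset.abs_sum_le_sum_abs _ _).trans ?_
  rw [Finset.sum_mul]
  refine Finset.sum_le_sum fun g _ => ?_
  rw [abs_mul, ← mul_Dobs, abs_mul, abs_of_nonneg (Nat.cast_nonneg N : (0 : ℝ) ≤ N)]
  exact mul_le_mul_of_nonneg_left (mul_le_mul_of_nonneg_left (Dobs_abs_le g ω)
    (Nat.cast_nonneg N)) (abs_nonneg _)

theorem rowE_abs_le (hK : ∀ a x, |f a x| ≤ K) (G : Fin M → Fin N → ℝ) (x : Fin N → ℝ) :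
    |rowE f G x| ≤ M * K := by
  unfold rowE
  refine (Finset.abs_sum_le_sum_abs _ _).trans ?_
  have h : ∀ a ∈ (Finset.univ : Finset (Fin M)),
      |f a (∑ i, G a i * (x i / Real.sqrt N))| ≤ K := fun a _ => hK a _
  refine (Finset.sum_le_sum h).trans ?_
  simp

theorem UU_abs_le (hK : ∀ a x, |f a x| ≤ K) (G : Fin M → Fin N → ℝ) (s : Fin nc → ℝ)
    (ω : Om C nc n) : |UU f G s ω| ≤ M * K + (∑ g, |s g|) * (N * Real.sqrt n) :=
  (abs_add_le _ _).trans (add_le_add (rowE_abs_le hK G _) (fieldE_abs_le s ω))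

theorem measurable_rowE (hf : ∀ a, Measurable (f a)) (x : Fin N → ℝ) :
    Measurable fun G : Fin M → Fin N → ℝ => rowE f G x := by
  unfold rowE
  refine Finset.measurable_sum _ fun a _ => (hf a).comp ?_
  refine Finset.measurable_sum _ fun i _ => Measurable.mul_const ?_ _
  exact (measurable_pi_apply i).comp (measurable_pi_apply a)

theorem measurable_UU (hf : ∀ a, Measurable (f a)) (s : Fin nc → ℝ) (ω : Om C nc n) :
    Measurable fun G : Fin M → Fin N → ℝ => UU f G s ω :=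
  (measurable_rowE hf _).add_const _

theorem fieldE_update (s : Fin nc → ℝ) (g : Fin nc) (y : ℝ) (ω : Om C nc n) :
    fieldE (Function.update s g y) ω = fieldE s ω + (y - s g) * (N * Dobs C nc n g ω) := by
  classical
  unfold fieldE
  rw [mul_Dobs, ← Finset.add_sum_erase _ _ (Finset.mem_univ g),
    ← Finset.add_sum_erase (Finset.univ) (fun g => s g * ∑ i, zf ω.2 g i * C.x ω.1 i)
      (Finset.mem_univ g), Function.update_self]
  have h : ∑ h ∈ Finset.univ.erase g, Function.update s g y h * ∑ i, zf ω.2 h i * C.x ω.1 i =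
      ∑ h ∈ Finset.univ.erase g, s h * ∑ i, zf ω.2 h i * C.x ω.1 i :=
    Finset.sum_congr rfl fun h hh => by
      rw [Function.update_of_ne (Finset.ne_of_mem_erase hh)]
  rw [h]
  ring

theorem UU_update (G : Fin M → Fin N → ℝ) (s : Fin nc → ℝ) (g : Fin nc) (y : ℝ)
    (ω : Om C nc n) : UU f G (Function.update s g y) ω =
      UU f G s ω + (y - s g) * (N * Dobs C nc n g ω) := by
  unfold UU
  rw [fieldE_update]; ring

/-! ### free energy and tilted law -/

theorem Phi_eq (G : Fin M → Fin N → ℝ) (s : Fin nc → ℝ) (ω : Om C nc n) :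
    Phi C nc n f G s = A (prior C nc n) (fil C nc n) (xs nc n) (UU f G s) 0 ω := by
  unfold Phi
  rw [ObsConc.eE_eq_cE_top (fil_zero C nc n) (prior_isProb C nc n) _ ω,
    cE_of_meas (prior_isProb C nc n) (A_meas (prior_isProb C nc n) (xs_pos nc n) _ 0)]

theorem Phi_update (G : Fin M → Fin N → ℝ) (s : Fin nc → ℝ) (g : Fin nc) (y : ℝ) :
    Phi C nc n f G (Function.update s g y) =
      ObsConc.gA (prior C nc n) (fil C nc n) (xs nc n) (UU f G s)
        (fun ω => N * Dobs C nc n g ω) (y - s g) := by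
  unfold Phi ObsConc.gA
  have h : (UU f G (Function.update s g y) : Om C nc n → ℝ) =
      fun ω => UU f G s ω + (y - s g) * (N * Dobs C nc n g ω) := by
    funext ω; exact UU_update G s g y ω
  rw [h]

theorem QQ_isProb (G : Fin M → Fin N → ℝ) (s : Fin nc → ℝ) : IsProb (QQ C nc n f G s) :=
  tl_isProb (prior_isProb C nc n) (xs_pos nc n) _

theorem Phi_abs_le (hK : ∀ a x, |f a x| ≤ K) (G : Fin M → Fin N → ℝ) (s : Fin nc → ℝ) :
    |Phi C nc n f G s| ≤ M * K + (∑ g, |s g|) * (N * Real.sqrt n) :=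
  Crest.Agent.R164.Rot.eE_abs_le (prior_isProb C nc n) fun ω =>
    A_abs_le (prior_isProb C nc n) (xs_pos nc n) (fun ω => UU_abs_le hK G s ω) 0 ω

theorem measurable_Phi (hf : ∀ a, Measurable (f a)) (s : Fin nc → ℝ) :
    Measurable fun G : Fin M → Fin N → ℝ => Phi C nc n f G s :=
  meas_eE (fun _ => measurable_const)
    (meas_A (prior_isProb C nc n) (xs_pos nc n)
      (fun ω => measurable_UU hf s ω) 0)

theorem measurable_QQ (hf : ∀ a, Measurable (f a)) (s : Fin nc → ℝ) (ω : Om C nc n) :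
    Measurable fun G : Fin M → Fin N → ℝ => QQ C nc n f G s ω :=
  meas_tl (prior_isProb C nc n) (xs_pos nc n)
    (fun ω => measurable_UU hf s ω) ω

theorem measurable_eE_QQ (hf : ∀ a, Measurable (f a)) (s : Fin nc → ℝ) (h : Om C nc n → ℝ) :
    Measurable fun G : Fin M → Fin N → ℝ => eE (QQ C nc n f G s) h :=
  meas_eE (fun ω => measurable_QQ hf s ω) fun _ => measurable_const

instance gam_prob (M N : ℕ) : IsProbabilityMeasure (gam M N) := by
  unfold gam; infer_instance

/-- a bounded measurable function of the rows is integrable -/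
theorem integrable_bdd {F : (Fin M → Fin N → ℝ) → ℝ} (hF : Measurable F) {B : ℝ}
    (hB : ∀ G, |F G| ≤ B) : Integrable F (gam M N) :=
  Integrable.of_bound hF.aestronglyMeasurable B (Filter.Eventually.of_forall fun G => by
    rw [Real.norm_eq_abs]; exact hB G)

theorem integrable_Phi (hf : ∀ a, Measurable (f a)) (hK : ∀ a x, |f a x| ≤ K)
    (s : Fin nc → ℝ) : Integrable (fun G : Fin M → Fin N → ℝ => Phi C nc n f G s) (gam M N) :=
  integrable_bdd (measurable_Phi hf s) fun G => Phi_abs_le hK G s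

theorem exists_bd {Ω : Type} [Fintype Ω] (h : Ω → ℝ) : ∃ B, ∀ ω, |h ω| ≤ B :=
  ⟨∑ ω, |h ω|, fun ω => Finset.single_le_sum (f := fun ω => |h ω|)
    (fun _ _ => abs_nonneg _) (Finset.mem_univ ω)⟩

theorem integrable_eE_QQ (hf : ∀ a, Measurable (f a)) (s : Fin nc → ℝ) (h : Om C nc n → ℝ) :
    Integrable (fun G : Fin M → Fin N → ℝ => eE (QQ C nc n f G s) h) (gam M N) := by
  obtain ⟨B, hB⟩ := exists_bd h
  exact integrable_bdd (measurable_eE_QQ hf s h) fun G =>
    Crest.Agent.R164.Rot.eE_abs_le (QQ_isProb G s) hB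

/-! ### change of one row -/

theorem rowE_update_sub (hK : ∀ a x, |f a x| ≤ K) (G : Fin M → Fin N → ℝ) (a : Fin M)
    (t : Fin N → ℝ) (x : Fin N → ℝ) :
    |rowE f G x - rowE f (Function.update G a t) x| ≤ 2 * K := by
  classical
  unfold rowE
  rw [← Finset.sum_sub_distrib, ← Finset.add_sum_erase _ _ (Finset.mem_univ a)]
  have h : ∑ b ∈ Finset.univ.erase a, (f b (∑ i, G b i * (x i / Real.sqrt N)) -
      f b (∑ i, Function.update G a t b i * (x i / Real.sqrt N))) = 0 :=
    Finset.sum_eq_zero fun b hb => by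
      rw [Function.update_of_ne (Finset.ne_of_mem_erase hb), sub_self]
  rw [h, add_zero]
  refine (abs_sub _ _).trans ?_
  linarith [hK a (∑ i, G a i * (x i / Real.sqrt N)),
    hK a (∑ i, Function.update G a t a i * (x i / Real.sqrt N))]

theorem Phi_update_row (hK : ∀ a x, |f a x| ≤ K) (G : Fin M → Fin N → ℝ) (a : Fin M)
    (t : Fin N → ℝ) (s : Fin nc → ℝ) :
    |Phi C nc n f G s - Phi C nc n f (Function.update G a t) s| ≤ 2 * K := by
  unfold Phi
  rw [← eE_sub]
  refine Crest.Agent.R164.Rot.eE_abs_le (prior_isProb C nc n) fun ω => ?_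
  refine A_sub_abs_le (prior_isProb C nc n) (xs_pos nc n) (fun ω => ?_) 0 ω
  have : UU f G s ω - UU f (Function.update G a t) s ω =
      rowE f G (C.x ω.1) - rowE f (Function.update G a t) (C.x ω.1) := by
    unfold UU; ring
  rw [this]
  exact rowE_update_sub hK G a t _

/-- Efron-Stein over the rows, in `L¹`. -/
theorem efron_stein {F : (Fin M → Fin N → ℝ) → ℝ} (hF : Measurable F) {B : ℝ}
    (hB : ∀ G, |F G| ≤ B) {c : ℝ} (hc : 0 ≤ c)
    (h : ∀ G a t, |F G - F (Function.update G a t)| ≤ c) :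
    ∫ G, |F G - ∫ G', F G' ∂(gam M N)| ∂(gam M N) ≤ c * Real.sqrt (M / 2) := by
  classical
  set μ := gam M N with hμ
  have hL2 : MemLp F 2 μ := MemLp.of_bound hF.aestronglyMeasurable B
    (Filter.Eventually.of_forall fun G => by rw [Real.norm_eq_abs]; exact hB G)
  have h1 : Crest.Agent.R151.V.dvar μ F ≤ ENNReal.ofReal (M * c ^ 2) := by
    refine (Crest.Agent.R151.V.dvar_pi_le (Measure.pi fun _ : Fin N => gaussianReal 0 1) hF).trans ?_
    have h2 : ∀ a : Fin M, Crest.Agent.R151.V.infl μ (Measure.pi fun _ : Fin N => gaussianReal 0 1)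
        F a ≤ ENNReal.ofReal (c ^ 2) := by
      intro a
      unfold Crest.Agent.R151.V.infl
      calc ∫⁻ x, ∫⁻ t, ENNReal.ofReal ((F x - F (Function.update x a t)) ^ 2)
            ∂(Measure.pi fun _ : Fin N => gaussianReal 0 1) ∂μ
          ≤ ∫⁻ _x, ∫⁻ _t, ENNReal.ofReal (c ^ 2)
            ∂(Measure.pi fun _ : Fin N => gaussianReal 0 1) ∂μ := by
            refine lintegral_mono fun x => lintegral_mono fun t => ENNReal.ofReal_le_ofReal ?_
            rw [← sq_abs]
            exact pow_le_pow_left₀ (abs_nonneg _) (h x a t) 2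
        _ = ENNReal.ofReal (c ^ 2) := by simp
    refine (Finset.sum_le_sum fun a _ => h2 a).trans ?_
    rw [Finset.sum_const, Finset.card_univ, Fintype.card_fin, nsmul_eq_mul,
      ENNReal.ofReal_mul (Nat.cast_nonneg M), ENNReal.ofReal_natCast]
  rw [Crest.Agent.R151.V.dvar_eq hL2] at h1
  have h3 : 2 * variance F μ ≤ M * c ^ 2 := (ENNReal.ofReal_le_ofReal_iff (by positivity)).mp h1
  have h4 : variance F μ = ∫ G, (F G - ∫ G', F G' ∂μ) ^ 2 ∂μ :=
    variance_eq_integral hF.aemeasurable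
  have hi2 : Integrable (fun G => (F G - ∫ G', F G' ∂μ) ^ 2) μ :=
    (hL2.sub (memLp_const _)).integrable_sq
  have hi1 : Integrable (fun G => |F G - ∫ G', F G' ∂μ|) μ :=
    ((hL2.sub (memLp_const _)).integrable (by norm_num)).abs
  have h5 : (∫ G, |F G - ∫ G', F G' ∂μ| ∂μ) ^ 2 ≤ ∫ G, (F G - ∫ G', F G' ∂μ) ^ 2 ∂μ := by
    set m := ∫ G, |F G - ∫ G', F G' ∂μ| ∂μ with hm
    have h6 : 0 ≤ ∫ G, (|F G - ∫ G', F G' ∂μ| - m) ^ 2 ∂μ := integral_nonneg fun _ => sq_nonneg _
    have h7 : ∫ G, (|F G - ∫ G', F G' ∂μ| - m) ^ 2 ∂μ =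
        ∫ G, (F G - ∫ G', F G' ∂μ) ^ 2 ∂μ - m ^ 2 := by
      have e : ∀ G, (|F G - ∫ G', F G' ∂μ| - m) ^ 2 =
          (F G - ∫ G', F G' ∂μ) ^ 2 - (2 * m) * |F G - ∫ G', F G' ∂μ| + m ^ 2 := fun G => by
        rw [sub_sq, sq_abs]; ring
      simp only [e]
      have e1 := integral_add (hi2.sub (hi1.const_mul (2 * m))) (integrable_const (m ^ 2))
      have e2 := integral_sub hi2 (hi1.const_mul (2 * m))
      simp only [Pi.sub_apply] at e1
      rw [e1, e2, integral_const_mul, ← hm]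
      simp
      ring
    linarith
  have h8 : (∫ G, |F G - ∫ G', F G' ∂μ| ∂μ) ^ 2 ≤ (c * Real.sqrt (M / 2)) ^ 2 := by
    rw [mul_pow, Real.sq_sqrt (by positivity)]
    rw [h4] at h3
    nlinarith
  exact (abs_le_of_sq_le_sq' h8 (by positivity)).2

/-- the fluctuation of the free energy -/
theorem Phi_dev (hf : ∀ a, Measurable (f a)) (hK : ∀ a x, |f a x| ≤ K) (s : Fin nc → ℝ) :
    ∫ G, |Phi C nc n (M := M) f G s - ∫ G', Phi C nc n (M := M) f G' s ∂(gam M N)| ∂(gam M N) ≤
      2 * K * Real.sqrt (M / 2) :=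
  efron_stein (measurable_Phi hf s) (fun G => Phi_abs_le hK G s)
    (by linarith [(abs_nonneg _).trans (hK 0 0)]) fun G a t => Phi_update_row hK G a t s

theorem FN_mul (hN : 0 < N) (s : Fin nc → ℝ) : ∫ G, Phi C nc n (M := M) f G s ∂(gam M N) =
    N * (FN C nc n f M s + 1 / 2 * ∑ g, s g ^ 2) := by
  unfold FN
  have : (N : ℝ) ≠ 0 := by positivity
  field_simp
  ring

theorem sum_sq_update (s : Fin nc → ℝ) (g : Fin nc) (y : ℝ) :
    ∑ h, Function.update s g y h ^ 2 = ∑ h, s h ^ 2 + (y ^ 2 - s g ^ 2) := by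
  classical
  rw [← Finset.add_sum_erase _ _ (Finset.mem_univ g),
    ← Finset.add_sum_erase (Finset.univ) (fun g => s g ^ 2) (Finset.mem_univ g),
    Function.update_self]
  have h : ∑ h ∈ Finset.univ.erase g, Function.update s g y h ^ 2 =
      ∑ h ∈ Finset.univ.erase g, s h ^ 2 :=
    Finset.sum_congr rfl fun h hh => by
      rw [Function.update_of_ne (Finset.ne_of_mem_erase hh)]
  rw [h]; ring

end

end Crest.Agent.R146.SysA_52
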