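import Crest.Agent.R146.S6U_988
import Crest.Agent.R146.S6Def_988
import Crest.Agent.R146.CavInc_769
import Mathlib
import Crest.Agent.R146.SysA_52

-- ▼ part R146/MonB_911
section

/-!
Row 146, S0206: the language of the levels `P` of the step profiles `mP J P` (helper911).

* `tail_mP`      : `(mP J P).tail t = (J+1)⁻¹ ∑_j (1 - max (P j) t)`;
* `tail_mP_lev`  : `(mP J P).tail (P j) = DP J P j`;
* `sum_le_of_tail_le`, `tail_le_of_sum_le` : order of the tails = order of the tail sums;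
* `ent` (ENT), `apx` (APX), `approx_above`, `monod` (MONOd from MONO and LIP);
* `entropy_anti`, `entropy_eq_ofReal`, `tail_mono`, `continuous_tail`, `abs_tail_sub_le`.
-/

set_option autoImplicit false

namespace Crest.Agent.R146.MonB_911

open Finset MeasureTheory Crest.ProbabilityR.Perceptron Crest.Agent.R146.S6Def_988

noncomputable section

/-! ### values of the step profile -/

theorem mP_toFun (J : ℕ) (P : ℕ → ℝ) (t : ℝ) :
    (mP J P).toFun t = ((J : ℝ) + 1)⁻¹ * ∑ j ∈ range (J + 1), if P j ≤ t then (1 : ℝ) else 0 := by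
  classical
  have h : (mP J P).toFun t = (((range (J + 1)).filter fun j => P j ≤ t).card : ℝ) / ((J : ℝ) + 1) := by
    unfold mP
    simp only
  rw [h, div_eq_inv_mul]
  congr 1
  rw [Finset.sum_ite, Finset.sum_const_zero, add_zero, Finset.sum_const, nsmul_eq_mul, mul_one]

theorem intervalIntegrable_mono (m : OverlapProfile) (a b : ℝ) :
    IntervalIntegrable m.toFun volume a b := m.mono.intervalIntegrable

theorem integral_ite_le (c t : ℝ) (hc : c ≤ 1) (ht : t ≤ 1) :
    (∫ s in t..1, if c ≤ s then (1 : ℝ) else 0) = 1 - max c t := by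
  have h1 : ∀ a b : ℝ, IntervalIntegrable (fun s => if c ≤ s then (1 : ℝ) else 0) volume a b := by
    intro a b
    refine Monotone.intervalIntegrable ?_
    intro x y hxy
    dsimp only
    split_ifs with h1 h2
    · exact le_rfl
    · exact absurd (h1.trans hxy) h2
    · norm_num
    · exact le_rfl
  have hm : t ≤ max c t := le_max_right _ _
  have hm1 : max c t ≤ 1 := max_le hc ht
  rw [← intervalIntegral.integral_add_adjacent_intervals (h1 t (max c t)) (h1 (max c t) 1)]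
  have e1 : (∫ s in t..max c t, if c ≤ s then (1 : ℝ) else 0) = 0 := by
    rcases le_total c t with h | h
    · rw [max_eq_right h, intervalIntegral.integral_same]
    · rw [max_eq_left h]
      have : (∫ s in t..c, if c ≤ s then (1 : ℝ) else 0) = ∫ s in t..c, (0 : ℝ) := by
        refine intervalIntegral.integral_congr_ae ?_
        have hne : ∀ᵐ s : ℝ ∂volume, s ≠ c := by
          rw [ae_iff]; simp
        filter_upwards [hne] with s hs hs2
        rw [Set.uIoc_of_le h] at hs2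
        rw [if_neg]
        exact not_le.2 (lt_of_le_of_ne hs2.2 hs)
      rw [this]; simp
  have e2 : (∫ s in max c t..1, if c ≤ s then (1 : ℝ) else 0) = 1 - max c t := by
    have : (∫ s in max c t..1, if c ≤ s then (1 : ℝ) else 0) = ∫ s in max c t..1, (1 : ℝ) := by
      refine intervalIntegral.integral_congr ?_
      intro s hs
      rw [Set.uIcc_of_le hm1] at hs
      dsimp only
      rw [if_pos ((le_max_left c t).trans hs.1)]
    rw [this]; simp
  rw [e1, e2, zero_add]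

theorem tail_mP {J : ℕ} {P : ℕ → ℝ} (hP : Lev J P) {t : ℝ} (ht : t ≤ 1) :
    (mP J P).tail t = ((J : ℝ) + 1)⁻¹ * ∑ j ∈ range (J + 1), (1 - max (P j) t) := by
  unfold OverlapProfile.tail
  simp_rw [mP_toFun]
  rw [intervalIntegral.integral_const_mul, intervalIntegral.integral_finsetSum]
  · congr 1
    refine Finset.sum_congr rfl fun j hj => ?_
    refine integral_ite_le (P j) t ?_ ht
    exact (hP.mono j J (by rw [mem_range] at hj; omega) le_rfl).trans hP.le_one
  · intro j _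
    refine Monotone.intervalIntegrable ?_
    intro x y hxy
    dsimp only
    split_ifs with h1 h2
    · exact le_rfl
    · exact absurd (h1.trans hxy) h2
    · norm_num
    · exact le_rfl

theorem one_sub_max (p t : ℝ) : 1 - max p t = (1 - t) - max (p - t) 0 := by
  rcases le_total p t with h | h
  · rw [max_eq_right h, max_eq_right (by linarith)]; ring
  · rw [max_eq_left h, max_eq_left (by linarith)]; ring

/-- tail through positive parts -/
theorem tail_mP' {J : ℕ} {P : ℕ → ℝ} (hP : Lev J P) {t : ℝ} (ht : t ≤ 1) :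
    (mP J P).tail t = (1 - t) - ((J : ℝ) + 1)⁻¹ * ∑ j ∈ range (J + 1), max (P j - t) 0 := by
  rw [tail_mP hP ht]
  simp_rw [one_sub_max]
  rw [Finset.sum_sub_distrib, Finset.sum_const, card_range, nsmul_eq_mul, mul_sub]
  congr 1
  push_cast
  field_simp

theorem sum_posPart_lev {J : ℕ} {P : ℕ → ℝ} (hP : Lev J P) {k : ℕ} (hk : k ≤ J) :
    ∑ j ∈ range (J + 1), max (P j - P k) 0 = ∑ j ∈ Ico k (J + 1), (P j - P k) := by
  rw [← Finset.sum_range_add_sum_Ico _ (show k ≤ J + 1 by omega)]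
  have h1 : ∑ j ∈ range k, max (P j - P k) 0 = 0 := by
    refine Finset.sum_eq_zero fun j hj => ?_
    rw [mem_range] at hj
    exact max_eq_right (by linarith [hP.mono j k hj.le hk])
  rw [h1, zero_add]
  refine Finset.sum_congr rfl fun j hj => ?_
  rw [mem_Ico] at hj
  exact max_eq_left (by linarith [hP.mono k j hj.1 (by omega)])



/-- the tail at the levels is `DP` -/
theorem tail_mP_lev {J : ℕ} {P : ℕ → ℝ} (hP : Lev J P) {j : ℕ} (hj : j ≤ J) :
    (mP J P).tail (P j) = DP J P j := by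
  have hJ : (0 : ℝ) < (J : ℝ) + 1 := by positivity
  have hle : ∀ i ≤ J, P i ≤ 1 := fun i hi => (hP.mono i J hi le_rfl).trans hP.le_one
  induction hd : J - j generalizing j with
  | zero =>
    have : j = J := by omega
    subst this
    rw [tail_mP' hP (hle j le_rfl), sum_posPart_lev hP le_rfl]
    unfold DP
    simp
  | succ d ih =>
    have ih' := ih (j := j + 1) (by omega) (by omega)
    have hD : DP J P j = DP J P (j + 1) + ((j : ℝ) + 1) / ((J : ℝ) + 1) * (P (j + 1) - P j) := by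
      unfold DP
      rw [Finset.sum_eq_sum_Ico_succ_bot (show j + 1 < J + 1 by omega)]
      push_cast
      ring
    rw [hD, ← ih', tail_mP' hP (hle j hj), tail_mP' hP (hle (j + 1) (by omega)),
      sum_posPart_lev hP hj, sum_posPart_lev hP (show j + 1 ≤ J by omega)]
    rw [Finset.sum_eq_sum_Ico_succ_bot (show j < J + 1 by omega), sub_self, zero_add,
      Finset.sum_sub_distrib, Finset.sum_sub_distrib]
    simp only [Finset.sum_const, Nat.card_Ico, nsmul_eq_mul]
    have hc : ((J + 1 - (j + 1) : ℕ) : ℝ) = (J : ℝ) - j := by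
      rw [Nat.cast_sub (by omega)]; push_cast; ring
    rw [hc]
    field_simp
    ring

/-! ### general facts on tails and entropy -/


theorem tail_le_one_sub (m : OverlapProfile) {t : ℝ} (ht : t ∈ Set.Icc (0 : ℝ) 1) :
    m.tail t ≤ 1 - t := by
  unfold OverlapProfile.tail
  have h : (∫ s in t..1, m.toFun s) ≤ ∫ s in t..1, (1 : ℝ) := by
    refine intervalIntegral.integral_mono_on ht.2 (intervalIntegrable_mono m t 1)
      intervalIntegrable_const fun s hs => m.le_one s ⟨ht.1.trans hs.1, hs.2⟩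
  simpa using h

theorem tail_mono {m m' : OverlapProfile} (h : ∀ t ∈ Set.Icc (0 : ℝ) 1, m.toFun t ≤ m'.toFun t)
    {t : ℝ} (ht : t ∈ Set.Icc (0 : ℝ) 1) : m.tail t ≤ m'.tail t := by
  unfold OverlapProfile.tail
  exact intervalIntegral.integral_mono_on ht.2 (intervalIntegrable_mono m t 1)
    (intervalIntegrable_mono m' t 1) fun s hs => h s ⟨ht.1.trans hs.1, hs.2⟩

theorem continuous_tail (m : OverlapProfile) : Continuous m.tail := by
  have h : m.tail = fun t => -∫ s in (1 : ℝ)..t, m.toFun s := by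
    funext t
    unfold OverlapProfile.tail
    exact intervalIntegral.integral_symm _ _
  rw [h]
  exact (intervalIntegral.continuous_primitive (fun a b => intervalIntegrable_mono m a b) 1).neg


/-- the entropy is antitone in the tail -/
theorem entropy_anti {m m' : OverlapProfile}
    (h : ∀ t ∈ Set.Icc (0 : ℝ) 1, m.tail t ≤ m'.tail t) : m'.entropy ≤ m.entropy := by
  unfold OverlapProfile.entropy
  refine ENNReal.div_le_div_right ?_ _
  refine setLIntegral_mono' measurableSet_Icc fun t ht => ?_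
  refine tsub_le_tsub_right ?_ _
  exact ENNReal.inv_le_inv.2 (ENNReal.ofReal_le_ofReal (h t ht))

/-- the integrand of the entropy -/
theorem entropy_integrand (m : OverlapProfile) {t : ℝ} (ht : t ∈ Set.Ico (0 : ℝ) 1)
    (hD : 0 < m.tail t) :
    (ENNReal.ofReal (m.tail t))⁻¹ - (ENNReal.ofReal (1 - t))⁻¹ =
      ENNReal.ofReal ((m.tail t)⁻¹ - (1 - t)⁻¹) := by
  have h1 : 0 < 1 - t := by linarith [ht.2]
  rw [← ENNReal.ofReal_inv_of_pos hD, ← ENNReal.ofReal_inv_of_pos h1,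
    ENNReal.ofReal_sub _ (inv_nonneg.2 h1.le)]

theorem entropy_integrand_nonneg (m : OverlapProfile) {t : ℝ} (ht : t ∈ Set.Ico (0 : ℝ) 1)
    (hD : 0 < m.tail t) : 0 ≤ (m.tail t)⁻¹ - (1 - t)⁻¹ := by
  have h := tail_le_one_sub m ⟨ht.1, ht.2.le⟩
  have := inv_anti₀ hD h
  linarith

/-- real form of the entropy -/
theorem entropy_eq_ofReal (m : OverlapProfile) (hD : ∀ t ∈ Set.Ico (0 : ℝ) 1, 0 < m.tail t)
    (hI : IntervalIntegrable (fun t => (m.tail t)⁻¹ - (1 - t)⁻¹) volume 0 1) :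
    m.entropy = ENNReal.ofReal (1 / 2 * ∫ t in (0 : ℝ)..1, ((m.tail t)⁻¹ - (1 - t)⁻¹)) := by
  unfold OverlapProfile.entropy
  have e1 : (∫⁻ t in Set.Icc (0 : ℝ) 1,
      ((ENNReal.ofReal (m.tail t))⁻¹ - (ENNReal.ofReal (1 - t))⁻¹)) =
      ∫⁻ t in Set.Ico (0 : ℝ) 1, ENNReal.ofReal ((m.tail t)⁻¹ - (1 - t)⁻¹) := by
    rw [← setLIntegral_congr (Ico_ae_eq_Icc (μ := (volume : Measure ℝ)) (a := 0) (b := 1))]
    exact setLIntegral_congr_fun measurableSet_Ico fun t ht => entropy_integrand m ht (hD t ht)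
  have e2 : (∫ t in (0 : ℝ)..1, ((m.tail t)⁻¹ - (1 - t)⁻¹)) =
      ∫ t in Set.Ico (0 : ℝ) 1, ((m.tail t)⁻¹ - (1 - t)⁻¹) := by
    rw [intervalIntegral.integral_of_le zero_le_one]
    exact setIntegral_congr_set (Ico_ae_eq_Ioc (μ := (volume : Measure ℝ))).symm
  have hI' : IntegrableOn (fun t => (m.tail t)⁻¹ - (1 - t)⁻¹) (Set.Ico (0 : ℝ) 1) volume := by
    have := (intervalIntegrable_iff_integrableOn_Ioc_of_le zero_le_one).1 hI
    exact (integrableOn_congr_set_ae (Ico_ae_eq_Ioc (μ := (volume : Measure ℝ)))).2 this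
  rw [e1, ← ofReal_integral_eq_lintegral_ofReal hI', e2]
  · rw [one_div, mul_comm, ← div_eq_mul_inv, ENNReal.ofReal_div_of_pos two_pos]
    norm_num
  · refine (ae_restrict_iff' measurableSet_Ico).2 (Filter.Eventually.of_forall fun t ht => ?_)
    exact entropy_integrand_nonneg m ht (hD t ht)

/-! ### entropy of a step profile -/

/-- the tail inside a cell -/
theorem tail_mP_cell {J : ℕ} {P : ℕ → ℝ} (hP : Lev J P) {j : ℕ} (hj : j ≤ J) {t : ℝ}
    (h1 : ∀ i < j, P i ≤ t) (h2 : t ≤ P j) :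
    (mP J P).tail t = DP J P j + (j : ℝ) / ((J : ℝ) + 1) * (P j - t) := by
  have hJ : (0 : ℝ) < (J : ℝ) + 1 := by positivity
  have hPj : P j ≤ 1 := (hP.mono j J hj le_rfl).trans hP.le_one
  rw [← tail_mP_lev hP hj, tail_mP' hP (h2.trans hPj), tail_mP' hP hPj, sum_posPart_lev hP hj]
  have e1 : ∑ i ∈ range (J + 1), max (P i - t) 0 = ∑ i ∈ Ico j (J + 1), (P i - t) := by
    rw [← Finset.sum_range_add_sum_Ico _ (show j ≤ J + 1 by omega)]
    have h3 : ∑ i ∈ range j, max (P i - t) 0 = 0 := by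
      refine Finset.sum_eq_zero fun i hi => ?_
      rw [mem_range] at hi
      exact max_eq_right (by linarith [h1 i hi])
    rw [h3, zero_add]
    refine Finset.sum_congr rfl fun i hi => ?_
    rw [mem_Ico] at hi
    exact max_eq_left (by linarith [hP.mono j i hi.1 (by omega)])
  rw [e1, Finset.sum_sub_distrib, Finset.sum_sub_distrib]
  simp only [Finset.sum_const, Nat.card_Ico, nsmul_eq_mul]
  have hc : ((J + 1 - j : ℕ) : ℝ) = (J : ℝ) + 1 - j := by
    rw [Nat.cast_sub (by omega)]; push_cast; ring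
  rw [hc]
  field_simp
  ring

/-- the tail beyond the last level -/
theorem tail_mP_top {J : ℕ} {P : ℕ → ℝ} (hP : Lev J P) {t : ℝ} (h1 : P J ≤ t) (h2 : t ≤ 1) :
    (mP J P).tail t = 1 - t := by
  rw [tail_mP' hP h2]
  have h3 : ∑ i ∈ range (J + 1), max (P i - t) 0 = 0 := by
    refine Finset.sum_eq_zero fun i hi => ?_
    rw [mem_range] at hi
    exact max_eq_right (by linarith [hP.mono i J (by omega) le_rfl])
  rw [h3]; ring

theorem tail_mP_ge {J : ℕ} {P : ℕ → ℝ} (hP : Lev J P) {t : ℝ} (h2 : t ≤ 1) :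
    1 - max (P J) t ≤ (mP J P).tail t := by
  have hJ : (0 : ℝ) < (J : ℝ) + 1 := by positivity
  rw [tail_mP hP h2]
  have h3 : ((J : ℝ) + 1) * (1 - max (P J) t) ≤ ∑ j ∈ range (J + 1), (1 - max (P j) t) := by
    have := Finset.card_nsmul_le_sum (range (J + 1)) (fun j => 1 - max (P j) t) (1 - max (P J) t)
      (fun j hj => by
        rw [mem_range] at hj
        have := max_le_max (hP.mono j J (by omega) le_rfl) (le_refl t)
        linarith)
    rw [card_range, nsmul_eq_mul] at this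
    push_cast at this
    exact this
  calc 1 - max (P J) t = ((J : ℝ) + 1)⁻¹ * (((J : ℝ) + 1) * (1 - max (P J) t)) := by
        rw [← mul_assoc, inv_mul_cancel₀ hJ.ne', one_mul]
    _ ≤ _ := mul_le_mul_of_nonneg_left h3 (inv_pos.2 hJ).le

theorem DP_pos {J : ℕ} {P : ℕ → ℝ} (hP : Lev J P) (h1 : P J < 1) {j : ℕ} (hj : j ≤ J) :
    0 < DP J P j := by
  rw [← tail_mP_lev hP hj]
  have hPj : P j ≤ P J := hP.mono j J hj le_rfl
  have := tail_mP_ge hP (hPj.trans h1.le)
  rw [max_eq_left hPj] at this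
  linarith

theorem integral_inv_lin {a b d x : ℝ} (hab : a ≤ b) (hd : 0 < d) (hx : 0 < x) :
    (∫ t in a..b, (d + x * (b - t))⁻¹) = x⁻¹ * Real.log ((d + x * (b - a)) / d) := by
  have hpos : ∀ t ∈ Set.uIcc a b, 0 < d + x * (b - t) := by
    intro t ht
    rw [Set.uIcc_of_le hab] at ht
    have : 0 ≤ x * (b - t) := mul_nonneg hx.le (by linarith [ht.2])
    linarith
  have hder : ∀ t ∈ Set.uIcc a b,
      HasDerivAt (fun t => -(x⁻¹ * Real.log (d + x * (b - t)))) ((d + x * (b - t))⁻¹) t := by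
    intro t ht
    have h0 := hpos t ht
    have h1 : HasDerivAt (fun t => d + x * (b - t)) (x * (-1)) t :=
      (((hasDerivAt_id t).const_sub b).const_mul x).const_add d
    have h2 := ((h1.log h0.ne').const_mul x⁻¹).neg
    have h3 : (d + x * (b - t))⁻¹ = -(x⁻¹ * (x * (-1) / (d + x * (b - t)))) := by
      have := hx.ne'
      have := h0.ne'
      field_simp
    rw [h3]
    exact h2
  rw [intervalIntegral.integral_eq_sub_of_hasDerivAt hder]
  · have h3 := hpos a Set.left_mem_uIcc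
    rw [Real.log_div h3.ne' hd.ne']
    simp only [sub_self, mul_zero, add_zero]
    ring
  · refine ContinuousOn.intervalIntegrable ?_
    refine ContinuousOn.inv₀ (by fun_prop) fun t ht => (hpos t ht).ne'

/-- the entropy of the step profile is `SP` -/
theorem entropy_mP {J : ℕ} {P : ℕ → ℝ} (hP : Lev J P) (h1 : P J < 1) :
    (mP J P).entropy = ENNReal.ofReal (SP J P) := by
  have hJ : (0 : ℝ) < (J : ℝ) + 1 := by positivity
  have hPJ0 : 0 ≤ P J := hP.nonneg.trans (hP.mono 0 J (Nat.zero_le _) le_rfl)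
  have hDpos : ∀ t ∈ Set.Ico (0 : ℝ) 1, 0 < (mP J P).tail t := by
    intro t ht
    have := tail_mP_ge hP ht.2.le
    have h2 : max (P J) t < 1 := max_lt h1 ht.2
    linarith
  have hcont1 : ContinuousOn (fun t => ((mP J P).tail t)⁻¹) (Set.Icc 0 (P J)) :=
    ContinuousOn.inv₀ (continuous_tail _).continuousOn fun t ht =>
      (hDpos t ⟨ht.1, ht.2.trans_lt h1⟩).ne'
  have hcont2 : ContinuousOn (fun t : ℝ => (1 - t)⁻¹) (Set.Icc 0 (P J)) :=
    ContinuousOn.inv₀ (by fun_prop) fun t ht => by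
      have := ht.2.trans_lt h1
      intro h
      linarith
  have hI1 : ∀ a b, 0 ≤ a → a ≤ b → b ≤ P J →
      IntervalIntegrable (fun t => ((mP J P).tail t)⁻¹) volume a b := by
    intro a b ha hab hb
    refine ContinuousOn.intervalIntegrable (hcont1.mono ?_)
    rw [Set.uIcc_of_le hab]
    exact Set.Icc_subset_Icc ha hb
  have hI2 : IntervalIntegrable (fun t : ℝ => (1 - t)⁻¹) volume 0 (P J) := by
    refine ContinuousOn.intervalIntegrable ?_
    rw [Set.uIcc_of_le hPJ0]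
    exact hcont2
  have hI3 : IntervalIntegrable (fun t => ((mP J P).tail t)⁻¹ - (1 - t)⁻¹) volume 0 (P J) :=
    (hI1 0 (P J) le_rfl hPJ0 le_rfl).sub hI2
  have hz : ∀ t ∈ Set.uIcc (P J) 1, ((mP J P).tail t)⁻¹ - (1 - t)⁻¹ = 0 := by
    intro t ht
    rw [Set.uIcc_of_le h1.le] at ht
    rw [tail_mP_top hP ht.1 ht.2, sub_self]
  have hI4 : IntervalIntegrable (fun t => ((mP J P).tail t)⁻¹ - (1 - t)⁻¹) volume (P J) 1 := by
    have h0 : IntervalIntegrable (fun _ : ℝ => (0 : ℝ)) volume (P J) 1 := intervalIntegrable_const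
    refine h0.congr ?_
    intro t ht
    exact (hz t (Set.uIoc_subset_uIcc ht)).symm
  have hI : IntervalIntegrable (fun t => ((mP J P).tail t)⁻¹ - (1 - t)⁻¹) volume 0 1 :=
    hI3.trans hI4
  rw [entropy_eq_ofReal _ hDpos hI]
  congr 1
  unfold SP
  congr 1
  rw [← intervalIntegral.integral_add_adjacent_intervals hI3 hI4,
    intervalIntegral.integral_congr (g := fun _ => (0 : ℝ)) (a := P J) (b := 1) hz]
  rw [intervalIntegral.integral_zero, add_zero,
    intervalIntegral.integral_sub (hI1 0 (P J) le_rfl hPJ0 le_rfl) hI2]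
  -- the logarithm
  have e2 : (∫ t in (0 : ℝ)..P J, (1 - t)⁻¹) = - Real.log (DP J P J) := by
    have h3 : DP J P J = 1 - P J := by unfold DP; simp
    have h4 : (∫ t in (0 : ℝ)..P J, (1 - t)⁻¹) =
        ∫ t in (0 : ℝ)..P J, ((1 - P J) + 1 * (P J - t))⁻¹ := by
      refine intervalIntegral.integral_congr fun t _ => ?_
      congr 1
      ring
    rw [h4, integral_inv_lin hPJ0 (by linarith) one_pos, h3]
    rw [show 1 - P J + 1 * (P J - 0) = 1 by ring, one_div, Real.log_inv]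
    simp
  -- the first cell
  have hcell0 : (∫ t in (0 : ℝ)..P 0, ((mP J P).tail t)⁻¹) = P 0 / DP J P 0 := by
    have h4 : (∫ t in (0 : ℝ)..P 0, ((mP J P).tail t)⁻¹) =
        ∫ t in (0 : ℝ)..P 0, (DP J P 0)⁻¹ := by
      refine intervalIntegral.integral_congr fun t ht => ?_
      rw [Set.uIcc_of_le hP.nonneg] at ht
      rw [tail_mP_cell hP (Nat.zero_le J) (fun i hi => absurd hi (Nat.not_lt_zero i)) ht.2]
      simp
    rw [h4, intervalIntegral.integral_const, sub_zero, smul_eq_mul, div_eq_mul_inv]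
  -- other cells
  have hcell : ∀ j ∈ Ico 1 (J + 1), (∫ t in P (j - 1)..P j, ((mP J P).tail t)⁻¹) =
      (((J : ℝ) + 1) / j) * Real.log (DP J P (j - 1) / DP J P j) := by
    intro j hj
    rw [mem_Ico] at hj
    have hle : P (j - 1) ≤ P j := hP.mono _ _ (Nat.sub_le _ _) (by omega)
    have hj0 : (0 : ℝ) < j := by exact_mod_cast (show 0 < j by omega)
    have h4 : (∫ t in P (j - 1)..P j, ((mP J P).tail t)⁻¹) =
        ∫ t in P (j - 1)..P j, (DP J P j + (j : ℝ) / ((J : ℝ) + 1) * (P j - t))⁻¹ := by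
      refine intervalIntegral.integral_congr fun t ht => ?_
      rw [Set.uIcc_of_le hle] at ht
      rw [tail_mP_cell hP (by omega : j ≤ J)
        (fun i hi => (hP.mono i (j - 1) (by omega) (by omega)).trans ht.1) ht.2]
    have h5 : DP J P (j - 1) = DP J P j + (j : ℝ) / ((J : ℝ) + 1) * (P j - P (j - 1)) := by
      rw [← tail_mP_lev hP (by omega : j - 1 ≤ J)]
      exact tail_mP_cell hP (by omega : j ≤ J) (fun i hi => hP.mono i (j - 1) (by omega) (by omega))
        hle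
    rw [h4, integral_inv_lin hle (DP_pos hP h1 (by omega)) (by positivity), ← h5, inv_div]
  -- sum of the cells
  have hsum : (∫ t in (0 : ℝ)..P J, ((mP J P).tail t)⁻¹) = P 0 / DP J P 0 +
      ∑ j ∈ Ico 1 (J + 1), (((J : ℝ) + 1) / j) * Real.log (DP J P (j - 1) / DP J P j) := by
    have hi0 := hI1 0 (P 0) le_rfl hP.nonneg (hP.mono 0 J (Nat.zero_le _) le_rfl)
    have hi1 := hI1 (P 0) (P J) hP.nonneg (hP.mono 0 J (Nat.zero_le _) le_rfl) le_rfl
    rw [← intervalIntegral.integral_add_adjacent_intervals hi0 hi1, hcell0]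
    congr 1
    rw [← Finset.sum_congr rfl hcell, Finset.sum_Ico_add' (fun j => ∫ t in P (j - 1)..P j,
      ((mP J P).tail t)⁻¹) 0 J 1 |>.symm]
    simp only [Nat.add_sub_cancel]
    rw [intervalIntegral.sum_integral_adjacent_intervals_Ico (Nat.zero_le J)]
    intro k hk
    exact hI1 _ _ (hP.nonneg.trans (hP.mono 0 k (Nat.zero_le _) hk.2.le))
      (hP.mono k (k + 1) (Nat.le_succ _) hk.2) (hP.mono (k + 1) J hk.2 le_rfl)
  rw [hsum, e2]
  ring

theorem ent : S6U_988.ENT := fun _ _ hP h1 => entropy_mP hP h1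

/-! ### approximation from above -/

open scoped Classical in
/-- upper levels of a profile, cut at `c` -/
def qlev (m : OverlapProfile) (J : ℕ) (c : ℝ) (j : ℕ) : ℝ :=
  sInf ({t | t ∈ Set.Icc (0 : ℝ) c ∧ (j : ℝ) / ((J : ℝ) + 1) < m.toFun t} ∪ {c})

theorem qlev_bdd (m : OverlapProfile) (J : ℕ) {c : ℝ} (hc : 0 ≤ c) (j : ℕ) :
    BddBelow ({t | t ∈ Set.Icc (0 : ℝ) c ∧ (j : ℝ) / ((J : ℝ) + 1) < m.toFun t} ∪ {c}) := by
  refine ⟨0, ?_⟩
  rintro t (ht | ht)
  · exact ht.1.1
  · rw [Set.mem_singleton_iff] at ht; rw [ht]; exact hc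

theorem qlev_nonneg (m : OverlapProfile) (J : ℕ) {c : ℝ} (hc : 0 ≤ c) (j : ℕ) :
    0 ≤ qlev m J c j := by
  unfold qlev
  refine le_csInf ⟨c, Or.inr rfl⟩ ?_
  rintro t (ht | ht)
  · exact ht.1.1
  · rw [Set.mem_singleton_iff] at ht; rw [ht]; exact hc

theorem qlev_le (m : OverlapProfile) (J : ℕ) {c : ℝ} (hc : 0 ≤ c) (j : ℕ) : qlev m J c j ≤ c :=
  csInf_le (qlev_bdd m J hc j) (Or.inr rfl)

theorem qlev_mono (m : OverlapProfile) (J : ℕ) {c : ℝ} (hc : 0 ≤ c) {i j : ℕ} (hij : i ≤ j) :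
    qlev m J c i ≤ qlev m J c j := by
  unfold qlev
  refine csInf_le_csInf (qlev_bdd m J hc i) ⟨c, Or.inr rfl⟩ ?_
  refine Set.union_subset_union_left _ fun t ht => ⟨ht.1, lt_of_le_of_lt ?_ ht.2⟩
  have : (i : ℝ) ≤ j := by exact_mod_cast hij
  exact div_le_div_of_nonneg_right this (by positivity)

theorem lev_qlev (m : OverlapProfile) (J : ℕ) {c : ℝ} (hc : 0 ≤ c) (hc1 : c ≤ 1) :
    Lev J (qlev m J c) :=
  ⟨qlev_nonneg m J hc 0, fun _ _ hij _ => qlev_mono m J hc hij, (qlev_le m J hc J).trans hc1⟩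

theorem le_mP_qlev (m : OverlapProfile) (J : ℕ) {c : ℝ} (hc : 0 ≤ c) {t : ℝ}
    (ht : t ∈ Set.Icc (0 : ℝ) 1) : m.toFun t ≤ (mP J (qlev m J c)).toFun t := by
  have hJ : (0 : ℝ) < (J : ℝ) + 1 := by positivity
  rw [mP_toFun]
  have hm1 := m.le_one t ht
  have key : ((J : ℝ) + 1) * m.toFun t ≤
      ∑ j ∈ range (J + 1), if qlev m J c j ≤ t then (1 : ℝ) else 0 := by
    rcases le_or_gt c t with h | h
    · have : ∑ j ∈ range (J + 1), (if qlev m J c j ≤ t then (1 : ℝ) else 0) = (J : ℝ) + 1 := by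
        rw [Finset.sum_congr rfl (g := fun _ => (1 : ℝ))]
        · simp
        · intro j _
          rw [if_pos ((qlev_le m J hc j).trans h)]
      rw [this]
      nlinarith
    · set n := ⌈((J : ℝ) + 1) * m.toFun t⌉₊ with hn
      have hnJ : n ≤ J + 1 := by
        rw [hn, Nat.ceil_le]
        push_cast
        nlinarith
      have h1 : ∀ j ∈ range n, qlev m J c j ≤ t := by
        intro j hj
        rw [mem_range, hn, Nat.lt_ceil] at hj
        refine csInf_le (qlev_bdd m J hc j) (Or.inl ⟨⟨ht.1, h.le⟩, ?_⟩)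
        rw [div_lt_iff₀ hJ]
        linarith
      calc ((J : ℝ) + 1) * m.toFun t ≤ n := Nat.le_ceil _
        _ = ∑ j ∈ range n, (1 : ℝ) := by simp
        _ = ∑ j ∈ range n, (if qlev m J c j ≤ t then (1 : ℝ) else 0) :=
            Finset.sum_congr rfl fun j hj => by rw [if_pos (h1 j hj)]
        _ ≤ ∑ j ∈ range (J + 1), (if qlev m J c j ≤ t then (1 : ℝ) else 0) := by
            refine Finset.sum_le_sum_of_subset_of_nonneg (Finset.range_mono hnJ) fun j _ _ => ?_
            split_ifs <;> norm_num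
  calc m.toFun t = ((J : ℝ) + 1)⁻¹ * (((J : ℝ) + 1) * m.toFun t) := by
        rw [← mul_assoc, inv_mul_cancel₀ hJ.ne', one_mul]
    _ ≤ _ := mul_le_mul_of_nonneg_left key (inv_pos.2 hJ).le

theorem mP_qlev_le (m : OverlapProfile) (J : ℕ) {c : ℝ} (hc1 : c ≤ 1) {t : ℝ}
    (ht : t ∈ Set.Ico (0 : ℝ) c) (hne : ∀ j ∈ range (J + 1), qlev m J c j ≠ t) :
    (mP J (qlev m J c)).toFun t ≤ m.toFun t + 1 / ((J : ℝ) + 1) := by
  have hJ : (0 : ℝ) < (J : ℝ) + 1 := by positivity
  rw [mP_toFun]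
  have hm0 := m.nonneg t ⟨ht.1, ht.2.le.trans hc1⟩
  have key : (∑ j ∈ range (J + 1), if qlev m J c j ≤ t then (1 : ℝ) else 0) ≤
      ((J : ℝ) + 1) * m.toFun t + 1 := by
    have h1 : ∀ j ∈ range (J + 1), qlev m J c j ≤ t → (j : ℝ) < ((J : ℝ) + 1) * m.toFun t := by
      intro j hj hle
      have hlt : qlev m J c j < t := lt_of_le_of_ne hle (hne j hj)
      obtain ⟨s, hs, hst⟩ := exists_lt_of_csInf_lt ⟨c, Or.inr rfl⟩ hlt
      rcases hs with hs | hs
      · have h2 := hs.2.trans_le (m.mono hst.le)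
        rw [div_lt_iff₀ hJ] at h2
        linarith
      · rw [Set.mem_singleton_iff] at hs
        rw [hs] at hst
        exact absurd hst (not_lt.2 ht.2.le)
    have h3 : (∑ j ∈ range (J + 1), if qlev m J c j ≤ t then (1 : ℝ) else 0) ≤
        ∑ j ∈ range (⌈((J : ℝ) + 1) * m.toFun t⌉₊), (1 : ℝ) := by
      rw [← Finset.sum_filter]
      refine Finset.sum_le_sum_of_subset_of_nonneg ?_ fun j _ _ => zero_le_one
      intro j hj
      rw [mem_filter] at hj
      rw [mem_range, Nat.lt_ceil]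
      exact h1 j hj.1 hj.2
    refine h3.trans ?_
    rw [Finset.sum_const, card_range, nsmul_eq_mul, mul_one]
    exact (Nat.ceil_lt_add_one (by positivity)).le
  calc ((J : ℝ) + 1)⁻¹ * (∑ j ∈ range (J + 1), if qlev m J c j ≤ t then (1 : ℝ) else 0)
      ≤ ((J : ℝ) + 1)⁻¹ * (((J : ℝ) + 1) * m.toFun t + 1) :=
        mul_le_mul_of_nonneg_left key (inv_pos.2 hJ).le
    _ = _ := by field_simp

theorem integral_mP_qlev_le (m : OverlapProfile) (J : ℕ) {c : ℝ} (hc : 0 ≤ c) (hc1 : c ≤ 1) :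
    ∫ t in (0 : ℝ)..1, ((mP J (qlev m J c)).toFun t - m.toFun t) ≤
      1 / ((J : ℝ) + 1) + (1 - c) := by
  have hJ : (0 : ℝ) < (J : ℝ) + 1 := by positivity
  have hI : ∀ a b : ℝ, IntervalIntegrable (fun t => (mP J (qlev m J c)).toFun t - m.toFun t)
      volume a b := fun a b => (intervalIntegrable_mono _ a b).sub (intervalIntegrable_mono m a b)
  rw [← intervalIntegral.integral_add_adjacent_intervals (hI 0 c) (hI c 1)]
  have h1 : ∫ t in (0 : ℝ)..c, ((mP J (qlev m J c)).toFun t - m.toFun t) ≤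
      ∫ t in (0 : ℝ)..c, (1 / ((J : ℝ) + 1)) := by
    refine intervalIntegral.integral_mono_ae_restrict hc (hI 0 c) intervalIntegrable_const ?_
    have hne : ∀ᵐ t : ℝ ∂volume, t ∉ ((range (J + 1)).image (qlev m J c) : Set ℝ) := by
      exact (Finset.countable_toSet _).ae_notMem volume
    have hne2 : ∀ᵐ t : ℝ ∂volume, t ≠ c := by
      rw [ae_iff]; simp
    filter_upwards [ae_restrict_of_ae hne, ae_restrict_of_ae hne2,
      ae_restrict_mem measurableSet_Icc] with t h1 h2 h3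
    have h4 := mP_qlev_le m J hc1 (t := t) ⟨h3.1, lt_of_le_of_ne h3.2 h2⟩ (by
      intro j hj he
      refine h1 ?_
      rw [Finset.mem_coe, Finset.mem_image]
      exact ⟨j, hj, he⟩)
    linarith
  have h2 : ∫ t in c..1, ((mP J (qlev m J c)).toFun t - m.toFun t) ≤ ∫ t in c..1, (1 : ℝ) := by
    refine intervalIntegral.integral_mono_on hc1 (hI c 1) intervalIntegrable_const fun t ht => ?_
    have h3 := (mP J (qlev m J c)).le_one t ⟨hc.trans ht.1, ht.2⟩
    have h4 := m.nonneg t ⟨hc.trans ht.1, ht.2⟩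
    linarith
  rw [intervalIntegral.integral_const, smul_eq_mul, sub_zero] at h1
  rw [intervalIntegral.integral_const, smul_eq_mul, mul_one] at h2
  have h5 : c * (1 / ((J : ℝ) + 1)) ≤ 1 / ((J : ℝ) + 1) := by
    have : 0 < 1 / ((J : ℝ) + 1) := by positivity
    nlinarith
  linarith

/-- every profile is approximated from above by step profiles of high resolution, the last level
below one (no finiteness of the entropy is needed). -/
theorem approx_above (m : OverlapProfile) {ε : ℝ} (hε : 0 < ε) : ∃ J0 : ℕ, ∀ J, J0 ≤ J →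
    ∃ P : ℕ → ℝ, Lev J P ∧ P J < 1 ∧ (mP J P).entropy ≤ m.entropy ∧
      (∀ t ∈ Set.Icc (0 : ℝ) 1, m.toFun t ≤ (mP J P).toFun t) ∧
      ∫ t in (0 : ℝ)..1, ((mP J P).toFun t - m.toFun t) ≤ ε := by
  obtain ⟨J0, hJ0⟩ := exists_nat_gt (2 / ε)
  refine ⟨J0, fun J hJ => ?_⟩
  set c : ℝ := max 0 (1 - ε / 2) with hc
  have hc0 : 0 ≤ c := le_max_left _ _
  have hc1 : c < 1 := max_lt one_pos (by linarith)
  have hle : ∀ t ∈ Set.Icc (0 : ℝ) 1, m.toFun t ≤ (mP J (qlev m J c)).toFun t :=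
    fun t ht => le_mP_qlev m J hc0 ht
  refine ⟨qlev m J c, lev_qlev m J hc0 hc1.le, (qlev_le m J hc0 J).trans_lt hc1,
    entropy_anti fun t ht => tail_mono hle ht, hle,
    (integral_mP_qlev_le m J hc0 hc1.le).trans ?_⟩
  have h1 : 1 / ((J : ℝ) + 1) ≤ ε / 2 := by
    have : 2 / ε < (J : ℝ) + 1 := by
      have : (J0 : ℝ) ≤ J := by exact_mod_cast hJ
      linarith
    rw [div_le_iff₀ (by positivity)]
    rw [div_lt_iff₀ hε] at this
    linarith
  have h2 : 1 - ε / 2 ≤ c := le_max_right _ _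
  linarith

theorem apx : S6U_988.APX := by
  intro m _ ε hε
  obtain ⟨J0, h⟩ := approx_above m hε
  refine ⟨J0, fun J hJ => ?_⟩
  obtain ⟨P, h1, h2, h3, h4, h5⟩ := h J hJ
  exact ⟨P, h1, h2, h3.trans le_self_add, fun t ht => h4 t ⟨ht.1.le, ht.2.le⟩, h5⟩

/-! ### tails up to `δ` -/

/-- raise the top levels by a total amount `δ (J+1)` -/
theorem exists_raise {J : ℕ} {P P' : ℕ → ℝ} (hP : Lev J P) (hP' : Lev J P') {Δ : ℝ} (hΔ : 0 ≤ Δ)
    (h : ∀ k ≤ J, ∑ j ∈ Ico k (J + 1), P' j ≤ ∑ j ∈ Ico k (J + 1), P j + Δ) :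
    ∃ R : ℕ → ℝ, Lev J R ∧ (∀ k ≤ J, ∑ j ∈ Ico k (J + 1), P' j ≤ ∑ j ∈ Ico k (J + 1), R j) ∧
      ∑ j ∈ range (J + 1), |P j - R j| ≤ Δ := by
  have hP1 : ∀ i ≤ J, P i ≤ 1 := fun i hi => (hP.mono i J hi le_rfl).trans hP.le_one
  have hP'1 : ∀ i ≤ J, P' i ≤ 1 := fun i hi => (hP'.mono i J hi le_rfl).trans hP'.le_one
  -- weights
  let w : ℝ → ℕ → ℝ := fun s j => max 0 (min 1 ((j : ℝ) + s - J))
  have hw0 : ∀ s j, 0 ≤ w s j := fun s j => le_max_left _ _
  have hw1 : ∀ s j, w s j ≤ 1 := fun s j => max_le zero_le_one (min_le_left _ _)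
  have hwnext : ∀ s j, 0 < w s j → w s (j + 1) = 1 := by
    intro s j hj
    have h1 : 0 < (j : ℝ) + s - J := by
      by_contra hn
      push Not at hn
      have : w s j = 0 := max_eq_left ((min_le_right _ _).trans hn)
      linarith
    have h2 : (1 : ℝ) ≤ ((j + 1 : ℕ) : ℝ) + s - J := by push_cast; linarith
    show max 0 (min 1 (((j + 1 : ℕ) : ℝ) + s - J)) = 1
    rw [min_eq_left h2, max_eq_right zero_le_one]
  have hwmono : ∀ s i j, i ≤ j → w s i ≤ w s j := by
    intro s i j hij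
    have : (i : ℝ) ≤ j := by exact_mod_cast hij
    exact max_le_max le_rfl (min_le_min le_rfl (by linarith))
  let R : ℝ → ℕ → ℝ := fun s j => P j + w s j * (1 - P j)
  have hRP : ∀ s, ∀ j ≤ J, P j ≤ R s j := fun s j hj => by
    have := mul_nonneg (hw0 s j) (sub_nonneg.2 (hP1 j hj))
    show P j ≤ P j + w s j * (1 - P j)
    linarith
  have hR1 : ∀ s, ∀ j ≤ J, R s j ≤ 1 := fun s j hj => by
    have := mul_le_mul_of_nonneg_right (hw1 s j) (sub_nonneg.2 (hP1 j hj))
    show P j + w s j * (1 - P j) ≤ 1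
    linarith
  have hRlev : ∀ s, Lev J (R s) := by
    intro s
    refine ⟨hP.nonneg.trans (hRP s 0 (Nat.zero_le _)), ?_, hR1 s J le_rfl⟩
    intro i j hij hjJ
    rcases eq_or_lt_of_le hij with h0 | h0
    · rw [h0]
    rcases (hw0 s i).eq_or_lt with h1 | h1
    · have : R s i = P i := by
        show P i + w s i * (1 - P i) = P i
        rw [← h1]; ring
      rw [this]
      exact (hP.mono i j hij hjJ).trans (hRP s j hjJ)
    · have h2 := hwnext s i h1
      have h3 : w s j = 1 := le_antisymm (hw1 s j) (h2 ▸ hwmono s (i + 1) j h0)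
      have : R s j = 1 := by
        show P j + w s j * (1 - P j) = 1
        rw [h3]; ring
      rw [this]
      exact hR1 s i (hij.trans hjJ)
  let T : ℝ → ℝ := fun s => ∑ j ∈ range (J + 1), (R s j - P j)
  have hTcont : Continuous T := by
    refine continuous_finsetSum _ fun j _ => ?_
    show Continuous fun s => P j + max 0 (min 1 ((j : ℝ) + s - J)) * (1 - P j) - P j
    fun_prop
  have hT0 : T 0 = 0 := by
    refine Finset.sum_eq_zero fun j hj => ?_
    rw [mem_range] at hj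
    have h1 : (j : ℝ) + 0 - J ≤ 0 := by
      have : (j : ℝ) ≤ J := by exact_mod_cast (by omega : j ≤ J)
      linarith
    have h2 : w 0 j = 0 := max_eq_left ((min_le_right _ _).trans h1)
    show P j + w 0 j * (1 - P j) - P j = 0
    rw [h2]; ring
  have habs : ∀ s, ∑ j ∈ range (J + 1), |P j - R s j| = T s := by
    intro s
    refine Finset.sum_congr rfl fun j hj => ?_
    rw [mem_range] at hj
    rw [abs_sub_comm, abs_of_nonneg (sub_nonneg.2 (hRP s j (by omega)))]
  rcases le_total (T ((J : ℝ) + 1)) Δ with hbig | hbig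
  · -- everything raised to one
    refine ⟨R ((J : ℝ) + 1), hRlev _, ?_, (habs _).le.trans hbig⟩
    intro k hk
    refine Finset.sum_le_sum fun j hj => ?_
    rw [mem_Ico] at hj
    have h1 : w ((J : ℝ) + 1) j = 1 := by
      have h2 : (1 : ℝ) ≤ (j : ℝ) + ((J : ℝ) + 1) - J := by
        have : (0 : ℝ) ≤ j := Nat.cast_nonneg j
        linarith
      show max 0 (min 1 ((j : ℝ) + ((J : ℝ) + 1) - J)) = 1
      rw [min_eq_left h2, max_eq_right zero_le_one]
    have h3 : R ((J : ℝ) + 1) j = 1 := by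
      show P j + w ((J : ℝ) + 1) j * (1 - P j) = 1
      rw [h1]; ring
    rw [h3]
    exact hP'1 j (by omega)
  · obtain ⟨s, hs, hTs⟩ := intermediate_value_Icc (show (0 : ℝ) ≤ (J : ℝ) + 1 by positivity)
      hTcont.continuousOn (show Δ ∈ Set.Icc (T 0) (T ((J : ℝ) + 1)) from ⟨by rw [hT0]; exact hΔ, hbig⟩)
    refine ⟨R s, hRlev s, ?_, ((habs s).trans hTs).le⟩
    intro k hk
    rcases eq_or_lt_of_le (hw1 s k) with h1 | h1
    · refine Finset.sum_le_sum fun j hj => ?_
      rw [mem_Ico] at hj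
      have h2 : w s j = 1 := le_antisymm (hw1 s j) (h1 ▸ hwmono s k j hj.1)
      have h3 : R s j = 1 := by
        show P j + w s j * (1 - P j) = 1
        rw [h2]; ring
      rw [h3]
      exact hP'1 j (by omega)
    · have h2 : ∀ j < k, R s j - P j = 0 := by
        intro j hj
        have h3 : w s j = 0 := by
          by_contra hne
          have h4 : 0 < w s j := lt_of_le_of_ne (hw0 s j) (Ne.symm hne)
          have h5 := hwnext s j h4
          have h6 := hwmono s (j + 1) k hj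
          linarith
        show P j + w s j * (1 - P j) - P j = 0
        rw [h3]; ring
      have h7 : ∑ j ∈ Ico k (J + 1), (R s j - P j) = Δ := by
        rw [← hTs]
        show _ = ∑ j ∈ range (J + 1), (R s j - P j)
        rw [← Finset.sum_range_add_sum_Ico _ (show k ≤ J + 1 by omega),
          Finset.sum_eq_zero (s := range k) fun j hj => h2 j (mem_range.1 hj), zero_add]
      rw [Finset.sum_sub_distrib] at h7
      linarith [h k hk]

/-- (MONOδ) from (MONO) and (LIP). -/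
theorem monod (hM : S6U_988.MONO) (hL : S6U_988.LIP) : S6U_988.MONOd := by
  intro J K L f hf P P' hP hP' δ hδ h
  have hJ : (0 : ℝ) < (J : ℝ) + 1 := by positivity
  obtain ⟨R, hR, h1, h2⟩ := exists_raise hP hP' (Δ := δ * ((J : ℝ) + 1)) (by positivity) (by
    intro k hk
    have h3 := mul_le_mul_of_nonneg_left (h k hk) hJ.le
    rw [mul_add, ← mul_assoc, ← mul_assoc, mul_one_div_cancel hJ.ne', one_mul, one_mul] at h3
    linarith)
  have h3 := hM J K L f hf R P' hR hP' h1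
  have h4 := (abs_le.1 (hL J K L f hf P R hP hR)).2
  have h5 : L ^ 2 / ((J : ℝ) + 1) * ∑ j ∈ range (J + 1), |P j - R j| ≤ L ^ 2 * δ := by
    calc L ^ 2 / ((J : ℝ) + 1) * ∑ j ∈ range (J + 1), |P j - R j|
        ≤ L ^ 2 / ((J : ℝ) + 1) * (δ * ((J : ℝ) + 1)) :=
          mul_le_mul_of_nonneg_left h2 (by positivity)
      _ = L ^ 2 * δ := by field_simp
  linarith

end

end Crest.Agent.R146.MonB_911
end

-- ▼ part R146/S6UBa_167
section

/-!
Row 146, S0206, task 68 (helper167), part A: path algebra for the assembly of the upper bound.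
* the refined path `q l = P (l / wc)` on `nc + 1 = (J + 1) * wc` levels has the same entropy;
* bounds of the nested recursion `Th`;
* the tails of the refined path.
-/

set_option autoImplicit false

namespace Crest.Agent.R146.S6UBa_167

open Finset MeasureTheory ProbabilityTheory
open Crest.Agent.R146.S6Def_988

noncomputable section

/-! ### sums over blocks -/

theorem sum_blocks (G : ℕ → ℝ) (wc J : ℕ) :
    ∑ l ∈ range (J * wc), G l = ∑ j ∈ range J, ∑ r ∈ range wc, G (j * wc + r) := by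
  induction J with
  | zero => simp
  | succ J ih => rw [add_mul, one_mul, sum_range_add, sum_range_succ, ih]

theorem sum_blocks_Ico (G : ℕ → ℝ) (wc a b : ℕ) (hab : a ≤ b) :
    ∑ l ∈ Ico (a * wc) (b * wc), G l = ∑ j ∈ Ico a b, ∑ r ∈ range wc, G (j * wc + r) := by
  have h1 := sum_range_add_sum_Ico G (Nat.mul_le_mul_right wc hab)
  have h2 := sum_range_add_sum_Ico (fun j => ∑ r ∈ range wc, G (j * wc + r)) hab
  rw [← sum_blocks, ← sum_blocks] at h2
  linarith

/-! ### the refined path -/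

/-- the refined path -/
def ref (wc : ℕ) (P : ℕ → ℝ) (l : ℕ) : ℝ := P (l / wc)

variable {J wc nc : ℕ} {P : ℕ → ℝ}

theorem nc_div (hwc : 0 < wc) (hnc : nc + 1 = (J + 1) * wc) : nc / wc = J := by
  have h1 : nc = J * wc + (wc - 1) := by
    have : (J + 1) * wc = J * wc + wc := by ring
    omega
  rw [h1, mul_comm J wc, Nat.mul_add_div hwc, Nat.div_eq_of_lt (by omega)]
  omega

theorem div_le (hwc : 0 < wc) (hnc : nc + 1 = (J + 1) * wc) {l : ℕ} (hl : l ≤ nc) :
    l / wc ≤ J := by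
  rw [← nc_div hwc hnc]; exact Nat.div_le_div_right hl

theorem ref_lev (hwc : 0 < wc) (hnc : nc + 1 = (J + 1) * wc) (hP : Lev J P) :
    Lev nc (ref wc P) where
  nonneg := by unfold ref; simpa using hP.nonneg
  mono i j hij hj := hP.mono _ _ (Nat.div_le_div_right hij) (div_le hwc hnc hj)
  le_one := by unfold ref; rw [nc_div hwc hnc]; exact hP.le_one

theorem ref_last (hwc : 0 < wc) (hnc : nc + 1 = (J + 1) * wc) : ref wc P nc = P J := by
  unfold ref; rw [nc_div hwc hnc]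

theorem DP_step {J : ℕ} (P : ℕ → ℝ) {j : ℕ} (hj : j < J) :
    DP J P j = DP J P (j + 1) + ((j + 1 : ℕ) : ℝ) / ((J : ℝ) + 1) * (P (j + 1) - P j) := by
  unfold DP
  rw [sum_eq_sum_Ico_succ_bot (by omega : j + 1 < J + 1)]
  simp only [Nat.add_sub_cancel]
  ring

theorem DP_ref (hwc : 0 < wc) (hnc : nc + 1 = (J + 1) * wc) :
    ∀ d l : ℕ, l + d = nc → DP nc (ref wc P) l = DP J P (l / wc) := by
  intro d
  induction d with
  | zero =>
    intro l hl
    rw [add_zero] at hl
    subst hl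
    rw [nc_div hwc hnc]
    unfold DP
    rw [Ico_self, Ico_self, sum_empty, sum_empty, ref_last hwc hnc]
  | succ d ih =>
    intro l hl
    have ih := ih (l + 1) (by omega)
    rw [DP_step _ (by omega : l < nc), ih]
    by_cases hdiv : wc ∣ (l + 1)
    · obtain ⟨j, hj⟩ := hdiv
      have hj0 : 0 < j := by
        rcases Nat.eq_zero_or_pos j with h | h
        · subst h; simp at hj
        · exact h
      have e1 : (l + 1) / wc = j := by rw [hj]; exact Nat.mul_div_cancel_left j hwc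
      have e2 : l / wc = j - 1 := by
        have h3 : l = wc * (j - 1) + (wc - 1) := by
          have h4 : wc * j = wc * (j - 1) + wc := by
            conv_lhs => rw [show j = (j - 1) + 1 by omega]
            ring
          omega
        rw [h3, Nat.mul_add_div hwc, Nat.div_eq_of_lt (by omega)]
        omega
      have hjJ : j ≤ J := by rw [← e1]; exact div_le hwc hnc (by omega)
      rw [e1, e2]
      have h5 := DP_step (J := J) P (j := j - 1) (by omega)
      rw [show j - 1 + 1 = j by omega] at h5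
      rw [h5]
      unfold ref
      rw [e1, e2]
      have h6 : ((l + 1 : ℕ) : ℝ) / ((nc : ℝ) + 1) = (j : ℝ) / ((J : ℝ) + 1) := by
        have h7 : ((nc : ℝ) + 1) = ((J : ℝ) + 1) * wc := by exact_mod_cast hnc
        have h8 : ((l + 1 : ℕ) : ℝ) = wc * j := by rw [hj]; push_cast; ring
        have h9 : (wc : ℝ) ≠ 0 := by exact_mod_cast hwc.ne'
        have h10 : ((J : ℝ) + 1) ≠ 0 := by positivity
        rw [h7, h8]
        field_simp
      rw [h6]
    · have e1 : (l + 1) / wc = l / wc := by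
        rw [Nat.succ_div, if_neg hdiv, add_zero]
      unfold ref
      rw [e1]
      ring

theorem SP_ref (hwc : 0 < wc) (hnc : nc + 1 = (J + 1) * wc) :
    SP nc (ref wc P) = SP J P := by
  have hD : ∀ l ≤ nc, DP nc (ref wc P) l = DP J P (l / wc) := fun l hl =>
    DP_ref hwc hnc (nc - l) l (by omega)
  have e0 : DP nc (ref wc P) 0 = DP J P 0 := by rw [hD 0 (Nat.zero_le _), Nat.zero_div]
  have e1 : DP nc (ref wc P) nc = DP J P J := by rw [hD nc le_rfl, nc_div hwc hnc]
  have e2 : ref wc P 0 = P 0 := by unfold ref; rw [Nat.zero_div]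
  unfold SP
  rw [e0, e1, e2]
  congr 2
  congr 1
  -- the sum over the levels
  set Gf : ℕ → ℝ := fun l => (((nc : ℝ) + 1) / l) *
    Real.log (DP nc (ref wc P) (l - 1) / DP nc (ref wc P) l) with hGf
  have hzero : ∀ l, 0 < l → l ≤ nc → ¬ wc ∣ l → Gf l = 0 := by
    intro l hl0 hl hdiv
    rw [hGf]
    simp only
    rw [hD l hl, hD (l - 1) (by omega)]
    have h3 : (l - 1) / wc = l / wc := by
      obtain ⟨m, rfl⟩ : ∃ m, l = m + 1 := ⟨l - 1, by omega⟩
      rw [Nat.add_sub_cancel, Nat.succ_div, if_neg hdiv, add_zero]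
    rw [h3]
    by_cases h4 : DP J P (l / wc) = 0
    · rw [h4]; simp
    · rw [div_self h4]; simp
  have hblock : ∀ j, 0 < j → j ≤ J → ∑ r ∈ range wc, Gf (j * wc + r) = Gf (j * wc) := by
    intro j hj0 hj
    rw [sum_eq_single 0]
    · rw [add_zero]
    · intro r hr hr0
      have hr1 := mem_range.1 hr
      have h5 : j * wc + r ≤ nc := by
        have : j * wc ≤ J * wc := Nat.mul_le_mul_right _ hj
        have h6 : (J + 1) * wc = J * wc + wc := by ring
        omega
      refine hzero _ (by omega) h5 ?_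
      intro h6
      rw [Nat.dvd_add_right (Dvd.intro_left j rfl)] at h6
      exact absurd (Nat.le_of_dvd (by omega) h6) (by omega)
    · intro h; exact absurd (mem_range.2 hwc) h
  have hsplit : ∑ l ∈ Ico 1 (nc + 1), Gf l = ∑ j ∈ Ico 1 (J + 1), Gf (j * wc) := by
    have h1 : ∑ l ∈ Ico 1 (nc + 1), Gf l = ∑ l ∈ Ico (1 * wc) ((J + 1) * wc), Gf l := by
      rw [hnc, one_mul]
      have h3 : wc ≤ (J + 1) * wc := Nat.le_mul_of_pos_left wc (by omega)
      have h2 := sum_Ico_consecutive Gf (show 1 ≤ wc from hwc) h3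
      rw [← h2]
      have h4 : ∑ l ∈ Ico 1 wc, Gf l = 0 := by
        refine sum_eq_zero fun l hl => ?_
        rw [mem_Ico] at hl
        refine hzero l (by omega) (by omega) ?_
        intro h5
        exact absurd (Nat.le_of_dvd (by omega) h5) (by omega)
      rw [h4, zero_add]
    rw [h1, sum_blocks_Ico Gf wc 1 (J + 1) (by omega)]
    refine sum_congr rfl fun j hj => ?_
    rw [mem_Ico] at hj
    exact hblock j (by omega) (by omega)
  rw [hsplit]
  refine sum_congr rfl fun j hj => ?_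
  rw [mem_Ico] at hj
  have hjn : j * wc ≤ nc := by
    have : j * wc ≤ J * wc := Nat.mul_le_mul_right _ (by omega)
    have h6 : (J + 1) * wc = J * wc + wc := by ring
    omega
  have hjp : 0 < j * wc := Nat.mul_pos (by omega) hwc
  rw [hGf]
  simp only
  rw [hD (j * wc) hjn, hD (j * wc - 1) (by omega), Nat.mul_div_cancel j hwc]
  have h3 : (j * wc - 1) / wc = j - 1 := by
    have h4 : j * wc - 1 = wc * (j - 1) + (wc - 1) := by
      have h5 : j * wc = wc * (j - 1) + wc := by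
        conv_lhs => rw [show j = (j - 1) + 1 by omega]
        ring
      omega
    rw [h4, Nat.mul_add_div hwc, Nat.div_eq_of_lt (by omega)]
    omega
  rw [h3]
  have h6 : ((nc : ℝ) + 1) / ((j * wc : ℕ) : ℝ) = ((J : ℝ) + 1) / j := by
    have h7 : ((nc : ℝ) + 1) = ((J : ℝ) + 1) * wc := by exact_mod_cast hnc
    have h9 : (wc : ℝ) ≠ 0 := by exact_mod_cast hwc.ne'
    have h10 : (j : ℝ) ≠ 0 := by
      have : 0 < j := by omega
      exact_mod_cast this.ne'
    rw [h7]
    push_cast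
    field_simp
  rw [h6]

/-! ### bounds of the recursion -/

theorem gaussOp_bd {a v K : ℝ} (ha : 0 ≤ a) {f : ℝ → ℝ} (hm : Measurable f) (hf : ∀ x, |f x| ≤ K)
    (z : ℝ) : |Crest.ProbabilityR.InvariantGlass.gaussOp a v f z| ≤ K := by
  have hK : 0 ≤ K := (abs_nonneg _).trans (hf 0)
  unfold Crest.ProbabilityR.InvariantGlass.gaussOp
  have hmz : Measurable fun g : ℝ => f (z + Real.sqrt v * g) :=
    hm.comp (measurable_const.add (measurable_const.mul measurable_id))
  split_ifs with h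
  · have h1 : |∫ g, f (z + Real.sqrt v * g) ∂gaussianReal 0 1| ≤
        ∫ g, |f (z + Real.sqrt v * g)| ∂gaussianReal 0 1 := abs_integral_le_integral_abs
    refine h1.trans ?_
    have hint : Integrable (fun g => f (z + Real.sqrt v * g)) (gaussianReal 0 1) :=
      Integrable.of_bound (C := K) hmz.aestronglyMeasurable
        (ae_of_all _ fun g => by rw [Real.norm_eq_abs]; exact hf _)
    calc ∫ g, |f (z + Real.sqrt v * g)| ∂gaussianReal 0 1 ≤ ∫ _g : ℝ, K ∂gaussianReal 0 1 :=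
          integral_mono hint.abs (integrable_const _) fun g => hf _
      _ = K := by simp
  · have ha' : 0 < a := lt_of_le_of_ne ha (Ne.symm h)
    have hb : ∀ g, a * f (z + Real.sqrt v * g) ≤ a * K := fun g =>
      mul_le_mul_of_nonneg_left ((le_abs_self _).trans (hf _)) ha
    have hb' : ∀ g, -(a * K) ≤ a * f (z + Real.sqrt v * g) := fun g => by
      rw [← mul_neg]
      exact mul_le_mul_of_nonneg_left (neg_le_of_abs_le (hf _)) ha
    have hint : Integrable (fun g => Real.exp (a * f (z + Real.sqrt v * g))) (gaussianReal 0 1) :=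
      Integrable.of_bound (C := Real.exp (a * K)) ((hmz.const_mul a).exp).aestronglyMeasurable
        (ae_of_all _ fun g => by
          rw [Real.norm_eq_abs, abs_of_pos (Real.exp_pos _)]
          exact Real.exp_le_exp.2 (hb g))
    have h1 : Real.exp (-(a * K)) ≤ ∫ g, Real.exp (a * f (z + Real.sqrt v * g)) ∂gaussianReal 0 1 := by
      calc Real.exp (-(a * K)) = ∫ _g : ℝ, Real.exp (-(a * K)) ∂gaussianReal 0 1 := by simp
        _ ≤ _ := integral_mono (integrable_const _) hint fun g => Real.exp_le_exp.2 (hb' g)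
    have h2 : ∫ g, Real.exp (a * f (z + Real.sqrt v * g)) ∂gaussianReal 0 1 ≤ Real.exp (a * K) := by
      calc _ ≤ ∫ _g : ℝ, Real.exp (a * K) ∂gaussianReal 0 1 :=
            integral_mono hint (integrable_const _) fun g => Real.exp_le_exp.2 (hb g)
        _ = Real.exp (a * K) := by simp
    have h3 : -(a * K) ≤ Real.log (∫ g, Real.exp (a * f (z + Real.sqrt v * g)) ∂gaussianReal 0 1) := by
      rw [← Real.log_exp (-(a * K))]
      exact Real.log_le_log (Real.exp_pos _) h1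
    have h4 : Real.log (∫ g, Real.exp (a * f (z + Real.sqrt v * g)) ∂gaussianReal 0 1) ≤ a * K := by
      rw [← Real.log_exp (a * K)]
      exact Real.log_le_log ((Real.exp_pos _).trans_le h1) h2
    rw [abs_mul, abs_of_pos (inv_pos.2 ha'), inv_mul_le_iff₀ ha']
    exact abs_le.2 ⟨h3, h4⟩

theorem gaussOp_meas {a v : ℝ} {f : ℝ → ℝ} (hm : Measurable f) :
    Measurable (Crest.ProbabilityR.InvariantGlass.gaussOp a v f) := by
  have h : Measurable (Function.uncurry fun (z g : ℝ) => f (z + Real.sqrt v * g)) :=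
    hm.comp (measurable_fst.add (measurable_snd.const_mul _))
  unfold Crest.ProbabilityR.InvariantGlass.gaussOp
  by_cases ha : a = 0
  · simp only [ha, if_true]
    exact (h.stronglyMeasurable.integral_prod_right (ν := gaussianReal 0 1)).measurable
  · simp only [ha, if_false]
    have h2 : Measurable (Function.uncurry fun (z g : ℝ) => Real.exp (a * f (z + Real.sqrt v * g))) :=
      (h.const_mul a).exp
    exact ((h2.stronglyMeasurable.integral_prod_right (ν := gaussianReal 0 1)).measurable.log).const_mul _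

theorem recV_meas {f : ℝ → ℝ} (hm : Measurable f) (t m : ℕ → ℝ) (k j : ℕ) :
    Measurable (recV f t m k j) := by
  induction j with
  | zero => exact hm
  | succ j ih => exact gaussOp_meas ih

theorem recV_bd {f : ℝ → ℝ} {K : ℝ} (hm : Measurable f) (hf : ∀ x, |f x| ≤ K) (t m : ℕ → ℝ)
    (h0 : ∀ i, 0 ≤ m i) (k j : ℕ) (z : ℝ) : |recV f t m k j z| ≤ K := by
  induction j generalizing z with
  | zero => exact hf z
  | succ j ih => exact gaussOp_bd (h0 _) (recV_meas hm t m k j) ih z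

theorem BL.cont {K L : ℝ} {f : ℝ → ℝ} (h : BL K L f) : Continuous f := by
  have hL : 0 ≤ L := by
    have h1 := h.lip 1 0
    have h2 := abs_nonneg (f 1 - f 0)
    simp at h1
    linarith
  refine (LipschitzWith.of_dist_le_mul (K := L.toNNReal) fun x y => ?_).continuous
  rw [Real.dist_eq, Real.dist_eq, Real.coe_toNNReal L hL]
  exact h.lip x y

theorem BL.meas {K L : ℝ} {f : ℝ → ℝ} (h : BL K L f) : Measurable f := (BL.cont h).measurable

theorem Th_abs_le {K : ℝ} {f : ℝ → ℝ} (hm : Measurable f) (hf : ∀ x, |f x| ≤ K) (J : ℕ)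
    (P : ℕ → ℝ) : |Th J f P| ≤ K :=
  recV_bd hm hf _ _ (fun i => by positivity) _ _ _

/-! ### tails -/

/-- tails of the refined path = tails of the coarse path. -/
theorem tail_ref (hwc : 0 < wc) (hnc : nc + 1 = (J + 1) * wc) {j0 : ℕ} (h0 : 0 < j0) (hj : j0 ≤ J) :
    1 / ((nc : ℝ) + 1) * ∑ l ∈ Ioc (j0 * wc - 1) nc, ref wc P l =
      1 / ((J : ℝ) + 1) * ∑ j ∈ Ico j0 (J + 1), P j := by
  have hpos : 0 < j0 * wc := Nat.mul_pos h0 hwc
  have h1 : Ioc (j0 * wc - 1) nc = Ico (j0 * wc) ((J + 1) * wc) := by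
    ext l
    rw [mem_Ioc, mem_Ico, ← hnc]
    omega
  rw [h1, sum_blocks_Ico _ _ _ _ (by omega)]
  have h2 : ∀ j ∈ Ico j0 (J + 1), ∑ r ∈ range wc, ref wc P (j * wc + r) = wc * P j := by
    intro j _
    have h3 : ∀ r ∈ range wc, ref wc P (j * wc + r) = P j := by
      intro r hr
      unfold ref
      rw [mul_comm j wc, Nat.mul_add_div hwc, Nat.div_eq_of_lt (mem_range.1 hr), add_zero]
    rw [sum_congr rfl h3]
    simp
  rw [sum_congr rfl h2, ← mul_sum, ← mul_assoc]
  congr 1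
  have h7 : ((nc : ℝ) + 1) = ((J : ℝ) + 1) * wc := by exact_mod_cast hnc
  have h9 : (wc : ℝ) ≠ 0 := by exact_mod_cast hwc.ne'
  have h10 : ((J : ℝ) + 1) ≠ 0 := by positivity
  rw [h7]
  field_simp

/-- tails of an arbitrary increasing path read at the skeleton. -/
theorem tail_skel (hwc : 0 < wc) (hnc : nc + 1 = (J + 1) * wc) {R : ℕ → ℝ} {ρ : ℕ → ℝ}
    (hR1 : ∀ l, R l ≤ 1) (hρ0 : ∀ j, 0 ≤ ρ j)
    (hRρ : ∀ j < J, ∀ l, l < (j + 1) * wc → R l ≤ ρ (j + 1)) {j0 : ℕ} (h0 : 0 < j0)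
    (hj : j0 ≤ J) :
    1 / ((nc : ℝ) + 1) * ∑ l ∈ Ioc (j0 * wc - 1) nc, R l ≤
      1 / ((J : ℝ) + 1) * ∑ j ∈ Ico j0 (J + 1), ρ j + 1 / ((J : ℝ) + 1) := by
  have hpos : 0 < j0 * wc := Nat.mul_pos h0 hwc
  have h1 : Ioc (j0 * wc - 1) nc = Ico (j0 * wc) ((J + 1) * wc) := by
    ext l
    rw [mem_Ioc, mem_Ico, ← hnc]
    omega
  rw [h1, sum_blocks_Ico _ _ _ _ (by omega)]
  have h2 : ∀ j ∈ Ico j0 (J + 1), ∑ r ∈ range wc, R (j * wc + r) ≤
      wc * (if j < J then ρ (j + 1) else 1) := by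
    intro j _
    have h3 : ∀ r ∈ range wc, R (j * wc + r) ≤ (if j < J then ρ (j + 1) else 1) := by
      intro r hr
      have hr := mem_range.1 hr
      split_ifs with hjJ
      · refine hRρ j hjJ _ ?_
        have : (j + 1) * wc = j * wc + wc := by ring
        omega
      · exact hR1 _
    refine (sum_le_sum h3).trans (le_of_eq ?_)
    simp
  have h4 : ∑ j ∈ Ico j0 (J + 1), (if j < J then ρ (j + 1) else 1) ≤
      ∑ j ∈ Ico j0 (J + 1), ρ j + 1 := by
    rw [sum_Ico_succ_top hj, if_neg (lt_irrefl J)]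
    have h5 : ∑ j ∈ Ico j0 J, (if j < J then ρ (j + 1) else 1) = ∑ j ∈ Ico j0 J, ρ (j + 1) :=
      sum_congr rfl fun j hj' => by rw [mem_Ico] at hj'; rw [if_pos hj'.2]
    rw [h5, sum_Ico_add' ρ j0 J 1]
    have h6 : ∑ j ∈ Ico (j0 + 1) (J + 1), ρ j ≤ ∑ j ∈ Ico j0 (J + 1), ρ j :=
      sum_le_sum_of_subset_of_nonneg (Ico_subset_Ico_left (by omega)) fun j _ _ => hρ0 j
    linarith
  have h7 : ((nc : ℝ) + 1) = ((J : ℝ) + 1) * wc := by exact_mod_cast hnc
  have h9 : (0 : ℝ) < wc := by exact_mod_cast hwc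
  have h10 : (0 : ℝ) < (J : ℝ) + 1 := by positivity
  calc 1 / ((nc : ℝ) + 1) * ∑ j ∈ Ico j0 (J + 1), ∑ r ∈ range wc, R (j * wc + r)
      ≤ 1 / ((nc : ℝ) + 1) * ∑ j ∈ Ico j0 (J + 1), wc * (if j < J then ρ (j + 1) else 1) :=
        mul_le_mul_of_nonneg_left (sum_le_sum h2) (by positivity)
    _ = 1 / ((J : ℝ) + 1) * ∑ j ∈ Ico j0 (J + 1), (if j < J then ρ (j + 1) else 1) := by
        rw [← mul_sum, ← mul_assoc]
        congr 1
        rw [h7]
        field_simp
    _ ≤ 1 / ((J : ℝ) + 1) * (∑ j ∈ Ico j0 (J + 1), ρ j + 1) :=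
        mul_le_mul_of_nonneg_left h4 (by positivity)
    _ = _ := by ring

end

end Crest.Agent.R146.S6UBa_167
end

-- ▼ part R146/S6UBb_167
section

/-!
Row 146, S0206, task 68 (helper167), part B: elementary facts on `Rk` and tails at a contact point.
-/

set_option autoImplicit false

namespace Crest.Agent.R146.S6UBb_167

open Finset MeasureTheory ProbabilityTheory Crest.Agent.R141
open Crest.Agent.R146.S6Def_988 Crest.Agent.R146.S6U_988 Crest.Agent.R146.CavInc_769
open Crest.Agent.R146.S6UBa_167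

noncomputable section

variable {N : ℕ} (C : Cfg N) (nc n : ℕ)

/-! ### the averaged squared conditional mean -/

/-- normalised squared conditional mean at a given law -/
def rk (Q : Om C nc n → ℝ) (k : ℕ) : ℝ :=
  eE Q (fun ω => (N : ℝ)⁻¹ * ∑ i, (cE Q ((fil C nc n).F k) (fun w => C.x w.1 i) ω) ^ 2)

variable {C nc n}

theorem rk_nonneg {Q : Om C nc n → ℝ} (hQ : IsProb Q) (k : ℕ) : 0 ≤ rk C nc n Q k := by
  unfold rk
  exact eE_nonneg hQ fun ω => mul_nonneg (by positivity) (sum_nonneg fun i _ => sq_nonneg _)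

theorem rk_eq (Q : Om C nc n → ℝ) (k : ℕ) : rk C nc n Q k =
    (N : ℝ)⁻¹ * ∑ i, eE Q (fun ω => (cE Q ((fil C nc n).F k) (fun w => C.x w.1 i) ω) ^ 2) := by
  unfold rk
  rw [eE_smul, eE_sum]

theorem rk_mono {Q : Om C nc n → ℝ} (hQ : IsProb Q) {k l : ℕ} (h : k ≤ l) :
    rk C nc n Q k ≤ rk C nc n Q l := by
  rw [rk_eq, rk_eq]
  refine mul_le_mul_of_nonneg_left (sum_le_sum fun i _ => ?_) (by positivity)
  have h1 : (fil C nc n).F l ≤ (fil C nc n).F k := Filt.anti' _ h
  rw [← eE_cE hQ ((fil C nc n).F k)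
    (fun ω => (cE Q ((fil C nc n).F l) (fun w => C.x w.1 i) ω) ^ 2)]
  refine eE_mono hQ fun ω => ?_
  rw [← cE_tower hQ h1]
  exact cE_sq_le hQ _ _ ω

theorem rk_le_one (hN : 0 < N) {Q : Om C nc n → ℝ} (hQ : IsProb Q) (k : ℕ) :
    rk C nc n Q k ≤ 1 := by
  rw [rk_eq]
  have h1 : ∑ i, eE Q (fun ω => (cE Q ((fil C nc n).F k) (fun w => C.x w.1 i) ω) ^ 2) ≤
      ∑ i, eE Q (fun ω => (C.x ω.1 i) ^ 2) := by
    refine sum_le_sum fun i _ => ?_
    rw [← eE_cE hQ ((fil C nc n).F k) (fun ω => (C.x ω.1 i) ^ 2)]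
    exact eE_mono hQ fun ω => cE_sq_le hQ _ _ ω
  have h2 : ∑ i, eE Q (fun ω => (C.x ω.1 i) ^ 2) = N := by
    rw [← eE_sum]
    simp_rw [C.hx]
    exact eE_const hQ _
  have h3 : (0 : ℝ) < N := by exact_mod_cast hN
  rw [h2] at h1
  calc (N : ℝ)⁻¹ * _ ≤ (N : ℝ)⁻¹ * N := mul_le_mul_of_nonneg_left h1 (by positivity)
    _ = 1 := inv_mul_cancel₀ h3.ne'

instance (M N : ℕ) : IsProbabilityMeasure (gam M N) := by unfold gam; infer_instance

section rows

variable {f : ℕ → ℝ → ℝ} {M : ℕ} {s : Fin nc → ℝ}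

theorem meas_rk (hf : ∀ a, Measurable (f a)) (k : ℕ) :
    Measurable fun G : Fin M → Fin N → ℝ => rk C nc n (QQ C nc n f G s) k := by
  unfold rk
  refine meas_eE (fun ω => meas_QQ hf s ω) fun ω => ?_
  refine Measurable.const_mul (Finset.measurable_sum _ fun i _ => ?_) _
  exact (meas_cE (f := fun _ w => C.x w.1 i) (fun ω => meas_QQ hf s ω)
    (fun _ => measurable_const) _ ω).pow_const 2

theorem integrable_rk (hN : 0 < N) (hf : ∀ a, Measurable (f a)) (k : ℕ) :
    Integrable (fun G : Fin M → Fin N → ℝ => rk C nc n (QQ C nc n f G s) k) (gam M N) :=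
  Integrable.of_bound (C := 1) (meas_rk hf k).aestronglyMeasurable
    (ae_of_all _ fun G => by
      rw [Real.norm_eq_abs, abs_of_nonneg (rk_nonneg (QQ_isProb _ _ _) k)]
      exact rk_le_one hN (QQ_isProb _ _ _) k)

theorem Rk_eq (k : ℕ) :
    Rk C nc n f M s k = ∫ G, rk C nc n (QQ C nc n (M := M) f G s) k ∂(gam M N) := rfl

theorem Rk_nonneg (k : ℕ) : 0 ≤ Rk C nc n f M s k :=
  integral_nonneg fun _ => rk_nonneg (QQ_isProb _ _ _) k

theorem Rk_le_one (hN : 0 < N) (hf : ∀ a, Measurable (f a)) (k : ℕ) : Rk C nc n f M s k ≤ 1 := by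
  rw [Rk_eq]
  calc ∫ G, rk C nc n (QQ C nc n (M := M) f G s) k ∂(gam M N) ≤ ∫ _G, (1 : ℝ) ∂(gam M N) :=
        integral_mono (integrable_rk hN hf k) (integrable_const _) fun G =>
          rk_le_one hN (QQ_isProb _ _ _) k
    _ = 1 := by simp

theorem Rk_mono (hN : 0 < N) (hf : ∀ a, Measurable (f a)) {k l : ℕ} (h : k ≤ l) :
    Rk C nc n f M s k ≤ Rk C nc n f M s l := by
  rw [Rk_eq, Rk_eq]
  exact integral_mono (integrable_rk hN hf k) (integrable_rk hN hf l) fun G =>
    rk_mono (QQ_isProb _ _ _) h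

end rows

/-! ### tails -/

theorem tl1_nonneg {nc : ℕ} {q : ℕ → ℝ} (hq : ∀ l, 0 ≤ q l) (g : ℕ) : 0 ≤ tl1 nc q g := by
  unfold tl1
  exact mul_nonneg (by positivity) (sum_nonneg fun l _ => hq l)

theorem tl1_le {nc : ℕ} {q : ℕ → ℝ} {c : ℝ} (hq : ∀ l ≤ nc, q l ≤ c) {g : ℕ} (hg : g ≤ nc) :
    tl1 nc q g ≤ c * (1 - ((g : ℝ) + 1) / ((nc : ℝ) + 1)) := by
  unfold tl1
  have h1 : ∑ l ∈ Ioc g nc, q l ≤ ∑ _l ∈ Ioc g nc, c :=
    sum_le_sum fun l hl => hq l (mem_Ioc.1 hl).2
  have h2 : ∑ _l ∈ Ioc g nc, c = ((nc : ℝ) - g) * c := by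
    rw [sum_const, Nat.card_Ioc, nsmul_eq_mul, Nat.cast_sub hg]
  rw [h2] at h1
  calc 1 / ((nc : ℝ) + 1) * ∑ l ∈ Ioc g nc, q l ≤ 1 / ((nc : ℝ) + 1) * (((nc : ℝ) - g) * c) :=
        mul_le_mul_of_nonneg_left h1 (by positivity)
    _ = _ := by field_simp; ring

/-- tails at a contact point. -/
theorem tails_contact {b0 ei I sg t r : ℝ} (hb0 : 0 < b0) (hs : b0 ≤ sg)
    (h1 : |I - sg * (1 - r)| ≤ ei) (h2 : I - sg ≤ -(sg * t)) : t ≤ r + ei / b0 := by
  have hsp : 0 < sg := lt_of_lt_of_le hb0 hs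
  have hei : 0 ≤ ei := (abs_nonneg _).trans h1
  have h3 : sg * t ≤ sg * r + ei := by
    have := (abs_le.1 h1).1
    nlinarith
  have h4 : t ≤ r + ei / sg := by
    rw [← sub_le_iff_le_add', le_div_iff₀ hsp]
    nlinarith
  have h5 : ei / sg ≤ ei / b0 := div_le_div_of_nonneg_left hei hb0 hs
  linarith

theorem skel_tails {J wc nc n : ℕ} (hwc : 0 < wc) (hnc : nc + 1 = (J + 1) * wc) {P : ℕ → ℝ}
    (hP : Lev J P) {R : ℕ → ℝ} (hR0 : ∀ k, 0 ≤ R k) (hR1 : ∀ k, R k ≤ 1)
    (hRm : ∀ k l, k ≤ l → R k ≤ R l) {τ : ℕ → ℕ}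
    (hτ : ∀ b ≤ J, st n (b * wc) ≤ τ b ∧ τ b < st n (b * wc + wc - 1)) {e : ℝ} (he : 0 ≤ e)
    (ht : ∀ g : Fin nc, tl1 nc (ref wc P) g ≤ tl1 nc (fun l => R (st n l)) g + e) :
    ∀ j0 ≤ J, 1 / ((J : ℝ) + 1) * ∑ j ∈ Ico j0 (J + 1), P j ≤
      1 / ((J : ℝ) + 1) * ∑ j ∈ Ico j0 (J + 1), R (τ j) + (2 / ((J : ℝ) + 1) + e) := by
  have hJ : (0 : ℝ) < (J : ℝ) + 1 := by positivity
  have hst : ∀ a b, a ≤ b → st n a ≤ st n b := fun a b h => Nat.mul_le_mul_right n h
  -- the main case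
  have main : ∀ j0, 0 < j0 → j0 ≤ J → 1 / ((J : ℝ) + 1) * ∑ j ∈ Ico j0 (J + 1), P j ≤
      1 / ((J : ℝ) + 1) * ∑ j ∈ Ico j0 (J + 1), R (τ j) + (1 / ((J : ℝ) + 1) + e) := by
    intro j0 h0 hj
    have hg : j0 * wc - 1 < nc := by
      have h1 : j0 * wc ≤ J * wc := Nat.mul_le_mul_right _ hj
      have h2 : (J + 1) * wc = J * wc + wc := by ring
      have h3 : 0 < j0 * wc := Nat.mul_pos h0 hwc
      omega
    have h1 := ht ⟨j0 * wc - 1, hg⟩
    unfold tl1 at h1
    simp only at h1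
    rw [tail_ref hwc hnc h0 hj] at h1
    have h2 := tail_skel (R := fun l => R (st n l)) (ρ := fun j => R (τ j)) hwc hnc
      (fun l => hR1 _) (fun j => hR0 _) (fun j hj' l hl => hRm _ _
        ((hst _ _ hl.le).trans (hτ (j + 1) (by omega)).1)) h0 hj
    linarith
  have h2J : 1 / ((J : ℝ) + 1) ≤ 2 / ((J : ℝ) + 1) := by
    gcongr; norm_num
  intro j0 hj
  rcases Nat.eq_zero_or_pos j0 with h0 | h0
  · subst h0
    rw [sum_eq_sum_Ico_succ_bot (by omega : 0 < J + 1),
      sum_eq_sum_Ico_succ_bot (by omega : 0 < J + 1)]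
    have hP0 : P 0 ≤ 1 := (hP.mono 0 J (Nat.zero_le _) le_rfl).trans hP.le_one
    have hR := hR0 (τ 0)
    have h3 : 1 / ((J : ℝ) + 1) * ∑ j ∈ Ico (0 + 1) (J + 1), P j ≤
        1 / ((J : ℝ) + 1) * ∑ j ∈ Ico (0 + 1) (J + 1), R (τ j) + (1 / ((J : ℝ) + 1) + e) := by
      rcases Nat.eq_zero_or_pos J with hJ0 | hJ0
      · subst hJ0
        simp
        linarith
      · exact main 1 one_pos hJ0
    have h4 : 1 / ((J : ℝ) + 1) * P 0 ≤ 1 / ((J : ℝ) + 1) := by
      have : 0 < 1 / ((J : ℝ) + 1) := by positivity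
      nlinarith
    have h5 : 0 ≤ 1 / ((J : ℝ) + 1) * R (τ 0) := by positivity
    have h6 : 2 / ((J : ℝ) + 1) = 1 / ((J : ℝ) + 1) + 1 / ((J : ℝ) + 1) := by ring
    rw [mul_add, mul_add, h6]
    linarith
  · have := main j0 h0 hj
    linarith

theorem skel_lev {J wc n : ℕ} {R : ℕ → ℝ} (hR0 : ∀ k, 0 ≤ R k) (hR1 : ∀ k, R k ≤ 1)
    (hRm : ∀ k l, k ≤ l → R k ≤ R l) {τ : ℕ → ℕ}
    (hτ : ∀ b ≤ J, st n (b * wc) ≤ τ b ∧ τ b < st n (b * wc + wc - 1)) :
    Lev J fun b => R (τ b) where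
  nonneg := hR0 _
  mono i j hij hj := by
    refine hRm _ _ ?_
    rcases Nat.eq_or_lt_of_le hij with h | h
    · rw [h]
    · have h1 := (hτ i (by omega)).2
      have h2 := (hτ j hj).1
      have h3 : i * wc + wc - 1 ≤ j * wc := by
        have : (i + 1) * wc ≤ j * wc := Nat.mul_le_mul_right _ h
        have h4 : (i + 1) * wc = i * wc + wc := by ring
        omega
      have h5 : st n (i * wc + wc - 1) ≤ st n (j * wc) := Nat.mul_le_mul_right n h3
      omega
  le_one := hR1 _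

/-! ### growth -/

theorem log_growth (a : ℝ) {b c : ℝ} (hb : 0 ≤ b) (hc : 0 < c) :
    ∃ X0 : ℝ, 0 ≤ X0 ∧ ∀ x, X0 ≤ x → a + b * Real.log (1 + x) ≤ c * x := by
  set t : ℝ := c / (2 * (b + 1)) with ht
  have htp : 0 < t := by positivity
  have hbt : b * t ≤ c / 2 := by
    rw [ht]
    have h1 : b * (c / (2 * (b + 1))) = (c / 2) * (b / (b + 1)) := by field_simp
    have h2 : b / (b + 1) ≤ 1 := by rw [div_le_one (by linarith)]; linarith
    rw [h1]
    nlinarith
  set B : ℝ := |a| + c / 2 + b * |Real.log t| with hB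
  refine ⟨2 * B / c, by positivity, fun x hx => ?_⟩
  have hx0 : 0 ≤ x := le_trans (by positivity) hx
  have h1 : Real.log (1 + x) ≤ t * (1 + x) + |Real.log t| := by
    have h2 : Real.log (t * (1 + x)) ≤ t * (1 + x) - 1 :=
      Real.log_le_sub_one_of_pos (by positivity)
    rw [Real.log_mul htp.ne' (by linarith)] at h2
    have := neg_abs_le (Real.log t)
    linarith
  have h2 : b * Real.log (1 + x) ≤ (c / 2) * (1 + x) + b * |Real.log t| := by
    calc b * Real.log (1 + x) ≤ b * (t * (1 + x) + |Real.log t|) :=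
          mul_le_mul_of_nonneg_left h1 hb
      _ = (b * t) * (1 + x) + b * |Real.log t| := by ring
      _ ≤ _ := by
          have : (b * t) * (1 + x) ≤ (c / 2) * (1 + x) :=
            mul_le_mul_of_nonneg_right hbt (by linarith)
          linarith
  have h3 : B ≤ (c / 2) * x := by
    have := (div_le_iff₀ hc).1 hx
    linarith
  have := le_abs_self a
  rw [hB] at h3
  linarith

end

end Crest.Agent.R146.S6UBb_167
end

-- ▼ part R146/S6Contact_552
section

/-!
Row 146, S0206, task 67 (S6-CONTACT): the abstract DISCRETE CONTACT lemma (helper552).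
The number of rows `M` plays the role of time; the strengths `s` range over the box `[b0, A]^nc`;
the penalty `∑ (2 b0 - s_g)_+^2` keeps the maximiser away from the lower faces.
-/

set_option autoImplicit false

namespace Crest.Agent.R146.S6Contact_552

open Finset

variable {nc : ℕ}

/-- the box of strengths -/
def box (nc : ℕ) (b0 A : ℝ) : Set (Fin nc → ℝ) := {s | ∀ g, b0 ≤ s g ∧ s g ≤ A}

/-- penalty -/
noncomputable def pen (b0 : ℝ) (s : Fin nc → ℝ) : ℝ := ∑ g, (max (2 * b0 - s g) 0) ^ 2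

theorem pen_nonneg (b0 : ℝ) (s : Fin nc → ℝ) : 0 ≤ pen b0 s :=
  sum_nonneg fun _ _ => sq_nonneg _

/-- the penalty is small: each term is at most `b0 ^ 2` on the box. -/
theorem pen_le {b0 A : ℝ} (hb : 0 < b0) {s : Fin nc → ℝ} (hs : s ∈ box nc b0 A) :
    pen b0 s ≤ nc * b0 ^ 2 := by
  have h : ∀ g ∈ (univ : Finset (Fin nc)), (max (2 * b0 - s g) 0) ^ 2 ≤ b0 ^ 2 := by
    intro g _
    have h1 : max (2 * b0 - s g) 0 ≤ b0 := max_le (by linarith [(hs g).1]) hb.le
    exact pow_le_pow_left₀ (le_max_right _ _) h1 2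
  calc pen b0 s ≤ ∑ _g : Fin nc, b0 ^ 2 := sum_le_sum h
    _ = nc * b0 ^ 2 := by simp

theorem isCompact_box (b0 A : ℝ) : IsCompact (box nc b0 A) := by
  have h : box nc b0 A = Set.Icc (fun _ => b0) (fun _ => A) := by
    ext s
    simp only [box, Set.mem_ofPred_eq, Set.mem_Icc, Pi.le_def]
    exact ⟨fun h => ⟨fun g => (h g).1, fun g => (h g).2⟩, fun h g => ⟨h.1 g, h.2 g⟩⟩
  rw [h]
  exact isCompact_Icc

theorem update_mem_box {b0 A : ℝ} {s : Fin nc → ℝ} (hs : s ∈ box nc b0 A) (g : Fin nc) {y : ℝ}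
    (hy : y ∈ Set.Icc b0 A) : Function.update s g y ∈ box nc b0 A := by
  intro g'
  by_cases h : g' = g
  · subst h; simpa using hy
  · simpa [Function.update_of_ne h] using hs g'

theorem continuous_pen (b0 : ℝ) : Continuous (pen (nc := nc) b0) := by
  unfold pen
  fun_prop

/-- change of the penalty under a change of one coordinate. -/
theorem pen_update (b0 : ℝ) (s : Fin nc → ℝ) (g : Fin nc) (y : ℝ) :
    pen b0 (Function.update s g y) - pen b0 s =
      (max (2 * b0 - y) 0) ^ 2 - (max (2 * b0 - s g) 0) ^ 2 := by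
  classical
  unfold pen
  rw [← sum_sub_distrib, ← add_sum_erase univ _ (mem_univ g)]
  have h0 : ∑ x ∈ univ.erase g, ((max (2 * b0 - Function.update s g y x) 0) ^ 2 -
      (max (2 * b0 - s x) 0) ^ 2) = 0 := by
    refine sum_eq_zero fun x hx => ?_
    rw [Function.update_of_ne (ne_of_mem_erase hx)]
    ring
  rw [h0]
  simp

/-- `x ↦ (c - x)_+^2` is below its tangent parabola with coefficient one. -/
theorem sq_max_le (c x y : ℝ) :
    (max (c - y) 0) ^ 2 ≤ (max (c - x) 0) ^ 2 - 2 * (max (c - x) 0) * (y - x) + (y - x) ^ 2 := by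
  rcases le_total (c - y) 0 with h1 | h1 <;> rcases le_total (c - x) 0 with h2 | h2
  · rw [max_eq_right h1, max_eq_right h2]; nlinarith [sq_nonneg (y - x)]
  · rw [max_eq_right h1, max_eq_left h2]; nlinarith [sq_nonneg (c - y)]
  · rw [max_eq_left h1, max_eq_right h2]; nlinarith
  · rw [max_eq_left h1, max_eq_left h2]; nlinarith


/-- derivative condition from a one-sided inequality:
if `φ` has derivative `d` at `x` and `φ y ≤ φ x + c (y - x) + (y - x)^2` for `y` in a right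
neighbourhood, then `d ≤ c`. -/
theorem deriv_le_of_right {φ : ℝ → ℝ} {x b d c : ℝ} (hφ : HasDerivAt φ d x) (hb : x < b)
    (h : ∀ y ∈ Set.Ioo x b, φ y ≤ φ x + c * (y - x) + (y - x) ^ 2) : d ≤ c := by
  have h1 := (hasDerivWithinAt_iff_tendsto_slope' (s := Set.Ioi x) (by simp)).mp
    (hφ.hasDerivWithinAt (s := Set.Ioi x))
  have h2 : Filter.Tendsto (fun y => c + (y - x)) (nhdsWithin x (Set.Ioi x)) (nhds c) := by
    have : Filter.Tendsto (fun y => c + (y - x)) (nhds x) (nhds (c + (x - x))) := by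
      exact (continuous_const.add (continuous_id.sub continuous_const)).tendsto x
    rw [sub_self, add_zero] at this
    exact this.mono_left nhdsWithin_le_nhds
  refine le_of_tendsto_of_tendsto h1 h2 ?_
  filter_upwards [Ioo_mem_nhdsGT hb] with y hy
  rw [slope_def_field, div_le_iff₀ (by linarith [hy.1])]
  have := h y hy
  nlinarith

theorem le_deriv_of_left {φ : ℝ → ℝ} {x a d c : ℝ} (hφ : HasDerivAt φ d x) (ha : a < x)
    (h : ∀ y ∈ Set.Ioo a x, φ y ≤ φ x + c * (y - x) + (y - x) ^ 2) : c ≤ d := by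
  have h1 := (hasDerivWithinAt_iff_tendsto_slope' (s := Set.Iio x) (by simp)).mp
    (hφ.hasDerivWithinAt (s := Set.Iio x))
  have h2 : Filter.Tendsto (fun y => c + (y - x)) (nhdsWithin x (Set.Iio x)) (nhds c) := by
    have : Filter.Tendsto (fun y => c + (y - x)) (nhds x) (nhds (c + (x - x))) := by
      exact (continuous_const.add (continuous_id.sub continuous_const)).tendsto x
    rw [sub_self, add_zero] at this
    exact this.mono_left nhdsWithin_le_nhds
  refine le_of_tendsto_of_tendsto h2 h1 ?_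
  filter_upwards [Ioo_mem_nhdsLT ha] with y hy
  rw [slope_def_field, le_div_iff_of_neg (by linarith [hy.2])]
  have := h y hy
  nlinarith

/-- **discrete contact lemma** -/
theorem contact (b0 A : ℝ) (hb : 0 < b0) (Mmax : ℕ)
    (F U : ℕ → (Fin nc → ℝ) → ℝ) (DF DU : ℕ → (Fin nc → ℝ) → Fin nc → ℝ)
    (hFc : ∀ M ≤ Mmax, ContinuousOn (F M) (box nc b0 A))
    (hUc : ∀ M ≤ Mmax, ContinuousOn (U M) (box nc b0 A))
    (hF : ∀ M ≤ Mmax, ∀ s ∈ box nc b0 A, ∀ g,
      HasDerivAt (fun y => F M (Function.update s g y)) (DF M s g) (s g))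
    (hU : ∀ M ≤ Mmax, ∀ s ∈ box nc b0 A, ∀ g, ∀ y ∈ Set.Icc b0 A,
      U M (Function.update s g y) ≤ U M s + DU M s g * (y - s g))
    (hlow : ∀ M ≤ Mmax, ∀ s ∈ box nc b0 A, ∀ g, -(s g) ≤ DF M s g - DU M s g)
    (ε0 η : ℝ) (_hε0 : 0 ≤ ε0) (hη : 0 ≤ η)
    (h0 : ∀ s ∈ box nc b0 A, F 0 s ≤ U 0 s + ε0)
    (hface : ∀ M ≤ Mmax, ∀ s ∈ box nc b0 A, (∃ g, A - 1 ≤ s g) → F M s ≤ U M s + ε0)
    (hstep : ∀ M, M + 1 ≤ Mmax → ∀ s ∈ box nc b0 A, (∀ g, 4 / 3 * b0 ≤ s g ∧ s g ≤ A - 1) →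
      (∀ g, DF (M + 1) s g ≤ DU (M + 1) s g) →
      (∀ g, ∀ y ∈ Set.Icc b0 A, F (M + 1) (Function.update s g y) ≤
        F (M + 1) s + DF (M + 1) s g * (y - s g) + (y - s g) ^ 2) →
      F (M + 1) s - F M s ≤ U (M + 1) s - U M s + η) :
    ∀ M ≤ Mmax, ∀ s ∈ box nc b0 A, F M s ≤ U M s + pen b0 s + ε0 + η * M := by
  intro M
  induction M with
  | zero =>
    intro _ s hs
    have := h0 s hs
    have := pen_nonneg b0 s
    simp only [Nat.cast_zero, mul_zero, add_zero]
    linarith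
  | succ M ih =>
    intro hM s1 hs1
    have ih := ih (by omega)
    -- maximiser of `F - U - pen` at `M + 1`
    have hcont : ContinuousOn (fun s => F (M + 1) s - U (M + 1) s - pen b0 s) (box nc b0 A) :=
      ((hFc _ hM).sub (hUc _ hM)).sub (continuous_pen b0).continuousOn
    obtain ⟨s, hs, hmax⟩ := (isCompact_box b0 A).exists_isMaxOn ⟨s1, hs1⟩ hcont
    have hmax' : ∀ s' ∈ box nc b0 A, F (M + 1) s' - U (M + 1) s' - pen b0 s' ≤
        F (M + 1) s - U (M + 1) s - pen b0 s := fun s' hs' => hmax hs'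
    suffices hgoal : F (M + 1) s ≤ U (M + 1) s + pen b0 s + ε0 + η * ((M + 1 : ℕ) : ℝ) by
      have := hmax' s1 hs1
      linarith
    by_contra hcon
    push Not at hcon
    have hηM : 0 ≤ η * ((M + 1 : ℕ) : ℝ) := mul_nonneg hη (Nat.cast_nonneg _)
    -- not on the upper faces
    have hup : ∀ g, s g < A - 1 := by
      intro g
      by_contra hg
      push Not at hg
      have h1 := hface _ hM s hs ⟨g, hg⟩
      have h2 := pen_nonneg b0 s
      linarith
    -- the basic inequality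
    have hbasic : ∀ g, ∀ y ∈ Set.Icc b0 A, F (M + 1) (Function.update s g y) ≤
        F (M + 1) s + (DU (M + 1) s g - 2 * max (2 * b0 - s g) 0) * (y - s g) + (y - s g) ^ 2 := by
      intro g y hy
      have h1 := hmax' _ (update_mem_box hs g hy)
      have h2 := hU _ hM s hs g y hy
      have h3 := pen_update b0 s g y
      have h4 := sq_max_le (2 * b0) (s g) y
      nlinarith
    -- `DF ≤ DU - 2 (2 b0 - s)_+`
    have hle : ∀ g, DF (M + 1) s g ≤ DU (M + 1) s g - 2 * max (2 * b0 - s g) 0 := by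
      intro g
      refine deriv_le_of_right (b := A) (hF _ hM s hs g) (by linarith [hup g]) ?_
      intro y hy
      have h1 := hbasic g y ⟨by linarith [hy.1, (hs g).1], hy.2.le⟩
      simpa using h1
    have hlow' : ∀ g, 4 / 3 * b0 ≤ s g := by
      intro g
      have h1 := hle g
      have h2 := hlow _ hM s hs g
      have h3 : 2 * b0 - s g ≤ max (2 * b0 - s g) 0 := le_max_left _ _
      linarith
    have hge : ∀ g, DU (M + 1) s g - 2 * max (2 * b0 - s g) 0 ≤ DF (M + 1) s g := by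
      intro g
      refine le_deriv_of_left (a := b0) (hF _ hM s hs g) (by linarith [hlow' g]) ?_
      intro y hy
      have h1 := hbasic g y ⟨hy.1.le, by linarith [hy.2, (hs g).2]⟩
      simpa using h1
    have heq : ∀ g, DF (M + 1) s g = DU (M + 1) s g - 2 * max (2 * b0 - s g) 0 :=
      fun g => le_antisymm (hle g) (hge g)
    have hst := hstep M hM s hs (fun g => ⟨hlow' g, (hup g).le⟩)
      (fun g => by
        have := heq g
        have h3 : 0 ≤ max (2 * b0 - s g) 0 := le_max_right _ _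
        linarith)
      (fun g y hy => by
        rw [heq g]
        exact hbasic g y hy)
    have hih := ih s hs
    push_cast at hcon
    linarith

end Crest.Agent.R146.S6Contact_552
end

-- ▼ part R146/S6UB_167
section

/-!
Row 146, S0206, task 68 (helper167): the assembly of the upper bound (UB) from the nodes
(U0), (U1), (JEN), (DER), (IBP), (HCONC), (STR), (CAV), (MONOd), (PLIM), (DISC) of `S6U_988`.
-/

set_option autoImplicit false

namespace Crest.Agent.R146.S6UB_167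

open Finset MeasureTheory ProbabilityTheory Crest.Agent.R141
open Crest.Agent.R146.S6Def_988 Crest.Agent.R146.S6U_988 Crest.Agent.R146.CavInc_769
open Crest.Agent.R146.S6UBa_167 Crest.Agent.R146.S6UBb_167
open Crest.Agent.R146.S6Contact_552 (box pen pen_le contact)

noncomputable section

theorem near_mono {N : ℕ} {C : Cfg N} {δ δ' : ℝ} (h : Near C δ) (hδ : δ ≤ δ') : Near C δ' :=
  fun F hF => (h F hF).trans hδ

/-- the comparison function -/
def Ucmp (N nc J : ℕ) (P q : ℕ → ℝ) (f : ℕ → ℝ → ℝ) (M : ℕ) (s : Fin nc → ℝ) : ℝ :=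
  (N : ℝ)⁻¹ * ∑ a ∈ range M, Th J (f a) P + SP J P - 1 / 2 * ∑ g : Fin nc, s g ^ 2 * tl1 nc q g

theorem Ucmp_cont (N nc J : ℕ) (P q : ℕ → ℝ) (f : ℕ → ℝ → ℝ) (M : ℕ) :
    Continuous (Ucmp N nc J P q f M) := by
  unfold Ucmp
  fun_prop

theorem Ucmp_update (N nc J : ℕ) (P q : ℕ → ℝ) (hq : ∀ l, 0 ≤ q l) (f : ℕ → ℝ → ℝ) (M : ℕ)
    (s : Fin nc → ℝ) (g : Fin nc) (y : ℝ) :
    Ucmp N nc J P q f M (Function.update s g y) ≤
      Ucmp N nc J P q f M s + -(s g * tl1 nc q g) * (y - s g) := by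
  classical
  unfold Ucmp
  have h1 : ∑ x : Fin nc, (Function.update s g y) x ^ 2 * tl1 nc q x -
      ∑ x : Fin nc, s x ^ 2 * tl1 nc q x = (y ^ 2 - s g ^ 2) * tl1 nc q g := by
    rw [← sum_sub_distrib, ← add_sum_erase univ _ (mem_univ g)]
    have h0 : ∑ x ∈ univ.erase g, ((Function.update s g y) x ^ 2 * tl1 nc q x -
        s x ^ 2 * tl1 nc q x) = 0 := by
      refine sum_eq_zero fun x hx => ?_
      rw [Function.update_of_ne (ne_of_mem_erase hx)]
      ring
    rw [h0]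
    simp
    ring
  have h2 := tl1_nonneg hq (nc := nc) (g : ℕ)
  have h3 := mul_nonneg h2 (sq_nonneg (y - s g))
  nlinarith

theorem low_arith {I sg r t ei u : ℝ} (h1 : -ei ≤ I - sg * (1 - r)) (h4 : ei ≤ sg * u)
    (h7 : 0 ≤ sg * t) (h8 : sg * r ≤ sg * (1 - u)) : -sg ≤ I - sg - -(sg * t) := by
  have h2 : sg * (1 - r) = sg - sg * r := by ring
  have h3 : sg * (1 - u) = sg - sg * u := by ring
  linarith

/-- the faces -/
theorem face_arith {nc : ℕ} {PJ S Kam X T F : ℝ} {s : Fin nc → ℝ} {q : ℕ → ℝ}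
    (hX : X = ∑ g : Fin nc, s g ^ 2)
    (hT : -Kam ≤ T) (hqle : ∀ l ≤ nc, q l ≤ PJ) (hPJ : PJ < 1)
    (hgrow : (2 * Kam + 1 / 2 + |S|) + ((nc : ℝ) + 1) / 2 * Real.log (1 + X) ≤
      (1 - PJ) / (2 * ((nc : ℝ) + 1)) * X)
    (h1 : F ≤ Kam + 1 / 2 -
      1 / 2 * ∑ g : Fin nc, s g ^ 2 * (1 - ((g : ℝ) + 1) / ((nc : ℝ) + 1)) +
      ((nc : ℝ) + 1) / 2 * Real.log (1 + X)) :
    F ≤ T + S - 1 / 2 * ∑ g : Fin nc, s g ^ 2 * tl1 nc q g := by
  have hncp : (0 : ℝ) < (nc : ℝ) + 1 := by positivity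
  have h11 : ∑ g : Fin nc, s g ^ 2 * tl1 nc q g ≤
      ∑ g : Fin nc, s g ^ 2 * (1 - ((g : ℝ) + 1) / ((nc : ℝ) + 1)) -
        (1 - PJ) / ((nc : ℝ) + 1) * X := by
    rw [hX, mul_sum, ← sum_sub_distrib]
    refine sum_le_sum fun g _ => ?_
    have h12 : tl1 nc q g ≤ PJ * (1 - (((g : ℕ) : ℝ) + 1) / ((nc : ℝ) + 1)) :=
      tl1_le hqle g.2.le
    have h13 : 1 / ((nc : ℝ) + 1) ≤ 1 - (((g : ℕ) : ℝ) + 1) / ((nc : ℝ) + 1) := by
      rw [div_le_iff₀ hncp, sub_mul, div_mul_cancel₀ _ hncp.ne']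
      have : ((g : ℕ) : ℝ) + 1 ≤ nc := by exact_mod_cast g.2
      linarith
    have h14 : tl1 nc q g ≤ (1 - (((g : ℕ) : ℝ) + 1) / ((nc : ℝ) + 1)) -
        (1 - PJ) / ((nc : ℝ) + 1) := by
      have h15 : (1 - PJ) / ((nc : ℝ) + 1) = (1 - PJ) * (1 / ((nc : ℝ) + 1)) := by ring
      have h16 : (1 - PJ) * (1 / ((nc : ℝ) + 1)) ≤
          (1 - PJ) * (1 - (((g : ℕ) : ℝ) + 1) / ((nc : ℝ) + 1)) :=
        mul_le_mul_of_nonneg_left h13 (by linarith)
      rw [h15]
      linarith
    have h16 := mul_le_mul_of_nonneg_left h14 (sq_nonneg (s g))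
    linarith
  have h17 : (1 - PJ) / (2 * ((nc : ℝ) + 1)) * X = 1 / 2 * ((1 - PJ) / ((nc : ℝ) + 1) * X) := by
    field_simp
  rw [h17] at hgrow
  have h18 : -|S| ≤ S := neg_abs_le _
  linarith

theorem eta_arith {am K L ε εc ei b0 B Jp x : ℝ} (hε : 0 < ε) (hb0 : 0 < b0) (ham0 : 0 ≤ am)
    (hJp : 0 < Jp) (hB : B = am * (60 * K ^ 2 * Real.exp (4 * K) + 2 * L ^ 2))
    (hBJ : B / Jp ≤ ε / 8) (hεc : εc = ε / (8 * (am + 1))) (hei0 : 0 ≤ ei)
    (hei : ei ≤ b0 * (ε / (8 * ((am + 1) * (L ^ 2 + 1))))) (hx : x ≤ am) :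
    x * (60 * K ^ 2 * Real.exp (4 * K) / Jp + εc + L ^ 2 * (2 / Jp + ei / b0)) ≤ 3 * (ε / 8) := by
  have hεcp : 0 < εc := by rw [hεc]; positivity
  have h2 : x * (60 * K ^ 2 * Real.exp (4 * K) / Jp + εc + L ^ 2 * (2 / Jp + ei / b0)) ≤
      am * (60 * K ^ 2 * Real.exp (4 * K) / Jp + εc + L ^ 2 * (2 / Jp + ei / b0)) :=
    mul_le_mul_of_nonneg_right hx (by positivity)
  have h3 : am * (60 * K ^ 2 * Real.exp (4 * K) / Jp + εc + L ^ 2 * (2 / Jp + ei / b0)) =
      B / Jp + am * εc + am * L ^ 2 * (ei / b0) := by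
    rw [hB]; ring
  have h4 : am * εc ≤ ε / 8 := by
    rw [hεc]
    have : am * (ε / (8 * (am + 1))) = (ε / 8) * (am / (am + 1)) := by field_simp
    rw [this]
    have h5 : am / (am + 1) ≤ 1 := by rw [div_le_one (by linarith)]; linarith
    have h6 : 0 < ε / 8 := by positivity
    nlinarith
  have h5 : am * L ^ 2 * (ei / b0) ≤ ε / 8 := by
    have h6 : ei / b0 ≤ ε / (8 * ((am + 1) * (L ^ 2 + 1))) := by
      rw [div_le_iff₀ hb0, mul_comm]
      exact hei
    have h7 : am * L ^ 2 * (ei / b0) ≤ am * L ^ 2 * (ε / (8 * ((am + 1) * (L ^ 2 + 1)))) :=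
      mul_le_mul_of_nonneg_left h6 (by positivity)
    have h8 : am * L ^ 2 * (ε / (8 * ((am + 1) * (L ^ 2 + 1)))) =
        (ε / 8) * ((am * L ^ 2) / ((am + 1) * (L ^ 2 + 1))) := by field_simp
    have h9 : (am * L ^ 2) / ((am + 1) * (L ^ 2 + 1)) ≤ 1 := by
      rw [div_le_one (by positivity)]
      nlinarith [sq_nonneg L]
    have h10 : 0 < ε / 8 := by positivity
    rw [h8] at h7
    nlinarith
  linarith

set_option maxHeartbeats 1000000 in
/-- **the upper bound from the nodes** -/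
theorem UB_of (hU0 : U0) (hU1 : U1) (hJEN : JEN) (hDER : DER) (hIBP : IBP) (hHC : HCONC)
    (hSTR : STR) (hCAV : CAV) (hMON : MONOd) (hPL : PLIM) (hDISC : DISC) : UB := by
  intro K L αm ε hε
  set am : ℝ := max αm 0 with ham
  have ham0 : 0 ≤ am := le_max_right _ _
  set B : ℝ := am * (60 * K ^ 2 * Real.exp (4 * K) + 2 * L ^ 2) with hB
  have hB0 : 0 ≤ B := by positivity
  refine ⟨⌈8 * B / ε⌉₊, fun J hJ P hP hP1 => ?_⟩
  have hJr : 8 * B / ε ≤ (J : ℝ) + 1 := by
    have h1 : 8 * B / ε ≤ (⌈8 * B / ε⌉₊ : ℝ) := Nat.le_ceil _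
    have h2 : ((⌈8 * B / ε⌉₊ : ℕ) : ℝ) ≤ J := by exact_mod_cast hJ
    linarith
  have hJp : (0 : ℝ) < (J : ℝ) + 1 := by positivity
  have hBJ : B / ((J : ℝ) + 1) ≤ ε / 8 := by
    rw [div_le_iff₀ hJp]
    have := (div_le_iff₀ hε).1 hJr
    linarith
  -- the cavity and the skeleton
  set εc : ℝ := ε / (8 * (am + 1)) with hεc
  have hεcp : 0 < εc := by positivity
  obtain ⟨ε1, hε1, hcav⟩ := hCAV J K L εc hεcp
  obtain ⟨wc0, hstr⟩ := hSTR J ε1 hε1
  set wc : ℕ := max wc0 2 with hwcd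
  have hwc2 : 2 ≤ wc := le_max_right _ _
  have hwc : 0 < wc := by omega
  obtain ⟨nc, hnc⟩ : ∃ nc : ℕ, nc + 1 = (J + 1) * wc := by
    have : 0 < (J + 1) * wc := Nat.mul_pos (by omega) hwc
    exact ⟨(J + 1) * wc - 1, by omega⟩
  have hncp : (0 : ℝ) < (nc : ℝ) + 1 := by positivity
  set q : ℕ → ℝ := ref wc P with hq
  have hqL : Lev nc q := ref_lev hwc hnc hP
  have hqlast : q nc = P J := ref_last hwc hnc
  have hq1 : q nc < 1 := by rw [hqlast]; exact hP1
  have hSPq : SP nc q = SP J P := SP_ref hwc hnc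
  -- replace `q` outside `[0, nc]`: only levels `≤ nc` matter
  have hqle : ∀ l ≤ nc, q l ≤ P J := fun l hl => by
    rw [← hqlast]; exact hqL.mono l nc hl le_rfl
  have hq0 : ∀ l ≤ nc, 0 ≤ q l := fun l hl => hqL.nonneg.trans (hqL.mono 0 l (Nat.zero_le _) hl)
  have htl0 : ∀ g : Fin nc, 0 ≤ tl1 nc q g := by
    intro g
    unfold tl1
    refine mul_nonneg (by positivity) (sum_nonneg fun l hl => ?_)
    exact hq0 l (mem_Ioc.1 hl).2
  -- lower end of the box
  set b0 : ℝ := min 1 (ε / (16 * ((nc : ℝ) + 1))) with hb0d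
  have hb0 : 0 < b0 := lt_min one_pos (by positivity)
  have hb01 : b0 ≤ 1 := min_le_left _ _
  have hb0sq : (nc : ℝ) * b0 ^ 2 ≤ ε / 16 := by
    have h1 : b0 ≤ ε / (16 * ((nc : ℝ) + 1)) := min_le_right _ _
    have h2 : b0 ^ 2 ≤ b0 := by nlinarith
    have h3 : (nc : ℝ) * b0 ^ 2 ≤ ((nc : ℝ) + 1) * (ε / (16 * ((nc : ℝ) + 1))) := by
      have hn0 : (0 : ℝ) ≤ nc := Nat.cast_nonneg _
      nlinarith [sq_nonneg b0]
    have h4 : ((nc : ℝ) + 1) * (ε / (16 * ((nc : ℝ) + 1))) = ε / 16 := by field_simp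
    linarith
  -- upper end of the box
  have hc : 0 < (1 - P J) / (2 * ((nc : ℝ) + 1)) := by
    have : 0 < 1 - P J := by linarith
    positivity
  obtain ⟨X0, hX0, hgrow⟩ := log_growth (2 * (|K| * am) + 1 / 2 + |SP J P|)
    (b := ((nc : ℝ) + 1) / 2) (by positivity) hc
  set A : ℝ := X0 + b0 + 3 with hA
  have hbA : b0 < A := by linarith
  -- error of the integration by parts
  set ei : ℝ := min (b0 / ((nc : ℝ) + 1)) (b0 * (ε / (8 * ((am + 1) * (L ^ 2 + 1))))) with hei
  have heip : 0 < ei := lt_min (by positivity) (by positivity)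
  obtain ⟨n0i, hibp⟩ := hIBP nc A K ei heip
  obtain ⟨δs, hδs, N0s, n0s, hstr'⟩ := hstr wc (le_max_left _ _) nc hnc b0 A K am hb0 hbA
  obtain ⟨N0h, hhc⟩ := hHC nc b0 A K am δs hb0 hbA hδs
  obtain ⟨N0u, hu0⟩ := hU0 nc A (ε / 8) (by positivity)
  refine ⟨max (max 1 N0s) (max N0h N0u), fun N hN M hM f hf => ?_⟩
  have hN1 : 1 ≤ N := (le_max_left 1 N0s).trans ((le_max_left _ _).trans hN)
  have hNs : N0s ≤ N := (le_max_right 1 N0s).trans ((le_max_left _ _).trans hN)
  have hNh : N0h ≤ N := (le_max_left N0h N0u).trans ((le_max_right _ _).trans hN)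
  have hNu : N0u ≤ N := (le_max_right N0h N0u).trans ((le_max_right _ _).trans hN)
  have hNp : 0 < N := hN1
  have hNr : (0 : ℝ) < N := by exact_mod_cast hNp
  have hfm : ∀ a, Measurable (f a) := fun a => S6UBa_167.BL.meas (hf a)
  have hfK : ∀ a x, |f a x| ≤ K := fun a => (hf a).bd
  have hK0 : 0 ≤ K := (abs_nonneg _).trans (hfK 0 0)
  have hKabs : |K| = K := abs_of_nonneg hK0
  have hMam : (M : ℝ) ≤ am * N := hM.trans (mul_le_mul_of_nonneg_right (le_max_left _ _) hNr.le)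
  have hMN : (M : ℝ) / N ≤ am := (div_le_iff₀ hNr).2 hMam
  have hle : ∀ M' ≤ M, (M' : ℝ) ≤ am * N := fun M' h => by
    have : (M' : ℝ) ≤ M := by exact_mod_cast h
    linarith
  -- number of coins
  set n : ℕ := 1 + n0s N + ∑ M' ∈ range (M + 1), n0i N M' with hn
  have hn0 : 0 < n := by omega
  have hns : n0s N ≤ n := by omega
  have hni : ∀ M' ≤ M, n0i N M' ≤ n := by
    intro M' hM'
    have : n0i N M' ≤ ∑ M' ∈ range (M + 1), n0i N M' :=
      single_le_sum (f := fun M' => n0i N M') (fun _ _ => Nat.zero_le _)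
        (mem_range.2 (by omega))
    omega
  obtain ⟨δu, hδu, hu0'⟩ := hu0 N hNu n hn0
  obtain ⟨δp, hδp, hpl⟩ := hPL N K L M (ε / 8) hNp (by positivity)
  obtain ⟨C, hC⟩ := hDISC N hNp (min δu δp) (lt_min hδu hδp)
  have hCu : Near C δu := near_mono hC (min_le_left _ _)
  have hCp : Near C δp := near_mono hC (min_le_right _ _)
  -- the data of the contact lemma
  set DF : ℕ → (Fin nc → ℝ) → Fin nc → ℝ := fun M' s g =>
    ∫ G, eE (QQ C nc n (M := M') f G s) (Dobs C nc n g) ∂(gam M' N) - s g with hDF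
  set DU : ℕ → (Fin nc → ℝ) → Fin nc → ℝ := fun _ s g => -(s g * tl1 nc q g) with hDU
  set η : ℝ := (N : ℝ)⁻¹ * (60 * K ^ 2 * Real.exp (4 * K) / ((J : ℝ) + 1) + εc +
    L ^ 2 * (2 / ((J : ℝ) + 1) + ei / b0)) with hη
  have hη0 : 0 ≤ η := by positivity
  have hibp' : ∀ M' ≤ M, ∀ s ∈ box nc b0 A, ∀ g : Fin nc,
      |∫ G, eE (QQ C nc n (M := M') f G s) (Dobs C nc n g) ∂(gam M' N) -
        s g * (1 - tl1 nc (fun l => Rk C nc n f M' s (st n l)) g)| ≤ ei := fun M' hM' s hs g =>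
    hibp N hNp M' n (hni M' hM') C f hfm hfK s (fun g => ⟨hb0.le.trans (hs g).1, (hs g).2⟩) g
  have hcontact := contact b0 A hb0 M (fun M' s => FN C nc n f M' s)
    (fun M' s => Ucmp N nc J P q f M' s) DF DU
    (fun M' _ => (hDER nc N n hNp hn0 C K f M' hfm hfK).1.continuousOn)
    (fun M' _ => (Ucmp_cont N nc J P q f M').continuousOn)
    (fun M' _ s _ g => (hDER nc N n hNp hn0 C K f M' hfm hfK).2 s g)
    ?hU ?hlow (ε / 8) η (by positivity) hη0 ?h0 ?hface ?hstep M le_rfl (fun _ => b0)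
    (fun _ => ⟨le_rfl, hbA.le⟩)
  case hU =>
    intro M' _ s _ g y _
    -- the values of `q` beyond `nc` are irrelevant
    have h1 := Ucmp_update N nc J P (fun l => max (q l) 0) (fun _ => le_max_right _ _) f M' s g y
    have h2 : ∀ g : ℕ, tl1 nc (fun l => max (q l) 0) g = tl1 nc q g := by
      intro g
      unfold tl1
      congr 1
      exact sum_congr rfl fun l hl => max_eq_left (hq0 l (mem_Ioc.1 hl).2)
    have h3 : ∀ s', Ucmp N nc J P (fun l => max (q l) 0) f M' s' = Ucmp N nc J P q f M' s' := by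
      intro s'
      unfold Ucmp
      simp_rw [h2]
    rw [h3, h3, h2] at h1
    exact h1
  case hlow =>
    intro M' hM' s hs g
    have h1 := (abs_le.1 (hibp' M' hM' s hs g)).1
    have hsg : b0 ≤ s g := (hs g).1
    have hsg0 : 0 < s g := lt_of_lt_of_le hb0 hsg
    have h2 : tl1 nc (fun l => Rk C nc n f M' s (st n l)) g ≤
        1 * (1 - (((g : ℕ) : ℝ) + 1) / ((nc : ℝ) + 1)) :=
      tl1_le (fun l _ => Rk_le_one hNp hfm _) g.2.le
    have h3 : 1 / ((nc : ℝ) + 1) ≤ (((g : ℕ) : ℝ) + 1) / ((nc : ℝ) + 1) := by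
      gcongr
      have : (0 : ℝ) ≤ ((g : ℕ) : ℝ) := Nat.cast_nonneg _
      linarith
    have h4 : ei ≤ s g * (1 / ((nc : ℝ) + 1)) := by
      have h5 : ei ≤ b0 / ((nc : ℝ) + 1) := min_le_left _ _
      have h6 : b0 / ((nc : ℝ) + 1) ≤ s g * (1 / ((nc : ℝ) + 1)) := by
        rw [mul_one_div]
        gcongr
      linarith
    have h7 : 0 ≤ s g * tl1 nc q g := mul_nonneg hsg0.le (htl0 g)
    have h8 : s g * tl1 nc (fun l => Rk C nc n f M' s (st n l)) g ≤
        s g * (1 - 1 / ((nc : ℝ) + 1)) := by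
      refine mul_le_mul_of_nonneg_left ?_ hsg0.le
      linarith
    exact low_arith h1 h4 h7 h8
  case h0 =>
    intro s hs
    have h1 := hu0' C hCu f s (fun g => ⟨lt_of_lt_of_le hb0 (hs g).1, (hs g).2⟩) q hqL hq1
    rw [hSPq] at h1
    unfold Ucmp
    simp only [range_zero, sum_empty, mul_zero, zero_add]
    exact h1
  case hface =>
    intro M' hM' s hs ⟨g0, hg0⟩
    have h1 := hU1 nc N n hNp hn0 C K f M' hfm hfK s
    set X : ℝ := ∑ g : Fin nc, s g ^ 2 with hX
    have hXge : X0 ≤ X := by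
      have h2 : s g0 ^ 2 ≤ X :=
        single_le_sum (f := fun g => s g ^ 2) (fun _ _ => sq_nonneg _) (mem_univ g0)
      have h3 : X0 + 1 ≤ s g0 := by linarith
      nlinarith
    have h4 := hgrow X hXge
    have h5 : K * M' / N ≤ |K| * am := by
      rw [hKabs, mul_div_assoc]
      refine mul_le_mul_of_nonneg_left ?_ hK0
      exact (div_le_iff₀ hNr).2 (hle M' hM')
    have h6 : -(|K| * am) ≤ (N : ℝ)⁻¹ * ∑ a ∈ range M', Th J (f a) P := by
      have h7 : -(K * M') ≤ ∑ a ∈ range M', Th J (f a) P := by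
        have h8 : ∑ _a ∈ range M', (-K) ≤ ∑ a ∈ range M', Th J (f a) P :=
          sum_le_sum fun a _ => neg_le_of_abs_le (Th_abs_le (hfm a) (hfK a) J P)
        rw [sum_const, card_range, nsmul_eq_mul] at h8
        linarith
      have h9 : (N : ℝ)⁻¹ * (-(K * M')) ≤ (N : ℝ)⁻¹ * ∑ a ∈ range M', Th J (f a) P :=
        mul_le_mul_of_nonneg_left h7 (by positivity)
      have h10 : (N : ℝ)⁻¹ * (-(K * M')) = -(K * M' / N) := by
        rw [div_eq_inv_mul]; ring
      rw [h10] at h9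
      linarith
    have h7 : FN C nc n f M' s ≤ |K| * am + 1 / 2 -
        1 / 2 * ∑ g : Fin nc, s g ^ 2 * (1 - ((g : ℝ) + 1) / ((nc : ℝ) + 1)) +
        ((nc : ℝ) + 1) / 2 * Real.log (1 + X) := by linarith
    have h8 := face_arith (S := SP J P) hX h6 hqle hP1 h4 h7
    have h9 : Ucmp N nc J P q f M' s = (N : ℝ)⁻¹ * ∑ a ∈ range M', Th J (f a) P + SP J P -
        1 / 2 * ∑ g : Fin nc, s g ^ 2 * tl1 nc q g := rfl
    rw [h9]
    linarith
  case hstep =>
    intro M' hM' s hs hs2 hd hpar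
    have hcon : ∀ g, Dconc C nc n f (M' + 1) s g δs := fun g =>
      hhc N hNh n hn0 C f (M' + 1) (hle _ hM') hfm hfK s hs2 g (DF (M' + 1) s g) (hpar g)
    obtain ⟨τ, hτ⟩ := hstr' N hNs n hns C f (M' + 1) (hle _ hM') hfm hfK s hs hcon
    have hc1 := hcav wc nc hwc2 hnc N n hNp hn0 C f M' hf s τ hτ
    set R : ℕ → ℝ := fun k => Rk C nc n f (M' + 1) s k with hR
    have hR0 : ∀ k, 0 ≤ R k := fun k => Rk_nonneg k
    have hR1 : ∀ k, R k ≤ 1 := fun k => Rk_le_one hNp hfm k
    have hRm : ∀ k l, k ≤ l → R k ≤ R l := fun k l h => Rk_mono hNp hfm h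
    have htail : ∀ g : Fin nc, tl1 nc (ref wc P) g ≤
        tl1 nc (fun l => R (st n l)) g + ei / b0 := fun g =>
      tails_contact hb0 (hs g).1 (hibp' (M' + 1) hM' s hs g) (hd g)
    have hskt := skel_tails hwc hnc hP hR0 hR1 hRm hτ.blk (by positivity) htail
    have hlevR : Lev J fun b => R (τ b) := skel_lev hR0 hR1 hRm hτ.blk
    have hmon := hMON J K L (f M') (hf M') (fun b => R (τ b)) P hlevR hP
      (2 / ((J : ℝ) + 1) + ei / b0) (by positivity) hskt
    have h1 := (abs_le.1 hc1).2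
    have h2 : (N : ℝ) * (FN C nc n f (M' + 1) s - FN C nc n f M' s) ≤
        Th J (f M') P + (60 * K ^ 2 * Real.exp (4 * K) / ((J : ℝ) + 1) + εc +
    L ^ 2 * (2 / ((J : ℝ) + 1) + ei / b0)) := by
      have : Th J (f M') (fun b => Rk C nc n f (M' + 1) s (τ b)) = Th J (f M') fun b => R (τ b) := rfl
      linarith
    have h3 := mul_le_mul_of_nonneg_left h2 (inv_pos.2 hNr).le
    rw [← mul_assoc, inv_mul_cancel₀ hNr.ne', one_mul, mul_add] at h3
    have h4 : Ucmp N nc J P q f (M' + 1) s - Ucmp N nc J P q f M' s =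
        (N : ℝ)⁻¹ * Th J (f M') P := by
      unfold Ucmp
      rw [sum_range_succ]
      ring
    rw [h4]
    exact h3
  -- conclusion
  have hpen : pen b0 (fun _ : Fin nc => b0) ≤ nc * b0 ^ 2 :=
    pen_le hb0 (A := A) (fun _ => ⟨le_rfl, hbA.le⟩)
  have hjen := hJEN nc N n hNp hn0 C K f M hfm hfK (fun _ => b0)
  have hpc := (abs_le.1 (hpl f hf C hCp)).2
  have hsum : ∑ _g : Fin nc, b0 ^ 2 = nc * b0 ^ 2 := by simp
  rw [hsum] at hjen
  have hUle : Ucmp N nc J P q f M (fun _ => b0) ≤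
      (N : ℝ)⁻¹ * ∑ a ∈ range M, Th J (f a) P + SP J P := by
    unfold Ucmp
    have : 0 ≤ ∑ g : Fin nc, b0 ^ 2 * tl1 nc q g :=
      sum_nonneg fun g _ => mul_nonneg (sq_nonneg _) (htl0 g)
    linarith
  have hηM : η * M ≤ 3 * (ε / 8) := by
    have h1 : η * M = (M : ℝ) / N * (60 * K ^ 2 * Real.exp (4 * K) / ((J : ℝ) + 1) + εc +
        L ^ 2 * (2 / ((J : ℝ) + 1) + ei / b0)) := by
      rw [hη]; ring
    rw [h1]
    exact eta_arith hε hb0 ham0 hJp hB hBJ hεc heip.le (min_le_right _ _) hMN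
  linarith

end

end Crest.Agent.R146.S6UB_167
end

-- ▼ part R146/HConc_52

/-!
Row 146, statement S0206 (S6 project): `HCONC` of `S6U_988` (helper52): contact from above in the
strength `s g` ⇒ thermal and disorder concentration of the field observable `Dobs g`.
-/

set_option autoImplicit false

namespace Crest.Agent.R146.HConc_52

open Finset MeasureTheory ProbabilityTheory Crest.Agent.R141
open Crest.Agent.R146.S6Def_988
open Crest.Agent.R164
open Crest.Agent.R146.SysA_52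

noncomputable section

variable {N : ℕ} {C : Cfg N} {nc n : ℕ} {M : ℕ} {f : ℕ → ℝ → ℝ} {K : ℝ}

/-- integral of the free energy -/
def IPhi (C : Cfg N) (nc n : ℕ) (f : ℕ → ℝ → ℝ) (M : ℕ) (s : Fin nc → ℝ) : ℝ :=
  ∫ G, Phi C nc n (M := M) f G s ∂(gam M N)

theorem Phi_zero (G : Fin M → Fin N → ℝ) (s : Fin nc → ℝ) (g : Fin nc) :
    Phi C nc n f G s = ObsConc.gA (prior C nc n) (fil C nc n) (xs nc n) (UU f G s)
      (fun ω => N * Dobs C nc n g ω) 0 := by
  have := Phi_update (C := C) (n := n) (f := f) G s g (s g)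
  rwa [Function.update_eq_self, sub_self] at this

theorem Phi_mid (G : Fin M → Fin N → ℝ) (s : Fin nc → ℝ) (g : Fin nc) (t : ℝ) :
    2 * Phi C nc n f G s ≤ Phi C nc n f G (Function.update s g (s g + t)) +
      Phi C nc n f G (Function.update s g (s g - t)) := by
  rw [Phi_update, Phi_update, Phi_zero G s g]
  have hc := ObsConc.convexOn_gA (𝓕 := fil C nc n) (prior_isProb C nc n) (xs_pos nc n)
    (fil_zero C nc n) (UU f G s) (fun ω => N * Dobs C nc n g ω)
  have h := hc.2 (Set.mem_univ t) (Set.mem_univ (-t)) (by norm_num : (0:ℝ) ≤ 1 / 2)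
    (by norm_num : (0:ℝ) ≤ 1 / 2) (by norm_num)
  have e1 : (1 / 2 : ℝ) • t + (1 / 2 : ℝ) • (-t) = 0 := by simp
  rw [e1, smul_eq_mul, smul_eq_mul] at h
  have e2 : s g + t - s g = t := by ring
  have e3 : s g - t - s g = -t := by ring
  rw [e2, e3]
  linarith

theorem IPhi_mid (hf : ∀ a, Measurable (f a)) (hK : ∀ a x, |f a x| ≤ K) (s : Fin nc → ℝ)
    (g : Fin nc) (t : ℝ) :
    2 * IPhi C nc n f M s ≤ IPhi C nc n f M (Function.update s g (s g + t)) +
      IPhi C nc n f M (Function.update s g (s g - t)) := by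
  unfold IPhi
  rw [← integral_const_mul, ← integral_add (integrable_Phi hf hK _) (integrable_Phi hf hK _)]
  exact integral_mono ((integrable_Phi hf hK _).const_mul _)
    ((integrable_Phi hf hK _).add (integrable_Phi hf hK _)) fun G => Phi_mid G s g t

/-- the averaged concentration estimate with the second difference of the averaged free energy. -/
theorem conc_of_diff (hN : 0 < N) (hf : ∀ a, Measurable (f a)) (hK : ∀ a x, |f a x| ≤ K)
    (s : Fin nc → ℝ) (g : Fin nc) {t : ℝ} (ht : 0 < t) :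
    ∃ d : ℝ, t * N * ∫ G, eE (QQ C nc n (M := M) f G s) (fun ω => |Dobs C nc n g ω - d|)
      ∂(gam M N) ≤
      2 * (IPhi C nc n f M (Function.update s g (s g + t)) +
        IPhi C nc n f M (Function.update s g (s g - t)) - 2 * IPhi C nc n f M s) +
      8 * (2 * K * Real.sqrt (M / 2)) + Real.log 2 * (nc + 1) := by
  set f0 := IPhi C nc n f M s with hf0
  set fp := IPhi C nc n f M (Function.update s g (s g + t)) with hfp
  set fm := IPhi C nc n f M (Function.update s g (s g - t)) with hfm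
  have hN' : (0 : ℝ) < N := by exact_mod_cast hN
  set c := (fp - f0) / t with hc
  have htc : t * c = fp - f0 := by rw [hc]; field_simp
  have hmid : 2 * f0 ≤ fp + fm := IPhi_mid hf hK s g t
  have hpt : ∀ G : Fin M → Fin N → ℝ,
      t * N * eE (QQ C nc n f G s) (fun ω => |Dobs C nc n g ω - c / N|) ≤
        (2 * (fp + fm - 2 * f0) + Real.log 2 * (nc + 1)) +
        (2 * |Phi C nc n f G (Function.update s g (s g + t)) - fp| +
        (2 * |Phi C nc n f G (Function.update s g (s g - t)) - fm| +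
        4 * |Phi C nc n f G s - f0|)) := by
    intro G
    have h := ObsConc.obs_pt (𝓕 := fil C nc n) (prior_isProb C nc n) (xs_pos nc n)
      (fil_zero C nc n) (xm := 1 / ((nc : ℝ) + 1)) (by positivity) (xs_ge nc n) (UU f G s)
      (fun ω => N * Dobs C nc n g ω) ht (f0 := f0) (fp := fp) (fm := fm) (c := c)
      htc.le (by rw [htc]; linarith)
    have e1 : ObsConc.gA (prior C nc n) (fil C nc n) (xs nc n) (UU f G s)
        (fun ω => N * Dobs C nc n g ω) t = Phi C nc n f G (Function.update s g (s g + t)) := by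
      rw [Phi_update]; congr 1; ring
    have e2 : ObsConc.gA (prior C nc n) (fil C nc n) (xs nc n) (UU f G s)
        (fun ω => N * Dobs C nc n g ω) (-t) = Phi C nc n f G (Function.update s g (s g - t)) := by
      rw [Phi_update]; congr 1; ring
    have e3 : eE (prior C nc n) (A (prior C nc n) (fil C nc n) (xs nc n) (UU f G s) 0) =
      Phi C nc n f G s := rfl
    have e4 : eE (tl (prior C nc n) (fil C nc n) (xs nc n) (UU f G s))
        (fun w => |N * Dobs C nc n g w - c|) =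
        N * eE (QQ C nc n f G s) (fun ω => |Dobs C nc n g ω - c / N|) := by
      rw [← eE_smul]
      unfold QQ
      congr 1
      funext ω
      have : (N : ℝ) * Dobs C nc n g ω - c = N * (Dobs C nc n g ω - c / N) := by
        field_simp
      rw [this, abs_mul, abs_of_pos hN']
    rw [e1, e2, e3, e4] at h
    have e5 : Real.log 2 / (1 / ((nc : ℝ) + 1)) = Real.log 2 * (nc + 1) := by
      rw [one_div, div_inv_eq_mul]
    rw [e5] at h
    linarith
  refine ⟨c / N, ?_⟩
  have i0 := (integrable_Phi (C := C) (nc := nc) (n := n) (M := M) hf hK s)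
  have ip := (integrable_Phi (C := C) (nc := nc) (n := n) (M := M) hf hK
    (Function.update s g (s g + t)))
  have im := (integrable_Phi (C := C) (nc := nc) (n := n) (M := M) hf hK
    (Function.update s g (s g - t)))
  have j0 : Integrable (fun G : Fin M → Fin N → ℝ => 4 * |Phi C nc n f G s - f0|) (gam M N) :=
    ((i0.sub (integrable_const f0)).abs).const_mul 4
  have jp : Integrable (fun G : Fin M → Fin N → ℝ =>
      2 * |Phi C nc n f G (Function.update s g (s g + t)) - fp|) (gam M N) :=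
    ((ip.sub (integrable_const fp)).abs).const_mul 2
  have jm : Integrable (fun G : Fin M → Fin N → ℝ =>
      2 * |Phi C nc n f G (Function.update s g (s g - t)) - fm|) (gam M N) :=
    ((im.sub (integrable_const fm)).abs).const_mul 2
  have d0 : ∫ G, |Phi C nc n (M := M) f G s - f0| ∂(gam M N) ≤ 2 * K * Real.sqrt (M / 2) :=
    Phi_dev hf hK s
  have dp : ∫ G, |Phi C nc n (M := M) f G (Function.update s g (s g + t)) - fp| ∂(gam M N) ≤
      2 * K * Real.sqrt (M / 2) := Phi_dev hf hK _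
  have dm : ∫ G, |Phi C nc n (M := M) f G (Function.update s g (s g - t)) - fm| ∂(gam M N) ≤
      2 * K * Real.sqrt (M / 2) := Phi_dev hf hK _
  rw [← integral_const_mul]
  refine (integral_mono ((integrable_eE_QQ hf s _).const_mul _)
    ((integrable_const _).add (jp.add (jm.add j0))) hpt).trans ?_
  rw [integral_add' (integrable_const _) (jp.add (jm.add j0)), integral_add' jp (jm.add j0),
    integral_add' jm j0, integral_const_mul, integral_const_mul, integral_const_mul]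
  simp only [integral_const, probReal_univ, one_smul]
  linarith

theorem num1 {N Fp Fm F0 S sg t F' : ℝ} (hN : 0 ≤ N)
    (u1 : Fp ≤ F0 + F' * (sg + t - sg) + (sg + t - sg) ^ 2)
    (u2 : Fm ≤ F0 + F' * (sg - t - sg) + (sg - t - sg) ^ 2) :
    N * (Fp + 1 / 2 * (S + ((sg + t) ^ 2 - sg ^ 2))) +
      N * (Fm + 1 / 2 * (S + ((sg - t) ^ 2 - sg ^ 2))) - 2 * (N * (F0 + 1 / 2 * S)) ≤
      3 * N * t ^ 2 := by
  have h1 : Fp + Fm - 2 * F0 ≤ 2 * t ^ 2 := by linarith
  have h2 := mul_le_mul_of_nonneg_left h1 hN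
  linarith

theorem num2 {N K a b t δ : ℝ} (hN : 0 ≤ N) (hK : 0 ≤ K) (h1 : a ≤ b * Real.sqrt N)
    (h2 : 64 * K * b ≤ Real.sqrt N * (t * δ)) : 8 * (2 * K * a) ≤ N * (t * δ) / 4 := by
  have h3 : K * a ≤ K * (b * Real.sqrt N) := mul_le_mul_of_nonneg_left h1 hK
  have h4 : 64 * K * b * Real.sqrt N ≤ Real.sqrt N * (t * δ) * Real.sqrt N :=
    mul_le_mul_of_nonneg_right h2 (Real.sqrt_nonneg _)
  have h5 : Real.sqrt N * (t * δ) * Real.sqrt N = N * (t * δ) := by
    calc Real.sqrt N * (t * δ) * Real.sqrt N = (Real.sqrt N * Real.sqrt N) * (t * δ) := by ring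
      _ = _ := by rw [Real.mul_self_sqrt hN]
  rw [h5] at h4
  linarith

theorem num3 {N X I a c t δ : ℝ} (hN : 0 ≤ N) (ht : 0 ≤ t) (ht1 : t ≤ δ / 12)
    (hX : t * N * X ≤ 2 * I + a + c) (hI : I ≤ 3 * N * t ^ 2) (ha : a ≤ N * (t * δ) / 4)
    (hc : 4 * c ≤ N * (t * δ)) : t * N * X ≤ t * N * δ := by
  have h1 : t * t ≤ t * (δ / 12) := mul_le_mul_of_nonneg_left ht1 ht
  have h2 : N * (t * t) ≤ N * (t * (δ / 12)) := mul_le_mul_of_nonneg_left h1 hN
  linarith

theorem hconc : S6U_988.HCONC := by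
  intro nc b0 A K αm δ hb0 hbA hδ
  set t : ℝ := min (δ / 12) (min (b0 / 3) 1) with ht
  have ht0 : 0 < t := lt_min (by positivity) (lt_min (by positivity) one_pos)
  have ht1 : t ≤ δ / 12 := min_le_left _ _
  have ht2 : t ≤ b0 / 3 := (min_le_right _ _).trans (min_le_left _ _)
  have ht3 : t ≤ 1 := (min_le_right _ _).trans (min_le_right _ _)
  set c2 : ℝ := Real.log 2 * (nc + 1) with hc2
  obtain ⟨N1, hN1⟩ := exists_nat_ge ((64 * K * Real.sqrt (αm / 2) / (t * δ)) ^ 2)
  obtain ⟨N2, hN2⟩ := exists_nat_ge (4 * c2 / (t * δ))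
  refine ⟨max 1 (max N1 N2), ?_⟩
  intro N hN n hn C f M hM hf hK s hs g F' hF
  have hN0 : 0 < N := lt_of_lt_of_le one_pos ((le_max_left _ _).trans hN)
  have hN' : (0 : ℝ) < N := by exact_mod_cast hN0
  have hN1' : (N1 : ℝ) ≤ N := by
    exact_mod_cast ((le_max_left _ _).trans (le_max_right _ _)).trans hN
  have hN2' : (N2 : ℝ) ≤ N := by
    exact_mod_cast ((le_max_right _ _).trans (le_max_right _ _)).trans hN
  obtain ⟨d, hd⟩ := conc_of_diff (C := C) (n := n) (M := M) hN0 hf hK s g ht0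
  refine ⟨d, ?_⟩
  set X := ∫ G, eE (QQ C nc n (M := M) f G s) (fun ω => |Dobs C nc n g ω - d|) ∂(gam M N) with hX
  -- second difference
  have hs1 := hs g
  have u1 := hF (s g + t) ⟨by linarith, by linarith⟩
  have u2 := hF (s g - t) ⟨by linarith, by linarith⟩
  have e : ∀ y : ℝ, IPhi C nc n f M (Function.update s g y) =
      N * (FN C nc n f M (Function.update s g y) +
        1 / 2 * (∑ h, s h ^ 2 + (y ^ 2 - s g ^ 2))) := fun y => by
    unfold IPhi
    rw [FN_mul hN0, sum_sq_update]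
  have e0 : IPhi C nc n f M s = N * (FN C nc n f M s + 1 / 2 * ∑ h, s h ^ 2) := by
    unfold IPhi
    rw [FN_mul hN0]
  have hdiff : IPhi C nc n f M (Function.update s g (s g + t)) +
      IPhi C nc n f M (Function.update s g (s g - t)) - 2 * IPhi C nc n f M s ≤ 3 * N * t ^ 2 := by
    rw [e, e, e0]
    exact num1 hN'.le u1 u2
  -- the fluctuation
  have hK0 : 0 ≤ K := (abs_nonneg _).trans (hK 0 0)
  have hsq : Real.sqrt (M / 2) ≤ Real.sqrt (αm / 2) * Real.sqrt N := by
    rw [← Real.sqrt_mul' _ hN'.le]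
    refine Real.sqrt_le_sqrt ?_
    linarith
  have htδ : 0 < t * δ := mul_pos ht0 hδ
  have hs2 : 64 * K * Real.sqrt (αm / 2) / (t * δ) ≤ Real.sqrt N :=
    Real.le_sqrt_of_sq_le (hN1.trans hN1')
  have hs3 : 64 * K * Real.sqrt (αm / 2) ≤ Real.sqrt N * (t * δ) := (div_le_iff₀ htδ).mp hs2
  have hs4 : 4 * c2 ≤ N * (t * δ) := (div_le_iff₀ htδ).mp (hN2.trans hN2')
  exact le_of_mul_le_mul_left (num3 hN'.le ht0.le ht1 hd hdiff (num2 hN'.le hK0 hsq hs3) hs4)
    (mul_pos ht0 hN')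

end

end Crest.Agent.R146.HConc_52
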