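import Crest.Agent.R146.Stat9_307

/-!
# Row 146: algebraic tail bounds of a stationary pair (helper445)

For `h : SPair c W V I k lam`, `R = 1 - V`, `U = W - x`, `a = -2A`, `σ = 2 lam - (1-c) > 0`,
`τ = (1+c) - 2 lam > 0` (for the closed pair `lam = c`: `σ = 3c-1`, `τ = 1-c`).

Left (`x` with `a x > 0`):
* `aW_le_V : a W ≤ V`, `V_le_aW : V ≤ a W + (2+2cV) W / a`;
* `k_le_left : k ≤ σ/a`, `le_k_left : (σ - 2cV - σ(1-c+2cV)/a²)/a ≤ k`;
* `k1_le_left`, `le_k1_left` : `k² - 2cV ≤ k' ≤ k² + σ(1-c+2cV)/a²`.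

Right (`x` with `α = 2A > 0`):
* `I_eq : I = (1-c)U + αR`, `aU_le_R : α U ≤ R`, `R_le_aU : R ≤ αU + 2U/α`;
* `k_le_right : k ≤ τ/α`, `le_k_right : (τ - 2cR - τ(τ+1+c)/α²)/α ≤ k`;
* `k1_le_right`, `le_k1_right` : `k² - τ(τ+1+c)/α² ≤ k' ≤ k² + 2cR`.
-/

set_option autoImplicit false

namespace Crest.Agent.R146.TailK_445

open Set Filter Topology
open SPair_307 Stat7_307 Stat8_307 Stat9_307

/-- a bounded solution of `D' = g D + r`, `r ≥ 0`, `g ≥ 1` near `+∞`, is `≤ 0`. -/
theorem blowR {g r D : ℝ → ℝ} {x1 : ℝ} (hg : Continuous g)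
    (hD : ∀ y, x1 ≤ y → HasDerivAt D (g y * D y + r y) y) (hr : ∀ y, x1 ≤ y → 0 ≤ r y)
    {x2 : ℝ} (h12 : x1 ≤ x2) (hg1 : ∀ y, x2 ≤ y → 1 ≤ g y) {B : ℝ} (hb : ∀ y, x1 ≤ y → D y ≤ B) :
    D x1 ≤ 0 := by
  by_contra hcon
  push Not at hcon
  set G : ℝ → ℝ := fun y => ∫ t in x1..y, g t with hG
  have hGd : ∀ y, HasDerivAt G (g y) y := fun y =>
    (hg.integral_hasStrictDerivAt x1 y).hasDerivAt
  have hmd : ∀ y, x1 ≤ y → HasDerivAt (fun y => Real.exp (-G y) * D y)
      (Real.exp (-G y) * r y) y := fun y hy => by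
    refine ((hGd y).neg.exp.mul (hD y hy)).congr_deriv ?_
    simp only [Pi.neg_apply]
    ring
  have hmono : MonotoneOn (fun y => Real.exp (-G y) * D y) (Ici x1) := by
    apply monotoneOn_of_deriv_nonneg (convex_Ici x1)
    · exact fun y hy => (hmd y hy).continuousAt.continuousWithinAt
    · intro y hy
      rw [interior_Ici] at hy
      exact (hmd y (le_of_lt hy)).differentiableAt.differentiableWithinAt
    · intro y hy
      rw [interior_Ici] at hy
      rw [(hmd y (le_of_lt hy)).deriv]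
      exact mul_nonneg (Real.exp_pos _).le (hr y (le_of_lt hy))
  have h0 : G x1 = 0 := by simp [hG]
  have h1 : ∀ y, x1 ≤ y → D x1 * Real.exp (G y) ≤ D y := fun y hy => by
    have h2 := hmono (mem_Ici.2 (le_refl x1)) (mem_Ici.2 hy) hy
    simp only [h0, neg_zero, Real.exp_zero, one_mul] at h2
    have h3 := mul_le_mul_of_nonneg_left h2 (Real.exp_pos (G y)).le
    rw [← mul_assoc, ← Real.exp_add, add_neg_cancel, Real.exp_zero, one_mul] at h3
    linarith
  -- `G y ≥ G x2 + (y - x2)`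
  have hG2 : ∀ y, x2 ≤ y → G x2 + (y - x2) ≤ G y := fun y hy => by
    have hm : MonotoneOn (fun y => G y - y) (Ici x2) := by
      apply monotoneOn_of_deriv_nonneg (convex_Ici x2)
      · exact fun y _ => ((hGd y).sub (hasDerivAt_id y)).continuousAt.continuousWithinAt
      · exact fun y _ => ((hGd y).sub (hasDerivAt_id y)).differentiableAt.differentiableWithinAt
      · intro y hy
        rw [interior_Ici] at hy
        have e : deriv (fun y => G y - y) y = g y - 1 := ((hGd y).sub (hasDerivAt_id y)).deriv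
        rw [e]
        linarith [hg1 y (le_of_lt hy)]
    have := hm (mem_Ici.2 (le_refl x2)) (mem_Ici.2 hy) hy
    simp only at this
    linarith
  -- contradiction at a large `y`
  set E := D x1 * Real.exp (G x2) with hE
  have hE0 : 0 < E := mul_pos hcon (Real.exp_pos _)
  set y := x2 + (|B| + 1) / E with hy
  have hyx : x2 ≤ y := by
    rw [hy]
    have : 0 ≤ (|B| + 1) / E := by positivity
    linarith
  have h3 := h1 y (h12.trans hyx)
  have h4 := hb y (h12.trans hyx)
  have h5 : Real.exp (G x2) * (1 + (y - x2)) ≤ Real.exp (G y) := by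
    have h6 := Real.add_one_le_exp (y - x2)
    calc Real.exp (G x2) * (1 + (y - x2)) ≤ Real.exp (G x2) * Real.exp (y - x2) :=
          mul_le_mul_of_nonneg_left (by linarith) (Real.exp_pos _).le
      _ = Real.exp (G x2 + (y - x2)) := (Real.exp_add _ _).symm
      _ ≤ Real.exp (G y) := Real.exp_le_exp.2 (hG2 y hyx)
  have h7 : E * (1 + (y - x2)) ≤ D y := by
    refine le_trans ?_ h3
    rw [hE, mul_assoc]
    exact mul_le_mul_of_nonneg_left h5 hcon.le
  have h8 : E * (y - x2) = |B| + 1 := by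
    rw [hy]
    field_simp
    ring
  have h9 := le_abs_self B
  nlinarith

/-- mirror image of `blowR`: `D' = g D + r`, `r ≤ 0`, `g ≤ -1` near `-∞`. -/
theorem blowL {g r D : ℝ → ℝ} {x1 : ℝ} (hg : Continuous g)
    (hD : ∀ y, y ≤ x1 → HasDerivAt D (g y * D y + r y) y) (hr : ∀ y, y ≤ x1 → r y ≤ 0)
    {x2 : ℝ} (h12 : x2 ≤ x1) (hg1 : ∀ y, y ≤ x2 → g y ≤ -1) {B : ℝ} (hb : ∀ y, y ≤ x1 → D y ≤ B) :
    D x1 ≤ 0 := by
  have h := blowR (g := fun y => -g (-y)) (r := fun y => -r (-y)) (D := fun y => D (-y))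
    (x1 := -x1) (x2 := -x2) (B := B) (by fun_prop) ?_ ?_ (by linarith) ?_ ?_
  · simpa using h
  · intro y hy
    have h1 := (hD (-y) (by linarith)).scomp y (hasDerivAt_neg y)
    refine h1.congr_deriv ?_
    simp only [smul_eq_mul]
    ring
  · intro y hy
    have := hr (-y) (by linarith)
    linarith
  · intro y hy
    have := hg1 (-y) (by linarith)
    linarith
  · intro y hy
    exact hb (-y) (by linarith)

lemma hasDerivAt_div_sq {f : ℝ → ℝ} {f' y : ℝ} (δ : ℝ) (hf : HasDerivAt f f' y) (h0 : f y ≠ 0) :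
    HasDerivAt (fun y => δ / f y ^ 2) (-(2 * δ * f') / f y ^ 3) y := by
  refine ((hasDerivAt_const y δ).div (hf.pow 2) (pow_ne_zero 2 h0)).congr_deriv ?_
  simp only [Pi.pow_apply]
  generalize f y = z at h0
  field_simp
  push_cast
  ring

variable {c : ℝ} {W V I k : ℝ → ℝ} {lam : ℝ}

lemma Ad1_pos (h : SPair c W V I k lam) (x : ℝ) : (1 - c) / 2 < Ad1 c V x := by
  have h1 := h.V_pos x
  have h2 := h.c_pos
  unfold Ad1
  nlinarith [mul_pos h2 h1]

lemma Ad1_lt (h : SPair c W V I k lam) (x : ℝ) : Ad1 c V x < (1 + c) / 2 := by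
  have h1 := h.V_lt x
  have h2 := h.c_pos
  unfold Ad1
  nlinarith [mul_pos h2 (sub_pos.2 h1)]

lemma A_mono (h : SPair c W V I k lam) : StrictMono (Ad c W) :=
  strictMono_of_deriv_pos fun x => by
    rw [(h.dA x).deriv]
    have := Ad1_pos h x
    linarith [h.c_lt]

/-- `W` is exponentially small at `-∞` -/
lemma W_exp (h : SPair c W V I k lam) : ∃ C, 0 < C ∧ ∀ x ≤ 0, W x ≤ C * Real.exp x ∧
    V x ≤ C * Real.exp x := by
  have hc := h.c_pos
  have hc1 := h.c_lt
  set C := Real.exp (2 / (1 - c)) with hC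
  have hC0 : 0 < C := Real.exp_pos _
  have hV : ∀ x ≤ 0, V x ≤ C * Real.exp x := fun x hx => by
    refine (V_le h hx).trans ?_
    rw [hC, ← Real.exp_add]
    apply Real.exp_le_exp.2
    have h3 : 0 < 1 - c := by linarith
    have h5 : 0 ≤ ((1 - c) / 2 * x + 1) ^ 2 * (2 / (1 - c)) := by positivity
    have h6 : ((1 - c) / 2 * x + 1) ^ 2 * (2 / (1 - c)) = (1 - c) / 2 * x ^ 2 + 2 * x + 2 / (1 - c) := by
      field_simp; ring
    linarith
  refine ⟨C, hC0, fun x hx => ⟨?_, hV x hx⟩⟩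
  have hd : ∀ x, HasDerivAt (fun x => W x - C * Real.exp x) (V x - C * Real.exp x) x := fun x =>
    (h.dW x).sub ((Real.hasDerivAt_exp x).const_mul C)
  have hanti : AntitoneOn (fun x => W x - C * Real.exp x) (Iic 0) := by
    apply antitoneOn_of_deriv_nonpos (convex_Iic 0)
    · exact fun w _ => (hd w).continuousAt.continuousWithinAt
    · exact fun w _ => (hd w).differentiableAt.differentiableWithinAt
    · intro w hw
      rw [interior_Iic] at hw
      rw [(hd w).deriv]
      linarith [hV w (le_of_lt hw)]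
  have hlim : Tendsto (fun x => W x - C * Real.exp x) atBot (𝓝 (0 - C * 0)) :=
    (tendsto_W h).sub (Real.tendsto_exp_atBot.const_mul C)
  have h1 : W x - C * Real.exp x ≤ 0 - C * 0 := by
    refine ge_of_tendsto hlim ?_
    filter_upwards [eventually_le_atBot x] with t ht
    exact hanti (mem_Iic.2 (ht.trans hx)) (mem_Iic.2 hx) ht
  linarith

lemma tendsto_x_exp : Tendsto (fun x : ℝ => x * Real.exp x) atBot (𝓝 0) := by
  have h1 := Real.tendsto_pow_mul_exp_neg_atTop_nhds_zero 1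
  have h2 := h1.comp tendsto_neg_atBot_atTop
  have h3 : Tendsto (fun x : ℝ => -(((fun x : ℝ => x ^ 1 * Real.exp (-x)) ∘ Neg.neg) x)) atBot
      (𝓝 (-0)) := h2.neg
  rw [neg_zero] at h3
  refine h3.congr fun x => ?_
  simp

/-- `A W → 0` at `-∞` -/
lemma tendsto_AW (h : SPair c W V I k lam) :
    Tendsto (fun x => Ad c W x * W x) atBot (𝓝 0) := by
  obtain ⟨C, hC, hW⟩ := W_exp h
  have hlim : Tendsto (fun x : ℝ => C * (Real.exp x - x * Real.exp x)) atBot (𝓝 (C * (0 - 0))) :=
    (Real.tendsto_exp_atBot.sub tendsto_x_exp).const_mul C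
  rw [sub_zero, mul_zero] at hlim
  refine squeeze_zero_norm' ?_ hlim
  filter_upwards [eventually_le_atBot (0 : ℝ)] with x hx
  have h1 := A_abs h x
  rw [Real.norm_eq_abs, abs_mul, abs_of_pos (h.W_pos x)]
  rw [abs_of_nonpos hx] at h1
  calc |Ad c W x| * W x ≤ (1 + -x) * (C * Real.exp x) :=
        mul_le_mul h1 (hW x hx).1 (h.W_pos x).le (by linarith)
    _ = C * (Real.exp x - x * Real.exp x) := by ring

lemma tendsto_V0 (h : SPair c W V I k lam) : Tendsto V atBot (𝓝 0) := by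
  obtain ⟨C, hC, hW⟩ := W_exp h
  have hlim : Tendsto (fun x : ℝ => C * Real.exp x) atBot (𝓝 (C * 0)) :=
    Real.tendsto_exp_atBot.const_mul C
  rw [mul_zero] at hlim
  refine squeeze_zero_norm' ?_ hlim
  filter_upwards [eventually_le_atBot (0 : ℝ)] with x hx
  rw [Real.norm_eq_abs, abs_of_pos (h.V_pos x)]
  exact (hW x hx).2

/-- `F = V + 2 A W` (`= V - a W`) -/
lemma dF (h : SPair c W V I k lam) (x : ℝ) :
    HasDerivAt (fun x => V x + 2 * (Ad c W x * W x)) ((2 + 2 * c * V x) * W x) x := by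
  refine ((h.dV x).add (((h.dA x).mul (h.dW x)).const_mul 2)).congr_deriv ?_
  rw [h.eqI]
  unfold Ad1
  ring

lemma tendsto_F (h : SPair c W V I k lam) :
    Tendsto (fun x => V x + 2 * (Ad c W x * W x)) atBot (𝓝 0) := by
  have := (tendsto_V0 h).add ((tendsto_AW h).const_mul 2)
  simpa using this

/-- **(L2)** `a W ≤ V` for every `x` -/
theorem aW_le_V (h : SPair c W V I k lam) (x : ℝ) : -2 * Ad c W x * W x ≤ V x := by
  have hm : Monotone fun x => V x + 2 * (Ad c W x * W x) := by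
    apply monotone_of_deriv_nonneg
    · exact fun x => (dF h x).differentiableAt
    · intro x
      rw [(dF h x).deriv]
      have h1 := h.V_pos x
      have h2 := h.c_pos
      have h3 := h.W_pos x
      positivity
  have h1 : (0 : ℝ) ≤ V x + 2 * (Ad c W x * W x) := by
    refine le_of_tendsto (tendsto_F h) ?_
    filter_upwards [eventually_le_atBot x] with t ht
    exact hm ht
  linarith

/-- **(L1)** `a V ≤ I ≤ (a + (1+c)/a) V` -/
theorem aV_le_I (h : SPair c W V I k lam) (x : ℝ) : -2 * Ad c W x * V x ≤ I x := by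
  rw [h.eqI]
  have := mul_pos (show 0 < 1 + c by linarith [h.c_pos]) (h.W_pos x)
  linarith

/-- **(L3)** `V ≤ a W + (2 + 2cV) W / a` -/
theorem V_le_aW (h : SPair c W V I k lam) {x : ℝ} (hx : Ad c W x < 0) :
    V x ≤ -2 * Ad c W x * W x + (2 + 2 * c * V x) * W x / (-2 * Ad c W x) := by
  have hc := h.c_pos
  set v0 := V x with hv0
  have hv : 0 < v0 := h.V_pos x
  have hA : ∀ y, y ≤ x → 0 < -2 * Ad c W y := fun y hy => by
    have := (A_mono h).monotone hy
    linarith
  have hd : ∀ y, y ≤ x → HasDerivAt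
      (fun y => (2 + 2 * c * v0) * W y / (-2 * Ad c W y) - (V y + 2 * (Ad c W y * W y)))
      (((2 + 2 * c * v0) * V y * (-2 * Ad c W y) - (2 + 2 * c * v0) * W y * (-2 * Ad1 c V y)) /
        (-2 * Ad c W y) ^ 2 - (2 + 2 * c * V y) * W y) y := fun y hy =>
    (((h.dW y).const_mul (2 + 2 * c * v0)).div ((h.dA y).const_mul (-2)) (hA y hy).ne').sub (dF h y)
  have hm : MonotoneOn
      (fun y => (2 + 2 * c * v0) * W y / (-2 * Ad c W y) - (V y + 2 * (Ad c W y * W y))) (Iic x) := by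
    apply monotoneOn_of_deriv_nonneg (convex_Iic x)
    · exact fun y hy => (hd y hy).continuousAt.continuousWithinAt
    · intro y hy
      rw [interior_Iic] at hy
      exact (hd y (le_of_lt hy)).differentiableAt.differentiableWithinAt
    · intro y hy
      rw [interior_Iic] at hy
      have hy' : y ≤ x := le_of_lt hy
      rw [(hd y hy').deriv]
      have ha := hA y hy'
      have h1 := aW_le_V h y
      have h2 := Ad1_pos h y
      have h3 : 0 < Ad1 c V y := by linarith [h.c_lt]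
      have h4 := h.W_pos y
      have h5 : V y ≤ v0 := h.V_strictMono.monotone hy'
      have h6 : (2 + 2 * c * V y) * W y ≤ (2 + 2 * c * v0) * W y := by
        apply mul_le_mul_of_nonneg_right _ h4.le
        nlinarith
      have h7 : (2 + 2 * c * v0) * W y ≤ ((2 + 2 * c * v0) * V y * (-2 * Ad c W y) -
          (2 + 2 * c * v0) * W y * (-2 * Ad1 c V y)) / (-2 * Ad c W y) ^ 2 := by
        rw [le_div_iff₀ (by positivity)]
        have h8 : 0 < 2 + 2 * c * v0 := by positivity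
        have h9 : (-2 * Ad c W y * W y) * (-2 * Ad c W y) ≤ V y * (-2 * Ad c W y) :=
          mul_le_mul_of_nonneg_right h1 ha.le
        have h10 : 0 ≤ W y * Ad1 c V y := mul_nonneg h4.le h3.le
        have h11 : (2 + 2 * c * v0) * ((-2 * Ad c W y * W y) * (-2 * Ad c W y)) ≤
            (2 + 2 * c * v0) * (V y * (-2 * Ad c W y) + 2 * (W y * Ad1 c V y)) :=
          mul_le_mul_of_nonneg_left (by linarith) h8.le
        nlinarith
      linarith
  have hlim : Tendsto
      (fun y => (2 + 2 * c * v0) * W y / (-2 * Ad c W y) - (V y + 2 * (Ad c W y * W y))) atBot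
      (𝓝 (0 - 0)) := by
    apply Tendsto.sub _ (tendsto_F h)
    have h1 : Tendsto (fun y => (2 + 2 * c * v0) / (-2 * Ad c W x) * W y) atBot (𝓝 0) := by
      have := (tendsto_W h).const_mul ((2 + 2 * c * v0) / (-2 * Ad c W x))
      simpa using this
    refine squeeze_zero_norm' ?_ h1
    filter_upwards [eventually_le_atBot x] with y hy
    have ha := hA y hy
    have hax := hA x le_rfl
    have h4 := h.W_pos y
    have h8 : 0 < 2 + 2 * c * v0 := by positivity
    rw [Real.norm_eq_abs, abs_of_pos (by positivity), div_mul_eq_mul_div]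
    apply div_le_div_of_nonneg_left (by positivity) hax
    have := (A_mono h).monotone hy
    linarith
  have h1 : (0 : ℝ) - 0 ≤ (2 + 2 * c * v0) * W x / (-2 * Ad c W x) -
      (V x + 2 * (Ad c W x * W x)) := by
    refine le_of_tendsto hlim ?_
    filter_upwards [eventually_le_atBot x] with t ht
    exact hm (mem_Iic.2 ht) (mem_Iic.2 le_rfl) ht
  rw [← hv0] at h1
  linarith

/-- **(L1')** `I ≤ (a + (1+c)/a) V` -/
theorem I_le_aV (h : SPair c W V I k lam) {x : ℝ} (hx : Ad c W x < 0) :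
    I x ≤ (-2 * Ad c W x + (1 + c) / (-2 * Ad c W x)) * V x := by
  have ha : 0 < -2 * Ad c W x := by linarith
  have h1 := aW_le_V h x
  have h2 : W x ≤ V x / (-2 * Ad c W x) := by rw [le_div_iff₀ ha]; linarith
  have h3 := mul_le_mul_of_nonneg_left h2 (show 0 ≤ 1 + c by linarith [h.c_pos])
  rw [h.eqI]
  have h4 : (1 + c) * (V x / (-2 * Ad c W x)) = (1 + c) / (-2 * Ad c W x) * V x := by ring
  rw [h4] at h3
  linarith

/-- growth of `a` -/
lemma a_ge (h : SPair c W V I k lam) {x : ℝ} (hx : x ≤ 0) :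
    (1 - c) * (-x) - 1 ≤ -2 * Ad c W x := by
  have h1 : W x ≤ 1 / 2 := (h.W_strictMono.monotone hx).trans (W0_le h)
  have h2 := h.c_pos
  have h3 := h.c_lt
  unfold Ad
  nlinarith [mul_nonneg h2.le (show 0 ≤ 1 / 2 - W x by linarith)]

/-- `k' = k² - a k + σ - 2cV` -/
lemma dkL (h : SPair c W V I k lam) (x : ℝ) : HasDerivAt k
    (k x ^ 2 - (-2 * Ad c W x) * k x + (2 * lam - (1 - c)) - 2 * c * V x) x := by
  refine (h.dk x).congr_deriv ?_
  unfold Ad1
  ring

/-- `k' = k² + α k - τ + 2cR` -/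
lemma dkR (h : SPair c W V I k lam) (x : ℝ) : HasDerivAt k
    (k x ^ 2 + (2 * Ad c W x) * k x - ((1 + c) - 2 * lam) + 2 * c * (1 - V x)) x := by
  refine (h.dk x).congr_deriv ?_
  unfold Ad1
  ring

/-- abstract left comparison for the Riccati equation: if `D' = (k + K - a) D + r`, `r ≤ 0` -/
lemma left_core (h : SPair c W V I k lam) {x1 : ℝ} {Kc r D : ℝ → ℝ} (hKc : Continuous Kc)
    {M : ℝ} (hKM : ∀ y, y ≤ x1 → Kc y ≤ M)
    (hD : ∀ y, y ≤ x1 → HasDerivAt D ((k y + Kc y - (-2 * Ad c W y)) * D y + r y) y)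
    (hr : ∀ y, y ≤ x1 → r y ≤ 0) {B : ℝ} (hb : ∀ y, y ≤ x1 → D y ≤ B) : D x1 ≤ 0 := by
  obtain ⟨K, hK0, hK, -⟩ := qs_le h
  have hc1 : 0 < 1 - c := by linarith [h.c_lt]
  set x2 : ℝ := min (min x1 0) (-((K + |M| + 2) / (1 - c))) with hx2
  have h21 : x2 ≤ x1 := (min_le_left _ _).trans (min_le_left _ _)
  have h20 : x2 ≤ 0 := (min_le_left _ _).trans (min_le_right _ _)
  have h2m : x2 ≤ -((K + |M| + 2) / (1 - c)) := min_le_right _ _
  have hgc : Continuous fun y => k y + Kc y - (-2 * Ad c W y) :=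
    (h.ck.add hKc).sub (continuous_const.mul (cA h))
  refine blowL (g := fun y => k y + Kc y - (-2 * Ad c W y)) hgc hD hr h21 ?_ hb
  intro y hy
  have h1 := a_ge h (hy.trans h20)
  have h2 : (K + |M| + 2) ≤ (1 - c) * (-y) := by
    have h3 : (K + |M| + 2) / (1 - c) ≤ -y := by linarith
    rw [div_le_iff₀ hc1] at h3
    linarith
  have h4 := hKM y (hy.trans h21)
  have h5 := le_abs_self M
  have h6 := hK y
  linarith

/-- **(L4)** `k ≤ σ/a` -/
theorem k_le_left (h : SPair c W V I k lam) (hl : lam ≤ 1 - c) {x : ℝ} (hx : Ad c W x < 0) :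
    k x ≤ (2 * lam - (1 - c)) / (-2 * Ad c W x) := by
  have hσ : 0 < 2 * lam - (1 - c) := by linarith [h.lam_gt]
  set σ := 2 * lam - (1 - c) with hσd
  have hA : ∀ y, y ≤ x → -2 * Ad c W x ≤ -2 * Ad c W y := fun y hy => by
    have := (A_mono h).monotone hy
    linarith
  have ha0 : 0 < -2 * Ad c W x := by linarith
  obtain ⟨K, hK0, hK, -⟩ := qs_le h
  have key := left_core h (x1 := x) (Kc := fun y => σ / max (-2 * Ad c W y) (-2 * Ad c W x))
    (r := fun y => (σ / (-2 * Ad c W y)) ^ 2 - 2 * c * V y - σ * (2 * Ad1 c V y) / (-2 * Ad c W y) ^ 2)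
    (D := fun y => k y - σ / (-2 * Ad c W y)) (M := σ / (-2 * Ad c W x)) (B := K) ?_ ?_ ?_ ?_ ?_
  · linarith
  · have hcA := cA h
    refine continuous_const.div (by fun_prop) fun y => ?_
    exact (ha0.trans_le (le_max_right _ _)).ne'
  · intro y hy
    exact div_le_div_of_nonneg_left hσ.le ha0 (le_max_right _ _)
  · intro y hy
    have hay : 0 < -2 * Ad c W y := ha0.trans_le (hA y hy)
    have hmax : max (-2 * Ad c W y) (-2 * Ad c W x) = -2 * Ad c W y := max_eq_left (hA y hy)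
    have h1 : HasDerivAt (fun y => σ / (-2 * Ad c W y)) (σ * (2 * Ad1 c V y) / (-2 * Ad c W y) ^ 2) y := by
      refine ((hasDerivAt_const y σ).div ((h.dA y).const_mul (-2)) hay.ne').congr_deriv ?_
      ring
    refine ((dkL h y).sub h1).congr_deriv ?_
    simp only [hmax]
    have h2 : σ / (-2 * Ad c W y) * (-2 * Ad c W y) = σ := div_mul_cancel₀ _ hay.ne'
    set a := -2 * Ad c W y with ha
    set q := σ / a with hq
    have h3 : (k y + q - a) * (k y - q) = k y ^ 2 - q ^ 2 - a * k y + q * a := by ring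
    rw [h3, h2]
    ring
  · intro y hy
    have hay : 0 < -2 * Ad c W y := ha0.trans_le (hA y hy)
    have h1 := h.V_pos y
    have h2 := h.c_pos
    have h3 : (σ / (-2 * Ad c W y)) ^ 2 - σ * (2 * Ad1 c V y) / (-2 * Ad c W y) ^ 2 =
        σ * (σ - 2 * Ad1 c V y) / (-2 * Ad c W y) ^ 2 := by
      field_simp
    have h4 : σ - 2 * Ad1 c V y ≤ 0 := by
      unfold Ad1
      rw [hσd]
      nlinarith [mul_pos h2 h1]
    have h5 : σ * (σ - 2 * Ad1 c V y) / (-2 * Ad c W y) ^ 2 ≤ 0 :=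
      div_nonpos_of_nonpos_of_nonneg (mul_nonpos_of_nonneg_of_nonpos hσ.le h4) (by positivity)
    have h6 : 0 < c * V y := mul_pos h2 h1
    linarith
  · intro y hy
    have hay : 0 < -2 * Ad c W y := ha0.trans_le (hA y hy)
    have : 0 < σ / (-2 * Ad c W y) := by positivity
    linarith [hK y]

/-- **(L5)** `(σ - 2cV - σ(1-c+2cV)/a²)/a ≤ k` -/
theorem le_k_left (h : SPair c W V I k lam) {x : ℝ} (hx : Ad c W x < 0) :
    ((2 * lam - (1 - c)) - 2 * c * V x - (2 * lam - (1 - c)) * (1 - c + 2 * c * V x) /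
      (-2 * Ad c W x) ^ 2) / (-2 * Ad c W x) ≤ k x := by
  have hσ : 0 < 2 * lam - (1 - c) := by linarith [h.lam_gt]
  set σ := 2 * lam - (1 - c) with hσd
  set v0 := V x with hv0
  have hc := h.c_pos
  have hc1 := h.c_lt
  have hv0p : 0 < v0 := h.V_pos x
  set δ := σ * (1 - c + 2 * c * v0) with hδ
  have hδ0 : 0 < δ := by
    have h1 : 0 < 1 - c := by linarith
    positivity
  have hA : ∀ y, y ≤ x → -2 * Ad c W x ≤ -2 * Ad c W y := fun y hy => by
    have := (A_mono h).monotone hy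
    linarith
  have ha0 : 0 < -2 * Ad c W x := by linarith
  have hcA := cA h
  have hcV := h.cV
  have key := left_core h (x1 := x)
    (Kc := fun y => (σ - 2 * c * V y - δ / (max (-2 * Ad c W y) (-2 * Ad c W x)) ^ 2) /
      max (-2 * Ad c W y) (-2 * Ad c W x))
    (r := fun y => (-(2 * c * I y) - δ * (4 * Ad1 c V y) / (-2 * Ad c W y) ^ 3) / (-2 * Ad c W y)
      + (σ - 2 * c * V y - δ / (-2 * Ad c W y) ^ 2) * (2 * Ad1 c V y) / (-2 * Ad c W y) ^ 2
      - ((σ - 2 * c * V y - δ / (-2 * Ad c W y) ^ 2) / (-2 * Ad c W y)) ^ 2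
      - δ / (-2 * Ad c W y) ^ 2)
    (D := fun y => (σ - 2 * c * V y - δ / (-2 * Ad c W y) ^ 2) / (-2 * Ad c W y) - k y)
    (M := σ / (-2 * Ad c W x)) (B := σ / (-2 * Ad c W x)) ?_ ?_ ?_ ?_ ?_
  · linarith
  · have hm : ∀ y, max (-2 * Ad c W y) (-2 * Ad c W x) ≠ 0 := fun y =>
      (ha0.trans_le (le_max_right _ _)).ne'
    refine Continuous.div ?_ (by fun_prop) hm
    refine Continuous.sub (by fun_prop) (continuous_const.div (by fun_prop) fun y => ?_)
    exact pow_ne_zero _ (hm y)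
  · intro y hy
    have hm : 0 < max (-2 * Ad c W y) (-2 * Ad c W x) := ha0.trans_le (le_max_right _ _)
    have h1 := h.V_pos y
    have h2 : 0 < δ / (max (-2 * Ad c W y) (-2 * Ad c W x)) ^ 2 := by positivity
    have h3 : 0 < c * V y := mul_pos hc h1
    calc _ ≤ σ / max (-2 * Ad c W y) (-2 * Ad c W x) := by
          apply div_le_div_of_nonneg_right _ hm.le
          linarith
      _ ≤ σ / (-2 * Ad c W x) := div_le_div_of_nonneg_left hσ.le ha0 (le_max_right _ _)
  · intro y hy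
    have hay : 0 < -2 * Ad c W y := ha0.trans_le (hA y hy)
    have hmax : max (-2 * Ad c W y) (-2 * Ad c W x) = -2 * Ad c W y := max_eq_left (hA y hy)
    have d1 : HasDerivAt (fun y => -2 * Ad c W y) (-2 * Ad1 c V y) y := (h.dA y).const_mul (-2)
    have d2 : HasDerivAt (fun y => δ / (-2 * Ad c W y) ^ 2)
        (δ * (4 * Ad1 c V y) / (-2 * Ad c W y) ^ 3) y := by
      refine (hasDerivAt_div_sq δ d1 hay.ne').congr_deriv ?_
      congr 1
      ring
    have d3 : HasDerivAt (fun y => σ - 2 * c * V y - δ / (-2 * Ad c W y) ^ 2)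
        (-(2 * c * I y) - δ * (4 * Ad1 c V y) / (-2 * Ad c W y) ^ 3) y :=
      (((h.dV y).const_mul (2 * c)).const_sub σ).sub d2
    have d4 := (d3.div d1 hay.ne').sub (dkL h y)
    refine d4.congr_deriv ?_
    simp only [hmax]
    set a := -2 * Ad c W y with ha
    have ha' : a ≠ 0 := hay.ne'
    set b := σ - 2 * c * V y - δ / a ^ 2 with hb
    set b' := -(2 * c * I y) - δ * (4 * Ad1 c V y) / a ^ 3 with hb'
    have e1 : (b' * a - b * (-2 * Ad1 c V y)) / a ^ 2 = b' / a + b * (2 * Ad1 c V y) / a ^ 2 := by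
      field_simp
      ring
    rw [e1]
    have e2 : (k y + b / a - a) * (b / a - k y) = (b / a) ^ 2 - k y ^ 2 - b / a * a + a * k y := by
      ring
    rw [e2, div_mul_cancel₀ b ha']
    have e3 : b = σ - 2 * c * V y - δ / a ^ 2 := hb
    linear_combination e3
  · intro y hy
    have hay : 0 < -2 * Ad c W y := ha0.trans_le (hA y hy)
    have hI := h.I_pos y
    have hV := h.V_pos y
    have hAd := Ad1_pos h y
    have hAd0 : 0 < Ad1 c V y := by linarith
    have hAd2 : 2 * Ad1 c V y ≤ 1 - c + 2 * c * v0 := by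
      have := h.V_strictMono.monotone hy
      unfold Ad1
      nlinarith
    set a := -2 * Ad c W y with ha
    set b := σ - 2 * c * V y - δ / a ^ 2 with hb
    have t1 : (-(2 * c * I y) - δ * (4 * Ad1 c V y) / a ^ 3) / a ≤ 0 := by
      apply div_nonpos_of_nonpos_of_nonneg _ hay.le
      have : 0 < δ * (4 * Ad1 c V y) / a ^ 3 := by positivity
      have : 0 < 2 * c * I y := by positivity
      linarith
    have t2 : b * (2 * Ad1 c V y) / a ^ 2 - (b / a) ^ 2 - δ / a ^ 2 =
        (b * (2 * Ad1 c V y) - b ^ 2 - δ) / a ^ 2 := by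
      field_simp
    have t3 : b * (2 * Ad1 c V y) - b ^ 2 - δ ≤ 0 := by
      rcases le_or_gt b 0 with hb0 | hb0
      · have : b * (2 * Ad1 c V y) ≤ 0 := mul_nonpos_of_nonpos_of_nonneg hb0 (by positivity)
        nlinarith [sq_nonneg b]
      · have hbσ : b ≤ σ := by
          have : 0 < δ / a ^ 2 := by positivity
          have : 0 < 2 * c * V y := by positivity
          rw [hb]; linarith
        have : b * (2 * Ad1 c V y) ≤ σ * (1 - c + 2 * c * v0) :=
          mul_le_mul hbσ hAd2 (by positivity) hσ.le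
        nlinarith [sq_nonneg b]
    have t4 : (b * (2 * Ad1 c V y) - b ^ 2 - δ) / a ^ 2 ≤ 0 :=
      div_nonpos_of_nonpos_of_nonneg t3 (by positivity)
    linarith
  · intro y hy
    have hay : 0 < -2 * Ad c W y := ha0.trans_le (hA y hy)
    have hV := h.V_pos y
    have hk := h.k_pos y
    have h1 : (σ - 2 * c * V y - δ / (-2 * Ad c W y) ^ 2) / (-2 * Ad c W y) ≤ σ / (-2 * Ad c W y) := by
      apply div_le_div_of_nonneg_right _ hay.le
      have : 0 < δ / (-2 * Ad c W y) ^ 2 := by positivity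
      have : 0 < 2 * c * V y := by positivity
      linarith
    have h2 : σ / (-2 * Ad c W y) ≤ σ / (-2 * Ad c W x) :=
      div_le_div_of_nonneg_left hσ.le ha0 (hA y hy)
    linarith

/-- derivative of `k` (the right side of `SPair.dk`) -/
noncomputable def k1 (c : ℝ) (W V k : ℝ → ℝ) (lam x : ℝ) : ℝ :=
  k x ^ 2 + 2 * Ad c W x * k x - 2 * Ad1 c V x + 2 * lam

/-- **(L6)** lower bound of `k'` -/
theorem le_k1_left (h : SPair c W V I k lam) (hl : lam ≤ 1 - c) {x : ℝ} (hx : Ad c W x < 0) :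
    k x ^ 2 - 2 * c * V x ≤ k1 c W V k lam x := by
  have ha0 : 0 < -2 * Ad c W x := by linarith
  have h1 := k_le_left h hl hx
  rw [le_div_iff₀ ha0] at h1
  unfold k1 Ad1
  nlinarith

/-- **(L6')** upper bound of `k'` -/
theorem k1_le_left (h : SPair c W V I k lam) {x : ℝ} (hx : Ad c W x < 0) :
    k1 c W V k lam x ≤ k x ^ 2 + (2 * lam - (1 - c)) * (1 - c + 2 * c * V x) / (-2 * Ad c W x) ^ 2 := by
  have ha0 : 0 < -2 * Ad c W x := by linarith
  have h1 := le_k_left h hx
  rw [div_le_iff₀ ha0] at h1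
  unfold k1 Ad1
  nlinarith

/-! ### right tail -/

/-- **(R1)** -/
theorem I_eq (h : SPair c W V I k lam) (x : ℝ) :
    I x = (1 - c) * (W x - x) + 2 * Ad c W x * (1 - V x) := by
  rw [h.eqI]; unfold Ad; ring

/-- `F = R - αU` -/
lemma dFR (h : SPair c W V I k lam) (x : ℝ) :
    HasDerivAt (fun x => (1 - V x) - 2 * (Ad c W x * (W x - x)))
      (-((2 - 2 * c * (1 - V x)) * (W x - x))) x := by
  have hU : HasDerivAt (fun x => W x - x) (V x - 1) x := (h.dW x).sub (hasDerivAt_id x)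
  refine (((h.dV x).const_sub 1).sub (((h.dA x).mul hU).const_mul 2)).congr_deriv ?_
  rw [I_eq h]
  unfold Ad1
  ring

lemma tendsto_R0 (h : SPair c W V I k lam) : Tendsto (fun x => 1 - V x) atTop (𝓝 0) := by
  have hlim : Tendsto (fun x : ℝ => Real.exp (-x)) atTop (𝓝 0) :=
    Real.tendsto_exp_atBot.comp tendsto_neg_atTop_atBot
  refine squeeze_zero_norm' ?_ hlim
  filter_upwards [eventually_ge_atTop (2 : ℝ)] with x hx
  have h1 : 0 < 1 - V x := by linarith [h.V_lt x]
  rw [Real.norm_eq_abs, abs_of_pos h1]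
  refine (R_le h (show 0 ≤ x by linarith)).trans ?_
  apply Real.exp_le_exp.2
  nlinarith [h.c_pos, mul_nonneg h.c_pos.le (sq_nonneg x)]

lemma tendsto_AU (h : SPair c W V I k lam) :
    Tendsto (fun x => Ad c W x * (W x - x)) atTop (𝓝 0) := by
  have h1 := Real.tendsto_pow_mul_exp_neg_atTop_nhds_zero 1
  have h0 : Tendsto (fun x : ℝ => Real.exp (-x)) atTop (𝓝 0) :=
    Real.tendsto_exp_atBot.comp tendsto_neg_atTop_atBot
  have hlim : Tendsto (fun x : ℝ => Real.exp (-x) + x ^ 1 * Real.exp (-x)) atTop (𝓝 (0 + 0)) :=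
    h0.add h1
  rw [add_zero] at hlim
  refine squeeze_zero_norm' ?_ hlim
  filter_upwards [eventually_ge_atTop (2 : ℝ)] with x hx
  have h2 : 0 < W x - x := by linarith [h.U_pos x]
  have h3 := A_abs h x
  have hx0 : 0 ≤ x := by linarith
  rw [abs_of_nonneg hx0] at h3
  rw [Real.norm_eq_abs, abs_mul, abs_of_pos h2]
  have h4 : W x - x ≤ Real.exp (-x) := by
    refine (U_le h hx0).trans ?_
    apply Real.exp_le_exp.2
    nlinarith
  calc |Ad c W x| * (W x - x) ≤ (1 + x) * Real.exp (-x) :=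
        mul_le_mul h3 h4 h2.le (by linarith)
    _ = _ := by ring

lemma tendsto_FR (h : SPair c W V I k lam) :
    Tendsto (fun x => (1 - V x) - 2 * (Ad c W x * (W x - x))) atTop (𝓝 0) := by
  have := (tendsto_R0 h).sub ((tendsto_AU h).const_mul 2)
  simpa using this

/-- **(R2)** `α U ≤ R` for every `x` -/
theorem aU_le_R (h : SPair c W V I k lam) (x : ℝ) : 2 * Ad c W x * (W x - x) ≤ 1 - V x := by
  have hm : Antitone fun x => (1 - V x) - 2 * (Ad c W x * (W x - x)) := by
    apply antitone_of_deriv_nonpos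
    · exact fun x => (dFR h x).differentiableAt
    · intro x
      rw [(dFR h x).deriv]
      have h1 := h.V_pos x
      have h2 := h.c_pos
      have h3 := h.U_pos x
      have h4 : 0 < 2 - 2 * c * (1 - V x) := by nlinarith [h.c_lt, h.V_lt x]
      have := mul_pos h4 (sub_pos.2 h3)
      linarith
  have h1 : (0 : ℝ) ≤ (1 - V x) - 2 * (Ad c W x * (W x - x)) := by
    refine le_of_tendsto (tendsto_FR h) ?_
    filter_upwards [eventually_ge_atTop x] with t ht
    exact hm ht
  linarith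


/-- abstract right comparison -/
lemma right_core (h : SPair c W V I k lam) {x1 : ℝ} {Kc r D : ℝ → ℝ} (hKc : Continuous Kc)
    {M : ℝ} (hKM : ∀ y, x1 ≤ y → M ≤ Kc y)
    (hD : ∀ y, x1 ≤ y → HasDerivAt D ((k y + Kc y + 2 * Ad c W y) * D y + r y) y)
    (hr : ∀ y, x1 ≤ y → 0 ≤ r y) {B : ℝ} (hb : ∀ y, x1 ≤ y → D y ≤ B) : D x1 ≤ 0 := by
  have hc := h.c_pos
  set x2 : ℝ := max (max x1 0) (|M| + 1) with hx2
  have h21 : x1 ≤ x2 := (le_max_left _ _).trans (le_max_left _ _)
  have h20 : 0 ≤ x2 := (le_max_right _ _).trans (le_max_left _ _)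
  have h2m : |M| + 1 ≤ x2 := le_max_right _ _
  have hgc : Continuous fun y => k y + Kc y + 2 * Ad c W y :=
    (h.ck.add hKc).add (continuous_const.mul (cA h))
  refine blowR (g := fun y => k y + Kc y + 2 * Ad c W y) hgc hD hr h21 ?_ hb
  intro y hy
  have h4 := hKM y (h21.trans hy)
  have h5 := neg_abs_le M
  have h6 := h.k_pos y
  have h7 : y ≤ 2 * Ad c W y := by
    have h8 := h.U_pos y
    have h9 := mul_pos hc (sub_pos.2 h8)
    have h10 := mul_nonneg hc.le (h20.trans hy)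
    unfold Ad
    linarith
  linarith

/-- **(R4)** `k ≤ τ/α` -/
theorem k_le_right (h : SPair c W V I k lam) {x : ℝ} (hx : 0 < Ad c W x) :
    k x ≤ ((1 + c) - 2 * lam) / (2 * Ad c W x) := by
  have hτ : 0 < (1 + c) - 2 * lam := by linarith [h.lam_lt]
  set τ := (1 + c) - 2 * lam with hτd
  have hA : ∀ y, x ≤ y → 2 * Ad c W x ≤ 2 * Ad c W y := fun y hy => by
    have := (A_mono h).monotone hy
    linarith
  have ha0 : 0 < 2 * Ad c W x := by linarith
  obtain ⟨K, hK0, hK, -⟩ := qs_le h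
  have key := right_core h (x1 := x) (Kc := fun y => τ / max (2 * Ad c W y) (2 * Ad c W x))
    (r := fun y => (τ / (2 * Ad c W y)) ^ 2 + 2 * c * (1 - V y) + τ * (2 * Ad1 c V y) / (2 * Ad c W y) ^ 2)
    (D := fun y => k y - τ / (2 * Ad c W y)) (M := 0) (B := K) ?_ ?_ ?_ ?_ ?_
  · linarith
  · have hcA := cA h
    refine continuous_const.div (by fun_prop) fun y => ?_
    exact (ha0.trans_le (le_max_right _ _)).ne'
  · intro y hy
    have : 0 < max (2 * Ad c W y) (2 * Ad c W x) := ha0.trans_le (le_max_right _ _)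
    positivity
  · intro y hy
    have hay : 0 < 2 * Ad c W y := ha0.trans_le (hA y hy)
    have hmax : max (2 * Ad c W y) (2 * Ad c W x) = 2 * Ad c W y := max_eq_left (hA y hy)
    have h1 : HasDerivAt (fun y => τ / (2 * Ad c W y)) (-(τ * (2 * Ad1 c V y)) / (2 * Ad c W y) ^ 2) y := by
      refine ((hasDerivAt_const y τ).div ((h.dA y).const_mul 2) hay.ne').congr_deriv ?_
      ring
    refine ((dkR h y).sub h1).congr_deriv ?_
    simp only [hmax]
    have h2 : τ / (2 * Ad c W y) * (2 * Ad c W y) = τ := div_mul_cancel₀ _ hay.ne'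
    set a := 2 * Ad c W y with ha
    set q := τ / a with hq
    have h3 : (k y + q + a) * (k y - q) = k y ^ 2 - q ^ 2 + a * k y - q * a := by ring
    rw [h3, h2]
    ring
  · intro y hy
    have hay : 0 < 2 * Ad c W y := ha0.trans_le (hA y hy)
    have h1 : 0 < 1 - V y := by linarith [h.V_lt y]
    have h2 := h.c_pos
    have h3 := Ad1_pos h y
    have h4 : 0 < Ad1 c V y := by linarith [h.c_lt]
    positivity
  · intro y hy
    have hay : 0 < 2 * Ad c W y := ha0.trans_le (hA y hy)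
    have : 0 < τ / (2 * Ad c W y) := by positivity
    linarith [hK y]

/-- **(R5)** `(τ - 2cR - τ(τ+1+c)/α²)/α ≤ k` -/
theorem le_k_right (h : SPair c W V I k lam) {x : ℝ} (hx : 0 < Ad c W x) :
    (((1 + c) - 2 * lam) - 2 * c * (1 - V x) - ((1 + c) - 2 * lam) * (((1 + c) - 2 * lam) + 1 + c) /
      (2 * Ad c W x) ^ 2) / (2 * Ad c W x) ≤ k x := by
  have hτ : 0 < (1 + c) - 2 * lam := by linarith [h.lam_lt]
  set τ := (1 + c) - 2 * lam with hτd
  have hc := h.c_pos
  have hc1 := h.c_lt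
  set δ := τ * (τ + 1 + c) with hδ
  have hδ0 : 0 < δ := by positivity
  have hA : ∀ y, x ≤ y → 2 * Ad c W x ≤ 2 * Ad c W y := fun y hy => by
    have := (A_mono h).monotone hy
    linarith
  have ha0 : 0 < 2 * Ad c W x := by linarith
  have hcA := cA h
  have hcV := h.cV
  rcases le_or_gt (τ - 2 * c * (1 - V x) - δ / (2 * Ad c W x) ^ 2) 0 with hneg | hpos
  · exact (div_nonpos_of_nonpos_of_nonneg hneg ha0.le).trans (h.k_pos x).le
  -- positivity of the numerator on `[x,∞)`
  have hbp : ∀ y, x ≤ y → 0 < τ - 2 * c * (1 - V y) - δ / (2 * Ad c W y) ^ 2 := fun y hy => by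
    have h1 := h.V_strictMono.monotone hy
    have h2 := hA y hy
    have h3 : δ / (2 * Ad c W y) ^ 2 ≤ δ / (2 * Ad c W x) ^ 2 :=
      div_le_div_of_nonneg_left hδ0.le (by positivity) (pow_le_pow_left₀ ha0.le h2 2)
    nlinarith
  have key := right_core h (x1 := x)
    (Kc := fun y => (τ - 2 * c * (1 - V y) - δ / (max (2 * Ad c W y) (2 * Ad c W x)) ^ 2) /
      max (2 * Ad c W y) (2 * Ad c W x))
    (r := fun y => (2 * c * I y + δ * (4 * Ad1 c V y) / (2 * Ad c W y) ^ 3) / (2 * Ad c W y)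
      - (τ - 2 * c * (1 - V y) - δ / (2 * Ad c W y) ^ 2) * (2 * Ad1 c V y) / (2 * Ad c W y) ^ 2
      - ((τ - 2 * c * (1 - V y) - δ / (2 * Ad c W y) ^ 2) / (2 * Ad c W y)) ^ 2
      + δ / (2 * Ad c W y) ^ 2)
    (D := fun y => (τ - 2 * c * (1 - V y) - δ / (2 * Ad c W y) ^ 2) / (2 * Ad c W y) - k y)
    (M := 0) (B := τ / (2 * Ad c W x)) ?_ ?_ ?_ ?_ ?_
  · linarith
  · have hm : ∀ y, max (2 * Ad c W y) (2 * Ad c W x) ≠ 0 := fun y =>
      (ha0.trans_le (le_max_right _ _)).ne'
    refine Continuous.div ?_ (by fun_prop) hm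
    refine Continuous.sub (by fun_prop) (continuous_const.div (by fun_prop) fun y => ?_)
    exact pow_ne_zero _ (hm y)
  · intro y hy
    have hmax : max (2 * Ad c W y) (2 * Ad c W x) = 2 * Ad c W y := max_eq_left (hA y hy)
    have hay : 0 < 2 * Ad c W y := ha0.trans_le (hA y hy)
    simp only [hmax]
    exact (div_pos (hbp y hy) hay).le
  · intro y hy
    have hay : 0 < 2 * Ad c W y := ha0.trans_le (hA y hy)
    have hmax : max (2 * Ad c W y) (2 * Ad c W x) = 2 * Ad c W y := max_eq_left (hA y hy)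
    have d1 : HasDerivAt (fun y => 2 * Ad c W y) (2 * Ad1 c V y) y := (h.dA y).const_mul 2
    have d2 : HasDerivAt (fun y => δ / (2 * Ad c W y) ^ 2)
        (-(δ * (4 * Ad1 c V y) / (2 * Ad c W y) ^ 3)) y := by
      refine (hasDerivAt_div_sq δ d1 hay.ne').congr_deriv ?_
      rw [← neg_div]
      congr 1
      ring
    have d3 : HasDerivAt (fun y => τ - 2 * c * (1 - V y) - δ / (2 * Ad c W y) ^ 2)
        (2 * c * I y + δ * (4 * Ad1 c V y) / (2 * Ad c W y) ^ 3) y := by
      refine (((((h.dV y).const_sub 1).const_mul (2 * c)).const_sub τ).sub d2).congr_deriv ?_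
      ring
    have d4 := (d3.div d1 hay.ne').sub (dkR h y)
    refine d4.congr_deriv ?_
    simp only [hmax]
    set a := 2 * Ad c W y with ha
    have ha' : a ≠ 0 := hay.ne'
    set b := τ - 2 * c * (1 - V y) - δ / a ^ 2 with hb
    set b' := 2 * c * I y + δ * (4 * Ad1 c V y) / a ^ 3 with hb'
    have e1 : (b' * a - b * (2 * Ad1 c V y)) / a ^ 2 = b' / a - b * (2 * Ad1 c V y) / a ^ 2 := by
      field_simp
    rw [e1]
    have e2 : (k y + b / a + a) * (b / a - k y) = (b / a) ^ 2 - k y ^ 2 + b / a * a - a * k y := by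
      ring
    rw [e2, div_mul_cancel₀ b ha']
    have e3 : b = τ - 2 * c * (1 - V y) - δ / a ^ 2 := hb
    linear_combination (-1 : ℝ) * e3
  · intro y hy
    have hay : 0 < 2 * Ad c W y := ha0.trans_le (hA y hy)
    have hI := h.I_pos y
    have hR : 0 < 1 - V y := by linarith [h.V_lt y]
    have hAd := Ad1_pos h y
    have hAd0 : 0 < Ad1 c V y := by linarith
    have hAd2 := Ad1_lt h y
    have hb0 := hbp y hy
    set a := 2 * Ad c W y with ha
    set b := τ - 2 * c * (1 - V y) - δ / a ^ 2 with hb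
    have t1 : 0 ≤ (2 * c * I y + δ * (4 * Ad1 c V y) / a ^ 3) / a := by positivity
    have t2 : - (b * (2 * Ad1 c V y)) / a ^ 2 - (b / a) ^ 2 + δ / a ^ 2 =
        (δ - b * (2 * Ad1 c V y) - b ^ 2) / a ^ 2 := by
      field_simp
      ring
    have t3 : 0 ≤ δ - b * (2 * Ad1 c V y) - b ^ 2 := by
      have hbτ : b ≤ τ := by
        have : 0 < δ / a ^ 2 := by positivity
        have : 0 < 2 * c * (1 - V y) := by positivity
        rw [hb]; linarith
      have h1 : b * (2 * Ad1 c V y) ≤ τ * (1 + c) :=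
        mul_le_mul hbτ (by linarith) (by positivity) hτ.le
      have h2 : b ^ 2 ≤ τ ^ 2 := pow_le_pow_left₀ hb0.le hbτ 2
      rw [hδ]
      nlinarith
    have t4 : 0 ≤ (δ - b * (2 * Ad1 c V y) - b ^ 2) / a ^ 2 := by positivity
    have t5 : - (b * (2 * Ad1 c V y)) / a ^ 2 = -(b * (2 * Ad1 c V y) / a ^ 2) := neg_div _ _
    rw [t5] at t2
    linarith
  · intro y hy
    have hay : 0 < 2 * Ad c W y := ha0.trans_le (hA y hy)
    have hR : 0 < 1 - V y := by linarith [h.V_lt y]
    have hk := h.k_pos y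
    have h1 : (τ - 2 * c * (1 - V y) - δ / (2 * Ad c W y) ^ 2) / (2 * Ad c W y) ≤ τ / (2 * Ad c W y) := by
      apply div_le_div_of_nonneg_right _ hay.le
      have : 0 < δ / (2 * Ad c W y) ^ 2 := by positivity
      have : 0 < 2 * c * (1 - V y) := by positivity
      linarith
    have h2 : τ / (2 * Ad c W y) ≤ τ / (2 * Ad c W x) :=
      div_le_div_of_nonneg_left hτ.le ha0 (hA y hy)
    linarith

/-- **(R6)** upper bound of `k'` -/
theorem k1_le_right (h : SPair c W V I k lam) {x : ℝ} (hx : 0 < Ad c W x) :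
    k1 c W V k lam x ≤ k x ^ 2 + 2 * c * (1 - V x) := by
  have ha0 : 0 < 2 * Ad c W x := by linarith
  have h1 := k_le_right h hx
  rw [le_div_iff₀ ha0] at h1
  unfold k1 Ad1
  nlinarith

/-- **(R6')** lower bound of `k'` -/
theorem le_k1_right (h : SPair c W V I k lam) {x : ℝ} (hx : 0 < Ad c W x) :
    k x ^ 2 - ((1 + c) - 2 * lam) * (((1 + c) - 2 * lam) + 1 + c) / (2 * Ad c W x) ^ 2 ≤
      k1 c W V k lam x := by
  have ha0 : 0 < 2 * Ad c W x := by linarith
  have h1 := le_k_right h hx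
  rw [div_le_iff₀ ha0] at h1
  unfold k1 Ad1
  nlinarith

end Crest.Agent.R146.TailK_445
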