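import Crest.Agent.R146.Stat9_307
import Crest.Agent.R146.TailK_445

/-!
# Row 146, NUMREF, facts about the exact dual function of the closed pair (helper924)

For `h : SPair c W V I k c` (`λ = c`), `R = 1 - V`, `U = W - ξ`:
`H = (V R k + I R - (1-c) U V)/2 = -G₀`.

* `dH`      : `H' = k H - I² + 2 c V R²`;
* `N_pos`   : `k R < (1-c) U`, hence `H_lt : H < I R / 2`;
* `IW_lt`   : `I W < V²` (log-concavity of `W`; every SPair);
* `H_pos`   : `0 < H` (for `1/3 ≤ c`);
* other forms of `H`.
-/

set_option autoImplicit false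

namespace Crest.Agent.R146.HFact_924

open Set Filter Topology
open Crest.Agent.R146.SPair_307 Crest.Agent.R146.Stat7_307 Crest.Agent.R146.Stat8_307
open Crest.Agent.R146.Stat9_307

variable {c lam : ℝ} {W V I k : ℝ → ℝ}

/-- `H = -G₀` -/
noncomputable def HH (c : ℝ) (W V I k : ℝ → ℝ) (x : ℝ) : ℝ :=
  (V x * (1 - V x) * k x + I x * (1 - V x) - (1 - c) * (W x - x) * V x) / 2

/-- **(F1)** `I = 2 A R + (1-c) U` -/
lemma F1 (h : SPair c W V I k lam) (x : ℝ) :
    I x = 2 * Ad c W x * (1 - V x) + (1 - c) * (W x - x) := by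
  rw [h.eqI]; unfold Ad; ring

/-- `I = (1+c) R W + (1-c) U V` -/
lemma F1' (h : SPair c W V I k lam) (x : ℝ) :
    I x = (1 + c) * (1 - V x) * W x + (1 - c) * (W x - x) * V x := by
  rw [h.eqI]; unfold Ad; ring

/-- form used on the left: `H = ((1+c) R² W + k V R - (1-c) V² U)/2` -/
lemma H_left (h : SPair c W V I k lam) (x : ℝ) :
    HH c W V I k x = ((1 + c) * (1 - V x) ^ 2 * W x + k x * V x * (1 - V x)
      - (1 - c) * V x ^ 2 * (W x - x)) / 2 := by
  unfold HH
  rw [F1' h]
  ring


/-- `H = (A + k/2) V R - (V - 1/2) I` -/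
lemma H_A (h : SPair c W V I k lam) (x : ℝ) :
    HH c W V I k x = (Ad c W x + k x / 2) * (V x * (1 - V x)) - (V x - 1 / 2) * I x := by
  rw [H_left h, h.eqI]
  unfold Ad
  ring

/-- **(i)** the equation of `H` -/
theorem dH (h : SPair c W V I k c) (x : ℝ) :
    HasDerivAt (HH c W V I k) (k x * HH c W V I k x - I x ^ 2
      + 2 * c * (V x * (1 - V x) ^ 2)) x := by
  have hV := h.dV x
  have hI := h.dI x
  have hk := h.dk x
  have hW := h.dW x
  have e1 : HasDerivAt (fun x => V x * (1 - V x)) (I x * (1 - V x) + V x * (-(I x))) x :=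
    hV.mul (hV.const_sub 1)
  have e2 : HasDerivAt (fun x => (1 - c) * (W x - x)) ((1 - c) * (V x - 1)) x :=
    ((hW.sub (hasDerivAt_id x)).const_mul (1 - c))
  have e3 := ((((e1.mul hk).add (hI.mul (hV.const_sub 1))).sub (e2.mul hV)).div_const 2)
  have hfun : HH c W V I k = fun x => (V x * (1 - V x) * k x + I x * (1 - V x)
      - (1 - c) * (W x - x) * V x) / 2 := rfl
  rw [hfun]
  refine e3.congr_deriv ?_
  have hF := F1 h x
  unfold Ad1
  have key : (I x - 2 * Ad c W x * (1 - V x) - (1 - c) * (W x - x)) = 0 := by linarith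
  have key2 : (I x - V x * k x) * (I x - 2 * Ad c W x * (1 - V x) - (1 - c) * (W x - x)) = 0 := by
    rw [key, mul_zero]
  linarith [key2]

/-- `q H` is 307's boundary functional -/
lemma Ph_eq (h : SPair c W V I k lam) (x : ℝ) : Ph c W V I k x = qs k x * HH c W V I k x := by
  rw [H_A h]
  unfold Ph
  ring

/-- `N = (1-c) U - k R` -/
lemma dN (h : SPair c W V I k c) (x : ℝ) :
    HasDerivAt (fun x => (1 - c) * (W x - x) - k x * (1 - V x))
      (k x * ((1 - c) * (W x - x) - k x * (1 - V x)) - 2 * c * (1 - V x) ^ 2) x := by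
  have e2 : HasDerivAt (fun x => (1 - c) * (W x - x)) ((1 - c) * (V x - 1)) x :=
    (((h.dW x).sub (hasDerivAt_id x)).const_mul (1 - c))
  refine (e2.sub ((h.dk x).mul ((h.dV x).const_sub 1))).congr_deriv ?_
  unfold Ad1
  have hF := F1 h x
  have key : k x * (I x - 2 * Ad c W x * (1 - V x) - (1 - c) * (W x - x)) = 0 := by
    rw [show I x - 2 * Ad c W x * (1 - V x) - (1 - c) * (W x - x) = 0 by linarith, mul_zero]
  linarith [key]

lemma qs_anti (h : SPair c W V I k lam) : Antitone (qs k) := by
  apply antitone_of_deriv_nonpos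
  · exact fun x => (dqs h x).differentiableAt
  · intro x
    rw [(dqs h x).deriv]
    have := mul_pos (h.k_pos x) (qs_pos k x)
    linarith

/-- **(F2)** `k R < (1-c) U` -/
theorem N_pos (h : SPair c W V I k c) (x : ℝ) : k x * (1 - V x) < (1 - c) * (W x - x) := by
  set N : ℝ → ℝ := fun x => (1 - c) * (W x - x) - k x * (1 - V x) with hN
  have hd : ∀ x, HasDerivAt (fun x => qs k x * N x) (-(2 * c * (qs k x * (1 - V x) ^ 2))) x :=
    fun x => by
      refine ((dqs h x).mul (dN h x)).congr_deriv ?_
      ring
  have hanti : StrictAnti fun x => qs k x * N x := by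
    apply strictAnti_of_deriv_neg
    intro y
    rw [(hd y).deriv]
    have h1 : 0 < 1 - V y := by linarith [h.V_lt y]
    have h2 := qs_pos k y
    have h3 := h.c_pos
    have : 0 < 2 * c * (qs k y * (1 - V y) ^ 2) := by positivity
    linarith
  have hlim : Tendsto (fun x => qs k x * N x) atTop (𝓝 0) := by
    obtain ⟨C, hC⟩ := h.k_bdd
    have hU := tendsto_U h
    have hR := TailK_445.tendsto_R0 h
    have hC0 : 0 ≤ C := (h.k_pos 0).le.trans (hC 0)
    have hb : ∀ᶠ x in atTop, ‖qs k x * N x‖ ≤ qs k 0 * ((1 - c) * (W x - x) + C * (1 - V x)) := by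
      filter_upwards [eventually_ge_atTop 0] with x hx
      have h1 := qs_anti h hx
      have h2 := qs_pos k x
      have h3 := h.U_pos x
      have h4 := h.V_lt x
      have h5 := h.k_pos x
      have h6 := hC x
      have h7 := h.c_lt
      have h8 : |N x| ≤ (1 - c) * (W x - x) + C * (1 - V x) := by
        have a1 : 0 ≤ (1 - c) * (W x - x) := mul_nonneg (by linarith) (by linarith)
        have a2 : 0 ≤ k x * (1 - V x) := mul_nonneg h5.le (by linarith)
        have a3 : k x * (1 - V x) ≤ C * (1 - V x) := mul_le_mul_of_nonneg_right h6 (by linarith)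
        simp only [hN]
        rw [abs_le]
        constructor <;> linarith
      rw [norm_mul, Real.norm_eq_abs, Real.norm_eq_abs, abs_of_pos h2]
      exact mul_le_mul h1 h8 (abs_nonneg _) (qs_pos k 0).le
    refine squeeze_zero_norm' hb ?_
    have := ((hU.const_mul (1 - c)).add (hR.const_mul C)).const_mul (qs k 0)
    simpa using this
  have hpos : 0 < qs k x * N x := by
    have h1 := hanti (show x < x + 1 by linarith)
    have h2 : 0 ≤ qs k (x + 1) * N (x + 1) :=
      le_of_tendsto hlim (by
        filter_upwards [eventually_ge_atTop (x + 1)] with y hy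
        exact hanti.antitone hy)
    exact h2.trans_lt h1
  have h3 := (pos_iff_pos_of_mul_pos hpos).1 (qs_pos k x)
  simp only [hN] at h3
  linarith

/-- `H = (I R - V N)/2 < I R / 2` -/
theorem H_lt (h : SPair c W V I k c) (x : ℝ) : HH c W V I k x < I x * (1 - V x) / 2 := by
  have h1 := N_pos h x
  have h2 := h.V_pos x
  unfold HH
  nlinarith

/-- **log-concavity of `W`** : `I W < V²` (every stationary pair) -/
theorem IW_lt (h : SPair c W V I k lam) (x : ℝ) : I x * W x < V x ^ 2 := by
  set th : ℝ → ℝ := fun x => V x ^ 2 - I x * W x with hth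
  have hd : ∀ x, HasDerivAt th (-2 * Ad c W x * th x + W x * V x * (1 + c - 2 * c * (1 - V x))) x :=
    fun x => by
      refine (((h.dV x).pow 2).sub ((h.dI x).mul (h.dW x))).congr_deriv ?_
      simp only [hth]
      rw [h.eqI]
      push_cast
      ring
  have hd2 : ∀ x, HasDerivAt (fun x => mm c W x * th x)
      (mm c W x * (W x * V x * (1 + c - 2 * c * (1 - V x)))) x := fun x => by
    refine ((dmm h x).mul (hd x)).congr_deriv ?_
    ring
  have hmono : StrictMono fun x => mm c W x * th x := by
    apply strictMono_of_deriv_pos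
    intro y
    rw [(hd2 y).deriv]
    have h1 := mm_pos (c := c) (W := W) y
    have h2 := h.W_pos y
    have h3 := h.V_pos y
    have h4 := h.c_lt
    have h5 := h.c_pos
    have h6 : 0 < 1 + c - 2 * c * (1 - V y) := by nlinarith
    positivity
  have hlim : Tendsto (fun x => mm c W x * th x) atBot (𝓝 0) := by
    have hV0 := TailK_445.tendsto_V0 h
    have hW0 := tendsto_W h
    have hb : ∀ᶠ x in atBot, ‖mm c W x * th x‖ ≤ V x + I 0 * W x := by
      filter_upwards [eventually_le_atBot 0] with x hx
      have a1 := mono_mV h hx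
      have a2 := mono_mI h hx
      simp only [mm_zero, one_mul] at a1 a2
      have h1 := mm_pos (c := c) (W := W) x
      have h2 := h.W_pos x
      have h3 := h.V_pos x
      have h4 := h.I_pos x
      have h5 := h.V_lt 0
      have b1 : mm c W x * V x * V x ≤ V x := by nlinarith
      have b2 : mm c W x * I x * W x ≤ I 0 * W x := mul_le_mul_of_nonneg_right a2 h2.le
      have b3 : 0 ≤ mm c W x * V x * V x := by positivity
      have b4 : 0 ≤ mm c W x * I x * W x := by positivity
      have e : mm c W x * th x = mm c W x * V x * V x - mm c W x * I x * W x := by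
        simp only [hth]; ring
      rw [Real.norm_eq_abs, e, abs_le]
      constructor <;> linarith
    refine squeeze_zero_norm' hb ?_
    have := hV0.add (hW0.const_mul (I 0))
    simpa using this
  have hpos : 0 < mm c W x * th x := by
    have h1 := hmono (show x - 1 < x by linarith)
    have h2 : 0 ≤ mm c W (x - 1) * th (x - 1) :=
      le_of_tendsto hlim (by
        filter_upwards [eventually_le_atBot (x - 1)] with y hy
        exact hmono.monotone hy)
    exact h2.trans_lt h1
  have h3 := (pos_iff_pos_of_mul_pos hpos).1 (mm_pos (c := c) (W := W) x)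
  simp only [hth] at h3
  linarith

/-- `I / V < 4 c V R / I + 2 (1-c) U / R` -/
lemma p_lt (h : SPair c W V I k lam) (hc : 1 / 3 ≤ c) (x : ℝ) :
    I x / V x < 4 * c * V x * (1 - V x) / I x + 2 * (1 - c) * (W x - x) / (1 - V x) := by
  have hI := h.I_pos x
  have hV := h.V_pos x
  have hR : 0 < 1 - V x := by linarith [h.V_lt x]
  have hU : 0 < W x - x := by linarith [h.U_pos x]
  have hW := h.W_pos x
  have hc1 := h.c_lt
  have h1 := IW_lt h x
  have e1 : I x / V x = (1 + c) * (1 - V x) * (W x / V x) + (1 - c) * (W x - x) := by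
    have h2 := F1' h x
    rw [div_eq_iff hV.ne', add_mul]
    have : (1 + c) * (1 - V x) * (W x / V x) * V x = (1 + c) * (1 - V x) * W x := by
      field_simp
    rw [this]
    linarith
  have e2 : W x / V x < V x / I x := by
    rw [div_lt_div_iff₀ hV hI]
    nlinarith
  have e3 : (1 + c) * (1 - V x) * (W x / V x) < 4 * c * V x * (1 - V x) / I x := by
    have a1 : (1 + c) * (1 - V x) * (W x / V x) < (1 + c) * (1 - V x) * (V x / I x) :=
      mul_lt_mul_of_pos_left e2 (by positivity)
    have a2 : (1 + c) * (1 - V x) * (V x / I x) ≤ 4 * c * ((1 - V x) * (V x / I x)) := by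
      have : 0 < (1 - V x) * (V x / I x) := by positivity
      nlinarith
    have a3 : 4 * c * ((1 - V x) * (V x / I x)) = 4 * c * V x * (1 - V x) / I x := by ring
    linarith
  have e4 : (1 - c) * (W x - x) ≤ 2 * (1 - c) * (W x - x) / (1 - V x) := by
    rw [le_div_iff₀ hR]
    have : 0 < (1 - c) * (W x - x) := mul_pos (by linarith) hU
    nlinarith
  rw [e1]
  linarith

/-- `ρ = I²/(V R²)` is increasing -/
lemma rho_mono (h : SPair c W V I k lam) (hc : 1 / 3 ≤ c) :
    StrictMono fun x => I x ^ 2 / (V x * (1 - V x) ^ 2) := by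
  apply strictMono_of_deriv_pos
  intro x
  have hI := h.I_pos x
  have hV := h.V_pos x
  have hR : 0 < 1 - V x := by linarith [h.V_lt x]
  have hp := p_lt h hc x
  have hF := F1 h x
  have hd : HasDerivAt (fun x => I x ^ 2 / (V x * (1 - V x) ^ 2))
      (I x ^ 2 / (V x * (1 - V x) ^ 2) *
        (4 * c * V x * (1 - V x) / I x + 2 * (1 - c) * (W x - x) / (1 - V x) - I x / V x)) x := by
    have e1 := (h.dI x).pow 2
    have e2 := (h.dV x).mul (((h.dV x).const_sub 1).pow 2)
    have hne : V x * (1 - V x) ^ 2 ≠ 0 := by positivity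
    refine (e1.div e2 hne).congr_deriv ?_
    simp only [Pi.mul_apply, Pi.pow_apply]
    have hA : 2 * Ad c W x = (I x - (1 - c) * (W x - x)) / (1 - V x) := by
      rw [eq_div_iff hR.ne']; linarith
    have hA' : Ad c W x = (I x - (1 - c) * (W x - x)) / (1 - V x) / 2 := by linarith
    rw [hA']
    field_simp
    push_cast
    ring
  rw [hd.deriv]
  have : 0 < I x ^ 2 / (V x * (1 - V x) ^ 2) := by positivity
  apply mul_pos this
  linarith

/-- **(F3)** `0 < H` -/
theorem H_pos (h : SPair c W V I k c) (hc : 1 / 3 ≤ c) (x : ℝ) : 0 < HH c W V I k x := by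
  obtain ⟨-, -, -, l1, l2⟩ := integrable_q h
  have hPh : Ph c W V I k = fun x => qs k x * HH c W V I k x := funext (Ph_eq h)
  rw [hPh] at l1 l2
  have hd : ∀ x, HasDerivAt (fun x => qs k x * HH c W V I k x)
      (qs k x * (2 * c * (V x * (1 - V x) ^ 2) - I x ^ 2)) x := fun x => by
    refine ((dqs h x).mul (dH h x)).congr_deriv ?_
    ring
  have hrho := rho_mono h hc
  -- sign of the source
  have hsgn : ∀ y z, y < z → 0 ≤ 2 * c * (V z * (1 - V z) ^ 2) - I z ^ 2 →
      0 < 2 * c * (V y * (1 - V y) ^ 2) - I y ^ 2 := by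
    intro y z hyz hz
    have h1 := hrho hyz
    simp only at h1
    have hy0 : 0 < V y * (1 - V y) ^ 2 := by
      have := h.V_pos y; have := h.V_lt y
      have h4 : 0 < 1 - V y := by linarith
      positivity
    have hz0 : 0 < V z * (1 - V z) ^ 2 := by
      have := h.V_pos z; have := h.V_lt z
      have h4 : 0 < 1 - V z := by linarith
      positivity
    have h2 : I z ^ 2 / (V z * (1 - V z) ^ 2) ≤ 2 * c := by
      rw [div_le_iff₀ hz0]; linarith
    have h3 : I y ^ 2 / (V y * (1 - V y) ^ 2) < 2 * c := h1.trans_le h2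
    rw [div_lt_iff₀ hy0] at h3
    linarith
  have hqH : 0 < qs k x * HH c W V I k x := by
    rcases le_or_gt 0 (2 * c * (V x * (1 - V x) ^ 2) - I x ^ 2) with hx | hx
    · -- increasing on the left
      have hmono : StrictMonoOn (fun x => qs k x * HH c W V I k x) (Iic x) := by
        apply strictMonoOn_of_deriv_pos (convex_Iic x)
        · exact fun y _ => (hd y).continuousAt.continuousWithinAt
        · intro y hy
          rw [interior_Iic] at hy
          rw [(hd y).deriv]
          exact mul_pos (qs_pos k y) (hsgn y x hy hx)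
      have h1 : qs k (x - 1) * HH c W V I k (x - 1) < qs k x * HH c W V I k x :=
        hmono (show x - 1 ∈ Iic x by simp) (show x ∈ Iic x by simp) (by linarith)
      have h2 : 0 ≤ qs k (x - 1) * HH c W V I k (x - 1) :=
        le_of_tendsto l2 (by
          filter_upwards [eventually_le_atBot (x - 1)] with y hy
          exact hmono.monotoneOn (show y ∈ Iic x by simp only [mem_Iic]; linarith)
            (show x - 1 ∈ Iic x by simp) hy)
      exact h2.trans_lt h1
    · -- decreasing on the right
      have hneg : ∀ y, x ≤ y → 2 * c * (V y * (1 - V y) ^ 2) - I y ^ 2 < 0 := by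
        intro y hy
        rcases eq_or_lt_of_le hy with rfl | hy
        · exact hx
        · by_contra hcon
          push Not at hcon
          linarith [hsgn x y hy hcon]
      have hanti : StrictAntiOn (fun x => qs k x * HH c W V I k x) (Ici x) := by
        apply strictAntiOn_of_deriv_neg (convex_Ici x)
        · exact fun y _ => (hd y).continuousAt.continuousWithinAt
        · intro y hy
          rw [interior_Ici] at hy
          rw [(hd y).deriv]
          exact mul_neg_of_pos_of_neg (qs_pos k y) (hneg y (le_of_lt hy))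
      have h1 : qs k (x + 1) * HH c W V I k (x + 1) < qs k x * HH c W V I k x :=
        hanti (show x ∈ Ici x by simp) (show x + 1 ∈ Ici x by simp) (by linarith)
      have h2 : 0 ≤ qs k (x + 1) * HH c W V I k (x + 1) :=
        le_of_tendsto l1 (by
          filter_upwards [eventually_ge_atTop (x + 1)] with y hy
          exact hanti.antitoneOn (show x + 1 ∈ Ici x by simp)
            (show y ∈ Ici x by simp only [mem_Ici]; linarith) hy)
      exact h2.trans_lt h1
  exact (pos_iff_pos_of_mul_pos hqH).1 (qs_pos k x)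

end Crest.Agent.R146.HFact_924
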