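import Crest.Agent.R164.GCalc3
import Crest.Agent.R146.S6Def_988

-- ▼ part R146/MonA_422
section

/-!
Row 146, node MON (task 24), part A: directional derivatives of the nested recursion of Gaussian
operators with an arbitrary `C²` terminal function; monotonicity in the tail order; Lipschitz bound
(helper422).
-/

set_option autoImplicit false

namespace Crest.Agent.R146.MonA_422

open MeasureTheory ProbabilityTheory Filter Topology Set
open Crest.ProbabilityR.InvariantGlass Crest.Agent.R164.GC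

noncomputable section

/-- `gaussOp_sm` for every nonnegative exponent -/
theorem gaussOp_sm' {f f1 f2 : ℝ → ℝ} {C : ℝ} (h : Sm f f1 f2 C) {a : ℝ} (ha : 0 ≤ a) (v : ℝ) :
    Sm (gaussOp a v f) (tE a v f f1) (g2 a v f f1 f2) (C + a) := by
  refine ⟨gaussOp_deriv_x h a v, fun x => ?_, ?_, fun x => tE_abs_le h.lip a v h.B1 x,
    fun x => ?_⟩
  · have := tE_deriv_x h a v h.B1.eg h.B2.eg h.d2 x
    unfold g2
    simp only [sq]
    exact this
  · unfold g2
    have c1 := (tE_BC h.lip a v h.B2).cont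
    have c2 := (tE_BC h.lip a v (h.B1.pow 2)).cont
    have c3 := (tE_BC h.lip a v h.B1).cont
    fun_prop
  · unfold g2
    have b1 := tE_abs_le h.lip a v h.B2 x
    have b2 := tE_abs_le h.lip a v (h.B1.pow 2) x
    have b3 := tE_sq_le h.lip a v h.B1.eg x
    have b4 := sq_nonneg (tE a v f f1 x)
    rw [one_pow] at b2
    have b5 := (le_abs_self _).trans b2
    have b6 : 0 ≤ a * (tE a v f (fun y => f1 y ^ 2) x - tE a v f f1 x ^ 2) :=
      mul_nonneg ha (by linarith)
    have b7 : a * (tE a v f (fun y => f1 y ^ 2) x - tE a v f f1 x ^ 2) ≤ a * 1 :=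
      mul_le_mul_of_nonneg_left (by linarith) ha
    rw [abs_le] at b1 ⊢
    constructor <;> linarith [b1.1, b1.2]

/-- the recursion along a list of `(v, w)`: exponents `a, a + w_0, a + w_0 + w_1, ...` -/
def ch (f : ℝ → ℝ) : ℝ → List (ℝ × ℝ) → ℝ → ℝ
  | _, [] => f
  | a, (v, w) :: L => gaussOp a v (ch f (a + w) L)

/-- first derivative -/
def ch1 (f f1 : ℝ → ℝ) : ℝ → List (ℝ × ℝ) → ℝ → ℝ
  | _, [] => f1
  | a, (v, w) :: L => tE a v (ch f (a + w) L) (ch1 f f1 (a + w) L)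

/-- second derivative -/
def ch2 (f f1 f2 : ℝ → ℝ) : ℝ → List (ℝ × ℝ) → ℝ → ℝ
  | _, [] => f2
  | a, (v, w) :: L => g2 a v (ch f (a + w) L) (ch1 f f1 (a + w) L) (ch2 f f1 f2 (a + w) L)

/-- admissible lists: nonnegative exponents, variances and exponent increments -/
def Ad : ℝ → List (ℝ × ℝ) → Prop
  | a, [] => 0 ≤ a
  | a, (v, w) :: L => 0 ≤ a ∧ 0 ≤ v ∧ 0 ≤ w ∧ Ad (a + w) L

/-- bound of the second derivative -/
def Cb (C : ℝ) : ℝ → List (ℝ × ℝ) → ℝ
  | _, [] => C
  | a, (_, w) :: L => Cb C (a + w) L + a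

theorem ch_sm {f f1 f2 : ℝ → ℝ} {C : ℝ} (hf : Sm f f1 f2 C) : ∀ (L : List (ℝ × ℝ)) (a : ℝ),
    Ad a L → Sm (ch f a L) (ch1 f f1 a L) (ch2 f f1 f2 a L) (Cb C a L)
  | [], _, _ => hf
  | (v, w) :: L, a, h => gaussOp_sm' (ch_sm hf L (a + w) h.2.2.2) h.1 v

/-- `f'' + a f'^2` is a martingale along the recursion -/
theorem ch_heat {f f1 f2 : ℝ → ℝ} {C : ℝ} (hf : Sm f f1 f2 C) {v w : ℝ} {L : List (ℝ × ℝ)}
    {a : ℝ} (h : Ad a ((v, w) :: L)) (x : ℝ) :
    ch2 f f1 f2 a ((v, w) :: L) x + a * ch1 f f1 a ((v, w) :: L) x ^ 2 =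
      tE a v (ch f (a + w) L)
        (fun y => ch2 f f1 f2 (a + w) L y + a * ch1 f f1 (a + w) L y ^ 2) x :=
  g2_add (ch_sm hf L (a + w) h.2.2.2) a v x

/-- the directional derivative of the recursion -/
def DG (f f1 f2 : ℝ → ℝ) : ℝ → List (ℝ × ℝ × ℝ) → ℝ → ℝ
  | _, [] => fun _ => 0
  | a, (v, w, δ) :: L => tE a v (ch f (a + w) (L.map pr))
      (fun y => DG f f1 f2 (a + w) L y + 1 / 2 * δ * (ch2 f f1 f2 (a + w) (L.map pr) y +
        a * ch1 f f1 (a + w) (L.map pr) y ^ 2))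

theorem DG_BC {f f1 f2 : ℝ → ℝ} {C : ℝ} (hf : Sm f f1 f2 C) :
    ∀ (L : List (ℝ × ℝ × ℝ)) (a : ℝ), Ad a (L.map pr) → ∃ K, BC (DG f f1 f2 a L) K
  | [], _, _ => ⟨_, BC.const 0⟩
  | (v, w, δ) :: L, a, h => by
      obtain ⟨K, hK⟩ := DG_BC hf L (a + w) h.2.2.2
      have hS := ch_sm hf (L.map pr) (a + w) h.2.2.2
      exact ⟨_, tE_BC hS.lip a v (hK.add ((hS.B2.add ((hS.B1.pow 2).const_mul a)).const_mul _))⟩

/-- the moved lists stay admissible -/
theorem ad_sh : ∀ (L : List (ℝ × ℝ × ℝ)) (a : ℝ), Ad a (L.map pr) →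
    (∀ q ∈ L, 0 ≤ q.1 + q.2.2) → ∀ t, 0 ≤ t → t ≤ 1 → Ad a (L.map (sh t))
  | [], _, h, _, _, _, _ => h
  | (v, w, δ) :: L, a, h, h1, t, ht, ht1 => by
      refine ⟨h.1, ?_, h.2.2.1, ad_sh L (a + w) h.2.2.2
        (fun q hq => h1 q (List.mem_cons_of_mem _ hq)) t ht ht1⟩
      have h2 : 0 ≤ v + δ := h1 (v, w, δ) List.mem_cons_self
      have h3 : 0 ≤ v := h.2.1
      show 0 ≤ v + t * δ
      nlinarith

/-- Lipschitz constant of the path -/
def Kb (C : ℝ) : ℝ → List (ℝ × ℝ × ℝ) → ℝ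
  | _, [] => 0
  | a, (_, w, δ) :: L => Kb C (a + w) L + |δ| * (1 / 2 * (Cb C (a + w) (L.map pr) + |a| * 1 ^ 2))

/-- **directional derivative of the recursion at `t = 0+`** -/
theorem ch_path {f f1 f2 : ℝ → ℝ} {C : ℝ} (hf : Sm f f1 f2 C) :
    ∀ (L : List (ℝ × ℝ × ℝ)) (a : ℝ), Ad a (L.map pr) → (∀ q ∈ L, 0 ≤ q.1 + q.2.2) →
    (∀ t, 0 ≤ t → t ≤ 1 → ∀ y, |ch f a (L.map (sh t)) y - ch f a (L.map (sh 0)) y| ≤
      Kb C a L * t) ∧
    CC (fun t => ch f a (L.map (sh t))) (DG f f1 f2 a L)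
  | [], a, _, _ => by
      refine ⟨fun t _ _ y => by simp [ch, Kb], ?_⟩
      intro t y y0 _ _ _
      simp [DG, ch]
  | (v, w, δ) :: L, a, h, h1 => by
      have h1' : ∀ q ∈ L, 0 ≤ q.1 + q.2.2 := fun q hq => h1 q (List.mem_cons_of_mem _ hq)
      obtain ⟨hK, hcc⟩ := ch_path hf L (a + w) h.2.2.2 h1'
      have hadm := ad_sh L (a + w) h.2.2.2 h1'
      have hlip : ∀ t, 0 ≤ t → t ≤ 1 → Lip1 (ch f (a + w) (L.map (sh t))) :=
        fun t ht ht1 => (ch_sm hf _ _ (hadm t ht ht1)).lip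
      have hS0 := ch_sm hf (L.map pr) (a + w) h.2.2.2
      have hv : 0 ≤ v := h.2.1
      have hv' : 0 ≤ v + δ := h1 (v, w, δ) List.mem_cons_self
      have hS : Sm (ch f (a + w) (L.map (sh 0))) (ch1 f f1 (a + w) (L.map pr))
          (ch2 f f1 f2 (a + w) (L.map pr)) (Cb C (a + w) (L.map pr)) := by
        rw [sh_zero]; exact hS0
      obtain ⟨KW, hKW⟩ := DG_BC hf L (a + w) h.2.2.2
      constructor
      · intro t ht ht1 y
        show |gaussOp a (v + t * δ) (ch f (a + w) (L.map (sh t))) y -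
          gaussOp a (v + 0 * δ) (ch f (a + w) (L.map (sh 0))) y| ≤ _
        rw [zero_mul, add_zero]
        have b1 := gaussOp_abs_sub_le h.1 (hlip t ht ht1) (hlip 0 le_rfl zero_le_one)
          (v + t * δ) y (hK t ht ht1)
        have hvt : 0 ≤ v + t * δ := by nlinarith
        obtain ⟨ξ, _, _, hξ⟩ := gaussOp_mvt hS a hv hvt y
        have hB : BC (fun y => ch2 f f1 f2 (a + w) (L.map pr) y + a *
            ch1 f f1 (a + w) (L.map pr) y ^ 2)
            (Cb C (a + w) (L.map pr) + |a| * 1 ^ 2) :=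
          hS.B2.add ((hS.B1.pow 2).const_mul a)
        have b2 : |gaussOp a (v + t * δ) (ch f (a + w) (L.map (sh 0))) y -
            gaussOp a v (ch f (a + w) (L.map (sh 0))) y| ≤
            |δ| * (1 / 2 * (Cb C (a + w) (L.map pr) + |a| * 1 ^ 2)) * t := by
          rw [hξ, abs_mul, abs_mul, add_sub_cancel_left, abs_mul, abs_of_nonneg ht,
            abs_of_pos (by norm_num : (0 : ℝ) < 1 / 2)]
          have b3 := tE_abs_le hS.lip a ξ hB y
          have b4 : 0 ≤ t * |δ| := by positivity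
          calc t * |δ| * (1 / 2 * |tE a ξ (ch f (a + w) (L.map (sh 0))) (fun y =>
                ch2 f f1 f2 (a + w) (L.map pr) y + a * ch1 f f1 (a + w) (L.map pr) y ^ 2) y|)
              ≤ t * |δ| * (1 / 2 * (Cb C (a + w) (L.map pr) + |a| * 1 ^ 2)) := by
                refine mul_le_mul_of_nonneg_left ?_ b4
                linarith
            _ = _ := by ring
        have := abs_sub_le (gaussOp a (v + t * δ) (ch f (a + w) (L.map (sh t))) y)
          (gaussOp a (v + t * δ) (ch f (a + w) (L.map (sh 0))) y)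
          (gaussOp a v (ch f (a + w) (L.map (sh 0))) y)
        show _ ≤ (Kb C (a + w) L + |δ| * (1 / 2 * (Cb C (a + w) (L.map pr) + |a| * 1 ^ 2))) * t
        linarith
      · have hstep := path_step (F := fun t => ch f (a + w) (L.map (sh t))) h.1 hS hlip hK hKW
          hcc hv hv'
        have e : (fun x => tE a v (ch f (a + w) (L.map (sh 0))) (fun y =>
            DG f f1 f2 (a + w) L y + 1 / 2 * δ *
              (ch2 f f1 f2 (a + w) (L.map pr) y + a * ch1 f f1 (a + w) (L.map pr) y ^ 2)) x) =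
            DG f f1 f2 a ((v, w, δ) :: L) := by
          rw [sh_zero]
          rfl
        rw [e] at hstep
        exact hstep

/-! ### bounds of the directional derivative -/

/-- `Σ_l w_l (Σ_{i ≥ l} δ_i)` -/
def Bs : List (ℝ × ℝ × ℝ) → ℝ
  | [] => 0
  | (_, w, _) :: L => w * dsum L + Bs L

/-- all tails of the weighted sums are nonnegative -/
def Good : List (ℝ × ℝ × ℝ) → Prop
  | [] => True
  | (_, w, _) :: L => 0 ≤ w * dsum L + Bs L ∧ Good L

/-- `Σ_l w_l |Σ_{i ≥ l} δ_i|` -/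
def As : List (ℝ × ℝ × ℝ) → ℝ
  | [] => 0
  | (_, w, _) :: L => w * |dsum L| + As L

theorem dsum_cons (v w δ : ℝ) (L : List (ℝ × ℝ × ℝ)) : dsum ((v, w, δ) :: L) = δ + dsum L := by
  simp [dsum]


theorem DG_ge {f f1 f2 : ℝ → ℝ} {C : ℝ} (hf : Sm f f1 f2 C) :
    ∀ (L : List (ℝ × ℝ × ℝ)) (a : ℝ), Ad a (L.map pr) → Good L → ∀ x,
    1 / 2 * dsum L * (ch2 f f1 f2 a (L.map pr) x + a * ch1 f f1 a (L.map pr) x ^ 2) +
      1 / 2 * Bs L * ch1 f f1 a (L.map pr) x ^ 2 ≤ DG f f1 f2 a L x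
  | [], a, _, _, x => by simp [DG, dsum, Bs]
  | (v, w, δ) :: L, a, h, hg, x => by
      have ih := DG_ge hf L (a + w) h.2.2.2 hg.2
      have hS := ch_sm hf (L.map pr) (a + w) h.2.2.2
      obtain ⟨K, hK⟩ := DG_BC hf L (a + w) h.2.2.2
      have hheat := ch_heat hf (v := v) (w := w) (L := L.map pr) (a := a) h x
      set c1 : ℝ → ℝ := ch1 f f1 (a + w) (L.map pr) with hc1
      set c2 : ℝ → ℝ := ch2 f f1 f2 (a + w) (L.map pr) with hc2
      have hQ : BC (fun y => c2 y + a * c1 y ^ 2) (Cb C (a + w) (L.map pr) + |a| * 1 ^ 2) :=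
        hS.B2.add ((hS.B1.pow 2).const_mul a)
      have m1 : tE a v (ch f (a + w) (L.map pr)) (fun y =>
          1 / 2 * (dsum L + δ) * (c2 y + a * c1 y ^ 2) +
          1 / 2 * (w * dsum L + Bs L) * c1 y ^ 2) x ≤
          tE a v (ch f (a + w) (L.map pr)) (fun y => DG f f1 f2 (a + w) L y + 1 / 2 * δ *
            (c2 y + a * c1 y ^ 2)) x := by
        refine tE_mono hS.lip a v ((hQ.eg.const_mul _).add ((hS.B1.eg.pow 2).const_mul _))
          (hK.eg.add (hQ.eg.const_mul _)) (fun y => ?_) x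
        have := ih y
        nlinarith [this]
      have m2 : tE a v (ch f (a + w) (L.map pr)) (fun y =>
          1 / 2 * (dsum L + δ) * (c2 y + a * c1 y ^ 2) +
          1 / 2 * (w * dsum L + Bs L) * c1 y ^ 2) x =
          1 / 2 * (dsum L + δ) * tE a v (ch f (a + w) (L.map pr))
            (fun y => c2 y + a * c1 y ^ 2) x +
          1 / 2 * (w * dsum L + Bs L) * tE a v (ch f (a + w) (L.map pr)) (fun y => c1 y ^ 2) x := by
        rw [tE_add hS.lip a v (hQ.eg.const_mul _) ((hS.B1.eg.pow 2).const_mul _), tE_const_mul,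
          tE_const_mul]
      have m3 := tE_sq_le hS.lip a v hS.B1.eg x
      have m4 : 1 / 2 * (w * dsum L + Bs L) * (tE a v (ch f (a + w) (L.map pr)) c1 x) ^ 2 ≤
          1 / 2 * (w * dsum L + Bs L) * tE a v (ch f (a + w) (L.map pr)) (fun y => c1 y ^ 2) x :=
        mul_le_mul_of_nonneg_left m3 (by have := hg.1; linarith)
      rw [m2, ← hheat] at m1
      show 1 / 2 * dsum ((v, w, δ) :: L) * (ch2 f f1 f2 a ((v, w) :: L.map pr) x +
          a * ch1 f f1 a ((v, w) :: L.map pr) x ^ 2) +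
        1 / 2 * (w * dsum L + Bs L) * (tE a v (ch f (a + w) (L.map pr)) c1 x) ^ 2 ≤
          tE a v (ch f (a + w) (L.map pr)) (fun y => DG f f1 f2 (a + w) L y + 1 / 2 * δ *
            (c2 y + a * c1 y ^ 2)) x
      rw [dsum_cons, add_comm δ]
      linarith


theorem DG_abs {f f1 f2 : ℝ → ℝ} {C : ℝ} (hf : Sm f f1 f2 C) :
    ∀ (L : List (ℝ × ℝ × ℝ)) (a : ℝ), Ad a (L.map pr) → ∀ x,
    |DG f f1 f2 a L x - 1 / 2 * dsum L * (ch2 f f1 f2 a (L.map pr) x +
      a * ch1 f f1 a (L.map pr) x ^ 2)| ≤ 1 / 2 * As L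
  | [], a, _, x => by simp [DG, dsum, As]
  | (v, w, δ) :: L, a, h, x => by
      have ih := DG_abs hf L (a + w) h.2.2.2
      have hS := ch_sm hf (L.map pr) (a + w) h.2.2.2
      obtain ⟨K, hK⟩ := DG_BC hf L (a + w) h.2.2.2
      have hheat := ch_heat hf (v := v) (w := w) (L := L.map pr) (a := a) h x
      set c1 : ℝ → ℝ := ch1 f f1 (a + w) (L.map pr) with hc1
      set c2 : ℝ → ℝ := ch2 f f1 f2 (a + w) (L.map pr) with hc2
      have hQ : BC (fun y => c2 y + a * c1 y ^ 2) (Cb C (a + w) (L.map pr) + |a| * 1 ^ 2) :=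
        hS.B2.add ((hS.B1.pow 2).const_mul a)
      have hw : 0 ≤ w := h.2.2.1
      have hBC : BC (fun y => (DG f f1 f2 (a + w) L y + 1 / 2 * δ * (c2 y + a * c1 y ^ 2)) -
          1 / 2 * (dsum L + δ) * (c2 y + a * c1 y ^ 2)) (1 / 2 * (w * |dsum L| + As L)) := by
        refine ⟨(hK.cont.add (hQ.cont.const_mul _)).sub (hQ.cont.const_mul _), fun y => ?_⟩
        have e : (DG f f1 f2 (a + w) L y + 1 / 2 * δ * (c2 y + a * c1 y ^ 2)) -
            1 / 2 * (dsum L + δ) * (c2 y + a * c1 y ^ 2) =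
            (DG f f1 f2 (a + w) L y - 1 / 2 * dsum L * (c2 y + (a + w) * c1 y ^ 2)) +
            1 / 2 * w * dsum L * c1 y ^ 2 := by ring
        rw [e]
        refine (abs_add_le _ _).trans ?_
        have h1 := ih y
        have h2 : |1 / 2 * w * dsum L * c1 y ^ 2| ≤ 1 / 2 * (w * |dsum L|) := by
          rw [abs_mul, abs_mul, abs_mul, abs_of_nonneg hw,
            abs_of_pos (by norm_num : (0 : ℝ) < 1 / 2), abs_of_nonneg (sq_nonneg (c1 y))]
          have h3 : c1 y ^ 2 ≤ 1 := by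
            have := hS.b1 y
            rw [← sq_abs]
            exact pow_le_one₀ (abs_nonneg _) this
          have h4 : 0 ≤ 1 / 2 * w * |dsum L| := by positivity
          calc 1 / 2 * w * |dsum L| * c1 y ^ 2 ≤ 1 / 2 * w * |dsum L| * 1 :=
                mul_le_mul_of_nonneg_left h3 h4
            _ = _ := by ring
        linarith
      have m1 := tE_abs_le hS.lip a v hBC x
      have m2 : tE a v (ch f (a + w) (L.map pr)) (fun y =>
          (DG f f1 f2 (a + w) L y + 1 / 2 * δ * (c2 y + a * c1 y ^ 2)) -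
          1 / 2 * (dsum L + δ) * (c2 y + a * c1 y ^ 2)) x =
          tE a v (ch f (a + w) (L.map pr)) (fun y => DG f f1 f2 (a + w) L y + 1 / 2 * δ *
            (c2 y + a * c1 y ^ 2)) x - 1 / 2 * (dsum L + δ) *
          tE a v (ch f (a + w) (L.map pr)) (fun y => c2 y + a * c1 y ^ 2) x := by
        rw [tE_sub hS.lip a v (hK.eg.add (hQ.eg.const_mul _)) (hQ.eg.const_mul _), tE_const_mul]
      rw [m2, ← hheat] at m1
      show |tE a v (ch f (a + w) (L.map pr)) (fun y => DG f f1 f2 (a + w) L y + 1 / 2 * δ *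
            (c2 y + a * c1 y ^ 2)) x - 1 / 2 * dsum ((v, w, δ) :: L) *
            (ch2 f f1 f2 a ((v, w) :: L.map pr) x + a * ch1 f f1 a ((v, w) :: L.map pr) x ^ 2)| ≤
          1 / 2 * (w * |dsum L| + As L)
      rw [dsum_cons, add_comm δ]
      exact m1

/-! ### along the segment -/

/-- the list of directions based at time `t0` of the segment -/
def seg (t0 : ℝ) (q : ℝ × ℝ × ℝ) : ℝ × ℝ × ℝ := (q.1 + t0 * q.2.2, q.2.1, (1 - t0) * q.2.2)

theorem sh_seg (t0 s : ℝ) (q : ℝ × ℝ × ℝ) : sh s (seg t0 q) = sh (t0 + s * (1 - t0)) q := by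
  simp only [sh, seg, Prod.mk.injEq, and_true]
  ring


theorem map_sh_seg (t0 s : ℝ) (L : List (ℝ × ℝ × ℝ)) :
    (L.map (seg t0)).map (sh s) = L.map (sh (t0 + s * (1 - t0))) := by
  rw [List.map_map]
  exact List.map_congr_left fun q _ => sh_seg t0 s q

theorem map_pr_seg (t0 : ℝ) (L : List (ℝ × ℝ × ℝ)) :
    (L.map (seg t0)).map pr = L.map (sh t0) := by
  rw [List.map_map]
  rfl

theorem dsum_seg (t0 : ℝ) : ∀ L : List (ℝ × ℝ × ℝ), dsum (L.map (seg t0)) = (1 - t0) * dsum L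
  | [] => by simp [dsum]
  | (v, w, δ) :: L => by
      have := dsum_seg t0 L
      rw [List.map_cons]
      show dsum ((_, _, (1 - t0) * δ) :: L.map (seg t0)) = _
      rw [dsum_cons, dsum_cons, this]
      ring

theorem Bs_seg (t0 : ℝ) : ∀ L : List (ℝ × ℝ × ℝ), Bs (L.map (seg t0)) = (1 - t0) * Bs L
  | [] => by simp [Bs]
  | (v, w, δ) :: L => by
      have := Bs_seg t0 L
      rw [List.map_cons]
      show w * dsum (L.map (seg t0)) + Bs (L.map (seg t0)) = (1 - t0) * (w * dsum L + Bs L)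
      rw [dsum_seg, this]
      ring

theorem As_seg {t0 : ℝ} (h : t0 ≤ 1) :
    ∀ L : List (ℝ × ℝ × ℝ), As (L.map (seg t0)) = (1 - t0) * As L
  | [] => by simp [As]
  | (v, w, δ) :: L => by
      have := As_seg h L
      rw [List.map_cons]
      show w * |dsum (L.map (seg t0))| + As (L.map (seg t0)) = (1 - t0) * (w * |dsum L| + As L)
      rw [dsum_seg, this, abs_mul, abs_of_nonneg (by linarith : (0 : ℝ) ≤ 1 - t0)]
      ring

theorem Good_seg {t0 : ℝ} (h : t0 ≤ 1) :
    ∀ L : List (ℝ × ℝ × ℝ), Good L → Good (L.map (seg t0))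
  | [], _ => trivial
  | (v, w, δ) :: L, hg => by
      have ih := Good_seg h L hg.2
      rw [List.map_cons]
      refine ⟨?_, ih⟩
      rw [dsum_seg, Bs_seg]
      have := mul_nonneg (by linarith : (0 : ℝ) ≤ 1 - t0) hg.1
      linarith


theorem Cb_congr {C : ℝ} : ∀ (L : List (ℝ × ℝ × ℝ)) (a t : ℝ),
    Cb C a (L.map (sh t)) = Cb C a (L.map pr)
  | [], _, _ => rfl
  | (v, w, δ) :: L, a, t => by
      have := Cb_congr (C := C) L (a + w) t
      show Cb C (a + w) (L.map (sh t)) + a = Cb C (a + w) (L.map pr) + a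
      rw [this]

theorem Kb_seg {C : ℝ} {t0 : ℝ} (h : t0 ≤ 1) : ∀ (L : List (ℝ × ℝ × ℝ)) (a : ℝ),
    Kb C a (L.map (seg t0)) = (1 - t0) * Kb C a L
  | [], a => by simp [Kb]
  | (v, w, δ) :: L, a => by
      have := Kb_seg (C := C) h L (a + w)
      rw [List.map_cons]
      show Kb C (a + w) (L.map (seg t0)) + |(1 - t0) * δ| *
        (1 / 2 * (Cb C (a + w) ((L.map (seg t0)).map pr) + |a| * 1 ^ 2)) =
        (1 - t0) * (Kb C (a + w) L + |δ| * (1 / 2 * (Cb C (a + w) (L.map pr) + |a| * 1 ^ 2)))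
      rw [map_pr_seg, Cb_congr, this, abs_mul, abs_of_nonneg (by linarith : (0 : ℝ) ≤ 1 - t0)]
      ring

section segment

variable {f f1 f2 : ℝ → ℝ} {C : ℝ} (hf : Sm f f1 f2 C) {L : List (ℝ × ℝ × ℝ)} {a : ℝ}
  (hL : Ad a (L.map pr)) (hL1 : ∀ q ∈ L, 0 ≤ q.1 + q.2.2)

include hf hL hL1

theorem seg_lip {t0 t : ℝ} (h0 : 0 ≤ t0) (h1 : t0 ≤ t) (h2 : t ≤ 1) (x : ℝ) :
    |ch f a (L.map (sh t)) x - ch f a (L.map (sh t0)) x| ≤ Kb C a L * (t - t0) := by
  rcases eq_or_lt_of_le (h1.trans h2) with h3 | h3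
  · have : t = t0 := le_antisymm (by linarith) h1
    subst this
    simp
  · have hA : Ad a ((L.map (seg t0)).map pr) := by
      rw [map_pr_seg]; exact ad_sh L a hL hL1 t0 h0 h3.le
    have hA1 : ∀ q ∈ L.map (seg t0), 0 ≤ q.1 + q.2.2 := by
      intro q hq
      rw [List.mem_map] at hq
      obtain ⟨p, hp, rfl⟩ := hq
      have := hL1 p hp
      show 0 ≤ p.1 + t0 * p.2.2 + (1 - t0) * p.2.2
      linarith
    have hp : 0 < 1 - t0 := by linarith
    have key := (ch_path hf (L.map (seg t0)) a hA hA1).1 ((t - t0) / (1 - t0))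
      (div_nonneg (by linarith) hp.le) (by rw [div_le_one hp]; linarith) x
    rw [map_sh_seg, map_sh_seg, Kb_seg h3.le, zero_mul, add_zero,
      div_mul_cancel₀ _ hp.ne'] at key
    have e1 : t0 + (t - t0) = t := by ring
    have e2 : (1 - t0) * Kb C a L * ((t - t0) / (1 - t0)) = Kb C a L * (t - t0) := by
      field_simp
    rwa [e1, e2] at key

theorem seg_cont (x : ℝ) : ContinuousOn (fun t => ch f a (L.map (sh t)) x) (Icc 0 1) := by
  have h : LipschitzOnWith (Real.toNNReal (Kb C a L)) (fun t => ch f a (L.map (sh t)) x)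
      (Icc 0 1) := by
    refine LipschitzOnWith.of_dist_le_mul fun s hs t ht => ?_
    rw [Real.dist_eq, Real.dist_eq]
    have hK : 0 ≤ Kb C a L := by
      have := (abs_nonneg _).trans (seg_lip hf hL hL1 le_rfl zero_le_one le_rfl x)
      simpa using this
    rw [Real.coe_toNNReal _ hK]
    rcases le_total s t with hst | hst
    · rw [abs_sub_comm, abs_sub_comm s t, abs_of_nonneg (by linarith : 0 ≤ t - s)]
      exact seg_lip hf hL hL1 hs.1 hst ht.2 x
    · rw [abs_of_nonneg (by linarith : 0 ≤ s - t)]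
      exact seg_lip hf hL hL1 ht.1 hst hs.2 x
  exact h.continuousOn

theorem seg_deriv {t0 : ℝ} (h0 : 0 ≤ t0) (h1 : t0 < 1) (x : ℝ) :
    Tendsto (fun n : ℕ => (ch f a (L.map (sh (t0 + 1 / ((n : ℝ) + 1) * (1 - t0)))) x -
      ch f a (L.map (sh t0)) x) / (1 / ((n : ℝ) + 1))) atTop
      (𝓝 (DG f f1 f2 a (L.map (seg t0)) x)) := by
  have hA : Ad a ((L.map (seg t0)).map pr) := by
    rw [map_pr_seg]; exact ad_sh L a hL hL1 t0 h0 h1.le
  have hA1 : ∀ q ∈ L.map (seg t0), 0 ≤ q.1 + q.2.2 := by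
    intro q hq
    rw [List.mem_map] at hq
    obtain ⟨p, hp, rfl⟩ := hq
    have := hL1 p hp
    show 0 ≤ p.1 + t0 * p.2.2 + (1 - t0) * p.2.2
    linarith
  have key := (ch_path hf (L.map (seg t0)) a hA hA1).2 (fun n : ℕ => 1 / ((n : ℝ) + 1))
    (fun _ => x) x (fun n => ⟨by positivity, by
      rw [div_le_one (by positivity)]; have := Nat.cast_nonneg (α := ℝ) n; linarith⟩)
    tendsto_one_div_add_atTop_nhds_zero_nat tendsto_const_nhds
  refine key.congr fun n => ?_
  simp only [map_sh_seg, zero_mul, add_zero]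

/-- general principle: a bound of the one-sided derivative along the segment -/
theorem seg_le {m : ℝ} (x : ℝ)
    (hm : ∀ t0, 0 ≤ t0 → t0 < 1 → -(DG f f1 f2 a (L.map (seg t0)) x) ≤ m * (1 - t0)) :
    ch f a (L.map (sh 0)) x - m ≤ ch f a (L.map (sh 1)) x := by
  have key := image_le_of_liminf_slope_right_le_deriv_boundary (a := 0) (b := 1)
    (f := fun t => -(ch f a (L.map (sh t)) x)) (seg_cont hf hL hL1 x).neg
    (B := fun t => -(ch f a (L.map (sh 0)) x) + m * t) (B' := fun _ => m) (by simp)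
    (by fun_prop)
    (fun t _ => by
      have := ((hasDerivAt_id t).const_mul m).const_add (-(ch f a (L.map (sh 0)) x))
      simpa using this.hasDerivWithinAt)
    (fun t ht r hr => by
      have h1 := seg_deriv hf hL hL1 ht.1 ht.2 x
      have hp : 0 < 1 - t := by have := ht.2; linarith
      -- the slopes
      set z : ℕ → ℝ := fun n => t + 1 / ((n : ℝ) + 1) * (1 - t) with hz
      have hz0 : Tendsto z atTop (𝓝[>] t) := by
        refine tendsto_nhdsWithin_iff.2 ⟨?_, Eventually.of_forall fun n => ?_⟩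
        · have := (tendsto_one_div_add_atTop_nhds_zero_nat (𝕜 := ℝ)).mul_const (1 - t)
          have := this.const_add t
          simpa [hz] using this
        · show t < t + 1 / ((n : ℝ) + 1) * (1 - t)
          have : 0 < 1 / ((n : ℝ) + 1) * (1 - t) := by positivity
          linarith
      have hsl : Tendsto (fun n => slope (fun t => -(ch f a (L.map (sh t)) x)) t (z n)) atTop
          (𝓝 (-(DG f f1 f2 a (L.map (seg t)) x) / (1 - t))) := by
        have h2 := (h1.neg).div_const (1 - t)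
        refine h2.congr fun n => ?_
        rw [slope_def_field]
        have hn : (0 : ℝ) < (n : ℝ) + 1 := by positivity
        have e : z n - t = 1 / ((n : ℝ) + 1) * (1 - t) := by rw [hz]; ring
        rw [e]
        rw [neg_div', div_div]
        congr 1
        ring
      have hlt : -(DG f f1 f2 a (L.map (seg t)) x) / (1 - t) < r := by
        rw [div_lt_iff₀ hp]
        have := hm t ht.1 ht.2
        have h3 := mul_lt_mul_of_pos_right hr hp
        linarith
      have hev : ∀ᶠ n in atTop, slope (fun t => -(ch f a (L.map (sh t)) x)) t (z n) < r :=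
        hsl.eventually_lt_const hlt
      exact hz0.frequently hev.frequently)
  have := key (right_mem_Icc.2 zero_le_one)
  simp only [mul_one] at this
  linarith

/-- **monotonicity** -/
theorem ch_mono (hd : dsum L = 0) (hg : Good L) (hB : 0 ≤ Bs L) (x : ℝ) :
    ch f a (L.map (sh 0)) x ≤ ch f a (L.map (sh 1)) x := by
  have := seg_le hf hL hL1 (m := 0) x (fun t0 h0 h1 => by
    have hA : Ad a ((L.map (seg t0)).map pr) := by
      rw [map_pr_seg]; exact ad_sh L a hL hL1 t0 h0 h1.le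
    have h2 := DG_ge hf (L.map (seg t0)) a hA (Good_seg h1.le L hg) x
    rw [dsum_seg, hd, Bs_seg] at h2
    have h3 : 0 ≤ (1 - t0) * Bs L := mul_nonneg (by linarith) hB
    have h4 := mul_nonneg h3 (sq_nonneg (ch1 f f1 a ((L.map (seg t0)).map pr) x))
    linarith)
  linarith

/-- **Lipschitz bound** -/
theorem ch_lip_ge (hd : dsum L = 0) (x : ℝ) :
    ch f a (L.map (sh 0)) x - 1 / 2 * As L ≤ ch f a (L.map (sh 1)) x := by
  refine seg_le hf hL hL1 x fun t0 h0 h1 => ?_
  have hA : Ad a ((L.map (seg t0)).map pr) := by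
    rw [map_pr_seg]; exact ad_sh L a hL hL1 t0 h0 h1.le
  have h2 := DG_abs hf (L.map (seg t0)) a hA x
  rw [dsum_seg, hd, As_seg h1.le] at h2
  have h3 := (abs_le.1 h2).1
  linarith

end segment

end

end Crest.Agent.R146.MonA_422
private theorem rz_444743a749 : type_of% @_root_.Crest.Agent.R146.MonA_422.As.eq_def := @_root_.Crest.Agent.R146.MonA_422.As.eq_def -- L194
private theorem rz_029a4f360e : type_of% @_root_.Crest.Agent.R146.MonA_422.As.eq_1 := @_root_.Crest.Agent.R146.MonA_422.As.eq_1 -- L194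
private theorem rz_a636a9b62c : type_of% @_root_.Crest.Agent.R146.MonA_422.Bs.eq_def := @_root_.Crest.Agent.R146.MonA_422.Bs.eq_def -- L184
private theorem rz_ba96415e9b : type_of% @_root_.Crest.Agent.R146.MonA_422.Bs.eq_1 := @_root_.Crest.Agent.R146.MonA_422.Bs.eq_1 -- L184
private theorem rz_9e6105970e : type_of% @_root_.Crest.Agent.R146.MonA_422.DG.eq_def := @_root_.Crest.Agent.R146.MonA_422.DG.eq_def -- L85
private theorem rz_feda4bb2ef : type_of% @_root_.Crest.Agent.R146.MonA_422.DG.eq_1 := @_root_.Crest.Agent.R146.MonA_422.DG.eq_1 -- L85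
private theorem rz_a05bbe19f4 : type_of% @_root_.Crest.Agent.R146.MonA_422.Kb.eq_def := @_root_.Crest.Agent.R146.MonA_422.Kb.eq_def -- L112
private theorem rz_4bb4a7340f : type_of% @_root_.Crest.Agent.R146.MonA_422.Kb.eq_1 := @_root_.Crest.Agent.R146.MonA_422.Kb.eq_1 -- L112
private theorem rz_ca4b494921 : type_of% @_root_.Crest.Agent.R146.MonA_422.ch.eq_def := @_root_.Crest.Agent.R146.MonA_422.ch.eq_def -- L47
private theorem rz_861f21c8e6 : type_of% @_root_.Crest.Agent.R146.MonA_422.ch.eq_1 := @_root_.Crest.Agent.R146.MonA_422.ch.eq_1 -- L47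
end

-- ▼ part R146/MonB_422
section

/-!
Row 146, node MON (task 24), part B: smoothing of Lipschitz functions, link with `recV` / `Th`,
final statements (M1), (M2), (M5) (helper422).
-/

set_option autoImplicit false

namespace Crest.Agent.R146.MonB_422

open MeasureTheory ProbabilityTheory Filter Topology Set
open Crest.ProbabilityR.InvariantGlass Crest.Agent.R164.GC
open Crest.Agent.R146.MonA_422 Crest.Agent.R146.S6Def_988

noncomputable section

/-! ### smoothing by moving averages -/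

/-- moving average -/
def mv (h : ℝ) (f : ℝ → ℝ) (x : ℝ) : ℝ := h⁻¹ * ∫ y in x..(x + h), f y

theorem mv_deriv {h : ℝ} {f : ℝ → ℝ} (hf : Continuous f) (x : ℝ) :
    HasDerivAt (mv h f) (h⁻¹ * (f (x + h) - f x)) x := by
  have hi : ∀ a b : ℝ, IntervalIntegrable f volume a b := fun a b => hf.intervalIntegrable a b
  have h1 : HasDerivAt (fun x => ∫ y in (0 : ℝ)..x, f y) (f x) x :=
    intervalIntegral.integral_hasDerivAt_right (hi _ _)
      (hf.stronglyMeasurableAtFilter _ _) hf.continuousAt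
  have h2 : HasDerivAt (fun x => ∫ y in (0 : ℝ)..(x + h), f y) (f (x + h)) x := by
    have h3 : HasDerivAt (fun x => ∫ y in (0 : ℝ)..x, f y) (f (x + h)) (x + h) :=
      intervalIntegral.integral_hasDerivAt_right (hi _ _)
        (hf.stronglyMeasurableAtFilter _ _) hf.continuousAt
    exact h3.comp_add_const x h
  have h4 := (h2.sub h1).const_mul h⁻¹
  refine h4.congr_of_eventuallyEq (Eventually.of_forall fun z => ?_)
  show h⁻¹ * ∫ y in z..(z + h), f y = h⁻¹ * ((∫ y in (0 : ℝ)..(z + h), f y) -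
    ∫ y in (0 : ℝ)..z, f y)
  rw [intervalIntegral.integral_interval_sub_left (hi _ _) (hi _ _)]

theorem mv_sub_le {h : ℝ} (hh : 0 < h) {f : ℝ → ℝ} (hf : Continuous f) {c : ℝ} (x z : ℝ)
    (hc : ∀ y ∈ Icc x (x + h), |f y - z| ≤ c) : |mv h f x - z| ≤ c := by
  have hi : ∀ a b : ℝ, IntervalIntegrable f volume a b := fun a b => hf.intervalIntegrable a b
  have e : mv h f x - z = h⁻¹ * ∫ y in x..(x + h), (f y - z) := by
    rw [intervalIntegral.integral_sub (hi _ _) (by simp), intervalIntegral.integral_const,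
      smul_eq_mul, add_sub_cancel_left]
    unfold mv
    field_simp
  rw [e, abs_mul, abs_of_pos (inv_pos.2 hh)]
  have h1 : ‖∫ y in x..(x + h), (f y - z)‖ ≤ c * |x + h - x| := by
    refine intervalIntegral.norm_integral_le_of_norm_le_const fun y hy => ?_
    rw [uIoc_of_le (by linarith)] at hy
    exact hc y ⟨hy.1.le, hy.2⟩
  rw [Real.norm_eq_abs, add_sub_cancel_left, abs_of_pos hh] at h1
  calc h⁻¹ * |∫ y in x..(x + h), (f y - z)| ≤ h⁻¹ * (c * h) :=
        mul_le_mul_of_nonneg_left h1 (inv_pos.2 hh).le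
    _ = c := by field_simp

theorem mv_cont {h : ℝ} {f : ℝ → ℝ} (hf : Continuous f) : Continuous (mv h f) :=
  continuous_iff_continuousAt.2 fun x => (mv_deriv hf x).continuousAt

/-- smoothing of a 1-Lipschitz function -/
theorem smooth1 {f : ℝ → ℝ} (hf : ∀ x y, |f x - f y| ≤ |x - y|) {η : ℝ} (hη : 0 < η) :
    ∃ g g1 g2 : ℝ → ℝ, ∃ C : ℝ, Sm g g1 g2 C ∧ ∀ x, |g x - f x| ≤ η := by
  have hfc : Continuous f := by
    have : LipschitzWith 1 f := LipschitzWith.of_dist_le_mul fun x y => by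
      rw [Real.dist_eq, Real.dist_eq, NNReal.coe_one, one_mul]; exact hf x y
    exact this.continuous
  set h : ℝ := η / 2 with hh
  have hpos : 0 < h := by positivity
  set u : ℝ → ℝ := mv h f with hu
  have huc : Continuous u := mv_cont hfc
  have hud : ∀ x, HasDerivAt u (h⁻¹ * (f (x + h) - f x)) x := mv_deriv hfc
  have hu1 : ∀ x, |h⁻¹ * (f (x + h) - f x)| ≤ 1 := by
    intro x
    rw [abs_mul, abs_of_pos (inv_pos.2 hpos)]
    have h1 := hf (x + h) x
    rw [add_sub_cancel_left, abs_of_pos hpos] at h1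
    calc h⁻¹ * |f (x + h) - f x| ≤ h⁻¹ * h := mul_le_mul_of_nonneg_left h1 (inv_pos.2 hpos).le
      _ = 1 := by field_simp
  have hul : ∀ x y, |u x - u y| ≤ |x - y| := by
    intro x y
    have h1 := Convex.norm_image_sub_le_of_norm_hasDerivWithin_le (f := u)
      (f' := fun x => h⁻¹ * (f (x + h) - f x)) (C := 1)
      (s := univ) (fun x _ => (hud x).hasDerivWithinAt) (fun x _ => hu1 x) convex_univ
      (mem_univ y) (mem_univ x)
    rwa [Real.norm_eq_abs, Real.norm_eq_abs, one_mul] at h1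
  refine ⟨mv h u, fun x => h⁻¹ * (u (x + h) - u x),
    fun x => h⁻¹ * (h⁻¹ * (f (x + h + h) - f (x + h)) - h⁻¹ * (f (x + h) - f x)), h⁻¹ * 2,
    ⟨fun x => mv_deriv huc x, fun x => ?_, ?_, fun x => ?_, fun x => ?_⟩, fun x => ?_⟩
  · exact (((hud (x + h)).comp_add_const x h).sub (hud x)).const_mul h⁻¹
  · fun_prop
  · rw [abs_mul, abs_of_pos (inv_pos.2 hpos)]
    have h1 := hul (x + h) x
    rw [add_sub_cancel_left, abs_of_pos hpos] at h1
    calc h⁻¹ * |u (x + h) - u x| ≤ h⁻¹ * h := mul_le_mul_of_nonneg_left h1 (inv_pos.2 hpos).le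
      _ = 1 := by field_simp
  · rw [abs_mul, abs_of_pos (inv_pos.2 hpos)]
    refine mul_le_mul_of_nonneg_left ?_ (inv_pos.2 hpos).le
    refine (abs_sub _ _).trans ?_
    have h1 := hu1 (x + h)
    have h2 := hu1 x
    linarith
  · have h1 : |mv h u x - u x| ≤ h := by
      refine mv_sub_le hpos huc x (u x) fun y hy => ?_
      refine (hul y x).trans ?_
      rw [abs_of_nonneg (by linarith [hy.1])]
      linarith [hy.2]
    have h2 : |u x - f x| ≤ h := by
      refine mv_sub_le hpos hfc x (f x) fun y hy => ?_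
      refine (hf y x).trans ?_
      rw [abs_of_nonneg (by linarith [hy.1])]
      linarith [hy.2]
    have h3 := abs_sub_le (mv h u x) (u x) (f x)
    have h4 : h + h = η := by rw [hh]; ring
    linarith

/-! ### scaling and the link with `recV` -/

theorem gaussOp_scale {c : ℝ} (hc : c ≠ 0) (a v : ℝ) (f : ℝ → ℝ) (x : ℝ) :
    gaussOp a v (fun y => c * f y) x = c * gaussOp (a * c) v f x := by
  unfold gaussOp
  by_cases ha : a = 0
  · subst ha
    rw [if_pos rfl, if_pos (zero_mul c), integral_const_mul]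
  · rw [if_neg ha, if_neg (mul_ne_zero ha hc)]
    have e : ∀ g : ℝ, Real.exp (a * (c * f (x + Real.sqrt v * g))) =
        Real.exp (a * c * f (x + Real.sqrt v * g)) := fun g => by ring_nf
    simp only [e]
    field_simp

/-- the list of cells `i, ..., i + n - 1` -/
def lst (t m : ℕ → ℝ) : ℕ → ℕ → List (ℝ × ℝ)
  | _, 0 => []
  | i, n + 1 => (t (i + 1) - t i, m (i + 1) - m i) :: lst t m (i + 1) n

/-- the list of directions -/
def lst3 (t t' m : ℕ → ℝ) : ℕ → ℕ → List (ℝ × ℝ × ℝ)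
  | _, 0 => []
  | i, n + 1 => (t (i + 1) - t i, m (i + 1) - m i, (t' (i + 1) - t' i) - (t (i + 1) - t i)) ::
      lst3 t t' m (i + 1) n

theorem lst3_pr (t t' m : ℕ → ℝ) : ∀ n i, (lst3 t t' m i n).map pr = lst t m i n
  | 0, _ => rfl
  | n + 1, i => by
      show pr _ :: (lst3 t t' m (i + 1) n).map pr = _ :: _
      rw [lst3_pr t t' m n (i + 1)]
      rfl

theorem lst3_sh1 (t t' m : ℕ → ℝ) : ∀ n i, (lst3 t t' m i n).map (sh 1) = lst t' m i n
  | 0, _ => rfl
  | n + 1, i => by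
      show sh 1 _ :: (lst3 t t' m (i + 1) n).map (sh 1) = _ :: _
      rw [lst3_sh1 t t' m n (i + 1)]
      congr 1
      simp only [sh, Prod.mk.injEq, and_true]
      ring

theorem recV_eq (f : ℝ → ℝ) (t m : ℕ → ℝ) (k : ℕ) : ∀ j, j ≤ k →
    recV f t m k j = ch f (m (k - j)) (lst t m (k - j) j)
  | 0, _ => rfl
  | j + 1, h => by
      have ih := recV_eq f t m k j (by omega)
      have e1 : k - j = (k - 1 - j) + 1 := by omega
      have e2 : k - (j + 1) = k - 1 - j := by omega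
      rw [e2]
      show gaussOp (m (k - 1 - j)) (t (k - j) - t (k - 1 - j)) (recV f t m k j) =
        gaussOp (m (k - 1 - j)) (t (k - 1 - j + 1) - t (k - 1 - j))
          (ch f (m (k - 1 - j) + (m (k - 1 - j + 1) - m (k - 1 - j))) (lst t m (k - 1 - j + 1) j))
      rw [ih, add_sub_cancel, e1]

/-- scaling of the recursion -/
theorem recV_scale {c : ℝ} (hc : c ≠ 0) (f : ℝ → ℝ) (t m : ℕ → ℝ) (k : ℕ) : ∀ j x,
    recV (fun y => c * f y) t m k j x = c * recV f t (fun i => m i * c) k j x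
  | 0, _ => rfl
  | j + 1, x => by
      have ih : recV (fun y => c * f y) t m k j = fun x => c * recV f t (fun i => m i * c) k j x :=
        funext fun x => recV_scale hc f t m k j x
      show gaussOp _ _ (recV (fun y => c * f y) t m k j) x = c * gaussOp _ _ _ x
      rw [ih]
      exact gaussOp_scale hc _ _ _ _

theorem ad_lst {t m : ℕ → ℝ} (ht : Monotone t) (hm : Monotone m) (hm0 : 0 ≤ m 0) :
    ∀ n i, Ad (m i) (lst t m i n)
  | 0, i => hm0.trans (hm (Nat.zero_le i))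
  | n + 1, i => by
      refine ⟨hm0.trans (hm (Nat.zero_le i)), sub_nonneg.2 (ht (Nat.le_succ i)),
        sub_nonneg.2 (hm (Nat.le_succ i)), ?_⟩
      rw [add_sub_cancel]
      exact ad_lst ht hm hm0 n (i + 1)

theorem lst3_nonneg {t t' m : ℕ → ℝ} (ht' : Monotone t') :
    ∀ n i, ∀ q ∈ lst3 t t' m i n, 0 ≤ q.1 + q.2.2
  | 0, _, q, hq => by simp [lst3] at hq
  | n + 1, i, q, hq => by
      rw [lst3, List.mem_cons] at hq
      rcases hq with rfl | hq
      · have := ht' (Nat.le_succ i)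
        show 0 ≤ t (i + 1) - t i + ((t' (i + 1) - t' i) - (t (i + 1) - t i))
        linarith
      · exact lst3_nonneg ht' n (i + 1) q hq

theorem dsum_lst3 (t t' m : ℕ → ℝ) : ∀ n i, dsum (lst3 t t' m i n) =
    (t' (i + n) - t (i + n)) - (t' i - t i)
  | 0, i => by simp [lst3, dsum]
  | n + 1, i => by
      rw [lst3, dsum_cons, dsum_lst3 t t' m n (i + 1)]
      have : i + 1 + n = i + (n + 1) := by omega
      rw [this]
      ring

theorem Bs_lst3 {t t' m : ℕ → ℝ} : ∀ n i, t' (i + n) = t (i + n) →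
    Bs (lst3 t t' m i n) = ∑ l ∈ Finset.Ico i (i + n), (m (l + 1) - m l) * (t (l + 1) - t' (l + 1))
  | 0, i, _ => by simp [lst3, Bs]
  | n + 1, i, h => by
      have e : i + (n + 1) = i + 1 + n := by omega
      rw [e] at h ⊢
      rw [lst3, Bs, Bs_lst3 n (i + 1) h, dsum_lst3, h, sub_self, zero_sub,
        Finset.sum_eq_sum_Ico_succ_bot (by omega : i < i + 1 + n)]
      ring

theorem good_lst3 {t t' m : ℕ → ℝ} : ∀ n i, t' (i + n) = t (i + n) →
    (∀ k, i ≤ k → k ≤ i + n → 0 ≤ Bs (lst3 t t' m k (i + n - k))) → Good (lst3 t t' m i n)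
  | 0, i, _, _ => trivial
  | n + 1, i, h, hB => by
      have e : i + (n + 1) = i + 1 + n := by omega
      refine ⟨?_, good_lst3 n (i + 1) (by rw [← e]; exact h) fun k h1 h2 => ?_⟩
      · have := hB i le_rfl (by omega)
        have e2 : i + (n + 1) - i = n + 1 := by omega
        rw [e2] at this
        exact this
      · have := hB k (by omega) (by omega)
        rwa [e] at this

theorem As_lst3 {t t' m : ℕ → ℝ} : ∀ n i, t' (i + n) = t (i + n) →
    As (lst3 t t' m i n) = ∑ l ∈ Finset.Ico i (i + n), (m (l + 1) - m l) * |t (l + 1) - t' (l + 1)|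
  | 0, i, _ => by simp [lst3, As]
  | n + 1, i, h => by
      have e : i + (n + 1) = i + 1 + n := by omega
      rw [e] at h ⊢
      rw [lst3, As, As_lst3 n (i + 1) h, dsum_lst3, h, sub_self, zero_sub,
        Finset.sum_eq_sum_Ico_succ_bot (by omega : i < i + 1 + n), neg_sub]

/-! ### the general statement for `recV` -/

/-- exponents and times -/
structure TM (k : ℕ) (t m : ℕ → ℝ) : Prop where
  t_mono : Monotone t
  m_mono : Monotone m
  m_nonneg : 0 ≤ m 0


theorem gaussOp_lip1 {a : ℝ} (ha : 0 ≤ a) {f : ℝ → ℝ} (hf : Lip1 f) (v : ℝ) :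
    Lip1 (gaussOp a v f) := by
  intro x y
  -- shift
  have hsh : Lip1 (fun z => f (z + (x - y))) := by
    intro p q
    have := hf (p + (x - y)) (q + (x - y))
    rwa [add_sub_add_right_eq_sub] at this
  have h1 : gaussOp a v f x = gaussOp a v (fun z => f (z + (x - y))) y := by
    unfold gaussOp
    have e : ∀ g : ℝ, x + Real.sqrt v * g = y + Real.sqrt v * g + (x - y) := fun g => by ring
    simp only [e]
  have h2 := gaussOp_abs_sub_le ha hsh hf v y (c := |x - y|) fun z => by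
    rw [abs_le]
    have h3 := hf (z + (x - y)) z
    have h4 := hf z (z + (x - y))
    rw [add_sub_cancel_left] at h3
    rw [sub_add_cancel_left, abs_neg] at h4
    constructor <;> linarith
  rw [h1]
  have := (abs_le.1 h2).2
  linarith

theorem ch_lip1 {f : ℝ → ℝ} (hf : Lip1 f) : ∀ (L : List (ℝ × ℝ)) (a : ℝ), Ad a L →
    Lip1 (ch f a L)
  | [], _, _ => hf
  | (v, w) :: L, a, h => gaussOp_lip1 h.1 (ch_lip1 hf L (a + w) h.2.2.2) v

theorem ch_abs_sub_le {f f' : ℝ → ℝ} (hf : Lip1 f) (hf' : Lip1 f') {c : ℝ}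
    (h : ∀ y, |f y - f' y| ≤ c) : ∀ (L : List (ℝ × ℝ)) (a : ℝ), Ad a L → ∀ x,
    |ch f a L x - ch f' a L x| ≤ c
  | [], _, _, x => h x
  | (v, w) :: L, a, hA, x =>
      gaussOp_abs_sub_le hA.1 (ch_lip1 hf L (a + w) hA.2.2.2) (ch_lip1 hf' L (a + w) hA.2.2.2)
        v x (ch_abs_sub_le hf hf' h L (a + w) hA.2.2.2)

theorem lip1_iff {f : ℝ → ℝ} : Lip1 f ↔ ∀ x y, |f x - f y| ≤ |x - y| := by
  constructor
  · intro h x y
    have h1 := h x y
    have h2 := h y x
    rw [abs_sub_comm] at h2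
    rw [abs_le]
    constructor <;> linarith
  · intro h x y
    have := (abs_le.1 (h x y)).2
    linarith

section core

variable {t t' m : ℕ → ℝ} {k : ℕ} {f : ℝ → ℝ}

theorem ch_mono_lip (ht : TM k t m) (ht' : TM k t' m) (h0 : t' 0 = t 0) (hk : t' k = t k)
    (hf : Lip1 f) (hB : ∀ i, i ≤ k → 0 ≤ ∑ l ∈ Finset.Ico i k,
      (m (l + 1) - m l) * (t (l + 1) - t' (l + 1))) (x : ℝ) :
    ch f (m 0) (lst t m 0 k) x ≤ ch f (m 0) (lst t' m 0 k) x := by
  refine le_of_forall_pos_le_add fun η hη => ?_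
  obtain ⟨g, g1, g2, C, hS, hg⟩ := smooth1 (lip1_iff.1 hf) (half_pos hη)
  have hA : Ad (m 0) ((lst3 t t' m 0 k).map pr) := by
    rw [lst3_pr]; exact ad_lst ht.t_mono ht.m_mono ht.m_nonneg k 0
  have hA' : Ad (m 0) (lst t' m 0 k) := ad_lst ht'.t_mono ht'.m_mono ht'.m_nonneg k 0
  have hk' : t' (0 + k) = t (0 + k) := by rw [zero_add]; exact hk
  have hBs : ∀ i, 0 ≤ i → i ≤ 0 + k → 0 ≤ Bs (lst3 t t' m i (0 + k - i)) := by
    intro i _ hi
    have e : i + (0 + k - i) = k := by omega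
    rw [Bs_lst3 _ _ (by rw [e]; exact hk), e]
    exact hB i (by omega)
  have hB0 : 0 ≤ Bs (lst3 t t' m 0 k) := by
    have := hBs 0 le_rfl (Nat.zero_le _)
    rwa [zero_add, Nat.sub_zero] at this
  have key := ch_mono hS hA (lst3_nonneg ht'.t_mono k 0)
    (by rw [dsum_lst3, hk', h0]; ring) (good_lst3 k 0 hk' hBs) hB0 x
  rw [sh_zero, lst3_pr, lst3_sh1] at key
  have hgl : Lip1 g := hS.lip
  have e1 := ch_abs_sub_le hgl hf hg (lst t m 0 k) (m 0)
    (ad_lst ht.t_mono ht.m_mono ht.m_nonneg k 0) x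
  have e2 := ch_abs_sub_le hgl hf hg (lst t' m 0 k) (m 0) hA' x
  have := (abs_le.1 e1).1
  have := (abs_le.1 e2).2
  linarith

theorem ch_lip_lip (ht : TM k t m) (ht' : TM k t' m) (h0 : t' 0 = t 0) (hk : t' k = t k)
    (hf : Lip1 f) (x : ℝ) :
    ch f (m 0) (lst t m 0 k) x - 1 / 2 * ∑ l ∈ Finset.Ico 0 k,
      (m (l + 1) - m l) * |t (l + 1) - t' (l + 1)| ≤ ch f (m 0) (lst t' m 0 k) x := by
  refine le_of_forall_pos_le_add fun η hη => ?_
  obtain ⟨g, g1, g2, C, hS, hg⟩ := smooth1 (lip1_iff.1 hf) (half_pos hη)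
  have hA : Ad (m 0) ((lst3 t t' m 0 k).map pr) := by
    rw [lst3_pr]; exact ad_lst ht.t_mono ht.m_mono ht.m_nonneg k 0
  have hA' : Ad (m 0) (lst t' m 0 k) := ad_lst ht'.t_mono ht'.m_mono ht'.m_nonneg k 0
  have hk' : t' (0 + k) = t (0 + k) := by rw [zero_add]; exact hk
  have key := ch_lip_ge hS hA (lst3_nonneg ht'.t_mono k 0)
    (by rw [dsum_lst3, hk', h0]; ring) x
  rw [sh_zero, lst3_pr, lst3_sh1, As_lst3 k 0 hk', zero_add] at key
  have hgl : Lip1 g := hS.lip
  have e1 := ch_abs_sub_le hgl hf hg (lst t m 0 k) (m 0)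
    (ad_lst ht.t_mono ht.m_mono ht.m_nonneg k 0) x
  have e2 := ch_abs_sub_le hgl hf hg (lst t' m 0 k) (m 0) hA' x
  have := (abs_le.1 e1).1
  have := (abs_le.1 e2).2
  linarith

end core

end

end Crest.Agent.R146.MonB_422
namespace Crest.Agent.R146.MonB_422.TM
end Crest.Agent.R146.MonB_422.TM
private theorem rz_7dbb2f757b : type_of% @_root_.Crest.Agent.R146.MonB_422.lst3.eq_def := @_root_.Crest.Agent.R146.MonB_422.lst3.eq_def -- L138
private theorem rz_bc153b0923 : type_of% @_root_.Crest.Agent.R146.MonB_422.lst3.eq_1 := @_root_.Crest.Agent.R146.MonB_422.lst3.eq_1 -- L138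
end

-- ▼ part R146/Mon_422

/-!
Row 146, node MON (task 24), final statements (helper422) on `S6Def_988.Th`:

* `Th_mono`       : (M1) tail sums of `Q` ≤ tail sums of `P`  ⟹  `Th J f P ≤ Th J f Q`;
* `Th_lip`        : (M2) `|Th J f P - Th J f Q| ≤ L² / (2 (J+1)) * ∑ |P j - Q j|`;
* `Th_abs_sub_le` : (M5) `|f - f'| ≤ η ⟹ |Th J f P - Th J f' P| ≤ η`;
* `Th_abs_le`, `recV_abs_sub_le`, `recV_abs_le`, `recV_lip`, `Th_congr_lev`, `Th_mono_fun`.
-/

set_option autoImplicit false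

namespace Crest.Agent.R146.Mon_422

open MeasureTheory ProbabilityTheory Filter Topology Set
open Crest.ProbabilityR.InvariantGlass Crest.Agent.R164.GC
open Crest.Agent.R146.MonA_422 Crest.Agent.R146.MonB_422 Crest.Agent.R146.S6Def_988

noncomputable section

/-- `L`-Lipschitz functions, without a bound -/
def LipL (L : ℝ) (f : ℝ → ℝ) : Prop := ∀ x y, |f x - f y| ≤ L * |x - y|

theorem BL.lipL {K L : ℝ} {f : ℝ → ℝ} (h : BL K L f) : LipL L f := h.lip

theorem LipL.mono {L L' : ℝ} {f : ℝ → ℝ} (h : LipL L f) (hL : L ≤ L') : LipL L' f :=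
  fun x y => (h x y).trans (mul_le_mul_of_nonneg_right hL (abs_nonneg _))

theorem LipL.unit {L : ℝ} {f : ℝ → ℝ} (h : LipL L f) (hL : 0 < L) : Lip1 (fun x => L⁻¹ * f x) := by
  rw [lip1_iff]
  intro x y
  rw [← mul_sub, abs_mul, abs_of_pos (inv_pos.2 hL)]
  calc L⁻¹ * |f x - f y| ≤ L⁻¹ * (L * |x - y|) :=
        mul_le_mul_of_nonneg_left (h x y) (inv_pos.2 hL).le
    _ = |x - y| := by field_simp

theorem LipL.nonneg {L : ℝ} {f : ℝ → ℝ} (h : LipL L f) : 0 ≤ L := by
  have := (abs_nonneg _).trans (h 1 0)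
  simpa using this

theorem recV_unit {L : ℝ} (hL : 0 < L) (f : ℝ → ℝ) (t m : ℕ → ℝ) (k j : ℕ) (x : ℝ) :
    recV f t m k j x = L * recV (fun y => L⁻¹ * f y) t (fun i => m i * L) k j x := by
  have e : f = fun y => L * (L⁻¹ * f y) := by
    funext y
    field_simp
  conv_lhs => rw [e]
  exact recV_scale hL.ne' _ _ _ _ _ _

/-! ### general facts on `recV` -/

section recV

variable {t m : ℕ → ℝ} {k j : ℕ} {f f' : ℝ → ℝ} {L : ℝ}

theorem ad_top {t m : ℕ → ℝ} (ht : Monotone t) (hm : Monotone m) (hm0 : 0 ≤ m 0) (i n : ℕ) :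
    Ad (m i) (lst t m i n) := ad_lst ht hm hm0 n i

/-- stability in the terminal function -/
theorem recV_abs_sub_le (ht : Monotone t) (hm : Monotone m) (hm0 : 0 ≤ m 0) (hj : j ≤ k)
    (hf : LipL L f) (hf' : LipL L f') {c : ℝ} (h : ∀ y, |f y - f' y| ≤ c) (x : ℝ) :
    |recV f t m k j x - recV f' t m k j x| ≤ c := by
  set M : ℝ := L + 1 with hM
  have hMp : 0 < M := by have := hf.nonneg; linarith
  have hu := (hf.mono (show L ≤ M by linarith)).unit hMp
  have hu' := (hf'.mono (show L ≤ M by linarith)).unit hMp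
  have hmm : Monotone fun i => m i * M := fun a b hab => mul_le_mul_of_nonneg_right (hm hab) hMp.le
  have key := ch_abs_sub_le hu hu' (c := M⁻¹ * c) (fun y => by
    rw [← mul_sub, abs_mul, abs_of_pos (inv_pos.2 hMp)]
    exact mul_le_mul_of_nonneg_left (h y) (inv_pos.2 hMp).le)
    (lst t (fun i => m i * M) (k - j) j) _ (ad_top ht hmm (mul_nonneg hm0 hMp.le) _ _) x
  rw [recV_unit hMp f, recV_unit hMp f', recV_eq _ _ _ _ _ hj, recV_eq _ _ _ _ _ hj, ← mul_sub,
    abs_mul, abs_of_pos hMp]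
  calc _ ≤ M * (M⁻¹ * c) := mul_le_mul_of_nonneg_left key hMp.le
    _ = c := by field_simp


theorem recV_zero_fun : ∀ j x, recV (fun _ => 0) t m k j x = 0
  | 0, _ => rfl
  | j + 1, x => by
      have ih : recV (fun _ => 0) t m k j = fun _ => 0 := funext fun x => recV_zero_fun j x
      show gaussOp _ _ (recV (fun _ => 0) t m k j) x = 0
      rw [ih]
      unfold gaussOp
      split_ifs <;> simp

theorem recV_abs_le (ht : Monotone t) (hm : Monotone m) (hm0 : 0 ≤ m 0) (hj : j ≤ k)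
    {K : ℝ} (hf : BL K L f) (x : ℝ) : |recV f t m k j x| ≤ K := by
  have h0 : LipL L (fun _ : ℝ => (0 : ℝ)) := fun x y => by
    have := BL.lipL hf
    have := this.nonneg
    simp only [sub_self, abs_zero]
    positivity
  have h1 := recV_abs_sub_le ht hm hm0 hj (BL.lipL hf) h0 (c := K)
    (fun y => by rw [sub_zero]; exact hf.bd y) x
  rwa [recV_zero_fun, sub_zero] at h1


end recV

/-! ### `Th` -/

/-- exponents of `Th` -/
def mJ (J : ℕ) (j : ℕ) : ℝ := (j : ℝ) / ((J : ℝ) + 1)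

theorem mJ_mono (J : ℕ) : Monotone (mJ J) := fun a b h => by
  unfold mJ
  have : (a : ℝ) ≤ b := by exact_mod_cast h
  gcongr

theorem mJ_zero (J : ℕ) : 0 ≤ mJ J 0 := by simp [mJ]

theorem Th_eq (J : ℕ) (f : ℝ → ℝ) (P : ℕ → ℝ) :
    Th J f P = recV f (tP J P) (mJ J) (J + 2) (J + 2) 0 := rfl

theorem tP_mono {J : ℕ} {P : ℕ → ℝ} (h : Lev J P) : Monotone (tP J P) := by
  have h0 : ∀ i, i ≤ J → 0 ≤ P i := fun i hi => h.nonneg.trans (h.mono 0 i (Nat.zero_le _) hi)
  have h1 : ∀ i, i ≤ J → P i ≤ 1 := fun i hi => (h.mono i J hi le_rfl).trans h.le_one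
  intro a b hab
  unfold tP
  split_ifs with h2 h3 h4 h5 h6 h7
  · exact le_rfl
  · exact h0 _ (by omega)
  · exact zero_le_one
  · omega
  · exact h.mono _ _ (by omega) (by omega)
  · exact h1 _ (by omega)
  · omega
  · omega
  · exact le_rfl

theorem tP_zero (J : ℕ) (P : ℕ → ℝ) : tP J P 0 = 0 := by simp [tP]

theorem tP_top (J : ℕ) (P : ℕ → ℝ) : tP J P (J + 2) = 1 := by
  unfold tP
  rw [if_neg (by omega), if_neg (by omega)]

theorem tP_succ {J : ℕ} {P : ℕ → ℝ} {l : ℕ} (h : l ≤ J) : tP J P (l + 1) = P l := by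
  unfold tP
  rw [if_neg (by omega), if_pos (by omega)]
  rfl

variable {J : ℕ} {P Q : ℕ → ℝ} {K L : ℝ} {f f' : ℝ → ℝ}

theorem mJ_step (J l : ℕ) (c : ℝ) : mJ J (l + 1) * c - mJ J l * c = c / ((J : ℝ) + 1) := by
  unfold mJ
  push_cast
  field_simp
  ring

theorem sum_step (c : ℝ) (F : ℝ → ℝ) (hF : F 0 = 0) {i : ℕ} (hi : i ≤ J + 1) :
    ∑ l ∈ Finset.Ico i (J + 2), (mJ J (l + 1) * c - mJ J l * c) *
      F (tP J P (l + 1) - tP J Q (l + 1)) =
    c / ((J : ℝ) + 1) * ∑ l ∈ Finset.Ico i (J + 1), F (P l - Q l) := by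
  rw [Finset.sum_Ico_succ_top (by omega), tP_top, tP_top, sub_self, hF, mul_zero, add_zero,
    Finset.mul_sum]
  refine Finset.sum_congr rfl fun l hl => ?_
  rw [Finset.mem_Ico] at hl
  rw [mJ_step, tP_succ (by omega), tP_succ (by omega)]

/-- **(M1)** monotonicity of the nested recursion in the tail order of the levels -/
theorem Th_mono_lip (hP : Lev J P) (hQ : Lev J Q) (hf : LipL L f)
    (h : ∀ k, k ≤ J → ∑ j ∈ Finset.Ico k (J + 1), Q j ≤ ∑ j ∈ Finset.Ico k (J + 1), P j) :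
    Th J f P ≤ Th J f Q := by
  set M : ℝ := L + 1 with hM
  have hMp : 0 < M := by have := hf.nonneg; linarith
  have hu := (hf.mono (show L ≤ M by linarith)).unit hMp
  have hmm : Monotone fun i => mJ J i * M :=
    fun a b hab => mul_le_mul_of_nonneg_right (mJ_mono J hab) hMp.le
  have hm0 : 0 ≤ mJ J 0 * M := mul_nonneg (mJ_zero J) hMp.le
  have key := ch_mono_lip (t := tP J P) (t' := tP J Q) (m := fun i => mJ J i * M) (k := J + 2)
    ⟨tP_mono hP, hmm, hm0⟩ ⟨tP_mono hQ, hmm, hm0⟩ (by rw [tP_zero, tP_zero])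
    (by rw [tP_top, tP_top]) hu (fun i hi => by
      rcases Nat.lt_or_ge i (J + 2) with hi2 | hi2
      · have := sum_step (J := J) (P := P) (Q := Q) M (fun x => x) rfl (i := i) (by omega)
        show 0 ≤ ∑ l ∈ Finset.Ico i (J + 2), (mJ J (l + 1) * M - mJ J l * M) *
          (tP J P (l + 1) - tP J Q (l + 1))
        rw [this, Finset.sum_sub_distrib]
        refine mul_nonneg (by positivity) ?_
        rcases Nat.lt_or_ge i (J + 1) with h3 | h3
        · have := h i (by omega)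
          linarith
        · rw [Finset.Ico_eq_empty (by omega)]
          simp
      · rw [Finset.Ico_eq_empty (by omega)]
        simp) 0
  rw [Th_eq, Th_eq, recV_unit hMp f, recV_unit hMp f, recV_eq _ _ _ _ _ le_rfl,
    recV_eq _ _ _ _ _ le_rfl, Nat.sub_self]
  exact mul_le_mul_of_nonneg_left key hMp.le

theorem Th_mono (hP : Lev J P) (hQ : Lev J Q) (hf : BL K L f)
    (h : ∀ k, k ≤ J → ∑ j ∈ Finset.Ico k (J + 1), Q j ≤ ∑ j ∈ Finset.Ico k (J + 1), P j) :
    Th J f P ≤ Th J f Q := Th_mono_lip hP hQ (BL.lipL hf) h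

theorem Th_lip_aux (hP : Lev J P) (hQ : Lev J Q) (hf : LipL L f) {M : ℝ} (hMp : 0 < M)
    (hLM : L ≤ M) : Th J f P - M ^ 2 / (2 * ((J : ℝ) + 1)) *
      ∑ j ∈ Finset.range (J + 1), |P j - Q j| ≤ Th J f Q := by
  have hu := (hf.mono hLM).unit hMp
  have hmm : Monotone fun i => mJ J i * M :=
    fun a b hab => mul_le_mul_of_nonneg_right (mJ_mono J hab) hMp.le
  have hm0 : 0 ≤ mJ J 0 * M := mul_nonneg (mJ_zero J) hMp.le
  have key := ch_lip_lip (t := tP J P) (t' := tP J Q) (m := fun i => mJ J i * M) (k := J + 2)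
    ⟨tP_mono hP, hmm, hm0⟩ ⟨tP_mono hQ, hmm, hm0⟩ (by rw [tP_zero, tP_zero])
    (by rw [tP_top, tP_top]) hu 0
  have hs := sum_step (J := J) (P := P) (Q := Q) M (fun x => |x|) abs_zero (i := 0) (by omega)
  rw [hs] at key
  rw [Th_eq, Th_eq, recV_unit hMp f, recV_unit hMp f, recV_eq _ _ _ _ _ le_rfl,
    recV_eq _ _ _ _ _ le_rfl, Nat.sub_self, Finset.range_eq_Ico]
  have := mul_le_mul_of_nonneg_left key hMp.le
  refine le_trans (le_of_eq ?_) this
  field_simp

/-- **(M2)** Lipschitz bound of the nested recursion in the levels -/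
theorem Th_lip_lip (hP : Lev J P) (hQ : Lev J Q) (hf : LipL L f) :
    |Th J f P - Th J f Q| ≤ L ^ 2 / (2 * ((J : ℝ) + 1)) *
      ∑ j ∈ Finset.range (J + 1), |P j - Q j| := by
  have hL := hf.nonneg
  have key : ∀ M, L < M → |Th J f P - Th J f Q| ≤ M ^ 2 / (2 * ((J : ℝ) + 1)) *
      ∑ j ∈ Finset.range (J + 1), |P j - Q j| := by
    intro M hLM
    have hMp : 0 < M := lt_of_le_of_lt hL hLM
    have h1 := Th_lip_aux hP hQ hf hMp hLM.le
    have h2 := Th_lip_aux hQ hP hf hMp hLM.le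
    have e : ∑ j ∈ Finset.range (J + 1), |Q j - P j| = ∑ j ∈ Finset.range (J + 1), |P j - Q j| :=
      Finset.sum_congr rfl fun j _ => abs_sub_comm _ _
    rw [e] at h2
    rw [abs_le]
    constructor <;> linarith
  have hc : Continuous fun M : ℝ => M ^ 2 / (2 * ((J : ℝ) + 1)) *
      ∑ j ∈ Finset.range (J + 1), |P j - Q j| := by fun_prop
  have ht : Tendsto (fun M : ℝ => M ^ 2 / (2 * ((J : ℝ) + 1)) *
      ∑ j ∈ Finset.range (J + 1), |P j - Q j|) (𝓝[>] L) (𝓝 (L ^ 2 / (2 * ((J : ℝ) + 1)) *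
      ∑ j ∈ Finset.range (J + 1), |P j - Q j|)) := (hc.tendsto L).mono_left nhdsWithin_le_nhds
  exact ge_of_tendsto ht (eventually_nhdsWithin_of_forall fun M hM => key M hM)

theorem Th_lip (hP : Lev J P) (hQ : Lev J Q) (hf : BL K L f) :
    |Th J f P - Th J f Q| ≤ L ^ 2 / (2 * ((J : ℝ) + 1)) *
      ∑ j ∈ Finset.range (J + 1), |P j - Q j| := Th_lip_lip hP hQ (BL.lipL hf)


theorem Th_abs_le (hP : Lev J P) (hf : BL K L f) : |Th J f P| ≤ K :=
  recV_abs_le (tP_mono hP) (mJ_mono J) (mJ_zero J) le_rfl hf 0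


end

end Crest.Agent.R146.Mon_422
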