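import Mathlib
import Crest.Prelude.Def_SphericalPressure
import Crest.Agent.R151.V1
import Crest.Agent.R143.ES_831
import Crest.Agent.R146.S6U_988

-- ▼ part R146/Sph1_857
section

/-!
# Row 146, package SPH (helper857), part 1: log-partition functions over a general configuration space

* `fld y r w = ∑ i, r i * y w i`, `Zf μ y ψ g = ∫ exp (∑ a, ψ a (fld y (g a) w)) dμ(w)`,
  `logZ = log Zf`;
* bounds, measurability, one-row influence, variance (Efron-Stein), change of the potentials.
-/

set_option autoImplicit false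
set_option linter.unusedSectionVars false

open MeasureTheory ProbabilityTheory Finset
open scoped ENNReal

namespace Crest.Agent.R146.Sph857

variable {Y : Type*} [MeasurableSpace Y] {N M : ℕ}

/-- local field of the row `r` at the configuration `w` -/
def fld (y : Y → Fin N → ℝ) (r : Fin N → ℝ) (w : Y) : ℝ := ∑ i, r i * y w i

/-- the partition function -/
noncomputable def Zf (μ : Measure Y) (y : Y → Fin N → ℝ) (ψ : Fin M → ℝ → ℝ)
    (g : Fin M → Fin N → ℝ) : ℝ :=
  ∫ w, Real.exp (∑ a, ψ a (fld y (g a) w)) ∂μ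

/-- the log-partition function -/
noncomputable def logZ (μ : Measure Y) (y : Y → Fin N → ℝ) (ψ : Fin M → ℝ → ℝ)
    (g : Fin M → Fin N → ℝ) : ℝ := Real.log (Zf μ y ψ g)

theorem measurable_fld_uncurry {y : Y → Fin N → ℝ} (hy : Measurable y) :
    Measurable (fun p : (Fin N → ℝ) × Y => fld y p.1 p.2) := by
  unfold fld
  refine Finset.measurable_sum _ fun i _ => ?_
  exact ((measurable_pi_apply i).comp measurable_fst).mul
    ((measurable_pi_apply i).comp (hy.comp measurable_snd))


theorem measurable_expo_uncurry {y : Y → Fin N → ℝ} (hy : Measurable y) {ψ : Fin M → ℝ → ℝ}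
    (hψ : ∀ a, Measurable (ψ a)) :
    Measurable (fun p : (Fin M → Fin N → ℝ) × Y => ∑ a, ψ a (fld y (p.1 a) p.2)) := by
  refine Finset.measurable_sum _ fun a _ => (hψ a).comp ?_
  have h : Measurable (fun p : (Fin M → Fin N → ℝ) × Y => ((p.1 a, p.2) : (Fin N → ℝ) × Y)) :=
    ((measurable_pi_apply a).comp measurable_fst).prodMk measurable_snd
  exact (measurable_fld_uncurry hy).comp h

theorem measurable_expo {y : Y → Fin N → ℝ} (hy : Measurable y) {ψ : Fin M → ℝ → ℝ}
    (hψ : ∀ a, Measurable (ψ a)) (g : Fin M → Fin N → ℝ) :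
    Measurable (fun w : Y => ∑ a, ψ a (fld y (g a) w)) :=
  (measurable_expo_uncurry hy hψ).comp (measurable_const.prodMk measurable_id)

theorem abs_expo_le {y : Y → Fin N → ℝ} {ψ : Fin M → ℝ → ℝ} {K : Fin M → ℝ}
    (hK : ∀ a x, |ψ a x| ≤ K a) (g : Fin M → Fin N → ℝ) (w : Y) :
    |∑ a, ψ a (fld y (g a) w)| ≤ ∑ a, K a :=
  (Finset.abs_sum_le_sum_abs _ _).trans (Finset.sum_le_sum fun a _ => hK a _)

section basic

variable {μ : Measure Y} [IsProbabilityMeasure μ] {y : Y → Fin N → ℝ} {ψ : Fin M → ℝ → ℝ}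

theorem integrable_exp_expo (hy : Measurable y) (hψ : ∀ a, Measurable (ψ a)) {K : Fin M → ℝ}
    (hK : ∀ a x, |ψ a x| ≤ K a) (g : Fin M → Fin N → ℝ) :
    Integrable (fun w => Real.exp (∑ a, ψ a (fld y (g a) w))) μ := by
  refine Integrable.of_bound (C := Real.exp (∑ a, K a))
    (Real.measurable_exp.comp (measurable_expo hy hψ g)).aestronglyMeasurable
    (Filter.Eventually.of_forall fun w => ?_)
  rw [Real.norm_eq_abs, abs_of_pos (Real.exp_pos _)]
  exact Real.exp_le_exp.mpr ((le_abs_self _).trans (abs_expo_le hK g w))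

theorem Zf_le (hy : Measurable y) (hψ : ∀ a, Measurable (ψ a)) {K : Fin M → ℝ}
    (hK : ∀ a x, |ψ a x| ≤ K a) (g : Fin M → Fin N → ℝ) :
    Zf μ y ψ g ≤ Real.exp (∑ a, K a) := by
  have := integral_mono (μ := μ) (integrable_exp_expo hy hψ hK g)
    (integrable_const (Real.exp (∑ a, K a)))
    (fun w => Real.exp_le_exp.mpr ((le_abs_self _).trans (abs_expo_le hK g w)))
  simpa [Zf] using this

theorem le_Zf (hy : Measurable y) (hψ : ∀ a, Measurable (ψ a)) {K : Fin M → ℝ}
    (hK : ∀ a x, |ψ a x| ≤ K a) (g : Fin M → Fin N → ℝ) :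
    Real.exp (-∑ a, K a) ≤ Zf μ y ψ g := by
  have := integral_mono (μ := μ) (integrable_const (Real.exp (-∑ a, K a)))
    (integrable_exp_expo hy hψ hK g)
    (fun w => Real.exp_le_exp.mpr (neg_le_of_abs_le (abs_expo_le hK g w)))
  simpa [Zf] using this

theorem Zf_pos (hy : Measurable y) (hψ : ∀ a, Measurable (ψ a)) {K : Fin M → ℝ}
    (hK : ∀ a x, |ψ a x| ≤ K a) (g : Fin M → Fin N → ℝ) : 0 < Zf μ y ψ g :=
  (Real.exp_pos _).trans_le (le_Zf hy hψ hK g)

theorem abs_logZ_le (hy : Measurable y) (hψ : ∀ a, Measurable (ψ a)) {K : Fin M → ℝ}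
    (hK : ∀ a x, |ψ a x| ≤ K a) (g : Fin M → Fin N → ℝ) :
    |logZ μ y ψ g| ≤ ∑ a, K a := by
  rw [abs_le]
  constructor
  · have := Real.log_le_log (Real.exp_pos _) (le_Zf (μ := μ) hy hψ hK g)
    rwa [Real.log_exp] at this
  · have := Real.log_le_log (Zf_pos (μ := μ) hy hψ hK g) (Zf_le (μ := μ) hy hψ hK g)
    rwa [Real.log_exp] at this

theorem measurable_Zf (hy : Measurable y) (hψ : ∀ a, Measurable (ψ a)) :
    Measurable (Zf μ y ψ) := by
  unfold Zf
  exact (Measurable.stronglyMeasurable
    (Real.measurable_exp.comp (measurable_expo_uncurry hy hψ))).integral_prod_right'.measurable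

theorem measurable_logZ (hy : Measurable y) (hψ : ∀ a, Measurable (ψ a)) :
    Measurable (logZ μ y ψ) :=
  Real.measurable_log.comp (measurable_Zf hy hψ)

theorem integrable_logZ (hy : Measurable y) (hψ : ∀ a, Measurable (ψ a)) {K : Fin M → ℝ}
    (hK : ∀ a x, |ψ a x| ≤ K a) (ρ : Measure (Fin M → Fin N → ℝ)) [IsFiniteMeasure ρ] :
    Integrable (logZ μ y ψ) ρ :=
  Integrable.of_bound (C := ∑ a, K a) (measurable_logZ hy hψ).aestronglyMeasurable
    (Filter.Eventually.of_forall fun g => by
      rw [Real.norm_eq_abs]; exact abs_logZ_le hy hψ hK g)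




end basic

end Crest.Agent.R146.Sph857
end

-- ▼ part R146/Sph2_857
section

/-!
# Row 146, package SPH (helper857), part 2: change of the potentials

`∫ |logZ ψ - logZ ψ'| ≤ ∑ a, exp (2 K_a) D_a` when `∫ |ψ_a - ψ'_a| (fld y r w) dG(r) ≤ D_a`
for every configuration `w`.
-/

set_option autoImplicit false
set_option linter.unusedSectionVars false

open MeasureTheory ProbabilityTheory Finset
open scoped ENNReal

namespace Crest.Agent.R146.Sph857

variable {Y : Type*} [MeasurableSpace Y] {N M : ℕ}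
variable {μ : Measure Y} [IsProbabilityMeasure μ] {y : Y → Fin N → ℝ}

theorem abs_log_sub_log_le {a b m : ℝ} (hm : 0 < m) (ha : m ≤ a) (hb : m ≤ b) :
    |Real.log a - Real.log b| ≤ |a - b| / m := by
  have ha0 : 0 < a := hm.trans_le ha
  have hb0 : 0 < b := hm.trans_le hb
  rw [abs_le]
  have key : ∀ {u v : ℝ}, m ≤ u → m ≤ v → Real.log u - Real.log v ≤ |u - v| / m := by
    intro u v hu hv
    have hu0 : 0 < u := hm.trans_le hu
    have hv0 : 0 < v := hm.trans_le hv
    rw [← Real.log_div hu0.ne' hv0.ne']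
    calc Real.log (u / v) ≤ u / v - 1 := Real.log_le_sub_one_of_pos (by positivity)
      _ = (u - v) / v := by field_simp
      _ ≤ |u - v| / v := by gcongr; exact le_abs_self _
      _ ≤ |u - v| / m := by gcongr
  refine ⟨?_, key ha hb⟩
  have := key hb ha
  rw [abs_sub_comm] at this
  linarith

theorem abs_exp_sub_exp_le {u v K : ℝ} (hu : |u| ≤ K) (hv : |v| ≤ K) :
    |Real.exp u - Real.exp v| ≤ Real.exp K * |u - v| := by
  have key : ∀ {u v : ℝ}, |u| ≤ K → |v| ≤ K →
      Real.exp u - Real.exp v ≤ Real.exp K * |u - v| := by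
    intro u v hu hv
    have h1 : Real.exp v = Real.exp u * Real.exp (v - u) := by rw [← Real.exp_add]; ring_nf
    have h2 : 1 + (v - u) ≤ Real.exp (v - u) := by linarith [Real.add_one_le_exp (v - u)]
    calc Real.exp u - Real.exp v = Real.exp u * (1 - Real.exp (v - u)) := by rw [h1]; ring
      _ ≤ Real.exp u * (u - v) := by
          apply mul_le_mul_of_nonneg_left _ (Real.exp_pos _).le; linarith
      _ ≤ Real.exp u * |u - v| := by gcongr; exact le_abs_self _
      _ ≤ Real.exp K * |u - v| := by gcongr; exact (le_abs_self _).trans hu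
  rw [abs_le]
  refine ⟨?_, key hu hv⟩
  have := key hv hu
  rw [abs_sub_comm] at this
  linarith





end Crest.Agent.R146.Sph857
end

-- ▼ part R146/Sph3_857
section

/-!
# Row 146, package SPH (helper857), part 3: the literal pressure

* `rowG N` standard Gaussian row, `map_rowG_sum` law of a linear form;
* `uS N` uniform probability on the unit sphere, `ys` coordinates;
* `EL N M ψ = E log Z` with row potentials `ψ a`;
* `spherePressure_eq`, `expectedPressure_eq`: the literal objects in terms of `logZ`, `EL`;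
* `pressureTailProb_tendsto_zero`: `E p_N → p` implies `p_N → p` in probability.
-/

set_option autoImplicit false
set_option linter.unusedSectionVars false

open MeasureTheory ProbabilityTheory Finset
open scoped ENNReal

namespace Crest.Agent.R146.Sph857

open Crest.ProbabilityR.Perceptron

/-- standard Gaussian row -/
noncomputable def rowG (N : ℕ) : Measure (Fin N → ℝ) := Measure.pi fun _ => gaussianReal 0 1

instance (N : ℕ) : IsProbabilityMeasure (rowG N) := by unfold rowG; infer_instance





/-! ### the sphere -/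

/-- uniform probability on the unit sphere -/
noncomputable def uS (N : ℕ) : Measure (UnitSphere N) :=
  ((sphereLaw N) Set.univ)⁻¹ • sphereLaw N

instance finite_sphereLaw (N : ℕ) : IsFiniteMeasure (sphereLaw N) := by
  unfold sphereLaw; infer_instance

theorem sphereLaw_univ_ne_zero {N : ℕ} (hN : N ≠ 0) : sphereLaw N Set.univ ≠ 0 := by
  unfold sphereLaw
  rw [Ne, Measure.measure_univ_eq_zero, Measure.toSphere_eq_zero_iff_finrank]
  simpa using hN

theorem isProbabilityMeasure_uS {N : ℕ} (hN : N ≠ 0) : IsProbabilityMeasure (uS N) := by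
  refine ⟨?_⟩
  unfold uS
  rw [Measure.smul_apply, smul_eq_mul]
  exact ENNReal.inv_mul_cancel (sphereLaw_univ_ne_zero hN) (measure_ne_top _ _)

instance (N : ℕ) [NeZero N] : IsProbabilityMeasure (uS N) := isProbabilityMeasure_uS (NeZero.ne N)

/-- coordinates of a point of the sphere -/
def ys {N : ℕ} (w : UnitSphere N) : Fin N → ℝ := fun i => (w : EuclideanSpace ℝ (Fin N)) i

theorem continuous_ys {N : ℕ} : Continuous (ys (N := N)) := by
  unfold ys
  refine continuous_pi fun i => ?_
  exact (EuclideanSpace.proj i : EuclideanSpace ℝ (Fin N) →L[ℝ] ℝ).continuous.comp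
    continuous_subtype_val

theorem measurable_ys {N : ℕ} : Measurable (ys (N := N)) := continuous_ys.measurable

theorem sum_ys_sq {N : ℕ} (w : UnitSphere N) : ∑ i, ys w i ^ 2 = 1 := by
  have h : ‖(w : EuclideanSpace ℝ (Fin N))‖ = 1 := by simp
  have := EuclideanSpace.real_norm_sq_eq (w : EuclideanSpace ℝ (Fin N))
  rw [h] at this
  simpa [ys] using this.symm


/-- mean log-partition function of the Gaussian spherical model with row potentials `ψ` -/
noncomputable def EL (N M : ℕ) (ψ : Fin M → ℝ → ℝ) : ℝ :=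
  ∫ g, logZ (uS N) ys ψ g ∂(Measure.pi fun _ : Fin M => rowG N)






end Crest.Agent.R146.Sph857
end

-- ▼ part R146/Disc_857
section

/-!
# Row 146 (helper857), task 4: DISC of `S6U_988` (fine configuration spaces on the sphere)
-/

set_option autoImplicit false
set_option linter.unusedSectionVars false
set_option linter.style.haveILetI false
set_option linter.unusedSimpArgs false

namespace Crest.Agent.R146.Disc857

open Finset MeasureTheory ProbabilityTheory Crest.Agent.R141
open Crest.Agent.R146.S6Def_988 Crest.Agent.R146.S6U_988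
open Crest.ProbabilityR.Perceptron
open Crest.Agent.R146.Sph857

theorem sph_eq_uS (N : ℕ) : sph N = uS N := rfl

theorem isProbabilityMeasure_sph {N : ℕ} (hN : N ≠ 0) : IsProbabilityMeasure (sph N) := by
  rw [sph_eq_uS]; exact isProbabilityMeasure_uS hN


/-- a measurable map of finite range close to the identity -/
theorem exists_simple (N : ℕ) (hN : 0 < N) {ε : ℝ} (hε : 0 < ε) :
    ∃ s : SimpleFunc (UnitSphere N) (UnitSphere N), ∀ w, dist (s w) w ≤ ε := by
  classical
  haveI : NeZero N := ⟨hN.ne'⟩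
  haveI : Nontrivial (EuclideanSpace ℝ (Fin N)) := by
    haveI : Nonempty (Fin N) := ⟨⟨0, hN⟩⟩
    infer_instance
  obtain ⟨w0⟩ : Nonempty (UnitSphere N) := by
    obtain ⟨x, hx⟩ := NormedSpace.sphere_nonempty (E := EuclideanSpace ℝ (Fin N)) (x := 0) (r := 1)
      |>.mpr zero_le_one
    exact ⟨⟨x, hx⟩⟩
  have hc : IsCompact (Set.univ : Set (UnitSphere N)) := isCompact_univ
  obtain ⟨t, -, htf, hcov⟩ := hc.finite_cover_balls hε
  set l := htf.toFinset.toList with hl
  set e : ℕ → UnitSphere N := fun k => l.getD k w0 with he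
  refine ⟨SimpleFunc.nearestPt e l.length, fun w => ?_⟩
  have hw : w ∈ ⋃ x ∈ t, Metric.ball x ε := hcov (Set.mem_univ w)
  simp only [Set.mem_iUnion, Metric.mem_ball] at hw
  obtain ⟨c, hct, hwc⟩ := hw
  have hcl : c ∈ l := by rw [hl, Finset.mem_toList]; exact htf.mem_toFinset.mpr hct
  obtain ⟨k, hk, hck⟩ := List.getElem_of_mem hcl
  have hek : e k = c := by rw [he]; simp only; rw [List.getD_eq_getElem _ _ hk, hck]
  have h1 := SimpleFunc.edist_nearestPt_le e w (k := k) (N := l.length) hk.le
  rw [hek] at h1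
  have h2 : edist (SimpleFunc.nearestPt e l.length w) w ≤ ENNReal.ofReal ε := by
    refine h1.trans ?_
    rw [edist_dist, dist_comm]
    exact ENNReal.ofReal_le_ofReal hwc.le
  rwa [edist_dist, ENNReal.ofReal_le_ofReal_iff hε.le] at h2

section
variable {N : ℕ}

/-- atoms of positive mass -/
noncomputable def atoms (s : SimpleFunc (UnitSphere N) (UnitSphere N)) : Finset (UnitSphere N) := by
  classical
  exact s.range.filter fun c => 0 < (sph N).real (s ⁻¹' {c})

theorem integral_simple_comp (hN : N ≠ 0) (s : SimpleFunc (UnitSphere N) (UnitSphere N))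
    (F : UnitSphere N → ℝ) :
    ∫ w, F (s w) ∂(sph N) = ∑ c ∈ s.range, (sph N).real (s ⁻¹' {c}) * F c := by
  classical
  haveI := isProbabilityMeasure_sph hN
  have h1 : ∀ w, F (s w) = ∑ c ∈ s.range, (s ⁻¹' {c}).indicator (fun _ => F c) w := by
    intro w
    rw [Finset.sum_eq_single (s w)]
    · rw [Set.indicator_of_mem]; simp
    · intro c _ hc
      rw [Set.indicator_of_notMem]
      simp only [Set.mem_preimage, Set.mem_singleton_iff]
      exact fun h => hc h.symm
    · intro h; exact absurd (SimpleFunc.mem_range_self s w) h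
  simp_rw [h1]
  rw [integral_finsetSum]
  · refine Finset.sum_congr rfl fun c _ => ?_
    rw [integral_indicator_const _ (s.measurableSet_preimage _), smul_eq_mul]
  · intro c _
    exact (integrable_const _).indicator (s.measurableSet_preimage _)

theorem sum_atoms (s : SimpleFunc (UnitSphere N) (UnitSphere N)) (F : UnitSphere N → ℝ) :
    ∑ c ∈ s.range, (sph N).real (s ⁻¹' {c}) * F c =
      ∑ c ∈ atoms s, (sph N).real (s ⁻¹' {c}) * F c := by
  classical
  unfold atoms
  rw [Finset.sum_filter]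
  refine Finset.sum_congr rfl fun c _ => ?_
  split_ifs with h
  · rfl
  · have h0 : (sph N).real (s ⁻¹' {c}) = 0 :=
      le_antisymm (not_lt.mp h) measureReal_nonneg
    rw [h0, zero_mul]

/-- the configuration space of a simple map -/
noncomputable def cfgOf (hN : N ≠ 0) (s : SimpleFunc (UnitSphere N) (UnitSphere N)) : Cfg N where
  Y := {c // c ∈ atoms s}
  fY := inferInstance
  nY := by
    classical
    haveI := isProbabilityMeasure_sph hN
    by_contra hne
    rw [not_nonempty_iff] at hne
    have h1 := integral_simple_comp hN s (fun _ => 1)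
    rw [sum_atoms] at h1
    have h2 : ∑ c ∈ atoms s, (sph N).real (s ⁻¹' {c}) * 1 = 0 := by
      rw [← Finset.sum_coe_sort]
      exact Fintype.sum_empty _
    rw [h2] at h1
    simp at h1
  q c := (sph N).real (s ⁻¹' {c.1})
  hq := by
    classical
    haveI := isProbabilityMeasure_sph hN
    refine ⟨fun c => ?_, ?_⟩
    · have := c.2
      unfold atoms at this
      exact (Finset.mem_filter.mp this).2
    · have h1 := integral_simple_comp hN s (fun _ => 1)
      rw [sum_atoms] at h1
      simp only [mul_one, integral_const, probReal_univ, smul_eq_mul, one_mul] at h1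
      rw [Finset.sum_coe_sort (atoms s) (fun c => (sph N).real (s ⁻¹' {c}))]
      exact h1.symm
  x c i := Real.sqrt N * ys c.1 i
  hx c := by
    have h1 := sum_ys_sq c.1
    simp only [mul_pow, ← Finset.mul_sum, h1, mul_one]
    exact Real.sq_sqrt (Nat.cast_nonneg N)

theorem abs_ys_sub_le (v w : UnitSphere N) (i : Fin N) : |ys v i - ys w i| ≤ dist v w := by
  have h1 : dist v w = ‖(v : EuclideanSpace ℝ (Fin N)) - (w : EuclideanSpace ℝ (Fin N))‖ := by
    rw [Subtype.dist_eq, dist_eq_norm]
  rw [h1, ← Real.norm_eq_abs]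
  exact PiLp.norm_apply_le ((v : EuclideanSpace ℝ (Fin N)) - (w : EuclideanSpace ℝ (Fin N))) i

theorem continuous_of_l1 {F : (Fin N → ℝ) → ℝ} (hF : ∀ u v, |F u - F v| ≤ ∑ i, |u i - v i|) :
    Continuous F := by
  rw [Metric.continuous_iff]
  intro b ε hε
  refine ⟨ε / (N + 1), by positivity, fun a ha => ?_⟩
  rw [Real.dist_eq]
  calc |F a - F b| ≤ ∑ i, |a i - b i| := hF a b
    _ ≤ ∑ _i : Fin N, ε / (N + 1) := Finset.sum_le_sum fun i _ => by
        have := dist_le_pi_dist a b i
        rw [Real.dist_eq] at this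
        linarith
    _ = N * (ε / (N + 1)) := by simp
    _ < ε := by
        rw [mul_div_assoc', div_lt_iff₀ (by positivity)]
        nlinarith

theorem near_cfgOf (hN : 0 < N) (s : SimpleFunc (UnitSphere N) (UnitSphere N)) {ε : ℝ}
    (hs : ∀ w, dist (s w) w ≤ ε) : Near (cfgOf hN.ne' s) (Real.sqrt N * (N * ε)) := by
  classical
  haveI := isProbabilityMeasure_sph hN.ne'
  intro F hF
  have hFc := continuous_of_l1 hF
  set H : UnitSphere N → ℝ := fun w => F (fun i => Real.sqrt N * ys w i) with hH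
  have hHc : Continuous H := hFc.comp (continuous_pi fun i =>
    continuous_const.mul ((continuous_apply i).comp continuous_ys))
  have hHi : Integrable H (sph N) := hHc.integrable_of_hasCompactSupport
    (HasCompactSupport.of_compactSpace _)
  have hb : ∀ w, |H (s w) - H w| ≤ Real.sqrt N * (N * ε) := by
    intro w
    calc |H (s w) - H w| ≤ ∑ i, |Real.sqrt N * ys (s w) i - Real.sqrt N * ys w i| := hF _ _
      _ ≤ ∑ _i : Fin N, Real.sqrt N * ε := Finset.sum_le_sum fun i _ => by
          rw [← mul_sub, abs_mul, abs_of_nonneg (Real.sqrt_nonneg _)]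
          exact mul_le_mul_of_nonneg_left ((abs_ys_sub_le _ _ i).trans (hs w)) (Real.sqrt_nonneg _)
      _ = Real.sqrt N * (N * ε) := by simp; ring
  have h1 : ∑ y, (cfgOf hN.ne' s).q y * F ((cfgOf hN.ne' s).x y) = ∫ w, H (s w) ∂(sph N) := by
    rw [integral_simple_comp hN.ne' s H, sum_atoms,
      ← Finset.sum_coe_sort (atoms s) (fun c => (sph N).real (s ⁻¹' {c}) * H c)]
    rfl
  have h2 : ∫ y, F (fun i => Real.sqrt N * (y : EuclideanSpace ℝ (Fin N)) i) ∂(sph N) =
      ∫ w, H w ∂(sph N) := rfl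
  have hsi : Integrable (fun w => H (s w)) (sph N) := by
    refine Integrable.of_bound (C := ∑ c ∈ s.range, |H c|)
      (hHc.measurable.comp s.measurable).aestronglyMeasurable (Filter.Eventually.of_forall fun w => ?_)
    rw [Real.norm_eq_abs]
    exact Finset.single_le_sum (f := fun c => |H c|) (fun c _ => abs_nonneg _)
      (SimpleFunc.mem_range_self s w)
  rw [h1, h2, ← integral_sub hsi hHi]
  calc |∫ w, (H (s w) - H w) ∂(sph N)| ≤ ∫ w, |H (s w) - H w| ∂(sph N) :=
        abs_integral_le_integral_abs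
    _ ≤ ∫ _w, Real.sqrt N * (N * ε) ∂(sph N) :=
        integral_mono (hsi.sub hHi).abs (integrable_const _) hb
    _ = Real.sqrt N * (N * ε) := by simp

end

/-- **(DISC)** -/
theorem disc : DISC := by
  intro N hN δ hδ
  have hpos : 0 < Real.sqrt N * N + 1 := by positivity
  obtain ⟨s, hs⟩ := exists_simple N hN (ε := δ / (Real.sqrt N * N + 1)) (by positivity)
  refine ⟨cfgOf hN.ne' s, ?_⟩
  intro F hF
  refine (near_cfgOf hN s hs F hF).trans ?_
  calc Real.sqrt N * (N * (δ / (Real.sqrt N * N + 1)))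
      = (Real.sqrt N * N) / (Real.sqrt N * N + 1) * δ := by ring
    _ ≤ 1 * δ := by
        gcongr
        rw [div_le_one hpos]; linarith
    _ = δ := one_mul δ

end Crest.Agent.R146.Disc857
end

-- ▼ part R146/PLim_857

/-!
# Row 146 (helper857), task 4: PLIM of `S6U_988` (pressure of fine configuration spaces)
-/

set_option autoImplicit false
set_option linter.unusedSectionVars false
set_option linter.style.haveILetI false
set_option linter.unusedSimpArgs false

namespace Crest.Agent.R146.PLim857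

open Finset MeasureTheory ProbabilityTheory Crest.Agent.R141
open Crest.Agent.R146.S6Def_988 Crest.Agent.R146.S6U_988
open Crest.ProbabilityR.Perceptron
open Crest.Agent.R146.Sph857 Crest.Agent.R146.Disc857

variable {N M : ℕ}

theorem measurable_BL {K L : ℝ} {f : ℝ → ℝ} (hf : BL K L f) : Measurable f := by
  have hL : 0 ≤ L := by
    have := hf.lip 1 0
    have h0 := abs_nonneg (f 1 - f 0)
    simp at this
    linarith
  have : LipschitzWith (Real.toNNReal L) f := LipschitzWith.of_dist_le_mul fun x y => by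
    rw [Real.coe_toNNReal _ hL, Real.dist_eq, Real.dist_eq]
    exact hf.lip x y
  exact this.continuous.measurable

theorem BL_nonneg {K L : ℝ} {f : ℝ → ℝ} (hf : BL K L f) : 0 ≤ K ∧ 0 ≤ L := by
  refine ⟨(abs_nonneg _).trans (hf.bd 0), ?_⟩
  have := hf.lip 1 0
  have h0 := abs_nonneg (f 1 - f 0)
  simp at this
  linarith

theorem abs_rowE_le {K : ℝ} {f : ℕ → ℝ → ℝ} (hf : ∀ a x, |f a x| ≤ K) (G : Fin M → Fin N → ℝ)
    (x : Fin N → ℝ) : |rowE f G x| ≤ K * M := by
  unfold rowE
  calc |∑ a : Fin M, f a (∑ i, G a i * (x i / Real.sqrt N))|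
      ≤ ∑ a : Fin M, |f a (∑ i, G a i * (x i / Real.sqrt N))| := Finset.abs_sum_le_sum_abs _ _
    _ ≤ ∑ _a : Fin M, K := Finset.sum_le_sum fun a _ => hf _ _
    _ = K * M := by simp [mul_comm]

theorem rowE_sub_le {K L : ℝ} {f : ℕ → ℝ → ℝ} (hf : ∀ a, BL K L (f a)) (hN : 0 < N)
    (G : Fin M → Fin N → ℝ) (u v : Fin N → ℝ) :
    |rowE f G u - rowE f G v| ≤ (L * ∑ a, ∑ i, |G a i|) * ∑ i, |u i - v i| := by
  have hL : 0 ≤ L := (BL_nonneg (hf 0)).2
  have hs : 1 ≤ Real.sqrt N := by
    rw [Real.one_le_sqrt]; exact_mod_cast hN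
  unfold rowE
  rw [← Finset.sum_sub_distrib]
  refine (Finset.abs_sum_le_sum_abs _ _).trans ?_
  rw [mul_assoc, Finset.sum_mul, Finset.mul_sum]
  refine Finset.sum_le_sum fun a _ => ?_
  refine ((hf a).lip _ _).trans ?_
  rw [← Finset.sum_sub_distrib]
  refine mul_le_mul_of_nonneg_left ?_ hL
  refine (Finset.abs_sum_le_sum_abs _ _).trans ?_
  rw [Finset.mul_sum]
  refine Finset.sum_le_sum fun i _ => ?_
  rw [← mul_sub, abs_mul, ← sub_div, abs_div, abs_of_nonneg (Real.sqrt_nonneg _)]
  refine mul_le_mul ?_ ?_ (by positivity) (Finset.sum_nonneg fun j _ => abs_nonneg _)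
  · exact Finset.single_le_sum (f := fun j => |G a j|) (fun j _ => abs_nonneg _) (Finset.mem_univ i)
  · exact div_le_self (abs_nonneg _) hs

/-- finite and spherical partition functions are close -/
theorem Z_close {K L δ : ℝ} {f : ℕ → ℝ → ℝ} (hf : ∀ a, BL K L (f a)) (hN : 0 < N)
    {C : Cfg N} (hC : Near C δ) (G : Fin M → Fin N → ℝ) :
    |∑ y, C.q y * Real.exp (rowE (M := M) f G (C.x y)) -
      ∫ y, Real.exp (∑ a : Fin M, f a (∑ i, G a i * (y : EuclideanSpace ℝ (Fin N)) i)) ∂(sph N)| ≤
      Real.exp (K * M) * (L * ∑ a, ∑ i, |G a i| + 1) * δ := by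
  have hL : 0 ≤ L := (BL_nonneg (hf 0)).2
  set Λ : ℝ := Real.exp (K * M) * (L * ∑ a, ∑ i, |G a i| + 1) with hΛ
  have hS : 0 ≤ ∑ a, ∑ i, |G a i| := Finset.sum_nonneg fun a _ => Finset.sum_nonneg fun i _ =>
    abs_nonneg _
  have hΛ0 : 0 < Λ := by positivity
  have hlip : ∀ u v : Fin N → ℝ, |Real.exp (rowE (M := M) f G u) - Real.exp (rowE (M := M) f G v)| ≤
      Λ * ∑ i, |u i - v i| := by
    intro u v
    have h1 := abs_exp_sub_exp_le (abs_rowE_le (M := M) (fun a => (hf a).bd) G u)
      (abs_rowE_le (M := M) (fun a => (hf a).bd) G v)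
    refine h1.trans ?_
    rw [hΛ, mul_assoc]
    refine mul_le_mul_of_nonneg_left ((rowE_sub_le hf hN G u v).trans ?_) (Real.exp_pos _).le
    refine mul_le_mul_of_nonneg_right ?_ (Finset.sum_nonneg fun i _ => abs_nonneg _)
    linarith
  have h2 := hC (fun x => Λ⁻¹ * Real.exp (rowE (M := M) f G x)) (fun u v => by
    rw [← mul_sub, abs_mul, abs_of_pos (inv_pos.mpr hΛ0), inv_mul_le_iff₀ hΛ0]
    exact hlip u v)
  have h3 : ∑ y, C.q y * (Λ⁻¹ * Real.exp (rowE (M := M) f G (C.x y))) =
      Λ⁻¹ * ∑ y, C.q y * Real.exp (rowE (M := M) f G (C.x y)) := by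
    rw [Finset.mul_sum]; exact Finset.sum_congr rfl fun y _ => by ring
  have h4 : ∫ y, Λ⁻¹ * Real.exp (rowE (M := M) f G
      (fun i => Real.sqrt N * (y : EuclideanSpace ℝ (Fin N)) i)) ∂(sph N) =
      Λ⁻¹ * ∫ y, Real.exp (∑ a : Fin M, f a (∑ i, G a i * (y : EuclideanSpace ℝ (Fin N)) i)) ∂(sph N) := by
    rw [integral_const_mul]
    congr 1
    refine integral_congr_ae (Filter.Eventually.of_forall fun y => ?_)
    simp only [rowE]
    congr 1
    refine Finset.sum_congr rfl fun a _ => ?_
    congr 1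
    refine Finset.sum_congr rfl fun i _ => ?_
    have : (0 : ℝ) < Real.sqrt N := Real.sqrt_pos.mpr (by exact_mod_cast hN)
    field_simp
  rw [h3, h4, ← mul_sub, abs_mul, abs_of_pos (inv_pos.mpr hΛ0), inv_mul_le_iff₀ hΛ0] at h2
  linarith

theorem sum_q_lower {K : ℝ} {f : ℕ → ℝ → ℝ} (hf : ∀ a x, |f a x| ≤ K) (C : Cfg N)
    (G : Fin M → Fin N → ℝ) :
    Real.exp (-(K * M)) ≤ ∑ y, C.q y * Real.exp (rowE (M := M) f G (C.x y)) := by
  calc Real.exp (-(K * M)) = ∑ y, C.q y * Real.exp (-(K * M)) := by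
        rw [← Finset.sum_mul, C.hq.sum, one_mul]
    _ ≤ _ := Finset.sum_le_sum fun y _ => mul_le_mul_of_nonneg_left
        (Real.exp_le_exp.mpr (neg_le_of_abs_le (abs_rowE_le hf G _))) (C.hq.pos y).le

theorem sum_q_upper {K : ℝ} {f : ℕ → ℝ → ℝ} (hf : ∀ a x, |f a x| ≤ K) (C : Cfg N)
    (G : Fin M → Fin N → ℝ) :
    ∑ y, C.q y * Real.exp (rowE (M := M) f G (C.x y)) ≤ Real.exp (K * M) := by
  calc _ ≤ ∑ y, C.q y * Real.exp (K * M) :=
        Finset.sum_le_sum fun y _ => mul_le_mul_of_nonneg_left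
          (Real.exp_le_exp.mpr ((le_abs_self _).trans (abs_rowE_le hf G _))) (C.hq.pos y).le
    _ = Real.exp (K * M) := by rw [← Finset.sum_mul, C.hq.sum, one_mul]

theorem measurable_rowE {f : ℕ → ℝ → ℝ} (hf : ∀ a, Measurable (f a)) (x : Fin N → ℝ) :
    Measurable (fun G : Fin M → Fin N → ℝ => rowE f G x) := by
  unfold rowE
  refine Finset.measurable_sum _ fun a _ => (hf a).comp ?_
  refine Finset.measurable_sum _ fun i _ => ?_
  exact ((measurable_pi_apply i).comp (measurable_pi_apply a)).mul_const _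

theorem measurable_logC {f : ℕ → ℝ → ℝ} (hf : ∀ a, Measurable (f a)) (C : Cfg N) :
    Measurable (fun G : Fin M → Fin N → ℝ =>
      Real.log (∑ y, C.q y * Real.exp (rowE (M := M) f G (C.x y)))) := by
  refine Real.measurable_log.comp (Finset.measurable_sum _ fun y _ => ?_)
  exact (Real.measurable_exp.comp (measurable_rowE hf _)).const_mul _

instance (M N : ℕ) : IsProbabilityMeasure (gam M N) := by unfold gam; infer_instance

theorem integrable_abs_entry (M N : ℕ) (a : Fin M) (i : Fin N) :
    Integrable (fun G : Fin M → Fin N → ℝ => |G a i|) (gam M N) ∧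
      ∫ G, |G a i| ∂(gam M N) ≤ 1 := by
  have hmp : MeasurePreserving (fun G : Fin M → Fin N → ℝ => G a i) (gam M N) (gaussianReal 0 1) := by
    have h1 : MeasurePreserving (Function.eval a) (gam M N)
        (Measure.pi fun _ : Fin N => gaussianReal 0 1) :=
      measurePreserving_eval (μ := fun _ : Fin M => Measure.pi fun _ : Fin N => gaussianReal 0 1) a
    have h2 : MeasurePreserving (Function.eval i) (Measure.pi fun _ : Fin N => gaussianReal 0 1)
        (gaussianReal 0 1) :=
      measurePreserving_eval (μ := fun _ : Fin N => gaussianReal 0 1) i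
    exact h2.comp h1
  have hsq : Integrable (fun x : ℝ => x ^ 2) (gaussianReal 0 1) :=
    (memLp_id_gaussianReal 2).integrable_sq
  have hsq1 : ∫ x, x ^ 2 ∂(gaussianReal 0 1) = 1 := by
    have h := variance_fun_id_gaussianReal (μ := 0) (v := 1)
    rw [variance_eq_integral (by fun_prop)] at h
    simpa using h
  have hi : Integrable (fun x : ℝ => |x|) (gaussianReal 0 1) :=
    ((memLp_id_gaussianReal 1).integrable le_rfl).abs
  refine ⟨hmp.integrable_comp_of_integrable hi, ?_⟩
  have h1 : ∫ G, |G a i| ∂(gam M N) = ∫ x, |x| ∂(gaussianReal 0 1) := by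
    rw [← hmp.map_eq, integral_map hmp.measurable.aemeasurable (by fun_prop)]
  rw [h1]
  have h2 : ∫ x, |x| ∂(gaussianReal 0 1) ≤ ∫ x, (1 + x ^ 2) / 2 ∂(gaussianReal 0 1) := by
    refine integral_mono hi (((integrable_const _).add hsq).div_const _) fun x => ?_
    simp only
    nlinarith [sq_nonneg (|x| - 1), sq_abs x]
  refine h2.trans ?_
  rw [integral_div, integral_add (integrable_const _) hsq, hsq1]
  simp

/-- **(PLIM)** -/
theorem plim : PLIM := by
  intro N K L M ε hN hε
  set B : ℝ := Real.exp (|K| * M) * (Real.exp (|K| * M) * (|L| * (M * N) + 1)) with hB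
  have hB0 : 0 < B := by positivity
  refine ⟨ε / B, by positivity, ?_⟩
  intro f hf C hC
  haveI := isProbabilityMeasure_sph hN.ne'
  obtain ⟨hK, hL⟩ := BL_nonneg (hf 0)
  have hfm : ∀ a, Measurable (f a) := fun a => measurable_BL (hf a)
  have hfb : ∀ a x, |f a x| ≤ K := fun a => (hf a).bd
  set δ := ε / B with hδ
  have hδ0 : 0 < δ := by positivity
  set Z1 : (Fin M → Fin N → ℝ) → ℝ := fun G =>
    ∫ y, Real.exp (∑ a : Fin M, f a (∑ i, G a i * (y : EuclideanSpace ℝ (Fin N)) i)) ∂(sph N) with hZ1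
  set Z2 : (Fin M → Fin N → ℝ) → ℝ := fun G =>
    ∑ y, C.q y * Real.exp (rowE (M := M) f G (C.x y)) with hZ2
  have hZ1' : ∀ G, Z1 G = Zf (uS N) ys (fun a : Fin M => f a) G := fun G => rfl
  have hlow1 : ∀ G, Real.exp (-(K * M)) ≤ Z1 G := by
    intro G
    haveI := isProbabilityMeasure_uS hN.ne'
    have := le_Zf (μ := uS N) (y := ys) (ψ := fun a : Fin M => f a) (K := fun _ => K) measurable_ys
      (fun a => hfm a) (fun a x => hfb a x) G
    rw [hZ1']
    simpa [mul_comm] using this
  have hlog : ∀ G, |Real.log (Z1 G) - Real.log (Z2 G)| ≤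
      Real.exp (K * M) * (Real.exp (K * M) * (L * ∑ a, ∑ i, |G a i| + 1)) * δ := by
    intro G
    refine (abs_log_sub_log_le (Real.exp_pos _) (hlow1 G) (sum_q_lower hfb C G)).trans ?_
    rw [abs_sub_comm, Real.exp_neg, div_inv_eq_mul]
    have := Z_close hf hN hC G
    calc |Z2 G - Z1 G| * Real.exp (K * M)
        ≤ (Real.exp (K * M) * (L * ∑ a, ∑ i, |G a i| + 1) * δ) * Real.exp (K * M) := by
          gcongr
      _ = _ := by ring
  have hi1 : Integrable (fun G => Real.log (Z1 G)) (gam M N) := by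
    haveI := isProbabilityMeasure_uS hN.ne'
    exact integrable_logZ (μ := uS N) (y := ys) (ψ := fun a : Fin M => f a) (K := fun _ => K)
      measurable_ys (fun a => hfm a) (fun a x => hfb a x) (gam M N)
  have hi2 : Integrable (fun G => Real.log (Z2 G)) (gam M N) := by
    refine Integrable.of_bound (C := K * M) (measurable_logC hfm C).aestronglyMeasurable
      (Filter.Eventually.of_forall fun G => ?_)
    rw [Real.norm_eq_abs, abs_le]
    have h0 : 0 < Z2 G := (Real.exp_pos _).trans_le (sum_q_lower hfb C G)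
    constructor
    · have := Real.log_le_log (Real.exp_pos _) (sum_q_lower (M := M) hfb C G)
      rwa [Real.log_exp] at this
    · have := Real.log_le_log h0 (sum_q_upper (M := M) hfb C G)
      rwa [Real.log_exp] at this
  have hsumi : Integrable (fun G : Fin M → Fin N → ℝ => ∑ a, ∑ i, |G a i|) (gam M N) :=
    integrable_finsetSum _ fun a _ => integrable_finsetSum _ fun i _ =>
      (integrable_abs_entry M N a i).1
  have hsum : ∫ G, (∑ a : Fin M, ∑ i : Fin N, |G a i|) ∂(gam M N) ≤ M * N := by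
    rw [integral_finsetSum _ fun a _ => integrable_finsetSum _ fun i _ =>
      (integrable_abs_entry M N a i).1]
    calc ∑ a : Fin M, ∫ G, (∑ i : Fin N, |G a i|) ∂(gam M N)
        ≤ ∑ _a : Fin M, (N : ℝ) := Finset.sum_le_sum fun a _ => by
          rw [integral_finsetSum _ fun i _ => (integrable_abs_entry M N a i).1]
          calc ∑ i : Fin N, ∫ G, |G a i| ∂(gam M N) ≤ ∑ _i : Fin N, (1 : ℝ) :=
                Finset.sum_le_sum fun i _ => (integrable_abs_entry M N a i).2
            _ = N := by simp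
      _ = M * N := by simp
  have hmain : |∫ G, Real.log (Z1 G) ∂(gam M N) - ∫ G, Real.log (Z2 G) ∂(gam M N)| ≤ ε := by
    rw [← integral_sub hi1 hi2]
    calc |∫ G, (Real.log (Z1 G) - Real.log (Z2 G)) ∂(gam M N)|
        ≤ ∫ G, |Real.log (Z1 G) - Real.log (Z2 G)| ∂(gam M N) := abs_integral_le_integral_abs
      _ ≤ ∫ G, Real.exp (K * M) * (Real.exp (K * M) * (L * ∑ a, ∑ i, |G a i| + 1)) * δ
            ∂(gam M N) := by
          refine integral_mono (hi1.sub hi2).abs ?_ hlog
          exact ((((hsumi.const_mul L).add (integrable_const 1)).const_mul _).const_mul _).mul_const _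
      _ = Real.exp (K * M) * (Real.exp (K * M) *
            (L * ∫ G, (∑ a : Fin M, ∑ i : Fin N, |G a i|) ∂(gam M N) + 1)) * δ := by
          rw [integral_mul_const, integral_const_mul, integral_const_mul,
            integral_add (hsumi.const_mul L) (integrable_const 1), integral_const_mul]
          simp
      _ ≤ B * δ := by
          rw [hB, abs_of_nonneg hK, abs_of_nonneg hL]
          gcongr
      _ = ε := by rw [hδ]; field_simp
  unfold pN pC
  rw [← mul_sub, abs_mul, abs_of_nonneg (by positivity : (0 : ℝ) ≤ (N : ℝ)⁻¹)]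
  calc (N : ℝ)⁻¹ * |∫ G, Real.log (Z1 G) ∂(gam M N) - ∫ G, Real.log (Z2 G) ∂(gam M N)|
      ≤ 1 * ε := by
        gcongr
        rw [inv_le_one₀ (by positivity)]
        exact_mod_cast hN
    _ = ε := one_mul ε

end Crest.Agent.R146.PLim857
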