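import Crest.Agent.R146.S6U_988
import Crest.Agent.R164.CavG8

/-!
Row 146, statement S0206, task S6-TRANS (helper944): transfer of replica expectations between a law
`P` and its tilt `tl P 𝓕 x V` with `|V| ≤ v`; pair form of the overlap concentration ⇒ overlap form
and purity (`CavG.pur`), hence a bound for `CavG.Dev`.
-/

set_option autoImplicit false

namespace Crest.Agent.R146.S6Trans_944

open Finset Crest.Agent.R141
open Crest.Agent.R146.S6U_988 (pE)
open Crest.Agent.R164.CavG (ip cEv dv cvr pur cE2_sq XX Dev)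

noncomputable section

variable {Ω : Type} [Fintype Ω] {P : Ω → ℝ} {r : Setoid Ω}

/-! ### two and four replicas -/

theorem pE_mono (hP : IsProb P) {f g : Ω → Ω → ℝ} (h : ∀ a b, r a b → f a b ≤ g a b) :
    pE P r f ≤ pE P r g :=
  eE_mono hP fun a => cE_mono hP a fun b hb => h a b hb

theorem pE_nonneg (hP : IsProb P) {f : Ω → Ω → ℝ} (h : ∀ a b, 0 ≤ f a b) : 0 ≤ pE P r f :=
  eE_nonneg hP fun a => cE_nonneg hP (fun b => h a b) a

theorem pE_const (hP : IsProb P) (c : ℝ) : pE P r (fun _ _ => c) = c := by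
  unfold pE
  simp_rw [cE_const hP]
  exact eE_const hP c

theorem pE_add (f g : Ω → Ω → ℝ) : pE P r (fun a b => f a b + g a b) = pE P r f + pE P r g := by
  unfold pE
  simp_rw [cE_add]
  rw [eE_add]

theorem pE_smul (c : ℝ) (f : Ω → Ω → ℝ) : pE P r (fun a b => c * f a b) = c * pE P r f := by
  unfold pE
  simp_rw [cE_smul]
  rw [eE_smul]

theorem pE_fst (hP : IsProb P) (f : Ω → ℝ) : pE P r (fun a _ => f a) = eE P f := by
  unfold pE
  simp_rw [cE_const hP]

theorem pE_snd (hP : IsProb P) (f : Ω → ℝ) : pE P r (fun _ b => f b) = eE P f := by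
  unfold pE
  exact eE_cE hP r f


variable {𝓕 : Filt Ω} {x : ℕ → ℝ}

/-- (T1) two replicas -/
theorem pE_le_tl (hP : IsProb P) (hx : IsExpo x) {V : Ω → ℝ} {v : ℝ} (h : ∀ ω, |V ω| ≤ v)
    {f : Ω → Ω → ℝ} (hf : ∀ a b, 0 ≤ f a b) (k : ℕ) :
    pE P (𝓕.F k) f ≤ Real.exp (4 * v) * pE (tl P 𝓕 x V) (𝓕.F k) f := by
  have hQ := tl_isProb (𝓕 := 𝓕) hP hx.pos V
  unfold pE
  calc eE P (fun a => cE P (𝓕.F k) (fun b => f a b) a)
      ≤ Real.exp (2 * v) * eE (tl P 𝓕 x V) (fun a => cE P (𝓕.F k) (fun b => f a b) a) :=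
        eE_le_tl hP hx h fun a => cE_nonneg hP (fun b => hf a b) a
    _ ≤ Real.exp (2 * v) * eE (tl P 𝓕 x V)
        (fun a => Real.exp (2 * v) * cE (tl P 𝓕 x V) (𝓕.F k) (fun b => f a b) a) := by
        refine mul_le_mul_of_nonneg_left (eE_mono hQ fun a => ?_) (Real.exp_pos _).le
        exact cE_le_tl hP hx h (fun b => hf a b) k a
    _ = _ := by
        rw [eE_smul, ← mul_assoc, ← Real.exp_add]
        congr 2
        ring

/-- (T1) two replicas, the other direction -/
theorem pE_tl_le (hP : IsProb P) (hx : IsExpo x) {V : Ω → ℝ} {v : ℝ} (h : ∀ ω, |V ω| ≤ v)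
    {f : Ω → Ω → ℝ} (hf : ∀ a b, 0 ≤ f a b) (k : ℕ) :
    pE (tl P 𝓕 x V) (𝓕.F k) f ≤ Real.exp (4 * v) * pE P (𝓕.F k) f := by
  have hQ := tl_isProb (𝓕 := 𝓕) hP hx.pos V
  unfold pE
  calc eE (tl P 𝓕 x V) (fun a => cE (tl P 𝓕 x V) (𝓕.F k) (fun b => f a b) a)
      ≤ Real.exp (2 * v) * eE P (fun a => cE (tl P 𝓕 x V) (𝓕.F k) (fun b => f a b) a) :=
        eE_tl_le hP hx h fun a => cE_nonneg hQ (fun b => hf a b) a
    _ ≤ Real.exp (2 * v) * eE P
        (fun a => Real.exp (2 * v) * cE P (𝓕.F k) (fun b => f a b) a) := by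
        refine mul_le_mul_of_nonneg_left (eE_mono hP fun a => ?_) (Real.exp_pos _).le
        exact cE_tl_le hP hx h (fun b => hf a b) k a
    _ = _ := by
        rw [eE_smul, ← mul_assoc, ← Real.exp_add]
        congr 2
        ring



/-! ### from the pair form to the overlap form and to purity -/

section pair

variable {κ : Type*} [Fintype κ]

/-- the overlap of two configurations -/
def ov (x : Ω → κ → ℝ) (a b : Ω) : ℝ := ∑ i, x a i * x b i

/-- squared norm of the conditional mean -/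
def msq (P : Ω → ℝ) (r : Setoid Ω) (x : Ω → κ → ℝ) (ω : Ω) : ℝ := ∑ i, cE P r (fun a => x a i) ω ^ 2


theorem cE_ov (x : Ω → κ → ℝ) (a w : Ω) :
    cE P r (fun b => ov x a b) w = ∑ i, x a i * cE P r (fun b => x b i) w := by
  unfold ov
  rw [cE_sum]
  exact Finset.sum_congr rfl fun i _ => cE_smul _ _ _ _ _

/-- the conditional expectation of the overlap of two copies -/
theorem cE_cE_ov (x : Ω → κ → ℝ) (ω : Ω) :
    cE P r (fun a => cE P r (fun b => ov x a b) a) ω = msq P r x ω := by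
  have h1 : ∀ a, cE P r (fun b => ov x a b) a =
      ∑ i, x a i * cE P r (fun b => x b i) a := fun a => cE_ov x a a
  simp_rw [h1]
  rw [cE_sum]
  unfold msq
  refine Finset.sum_congr rfl fun i _ => ?_
  rw [cE_mul_right (cE_meas P r _)]
  ring

/-- (T2a) -/
theorem msq_sub_le (hP : IsProb P) (x : Ω → κ → ℝ) (c : ℝ) :
    eE P (fun ω => |msq P r x ω - c|) ≤ pE P r (fun a b => |ov x a b - c|) := by
  have h1 : ∀ ω, |msq P r x ω - c| ≤
      cE P r (fun a => cE P r (fun b => |ov x a b - c|) a) ω := by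
    intro ω
    have e : msq P r x ω - c = cE P r (fun a => cE P r (fun b => ov x a b - c) a) ω := by
      have h2 : ∀ a, cE P r (fun b => ov x a b - c) a = cE P r (fun b => ov x a b) a - c := by
        intro a
        rw [cE_sub, cE_const hP]
      simp_rw [h2]
      rw [cE_sub, cE_const hP, cE_cE_ov]
    rw [e]
    refine (cE_abs_le hP _ ω).trans (cE_mono hP ω fun a _ => ?_)
    exact cE_abs_le hP _ a
  refine (eE_mono hP h1).trans (le_of_eq ?_)
  rw [eE_cE hP]
  rfl

omit [Fintype Ω] in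
theorem ov_abs_le {x : Ω → κ → ℝ} {D : ℝ} (hD : ∀ ω, ∑ i, x ω i ^ 2 ≤ D) (a b : Ω) :
    |ov x a b| ≤ D := by
  have h0 : 0 ≤ D := (Finset.sum_nonneg fun i _ => sq_nonneg _).trans (hD a)
  have h := Finset.sum_mul_sq_le_sq_mul_sq Finset.univ (fun i => x a i) (fun i => x b i)
  have h2 : (ov x a b) ^ 2 ≤ D ^ 2 := by
    unfold ov
    refine h.trans ?_
    have h3 := hD a
    have h4 := hD b
    have h5 : 0 ≤ ∑ i, x a i ^ 2 := Finset.sum_nonneg fun i _ => sq_nonneg _
    have h6 : 0 ≤ ∑ i, x b i ^ 2 := Finset.sum_nonneg fun i _ => sq_nonneg _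
    nlinarith
  exact abs_le_of_sq_le_sq h2 h0

/-- the mean of the overlaps of the centred copies -/
theorem dv_ip (x : Ω → κ → ℝ) {ω a b : Ω} (ha : r ω a) (hb : r ω b) :
    ∑ i, dv P r x ω a i * dv P r x ω b i =
      ov x a b - cE P r (fun w => ov x a w) a - cE P r (fun w => ov x b w) b + msq P r x ω := by
  rw [cE_ov, cE_ov]
  unfold ov msq dv cEv
  rw [← Finset.sum_sub_distrib, ← Finset.sum_sub_distrib, ← Finset.sum_add_distrib]
  refine Finset.sum_congr rfl fun i _ => ?_
  rw [← cE_meas P r (fun w => x w i) ω a ha, ← cE_meas P r (fun w => x w i) ω b hb]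
  ring

/-- (T2b) the purity from the pair form. -/
theorem pur_le (hP : IsProb P) {x : Ω → κ → ℝ} {D : ℝ} (hD : ∀ ω, ∑ i, x ω i ^ 2 ≤ D) (c : ℝ) :
    pur P r x ≤ 16 * D * pE P r (fun a b => |ov x a b - c|) := by
  have hΩ : Nonempty Ω := Crest.Agent.R164.CavG.nonempty_of_isProb hP
  have hD0 : 0 ≤ D := by
    obtain ⟨ω⟩ := hΩ
    exact (Finset.sum_nonneg fun i _ => sq_nonneg _).trans (hD ω)
  set q : Ω → ℝ := fun a => cE P r (fun w => |ov x a w - c|) a with hq
  set g : Ω → ℝ := fun ω => |msq P r x ω - c| with hg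
  have hE1 : eE P q = pE P r (fun a b => |ov x a b - c|) := rfl
  have hE2 : eE P g ≤ pE P r (fun a b => |ov x a b - c|) := msq_sub_le hP x c
  -- pointwise identity
  have h1 : ∀ ω, ∑ i, ∑ j, cvr P r x i j ω ^ 2 =
      cE P r (fun a => cE P r (fun b => (∑ i, dv P r x ω a i * dv P r x ω b i) ^ 2) ω) ω := by
    intro ω
    have := cE2_sq (P := P) (r := r) x (fun _ => (1 : ℝ)) ω
    simp only [one_mul] at this
    rw [this]
  -- bound of the square
  have h2 : ∀ ω a b, r ω a → r ω b → (∑ i, dv P r x ω a i * dv P r x ω b i) ^ 2 ≤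
      4 * D * (|ov x a b - c| + q a + q b + g ω) := by
    intro ω a b ha hb
    have e := dv_ip (P := P) x ha hb
    have ba : |cE P r (fun w => ov x a w) a| ≤ D := abs_cE_le_of_le hP (fun w => ov_abs_le hD a w) a
    have bb : |cE P r (fun w => ov x b w) b| ≤ D := abs_cE_le_of_le hP (fun w => ov_abs_le hD b w) b
    have bm : |msq P r x ω| ≤ D := by
      rw [← cE_cE_ov]
      exact abs_cE_le_of_le hP
        (fun a => abs_cE_le_of_le hP (fun w => ov_abs_le hD a w) a) ω
    have bo := ov_abs_le hD a b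
    have ca : |cE P r (fun w => ov x a w) a - c| ≤ q a := by
      have : cE P r (fun w => ov x a w) a - c = cE P r (fun w => ov x a w - c) a := by
        rw [cE_sub, cE_const hP]
      rw [this]
      exact cE_abs_le hP _ a
    have cb : |cE P r (fun w => ov x b w) b - c| ≤ q b := by
      have : cE P r (fun w => ov x b w) b - c = cE P r (fun w => ov x b w - c) b := by
        rw [cE_sub, cE_const hP]
      rw [this]
      exact cE_abs_le hP _ b
    set s := ∑ i, dv P r x ω a i * dv P r x ω b i with hs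
    have s1 : |s| ≤ 4 * D := by
      rw [e]
      rw [abs_le] at ba bb bm bo ⊢
      constructor <;> linarith [ba.1, ba.2, bb.1, bb.2, bm.1, bm.2, bo.1, bo.2]
    have s2 : |s| ≤ |ov x a b - c| + q a + q b + g ω := by
      have e2 : s = (ov x a b - c) - (cE P r (fun w => ov x a w) a - c) -
          (cE P r (fun w => ov x b w) b - c) + (msq P r x ω - c) := by rw [e]; ring
      rw [e2]
      have t1 := abs_add_le ((ov x a b - c) - (cE P r (fun w => ov x a w) a - c) -
          (cE P r (fun w => ov x b w) b - c)) (msq P r x ω - c)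
      have t2 := abs_sub ((ov x a b - c) - (cE P r (fun w => ov x a w) a - c))
          (cE P r (fun w => ov x b w) b - c)
      have t3 := abs_sub (ov x a b - c) (cE P r (fun w => ov x a w) a - c)
      linarith
    calc s ^ 2 = |s| * |s| := by rw [← sq, sq_abs]
      _ ≤ (4 * D) * (|ov x a b - c| + q a + q b + g ω) :=
        mul_le_mul s1 s2 (abs_nonneg _) (by positivity)
  have hqm : RMeas r (fun ω => cE P r q ω) := cE_meas P r q
  have hgm : RMeas r g := by
    intro a b hab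
    simp only [hg]
    have : msq P r x a = msq P r x b := by
      unfold msq
      exact Finset.sum_congr rfl fun i _ => by rw [cE_meas P r _ a b hab]
    rw [this]
  have h3 : ∀ ω, ∑ i, ∑ j, cvr P r x i j ω ^ 2 ≤
      4 * D * (cE P r q ω + cE P r q ω + cE P r q ω + g ω) := by
    intro ω
    rw [h1 ω]
    calc cE P r (fun a => cE P r (fun b => (∑ i, dv P r x ω a i * dv P r x ω b i) ^ 2) ω) ω
        ≤ cE P r (fun a => cE P r (fun b => 4 * D * (|ov x a b - c| + q a + q b + g ω)) ω) ω :=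
          cE_mono hP ω fun a ha => cE_mono hP ω fun b hb => h2 ω a b ha hb
      _ = 4 * D * (cE P r (fun a => cE P r (fun b => |ov x a b - c|) ω) ω + cE P r q ω +
            cE P r q ω + g ω) := by
          simp_rw [cE_smul, cE_add, cE_const hP]
      _ = _ := by
          have e3 : cE P r (fun a => cE P r (fun b => |ov x a b - c|) ω) ω = cE P r q ω := by
            refine cE_congr ω fun a ha => ?_
            simp only [hq]
            exact cE_meas P r _ ω a ha
          rw [e3]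
  unfold pur
  calc eE P (fun ω => ∑ i, ∑ j, cvr P r x i j ω ^ 2)
      ≤ eE P (fun ω => 4 * D * (cE P r q ω + cE P r q ω + cE P r q ω + g ω)) := eE_mono hP h3
    _ = 4 * D * (eE P q + eE P q + eE P q + eE P g) := by
        rw [eE_smul, eE_add, eE_add, eE_add]
        have e4 : eE P (fun ω => cE P r q ω) = eE P q := eE_cE hP r q
        rw [e4]
    _ ≤ 4 * D * (4 * pE P r (fun a b => |ov x a b - c|)) := by
        refine mul_le_mul_of_nonneg_left ?_ (by positivity)
        rw [hE1]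
        linarith
    _ = _ := by ring

/-! ### (T3) transfer to the system without the potential -/

/-- (T3a) -/
theorem msq_sub_le_tl (hP : IsProb P) {xe : ℕ → ℝ} (hx : IsExpo xe) {V : Ω → ℝ} {v : ℝ}
    (h : ∀ ω, |V ω| ≤ v) (x : Ω → κ → ℝ) (c : ℝ) (k : ℕ) :
    eE P (fun ω => |msq P (𝓕.F k) x ω - c|) ≤
      Real.exp (4 * v) * pE (tl P 𝓕 xe V) (𝓕.F k) (fun a b => |ov x a b - c|) :=
  (msq_sub_le hP x c).trans (pE_le_tl hP hx h (fun _ _ => abs_nonneg _) k)

/-- (T3b) -/
theorem pur_le_tl (hP : IsProb P) {xe : ℕ → ℝ} (hx : IsExpo xe) {V : Ω → ℝ} {v : ℝ}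
    (h : ∀ ω, |V ω| ≤ v) {x : Ω → κ → ℝ} {D : ℝ} (hD : ∀ ω, ∑ i, x ω i ^ 2 ≤ D) (c : ℝ) (k : ℕ) :
    pur P (𝓕.F k) x ≤
      16 * D * (Real.exp (4 * v) * pE (tl P 𝓕 xe V) (𝓕.F k) (fun a b => |ov x a b - c|)) := by
  have hΩ : Nonempty Ω := Crest.Agent.R164.CavG.nonempty_of_isProb hP
  have hD0 : 0 ≤ D := by
    obtain ⟨ω⟩ := hΩ
    exact (Finset.sum_nonneg fun i _ => sq_nonneg _).trans (hD ω)
  exact (pur_le hP hD c).trans (mul_le_mul_of_nonneg_left
    (pE_le_tl hP hx h (fun _ _ => abs_nonneg _) k) (by positivity))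

end pair

/-! ### the deviation `CavG.Dev` for one block (`β = Unit`) -/

section dev

variable {κ : Type} [Fintype κ]



end dev

/-! ### the configurations of `S6Def_988` -/

section glue

open Crest.Agent.R146.S6Def_988
open Crest.Agent.R146.S6U_988 (ovl)

variable {N : ℕ} (C : Cfg N) (nc n : ℕ)

/-- normalised configuration, `|xN ω| = 1`. -/
def xN (ω : Om C nc n) (i : Fin N) : ℝ := C.x ω.1 i / Real.sqrt N

theorem xN_sq (hN : 0 < N) (ω : Om C nc n) : ∑ i, xN C nc n ω i ^ 2 = 1 := by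
  have hN' : (0 : ℝ) < N := by exact_mod_cast hN
  unfold xN
  simp_rw [div_pow]
  rw [← Finset.sum_div, C.hx, Real.sq_sqrt hN'.le, div_self hN'.ne']

theorem ovl_eq (a b : Om C nc n) : ovl C nc n a b = ov (xN C nc n) a b := by
  unfold ovl ov xN
  rw [Finset.mul_sum]
  refine Finset.sum_congr rfl fun i _ => ?_
  rw [div_mul_div_comm, Real.mul_self_sqrt (Nat.cast_nonneg N)]
  ring

/-- the integrand of `Rk`. -/
theorem msq_eq (Q : Om C nc n → ℝ) (r : Setoid (Om C nc n)) (ω : Om C nc n) :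
    (N : ℝ)⁻¹ * ∑ i, (cE Q r (fun w => C.x w.1 i) ω) ^ 2 = msq Q r (xN C nc n) ω := by
  unfold msq xN
  rw [Finset.mul_sum]
  refine Finset.sum_congr rfl fun i _ => ?_
  have h : cE Q r (fun a => C.x a.1 i / Real.sqrt N) ω =
      (Real.sqrt N)⁻¹ * cE Q r (fun w => C.x w.1 i) ω := by
    rw [← cE_smul]
    exact cE_congr ω fun a _ => by rw [div_eq_inv_mul]
  rw [h, mul_pow, inv_pow, Real.sq_sqrt (Nat.cast_nonneg N)]

end glue

end

end Crest.Agent.R146.S6Trans_944
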