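import Crest.Agent.R146.Cav5_47
import Crest.Agent.R146.S6Trans_944
import Crest.Agent.R146.S6U_988
import Crest.Agent.R146.RowDef_874
import Crest.Agent.R146.L2Alg_36

-- ▼ part R146/CavW_47
section

/-!
Row 146, S0206 (helper47): the Gaussian cavity limit for an ARBITRARY bounded vector `W` (used for
the new coordinate, (L3) of post 326).

* `LevT J C T`  : ideal overlaps `0 ≤ T_0 ≤ ... ≤ T_J ≤ T_{J+1} ≤ C`;
* `ThT J h T`   : nested Gaussian recursion with the exponent `j/(J+1)` on `(T_{j-1}, T_j)`,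
                  `0` on `(0, T_0)`, `1` on `(T_J, T_{J+1})`;
* `DevW`        : deviation of the leaf norm and of the pair overlaps at the skeleton steps;
* `cav_W`       : the limit theorem (any finite filtered space, several rows);
* `cav_W_sys`   : the instance for the filtration of `S6Def_988` (any law).
-/

set_option autoImplicit false

namespace Crest.Agent.R146.CavW_47

open Finset MeasureTheory ProbabilityTheory Crest.Agent.R141 Crest.Agent.R141.Fact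
open Crest.Agent.R164.CavG
open Crest.Agent.R146.S6Def_988 hiding zf
open Crest.Agent.R164.ED (aE)
open Crest.ProbabilityR.InvariantGlass (gaussOp)
open Crest.Agent.R146.Cav5_47
open Crest.Agent.R146.S6U_988 (pE)
open Crest.Agent.R146.S6Trans_944 (ov msq)

noncomputable section

/-- ideal overlaps -/
structure LevT (J : ℕ) (C : ℝ) (T : ℕ → ℝ) : Prop where
  nonneg : 0 ≤ T 0
  mono : ∀ i j, i ≤ j → j ≤ J + 1 → T i ≤ T j
  le : T (J + 1) ≤ C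

theorem LevT.nonneg' {J : ℕ} {C : ℝ} {T : ℕ → ℝ} (h : LevT J C T) {j : ℕ} (hj : j ≤ J + 1) :
    0 ≤ T j := h.nonneg.trans (h.mono 0 j (Nat.zero_le _) hj)

/-- variances by depth -/
def vT (J : ℕ) (T : ℕ → ℝ) (n : ℕ) : ℝ :=
  if n ≤ J then T (J + 1 - n) - T (J + 1 - (n + 1)) else T (J + 1 - n)

/-- nested Gaussian recursion with levels `T`. -/
def ThT (J : ℕ) (h : ℝ → ℝ) (T : ℕ → ℝ) : ℝ :=
  ∫ g, rc (ySk J) (vT J T) h (J + 1) (Real.sqrt (vT J T (J + 1)) * g) ∂(gaussianReal 0 1)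


/-- deviation in pair form -/
def DevW {Ω κ : Type} [Fintype Ω] [Fintype κ] (P : Ω → ℝ) (𝓕 : Filt Ω) (J : ℕ) (t : ℕ → ℕ)
    (W : Ω → κ → ℝ) (T : ℕ → ℝ) : ℝ :=
  eE P (fun ω => |∑ i, W ω i ^ 2 - T (J + 1)|) +
    ∑ b ∈ range (J + 1), pE P (𝓕.F (t b)) (fun a c => |∑ i, W a i * W c i - T b|)


theorem Dev_le_DevW {Ω κ β : Type} [Fintype Ω] [Fintype κ] [Fintype β] [DecidableEq β]
    {P : Ω → ℝ} (hP : IsProb P) (𝓕 : Filt Ω) (J : ℕ) (t : ℕ → ℕ) (W : Ω → κ → ℝ) {C : ℝ}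
    (hW : ∀ ω, ∑ i, W ω i ^ 2 ≤ C) (T : ℕ → ℝ) :
    Dev P (fun n => 𝓕.F (t (J - n))) J (Prod.fst : β × κ → β) (fun ω p => W ω p.2)
      (fun n _ => T (J + 1 - n)) ≤ ((Fintype.card β : ℝ) + (Fintype.card β : ℝ) ^ 2 * (16 * C)) *
        DevW P 𝓕 J t W T := by
  have hC : 0 ≤ C := by
    obtain ⟨ω⟩ := nonempty_of_isProb hP
    exact (Finset.sum_nonneg fun _ _ => sq_nonneg _).trans (hW ω)
  set X : ℝ := eE P (fun ω => |∑ i, W ω i ^ 2 - T (J + 1)|) with hX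
  set Y : ℝ := ∑ b ∈ range (J + 1), pE P (𝓕.F (t b)) (fun a c => |∑ i, W a i * W c i - T b|)
    with hY
  have hX0 : 0 ≤ X := eE_nonneg hP fun _ => abs_nonneg _
  have hY0 : 0 ≤ Y := Finset.sum_nonneg fun _ _ => S6Trans_944.pE_nonneg hP fun _ _ => abs_nonneg _
  unfold Dev
  simp only [XX_prod, ip_prod, pur_prod, Finset.sum_const, Finset.card_univ, nsmul_eq_mul]
  have e1 : ∑ n ∈ range (J + 2), (Fintype.card β : ℝ) * eE P (fun ω =>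
      |∑ i, XX P (fun n => 𝓕.F (t (J - n))) W n ω i ^ 2 - T (J + 1 - n)|) ≤
      (Fintype.card β : ℝ) * (X + Y) := by
    rw [Finset.sum_range_succ', ← Finset.mul_sum]
    have h0 : eE P (fun ω => |∑ i, XX P (fun n => 𝓕.F (t (J - n))) W 0 ω i ^ 2 -
        T (J + 1 - 0)|) = X := rfl
    rw [h0, ← mul_add, add_comm]
    refine mul_le_mul_of_nonneg_left (add_le_add_right ?_ _) (Nat.cast_nonneg _)
    rw [hY, ← Finset.sum_range_reflect]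
    refine Finset.sum_le_sum fun n hn => ?_
    rw [Finset.mem_range] at hn
    have e2 : J + 1 - 1 - n = J - n := by omega
    have e3 : J + 1 - (J - n + 1) = n := by omega
    rw [e2, e3]
    show eE P (fun ω => |∑ i, cE P (𝓕.F (t (J - (J - n)))) (fun a => W a i) ω ^ 2 - T n|) ≤ _
    rw [show J - (J - n) = n by omega]
    exact S6Trans_944.msq_sub_le hP W (T n)
  have e4 : ∑ n ∈ range (J + 1), (Fintype.card β : ℝ) ^ 2 * pur P (𝓕.F (t (J - n))) W ≤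
      (Fintype.card β : ℝ) ^ 2 * (16 * C * Y) := by
    rw [← Finset.mul_sum]
    refine mul_le_mul_of_nonneg_left ?_ (by positivity)
    rw [hY, Finset.mul_sum, ← Finset.sum_range_reflect]
    refine Finset.sum_le_sum fun n hn => ?_
    rw [Finset.mem_range] at hn
    rw [show J + 1 - 1 - n = J - n by omega, show J - (J - n) = n by omega]
    exact S6Trans_944.pur_le hP hW (T n)
  have e5 : DevW P 𝓕 J t W T = X + Y := rfl
  rw [e5]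
  have h3 : (0 : ℝ) ≤ Fintype.card β := Nat.cast_nonneg _
  have h4 : (0 : ℝ) ≤ (Fintype.card β : ℝ) ^ 2 * (16 * C) := by positivity
  nlinarith [mul_nonneg h4 hX0]

/-- continuity from the Lipschitz property on boxes. -/
theorem meas_of_box {h : ℝ → ℝ} {LR : ℝ → ℝ} (hLR : ∀ R, 0 ≤ R → 0 ≤ LR R)
    (hlip : ∀ R, 0 ≤ R → ∀ a b, |a| ≤ R → |b| ≤ R → |h a - h b| ≤ LR R * |a - b|) :
    Measurable h := by
  have hcont : Continuous h := by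
    rw [continuous_iff_continuousAt]
    intro a
    rw [Metric.continuousAt_iff]
    intro e he
    have hR : 0 ≤ |a| + 1 := by positivity
    have hL0 := hLR (|a| + 1) hR
    refine ⟨min 1 (e / (LR (|a| + 1) + 1)), by positivity, fun {u} hu => ?_⟩
    rw [Real.dist_eq] at hu ⊢
    have hu1 : |u - a| < 1 := lt_of_lt_of_le hu (min_le_left _ _)
    have hu2 : |u - a| < e / (LR (|a| + 1) + 1) := lt_of_lt_of_le hu (min_le_right _ _)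
    have hu3 : |u| ≤ |a| + 1 := by
      have := abs_sub_abs_le_abs_sub u a
      linarith
    refine (hlip (|a| + 1) hR u a hu3 (by linarith)).trans_lt ?_
    rw [lt_div_iff₀ (by linarith)] at hu2
    have := abs_nonneg (u - a)
    nlinarith
  exact hcont.measurable

/-- **Cavity limit for an arbitrary bounded vector**, finitely many rows. -/
theorem cav_W (β : Type) [Fintype β] [DecidableEq β] (J : ℕ) {C c : ℝ} (hC0 : 0 ≤ C) (hc0 : 0 ≤ c)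
    (LR : ℝ → ℝ) (hLR : ∀ R, 0 ≤ R → 0 ≤ LR R) {ε : ℝ} (hε : 0 < ε) :
    ∃ D : ℝ, 0 ≤ D ∧ ∀ {Ω κ : Type} [Fintype Ω] [Fintype κ] (P : Ω → ℝ) (𝓕 : Filt Ω) (xe : ℕ → ℝ)
      (t : ℕ → ℕ) (δx : ℝ) (W : Ω → κ → ℝ) (T : ℕ → ℝ) (h : β → ℝ → ℝ),
      IsProb P → 𝓕.F 0 = ⊤ → Levels xe J t 𝓕.L δx → (∀ ω, ∑ i, W ω i ^ 2 ≤ C) → LevT J C T →
      (∀ k a, |h k a| ≤ c) →
      (∀ k R, 0 ≤ R → ∀ a b, |a| ≤ R → |b| ≤ R → |h k a - h k b| ≤ LR R * |a - b|) →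
      |∫ ζ, aE P 𝓕 xe (fun ω => ∑ k, h k (∑ i, W ω i * ζ (k, i))) ∂(gm (β × κ)) -
        ∑ k, ThT J (h k) T| ≤
        ε + D * DevW P 𝓕 J t W T +
          15 * (Fintype.card β * c) ^ 2 * Real.exp (4 * (Fintype.card β * c)) * δx := by
  set b : ℝ := (Fintype.card β : ℝ) with hb
  have hb0 : 0 ≤ b := Nat.cast_nonneg _
  obtain ⟨d, hd, hmain⟩ := cavity_limit β J (b * c) (b * C) 0 (b * C) LR (by positivity)
    (by positivity) le_rfl (by positivity) hε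
  refine ⟨2 * (b * c) / d * (b + b ^ 2 * (16 * C)), by positivity, ?_⟩
  intro Ω κ _ _ P 𝓕 xe t δx W T h hP h0 hlev hW hT hc hlip
  set w : (Unit ⊕ β → ℝ) → ℝ := fun z => ∑ k, h k (z (Sum.inr k)) with hw
  have hm : ∀ k, Measurable (h k) := fun k => meas_of_box hLR (hlip k)
  have hwl : LocLip LR w := by
    refine ⟨hLR, fun R hR z z' hz hz' => ?_⟩
    rw [hw]
    simp only
    rw [← Finset.sum_sub_distrib]
    refine (Finset.abs_sum_le_sum_abs _ _).trans ?_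
    rw [Fintype.sum_sum_type, mul_add, Finset.mul_sum, Finset.mul_sum]
    have h1 : 0 ≤ ∑ i : Unit, LR R * |z (Sum.inl i) - z' (Sum.inl i)| :=
      Finset.sum_nonneg fun _ _ => mul_nonneg (hLR R hR) (abs_nonneg _)
    have h2 : ∑ k, |h k (z (Sum.inr k)) - h k (z' (Sum.inr k))| ≤
        ∑ k, LR R * |z (Sum.inr k) - z' (Sum.inr k)| :=
      Finset.sum_le_sum fun k _ => hlip k R hR _ _ (hz _) (hz' _)
    linarith
  have hwc : ∀ z, |w z| ≤ b * c := by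
    intro z
    refine (Finset.abs_sum_le_sum_abs _ _).trans ?_
    refine (Finset.sum_le_sum fun k _ => hc k _).trans (le_of_eq ?_)
    simp [hb]
  have key := hmain (Ω := Ω) (Λ := Unit) (κ := β × κ) P oneU 𝓕 filU (filP 𝓕) xe t δx Prod.fst
    (fun ω p => W ω p.2) (fun n _ => T (J + 1 - n)) (fun _ => 0) (fun _ => 0) w hP isProb_oneU
    (fun l => rfl) (filP_zero h0) hlev
    (fun ω => by
      rw [Fintype.sum_prod_type]
      simp only [Finset.sum_const, Finset.card_univ, nsmul_eq_mul]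
      exact mul_le_mul_of_nonneg_left (hW ω) hb0)
    (fun n k hn => hT.nonneg' (by omega)) (fun n k hn => hT.mono _ _ (by omega) (by omega))
    (by
      simp only [Nat.sub_zero, Finset.sum_const, Finset.card_univ, nsmul_eq_mul]
      exact mul_le_mul_of_nonneg_left hT.le hb0)
    (fun _ _ => le_rfl) (fun _ _ => by positivity) (clt_zero _ J hd.le)
    (by rw [eE_oneU]; simp) hwl hwc
  -- identification of the nested functional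
  have hg : gval J (ySk J) (vC J (fun n _ => T (J + 1 - n)) (fun _ => 0)) w =
      ∑ k, ThT J (h k) T := by
    set F : Unit ⊕ β → ℝ → ℝ := Sum.elim (fun _ _ => 0) h with hF
    have ew : w = fun z => ∑ k, F k (z k) := by
      funext z
      rw [Fintype.sum_sum_type]
      simp [hF, hw]
    have hFm : ∀ k, Measurable (F k) := by
      rintro (k | k)
      · exact measurable_const
      · exact hm k
    have hFc : ∀ k a, |F k a| ≤ (Sum.elim (fun _ => 0) (fun _ => c) : Unit ⊕ β → ℝ) k := by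
      rintro (k | k) a
      · simp [hF]
      · exact hc k a
    rw [ew, gval_sum (fun n hn => ySk_pos hn) (fun n _ => ySk_le_one J n) F hFm hFc,
      Fintype.sum_sum_type]
    have hz : ∀ g : ℝ, rc (ySk J) (fun n => vC J (fun n (_ : β) => T (J + 1 - n)) (fun _ => 0) n
        (Sum.inl ())) (F (Sum.inl ())) (J + 1)
        (Real.sqrt (vC J (fun n (_ : β) => T (J + 1 - n)) (fun _ => 0) (J + 1) (Sum.inl ())) *
          g) = 0 := by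
      intro g
      have := (rc_meas (y := ySk J) (v := fun n => vC J (fun n (_ : β) => T (J + 1 - n))
        (fun _ => 0) n (Sum.inl ())) (hFm (Sum.inl ())) (hFc (Sum.inl ()))
        (fun n hn => ySk_pos hn) (fun n _ => ySk_le_one J n) (J + 1) le_rfl).2
        (Real.sqrt (vC J (fun n (_ : β) => T (J + 1 - n)) (fun _ => 0) (J + 1) (Sum.inl ())) * g)
      exact abs_nonpos_iff.1 this
    have hz2 : (∑ a₁ : Unit, ∫ g, rc (ySk J) (fun n => vC J (fun n (_ : β) => T (J + 1 - n))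
      (fun _ => 0) n (Sum.inl a₁)) (F (Sum.inl a₁)) (J + 1)
      (Real.sqrt (vC J (fun n (_ : β) => T (J + 1 - n)) (fun _ => 0) (J + 1) (Sum.inl a₁)) * g)
      ∂(gaussianReal 0 1)) = 0 := by
      refine Finset.sum_eq_zero fun u _ => ?_
      simp only [hz, integral_zero]
    rw [hz2, zero_add]
    rfl
  have ea : ∀ ζ : β × κ → ℝ, aE (pP P oneU) (filP 𝓕) xe (fun q => w (cmb 0
      (Crest.Agent.R164.CavG.zf Prod.fst (fun p : β × κ => W q.1 p.2) ζ))) =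
      aE P 𝓕 xe (fun ω => ∑ k, h k (∑ i, W ω i * ζ (k, i))) := by
    intro ζ
    rw [← aE_filP hP 𝓕 hlev.expo.pos]
    congr 1
    funext q
    rw [hw]
    simp only [cmb, Sum.elim_inr, zf_prod]
  simp_rw [ea] at key
  rw [hg] at key
  refine key.trans ?_
  have hD := Dev_le_DevW (β := β) hP 𝓕 J t W hW T
  have h5 : 0 ≤ 2 * (b * c) / d := by positivity
  have h6 := mul_le_mul_of_nonneg_left hD h5
  have h7 : 2 * (b * c) / d * ((b + b ^ 2 * (16 * C)) * DevW P 𝓕 J t W T) =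
      2 * (b * c) / d * (b + b ^ 2 * (16 * C)) * DevW P 𝓕 J t W T := by ring
  linarith

/-- one row, any finite filtered space. -/
theorem cav_W_one (J : ℕ) {C c : ℝ} (hC0 : 0 ≤ C) (hc0 : 0 ≤ c)
    (LR : ℝ → ℝ) (hLR : ∀ R, 0 ≤ R → 0 ≤ LR R) {ε : ℝ} (hε : 0 < ε) :
    ∃ D : ℝ, 0 ≤ D ∧ ∀ {Ω κ : Type} [Fintype Ω] [Fintype κ] (P : Ω → ℝ) (𝓕 : Filt Ω) (xe : ℕ → ℝ)
      (t : ℕ → ℕ) (δx : ℝ) (W : Ω → κ → ℝ) (T : ℕ → ℝ) (h : ℝ → ℝ),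
      IsProb P → 𝓕.F 0 = ⊤ → Levels xe J t 𝓕.L δx → (∀ ω, ∑ i, W ω i ^ 2 ≤ C) → LevT J C T →
      (∀ a, |h a| ≤ c) →
      (∀ R, 0 ≤ R → ∀ a b, |a| ≤ R → |b| ≤ R → |h a - h b| ≤ LR R * |a - b|) →
      |∫ g, eE P (A P 𝓕 xe (fun ω => h (∑ i, W ω i * g i)) 0) ∂(gm κ) - ThT J h T| ≤
        ε + D * DevW P 𝓕 J t W T + 15 * c ^ 2 * Real.exp (4 * c) * δx := by
  obtain ⟨D, hD, hmain⟩ := cav_W Unit J hC0 hc0 LR hLR hε
  refine ⟨D, hD, ?_⟩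
  intro Ω κ _ _ P 𝓕 xe t δx W T h hP h0 hlev hW hT hc hlip
  have key := hmain P 𝓕 xe t δx W T (fun _ => h) hP h0 hlev hW hT (fun _ => hc) (fun _ => hlip)
  simp only [Finset.univ_unique, Finset.sum_singleton, Fintype.card_unit, Nat.cast_one,
    one_mul] at key
  have e : ∫ ζ, aE P 𝓕 xe (fun ω => h (∑ i, W ω i * ζ ((), i))) ∂(gm (Unit × κ)) =
      ∫ g, eE P (A P 𝓕 xe (fun ω => h (∑ i, W ω i * g i)) 0) ∂(gm κ) := by
    have hmp1 := gm_curry Unit κ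
    have hmp2 := measurePreserving_funUnique (gm κ) Unit
    rw [← hmp2.integral_comp (MeasurableEquiv.measurableEmbedding _),
      ← hmp1.integral_comp (MeasurableEquiv.measurableEmbedding _)]
    rfl
  have e2 : (default : Unit) = () := rfl
  rw [e2, e] at key
  exact key

end

end Crest.Agent.R146.CavW_47
end

-- ▼ part R146/S6L_988

/-!
Row 146, statement S0206: the NODES of the LOWER bound as exact Props (helper988).
Nothing is proved here.  One smooth row function `f` (all rows the same), one new coordinate per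
step, fine skeleton `J` (existential) for the row observables and the relations.

Plan: `RO, REL (⇐ RO + SDp + FLD), L2IBP, L2Alg_36.main, VTRUNC, THC, CavW_47.cav_W_one, NEWC, TAYC`
⇒ `COL`;  `COL, S6U.CAV, SKADD, S6U.STR, S6U.LIP, SPC` ⇒ `INCL`;  `INCL, CRUDE, FOBSL, FCONT` ⇒
`INC1`;  `INC1, REV, PLIM, DISC, PM` ⇒ `S6U.LB`.
-/

set_option autoImplicit false

namespace Crest.Agent.R146.S6L_988

open Finset MeasureTheory ProbabilityTheory Crest.Agent.R141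
open Crest.Agent.R146.S6Def_988 Crest.Agent.R146.S6U_988
open Crest.Agent.R146.RowDef_874 Crest.Agent.R146.CavW_47 Crest.Agent.R146.L2Alg_36

noncomputable section

/-! ### Definitions -/

/-- regular row functions: `f' = f1`, `f'' = f2`, everything bounded by `K`, `f2` `K`-Lipschitz. -/
structure S3 (K : ℝ) (f f1 f2 : ℝ → ℝ) : Prop where
  d1 : ∀ x, HasDerivAt f (f1 x) x
  d2 : ∀ x, HasDerivAt f1 (f2 x) x
  b0 : ∀ x, |f x| ≤ K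
  b1 : ∀ x, |f1 x| ≤ K
  b2 : ∀ x, |f2 x| ≤ K
  l2 : ∀ x y, |f2 x - f2 y| ≤ K * |x - y|

/-- averaged hierarchical free energy (not normalised). -/
def PhE {N : ℕ} (C : Cfg N) (nc n : ℕ) (f : ℕ → ℝ → ℝ) (M : ℕ) (s : Fin nc → ℝ) : ℝ :=
  ∫ G, Phi C nc n (M := M) f G s ∂(gam M N)

/-- average over the strengths `s g = √η l_g`, `l ∈ [1,2]^nc`. -/
def Lb {N : ℕ} (C : Cfg N) (nc n : ℕ) (f : ℕ → ℝ → ℝ) (M : ℕ) (η : ℝ) : ℝ :=
  ∫ l in Set.Icc (fun _ : Fin nc => (1 : ℝ)) (fun _ => 2), PhE C nc n f M (fun g => Real.sqrt η * l g)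

/-- the field of the row `a` at the point `x` -/
def hh {M N : ℕ} (G : Fin M → Fin N → ℝ) (a : Fin M) (x : Fin N → ℝ) : ℝ :=
  ∑ i, G a i * (x i / Real.sqrt N)

/-- row statistics of a pair of configurations -/
def RS {N : ℕ} (C : Cfg N) (nc n : ℕ) {M : ℕ} (φ ψ : ℝ → ℝ) (G : Fin M → Fin N → ℝ)
    (u v : Om C nc n) : ℝ :=
  (N : ℝ)⁻¹ * ∑ a : Fin M, φ (hh G a (C.x u.1)) * ψ (hh G a (C.x v.1))

/-- standard Gaussian vector in `ℝ^M` -/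
def gv (M : ℕ) : Measure (Fin M → ℝ) := Measure.pi fun _ => gaussianReal 0 1

/-- change of the log-weight when the last coordinate of the point of the sphere of dimension
`N + 1` is `t` (rows `(G a, g0 a)`, the new field coordinate removed). -/
def dE {N : ℕ} (C : Cfg N) (nc n : ℕ) {M : ℕ} (f : ℝ → ℝ) (G : Fin M → Fin N → ℝ) (g0 : Fin M → ℝ)
    (s : Fin nc → ℝ) (ω : Om C nc n) (t : ℝ) : ℝ :=
  ∑ a : Fin M, (f (Real.sqrt (((N : ℝ) + 1 - t ^ 2) / ((N : ℝ) + 1)) * hh G a (C.x ω.1) +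
      t / Real.sqrt ((N : ℝ) + 1) * g0 a) - f (hh G a (C.x ω.1))) +
    (Real.sqrt (((N : ℝ) + 1 - t ^ 2) / N) - 1) * fieldE s ω

/-- the potential produced by the new coordinate, `|t| ≤ k`. -/
def dV {N : ℕ} (C : Cfg N) (nc n : ℕ) {M : ℕ} (k : ℝ) (f : ℝ → ℝ) (G : Fin M → Fin N → ℝ)
    (g0 : Fin M → ℝ) (s : Fin nc → ℝ) (ω : Om C nc n) : ℝ :=
  Real.log (∫ t in (-k)..k, gaussianPDFReal 0 1 t * Real.exp (dE C nc n f G g0 s ω t))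

/-- `Λ_{k,d}(y) = log ∫_{|t| ≤ k} φ(t) exp(t y + d t²/2) dt` -/
def Lam (k d y : ℝ) : ℝ :=
  Real.log (∫ t in (-k)..k, gaussianPDFReal 0 1 t * Real.exp (t * y + d * t ^ 2 / 2))

/-- truncation at the level `L` -/
def LamT (k d L y : ℝ) : ℝ := min (Lam k d y) L

/-- the vector `W_a = f'(h_a)/√N` -/
def Wv {N : ℕ} (C : Cfg N) (nc n : ℕ) {M : ℕ} (f1 : ℝ → ℝ) (G : Fin M → Fin N → ℝ)
    (ω : Om C nc n) (a : Fin M) : ℝ := f1 (hh G a (C.x ω.1)) / Real.sqrt N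

/-- the levels of the system at the steps `τ` -/
def PR {N : ℕ} (C : Cfg N) (nc n : ℕ) (f : ℝ → ℝ) (M : ℕ) (s : Fin nc → ℝ) (τ : ℕ → ℕ) (b : ℕ) : ℝ :=
  Rk C nc n (fun _ => f) M s (τ b)

/-- the levels of `W`: `T_b = (M/N) E[E[f'(X_1)|X_{P_b}]^2]` in the limit model -/
def TR (J : ℕ) (f f1 : ℝ → ℝ) (P : ℕ → ℝ) (α : ℝ) (b : ℕ) : ℝ := α * kapX J f P b f1 f1

/-! ### Row observables (helper874) -/

/-- (RO) row observables of pairs at the steps of a skeleton and of single configurations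
concentrate at the values of the limit model; `ψ` may have linear growth.  (For fixed `J` the error
does not tend to `0`: first `J ≥ J0(ε)`, then `ε1`, then `N`.) -/
def RO : Prop := ∀ (αm K L B ε : ℝ), 0 < ε → ∃ J0 : ℕ, ∀ J : ℕ, J0 ≤ J →
  ∃ ε1 : ℝ, 0 < ε1 ∧ ∃ N0 : ℕ, ∀ (wc nc : ℕ), 2 ≤ wc → nc + 1 = (J + 1) * wc →
  ∀ N, N0 ≤ N → 0 < N → ∀ n, 0 < n → ∀ (C : Cfg N) (f φ ψ : ℝ → ℝ), BL K L f → BL B B φ →
  (∀ x y, |ψ x - ψ y| ≤ B * |x - y|) → |ψ 0| ≤ B →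
  ∀ (M : ℕ) (s : Fin nc → ℝ) (τ : ℕ → ℕ), (M : ℝ) ≤ αm * N →
  Skel C nc n (fun _ => f) M s J wc τ ε1 →
  (∀ b ≤ J, ∫ G, pE (QQ C nc n (M := M) (fun _ => f) G s) ((fil C nc n).F (τ b))
      (fun u v => |RS C nc n φ ψ G u v -
        (M : ℝ) / N * kapX J f (PR C nc n f M s τ) b φ ψ|) ∂(gam M N) ≤ ε) ∧
  ∫ G, eE (QQ C nc n (M := M) (fun _ => f) G s) (fun u => |RS C nc n φ ψ G u u -
      (M : ℝ) / N * kapX J f (PR C nc n f M s τ) (J + 1) φ ψ|) ∂(gam M N) ≤ ε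

/-! ### Moments -/

/-- (FLD) the fields have norm `O(√N)` under the tilted law, for every value of the rows. -/
def FLD : Prop := ∀ (αm K : ℝ), ∃ Cst : ℝ, 0 ≤ Cst ∧ ∀ (N nc n : ℕ), 0 < N → 0 < n →
  ∀ (C : Cfg N) (f : ℕ → ℝ → ℝ) (M : ℕ) (G : Fin M → Fin N → ℝ) (A : ℝ) (s : Fin nc → ℝ),
  (M : ℝ) ≤ αm * N → (∀ a x, |f a x| ≤ K) → (∀ g, |s g| ≤ A) → (nc : ℝ) * A ≤ 1 → ∀ g : Fin nc,
  eE (QQ C nc n (M := M) f G s) (fun ω => ∑ i, zf ω.2 g i ^ 2) ≤ Cst * N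

/-- (MOM) moments of the row fields. -/
def MOM : Prop := ∀ (K : ℝ) (N nc n : ℕ), 0 < N → 0 < n → ∀ (C : Cfg N) (f : ℕ → ℝ → ℝ) (M : ℕ)
  (s : Fin nc → ℝ), (∀ a, Measurable (f a)) → (∀ a x, |f a x| ≤ K) → ∀ (a : Fin M) (F : ℝ → ℝ),
  Measurable F → (∀ x, 0 ≤ F x) → Integrable F (gaussianReal 0 1) →
  Integrable (fun G => eE (QQ C nc n (M := M) f G s) (fun ω => F (hh G a (C.x ω.1)))) (gam M N) ∧
  ∫ G, eE (QQ C nc n (M := M) f G s) (fun ω => F (hh G a (C.x ω.1))) ∂(gam M N) ≤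
    Real.exp (4 * K) * ∫ x, F x ∂(gaussianReal 0 1)

/-! ### The limit model -/

/-- (L2IBP) Gaussian integration by parts in the limit model (exact). -/
def L2IBP : Prop := ∀ (K : ℝ) (f f1 f2 : ℝ → ℝ), S3 K f f1 f2 → ∀ (J : ℕ) (P : ℕ → ℝ), Lev J P →
  LevT J (K ^ 2) (fun b => kapX J f P b f1 f1) ∧
  kapX J f P (J + 1) f1 (fun x => x) = kapX J f P (J + 1) f2 (fun _ => 1) +
    kapX J f P (J + 1) f1 f1 - 1 / ((J : ℝ) + 1) * ∑ l ∈ range (J + 1), P l * kapX J f P l f1 f1 ∧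
  ∀ b ≤ J, kapX J f P b f1 (fun x => x) =
    P b * (kapX J f P (J + 1) f2 (fun _ => 1) + kapX J f P (J + 1) f1 f1) -
    1 / ((J : ℝ) + 1) * ∑ l ∈ range (J + 1), P (min l b) * kapX J f P l f1 f1 +
    kapX J f P b f1 f1 * DP J P b

/-- (VTRUNC) value of the truncated quadratic cavity, uniformly in the number of levels. -/
def VTRUNC : Prop := ∀ (Tm ε : ℝ), 0 ≤ Tm → 0 < ε → ∃ k L : ℝ, 0 < k ∧ 0 ≤ L ∧
  ∀ (J : ℕ) (P T : ℕ → ℝ), Lev J P → LevT J Tm T →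
  Theta J P T - ε ≤ ThT J (LamT k (QT J P T - T (J + 1)) L) T

/-- (THC) coarse and fine recursion. -/
def THC : Prop := ∀ (c L Tm : ℝ) (h : ℝ → ℝ), BL c L h → ∀ (J r J' : ℕ) (T : ℕ → ℝ), 0 < r →
  J' + 1 = (J + 1) * r → LevT J' Tm T →
  |ThT J h (fun b => if b ≤ J then T (b * r) else T (J' + 1)) - ThT J' h T| ≤
    L ^ 2 * Tm / ((J : ℝ) + 1)

/-- (SPC) continuity of the entropy in the levels. -/
def SPC : Prop := ∀ (J : ℕ) (κ ε : ℝ), 0 < κ → 0 < ε → ∃ ε' : ℝ, 0 < ε' ∧ ∀ P P' : ℕ → ℝ,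
  Lev J P → Lev J P' → κ ≤ 1 - P J → κ ≤ 1 - P' J → (∀ j ≤ J, |P j - P' j| ≤ ε') →
  |SP J P - SP J P'| ≤ ε

/-! ### The relations (L2) -/

/-- (REL) the relations between the levels `P` and `T` (Schwinger–Dyson on the sphere + row
observables + Gaussian integration by parts in the limit model). -/
def REL : Prop := ∀ (αm K : ℝ), ∃ Cst : ℝ, 0 ≤ Cst ∧ ∀ ε : ℝ, 0 < ε → ∃ J0 : ℕ, ∀ J : ℕ, J0 ≤ J →
  ∃ ε1 : ℝ, 0 < ε1 ∧ ∃ N0 : ℕ, ∀ (wc nc : ℕ), 2 ≤ wc → nc + 1 = (J + 1) * wc →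
  ∀ N, N0 ≤ N → 0 < N → ∀ n, 0 < n → ∀ (M : ℕ), (M : ℝ) ≤ αm * N → ∀ A : ℝ, (nc : ℝ) * A ≤ 1 →
  ∃ δ : ℝ, 0 < δ ∧ ∀ C : Cfg N, Near C δ → ∀ (f f1 f2 : ℝ → ℝ), S3 K f f1 f2 →
  ∀ (s : Fin nc → ℝ), (∀ g, |s g| ≤ A) → ∀ τ : ℕ → ℕ, Skel C nc n (fun _ => f) M s J wc τ ε1 →
  ∀ b ≤ J, |rel J (PR C nc n f M s τ) (TR J f f1 (PR C nc n f M s τ) ((M : ℝ) / N)) b| ≤
    Cst * ((nc : ℝ) * A) + ε

/-! ### The new coordinate (L3) -/

/-- (NEWC) the new coordinate: increment of the free energy from dimension `N` to `N + 1`, bounded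
below by the potential `dV` (sphere + `Near` + removal of the new field coordinates). -/
def NEWC : Prop := ∀ (k K L a0 ε : ℝ), 0 < k → 0 < ε → ∃ N0 : ℕ, ∀ N, N0 ≤ N → 0 < N →
  ∀ nc n M : ℕ, 0 < n →
  ∃ δ : ℝ, 0 < δ ∧ ∀ (C : Cfg N) (C1 : Cfg (N + 1)), Near C δ → Near C1 δ → ∀ f : ℝ → ℝ, BL K L f →
  ∀ s : Fin nc → ℝ, (∀ g, |s g| ≤ a0) →
  ∫ G, (∫ g0, eE (QQ C nc n (M := M) (fun _ => f) G s)
      (Crest.Agent.R141.A (QQ C nc n (M := M) (fun _ => f) G s) (fil C nc n) (xs nc n)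
        (dV C nc n k f G g0 s) 0)
      ∂(gv M)) ∂(gam M N) - ε ≤
    PhE C1 nc n (fun _ => f) M s - PhE C nc n (fun _ => f) M s

/-- (TAYC) Taylor expansion of the new coordinate. -/
def TAYC : Prop := ∀ (αm K k L D : ℝ), 0 < k → 0 ≤ L → 0 ≤ D → ∃ Cst : ℝ, 0 ≤ Cst ∧ ∀ ε : ℝ, 0 < ε →
  ∃ N0 : ℕ, ∀ N, N0 ≤ N → 0 < N → ∀ nc n, 0 < n → ∀ (C : Cfg N) (f f1 f2 : ℝ → ℝ), S3 K f f1 f2 →
  ∀ (M : ℕ) (A : ℝ) (s : Fin nc → ℝ), (M : ℝ) ≤ αm * N → (∀ g, |s g| ≤ A) → (nc : ℝ) * A ≤ 1 →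
  ∀ d : ℝ, -D ≤ d → d ≤ 0 →
  ∫ G, (∫ g0, eE (QQ C nc n (M := M) (fun _ => f) G s)
      (Crest.Agent.R141.A (QQ C nc n (M := M) (fun _ => f) G s) (fil C nc n) (xs nc n)
        (fun ω => LamT k d L (∑ a, Wv C nc n f1 G ω a * g0 a)) 0) ∂(gv M)) ∂(gam M N) -
    Cst * ∫ G, eE (QQ C nc n (M := M) (fun _ => f) G s)
      (fun ω => |RS C nc n f2 (fun _ => 1) G ω ω - RS C nc n f1 (fun x => x) G ω ω - d|) ∂(gam M N) -
    Cst * ((nc : ℝ) * A) - ε ≤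
  ∫ G, (∫ g0, eE (QQ C nc n (M := M) (fun _ => f) G s)
      (Crest.Agent.R141.A (QQ C nc n (M := M) (fun _ => f) G s) (fil C nc n) (xs nc n)
        (dV C nc n k f G g0 s) 0) ∂(gv M)) ∂(gam M N)

/-- (COL) the new coordinate gives at least the entropy of the levels. -/
def COL : Prop := ∀ (αm K ε : ℝ) (f f1 f2 : ℝ → ℝ) (J0 : ℕ), 0 < αm → 0 < ε → S3 K f f1 f2 →
  ∃ J, J0 ≤ J ∧ ∃ ε1 : ℝ, 0 < ε1 ∧ ∀ (wc nc : ℕ), 2 ≤ wc → nc + 1 = (J + 1) * wc →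
  ∃ A0 : ℝ, 0 < A0 ∧ ∃ N0 : ℕ, ∀ N, N0 ≤ N → 0 < N → ∀ n, 0 < n → ∀ M : ℕ, (M : ℝ) ≤ αm * N →
  ∃ δ : ℝ, 0 < δ ∧ ∀ (C : Cfg N) (C1 : Cfg (N + 1)), Near C δ → Near C1 δ →
  ∀ (s : Fin nc → ℝ), (∀ g, |s g| ≤ A0) → ∀ τ : ℕ → ℕ, Skel C nc n (fun _ => f) M s J wc τ ε1 →
  1 / (2 * (1 + αm * K ^ 2)) ≤ 1 - PR C nc n f M s τ J ∧
  SP J (PR C nc n f M s τ) - ε ≤ PhE C1 nc n (fun _ => f) M s - PhE C nc n (fun _ => f) M s

/-! ### The increment -/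

/-- (SKADD) a skeleton stays a skeleton when a row is added. -/
def SKADD : Prop := ∀ (K ε : ℝ), 0 < ε → ∃ ε1 : ℝ, 0 < ε1 ∧ ε1 ≤ ε ∧ ∀ (J wc nc N n : ℕ), 0 < N →
  0 < n → ∀ (C : Cfg N) (f : ℕ → ℝ → ℝ) (M : ℕ), (∀ a, Measurable (f a)) → (∀ a x, |f a x| ≤ K) →
  ∀ (s : Fin nc → ℝ) (τ : ℕ → ℕ), Skel C nc n f M s J wc τ ε1 →
  Skel C nc n f (M + 1) s J wc τ ε ∧
  ∀ b ≤ J, |Rk C nc n f (M + 1) s (τ b) - Rk C nc n f M s (τ b)| ≤ ε

/-- (INCL) increment for good strengths: one new coordinate and `m ≤ m1` new rows. -/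
def INCL : Prop := ∀ (αm K ε : ℝ) (f f1 f2 : ℝ → ℝ) (m1 : ℕ), 0 < αm → 0 < ε → S3 K f f1 f2 →
  ∃ J nc : ℕ, ∃ η0 : ℝ, 0 < η0 ∧ ∀ η : ℝ, 0 < η → η ≤ η0 → ∃ δ' : ℝ, 0 < δ' ∧
  ∃ (N0 : ℕ) (n0 : ℕ → ℕ), ∀ N, N0 ≤ N → 0 < N → ∀ n, n0 N ≤ n → 0 < n → ∀ M : ℕ,
  (M : ℝ) ≤ αm * N → ∃ δ : ℝ, 0 < δ ∧ ∀ (C : Cfg N) (C1 : Cfg (N + 1)), Near C δ → Near C1 δ →
  ∀ (s : Fin nc → ℝ), (∀ g, Real.sqrt η ≤ s g ∧ s g ≤ 2 * Real.sqrt η) →
  (∀ g, Dconc C nc n (fun _ => f) M s g δ') →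
  ∃ P : ℕ → ℝ, Lev J P ∧ P J < 1 ∧ ∀ m ≤ m1, m * Th J f P + SP J P - ε ≤
    PhE C1 nc n (fun _ => f) (M + m) s - PhE C nc n (fun _ => f) M s

/-- (CRUDE) lower bound of the increment for all strengths. -/
def CRUDE : Prop := ∀ (αm K : ℝ), ∃ Cst : ℝ, 0 ≤ Cst ∧ ∃ N0 : ℕ, ∀ N, N0 ≤ N → 0 < N → ∀ nc n M : ℕ,
  0 < n → (M : ℝ) ≤ αm * N → ∀ A : ℝ, (nc : ℝ) * A ≤ 1 →
  ∃ δ : ℝ, 0 < δ ∧ ∀ (C : Cfg N) (C1 : Cfg (N + 1)), Near C δ → Near C1 δ →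
  ∀ f f1 f2 : ℝ → ℝ, S3 K f f1 f2 → ∀ s : Fin nc → ℝ, (∀ g, |s g| ≤ A) →
  -Cst ≤ PhE C1 nc n (fun _ => f) M s - PhE C nc n (fun _ => f) M s

/-- mean of the field observable -/
def mD {N : ℕ} (C : Cfg N) (nc n : ℕ) (f : ℕ → ℝ → ℝ) (M : ℕ) (s : Fin nc → ℝ) (g : Fin nc) : ℝ :=
  ∫ G, eE (QQ C nc n (M := M) f G s) (Dobs C nc n g) ∂(gam M N)

/-- mean absolute deviation of the field observable -/
def aD {N : ℕ} (C : Cfg N) (nc n : ℕ) (f : ℕ → ℝ → ℝ) (M : ℕ) (s : Fin nc → ℝ) (g : Fin nc) : ℝ :=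
  ∫ G, eE (QQ C nc n (M := M) f G s) (fun ω => |Dobs C nc n g ω - mD C nc n f M s g|) ∂(gam M N)

/-- (FCONT) continuity in the strengths. -/
def FCONT : Prop := ∀ (nc N n : ℕ), 0 < N → 0 < n → ∀ (C : Cfg N) (K : ℝ) (f : ℕ → ℝ → ℝ) (M : ℕ),
  (∀ a, Measurable (f a)) → (∀ a x, |f a x| ≤ K) →
  Continuous (fun s : Fin nc → ℝ => PhE C nc n f M s) ∧
  ∀ g : Fin nc, Continuous (fun s : Fin nc → ℝ => aD C nc n f M s g)

/-- (FOBSL) the field observables concentrate for most strengths. -/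
def FOBSL : Prop := ∀ (nc : ℕ) (η K αm ε : ℝ), 0 < η → 0 < ε → ∃ (N0 : ℕ) (n0 : ℕ → ℕ),
  ∀ N, N0 ≤ N → 0 < N → ∀ n, n0 N ≤ n → 0 < n → ∀ (C : Cfg N) (f : ℕ → ℝ → ℝ) (M : ℕ),
  (M : ℝ) ≤ αm * N → (∀ a, Measurable (f a)) → (∀ a x, |f a x| ≤ K) →
  ∫ l in Set.Icc (fun _ : Fin nc => (1 : ℝ)) (fun _ => 2),
    ∑ g, aD C nc n f M (fun g => Real.sqrt η * l g) g ≤ ε

/-- (INC1) the increment, averaged over the strengths and over the number of new rows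
(`⌊α⌋` or `⌊α⌋ + 1` with mean `α`). -/
def INC1 : Prop := ∀ (K : ℝ) (f f1 f2 : ℝ → ℝ), S3 K f f1 f2 → ∀ (α ε : ℝ), 0 < α → 0 < ε →
  ∃ (nc : ℕ) (η : ℝ), 0 < η ∧ (nc : ℝ) * η ≤ ε ∧ ∃ N1 : ℕ, ∀ N, N1 ≤ N → ∃ n0 : ℕ, ∀ n, n0 ≤ n →
  ∃ δ : ℝ, 0 < δ ∧ ∀ (C : Cfg N) (C1 : Cfg (N + 1)), Near C δ → Near C1 δ →
  ∀ M : ℕ, (M : ℝ) ≤ (α + 1) * N → ∃ (J : ℕ) (P : ℕ → ℝ), Lev J P ∧ P J < 1 ∧
    α * Th J f P + SP J P - ε ≤
      (1 - (α - ⌊α⌋₊)) * Lb C1 nc n (fun _ => f) (M + ⌊α⌋₊) η +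
        (α - ⌊α⌋₊) * Lb C1 nc n (fun _ => f) (M + ⌊α⌋₊ + 1) η - Lb C nc n (fun _ => f) M η


end

end Crest.Agent.R146.S6L_988
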