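import Crest.Agent.R146.MonF_422_Mg
import Crest.Agent.R146.LbDef_679
import Crest.Agent.R146.S6L_988
import Crest.Agent.R146.LbAsm_679
import Crest.Agent.R146.S6Fcont_627
import Crest.Agent.R146.Fobs_998

-- ▼ part R146/LRow_947
section

/-!
# R146 (helper947): lower bound of S0206, node (L1) = new rows at a good strength

The skeleton of the system with `M` rows is a skeleton of the systems with `M + j` rows (bounded
tilt), its levels move little, hence every new row gives `Th J f P`, `P = ` levels in the system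
with `M` rows.
-/

set_option autoImplicit false

namespace Crest.Agent.R146.LRow_947

open Finset MeasureTheory ProbabilityTheory Crest.Agent.R141
open Crest.Agent.R146.S6Def_988 Crest.Agent.R146.S6U_988 Crest.Agent.R146.CavInc_769
open Crest.Agent.R146.CavAsm_769 Crest.Agent.R146.LbDef_679

noncomputable section

variable {N : ℕ} {C : Cfg N} {nc n : ℕ}














theorem BL.meas {K L : ℝ} {h : ℝ → ℝ} (hf : BL K L h) : Measurable h := by
  have hL : LipschitzWith (Real.toNNReal (max L 0)) h := LipschitzWith.of_dist_le_mul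
    fun x y => by
      rw [Real.dist_eq, Real.dist_eq, Real.coe_toNNReal _ (le_max_right _ _)]
      exact (hf.lip x y).trans (mul_le_mul_of_nonneg_right (le_max_left _ _) (abs_nonneg _))
  exact hL.continuous.measurable


/-- the relation between `FN` and `PhE`. -/
theorem PhE_sub (hN : 0 < N) (f : ℕ → ℝ → ℝ) (M M' : ℕ) (s : Fin nc → ℝ) :
    PhE C nc n f M' s - PhE C nc n f M s = (N : ℝ) * (FN C nc n f M' s - FN C nc n f M s) := by
  have hN' : (N : ℝ) ≠ 0 := by positivity
  unfold PhE FN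
  field_simp
  ring


end

end Crest.Agent.R146.LRow_947
end

-- ▼ part R146/Inc1_947

/-!
# R146 (helper947): lower bound of S0206, `INC1` from `INCL` and `CRUDE`

Averaging over the strengths: good strengths by `FOBSL` (Markov), bad strengths by `CRUDE`;
the path is produced by contradiction with the path `P = 0`.
-/

set_option autoImplicit false

namespace Crest.Agent.R146.Inc1_947

open Finset MeasureTheory ProbabilityTheory Crest.Agent.R141
open Crest.Agent.R146.S6Def_988 Crest.Agent.R146.S6U_988 Crest.Agent.R146.CavInc_769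
open Crest.Agent.R146.S6L_988

noncomputable section

/-- averaging lemma with a reference element -/
theorem exists_of_avg' {L X : Type*} [MeasurableSpace L] (μ : Measure L) [IsProbabilityMeasure μ]
    {D : L → ℝ} {S : Set L} {Good : X → Prop} {V : X → ℝ} {C B ε δ : ℝ} (hD : Integrable D μ)
    (hS : MeasurableSet S) (hε : 0 ≤ ε) (hδ0 : 0 ≤ δ) (hδ : δ ≤ 1 / 2) (hCB : 0 ≤ C + B)
    (hμ : μ.real Sᶜ ≤ δ) (hlow : ∀ᵐ l ∂μ, -C ≤ D l) {x0 : X} (hx0 : Good x0) (hV0 : V x0 ≤ B)
    (hgood : ∀ l ∈ S, ∃ x, Good x ∧ V x - ε ≤ D l) {ε' : ℝ}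
    (hε' : ε + 2 * δ * (C + B) < ε') :
    ∃ x, Good x ∧ V x - ε' ≤ ∫ l, D l ∂μ := by
  by_contra hcon
  push Not at hcon
  set I := ∫ l, D l ∂μ with hI
  have hSr : μ.real S = 1 - μ.real Sᶜ := by
    have h := probReal_add_probReal_compl (μ := μ) hS
    linarith
  have hIB : I < B - ε' := lt_of_lt_of_le (hcon x0 hx0) (by linarith)
  have h1 : ∀ l ∈ S, I + (ε' - ε) ≤ D l := by
    intro l hl
    obtain ⟨x, hx, hv⟩ := hgood l hl
    have := hcon x hx
    linarith
  have h2 : (I + (ε' - ε)) * μ.real S ≤ ∫ l in S, D l ∂μ := by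
    have h := setIntegral_mono_on (μ := μ) (s := S) (f := fun _ => I + (ε' - ε)) (g := D)
      (integrable_const _).integrableOn hD.integrableOn hS h1
    rw [setIntegral_const, smul_eq_mul, mul_comm] at h
    exact h
  have h3 : (-C) * μ.real Sᶜ ≤ ∫ l in Sᶜ, D l ∂μ := by
    have h := setIntegral_mono_ae (μ := μ) (s := Sᶜ) (f := fun _ => -C) (g := D)
      (integrable_const _).integrableOn hD.integrableOn hlow
    rw [setIntegral_const, smul_eq_mul, mul_comm] at h
    exact h
  have h4 : I = ∫ l in S, D l ∂μ + ∫ l in Sᶜ, D l ∂μ := (integral_add_compl hS hD).symm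
  rw [hSr] at h2
  set d := μ.real Sᶜ with hd
  have hd0 : 0 ≤ d := measureReal_nonneg
  have h5 : (ε' - ε) * (1 - d) ≤ d * (I + C) := by nlinarith
  have hε'0 : 0 ≤ ε' := by
    have : 0 ≤ 2 * δ * (C + B) := by positivity
    linarith
  have h6 : d * (I + C) ≤ d * (C + B) := mul_le_mul_of_nonneg_left (by linarith) hd0
  have h7 : d * (C + B) ≤ δ * (C + B) := mul_le_mul_of_nonneg_right hμ hCB
  have h8 : 0 ≤ 2 * δ * (C + B) := by positivity
  have h9 : (ε' - ε) * (1 - d) ≥ (ε' - ε) * (1 / 2) :=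
    mul_le_mul_of_nonneg_left (by linarith) (by linarith)
  linarith

/-- the free energy changes by at most `K` per row. -/
theorem PhE_rows {N : ℕ} {C : Cfg N} {nc n : ℕ} (hN : 0 < N) {f : ℕ → ℝ → ℝ} {K : ℝ}
    (hf : ∀ a, Measurable (f a)) (hK : ∀ a x, |f a x| ≤ K) (M m : ℕ) (s : Fin nc → ℝ) :
    |PhE C nc n f (M + m) s - PhE C nc n f M s| ≤ K * m := by
  induction m with
  | zero => simp
  | succ m ih =>
    have h1 : |PhE C nc n f (M + m + 1) s - PhE C nc n f (M + m) s| ≤ K := by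
      have e : PhE C nc n f (M + m + 1) s - PhE C nc n f (M + m) s =
          (N : ℝ) * (FN C nc n f (M + m + 1) s - FN C nc n f (M + m) s) :=
        LRow_947.PhE_sub hN f (M + m) (M + m + 1) s
      rw [e, FN_increment hN hf hK s]
      have hg : ∀ G : Fin (M + m) → Fin N → ℝ,
          |∫ g, inc C nc n f G s g ∂(Measure.pi fun _ : Fin N => gaussianReal 0 1)| ≤ K := by
        intro G
        have h := norm_integral_le_of_norm_le_const
          (μ := (Measure.pi fun _ : Fin N => gaussianReal 0 1)) (f := fun g => inc C nc n f G s g)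
          (C := K) (ae_of_all _ fun g => by
            rw [Real.norm_eq_abs]; exact inc_abs_le hK _ _ _)
        simpa using h
      have h := norm_integral_le_of_norm_le_const (μ := gam (M + m) N)
        (f := fun G : Fin (M + m) → Fin N → ℝ =>
          ∫ g, inc C nc n f G s g ∂(Measure.pi fun _ : Fin N => gaussianReal 0 1))
        (C := K) (ae_of_all _ fun G => by rw [Real.norm_eq_abs]; exact hg G)
      simpa using h
    have h2 := abs_add_le (PhE C nc n f (M + m) s - PhE C nc n f M s)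
      (PhE C nc n f (M + m + 1) s - PhE C nc n f (M + m) s)
    have e2 : PhE C nc n f (M + m) s - PhE C nc n f M s +
        (PhE C nc n f (M + m + 1) s - PhE C nc n f (M + m) s) =
        PhE C nc n f (M + (m + 1)) s - PhE C nc n f M s := by
      rw [← add_assoc]; ring
    rw [e2] at h2
    push_cast
    linarith

theorem S3.meas {K : ℝ} {f f1 f2 : ℝ → ℝ} (h : S3 K f f1 f2) : Measurable f :=
  (continuous_iff_continuousAt.2 fun x => (h.d1 x).continuousAt).measurable

theorem S3.bl {K : ℝ} {f f1 f2 : ℝ → ℝ} (h : S3 K f f1 f2) : BL K K f where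
  bd := h.b0
  lip x y := by
    have h' := Convex.norm_image_sub_le_of_norm_hasDerivWithin_le (𝕜 := ℝ) (f := f) (f' := f1)
      (s := Set.univ) (x := y) (y := x) (C := K) (fun z _ => (h.d1 z).hasDerivWithinAt)
      (fun z _ => by rw [Real.norm_eq_abs]; exact h.b1 z) convex_univ (Set.mem_univ _)
      (Set.mem_univ _)
    simpa [Real.norm_eq_abs] using h'

theorem lev_zero (J : ℕ) : Lev J (fun _ => 0) where
  nonneg := le_rfl
  mono _ _ _ _ := le_rfl
  le_one := zero_le_one

theorem SP_zero : SP 0 (fun _ => 0) = 0 := by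
  unfold SP DP
  simp

set_option maxHeartbeats 1000000 in
/-- **INC1** from `INCL` and `CRUDE`. -/
theorem inc1_of (hI : INCL) (hCr : CRUDE) : INC1 := by
  intro K f f1 f2 hS α ε hα hε
  have hK0 : 0 ≤ K := (abs_nonneg _).trans (hS.b0 0)
  have hfm : ∀ _a : ℕ, Measurable f := fun _ => S3.meas hS
  have hfb : ∀ (_a : ℕ) (x : ℝ), |f x| ≤ K := fun _ => hS.b0
  set a : ℕ := ⌊α⌋₊ with ha
  set th : ℝ := α - (a : ℝ) with hth
  have hth0 : 0 ≤ th := by rw [hth, ha]; linarith [Nat.floor_le hα.le]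
  have hth1 : th ≤ 1 := by
    rw [hth, ha]; linarith [(Nat.lt_floor_add_one α).le]
  obtain ⟨J, nc, η0, hη0, hincl⟩ := hI (α + 1) K (ε / 4) f f1 f2 (a + 1) (by positivity)
    (by positivity) hS
  obtain ⟨Cst, hCst, N0c, hcr⟩ := hCr (α + 1) K
  have hnc : (0 : ℝ) < (nc : ℝ) + 1 := by positivity
  set η : ℝ := min η0 (min (ε / ((nc : ℝ) + 1)) ((1 / (2 * ((nc : ℝ) + 1))) ^ 2)) with hηdef
  have hη : 0 < η := by rw [hηdef]; positivity
  have hη1 : (nc : ℝ) * η ≤ ε := by
    have h1 : η ≤ ε / ((nc : ℝ) + 1) := (min_le_right _ _).trans (min_le_left _ _)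
    calc (nc : ℝ) * η ≤ ((nc : ℝ) + 1) * (ε / ((nc : ℝ) + 1)) := by
          apply mul_le_mul (by linarith) h1 hη.le hnc.le
      _ = ε := by field_simp
  have hsη : Real.sqrt η ≤ 1 / (2 * ((nc : ℝ) + 1)) := by
    have h1 : η ≤ (1 / (2 * ((nc : ℝ) + 1))) ^ 2 := (min_le_right _ _).trans (min_le_right _ _)
    calc Real.sqrt η ≤ Real.sqrt ((1 / (2 * ((nc : ℝ) + 1))) ^ 2) := Real.sqrt_le_sqrt h1
      _ = _ := Real.sqrt_sq (by positivity)
  have hA : (nc : ℝ) * (2 * Real.sqrt η) ≤ 1 := by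
    calc (nc : ℝ) * (2 * Real.sqrt η) ≤ ((nc : ℝ) + 1) * (2 * (1 / (2 * ((nc : ℝ) + 1)))) := by
          apply mul_le_mul (by linarith) (by linarith) (by positivity) hnc.le
      _ = 1 := by field_simp
  obtain ⟨δ', hδ', N0i, n0i, hincl⟩ := hincl η hη (min_le_left _ _)
  set C' : ℝ := Cst + K * ((a : ℝ) + 1) with hC'
  set B : ℝ := α * K with hB
  have hC'0 : 0 ≤ C' := by rw [hC']; positivity
  have hB0 : 0 ≤ B := by rw [hB]; positivity
  set κ : ℝ := min (1 / 2) (ε / (8 * (C' + B + 1))) with hκ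
  have hκ0 : 0 < κ := by rw [hκ]; positivity
  obtain ⟨N0f, n0f, hfobs⟩ := Fobs_998.fobsl nc η K (α + 1) (δ' * κ) hη (by positivity)
  refine ⟨nc, η, hη, hη1, max (max N0c N0i) (max N0f 1), ?_⟩
  intro N hN
  have hN0 : 0 < N := lt_of_lt_of_le Nat.one_pos
    ((le_max_right _ _).trans ((le_max_right _ _).trans hN))
  have hNc : N0c ≤ N := (le_max_left _ _).trans ((le_max_left _ _).trans hN)
  have hNi : N0i ≤ N := (le_max_right _ _).trans ((le_max_left _ _).trans hN)
  have hNf : N0f ≤ N := (le_max_left _ _).trans ((le_max_right _ _).trans hN)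
  refine ⟨max (max (n0i N) (n0f N)) 1, ?_⟩
  intro n hn
  have hn0 : 0 < n := lt_of_lt_of_le Nat.one_pos ((le_max_right _ _).trans hn)
  have hni : n0i N ≤ n := (le_max_left _ _).trans ((le_max_left _ _).trans hn)
  have hnf : n0f N ≤ n := (le_max_right _ _).trans ((le_max_left _ _).trans hn)
  -- the mesh of the configuration spaces
  have e1 : ∀ M : ℕ, ∃ δ : ℝ, 0 < δ ∧ ((M : ℝ) ≤ (α + 1) * N →
      ∀ (C : Cfg N) (C1 : Cfg (N + 1)), Near C δ → Near C1 δ →
      ∀ (s : Fin nc → ℝ), (∀ g, Real.sqrt η ≤ s g ∧ s g ≤ 2 * Real.sqrt η) →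
      (∀ g, Dconc C nc n (fun _ => f) M s g δ') →
      ∃ P : ℕ → ℝ, Lev J P ∧ P J < 1 ∧ ∀ m ≤ a + 1, m * Th J f P + SP J P - ε / 4 ≤
        PhE C1 nc n (fun _ => f) (M + m) s - PhE C nc n (fun _ => f) M s) := by
    intro M
    by_cases hM : (M : ℝ) ≤ (α + 1) * N
    · obtain ⟨δ, hδ, h⟩ := hincl N hNi hN0 n hni hn0 M hM
      exact ⟨δ, hδ, fun _ => h⟩
    · exact ⟨1, one_pos, fun h => absurd h hM⟩
  choose δi hδi hi using e1
  have e2 : ∀ M : ℕ, ∃ δ : ℝ, 0 < δ ∧ ((M : ℝ) ≤ (α + 1) * N →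
      ∀ (C : Cfg N) (C1 : Cfg (N + 1)), Near C δ → Near C1 δ →
      ∀ s : Fin nc → ℝ, (∀ g, |s g| ≤ 2 * Real.sqrt η) →
      -Cst ≤ PhE C1 nc n (fun _ => f) M s - PhE C nc n (fun _ => f) M s) := by
    intro M
    by_cases hM : (M : ℝ) ≤ (α + 1) * N
    · obtain ⟨δ, hδ, h⟩ := hcr N hNc hN0 nc n M hn0 hM (2 * Real.sqrt η) hA
      exact ⟨δ, hδ, fun _ C C1 hC hC1 s hs => h C C1 hC hC1 f f1 f2 hS s hs⟩
    · exact ⟨1, one_pos, fun h => absurd h hM⟩
  choose δc hδc hc using e2
  obtain ⟨d, hd, hdle⟩ := LbAsm_679.exists_pos_le (⌊(α + 1) * N⌋₊ + 1)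
    (fun M => min (δi M) (δc M)) (fun M _ => lt_min (hδi M) (hδc M))
  refine ⟨d, hd, ?_⟩
  intro C C1 hCn hC1n M hM
  have hMT : M < ⌊(α + 1) * N⌋₊ + 1 := Nat.lt_succ_of_le (Nat.le_floor hM)
  have hd1 := hdle M hMT
  have hI' := hi M hM C C1 (LbAsm_679.near_mono hCn (hd1.trans (min_le_left _ _)))
    (LbAsm_679.near_mono hC1n (hd1.trans (min_le_left _ _)))
  have hC2 := hc M hM C C1 (LbAsm_679.near_mono hCn (hd1.trans (min_le_right _ _)))
    (LbAsm_679.near_mono hC1n (hd1.trans (min_le_right _ _)))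
  set box : Set (Fin nc → ℝ) := Set.Icc (fun _ : Fin nc => (1 : ℝ)) (fun _ => 2) with hbox
  have hboxm : MeasurableSet box := measurableSet_Icc
  set μ : Measure (Fin nc → ℝ) := volume.restrict box with hμdef
  have hvol : volume box = 1 := by rw [hbox, Real.volume_Icc_pi]; norm_num
  have hprob : IsProbabilityMeasure μ := ⟨by rw [hμdef, Measure.restrict_apply_univ, hvol]⟩
  set sl : (Fin nc → ℝ) → Fin nc → ℝ := fun l g => Real.sqrt η * l g with hsl
  have hslc : Continuous sl := continuous_pi fun g => continuous_const.mul (continuous_apply g)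
  have hcomp : IsCompact box := isCompact_Icc
  have hPint : ∀ {N' : ℕ} (hN' : 0 < N') (C' : Cfg N') (M' : ℕ),
      Integrable (fun l => PhE C' nc n (fun _ => f) M' (sl l)) μ := by
    intro N' hN' C' M'
    exact ((S6Fcont_627.fcont nc N' n hN' hn0 C' K (fun _ => f) M' hfm hfb).1.comp
      hslc).continuousOn.integrableOn_compact hcomp
  set D : (Fin nc → ℝ) → ℝ := fun l =>
    (1 - th) * (PhE C1 nc n (fun _ => f) (M + a) (sl l) - PhE C nc n (fun _ => f) M (sl l)) +
    th * (PhE C1 nc n (fun _ => f) (M + a + 1) (sl l) - PhE C nc n (fun _ => f) M (sl l))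
    with hD
  have hi1 := hPint (Nat.succ_pos N) C1 (M + a)
  have hi2 := hPint (Nat.succ_pos N) C1 (M + a + 1)
  have hi3 := hPint hN0 C M
  have hDint : Integrable D μ := ((hi1.sub hi3).const_mul _).add ((hi2.sub hi3).const_mul _)
  have hDval : ∫ l, D l ∂μ = (1 - th) * Lb C1 nc n (fun _ => f) (M + a) η +
      th * Lb C1 nc n (fun _ => f) (M + a + 1) η - Lb C nc n (fun _ => f) M η := by
    have e1 := integral_add ((hi1.sub hi3).const_mul (1 - th)) ((hi2.sub hi3).const_mul th)
    have e2 := integral_sub hi1 hi3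
    have e3 := integral_sub hi2 hi3
    simp only [Pi.sub_apply, integral_const_mul] at e1
    rw [e2, e3] at e1
    rw [hD]
    refine e1.trans ?_
    unfold Lb
    ring
  -- the good set
  have haDc : ∀ g : Fin nc, Continuous fun l => aD C nc n (fun _ => f) M (sl l) g := fun g =>
    ((S6Fcont_627.fcont nc N n hN0 hn0 C K (fun _ => f) M hfm hfb).2 g).comp hslc
  set S0 : Set (Fin nc → ℝ) := {l | ∀ g, aD C nc n (fun _ => f) M (sl l) g ≤ δ'} with hS0
  have hS0m : MeasurableSet S0 := by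
    have : S0 = ⋂ g, {l | aD C nc n (fun _ => f) M (sl l) g ≤ δ'} := by
      ext l; simp [hS0]
    rw [this]
    exact MeasurableSet.iInter fun g => measurableSet_le (haDc g).measurable measurable_const
  have hSm : MeasurableSet (S0 ∩ box) := hS0m.inter hboxm
  have hsumint : Integrable (fun l => ∑ g, aD C nc n (fun _ => f) M (sl l) g) μ :=
    (continuous_finsetSum _ fun g _ => haDc g).continuousOn.integrableOn_compact hcomp
  have hbad : μ.real (S0 ∩ box)ᶜ ≤ κ := by
    have h1 : μ.real (S0 ∩ box)ᶜ ≤ μ.real S0ᶜ := by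
      have h2 : μ (S0 ∩ box)ᶜ ≤ μ S0ᶜ := by
        rw [Set.compl_inter]
        refine (measure_union_le _ _).trans ?_
        have h3 : μ boxᶜ = 0 := by
          rw [hμdef, Measure.restrict_apply hboxm.compl]
          simp
        rw [h3, add_zero]
      exact ENNReal.toReal_mono (measure_ne_top _ _) h2
    refine h1.trans ?_
    have h4 : S0ᶜ ⊆ {l | δ' ≤ ∑ g, aD C nc n (fun _ => f) M (sl l) g} := by
      intro l hl
      rw [hS0, Set.mem_compl_iff, Set.mem_ofPred_eq] at hl
      push Not at hl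
      obtain ⟨g, hg⟩ := hl
      exact hg.le.trans (Finset.single_le_sum
        (f := fun g => aD C nc n (fun _ => f) M (sl l) g)
        (fun g _ => Fobs_998.aD_nonneg M (fun _ => f) (sl l) g) (Finset.mem_univ g))
    have h5 := mul_meas_ge_le_integral_of_nonneg (μ := μ)
      (f := fun l => ∑ g, aD C nc n (fun _ => f) M (sl l) g)
      (ae_of_all _ fun l => Finset.sum_nonneg fun g _ =>
        Fobs_998.aD_nonneg M (fun _ => f) (sl l) g) hsumint δ'
    have h6 : ∫ l, ∑ g, aD C nc n (fun _ => f) M (sl l) g ∂μ ≤ δ' * κ :=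
      hfobs N hNf hN0 n hnf hn0 C (fun _ => f) M hM hfm hfb
    have h7 : δ' * μ.real {l | δ' ≤ ∑ g, aD C nc n (fun _ => f) M (sl l) g} ≤ δ' * κ :=
      h5.trans h6
    have h8 : μ.real {l | δ' ≤ ∑ g, aD C nc n (fun _ => f) M (sl l) g} ≤ κ :=
      le_of_mul_le_mul_left h7 hδ'
    exact (measureReal_mono h4).trans h8
  have hslb : ∀ l ∈ box, ∀ g, Real.sqrt η ≤ sl l g ∧ sl l g ≤ 2 * Real.sqrt η := by
    intro l hl g
    have h1 := hl.1 g
    have h2 := hl.2 g
    have h3 : 0 ≤ Real.sqrt η := Real.sqrt_nonneg _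
    simp only [hsl]
    constructor <;> nlinarith
  -- bad strengths
  have hlow : ∀ᵐ l ∂μ, -C' ≤ D l := by
    rw [hμdef]
    refine (ae_restrict_iff' hboxm).2 (ae_of_all _ fun l hl => ?_)
    have h1 := hC2 (sl l) (fun g => by
      have := hslb l hl g
      rw [abs_le]
      constructor <;> linarith [Real.sqrt_nonneg η])
    have h2 := abs_le.1 (PhE_rows (C := C1) (nc := nc) (n := n) (Nat.succ_pos N) hfm hfb M a (sl l))
    have h3 := abs_le.1 (PhE_rows (C := C1) (nc := nc) (n := n) (Nat.succ_pos N) hfm hfb M (a + 1)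
      (sl l))
    have h4 : -C' ≤ PhE C1 nc n (fun _ => f) (M + a) (sl l) - PhE C nc n (fun _ => f) M (sl l) := by
      rw [hC']
      have : K * (a : ℝ) ≤ K * ((a : ℝ) + 1) := by nlinarith
      linarith [h2.1]
    have h5 : -C' ≤ PhE C1 nc n (fun _ => f) (M + a + 1) (sl l) -
        PhE C nc n (fun _ => f) M (sl l) := by
      rw [hC']
      have h6 := h3.1
      push_cast at h6
      rw [← add_assoc] at h6
      linarith
    have h7 := mul_le_mul_of_nonneg_left h4 (sub_nonneg.2 hth1)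
    have h8 := mul_le_mul_of_nonneg_left h5 hth0
    have h9 : -C' = (1 - th) * (-C') + th * (-C') := by ring
    rw [h9]
    exact add_le_add h7 h8
  -- good strengths
  have hgood : ∀ l ∈ S0 ∩ box, ∃ x : ℕ × (ℕ → ℝ), (Lev x.1 x.2 ∧ x.2 x.1 < 1) ∧
      (α * Th x.1 f x.2 + SP x.1 x.2) - ε / 4 ≤ D l := by
    intro l hl
    obtain ⟨P, hP1, hP2, hP3⟩ := hI' (sl l) (hslb l hl.2) (fun g => ⟨_, hl.1 g⟩)
    refine ⟨(J, P), ⟨hP1, hP2⟩, ?_⟩
    have h1 := hP3 a (by omega)
    have h2 := hP3 (a + 1) le_rfl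
    push_cast at h2
    rw [← add_assoc] at h2
    rw [hD]
    simp only
    have e : α * Th J f P + SP J P - ε / 4 =
        (1 - th) * (a * Th J f P + SP J P - ε / 4) +
        th * (((a : ℝ) + 1) * Th J f P + SP J P - ε / 4) := by
      rw [hth]; ring
    rw [e]
    exact add_le_add (mul_le_mul_of_nonneg_left h1 (by linarith))
      (mul_le_mul_of_nonneg_left h2 hth0)
  have hV0 : α * Th 0 f (fun _ => 0) + SP 0 (fun _ => 0) ≤ B := by
    rw [SP_zero, add_zero, hB]
    exact mul_le_mul_of_nonneg_left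
      ((le_abs_self _).trans (Mon_422.Th_abs_le (lev_zero 0) (S3.bl hS))) hα.le
  have hfin : ε / 4 + 2 * κ * (C' + B) < ε := by
    have h1 : κ ≤ ε / (8 * (C' + B + 1)) := min_le_right _ _
    have h2 : 2 * κ * (C' + B) ≤ ε / 4 := by
      calc 2 * κ * (C' + B) ≤ 2 * (ε / (8 * (C' + B + 1))) * (C' + B + 1) := by
            apply mul_le_mul (by linarith) (by linarith) (by linarith) (by positivity)
        _ = ε / 4 := by field_simp; ring
    linarith
  obtain ⟨x, hx, hxv⟩ := exists_of_avg' (X := ℕ × (ℕ → ℝ)) μ (D := D) (S := S0 ∩ box)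
    (Good := fun x => Lev x.1 x.2 ∧ x.2 x.1 < 1)
    (V := fun x => α * Th x.1 f x.2 + SP x.1 x.2) (C := C') (B := B) (ε := ε / 4) (δ := κ)
    hDint hSm (by positivity) hκ0.le (min_le_left _ _) (by linarith) hbad hlow
    (x0 := (0, fun _ => 0)) ⟨lev_zero 0, by norm_num⟩ hV0 hgood hfin
  refine ⟨x.1, x.2, hx.1, hx.2, ?_⟩
  rw [hDval] at hxv
  exact hxv

end

end Crest.Agent.R146.Inc1_947
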