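import Crest.Agent.R146.LbAsm_679
import Crest.Agent.R146.S6L_988

/-!
Row 146 (S0206): bridge from `S6L_988.INC1` to `S6U_988.LB` (helper679, task 147).
-/

set_option autoImplicit false

namespace Crest.Agent.R146.LbBr_679

open Finset MeasureTheory
open Crest.Agent.R146.S6Def_988 Crest.Agent.R146.S6U_988

noncomputable section



/-- smooth functions with bounded derivatives are regular row functions. -/
theorem s3_of_smooth {f : ℝ → ℝ} (hf : ∀ n : ℕ, ContDiff ℝ n f)
    (hfb : ∀ k : ℕ, ∃ C, ∀ x, |iteratedDeriv k f x| ≤ C) :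
    ∃ K, S6L_988.S3 K f (deriv f) (deriv (deriv f)) := by
  obtain ⟨K0, h0⟩ := hfb 0
  obtain ⟨K1, h1⟩ := hfb 1
  obtain ⟨K2, h2⟩ := hfb 2
  obtain ⟨K3, h3⟩ := hfb 3
  have hd0 : Differentiable ℝ f := (hf 1).differentiable (by norm_num)
  have e1 : iteratedDeriv 1 f = deriv f := iteratedDeriv_one
  have e2 : iteratedDeriv 2 f = deriv (deriv f) := by
    rw [iteratedDeriv_succ, iteratedDeriv_one]
  have e3 : iteratedDeriv 3 f = deriv (deriv (deriv f)) := by
    rw [iteratedDeriv_succ, e2]
  have hd1 : Differentiable ℝ (deriv f) := by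
    have := (hf 2).differentiable_iteratedDeriv 1 (by norm_num)
    rwa [e1] at this
  have hd2 : Differentiable ℝ (deriv (deriv f)) := by
    have := (hf 3).differentiable_iteratedDeriv 2 (by norm_num)
    rwa [e2] at this
  set K := max (max K0 K1) (max K2 K3) with hK
  have k0 : K0 ≤ K := (le_max_left _ _).trans (le_max_left _ _)
  have k1 : K1 ≤ K := (le_max_right _ _).trans (le_max_left _ _)
  have k2 : K2 ≤ K := (le_max_left _ _).trans (le_max_right _ _)
  have k3 : K3 ≤ K := (le_max_right _ _).trans (le_max_right _ _)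
  refine ⟨K, fun x => (hd0 x).hasDerivAt, fun x => (hd1 x).hasDerivAt, fun x => ?_, fun x => ?_,
    fun x => ?_, fun x y => ?_⟩
  · have := h0 x
    rw [iteratedDeriv_zero] at this
    exact this.trans k0
  · have := h1 x
    rw [e1] at this
    exact this.trans k1
  · have := h2 x
    rw [e2] at this
    exact this.trans k2
  · have h := Convex.norm_image_sub_le_of_norm_deriv_le (𝕜 := ℝ) (f := deriv (deriv f))
      (s := Set.univ) (x := y) (y := x) (C := K) (fun z _ => hd2 z) (fun z _ => by
        have := h3 z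
        rw [e3] at this
        rw [Real.norm_eq_abs]
        exact this.trans k3) convex_univ (Set.mem_univ _) (Set.mem_univ _)
    simpa [Real.norm_eq_abs] using h

theorem inc1_of (h : S6L_988.INC1) : LbDef_679.INC1 := by
  intro f hf hfb α ε hα hε
  obtain ⟨K, hS⟩ := s3_of_smooth hf hfb
  exact h K f _ _ hS α ε hα hε

/-- **(LBASM)** the lower bound from the frozen increment Prop. -/
theorem lb_of (h : S6L_988.INC1) : S6U_988.LB := LbAsm_679.lb_of_inc1 (inc1_of h)

end

end Crest.Agent.R146.LbBr_679
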