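import Crest.Agent.R146.RowDef_874

/-!
Row 146, node (L2ibp) (helper290): Gaussian integration by parts in the limit model of a row
(`RowDef_874`).

Notation: `T l = kapX J f P l f1 f1`, `S = cX J f P (J+2) (f2 + f1^2) 0 0`,
`d j = tP J P (j+1) - tP J P j`.
-/

set_option autoImplicit false

namespace Crest.Agent.R146.LimIbp_290

open MeasureTheory ProbabilityTheory Filter Topology Set
open Crest.ProbabilityR.InvariantGlass
open Crest.Agent.R146.S6Def_988 Crest.Agent.R164.GC Crest.Agent.R146.RowDef_874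

noncomputable section

/-! ### tilted averages for functions with exponential moments -/

/-- all exponentials of `f` have exponential growth -/
def EE (f : ℝ → ℝ) : Prop := ∀ a : ℝ, EG (fun y => Real.exp (a * f y))

theorem EE.of_bdd {f : ℝ → ℝ} (hc : Continuous f) {C : ℝ} (hC : ∀ x, |f x| ≤ C) : EE f := by
  intro a
  refine EG.of_bdd (by fun_prop) (K := Real.exp (|a| * C)) fun x => ?_
  rw [abs_of_pos (Real.exp_pos _)]
  refine Real.exp_le_exp.2 ?_
  calc a * f x ≤ |a * f x| := le_abs_self _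
    _ = |a| * |f x| := abs_mul _ _
    _ ≤ |a| * C := mul_le_mul_of_nonneg_left (hC x) (abs_nonneg _)

section tE

variable {f : ℝ → ℝ}

theorem den_pos (hf : EE f) (a t x : ℝ) : 0 < H t (fun y => Real.exp (a * f y)) x :=
  H_pos (hf a) (fun _ => Real.exp_pos _) t x

theorem tE_add (hf : EE f) (a v : ℝ) {φ ψ : ℝ → ℝ} (hφ : EG φ) (hψ : EG ψ) (x : ℝ) :
    tE a v f (fun y => φ y + ψ y) x = tE a v f φ x + tE a v f ψ x := by
  unfold tE
  rw [← add_div, ← H_add (hφ.mul (hf a)) (hψ.mul (hf a))]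
  simp only [add_mul]

theorem tE_sub (hf : EE f) (a v : ℝ) {φ ψ : ℝ → ℝ} (hφ : EG φ) (hψ : EG ψ) (x : ℝ) :
    tE a v f (fun y => φ y - ψ y) x = tE a v f φ x - tE a v f ψ x := by
  unfold tE
  rw [← sub_div, ← H_sub (hφ.mul (hf a)) (hψ.mul (hf a))]
  simp only [sub_mul]

theorem tE_const (hf : EE f) (a v c x : ℝ) : tE a v f (fun _ => c) x = c := by
  unfold tE
  rw [H_const_mul, mul_div_assoc, div_self (den_pos hf a _ x).ne', mul_one]

theorem tE_mono (hf : EE f) (a v : ℝ) {φ ψ : ℝ → ℝ} (hφ : EG φ) (hψ : EG ψ)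
    (h : ∀ y, φ y ≤ ψ y) (x : ℝ) : tE a v f φ x ≤ tE a v f ψ x := by
  unfold tE
  refine div_le_div_of_nonneg_right ?_ (den_pos hf a _ x).le
  exact H_mono (hφ.mul (hf a)) (hψ.mul (hf a))
    (fun y => mul_le_mul_of_nonneg_right (h y) (Real.exp_pos _).le) _ _

theorem tE_abs_le (hf : EE f) (a v : ℝ) {φ : ℝ → ℝ} {K : ℝ} (hφ : BC φ K) (x : ℝ) :
    |tE a v f φ x| ≤ K := by
  rw [abs_le]
  constructor
  · have := tE_mono hf a v (EG.const (-K)) hφ.eg (fun y => (abs_le.1 (hφ.bd y)).1) x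
    rwa [tE_const hf] at this
  · have := tE_mono hf a v hφ.eg (EG.const K) (fun y => (abs_le.1 (hφ.bd y)).2) x
    rwa [tE_const hf] at this

theorem tE_continuous (hf : EE f) (a : ℝ) {φ : ℝ → ℝ} (hφ : EG φ) :
    Continuous (fun p : ℝ × ℝ => tE a p.1 f φ p.2) := by
  unfold tE
  have h1 := H_continuous (hφ.mul (hf a))
  have h2 := H_continuous (hf a)
  have hs : Continuous (fun p : ℝ × ℝ => (Real.sqrt p.1, p.2)) := by fun_prop
  exact (h1.comp hs).div (h2.comp hs) fun p => (den_pos hf a _ _).ne'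

theorem tE_cont (hf : EE f) (a v : ℝ) {φ : ℝ → ℝ} (hφ : EG φ) : Continuous (tE a v f φ) :=
  (tE_continuous hf a hφ).comp (by fun_prop : Continuous fun x : ℝ => (v, x))

theorem tE_BC (hf : EE f) (a v : ℝ) {φ : ℝ → ℝ} {K : ℝ} (hφ : BC φ K) :
    BC (tE a v f φ) K :=
  ⟨tE_cont hf a v hφ.eg, fun x => tE_abs_le hf a v hφ x⟩

theorem tE_sq_le (hf : EE f) (a v : ℝ) {φ : ℝ → ℝ} (hφ : EG φ) (x : ℝ) :
    (tE a v f φ x) ^ 2 ≤ tE a v f (fun y => φ y ^ 2) x := by
  set m := tE a v f φ x with hm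
  have h1 := tE_mono hf a v (EG.const 0) ((hφ.sub (EG.const m)).pow 2)
    (fun y => sq_nonneg (φ y - m)) x
  have h2 : tE a v f (fun y => (φ y - m) ^ 2) x = tE a v f (fun y => φ y ^ 2) x - m ^ 2 := by
    have e : (fun y => (φ y - m) ^ 2) = fun y => (φ y ^ 2 - (2 * m) * φ y) + m ^ 2 := by
      funext y; ring
    rw [e, tE_add hf a v ((hφ.pow 2).sub (hφ.const_mul _)) (EG.const _),
      tE_sub hf a v (hφ.pow 2) (hφ.const_mul _), tE_const_mul, tE_const hf, ← hm]
    ring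
  rw [h2, tE_const hf] at h1
  linarith

/-- exponential growth is preserved -/
theorem tE_EG (hc : Continuous f) {C : ℝ} (hC : ∀ x, |f x| ≤ C) (a v : ℝ) {φ : ℝ → ℝ}
    (hφ : EG φ) : EG (tE a v f φ) := by
  have hf : EE f := EE.of_bdd hc hC
  refine ⟨tE_cont hf a v hφ, ?_⟩
  obtain ⟨K, A, hK, hA, hb⟩ := hφ.bd
  set I := ∫ g : ℝ, Real.exp (A * Real.sqrt v * |g|) ∂gaussianReal 0 1 with hI
  have hI0 : 0 ≤ I := integral_nonneg fun g => (Real.exp_pos _).le
  refine ⟨Real.exp (2 * (|a| * C)) * (K * I), A, by positivity, hA, fun x => ?_⟩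
  have hsv : 0 ≤ Real.sqrt v := Real.sqrt_nonneg v
  have hC1 : ∀ y, a * f y ≤ |a| * C := fun y =>
    (le_abs_self _).trans (by rw [abs_mul]; exact mul_le_mul_of_nonneg_left (hC y) (abs_nonneg _))
  have hC2 : ∀ y, -(|a| * C) ≤ a * f y := fun y => by
    have h1 : |a * f y| ≤ |a| * C := by
      rw [abs_mul]; exact mul_le_mul_of_nonneg_left (hC y) (abs_nonneg _)
    exact (abs_le.1 h1).1
  have hden : Real.exp (-(|a| * C)) ≤ H (Real.sqrt v) (fun y => Real.exp (a * f y)) x := by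
    have := H_mono (EG.const (Real.exp (-(|a| * C)))) (hf a)
      (fun y => Real.exp_le_exp.2 (hC2 y)) (Real.sqrt v) x
    rwa [H_const] at this
  have hnum : |H (Real.sqrt v) (fun y => φ y * Real.exp (a * f y)) x| ≤
      Real.exp (|a| * C) * (K * Real.exp (A * |x|) * I) := by
    unfold H
    have h1 := norm_integral_le_of_norm_le (μ := gaussianReal 0 1)
      (f := fun g => φ (x + Real.sqrt v * g) * Real.exp (a * f (x + Real.sqrt v * g)))
      (g := fun g => Real.exp (|a| * C) * (K * Real.exp (A * |x|)) *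
        Real.exp (A * Real.sqrt v * |g|))
      ((integrable_exp_abs _).const_mul _) (Filter.Eventually.of_forall fun g => ?_)
    · rw [Real.norm_eq_abs, integral_const_mul, ← hI] at h1
      linarith
    · rw [Real.norm_eq_abs, abs_mul, abs_of_pos (Real.exp_pos _)]
      have h2 := shift_bd hK hA hb (x := x) (t := Real.sqrt v) le_rfl
        (le_of_eq (abs_of_nonneg hsv)) g
      have h3 : Real.exp (a * f (x + Real.sqrt v * g)) ≤ Real.exp (|a| * C) :=
        Real.exp_le_exp.2 (hC1 _)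
      calc |φ (x + Real.sqrt v * g)| * Real.exp (a * f (x + Real.sqrt v * g))
          ≤ (K * Real.exp (A * |x|) * Real.exp (A * Real.sqrt v * |g|)) *
            Real.exp (|a| * C) := mul_le_mul h2 h3 (Real.exp_pos _).le (by positivity)
        _ = _ := by ring
  unfold tE
  have hd0 : 0 < H (Real.sqrt v) (fun y => Real.exp (a * f y)) x := den_pos hf a _ x
  rw [abs_div, abs_of_pos hd0, div_le_iff₀ hd0]
  refine hnum.trans ?_
  have h4 : Real.exp (|a| * C) = Real.exp (2 * (|a| * C)) * Real.exp (-(|a| * C)) := by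
    rw [← Real.exp_add]; congr 1; ring
  rw [h4]
  calc Real.exp (2 * (|a| * C)) * Real.exp (-(|a| * C)) * (K * Real.exp (A * |x|) * I)
      = (Real.exp (2 * (|a| * C)) * (K * I) * Real.exp (A * |x|)) * Real.exp (-(|a| * C)) := by
        ring
    _ ≤ _ := mul_le_mul_of_nonneg_left hden (by positivity)

end tE

/-! ### bounded `C²` functions -/

/-- bounded `C²` functions with bounded derivatives -/
structure S2 (f f1 f2 : ℝ → ℝ) (C : ℝ) : Prop where
  d1 : ∀ x, HasDerivAt f (f1 x) x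
  d2 : ∀ x, HasDerivAt f1 (f2 x) x
  c2 : Continuous f2
  b0 : ∀ x, |f x| ≤ C
  b1 : ∀ x, |f1 x| ≤ C
  b2 : ∀ x, |f2 x| ≤ C

section S2

variable {f f1 f2 : ℝ → ℝ} {C : ℝ}

theorem S2.c0 (h : S2 f f1 f2 C) : Continuous f :=
  continuous_iff_continuousAt.2 fun x => (h.d1 x).continuousAt

theorem S2.c1 (h : S2 f f1 f2 C) : Continuous f1 :=
  continuous_iff_continuousAt.2 fun x => (h.d2 x).continuousAt

theorem S2.ee (h : S2 f f1 f2 C) : EE f := EE.of_bdd h.c0 h.b0

theorem S2.B0 (h : S2 f f1 f2 C) : BC f C := ⟨h.c0, h.b0⟩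

theorem S2.B1 (h : S2 f f1 f2 C) : BC f1 C := ⟨h.c1, h.b1⟩

theorem S2.B2 (h : S2 f f1 f2 C) : BC f2 C := ⟨h.c2, h.b2⟩

theorem S2.nC (h : S2 f f1 f2 C) : 0 ≤ C := h.B0.nonneg

theorem S2.dexp (h : S2 f f1 f2 C) (a x : ℝ) :
    HasDerivAt (fun y => Real.exp (a * f y)) (a * (f1 x * Real.exp (a * f x))) x := by
  have := ((h.d1 x).const_mul a).exp
  refine this.congr_deriv ?_
  ring

theorem S2.dnum (h : S2 f f1 f2 C) (a : ℝ) {φ φ1 : ℝ → ℝ} {x : ℝ}
    (hφ : HasDerivAt φ (φ1 x) x) :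
    HasDerivAt (fun y => φ y * Real.exp (a * f y))
      ((φ1 x + a * (φ x * f1 x)) * Real.exp (a * f x)) x := by
  have := hφ.fun_mul (h.dexp a x)
  refine this.congr_deriv ?_
  ring

theorem tE_deriv_x (h : S2 f f1 f2 C) (a v : ℝ) {φ φ1 : ℝ → ℝ}
    (hφ : EG φ) (hφ1 : EG φ1) (hd : ∀ x, HasDerivAt φ (φ1 x) x) (x : ℝ) :
    HasDerivAt (fun x => tE a v f φ x)
      (tE a v f φ1 x + a * (tE a v f (fun y => φ y * f1 y) x - tE a v f φ x * tE a v f f1 x)) x := by
  have hE := h.ee a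
  have hN : HasDerivAt (fun x => H (Real.sqrt v) (fun y => φ y * Real.exp (a * f y)) x)
      (H (Real.sqrt v) (fun y => (φ1 y + a * (φ y * f1 y)) * Real.exp (a * f y)) x) x :=
    H_deriv_x (hφ.mul hE) ((hφ1.add ((hφ.mul h.B1.eg).const_mul a)).mul hE)
      (fun x => h.dnum a (hd x)) _ _
  have hD : HasDerivAt (fun x => H (Real.sqrt v) (fun y => Real.exp (a * f y)) x)
      (H (Real.sqrt v) (fun y => a * (f1 y * Real.exp (a * f y))) x) x :=
    H_deriv_x hE ((h.B1.eg.mul hE).const_mul a) (h.dexp a) _ _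
  have hpos := den_pos h.ee a (Real.sqrt v) x
  have hq := hN.fun_div hD hpos.ne'
  unfold tE
  refine hq.congr_deriv ?_
  have e1 : H (Real.sqrt v) (fun y => (φ1 y + a * (φ y * f1 y)) * Real.exp (a * f y)) x =
      H (Real.sqrt v) (fun y => φ1 y * Real.exp (a * f y)) x +
        a * H (Real.sqrt v) (fun y => φ y * f1 y * Real.exp (a * f y)) x := by
    rw [← H_const_mul, ← H_add (hφ1.mul hE) (((hφ.mul h.B1.eg).mul hE).const_mul a)]
    congr 1
    funext y
    ring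
  rw [e1, H_const_mul]
  field_simp
  ring

theorem gaussOp_deriv_x (h : S2 f f1 f2 C) (a v x : ℝ) :
    HasDerivAt (gaussOp a v f) (tE a v f f1 x) x := by
  by_cases ha : a = 0
  · subst ha
    have e : gaussOp 0 v f = fun x => H (Real.sqrt v) f x := funext fun x => gaussOp_zero v f x
    rw [e, tE_zero]
    exact H_deriv_x h.B0.eg h.B1.eg h.d1 _ _
  · have e : gaussOp a v f = fun x =>
        a⁻¹ * Real.log (H (Real.sqrt v) (fun y => Real.exp (a * f y)) x) :=
      funext fun x => gaussOp_ne ha v f x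
    have hE := h.ee a
    have hD : HasDerivAt (fun x => H (Real.sqrt v) (fun y => Real.exp (a * f y)) x)
        (H (Real.sqrt v) (fun y => a * (f1 y * Real.exp (a * f y))) x) x :=
      H_deriv_x hE ((h.B1.eg.mul hE).const_mul a) (h.dexp a) _ _
    have hpos := den_pos h.ee a (Real.sqrt v) x
    have := (hD.log hpos.ne').const_mul a⁻¹
    rw [e]
    refine this.congr_deriv ?_
    unfold tE
    rw [H_const_mul]
    field_simp

theorem gaussOp_bd (h : S2 f f1 f2 C) {a : ℝ} (ha : 0 ≤ a) (v x : ℝ) :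
    |gaussOp a v f x| ≤ C := by
  rcases ha.eq_or_lt with ha | ha
  · subst ha
    rw [gaussOp_zero, abs_le]
    constructor
    · have := H_mono (EG.const (-C)) h.B0.eg (fun y => (abs_le.1 (h.b0 y)).1) (Real.sqrt v) x
      rwa [H_const] at this
    · have := H_mono h.B0.eg (EG.const C) (fun y => (abs_le.1 (h.b0 y)).2) (Real.sqrt v) x
      rwa [H_const] at this
  · rw [gaussOp_ne ha.ne', abs_le]
    have hpos := den_pos h.ee a (Real.sqrt v) x
    have h1 := H_mono (EG.const (Real.exp (-(a * C)))) (h.ee a) (fun y => Real.exp_le_exp.2 (by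
      have := mul_le_mul_of_nonneg_left (abs_le.1 (h.b0 y)).1 ha.le
      linarith)) (Real.sqrt v) x
    have h2 := H_mono (h.ee a) (EG.const (Real.exp (a * C))) (fun y => Real.exp_le_exp.2
      (mul_le_mul_of_nonneg_left (abs_le.1 (h.b0 y)).2 ha.le)) (Real.sqrt v) x
    rw [H_const] at h1 h2
    constructor
    · rw [neg_le_iff_add_nonneg, ← mul_le_mul_iff_right₀ ha, mul_add, mul_inv_cancel_left₀ ha.ne',
        mul_zero]
      have := (Real.le_log_iff_exp_le hpos).2 h1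
      linarith
    · rw [inv_mul_le_iff₀ ha]
      exact (Real.log_le_iff_le_exp hpos).2 h2

/-- `S2` is preserved by a step. -/
theorem S2.step (h : S2 f f1 f2 C) {a : ℝ} (ha : 0 ≤ a) (ha1 : a ≤ 1) (v : ℝ) :
    S2 (gaussOp a v f) (tE a v f f1) (g2 a v f f1 f2) (C + 2 * C ^ 2) := by
  have hC := h.nC
  have hC2 : 0 ≤ C ^ 2 := sq_nonneg C
  refine ⟨gaussOp_deriv_x h a v, fun x => ?_, ?_, fun x => ?_, fun x => ?_, fun x => ?_⟩
  · have := tE_deriv_x h a v h.B1.eg h.B2.eg h.d2 x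
    refine this.congr_deriv ?_
    unfold g2
    have e : (fun y => f1 y * f1 y) = fun y => f1 y ^ 2 := by funext y; ring
    rw [e]
    ring
  · unfold g2
    exact (tE_cont h.ee a v h.B2.eg).add (continuous_const.mul
      ((tE_cont h.ee a v (h.B1.eg.pow 2)).sub ((tE_cont h.ee a v h.B1.eg).pow 2)))
  · have := gaussOp_bd h ha v x
    linarith
  · have := tE_abs_le h.ee a v h.B1 x
    linarith
  · unfold g2
    have h1 := tE_abs_le h.ee a v h.B2 x
    have h2 := tE_abs_le h.ee a v (h.B1.pow 2) x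
    have h3 := tE_abs_le h.ee a v h.B1 x
    have h4 : |tE a v f f1 x ^ 2| ≤ C ^ 2 := by
      rw [abs_pow]; exact pow_le_pow_left₀ (abs_nonneg _) h3 2
    have h5 : |a * (tE a v f (fun y => f1 y ^ 2) x - tE a v f f1 x ^ 2)| ≤ 2 * C ^ 2 := by
      rw [abs_mul, abs_of_nonneg ha]
      have h6 : |tE a v f (fun y => f1 y ^ 2) x - tE a v f f1 x ^ 2| ≤ 2 * C ^ 2 := by
        refine (abs_sub _ _).trans ?_
        linarith
      calc a * |tE a v f (fun y => f1 y ^ 2) x - tE a v f f1 x ^ 2| ≤ 1 * (2 * C ^ 2) :=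
            mul_le_mul ha1 h6 (abs_nonneg _) zero_le_one
        _ = _ := one_mul _
    exact (abs_add_le _ _).trans (add_le_add h1 h5)

theorem g2_add (h : S2 f f1 f2 C) (a v x : ℝ) :
    g2 a v f f1 f2 x + a * tE a v f f1 x ^ 2 = tE a v f (fun y => f2 y + a * f1 y ^ 2) x := by
  rw [tE_add h.ee a v h.B2.eg ((h.B1.eg.pow 2).const_mul a), tE_const_mul]
  unfold g2
  ring

/-- Gaussian integration by parts for one step. -/
theorem tE_stein (h : S2 f f1 f2 C) (a : ℝ) {v : ℝ} (hv : 0 ≤ v) {φ φ1 : ℝ → ℝ}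
    (hφ : EG φ) (hφ1 : EG φ1) (hd : ∀ x, HasDerivAt φ (φ1 x) x) (x : ℝ) :
    tE a v f (fun y => (y - x) * φ y) x = v * tE a v f (fun y => φ1 y + a * (φ y * f1 y)) x := by
  have hE := h.ee a
  have h1 := stein (hφ.mul hE) ((hφ1.add ((hφ.mul h.B1.eg).const_mul a)).mul hE)
      (fun x => h.dnum a (hd x)) (Real.sqrt v) x
  have h2 : H (Real.sqrt v) (fun y => (y - x) * φ y * Real.exp (a * f y)) x =
      Real.sqrt v * ∫ g, g * (φ (x + Real.sqrt v * g) * Real.exp (a * f (x + Real.sqrt v * g)))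
        ∂gaussianReal 0 1 := by
    unfold H
    rw [← integral_const_mul]
    refine integral_congr_ae (Filter.Eventually.of_forall fun g => ?_)
    dsimp only
    ring
  unfold tE
  rw [h2, h1, ← mul_assoc, Real.mul_self_sqrt hv, mul_div_assoc]

end S2

/-! ### the chain -/

/-- the increments of the time points -/
def dJ (J : ℕ) (P : ℕ → ℝ) (j : ℕ) : ℝ := tP J P (j + 1) - tP J P j

theorem tP_le {J : ℕ} {P : ℕ → ℝ} (h : Lev J P) (j : ℕ) : 0 ≤ dJ J P j := by
  unfold dJ tP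
  rcases Nat.eq_zero_or_pos j with h0 | h0
  · subst h0
    simp only [if_true, zero_add]
    rw [if_neg one_ne_zero, if_pos (by omega)]
    simpa using h.nonneg
  · rw [if_neg (by omega : j + 1 ≠ 0), if_neg (by omega : j ≠ 0)]
    by_cases h1 : j + 1 ≤ J + 1
    · rw [if_pos h1, if_pos (by omega)]
      have := h.mono (j - 1) (j + 1 - 1) (by omega) (by omega)
      linarith
    · rw [if_neg h1]
      by_cases h2 : j ≤ J + 1
      · rw [if_pos h2]
        have h3 : j - 1 = J := by omega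
        rw [h3]
        linarith [h.le_one]
      · rw [if_neg h2]; simp

theorem mJ_nonneg (J j : ℕ) : 0 ≤ mJ J j := by unfold mJ; positivity

theorem mJ_le_one {J j : ℕ} (h : j ≤ J + 1) : mJ J j ≤ 1 := by
  unfold mJ
  rw [div_le_one (by positivity)]
  exact_mod_cast h

theorem mJ_last (J : ℕ) : mJ J (J + 1) = 1 := by
  unfold mJ
  push_cast
  exact div_self (by positivity)

theorem mJ_succ (J j : ℕ) : mJ J (j + 1) - mJ J j = ((J : ℝ) + 1)⁻¹ := by
  unfold mJ
  push_cast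
  field_simp
  ring

section chain

variable (J : ℕ) (f f1 f2 : ℝ → ℝ) (P : ℕ → ℝ)

/-- second derivatives of the value functions, backward index -/
def wb : ℕ → ℝ → ℝ
  | 0 => f2
  | i + 1 => g2 (mJ J (J + 1 - i)) (dJ J P (J + 1 - i)) (Psi J f P (J + 2 - i))
      (cX J f P (J + 2) f1 (J + 2 - i)) (wb i)

/-- second derivative of `Psi J f P j` -/
def wX (j : ℕ) : ℝ → ℝ := wb J f f1 f2 P (J + 2 - j)

/-- first derivative of `Psi J f P j` -/
def uX (j : ℕ) : ℝ → ℝ := cX J f P (J + 2) f1 j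

theorem wX_last : wX J f f1 f2 P (J + 2) = f2 := by
  unfold wX
  rw [Nat.sub_self]
  rfl

theorem wX_step {j : ℕ} (hj : j < J + 2) : wX J f f1 f2 P j =
    g2 (mJ J j) (dJ J P j) (Psi J f P (j + 1)) (uX J f f1 P (j + 1)) (wX J f f1 f2 P (j + 1)) := by
  unfold wX uX
  obtain ⟨i, hi⟩ : ∃ i, J + 2 - j = i + 1 := ⟨J + 1 - j, by omega⟩
  rw [hi]
  have e1 : J + 2 - (j + 1) = i := by omega
  rw [e1]
  show g2 _ _ _ _ _ = _
  have e2 : J + 1 - i = j := by omega
  have e3 : J + 2 - i = j + 1 := by omega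
  rw [e2, e3]

theorem uX_last : uX J f f1 P (J + 2) = f1 := cX_self _ _ _ _ _

theorem uX_step {j : ℕ} (hj : j < J + 2) : uX J f f1 P j =
    tE (mJ J j) (dJ J P j) (Psi J f P (j + 1)) (uX J f f1 P (j + 1)) := cX_step _ _ _ _ hj

variable {J f f1 f2 P}

theorem S2_all {C : ℝ} (h : S2 f f1 f2 C) : ∀ i ≤ J + 2, ∃ C',
    S2 (Psi J f P (J + 2 - i)) (uX J f f1 P (J + 2 - i)) (wX J f f1 f2 P (J + 2 - i)) C' := by
  intro i
  induction i with
  | zero =>
    intro _
    rw [Nat.sub_zero, Psi_last, uX_last, wX_last]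
    exact ⟨C, h⟩
  | succ i ih =>
    intro hi
    obtain ⟨C', h'⟩ := ih (by omega)
    obtain ⟨j, hj⟩ : ∃ j, J + 2 - (i + 1) = j := ⟨_, rfl⟩
    have e : J + 2 - i = j + 1 := by omega
    rw [hj]
    rw [e] at h'
    have hj2 : j < J + 2 := by omega
    refine ⟨C' + 2 * C' ^ 2, ?_⟩
    rw [Psi_step J f P hj2, uX_step J f f1 P hj2, wX_step J f f1 f2 P hj2]
    exact h'.step (mJ_nonneg J j) (mJ_le_one (by omega)) _

theorem S2_at {C : ℝ} (h : S2 f f1 f2 C) {j : ℕ} (hj : j ≤ J + 2) : ∃ C',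
    S2 (Psi J f P j) (uX J f f1 P j) (wX J f f1 f2 P j) C' := by
  obtain ⟨C', h'⟩ := S2_all (J := J) (P := P) h (J + 2 - j) (by omega)
  have e : J + 2 - (J + 2 - j) = j := by omega
  rw [e] at h'
  exact ⟨C', h'⟩



theorem cX_BC {C : ℝ} (h : S2 f f1 f2 C) {k : ℕ} (hk : k ≤ J + 2) {g : ℝ → ℝ} {K : ℝ}
    (hg : BC g K) : ∀ i, i ≤ k → BC (cX J f P k g (k - i)) K := by
  intro i
  induction i with
  | zero =>
    intro _
    rw [Nat.sub_zero, cX_self]
    exact hg
  | succ i ih =>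
    intro hi
    have h1 := ih (by omega)
    obtain ⟨j, hj⟩ : ∃ j, k - (i + 1) = j := ⟨_, rfl⟩
    have e : k - i = j + 1 := by omega
    rw [hj, cX_step J f P g (by omega)]
    rw [e] at h1
    obtain ⟨C', h'⟩ := S2_at (J := J) (P := P) h (j := j + 1) (by omega)
    exact tE_BC h'.ee _ _ h1

theorem cX_EG {C : ℝ} (h : S2 f f1 f2 C) {k : ℕ} (hk : k ≤ J + 2) {g : ℝ → ℝ}
    (hg : EG g) : ∀ i, i ≤ k → EG (cX J f P k g (k - i)) := by
  intro i
  induction i with
  | zero =>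
    intro _
    rw [Nat.sub_zero, cX_self]
    exact hg
  | succ i ih =>
    intro hi
    have h1 := ih (by omega)
    obtain ⟨j, hj⟩ : ∃ j, k - (i + 1) = j := ⟨_, rfl⟩
    have e : k - i = j + 1 := by omega
    rw [hj, cX_step J f P g (by omega)]
    rw [e] at h1
    obtain ⟨C', h'⟩ := S2_at (J := J) (P := P) h (j := j + 1) (by omega)
    exact tE_EG h'.c0 h'.b0 _ _ h1

theorem cX_BC' {C : ℝ} (h : S2 f f1 f2 C) {k : ℕ} (hk : k ≤ J + 2) {g : ℝ → ℝ} {K : ℝ}
    (hg : BC g K) {j : ℕ} (hj : j ≤ k) : BC (cX J f P k g j) K := by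
  have := cX_BC (P := P) h hk hg (k - j) (by omega)
  have e : k - (k - j) = j := by omega
  rwa [e] at this

theorem cX_EG' {C : ℝ} (h : S2 f f1 f2 C) {k : ℕ} (hk : k ≤ J + 2) {g : ℝ → ℝ}
    (hg : EG g) {j : ℕ} (hj : j ≤ k) : EG (cX J f P k g j) := by
  have := cX_EG (P := P) h hk hg (k - j) (by omega)
  have e : k - (k - j) = j := by omega
  rwa [e] at this

theorem cX_add {C : ℝ} (h : S2 f f1 f2 C) {k : ℕ} (hk : k ≤ J + 2) {g g' : ℝ → ℝ}
    (hg : EG g) (hg' : EG g') : ∀ i, i ≤ k → ∀ x, cX J f P k (fun y => g y + g' y) (k - i) x =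
      cX J f P k g (k - i) x + cX J f P k g' (k - i) x := by
  intro i
  induction i with
  | zero =>
    intro _ x
    rw [Nat.sub_zero, cX_self, cX_self, cX_self]
  | succ i ih =>
    intro hi x
    have h1 := ih (by omega)
    obtain ⟨j, hj⟩ : ∃ j, k - (i + 1) = j := ⟨_, rfl⟩
    have e : k - i = j + 1 := by omega
    rw [e] at h1
    have hs : ∀ g, cX J f P k g j = tE (mJ J j) (tP J P (j + 1) - tP J P j)
        (Psi J f P (j + 1)) (cX J f P k g (j + 1)) :=
      fun g => cX_step J f P g (by omega : j < k)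
    rw [hj, hs, hs g, hs g']
    obtain ⟨C', h'⟩ := S2_at (J := J) (P := P) h (j := j + 1) (by omega)
    have h2 : cX J f P k (fun y => g y + g' y) (j + 1) =
        fun x => cX J f P k g (j + 1) x + cX J f P k g' (j + 1) x := funext h1
    rw [h2]
    exact tE_add h'.ee _ _ (cX_EG' h hk hg (by omega)) (cX_EG' h hk hg' (by omega)) x

theorem cX_smul {k : ℕ} {g : ℝ → ℝ} (c : ℝ) : ∀ i, i ≤ k → ∀ x,
    cX J f P k (fun y => c * g y) (k - i) x = c * cX J f P k g (k - i) x := by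
  intro i
  induction i with
  | zero =>
    intro _ x
    rw [Nat.sub_zero, cX_self, cX_self]
  | succ i ih =>
    intro hi x
    have h1 := ih (by omega)
    obtain ⟨j, hj⟩ : ∃ j, k - (i + 1) = j := ⟨_, rfl⟩
    have e : k - i = j + 1 := by omega
    rw [e] at h1
    have hs : ∀ g, cX J f P k g j = tE (mJ J j) (tP J P (j + 1) - tP J P j)
        (Psi J f P (j + 1)) (cX J f P k g (j + 1)) :=
      fun g => cX_step J f P g (by omega : j < k)
    rw [hj, hs, hs g]
    have h2 : cX J f P k (fun y => c * g y) (j + 1) =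
        fun x => c * cX J f P k g (j + 1) x := funext h1
    rw [h2]
    exact tE_const_mul _ _ _ _ _ x

theorem cX_mono {C : ℝ} (h : S2 f f1 f2 C) {k : ℕ} (hk : k ≤ J + 2) {g g' : ℝ → ℝ}
    (hg : EG g) (hg' : EG g') (hgg : ∀ x, g x ≤ g' x) : ∀ i, i ≤ k → ∀ x,
      cX J f P k g (k - i) x ≤ cX J f P k g' (k - i) x := by
  intro i
  induction i with
  | zero =>
    intro _ x
    rw [Nat.sub_zero, cX_self, cX_self]
    exact hgg x
  | succ i ih =>
    intro hi x
    have h1 := ih (by omega)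
    obtain ⟨j, hj⟩ : ∃ j, k - (i + 1) = j := ⟨_, rfl⟩
    have e : k - i = j + 1 := by omega
    rw [e] at h1
    have hs : ∀ g, cX J f P k g j = tE (mJ J j) (tP J P (j + 1) - tP J P j)
        (Psi J f P (j + 1)) (cX J f P k g (j + 1)) :=
      fun g => cX_step J f P g (by omega : j < k)
    rw [hj, hs g, hs g']
    obtain ⟨C', h'⟩ := S2_at (J := J) (P := P) h (j := j + 1) (by omega)
    exact tE_mono h'.ee _ _ (cX_EG' h hk hg (by omega)) (cX_EG' h hk hg' (by omega)) h1 x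

/-- expectation along the chain started at `0` -/
def EX (J : ℕ) (f : ℝ → ℝ) (P : ℕ → ℝ) (k : ℕ) (g : ℝ → ℝ) : ℝ := cX J f P k g 0 0

theorem EX_zero (g : ℝ → ℝ) : EX J f P 0 g = g 0 := by
  unfold EX
  rw [cX_self]

/-- forward tower property -/
theorem cX_forward {k : ℕ} (g : ℝ → ℝ) : ∀ i, i ≤ k → cX J f P (k + 1) g (k - i) =
    cX J f P k (tE (mJ J k) (dJ J P k) (Psi J f P (k + 1)) g) (k - i) := by
  intro i
  induction i with
  | zero =>
    intro _
    rw [Nat.sub_zero, cX_self, cX_step J f P g (Nat.lt_succ_self k), cX_self]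
    rfl
  | succ i ih =>
    intro hi
    have h1 := ih (by omega)
    obtain ⟨j, hj⟩ : ∃ j, k - (i + 1) = j := ⟨_, rfl⟩
    have e : k - i = j + 1 := by omega
    rw [e] at h1
    rw [hj, cX_step J f P g (by omega), cX_step J f P _ (by omega : j < k), h1]

theorem EX_succ (k : ℕ) (g : ℝ → ℝ) : EX J f P (k + 1) g =
    EX J f P k (tE (mJ J k) (dJ J P k) (Psi J f P (k + 1)) g) := by
  unfold EX
  have := cX_forward (J := J) (f := f) (P := P) (k := k) g k le_rfl
  rw [Nat.sub_self] at this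
  rw [this]

theorem EX_add {C : ℝ} (h : S2 f f1 f2 C) {k : ℕ} (hk : k ≤ J + 2) {g g' : ℝ → ℝ}
    (hg : EG g) (hg' : EG g') : EX J f P k (fun y => g y + g' y) =
      EX J f P k g + EX J f P k g' := by
  unfold EX
  have := cX_add (P := P) h hk hg hg' k le_rfl 0
  rwa [Nat.sub_self] at this

theorem EX_smul (k : ℕ) (c : ℝ) (g : ℝ → ℝ) : EX J f P k (fun y => c * g y) =
    c * EX J f P k g := by
  unfold EX
  have := cX_smul (J := J) (f := f) (P := P) (k := k) (g := g) c k le_rfl 0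
  rwa [Nat.sub_self] at this

theorem EX_mono {C : ℝ} (h : S2 f f1 f2 C) {k : ℕ} (hk : k ≤ J + 2) {g g' : ℝ → ℝ}
    (hg : EG g) (hg' : EG g') (hgg : ∀ x, g x ≤ g' x) : EX J f P k g ≤ EX J f P k g' := by
  unfold EX
  have := cX_mono (P := P) h hk hg hg' hgg k le_rfl 0
  rwa [Nat.sub_self] at this

theorem EX_abs_le {C : ℝ} (h : S2 f f1 f2 C) {k : ℕ} (hk : k ≤ J + 2) {g : ℝ → ℝ} {K : ℝ}
    (hg : BC g K) : |EX J f P k g| ≤ K :=
  (cX_BC' h hk hg (Nat.zero_le k)).bd 0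

/-- `E u_k(X)^2` -/
def tau (J : ℕ) (f f1 : ℝ → ℝ) (P : ℕ → ℝ) (k : ℕ) : ℝ := EX J f P k (fun x => uX J f f1 P k x ^ 2)

theorem EG_id : EG (fun x : ℝ => x) := by
  refine ⟨continuous_id, 1, 1, zero_le_one, zero_le_one, fun x => ?_⟩
  rw [one_mul, one_mul]
  linarith [Real.add_one_le_exp |x|]

/-- `a_j = E [w_{j+1} + m_j u_{j+1}^2]` -/
def aX (J : ℕ) (f f1 f2 : ℝ → ℝ) (P : ℕ → ℝ) (j : ℕ) : ℝ :=
  EX J f P (j + 1) (fun x => wX J f f1 f2 P (j + 1) x + mJ J j * uX J f f1 P (j + 1) x ^ 2)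

theorem aX_succ {C : ℝ} (h : S2 f f1 f2 C) {j : ℕ} (hj : j ≤ J) :
    aX J f f1 f2 P j = aX J f f1 f2 P (j + 1) - ((J : ℝ) + 1)⁻¹ * tau J f f1 P (j + 1) := by
  obtain ⟨C', h'⟩ := S2_at (J := J) (P := P) h (j := j + 1) (by omega)
  obtain ⟨C'', h''⟩ := S2_at (J := J) (P := P) h (j := j + 2) (by omega)
  have e1 : aX J f f1 f2 P (j + 1) = EX J f P (j + 1)
      (fun x => wX J f f1 f2 P (j + 1) x + mJ J (j + 1) * uX J f f1 P (j + 1) x ^ 2) := by
    unfold aX
    rw [EX_succ]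
    congr 1
    funext x
    rw [wX_step J f f1 f2 P (by omega : j + 1 < J + 2), uX_step J f f1 P (by omega : j + 1 < J + 2)]
    exact (g2_add h'' _ _ x).symm
  have e2 : (fun x => wX J f f1 f2 P (j + 1) x + mJ J (j + 1) * uX J f f1 P (j + 1) x ^ 2) =
      fun x => (wX J f f1 f2 P (j + 1) x + mJ J j * uX J f f1 P (j + 1) x ^ 2) +
        ((J : ℝ) + 1)⁻¹ * uX J f f1 P (j + 1) x ^ 2 := by
    funext x
    rw [← mJ_succ J j]
    ring
  rw [e1, e2, EX_add h (by omega) (h'.B2.eg.add ((h'.B1.eg.pow 2).const_mul _))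
    ((h'.B1.eg.pow 2).const_mul _), EX_smul]
  unfold aX tau
  ring

/-- `S = E [f'' + f'^2]` -/
def SX (J : ℕ) (f f1 f2 : ℝ → ℝ) (P : ℕ → ℝ) : ℝ :=
  cX J f P (J + 2) (fun x => f2 x + f1 x ^ 2) 0 0

theorem aX_last : aX J f f1 f2 P (J + 1) = SX J f f1 f2 P := by
  unfold aX SX EX
  rw [wX_last, uX_last, mJ_last]
  simp only [one_mul]

theorem aX_eq {C : ℝ} (h : S2 f f1 f2 C) : ∀ i, i ≤ J + 1 → aX J f f1 f2 P (J + 1 - i) =
    SX J f f1 f2 P - ((J : ℝ) + 1)⁻¹ * ∑ l ∈ Finset.Ico (J + 1 - i) (J + 1), tau J f f1 P (l + 1) := by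
  intro i
  induction i with
  | zero => intro _; simp [aX_last]
  | succ i ih =>
    intro hi
    have h1 := ih (by omega)
    obtain ⟨j, hj⟩ : ∃ j, J + 1 - (i + 1) = j := ⟨_, rfl⟩
    have e : J + 1 - i = j + 1 := by omega
    rw [e] at h1
    rw [hj, aX_succ h (by omega : j ≤ J), h1, Finset.sum_eq_sum_Ico_succ_bot (by omega : j < J + 1)]
    ring

theorem aX_eq' {C : ℝ} (h : S2 f f1 f2 C) {j : ℕ} (hj : j ≤ J + 1) : aX J f f1 f2 P j =
    SX J f f1 f2 P - ((J : ℝ) + 1)⁻¹ * ∑ l ∈ Finset.Ico j (J + 1), tau J f f1 P (l + 1) := by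
  have := aX_eq (J := J) (P := P) h (J + 1 - j) (by omega)
  have e : J + 1 - (J + 1 - j) = j := by omega
  rwa [e] at this

theorem eX_succ {C : ℝ} (h : S2 f f1 f2 C) (hP : Lev J P) {k : ℕ} (hk : k < J + 2) :
    EX J f P (k + 1) (fun x => uX J f f1 P (k + 1) x * x) =
      EX J f P k (fun x => uX J f f1 P k x * x) + dJ J P k * aX J f f1 f2 P k := by
  obtain ⟨C', h'⟩ := S2_at (J := J) (P := P) h (j := k + 1) (by omega)
  obtain ⟨C0, h0⟩ := S2_at (J := J) (P := P) h (j := k) (by omega)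
  have e1 : ∀ x, tE (mJ J k) (dJ J P k) (Psi J f P (k + 1))
      (fun y => uX J f f1 P (k + 1) y * y) x = uX J f f1 P k x * x + dJ J P k *
        tE (mJ J k) (dJ J P k) (Psi J f P (k + 1))
        (fun y => wX J f f1 f2 P (k + 1) y + mJ J k * uX J f f1 P (k + 1) y ^ 2) x := by
    intro x
    have h2 := tE_stein h' (mJ J k) (tP_le hP k) h'.B1.eg h'.B2.eg h'.d2 x
    have h3 : (fun y => uX J f f1 P (k + 1) y * y) = fun y => (y - x) * uX J f f1 P (k + 1) y +
        x * uX J f f1 P (k + 1) y := by funext y; ring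
    rw [h3, tE_add h'.ee _ _ ((EG_id.sub (EG.const x)).mul h'.B1.eg) (h'.B1.eg.const_mul x),
      tE_const_mul, h2, uX_step J f f1 P hk]
    have h4 : (fun y => wX J f f1 f2 P (k + 1) y + mJ J k *
        (uX J f f1 P (k + 1) y * uX J f f1 P (k + 1) y)) =
        fun y => wX J f f1 f2 P (k + 1) y + mJ J k * uX J f f1 P (k + 1) y ^ 2 := by
      funext y; ring
    rw [h4]
    ring
  have hG : EG (fun y => wX J f f1 f2 P (k + 1) y + mJ J k * uX J f f1 P (k + 1) y ^ 2) :=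
    h'.B2.eg.add ((h'.B1.eg.pow 2).const_mul _)
  rw [EX_succ, show tE (mJ J k) (dJ J P k) (Psi J f P (k + 1))
      (fun y => uX J f f1 P (k + 1) y * y) = _ from funext e1]
  rw [EX_add h (by omega) (h0.B1.eg.mul EG_id) ((tE_EG h'.c0 h'.b0 _ _ hG).const_mul _), EX_smul]
  unfold aX
  rw [EX_succ]

theorem eX_eq {C : ℝ} (h : S2 f f1 f2 C) (hP : Lev J P) : ∀ k, k ≤ J + 2 →
    EX J f P k (fun x => uX J f f1 P k x * x) = ∑ j ∈ Finset.range k, dJ J P j * aX J f f1 f2 P j := by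
  intro k
  induction k with
  | zero => intro _; simp [EX_zero]
  | succ k ih =>
    intro hk
    rw [eX_succ h hP (by omega), ih (by omega), Finset.sum_range_succ]

/-- `D_j = sum_{i ≥ j} d_i m_i` -/
def DX (J : ℕ) (P : ℕ → ℝ) (j : ℕ) : ℝ := ∑ i ∈ Finset.Ico j (J + 2), dJ J P i * mJ J i

/-- (I2) -/
theorem cX_id {C : ℝ} (h : S2 f f1 f2 C) (hP : Lev J P) : ∀ i, i ≤ J + 2 → ∀ x,
    cX J f P (J + 2) (fun y => y) (J + 2 - i) x =
      x + DX J P (J + 2 - i) * uX J f f1 P (J + 2 - i) x := by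
  intro i
  induction i with
  | zero => intro _ x; simp [cX_self, DX]
  | succ i ih =>
    intro hi x
    have h1 := ih (by omega)
    obtain ⟨j, hj⟩ : ∃ j, J + 2 - (i + 1) = j := ⟨_, rfl⟩
    have e : J + 2 - i = j + 1 := by omega
    rw [e] at h1
    have hj2 : j < J + 2 := by omega
    obtain ⟨C', h'⟩ := S2_at (J := J) (P := P) h (j := j + 1) (by omega)
    rw [hj, cX_step J f P _ hj2, show cX J f P (J + 2) (fun y => y) (j + 1) = _ from funext h1]
    have h2 : (fun y => y + DX J P (j + 1) * uX J f f1 P (j + 1) y) =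
        fun y => (y - x) * 1 + (x + DX J P (j + 1) * uX J f f1 P (j + 1) y) := by
      funext y; ring
    rw [h2, tE_add h'.ee _ _ ((EG_id.sub (EG.const x)).mul (EG.const 1))
      ((EG.const x).add (h'.B1.eg.const_mul _)), tE_add h'.ee _ _ (EG.const x)
      (h'.B1.eg.const_mul _), tE_const h'.ee, tE_const_mul]
    have h3 := tE_stein h' (mJ J j) (tP_le hP j) (EG.const 1) (EG.const 0)
      (fun x => hasDerivAt_const x 1) x
    have h4 : (fun y => (0 : ℝ) + mJ J j * (1 * uX J f f1 P (j + 1) y)) =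
        fun y => mJ J j * uX J f f1 P (j + 1) y := by funext y; ring
    rw [h4, tE_const_mul] at h3
    have h5 : tP J P (j + 1) - tP J P j = dJ J P j := rfl
    rw [h5, h3]
    have h6 : DX J P j = dJ J P j * mJ J j + DX J P (j + 1) := by
      unfold DX
      rw [Finset.sum_eq_sum_Ico_succ_bot hj2]
    rw [h6, uX_step J f f1 P hj2]
    ring

theorem cX_id' {C : ℝ} (h : S2 f f1 f2 C) (hP : Lev J P) {j : ℕ} (hj : j ≤ J + 2) (x : ℝ) :
    cX J f P (J + 2) (fun y => y) j x = x + DX J P j * uX J f f1 P j x := by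
  have := cX_id (J := J) (P := P) h hP (J + 2 - j) (by omega) x
  have e : J + 2 - (J + 2 - j) = j := by omega
  rwa [e] at this

/-! ### final statements -/

theorem tP_zero' : tP J P 0 = 0 := by simp [tP]

theorem tP_succ' {l : ℕ} (hl : l ≤ J) : tP J P (l + 1) = P l := by
  unfold tP
  rw [if_neg (by omega), if_pos (by omega)]
  simp

theorem tP_top' : tP J P (J + 2) = 1 := by
  unfold tP
  rw [if_neg (by omega), if_neg (by omega)]

theorem sum_dJ (n : ℕ) : ∑ j ∈ Finset.range n, dJ J P j = tP J P n := by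
  unfold dJ
  rw [Finset.sum_range_sub, tP_zero', sub_zero]

theorem DX_eq {b : ℕ} (hb : b ≤ J) : DX J P (b + 1) = DP J P b := by
  unfold DX DP
  have h1 : Finset.Ico (b + 1) (J + 2) = insert (J + 1) (Finset.Ico (b + 1) (J + 1)) := by
    ext k
    simp only [Finset.mem_Ico, Finset.mem_insert]
    omega
  rw [h1, Finset.sum_insert (by simp)]
  congr 1
  · unfold dJ
    rw [mJ_last, mul_one, tP_top', tP_succ' le_rfl]
  · refine Finset.sum_congr rfl fun k hk => ?_
    rw [Finset.mem_Ico] at hk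
    unfold dJ mJ
    rw [tP_succ' (by omega : k ≤ J)]
    have h2 : tP J P k = P (k - 1) := by
      obtain ⟨k', rfl⟩ : ∃ k', k = k' + 1 := ⟨k - 1, by omega⟩
      rw [tP_succ' (by omega)]
      simp
    rw [h2]
    ring

theorem kapX_eq (b : ℕ) (φ ψ : ℝ → ℝ) : kapX J f P b φ ψ =
    EX J f P (b + 1) (fun x => cX J f P (J + 2) φ (b + 1) x * cX J f P (J + 2) ψ (b + 1) x) := rfl

theorem kapX_tau (l : ℕ) : kapX J f P l f1 f1 = tau J f f1 P (l + 1) := by
  rw [kapX_eq]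
  unfold tau
  congr 1
  funext x
  exact (sq _).symm

/-- **(I3)** the pair expectation of `f'(h¹) h²`. -/
theorem kapX_id {C : ℝ} (h : S2 f f1 f2 C) (hP : Lev J P) {b : ℕ} (hb : b ≤ J) :
    kapX J f P b f1 (fun x => x) =
      P b * SX J f f1 f2 P - ((J : ℝ) + 1)⁻¹ * ∑ j ∈ Finset.range (b + 1),
        dJ J P j * ∑ l ∈ Finset.Ico j (J + 1), kapX J f P l f1 f1 +
      DP J P b * kapX J f P b f1 f1 := by
  obtain ⟨C', h'⟩ := S2_at (J := J) (P := P) h (j := b + 1) (by omega)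
  have e1 : (fun x => cX J f P (J + 2) f1 (b + 1) x * cX J f P (J + 2) (fun x => x) (b + 1) x) =
      fun x => uX J f f1 P (b + 1) x * x + DP J P b * uX J f f1 P (b + 1) x ^ 2 := by
    funext x
    rw [cX_id' h hP (by omega), DX_eq hb]
    show uX J f f1 P (b + 1) x * _ = _
    ring
  rw [kapX_eq, e1, EX_add h (by omega) (h'.B1.eg.mul EG_id) ((h'.B1.eg.pow 2).const_mul _),
    EX_smul, eX_eq h hP _ (by omega), kapX_tau]
  unfold tau
  congr 1
  have e2 : ∀ j ∈ Finset.range (b + 1), dJ J P j * aX J f f1 f2 P j = dJ J P j * SX J f f1 f2 P -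
      ((J : ℝ) + 1)⁻¹ * (dJ J P j * ∑ l ∈ Finset.Ico j (J + 1), kapX J f P l f1 f1) := by
    intro j hj
    rw [Finset.mem_range] at hj
    rw [aX_eq' h (by omega)]
    simp only [kapX_tau]
    ring
  rw [Finset.sum_congr rfl e2, Finset.sum_sub_distrib, ← Finset.sum_mul, sum_dJ,
    tP_succ' hb, ← Finset.mul_sum]

theorem sum_swap (T : ℕ → ℝ) : ∑ j ∈ Finset.range (J + 2), dJ J P j *
    ∑ l ∈ Finset.Ico j (J + 1), T l = ∑ l ∈ Finset.range (J + 1), P l * T l := by
  have h1 : ∀ j ∈ Finset.range (J + 2), dJ J P j * ∑ l ∈ Finset.Ico j (J + 1), T l =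
      ∑ l ∈ Finset.range (J + 1), if j ≤ l then dJ J P j * T l else 0 := by
    intro j _
    rw [Finset.mul_sum, ← Finset.sum_filter]
    refine Finset.sum_congr ?_ fun _ _ => rfl
    ext l
    simp only [Finset.mem_Ico, Finset.mem_filter, Finset.mem_range]
    omega
  rw [Finset.sum_congr rfl h1, Finset.sum_comm]
  refine Finset.sum_congr rfl fun l hl => ?_
  rw [Finset.mem_range] at hl
  rw [← Finset.sum_filter, ← Finset.sum_mul]
  congr 1
  have h2 : (Finset.range (J + 2)).filter (fun j => j ≤ l) = Finset.range (l + 1) := by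
    ext j
    simp only [Finset.mem_filter, Finset.mem_range]
    omega
  rw [h2, sum_dJ, tP_succ' (by omega)]

/-- **(I4)** `κ_* = E f'(h) h`. -/
theorem kap_star {C : ℝ} (h : S2 f f1 f2 C) (hP : Lev J P) :
    cX J f P (J + 2) (fun x => f1 x * x) 0 0 =
      SX J f f1 f2 P - ((J : ℝ) + 1)⁻¹ * ∑ l ∈ Finset.range (J + 1), P l * kapX J f P l f1 f1 := by
  have h1 := eX_eq (J := J) (P := P) h hP (J + 2) le_rfl
  rw [uX_last] at h1
  have h2 : cX J f P (J + 2) (fun x => f1 x * x) 0 0 = EX J f P (J + 2) (fun x => f1 x * x) := rfl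
  rw [h2, h1]
  have e2 : ∀ j ∈ Finset.range (J + 2), dJ J P j * aX J f f1 f2 P j = dJ J P j * SX J f f1 f2 P -
      ((J : ℝ) + 1)⁻¹ * (dJ J P j * ∑ l ∈ Finset.Ico j (J + 1), kapX J f P l f1 f1) := by
    intro j hj
    rw [Finset.mem_range] at hj
    rw [aX_eq' h (by omega)]
    simp only [kapX_tau]
    ring
  rw [Finset.sum_congr rfl e2, Finset.sum_sub_distrib, ← Finset.sum_mul, sum_dJ, tP_top', one_mul,
    ← Finset.mul_sum, sum_swap]

/-- (I5) monotonicity of `T`. -/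
theorem tau_succ {C : ℝ} (h : S2 f f1 f2 C) {k : ℕ} (hk : k < J + 2) :
    tau J f f1 P k ≤ tau J f f1 P (k + 1) := by
  obtain ⟨C', h'⟩ := S2_at (J := J) (P := P) h (j := k + 1) (by omega)
  obtain ⟨C0, h0⟩ := S2_at (J := J) (P := P) h (j := k) (by omega)
  unfold tau
  rw [EX_succ]
  refine EX_mono h (by omega) (h0.B1.eg.pow 2) (tE_EG h'.c0 h'.b0 _ _ (h'.B1.eg.pow 2)) fun x => ?_
  rw [uX_step J f f1 P hk]
  exact tE_sq_le h'.ee _ _ h'.B1.eg x

theorem tau_nonneg {C : ℝ} (h : S2 f f1 f2 C) {k : ℕ} (hk : k ≤ J + 2) :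
    0 ≤ tau J f f1 P k := by
  obtain ⟨C0, h0⟩ := S2_at (J := J) (P := P) h (j := k) hk
  have h1 := EX_mono (P := P) h hk (EG.const 0) (h0.B1.eg.pow 2) (fun x => sq_nonneg _)
  have h2 : EX J f P k (fun _ => (0:ℝ)) = 0 := by
    have := EX_smul (J := J) (f := f) (P := P) k 0 (fun _ => (0:ℝ))
    simpa using this
  unfold tau
  linarith

theorem tau_le {C : ℝ} (h : S2 f f1 f2 C) {k : ℕ} (hk : k ≤ J + 2) :
    tau J f f1 P k ≤ C ^ 2 := by
  have h1 : BC (uX J f f1 P k) C := cX_BC' h le_rfl h.B1 hk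
  exact (le_abs_self _).trans (EX_abs_le h hk (h1.pow 2))

theorem kapX_mono {C : ℝ} (h : S2 f f1 f2 C) {i j : ℕ} (hij : i ≤ j) (hj : j ≤ J) :
    kapX J f P i f1 f1 ≤ kapX J f P j f1 f1 := by
  rw [kapX_tau, kapX_tau]
  induction j, hij using Nat.le_induction with
  | base => exact le_rfl
  | succ j _ ih => exact (ih (by omega)).trans (tau_succ h (by omega))

theorem kapX_nonneg {C : ℝ} (h : S2 f f1 f2 C) {j : ℕ} (hj : j ≤ J) :
    0 ≤ kapX J f P j f1 f1 := by
  rw [kapX_tau]; exact tau_nonneg h (by omega)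

theorem kapX_le {C : ℝ} (h : S2 f f1 f2 C) {j : ℕ} (hj : j ≤ J) :
    kapX J f P j f1 f1 ≤ C ^ 2 := by
  rw [kapX_tau]; exact tau_le h (by omega)

/-- `T_J ≤ E f'(h)²`. -/
theorem kapX_last_le {C : ℝ} (h : S2 f f1 f2 C) :
    kapX J f P J f1 f1 ≤ cX J f P (J + 2) (fun x => f1 x ^ 2) 0 0 := by
  rw [kapX_tau]
  have := tau_succ (J := J) (P := P) h (k := J + 1) (by omega)
  refine this.trans ?_
  unfold tau EX
  rw [uX_last]

end chain

end

end Crest.Agent.R146.LimIbp_290
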