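import Mathlib

-- ▼ part R146/LimFrame_952
section

/-!
Hilbert-space frame for the joint functional of row 146 (package P5, nodes (1)-(3)).

`Frame H` is an increasing family of orthogonal projections `E t`, `t < 1`, with `E t x → x` as
`t ↑ 1`.  For a non-increasing non-negative `D` on `[0,1)` the quadratic form `Q F D x` is the
increasing limit of the sums `D 0 ‖E 0 x‖² + Σ D(t_{i+1}) ‖E t_{i+1} x - E t_i x‖²` over the dyadic
partitions.  Everything here is elementary: no stochastic integral.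
-/

set_option autoImplicit false

namespace Crest.Agent.R146.LimFrame_952

open Filter Topology Set
open scoped InnerProductSpace

/-- An increasing family of orthogonal projections converging strongly to the identity at `1`. -/
structure Frame (H : Type*) [NormedAddCommGroup H] [InnerProductSpace ℝ H] where
  E : ℝ → H →L[ℝ] H
  symm : ∀ t x y, inner ℝ (E t x) y = inner ℝ x (E t y)
  comp_le : ∀ s t, s ≤ t → ∀ x, E s (E t x) = E s x
  tendsto_one : ∀ x, Tendsto (fun t => E t x) (𝓝[<] 1) (𝓝 x)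

variable {H : Type*} [NormedAddCommGroup H] [InnerProductSpace ℝ H]

namespace Frame

variable (F : Frame H)

lemma comp_ge (s t : ℝ) (h : s ≤ t) (x : H) : F.E t (F.E s x) = F.E s x := by
  refine ext_inner_right ℝ fun y => ?_
  rw [F.symm, F.symm, F.comp_le s t h, F.symm]

lemma idem (t : ℝ) (x : H) : F.E t (F.E t x) = F.E t x := F.comp_le t t le_rfl x

lemma inner_E_E (s t : ℝ) (h : s ≤ t) (x y : H) :
    inner ℝ (F.E s x) (F.E t y) = inner ℝ (F.E s x) (F.E s y) := by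
  rw [← F.symm, F.comp_ge s t h]
  rw [← F.symm s (F.E s x) y, F.idem]

lemma inner_E_self (t : ℝ) (x : H) : inner ℝ (F.E t x) x = ‖F.E t x‖ ^ 2 := by
  rw [← real_inner_self_eq_norm_sq, F.symm t x (F.E t x), F.idem, F.symm]

lemma pyth (s t : ℝ) (h : s ≤ t) (x : H) :
    ‖F.E t x - F.E s x‖ ^ 2 = ‖F.E t x‖ ^ 2 - ‖F.E s x‖ ^ 2 := by
  rw [norm_sub_sq_real, real_inner_comm, F.inner_E_E s t h, real_inner_self_eq_norm_sq]
  ring

lemma pyth_id (t : ℝ) (x : H) : ‖x - F.E t x‖ ^ 2 = ‖x‖ ^ 2 - ‖F.E t x‖ ^ 2 := by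
  rw [norm_sub_sq_real, real_inner_comm, F.inner_E_self]
  ring

lemma norm_E_le (t : ℝ) (x : H) : ‖F.E t x‖ ≤ ‖x‖ := by
  have h := F.pyth_id t x
  have h2 : 0 ≤ ‖x - F.E t x‖ ^ 2 := sq_nonneg _
  exact le_of_sq_le_sq (by linarith) (norm_nonneg _)
where
  le_of_sq_le_sq {a b : ℝ} (h : a ^ 2 ≤ b ^ 2) (hb : 0 ≤ b) : a ≤ b := abs_le_of_sq_le_sq' h hb |>.2

lemma norm_E_mono (s t : ℝ) (h : s ≤ t) (x : H) : ‖F.E s x‖ ≤ ‖F.E t x‖ := by
  have h1 := F.norm_E_le s (F.E t x)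
  rwa [F.comp_le s t h] at h1


end Frame

/-- dyadic grid points -/
noncomputable def pt (n i : ℕ) : ℝ := (i : ℝ) / 2 ^ n

lemma pt_zero (n : ℕ) : pt n 0 = 0 := by simp [pt]

lemma pt_mono (n : ℕ) {i j : ℕ} (h : i ≤ j) : pt n i ≤ pt n j := by
  unfold pt
  have : (i : ℝ) ≤ j := by exact_mod_cast h
  gcongr

lemma pt_nonneg (n i : ℕ) : 0 ≤ pt n i := by unfold pt; positivity

lemma pt_lt_one {n i : ℕ} (h : i < 2 ^ n) : pt n i < 1 := by
  unfold pt
  rw [div_lt_one (by positivity)]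
  exact_mod_cast h

lemma pt_mem {n i : ℕ} (h : i < 2 ^ n) : pt n i ∈ Ico (0 : ℝ) 1 := ⟨pt_nonneg n i, pt_lt_one h⟩

lemma pt_two_mul (n i : ℕ) : pt (n + 1) (2 * i) = pt n i := by
  unfold pt
  push_cast
  rw [pow_succ]
  field_simp

lemma pt_sub (n i : ℕ) : pt n (i + 1) - pt n i = (1 / 2 : ℝ) ^ n := by
  unfold pt
  push_cast
  rw [← sub_div, add_sub_cancel_left, one_div_pow]

/-- dyadic sums -/
noncomputable def Qs (F : Frame H) (D : ℝ → ℝ) (n : ℕ) (x : H) : ℝ :=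
  D 0 * ‖F.E 0 x‖ ^ 2 +
    ∑ i ∈ Finset.range (2 ^ n - 1), D (pt n (i + 1)) * ‖F.E (pt n (i + 1)) x - F.E (pt n i) x‖ ^ 2

/-- bilinear dyadic sums -/
noncomputable def Bs (F : Frame H) (D : ℝ → ℝ) (n : ℕ) (x y : H) : ℝ :=
  D 0 * inner ℝ (F.E 0 x) (F.E 0 y) +
    ∑ i ∈ Finset.range (2 ^ n - 1), D (pt n (i + 1)) *
      inner ℝ (F.E (pt n (i + 1)) x - F.E (pt n i) x) (F.E (pt n (i + 1)) y - F.E (pt n i) y)

/-- the quadratic form of the profile `D` -/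
noncomputable def Q (F : Frame H) (D : ℝ → ℝ) (x : H) : ℝ := ⨆ n, Qs F D n x

lemma Bs_self (F : Frame H) (D : ℝ → ℝ) (n : ℕ) (x : H) : Bs F D n x x = Qs F D n x := by
  unfold Bs Qs
  simp only [real_inner_self_eq_norm_sq]

lemma Bs_comm (F : Frame H) (D : ℝ → ℝ) (n : ℕ) (x y : H) : Bs F D n x y = Bs F D n y x := by
  unfold Bs
  rw [real_inner_comm]
  congr 1
  refine Finset.sum_congr rfl fun i _ => ?_
  rw [real_inner_comm]

lemma Bs_add_left (F : Frame H) (D : ℝ → ℝ) (n : ℕ) (x y z : H) :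
    Bs F D n (x + y) z = Bs F D n x z + Bs F D n y z := by
  unfold Bs
  simp only [map_add, inner_add_left, add_sub_add_comm]
  simp only [mul_add, Finset.sum_add_distrib]
  ring

lemma Bs_smul_left (F : Frame H) (D : ℝ → ℝ) (n : ℕ) (c : ℝ) (x z : H) :
    Bs F D n (c • x) z = c * Bs F D n x z := by
  unfold Bs
  simp only [map_smul, ← smul_sub, real_inner_smul_left]
  rw [mul_add, Finset.mul_sum]
  congr 1
  · ring
  · exact Finset.sum_congr rfl fun i _ => by ring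

lemma Bs_add_right (F : Frame H) (D : ℝ → ℝ) (n : ℕ) (x y z : H) :
    Bs F D n x (y + z) = Bs F D n x y + Bs F D n x z := by
  rw [Bs_comm, Bs_add_left, Bs_comm F D n y, Bs_comm F D n z]

lemma Bs_smul_right (F : Frame H) (D : ℝ → ℝ) (n : ℕ) (c : ℝ) (x z : H) :
    Bs F D n x (c • z) = c * Bs F D n x z := by
  rw [Bs_comm, Bs_smul_left, Bs_comm]

lemma Bs_addD (F : Frame H) (D D' : ℝ → ℝ) (n : ℕ) (x y : H) :
    Bs F (fun t => D t + D' t) n x y = Bs F D n x y + Bs F D' n x y := by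
  unfold Bs
  simp only [add_mul, Finset.sum_add_distrib]
  ring

lemma Bs_smulD (F : Frame H) (D : ℝ → ℝ) (n : ℕ) (c : ℝ) (x y : H) :
    Bs F (fun t => c * D t) n x y = c * Bs F D n x y := by
  unfold Bs
  rw [mul_add, Finset.mul_sum]
  congr 1
  · ring
  · exact Finset.sum_congr rfl fun i _ => by ring

lemma Qs_addD (F : Frame H) (D D' : ℝ → ℝ) (n : ℕ) (x : H) :
    Qs F (fun t => D t + D' t) n x = Qs F D n x + Qs F D' n x := by
  rw [← Bs_self, Bs_addD, Bs_self, Bs_self]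

lemma Qs_smulD (F : Frame H) (D : ℝ → ℝ) (n : ℕ) (c : ℝ) (x : H) :
    Qs F (fun t => c * D t) n x = c * Qs F D n x := by
  rw [← Bs_self, Bs_smulD, Bs_self]

/-- sum of the squared increments -/
lemma Qs_one (F : Frame H) (n : ℕ) (x : H) :
    Qs F (fun _ => 1) n x = ‖F.E (pt n (2 ^ n - 1)) x‖ ^ 2 := by
  unfold Qs
  simp only [one_mul]
  have : ∀ k : ℕ, ‖F.E 0 x‖ ^ 2 +
      ∑ i ∈ Finset.range k, ‖F.E (pt n (i + 1)) x - F.E (pt n i) x‖ ^ 2 =
        ‖F.E (pt n k) x‖ ^ 2 := by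
    intro k
    induction k with
    | zero => simp [pt_zero]
    | succ k ih =>
      rw [Finset.sum_range_succ, ← add_assoc, ih, F.pyth _ _ (pt_mono n (Nat.le_succ k))]
      ring
  exact this _

lemma Qs_one_le (F : Frame H) (n : ℕ) (x : H) : Qs F (fun _ => 1) n x ≤ ‖x‖ ^ 2 := by
  rw [Qs_one]
  exact pow_le_pow_left₀ (norm_nonneg _) (F.norm_E_le _ _) 2

lemma mem_of_range {n i : ℕ} (hi : i ∈ Finset.range (2 ^ n - 1)) : pt n (i + 1) ∈ Ico (0 : ℝ) 1 := by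
  apply pt_mem
  have := Finset.mem_range.1 hi
  omega

lemma zero_mem_Ico : (0 : ℝ) ∈ Ico (0 : ℝ) 1 := ⟨le_rfl, one_pos⟩

lemma Qs_le_of_le (F : Frame H) {D D' : ℝ → ℝ} (h : ∀ t ∈ Ico (0 : ℝ) 1, D t ≤ D' t) (n : ℕ)
    (x : H) : Qs F D n x ≤ Qs F D' n x := by
  unfold Qs
  refine add_le_add (mul_le_mul_of_nonneg_right (h 0 zero_mem_Ico) (sq_nonneg _)) ?_
  exact Finset.sum_le_sum fun i hi =>
    mul_le_mul_of_nonneg_right (h _ (mem_of_range hi)) (sq_nonneg _)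

lemma Qs_congr (F : Frame H) {D D' : ℝ → ℝ} (h : ∀ t ∈ Ico (0 : ℝ) 1, D t = D' t) (n : ℕ)
    (x : H) : Qs F D n x = Qs F D' n x :=
  le_antisymm (Qs_le_of_le F (fun t ht => (h t ht).le) n x)
    (Qs_le_of_le F (fun t ht => (h t ht).ge) n x)

lemma Qs_nonneg (F : Frame H) {D : ℝ → ℝ} (h : ∀ t ∈ Ico (0 : ℝ) 1, 0 ≤ D t) (n : ℕ)
    (x : H) : 0 ≤ Qs F D n x := by
  unfold Qs
  refine add_nonneg (mul_nonneg (h 0 zero_mem_Ico) (sq_nonneg _)) ?_
  exact Finset.sum_nonneg fun i hi => mul_nonneg (h _ (mem_of_range hi)) (sq_nonneg _)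

lemma Qs_le (F : Frame H) {D : ℝ → ℝ} {C : ℝ} (hC : 0 ≤ C) (h : ∀ t ∈ Ico (0 : ℝ) 1, D t ≤ C)
    (n : ℕ) (x : H) : Qs F D n x ≤ C * ‖x‖ ^ 2 := by
  calc Qs F D n x ≤ Qs F (fun _ => C * 1) n x := Qs_le_of_le F (by simpa using h) n x
    _ = C * Qs F (fun _ => 1) n x := Qs_smulD F (fun _ => 1) n C x
    _ ≤ C * ‖x‖ ^ 2 := mul_le_mul_of_nonneg_left (Qs_one_le F n x) hC

lemma sum_range_two_mul {M : Type*} [AddCommMonoid M] (f : ℕ → M) (k : ℕ) :
    ∑ j ∈ Finset.range (2 * k), f j = ∑ i ∈ Finset.range k, (f (2 * i) + f (2 * i + 1)) := by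
  induction k with
  | zero => simp
  | succ k ih =>
    rw [Finset.sum_range_succ, ← ih, show 2 * (k + 1) = 2 * k + 1 + 1 by ring,
      Finset.sum_range_succ, Finset.sum_range_succ, add_assoc]

lemma Qs_succ_le (F : Frame H) {D : ℝ → ℝ} (hD : AntitoneOn D (Ico (0 : ℝ) 1))
    (h0 : ∀ t ∈ Ico (0 : ℝ) 1, 0 ≤ D t) (n : ℕ) (x : H) : Qs F D n x ≤ Qs F D (n + 1) x := by
  unfold Qs
  have hN : 2 ^ (n + 1) - 1 = 2 * (2 ^ n - 1) + 1 := by
    have : 1 ≤ 2 ^ n := Nat.one_le_two_pow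
    rw [pow_succ]; omega
  rw [hN, Finset.sum_range_succ, sum_range_two_mul]
  have hlast : 0 ≤ D (pt (n + 1) (2 * (2 ^ n - 1) + 1)) *
      ‖F.E (pt (n + 1) (2 * (2 ^ n - 1) + 1)) x - F.E (pt (n + 1) (2 * (2 ^ n - 1))) x‖ ^ 2 := by
    refine mul_nonneg (h0 _ (pt_mem ?_)) (sq_nonneg _)
    omega
  have key : ∑ i ∈ Finset.range (2 ^ n - 1),
        D (pt n (i + 1)) * ‖F.E (pt n (i + 1)) x - F.E (pt n i) x‖ ^ 2 ≤
      ∑ i ∈ Finset.range (2 ^ n - 1),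
        (D (pt (n + 1) (2 * i + 1)) * ‖F.E (pt (n + 1) (2 * i + 1)) x
            - F.E (pt (n + 1) (2 * i)) x‖ ^ 2 +
          D (pt (n + 1) (2 * i + 1 + 1)) * ‖F.E (pt (n + 1) (2 * i + 1 + 1)) x
            - F.E (pt (n + 1) (2 * i + 1)) x‖ ^ 2) := by
    refine Finset.sum_le_sum fun i hi => ?_
    have hi' := Finset.mem_range.1 hi
    have e1 : pt (n + 1) (2 * i) = pt n i := pt_two_mul n i
    have e2 : pt (n + 1) (2 * i + 1 + 1) = pt n (i + 1) := by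
      rw [show 2 * i + 1 + 1 = 2 * (i + 1) by ring]; exact pt_two_mul n (i + 1)
    rw [e1, e2]
    have a1 : pt n i ≤ pt (n + 1) (2 * i + 1) := by rw [← e1]; exact pt_mono _ (by omega)
    have a2 : pt (n + 1) (2 * i + 1) ≤ pt n (i + 1) := by rw [← e2]; exact pt_mono _ (by omega)
    have m1 : pt (n + 1) (2 * i + 1) ∈ Ico (0 : ℝ) 1 := by
      apply pt_mem; rw [pow_succ]; omega
    have m2 : pt n (i + 1) ∈ Ico (0 : ℝ) 1 := mem_of_range hi
    rw [F.pyth _ _ a1, F.pyth _ _ a2, F.pyth _ _ (a1.trans a2)]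
    have hDle : D (pt n (i + 1)) ≤ D (pt (n + 1) (2 * i + 1)) := hD m1 m2 a2
    have hM : ‖F.E (pt n i) x‖ ^ 2 ≤ ‖F.E (pt (n + 1) (2 * i + 1)) x‖ ^ 2 :=
      pow_le_pow_left₀ (norm_nonneg _) (F.norm_E_mono _ _ a1 x) 2
    nlinarith [mul_le_mul_of_nonneg_right hDle (sub_nonneg.2 hM)]
  linarith

lemma Qs_mono (F : Frame H) {D : ℝ → ℝ} (hD : AntitoneOn D (Ico (0 : ℝ) 1))
    (h0 : ∀ t ∈ Ico (0 : ℝ) 1, 0 ≤ D t) (x : H) : Monotone fun n => Qs F D n x :=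
  monotone_nat_of_le_succ fun n => Qs_succ_le F hD h0 n x

/-- The class used below: non-increasing and non-negative on `[0,1)`. -/
structure IsAnti (D : ℝ → ℝ) : Prop where
  anti : AntitoneOn D (Ico (0 : ℝ) 1)
  nonneg : ∀ t ∈ Ico (0 : ℝ) 1, 0 ≤ D t

lemma IsAnti.le_zero {D : ℝ → ℝ} (h : IsAnti D) {t : ℝ} (ht : t ∈ Ico (0 : ℝ) 1) : D t ≤ D 0 :=
  h.anti zero_mem_Ico ht ht.1

lemma IsAnti.zero_nonneg {D : ℝ → ℝ} (h : IsAnti D) : 0 ≤ D 0 := h.nonneg 0 zero_mem_Ico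

lemma IsAnti.add {D D' : ℝ → ℝ} (h : IsAnti D) (h' : IsAnti D') : IsAnti fun t => D t + D' t :=
  ⟨fun _ ha _ hb hab => add_le_add (h.anti ha hb hab) (h'.anti ha hb hab),
    fun t ht => add_nonneg (h.nonneg t ht) (h'.nonneg t ht)⟩

lemma IsAnti.smul {D : ℝ → ℝ} (h : IsAnti D) {c : ℝ} (hc : 0 ≤ c) : IsAnti fun t => c * D t :=
  ⟨fun _ ha _ hb hab => mul_le_mul_of_nonneg_left (h.anti ha hb hab) hc,
    fun t ht => mul_nonneg hc (h.nonneg t ht)⟩


lemma Qs_bdd (F : Frame H) {D : ℝ → ℝ} (h : IsAnti D) (x : H) :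
    BddAbove (Set.range fun n => Qs F D n x) := by
  refine ⟨D 0 * ‖x‖ ^ 2, ?_⟩
  rintro _ ⟨n, rfl⟩
  exact Qs_le F h.zero_nonneg (fun t ht => h.le_zero ht) n x

lemma Qs_le_Q (F : Frame H) {D : ℝ → ℝ} (h : IsAnti D) (n : ℕ) (x : H) : Qs F D n x ≤ Q F D x :=
  le_ciSup (Qs_bdd F h x) n

lemma tendsto_Q (F : Frame H) {D : ℝ → ℝ} (h : IsAnti D) (x : H) :
    Tendsto (fun n => Qs F D n x) atTop (𝓝 (Q F D x)) :=
  tendsto_atTop_ciSup (Qs_mono F h.anti h.nonneg x) (Qs_bdd F h x)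

lemma Q_le (F : Frame H) {D : ℝ → ℝ} (h : IsAnti D) (x : H) : Q F D x ≤ D 0 * ‖x‖ ^ 2 :=
  ciSup_le fun n => Qs_le F h.zero_nonneg (fun t ht => h.le_zero ht) n x

lemma Q_nonneg (F : Frame H) {D : ℝ → ℝ} (h : IsAnti D) (x : H) : 0 ≤ Q F D x :=
  (Qs_nonneg F h.nonneg 0 x).trans (Qs_le_Q F h 0 x)



lemma Q_congr (F : Frame H) {D D' : ℝ → ℝ} (h : ∀ t ∈ Ico (0 : ℝ) 1, D t = D' t) (x : H) :
    Q F D x = Q F D' x := by
  unfold Q
  exact congrArg _ (funext fun n => Qs_congr F h n x)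

lemma Q_addD (F : Frame H) {D D' : ℝ → ℝ} (h : IsAnti D) (h' : IsAnti D') (x : H) :
    Q F (fun t => D t + D' t) x = Q F D x + Q F D' x := by
  refine tendsto_nhds_unique (tendsto_Q F (h.add h') x) ?_
  simp only [Qs_addD]
  exact (tendsto_Q F h x).add (tendsto_Q F h' x)

lemma Q_smulD (F : Frame H) {D : ℝ → ℝ} (h : IsAnti D) {c : ℝ} (hc : 0 ≤ c) (x : H) :
    Q F (fun t => c * D t) x = c * Q F D x := by
  refine tendsto_nhds_unique (tendsto_Q F (h.smul hc) x) ?_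
  simp only [Qs_smulD]
  exact (tendsto_Q F h x).const_mul c

lemma tendsto_pt_last : Tendsto (fun n : ℕ => pt n (2 ^ n - 1)) atTop (𝓝[<] 1) := by
  rw [tendsto_nhdsWithin_iff]
  refine ⟨?_, Eventually.of_forall fun n => pt_lt_one ?_⟩
  · have h : ∀ n : ℕ, pt n (2 ^ n - 1) = 1 - (1 / 2 : ℝ) ^ n := by
      intro n
      unfold pt
      rw [Nat.cast_sub Nat.one_le_two_pow]
      push_cast
      rw [one_div_pow, sub_div, div_self (by positivity)]
    simp only [h]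
    have : Tendsto (fun n : ℕ => (1 / 2 : ℝ) ^ n) atTop (𝓝 0) :=
      tendsto_pow_atTop_nhds_zero_of_lt_one (by norm_num) (by norm_num)
    simpa using tendsto_const_nhds.sub this
  · have : 1 ≤ 2 ^ n := Nat.one_le_two_pow
    omega




lemma Qs_smul (F : Frame H) (D : ℝ → ℝ) (n : ℕ) (c : ℝ) (x : H) :
    Qs F D n (c • x) = c ^ 2 * Qs F D n x := by
  rw [← Bs_self, Bs_smul_left, Bs_smul_right, Bs_self]; ring

lemma Q_smul (F : Frame H) {D : ℝ → ℝ} (h : IsAnti D) (c : ℝ) (x : H) :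
    Q F D (c • x) = c ^ 2 * Q F D x := by
  refine tendsto_nhds_unique (tendsto_Q F h _) ?_
  simp only [Qs_smul]
  exact (tendsto_Q F h x).const_mul _

/-- bilinear form -/
noncomputable def B (F : Frame H) (D : ℝ → ℝ) (x y : H) : ℝ :=
  (Q F D (x + y) - Q F D (x - y)) / 4

lemma Bs_polar (F : Frame H) (D : ℝ → ℝ) (n : ℕ) (x y : H) :
    Bs F D n x y = (Qs F D n (x + y) - Qs F D n (x - y)) / 4 := by
  have h1 : Qs F D n (x + y) = Qs F D n x + 2 * Bs F D n x y + Qs F D n y := by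
    rw [← Bs_self, Bs_add_left, Bs_add_right, Bs_add_right, Bs_self, Bs_self, Bs_comm F D n y x]
    ring
  have h2 : Qs F D n (x - y) = Qs F D n x - 2 * Bs F D n x y + Qs F D n y := by
    rw [sub_eq_add_neg, ← neg_one_smul ℝ y, ← Bs_self, Bs_add_left, Bs_add_right, Bs_add_right,
      Bs_smul_left, Bs_smul_left, Bs_smul_right, Bs_smul_right, Bs_self, Bs_self,
      Bs_comm F D n y x]
    ring
  rw [h1, h2]; ring

lemma tendsto_B (F : Frame H) {D : ℝ → ℝ} (h : IsAnti D) (x y : H) :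
    Tendsto (fun n => Bs F D n x y) atTop (𝓝 (B F D x y)) := by
  simp only [Bs_polar]
  exact ((tendsto_Q F h _).sub (tendsto_Q F h _)).div_const 4

lemma B_self (F : Frame H) {D : ℝ → ℝ} (h : IsAnti D) (x : H) : B F D x x = Q F D x := by
  refine tendsto_nhds_unique (tendsto_B F h x x) ?_
  simp only [Bs_self]
  exact tendsto_Q F h x

lemma B_comm (F : Frame H) {D : ℝ → ℝ} (h : IsAnti D) (x y : H) : B F D x y = B F D y x := by
  refine tendsto_nhds_unique (tendsto_B F h x y) ?_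
  simp only [Bs_comm F D _ x y]
  exact tendsto_B F h y x

lemma B_add_left (F : Frame H) {D : ℝ → ℝ} (h : IsAnti D) (x y z : H) :
    B F D (x + y) z = B F D x z + B F D y z := by
  refine tendsto_nhds_unique (tendsto_B F h _ z) ?_
  simp only [Bs_add_left]
  exact (tendsto_B F h x z).add (tendsto_B F h y z)

lemma B_smul_left (F : Frame H) {D : ℝ → ℝ} (h : IsAnti D) (c : ℝ) (x z : H) :
    B F D (c • x) z = c * B F D x z := by
  refine tendsto_nhds_unique (tendsto_B F h _ z) ?_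
  simp only [Bs_smul_left]
  exact (tendsto_B F h x z).const_mul c

lemma B_add_right (F : Frame H) {D : ℝ → ℝ} (h : IsAnti D) (x y z : H) :
    B F D x (y + z) = B F D x y + B F D x z := by
  rw [B_comm F h, B_add_left F h, B_comm F h y, B_comm F h z]

lemma B_smul_right (F : Frame H) {D : ℝ → ℝ} (h : IsAnti D) (c : ℝ) (x z : H) :
    B F D x (c • z) = c * B F D x z := by
  rw [B_comm F h, B_smul_left F h, B_comm F h]


/-- Cauchy-Schwarz for the dyadic sums, with a different weight. -/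
lemma abs_Bs_le (F : Frame H) (D : ℝ → ℝ) (n : ℕ) (x y : H) :
    |Bs F D n x y| ≤ Real.sqrt (Qs F (fun t => D t ^ 2) n x) * ‖y‖ := by
  have hy := Qs_one_le F n y
  have hcs : (Bs F D n x y) ^ 2 ≤ Qs F (fun t => D t ^ 2) n x * Qs F (fun _ => 1) n y := by
    unfold Bs Qs
    simp only [one_mul]
    set S := Finset.range (2 ^ n - 1)
    set a : ℕ → ℝ := fun i => |D (pt n (i + 1))| * ‖F.E (pt n (i + 1)) x - F.E (pt n i) x‖ with ha
    set b : ℕ → ℝ := fun i => ‖F.E (pt n (i + 1)) y - F.E (pt n i) y‖ with hb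
    set a0 : ℝ := |D 0| * ‖F.E 0 x‖ with ha0
    set b0 : ℝ := ‖F.E 0 y‖ with hb0
    have h1 : |D 0 * inner ℝ (F.E 0 x) (F.E 0 y) + ∑ i ∈ S, D (pt n (i + 1)) *
        inner ℝ (F.E (pt n (i + 1)) x - F.E (pt n i) x) (F.E (pt n (i + 1)) y - F.E (pt n i) y)|
        ≤ a0 * b0 + ∑ i ∈ S, a i * b i := by
      refine (abs_add_le _ _).trans (add_le_add ?_ ?_)
      · rw [abs_mul, ha0, hb0, mul_assoc]
        exact mul_le_mul_of_nonneg_left (abs_real_inner_le_norm _ _) (abs_nonneg _)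
      · refine (Finset.abs_sum_le_sum_abs _ _).trans (Finset.sum_le_sum fun i _ => ?_)
        rw [abs_mul, ha, hb]
        simp only
        rw [mul_assoc]
        exact mul_le_mul_of_nonneg_left (abs_real_inner_le_norm _ _) (abs_nonneg _)
    have h2 : (a0 * b0 + ∑ i ∈ S, a i * b i) ^ 2 ≤
        (a0 ^ 2 + ∑ i ∈ S, a i ^ 2) * (b0 ^ 2 + ∑ i ∈ S, b i ^ 2) := by
      have hs := Finset.sum_mul_sq_le_sq_mul_sq S a b
      set X := ∑ i ∈ S, a i * b i
      set Y := ∑ i ∈ S, a i ^ 2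
      set Z := ∑ i ∈ S, b i ^ 2
      have hY : 0 ≤ Y := Finset.sum_nonneg fun i _ => sq_nonneg _
      have hZ : 0 ≤ Z := Finset.sum_nonneg fun i _ => sq_nonneg _
      have hXabs : |X| ≤ Real.sqrt Y * Real.sqrt Z := by
        rw [← Real.sqrt_mul hY]
        exact Real.abs_le_sqrt hs
      have e1 : Real.sqrt Y ^ 2 = Y := Real.sq_sqrt hY
      have e2 : Real.sqrt Z ^ 2 = Z := Real.sq_sqrt hZ
      have h3 : (a0 * b0 + X) ^ 2 ≤ (|a0 * b0| + Real.sqrt Y * Real.sqrt Z) ^ 2 := by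
        rw [← sq_abs (a0 * b0 + X)]
        refine pow_le_pow_left₀ (abs_nonneg _) ?_ 2
        exact (abs_add_le _ _).trans (add_le_add le_rfl hXabs)
      refine h3.trans ?_
      rw [abs_mul]
      nlinarith [sq_nonneg (|a0| * Real.sqrt Z - Real.sqrt Y * |b0|), sq_abs a0, sq_abs b0]
    have h4 : (D 0 * inner ℝ (F.E 0 x) (F.E 0 y) + ∑ i ∈ S, D (pt n (i + 1)) *
        inner ℝ (F.E (pt n (i + 1)) x - F.E (pt n i) x)
          (F.E (pt n (i + 1)) y - F.E (pt n i) y)) ^ 2 ≤ (a0 * b0 + ∑ i ∈ S, a i * b i) ^ 2 := by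
      rw [← sq_abs]
      exact pow_le_pow_left₀ (abs_nonneg _) h1 2
    refine (h4.trans h2).trans (le_of_eq ?_)
    congr 1
    · rw [ha0, mul_pow, sq_abs]
      congr 1
      refine Finset.sum_congr rfl fun i _ => ?_
      rw [ha]; simp only; rw [mul_pow, sq_abs]
  have hQ0 : 0 ≤ Qs F (fun t => D t ^ 2) n x := Qs_nonneg F (fun t _ => sq_nonneg _) n x
  have h5 : (Bs F D n x y) ^ 2 ≤ (Real.sqrt (Qs F (fun t => D t ^ 2) n x) * ‖y‖) ^ 2 := by
    rw [mul_pow, Real.sq_sqrt hQ0]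
    exact hcs.trans (mul_le_mul_of_nonneg_left hy hQ0)
  exact abs_le_of_sq_le_sq h5 (by positivity)

lemma abs_B_le (F : Frame H) {D : ℝ → ℝ} (h : IsAnti D) (x y : H) :
    |B F D x y| ≤ D 0 * ‖x‖ * ‖y‖ := by
  refine le_of_tendsto (tendsto_B F h x y).abs (Eventually.of_forall fun n => ?_)
  refine (abs_Bs_le F D n x y).trans ?_
  refine mul_le_mul_of_nonneg_right ?_ (norm_nonneg _)
  have : Qs F (fun t => D t ^ 2) n x ≤ (D 0 * ‖x‖) ^ 2 := by
    rw [mul_pow]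
    exact Qs_le F (sq_nonneg _) (fun t ht => pow_le_pow_left₀ (h.nonneg t ht) (h.le_zero ht) 2) n x
  exact (Real.sqrt_le_sqrt this).trans
    (by rw [Real.sqrt_sq (mul_nonneg h.zero_nonneg (norm_nonneg _))])

end Crest.Agent.R146.LimFrame_952
end

-- ▼ part R146/LimForm_952
section

/-!
Package P5 (row 146), part 2: joint convexity of `(x, 1/D) ↦ Q F D x`, lower semicontinuity,
the operator `T F D` of the form, and its strong convergence.
-/

set_option autoImplicit false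

namespace Crest.Agent.R146.LimForm_952

open Filter Topology Set
open scoped InnerProductSpace
open Crest.Agent.R146.LimFrame_952

variable {H : Type*} [NormedAddCommGroup H] [InnerProductSpace ℝ H]

/-- harmonic mean of two profiles: the midpoint in the variable `1/D` -/
noncomputable def hm (D₁ D₂ : ℝ → ℝ) (t : ℝ) : ℝ := 2 * D₁ t * D₂ t / (D₁ t + D₂ t)

lemma hm_pos {D₁ D₂ : ℝ → ℝ} {t : ℝ} (h₁ : 0 < D₁ t) (h₂ : 0 < D₂ t) : 0 < hm D₁ D₂ t := by
  unfold hm; positivity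

lemma inv_hm {D₁ D₂ : ℝ → ℝ} {t : ℝ} (h₁ : 0 < D₁ t) (h₂ : 0 < D₂ t) :
    1 / hm D₁ D₂ t = (1 / D₁ t + 1 / D₂ t) / 2 := by
  unfold hm
  have : D₁ t + D₂ t ≠ 0 := by positivity
  field_simp
  ring

/-- `hm` is the infimum of the linear functions `2(θ² D₁ + (1-θ)² D₂)` -/
lemma hm_le_lin {D₁ D₂ : ℝ → ℝ} {t : ℝ} (h₁ : 0 < D₁ t) (h₂ : 0 < D₂ t) (θ : ℝ) :
    hm D₁ D₂ t ≤ 2 * (θ ^ 2 * D₁ t + (1 - θ) ^ 2 * D₂ t) := by
  unfold hm
  rw [div_le_iff₀ (by positivity)]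
  nlinarith [sq_nonneg (θ * (D₁ t + D₂ t) - D₂ t)]

lemma hm_eq_lin {D₁ D₂ : ℝ → ℝ} {t : ℝ} (h₁ : 0 < D₁ t) (h₂ : 0 < D₂ t) :
    hm D₁ D₂ t = 2 * ((D₂ t / (D₁ t + D₂ t)) ^ 2 * D₁ t +
      (1 - D₂ t / (D₁ t + D₂ t)) ^ 2 * D₂ t) := by
  unfold hm
  have : D₁ t + D₂ t ≠ 0 := by positivity
  field_simp
  ring

lemma hm_concave {D₁ D₂ : ℝ → ℝ} (c₁ : ConcaveOn ℝ (Ico (0 : ℝ) 1) D₁)
    (c₂ : ConcaveOn ℝ (Ico (0 : ℝ) 1) D₂) (p₁ : ∀ t ∈ Ico (0 : ℝ) 1, 0 < D₁ t)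
    (p₂ : ∀ t ∈ Ico (0 : ℝ) 1, 0 < D₂ t) : ConcaveOn ℝ (Ico (0 : ℝ) 1) (hm D₁ D₂) := by
  refine ⟨convex_Ico 0 1, ?_⟩
  intro x hx y hy a b ha hb hab
  have hz : a • x + b • y ∈ Ico (0 : ℝ) 1 := convex_Ico 0 1 hx hy ha hb hab
  set z := a • x + b • y with hzdef
  set θ := D₂ z / (D₁ z + D₂ z) with hθ
  have e := hm_eq_lin (p₁ z hz) (p₂ z hz)
  rw [← hθ] at e
  have i1 := c₁.2 hx hy ha hb hab
  have i2 := c₂.2 hx hy ha hb hab
  rw [← hzdef] at i1 i2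
  simp only [smul_eq_mul] at i1 i2 ⊢
  have j1 := hm_le_lin (p₁ x hx) (p₂ x hx) θ
  have j2 := hm_le_lin (p₁ y hy) (p₂ y hy) θ
  rw [e]
  have k1 : a * hm D₁ D₂ x ≤ a * (2 * (θ ^ 2 * D₁ x + (1 - θ) ^ 2 * D₂ x)) :=
    mul_le_mul_of_nonneg_left j1 ha
  have k2 : b * hm D₁ D₂ y ≤ b * (2 * (θ ^ 2 * D₁ y + (1 - θ) ^ 2 * D₂ y)) :=
    mul_le_mul_of_nonneg_left j2 hb
  have l1 : θ ^ 2 * (a * D₁ x + b * D₁ y) ≤ θ ^ 2 * D₁ z :=
    mul_le_mul_of_nonneg_left i1 (sq_nonneg _)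
  have l2 : (1 - θ) ^ 2 * (a * D₂ x + b * D₂ y) ≤ (1 - θ) ^ 2 * D₂ z :=
    mul_le_mul_of_nonneg_left i2 (sq_nonneg _)
  nlinarith [k1, k2, l1, l2]

lemma hm_anti {D₁ D₂ : ℝ → ℝ} (c₁ : AntitoneOn D₁ (Ico (0 : ℝ) 1))
    (c₂ : AntitoneOn D₂ (Ico (0 : ℝ) 1)) (p₁ : ∀ t ∈ Ico (0 : ℝ) 1, 0 < D₁ t)
    (p₂ : ∀ t ∈ Ico (0 : ℝ) 1, 0 < D₂ t) : AntitoneOn (hm D₁ D₂) (Ico (0 : ℝ) 1) := by
  intro x hx y hy hxy
  have e := hm_eq_lin (p₁ x hx) (p₂ x hx)
  rw [e]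
  refine (hm_le_lin (p₁ y hy) (p₂ y hy) (D₂ x / (D₁ x + D₂ x))).trans ?_
  have i1 := c₁ hx hy hxy
  have i2 := c₂ hx hy hxy
  gcongr

lemma hm_le_mean {D₁ D₂ : ℝ → ℝ} {t : ℝ} (h₁ : 0 < D₁ t) (h₂ : 0 < D₂ t) :
    hm D₁ D₂ t ≤ (D₁ t + D₂ t) / 2 := by
  have := hm_le_lin h₁ h₂ (1 / 2)
  linarith

lemma isAnti_of_pos {D : ℝ → ℝ} (c : AntitoneOn D (Ico (0 : ℝ) 1))
    (p : ∀ t ∈ Ico (0 : ℝ) 1, 0 < D t) : IsAnti D := ⟨c, fun t ht => (p t ht).le⟩

lemma elem_hm {a b : ℝ} (ha : 0 < a) (hb : 0 < b) (u v : H) :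
    2 * a * b / (a + b) * ‖(1 / 2 : ℝ) • (u + v)‖ ^ 2 ≤ (a * ‖u‖ ^ 2 + b * ‖v‖ ^ 2) / 2 := by
  have h1 : ‖(1 / 2 : ℝ) • (u + v)‖ ≤ (‖u‖ + ‖v‖) / 2 := by
    rw [norm_smul]
    have := norm_add_le u v
    norm_num
    linarith
  have h2 : ‖(1 / 2 : ℝ) • (u + v)‖ ^ 2 ≤ ((‖u‖ + ‖v‖) / 2) ^ 2 :=
    pow_le_pow_left₀ (norm_nonneg _) h1 2
  refine (mul_le_mul_of_nonneg_left h2 (by positivity)).trans ?_
  rw [div_mul_eq_mul_div, div_le_iff₀ (by positivity)]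
  nlinarith [sq_nonneg (a * ‖u‖ - b * ‖v‖), mul_pos ha hb]

lemma Qs_hm (F : Frame H) {D₁ D₂ : ℝ → ℝ} (p₁ : ∀ t ∈ Ico (0 : ℝ) 1, 0 < D₁ t)
    (p₂ : ∀ t ∈ Ico (0 : ℝ) 1, 0 < D₂ t) (n : ℕ) (x y : H) :
    Qs F (hm D₁ D₂) n ((1 / 2 : ℝ) • (x + y)) ≤ (Qs F D₁ n x + Qs F D₂ n y) / 2 := by
  unfold Qs hm
  have h0 := elem_hm (p₁ 0 zero_mem_Ico) (p₂ 0 zero_mem_Ico) (F.E 0 x) (F.E 0 y)
  rw [← map_add, ← map_smul] at h0
  have hs : ∀ i ∈ Finset.range (2 ^ n - 1),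
      2 * D₁ (pt n (i + 1)) * D₂ (pt n (i + 1)) / (D₁ (pt n (i + 1)) + D₂ (pt n (i + 1))) *
        ‖F.E (pt n (i + 1)) ((1 / 2 : ℝ) • (x + y)) - F.E (pt n i) ((1 / 2 : ℝ) • (x + y))‖ ^ 2 ≤
      (D₁ (pt n (i + 1)) * ‖F.E (pt n (i + 1)) x - F.E (pt n i) x‖ ^ 2 +
        D₂ (pt n (i + 1)) * ‖F.E (pt n (i + 1)) y - F.E (pt n i) y‖ ^ 2) / 2 := by
    intro i hi
    have := elem_hm (p₁ _ (mem_of_range hi)) (p₂ _ (mem_of_range hi))
      (F.E (pt n (i + 1)) x - F.E (pt n i) x) (F.E (pt n (i + 1)) y - F.E (pt n i) y)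
    refine le_trans (le_of_eq ?_) this
    congr 3
    rw [map_smul, map_smul, ← smul_sub, map_add, map_add]
    congr 1
    abel
  have := Finset.sum_le_sum hs
  rw [← Finset.sum_div, Finset.sum_add_distrib] at this
  linarith

lemma Q_hm (F : Frame H) {D₁ D₂ : ℝ → ℝ} (c₁ : AntitoneOn D₁ (Ico (0 : ℝ) 1))
    (c₂ : AntitoneOn D₂ (Ico (0 : ℝ) 1)) (p₁ : ∀ t ∈ Ico (0 : ℝ) 1, 0 < D₁ t)
    (p₂ : ∀ t ∈ Ico (0 : ℝ) 1, 0 < D₂ t) (x y : H) :
    Q F (hm D₁ D₂) ((1 / 2 : ℝ) • (x + y)) ≤ (Q F D₁ x + Q F D₂ y) / 2 := by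
  refine ciSup_le fun n => (Qs_hm F p₁ p₂ n x y).trans ?_
  have := Qs_le_Q F (isAnti_of_pos c₁ p₁) n x
  have := Qs_le_Q F (isAnti_of_pos c₂ p₂) n y
  linarith

/-! ### lower semicontinuity -/



/-! ### the operator -/

section operator

variable [CompleteSpace H]

/-- `B F D x` as a continuous functional; zero when `D` is not in the class. -/
noncomputable def Bfun (F : Frame H) (D : ℝ → ℝ) (h : IsAnti D) (x : H) : H →L[ℝ] ℝ :=
  LinearMap.mkContinuous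
    { toFun := fun y => B F D x y
      map_add' := fun y z => B_add_right F h x y z
      map_smul' := fun c y => by simpa using B_smul_right F h c x y }
    (D 0 * ‖x‖) fun y => by simpa using abs_B_le F h x y

open Classical in
/-- the operator of the form `Q F D` -/
noncomputable def T (F : Frame H) (D : ℝ → ℝ) (x : H) : H :=
  if h : IsAnti D then (InnerProductSpace.toDual ℝ H).symm (Bfun F D h x) else 0

lemma inner_T (F : Frame H) {D : ℝ → ℝ} (h : IsAnti D) (x y : H) :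
    inner ℝ (T F D x) y = B F D x y := by
  unfold T
  rw [dif_pos h, InnerProductSpace.toDual_symm_apply]
  rfl

lemma T_unique (F : Frame H) {D : ℝ → ℝ} (h : IsAnti D) {x z : H}
    (hz : ∀ y, inner ℝ z y = B F D x y) : z = T F D x :=
  ext_inner_right ℝ fun y => by rw [hz, inner_T F h]

lemma T_add (F : Frame H) {D : ℝ → ℝ} (h : IsAnti D) (x y : H) :
    T F D (x + y) = T F D x + T F D y := by
  refine ext_inner_right ℝ fun z => ?_
  rw [inner_add_left, inner_T F h, inner_T F h, inner_T F h, B_add_left F h]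

lemma T_smul (F : Frame H) {D : ℝ → ℝ} (h : IsAnti D) (c : ℝ) (x : H) :
    T F D (c • x) = c • T F D x := by
  refine ext_inner_right ℝ fun z => ?_
  rw [real_inner_smul_left, inner_T F h, inner_T F h, B_smul_left F h]

lemma T_sub (F : Frame H) {D : ℝ → ℝ} (h : IsAnti D) (x y : H) :
    T F D (x - y) = T F D x - T F D y := by
  rw [sub_eq_add_neg, ← neg_one_smul ℝ y, T_add F h, T_smul F h, neg_one_smul, sub_eq_add_neg]

lemma inner_T_self (F : Frame H) {D : ℝ → ℝ} (h : IsAnti D) (x : H) :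
    inner ℝ (T F D x) x = Q F D x := by rw [inner_T F h, B_self F h]


lemma norm_T_le (F : Frame H) {D : ℝ → ℝ} (h : IsAnti D) (x : H) :
    ‖T F D x‖ ≤ D 0 * ‖x‖ := by
  by_cases h0 : ‖T F D x‖ = 0
  · rw [h0]; exact mul_nonneg h.zero_nonneg (norm_nonneg _)
  have h1 : ‖T F D x‖ * ‖T F D x‖ ≤ D 0 * ‖x‖ * ‖T F D x‖ := by
    rw [← real_inner_self_eq_norm_mul_norm, inner_T F h]
    exact (le_abs_self _).trans (abs_B_le F h x _)
  exact le_of_mul_le_mul_right h1 (lt_of_le_of_ne (norm_nonneg _) (Ne.symm h0))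


/-- comparison of two operators at a vector in the range of `E r`, `r < 1` -/
lemma norm_T_sub_le (F : Frame H) {D D' : ℝ → ℝ} (h : IsAnti D) (h' : IsAnti D')
    {r r' ε : ℝ} (hr : r < r') (hε : 0 ≤ ε) (hr0 : 0 ≤ r')
    (hd : ∀ t ∈ Ico (0 : ℝ) 1, t ≤ r' → |D t - D' t| ≤ ε) (x : H) :
    ‖T F D (F.E r x) - T F D' (F.E r x)‖ ≤ ε * ‖x‖ := by
  set w := F.E r x with hw
  -- bound of the difference of the bilinear forms
  have key : ∀ y, |B F D w y - B F D' w y| ≤ ε * ‖x‖ * ‖y‖ := by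
    intro y
    have hlim := ((tendsto_B F h w y).sub (tendsto_B F h' w y)).abs
    refine le_of_tendsto hlim ?_
    have hN : ∀ᶠ n : ℕ in atTop, (1 / 2 : ℝ) ^ n < r' - r := by
      have : Tendsto (fun n : ℕ => (1 / 2 : ℝ) ^ n) atTop (𝓝 0) :=
        tendsto_pow_atTop_nhds_zero_of_lt_one (by norm_num) (by norm_num)
      exact this.eventually_lt_const (sub_pos.2 hr)
    filter_upwards [hN] with n hn
    have e : Bs F D n w y - Bs F D' n w y = Bs F (fun t => D t - D' t) n w y := by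
      unfold Bs
      simp only [sub_mul, Finset.sum_sub_distrib]
      ring
    rw [e]
    refine (abs_Bs_le F _ n w y).trans (mul_le_mul_of_nonneg_right ?_ (norm_nonneg _))
    have hq : Qs F (fun t => (D t - D' t) ^ 2) n w ≤ (ε * ‖x‖) ^ 2 := by
      have hterm : Qs F (fun t => (D t - D' t) ^ 2) n w ≤ Qs F (fun _ => ε ^ 2 * 1) n w := by
        unfold Qs
        refine add_le_add ?_ (Finset.sum_le_sum fun i hi => ?_)
        · refine mul_le_mul_of_nonneg_right ?_ (sq_nonneg _)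
          have := hd 0 zero_mem_Ico hr0
          show (D 0 - D' 0) ^ 2 ≤ ε ^ 2 * 1
          rw [mul_one, ← sq_abs (D 0 - D' 0)]
          exact pow_le_pow_left₀ (abs_nonneg _) this 2
        · by_cases hir : r ≤ pt n i
          · have z : F.E (pt n (i + 1)) w - F.E (pt n i) w = 0 := by
              rw [hw, F.comp_ge r _ hir, F.comp_ge r _ (hir.trans (pt_mono n (Nat.le_succ i))),
                sub_self]
            rw [z]; simp
          · refine mul_le_mul_of_nonneg_right ?_ (sq_nonneg _)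
            have hle : pt n (i + 1) ≤ r' := by
              have := pt_sub n i
              push Not at hir
              linarith
            have := hd _ (mem_of_range hi) hle
            show (D (pt n (i + 1)) - D' (pt n (i + 1))) ^ 2 ≤ ε ^ 2 * 1
            rw [mul_one, ← sq_abs (D (pt n (i + 1)) - D' (pt n (i + 1)))]
            exact pow_le_pow_left₀ (abs_nonneg _) this 2
      refine hterm.trans ?_
      rw [Qs_smulD, mul_pow]
      refine mul_le_mul_of_nonneg_left ((Qs_one_le F n w).trans ?_) (sq_nonneg _)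
      exact pow_le_pow_left₀ (norm_nonneg _) (F.norm_E_le r x) 2
    exact (Real.sqrt_le_sqrt hq).trans (by rw [Real.sqrt_sq (by positivity)])
  set z := T F D w - T F D' w with hz
  by_cases h0 : ‖z‖ = 0
  · rw [h0]; positivity
  have h1 : ‖z‖ * ‖z‖ ≤ ε * ‖x‖ * ‖z‖ := by
    rw [← real_inner_self_eq_norm_mul_norm]
    nth_rewrite 1 [hz]
    rw [inner_sub_left, inner_T F h, inner_T F h']
    exact (le_abs_self _).trans (key z)
  exact le_of_mul_le_mul_right h1 (lt_of_le_of_ne (norm_nonneg _) (Ne.symm h0))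

end operator

/-! ### uniform convergence of monotone functions (Polya) -/

lemma unif_of_anti {ι : Type*} {l : Filter ι} {D : ι → ℝ → ℝ} {D₀ : ℝ → ℝ} {b : ℝ}
    (hb : 0 ≤ b) (hD : ∀ t ∈ Icc 0 b, Tendsto (fun i => D i t) l (𝓝 (D₀ t)))
    (hanti : ∀ᶠ i in l, AntitoneOn (D i) (Icc 0 b)) (h0 : ContinuousOn D₀ (Icc 0 b))
    {ε : ℝ} (hε : 0 < ε) : ∀ᶠ i in l, ∀ t ∈ Icc 0 b, |D i t - D₀ t| ≤ ε := by
  have huc := isCompact_Icc.uniformContinuousOn_of_continuous h0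
  rw [Metric.uniformContinuousOn_iff] at huc
  obtain ⟨δ, hδ, hu⟩ := huc (ε / 2) (by positivity)
  obtain ⟨N, hN⟩ := exists_nat_gt (b / δ)
  have hN' : 0 < (N : ℝ) + 1 := by positivity
  set s : ℕ → ℝ := fun k => b * k / (N + 1) with hs
  have hmem : ∀ k ∈ Finset.range (N + 2), s k ∈ Icc 0 b := by
    intro k hk
    have hk' : (k : ℝ) ≤ N + 1 := by
      have := Finset.mem_range.1 hk
      exact_mod_cast (by omega : k ≤ N + 1)
    refine ⟨by rw [hs]; positivity, ?_⟩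
    rw [hs]
    simp only
    rw [div_le_iff₀ hN']
    exact mul_le_mul_of_nonneg_left hk' hb
  have hev : ∀ᶠ i in l, ∀ k ∈ Finset.range (N + 2), |D i (s k) - D₀ (s k)| < ε / 2 := by
    rw [Filter.eventually_all_finset]
    intro k hk
    have := (hD _ (hmem k hk)).eventually (Metric.ball_mem_nhds (D₀ (s k)) (half_pos hε))
    filter_upwards [this] with i hi
    simpa [Real.dist_eq] using hi
  filter_upwards [hanti, hev] with i ha hi t ht
  by_cases hb0 : b = 0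
  · have ht0 : t = s 0 := by
      rw [hs]; simp only [CharP.cast_eq_zero, mul_zero, zero_div]
      have h1 := ht.1; have h2 := ht.2; linarith
    rw [ht0]
    exact ((hi 0 (by simp)).trans (by linarith)).le
  have hbpos : 0 < b := lt_of_le_of_ne hb (Ne.symm hb0)
  -- the index of the cell
  set k := ⌊t * (N + 1) / b⌋₊ with hk
  have hx0 : 0 ≤ t * (N + 1) / b := div_nonneg (mul_nonneg ht.1 hN'.le) hb
  have hk1 : (k : ℝ) ≤ t * (N + 1) / b := Nat.floor_le hx0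
  have hk2 : t * (N + 1) / b < k + 1 := Nat.lt_floor_add_one _
  have hsk : s k ≤ t := by
    rw [hs]; simp only
    rw [div_le_iff₀ hN']
    rw [le_div_iff₀ hbpos] at hk1
    linarith
  have htk : t ≤ s (k + 1) := by
    rw [hs]; simp only
    rw [le_div_iff₀ hN']
    rw [div_lt_iff₀ hbpos] at hk2
    push_cast
    linarith
  have hcell : s (k + 1) - s k < δ := by
    rw [hs]; simp only
    push_cast
    rw [← sub_div]
    have : b * (↑k + 1) - b * ↑k = b := by ring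
    rw [this, div_lt_iff₀ hN']
    rw [div_lt_iff₀ hδ] at hN
    nlinarith
  by_cases hkN : k + 1 ∈ Finset.range (N + 2)
  · have hkN' : k ∈ Finset.range (N + 2) := by
      rw [Finset.mem_range] at hkN ⊢; omega
    have hm1 := hmem _ hkN
    have hm0 := hmem _ hkN'
    have a1 : D i t ≤ D i (s k) := ha hm0 ht hsk
    have a2 : D i (s (k + 1)) ≤ D i t := ha ht hm1 htk
    have c1 := hi _ hkN
    have c0 := hi _ hkN'
    have d1 := hu t ht (s (k + 1)) hm1 (by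
      rw [Real.dist_eq, abs_sub_comm, abs_of_nonneg (by linarith)]; linarith)
    have d0 := hu t ht (s k) hm0 (by
      rw [Real.dist_eq, abs_of_nonneg (by linarith)]; linarith)
    rw [Real.dist_eq] at d1 d0
    rw [abs_lt] at c1 c0 d1 d0
    rw [abs_le]
    constructor <;> linarith [c1.1, c1.2, c0.1, c0.2, d1.1, d1.2, d0.1, d0.2]
  · -- then `t = b = s (N+1)`
    have hkge : N + 1 ≤ k := by
      rw [Finset.mem_range] at hkN; omega
    have htb : t = b := by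
      have hge : (N : ℝ) + 1 ≤ k := by exact_mod_cast hkge
      have : (N : ℝ) + 1 ≤ t * (N + 1) / b := hge.trans hk1
      rw [le_div_iff₀ hbpos] at this
      have : b ≤ t := by nlinarith
      exact le_antisymm ht.2 this
    have hsb : s (N + 1) = b := by
      rw [hs]; simp only; push_cast; field_simp
    have := hi (N + 1) (by simp)
    rw [hsb] at this
    rw [htb]
    linarith

/-! ### continuity of concave non-increasing profiles on `[0,1)` -/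

lemma continuousOn_of_concave {D : ℝ → ℝ} (c : ConcaveOn ℝ (Ico (0 : ℝ) 1) D)
    (a : AntitoneOn D (Ico (0 : ℝ) 1)) : ContinuousOn D (Ico (0 : ℝ) 1) := by
  intro t ht
  by_cases h0 : t = 0
  · subst h0
    -- squeeze at zero
    have hhalf : (1 / 2 : ℝ) ∈ Ico (0 : ℝ) 1 := ⟨by norm_num, by norm_num⟩
    have low : ∀ᶠ s in 𝓝[Ico 0 1] (0 : ℝ), (1 - 2 * s) * D 0 + 2 * s * D (1 / 2) ≤ D s := by
      have hmem : Iio (1 / 2 : ℝ) ∈ 𝓝[Ico 0 1] (0 : ℝ) :=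
        mem_nhdsWithin_of_mem_nhds (Iio_mem_nhds (by norm_num))
      filter_upwards [hmem, self_mem_nhdsWithin] with s hs hs'
      have hs2 : s < 1 / 2 := hs
      have := c.2 ht hhalf (show (0 : ℝ) ≤ 1 - 2 * s by linarith)
        (show (0 : ℝ) ≤ 2 * s by linarith [hs'.1]) (by ring)
      simp only [smul_eq_mul] at this
      have e : (1 - 2 * s) * 0 + 2 * s * (1 / 2) = s := by ring
      rw [e] at this
      exact this
    have up : ∀ᶠ s in 𝓝[Ico 0 1] (0 : ℝ), D s ≤ D 0 := by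
      filter_upwards [self_mem_nhdsWithin] with s hs
      exact a ht hs hs.1
    refine tendsto_of_tendsto_of_tendsto_of_le_of_le' ?_ tendsto_const_nhds low up
    have : Continuous fun s : ℝ => (1 - 2 * s) * D 0 + 2 * s * D (1 / 2) := by fun_prop
    have h := (this.tendsto 0).mono_left (nhdsWithin_le_nhds (s := Ico (0 : ℝ) 1))
    simpa using h
  · have ht' : t ∈ Ioo (0 : ℝ) 1 := ⟨lt_of_le_of_ne ht.1 (Ne.symm h0), ht.2⟩
    have hc := (c.subset Ioo_subset_Ico_self (convex_Ioo 0 1)).continuousOn isOpen_Ioo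
    exact ((hc t ht').continuousAt (isOpen_Ioo.mem_nhds ht')).continuousWithinAt

/-! ### strong convergence of the operators -/

lemma tendsto_T [CompleteSpace H] {ι : Type*} {l : Filter ι} (F : Frame H) {D : ι → ℝ → ℝ}
    {D₀ : ℝ → ℝ}
    (hD : ∀ t ∈ Ico (0 : ℝ) 1, Tendsto (fun i => D i t) l (𝓝 (D₀ t)))
    (hanti : ∀ᶠ i in l, IsAnti (D i)) (h₀ : IsAnti D₀) (hc : ContinuousOn D₀ (Ico (0 : ℝ) 1))
    {x : ι → H} {x₀ : H} (hx : Tendsto x l (𝓝 x₀)) :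
    Tendsto (fun i => T F (D i) (x i)) l (𝓝 (T F D₀ x₀)) := by
  rw [Metric.tendsto_nhds]
  intro ε hε
  -- a bound for `D i 0`
  set C : ℝ := D₀ 0 + 1 with hC
  have hC0 : 0 < C := by have := h₀.zero_nonneg; linarith
  have hbd : ∀ᶠ i in l, D i 0 ≤ C := by
    have := (hD 0 zero_mem_Ico).eventually (Iic_mem_nhds (show D₀ 0 < C by linarith))
    exact this
  -- choose `r` with `‖x₀ - E r x₀‖` small
  obtain ⟨r, hr0, hr1, hr⟩ : ∃ r : ℝ, 0 ≤ r ∧ r < 1 ∧ ‖x₀ - F.E r x₀‖ ≤ ε / (8 * C) := by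
    have h1 := (F.tendsto_one x₀).eventually
      (Metric.closedBall_mem_nhds x₀ (show 0 < ε / (8 * C) by positivity))
    have h2 : ∀ᶠ t in 𝓝[<] (1 : ℝ), 0 < t := by
      have : Ioi (0 : ℝ) ∈ 𝓝[<] (1 : ℝ) := mem_nhdsWithin_of_mem_nhds (Ioi_mem_nhds one_pos)
      exact this
    obtain ⟨r, ⟨hr1, hr2⟩, hr3⟩ := ((h1.and h2).and self_mem_nhdsWithin).exists
    refine ⟨r, hr2.le, hr3, ?_⟩
    rw [← dist_eq_norm, dist_comm]
    exact hr1
  set r' : ℝ := (r + 1) / 2 with hr'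
  have hrr' : r < r' := by rw [hr']; linarith
  have hr'1 : r' < 1 := by rw [hr']; linarith
  have hr'0 : 0 ≤ r' := by linarith
  set η : ℝ := ε / (8 * (‖x₀‖ + 1)) with hη
  have hη0 : 0 < η := by positivity
  have hu := unif_of_anti (l := l) (D := D) (D₀ := D₀) hr'0
    (fun t ht => hD t ⟨ht.1, lt_of_le_of_lt ht.2 hr'1⟩)
    (by
      filter_upwards [hanti] with i hi
      exact hi.anti.mono fun t ht => ⟨ht.1, lt_of_le_of_lt ht.2 hr'1⟩)
    (hc.mono fun t ht => ⟨ht.1, lt_of_le_of_lt ht.2 hr'1⟩) hη0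
  have hxe : ∀ᶠ i in l, ‖x i - x₀‖ ≤ ε / (8 * C) := by
    have := hx.eventually (Metric.closedBall_mem_nhds x₀ (show 0 < ε / (8 * C) by positivity))
    filter_upwards [this] with i hi
    rw [← dist_eq_norm]; exact hi
  filter_upwards [hanti, hbd, hu, hxe] with i hi hbi hui hxi
  rw [dist_eq_norm]
  have e1 : T F (D i) (x i) - T F D₀ x₀ = T F (D i) (x i - x₀) +
      (T F (D i) (x₀ - F.E r x₀) - T F D₀ (x₀ - F.E r x₀)) +
      (T F (D i) (F.E r x₀) - T F D₀ (F.E r x₀)) := by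
    rw [T_sub F hi, T_sub F hi, T_sub F h₀]; abel
  rw [e1]
  have b1 : ‖T F (D i) (x i - x₀)‖ ≤ ε / 8 := by
    refine (norm_T_le F hi _).trans ?_
    calc D i 0 * ‖x i - x₀‖ ≤ C * (ε / (8 * C)) :=
          mul_le_mul hbi hxi (norm_nonneg _) hC0.le
      _ = ε / 8 := by field_simp
  have b2 : ‖T F (D i) (x₀ - F.E r x₀)‖ ≤ ε / 8 := by
    refine (norm_T_le F hi _).trans ?_
    calc D i 0 * ‖x₀ - F.E r x₀‖ ≤ C * (ε / (8 * C)) :=
          mul_le_mul hbi hr (norm_nonneg _) hC0.le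
      _ = ε / 8 := by field_simp
  have b3 : ‖T F D₀ (x₀ - F.E r x₀)‖ ≤ ε / 8 := by
    refine (norm_T_le F h₀ _).trans ?_
    calc D₀ 0 * ‖x₀ - F.E r x₀‖ ≤ C * (ε / (8 * C)) :=
          mul_le_mul (by linarith) hr (norm_nonneg _) hC0.le
      _ = ε / 8 := by field_simp
  have b4 : ‖T F (D i) (F.E r x₀) - T F D₀ (F.E r x₀)‖ ≤ ε / 8 := by
    refine (norm_T_sub_le F hi h₀ hrr' hη0.le hr'0
      (fun t ht htr => hui t ⟨ht.1, htr⟩) x₀).trans ?_
    calc η * ‖x₀‖ ≤ η * (‖x₀‖ + 1) := mul_le_mul_of_nonneg_left (by linarith) hη0.le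
      _ = ε / 8 := by rw [hη]; field_simp
  calc ‖T F (D i) (x i - x₀) + (T F (D i) (x₀ - F.E r x₀) - T F D₀ (x₀ - F.E r x₀)) +
        (T F (D i) (F.E r x₀) - T F D₀ (F.E r x₀))‖
      ≤ ‖T F (D i) (x i - x₀)‖ + (‖T F (D i) (x₀ - F.E r x₀)‖ + ‖T F D₀ (x₀ - F.E r x₀)‖) +
        ‖T F (D i) (F.E r x₀) - T F D₀ (F.E r x₀)‖ :=
        (norm_add_le _ _).trans (add_le_add ((norm_add_le _ _).trans
          (add_le_add le_rfl (norm_sub_le _ _))) le_rfl)
    _ ≤ ε / 8 + (ε / 8 + ε / 8) + ε / 8 := add_le_add (add_le_add b1 (add_le_add b2 b3)) b4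
    _ < ε := by linarith

/-- convergence of the form along strongly convergent vectors -/
lemma tendsto_Q_of [CompleteSpace H] {ι : Type*} {l : Filter ι} (F : Frame H) {D : ι → ℝ → ℝ}
    {D₀ : ℝ → ℝ}
    (hD : ∀ t ∈ Ico (0 : ℝ) 1, Tendsto (fun i => D i t) l (𝓝 (D₀ t)))
    (hanti : ∀ᶠ i in l, IsAnti (D i)) (h₀ : IsAnti D₀) (hc : ContinuousOn D₀ (Ico (0 : ℝ) 1))
    {x : ι → H} {x₀ : H} (hx : Tendsto x l (𝓝 x₀)) :
    Tendsto (fun i => Q F (D i) (x i)) l (𝓝 (Q F D₀ x₀)) := by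
  have h1 := (tendsto_T F hD hanti h₀ hc hx).inner hx (𝕜 := ℝ)
  rw [inner_T_self F h₀] at h1
  refine h1.congr' ?_
  filter_upwards [hanti] with i hi
  rw [inner_T_self F hi]

end Crest.Agent.R146.LimForm_952
end

-- ▼ part R146/LimProf_952
section

/-!
Package P5 (row 146), node C, real-variable part: profiles on `[0,1)` with cap
`e * D t ≤ 1 - t`, the entropy `Ent e D = ∫ (1/D - e/(1-t))`, lower bounds, compactness along
ultrafilters, lower semicontinuity, strict convexity.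
-/

set_option autoImplicit false

namespace Crest.Agent.R146.LimProf_952

open Filter Topology Set MeasureTheory
open Crest.Agent.R146.LimFrame_952 Crest.Agent.R146.LimForm_952

/-- profiles with cap parameter `e ≥ 0` (`e = 0`: no cap) -/
structure PD (e : ℝ) (D : ℝ → ℝ) : Prop where
  conc : ConcaveOn ℝ (Ico 0 1) D
  anti : AntitoneOn D (Ico 0 1)
  pos : ∀ t ∈ Ico (0 : ℝ) 1, 0 < D t
  cap : ∀ t ∈ Ico (0 : ℝ) 1, e * D t ≤ 1 - t

lemma PD.isAnti {e : ℝ} {D : ℝ → ℝ} (h : PD e D) : IsAnti D := isAnti_of_pos h.anti h.pos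

lemma PD.continuousOn {e : ℝ} {D : ℝ → ℝ} (h : PD e D) : ContinuousOn D (Ico 0 1) :=
  continuousOn_of_concave h.conc h.anti

/-- density of the entropy -/
noncomputable def dens (e : ℝ) (D : ℝ → ℝ) (t : ℝ) : ℝ := 1 / D t - e / (1 - t)

lemma PD.dens_nonneg {e : ℝ} {D : ℝ → ℝ} (h : PD e D) {t : ℝ} (ht : t ∈ Ico (0 : ℝ) 1) :
    0 ≤ dens e D t := by
  unfold dens
  have h1 := h.cap t ht
  have h2 := h.pos t ht
  have h3 : 0 < 1 - t := by linarith [ht.2]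
  rw [sub_nonneg, div_le_div_iff₀ h3 h2]
  linarith

lemma PD.continuousOn_inv {e : ℝ} {D : ℝ → ℝ} (h : PD e D) :
    ContinuousOn (fun t => 1 / D t) (Ico 0 1) :=
  continuousOn_const.div h.continuousOn fun t ht => (h.pos t ht).ne'

lemma continuousOn_capterm (e : ℝ) : ContinuousOn (fun t : ℝ => e / (1 - t)) (Ico 0 1) := by
  refine continuousOn_const.div (by fun_prop) fun t ht => ?_
  have : 0 < 1 - t := by linarith [ht.2]
  exact this.ne'

lemma PD.continuousOn_dens {e : ℝ} {D : ℝ → ℝ} (h : PD e D) :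
    ContinuousOn (dens e D) (Ico 0 1) := h.continuousOn_inv.sub (continuousOn_capterm e)

/-- the entropy, in `[0,∞]` -/
noncomputable def Ent (e : ℝ) (D : ℝ → ℝ) : ENNReal :=
  ∫⁻ t in Ico (0 : ℝ) 1, ENNReal.ofReal (dens e D t)

lemma Ent_congr {e : ℝ} {D D' : ℝ → ℝ} (h : ∀ t ∈ Ico (0 : ℝ) 1, D t = D' t) :
    Ent e D = Ent e D' := by
  unfold Ent
  refine setLIntegral_congr_fun measurableSet_Ico fun t ht => ?_
  unfold dens
  rw [h t ht]

lemma PD.measurable_dens {e : ℝ} {D : ℝ → ℝ} (h : PD e D) :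
    AEMeasurable (dens e D) (volume.restrict (Ico (0 : ℝ) 1)) :=
  h.continuousOn_dens.aemeasurable measurableSet_Ico

lemma PD.integrable_dens {e : ℝ} {D : ℝ → ℝ} (h : PD e D) (hE : Ent e D ≠ ⊤) :
    IntegrableOn (dens e D) (Ico 0 1) := by
  refine ⟨h.measurable_dens.aestronglyMeasurable, ?_⟩
  rw [hasFiniteIntegral_iff_ofReal ?_]
  · exact lt_top_iff_ne_top.2 hE
  · exact (ae_restrict_iff' measurableSet_Ico).2 (Eventually.of_forall fun t ht => h.dens_nonneg ht)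

lemma PD.Ent_eq {e : ℝ} {D : ℝ → ℝ} (h : PD e D) (hE : Ent e D ≠ ⊤) :
    (Ent e D).toReal = ∫ t in Ico (0 : ℝ) 1, dens e D t := by
  rw [integral_eq_lintegral_of_nonneg_ae
    ((ae_restrict_iff' measurableSet_Ico).2 (Eventually.of_forall fun t ht => h.dens_nonneg ht))
    h.measurable_dens.aestronglyMeasurable]
  rfl

lemma PD.Ent_ne_top_of_integrable {e : ℝ} {D : ℝ → ℝ} (h : PD e D)
    (hI : IntegrableOn (dens e D) (Ico 0 1)) : Ent e D ≠ ⊤ := by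
  have := hI.2
  rw [hasFiniteIntegral_iff_ofReal ((ae_restrict_iff' measurableSet_Ico).2
    (Eventually.of_forall fun t ht => h.dens_nonneg ht))] at this
  exact this.ne

/-- partial integrals -/
lemma PD.intervalIntegrable {e : ℝ} {D : ℝ → ℝ} (h : PD e D) {a b : ℝ} (ha : 0 ≤ a) (hab : a ≤ b)
    (hb : b < 1) : IntervalIntegrable (dens e D) volume a b := by
  refine (h.continuousOn_dens.mono ?_).intervalIntegrable
  rw [uIcc_of_le hab]
  exact fun t ht => ⟨ha.trans ht.1, lt_of_le_of_lt ht.2 hb⟩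

lemma PD.partial_le {e : ℝ} {D : ℝ → ℝ} (h : PD e D) (hE : Ent e D ≠ ⊤) {a b : ℝ} (ha : 0 ≤ a)
    (hab : a ≤ b) (hb : b < 1) : ∫ t in a..b, dens e D t ≤ (Ent e D).toReal := by
  rw [h.Ent_eq hE, intervalIntegral.integral_of_le hab]
  refine setIntegral_mono_set (h.integrable_dens hE)
    ((ae_restrict_iff' measurableSet_Ico).2 (Eventually.of_forall fun t ht => h.dens_nonneg ht)) ?_
  refine LE.le.eventuallyLE ?_
  exact fun t ht => ⟨(ha.trans_lt ht.1).le, lt_of_le_of_lt ht.2 hb⟩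

/-- if all partial integrals are `≤ A` the entropy is `≤ A` -/
lemma PD.Ent_le {e : ℝ} {D : ℝ → ℝ} (h : PD e D) {A : ℝ}
    (hA : ∀ T : ℝ, 0 ≤ T → T < 1 → ∫ t in (0 : ℝ)..T, dens e D t ≤ A) :
    Ent e D ≤ ENNReal.ofReal A := by
  have hunion : Ico (0 : ℝ) 1 = ⋃ n : ℕ, Ico (0 : ℝ) (1 - 1 / ((n : ℝ) + 1)) := by
    ext t
    simp only [mem_Ico, mem_iUnion]
    constructor
    · rintro ⟨h0, h1⟩
      obtain ⟨n, hn⟩ := exists_nat_gt (1 / (1 - t))
      have h1t : 0 < 1 - t := by linarith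
      refine ⟨n, h0, ?_⟩
      have : 1 / ((n : ℝ) + 1) < 1 - t := by
        rw [div_lt_iff₀ (by positivity)]
        rw [div_lt_iff₀ h1t] at hn
        nlinarith
      linarith
    · rintro ⟨n, h0, h1⟩
      have : (0 : ℝ) < 1 / ((n : ℝ) + 1) := by positivity
      exact ⟨h0, by linarith⟩
  have hdir : Monotone fun n : ℕ => Ico (0 : ℝ) (1 - 1 / ((n : ℝ) + 1)) := by
    intro n m hnm
    refine Ico_subset_Ico_right ?_
    have : (1 : ℝ) / ((m : ℝ) + 1) ≤ 1 / ((n : ℝ) + 1) := by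
      apply one_div_le_one_div_of_le (by positivity)
      have : (n : ℝ) ≤ m := by exact_mod_cast hnm
      linarith
    linarith
  unfold Ent
  rw [hunion, setLIntegral_iUnion_of_directed _ (hdir.directed_le)]
  refine iSup_le fun n => ?_
  have hT0 : (0 : ℝ) ≤ 1 - 1 / ((n : ℝ) + 1) := by
    rw [sub_nonneg, div_le_one (by positivity)]
    linarith [(Nat.cast_nonneg n : (0 : ℝ) ≤ n)]
  have hT1 : 1 - 1 / ((n : ℝ) + 1) < 1 := by
    have : (0 : ℝ) < 1 / ((n : ℝ) + 1) := by positivity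
    linarith
  have hI := h.intervalIntegrable le_rfl hT0 hT1
  rw [intervalIntegrable_iff_integrableOn_Ico_of_le hT0] at hI
  rw [← ofReal_integral_eq_lintegral_ofReal hI]
  · refine ENNReal.ofReal_le_ofReal ?_
    have := hA _ hT0 hT1
    rwa [intervalIntegral.integral_of_le hT0, ← integral_Ico_eq_integral_Ioc] at this
  · refine (ae_restrict_iff' measurableSet_Ico).2 (Eventually.of_forall fun t ht => ?_)
    exact h.dens_nonneg ⟨ht.1, ht.2.trans hT1⟩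

/-! ### concavity towards the end point -/

lemma PD.tail_ge {e : ℝ} {D : ℝ → ℝ} (h : PD e D) {s t : ℝ} (hs : s ∈ Ico (0 : ℝ) 1)
    (ht : t ∈ Ico (0 : ℝ) 1) (hst : s ≤ t) : (1 - t) * D s ≤ (1 - s) * D t := by
  -- for `t < r < 1`: `(r - t) D s ≤ (r - s) D t`
  have key : ∀ᶠ r in 𝓝[<] (1 : ℝ), (r - t) * D s ≤ (r - s) * D t := by
    have h2 : ∀ᶠ r in 𝓝[<] (1 : ℝ), t < r := by
      have : Ioi t ∈ 𝓝[<] (1 : ℝ) := mem_nhdsWithin_of_mem_nhds (Ioi_mem_nhds ht.2)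
      exact this
    filter_upwards [h2, self_mem_nhdsWithin] with r hr hr1
    have hr1' : r < 1 := hr1
    have hrm : r ∈ Ico (0 : ℝ) 1 := ⟨ht.1.trans hr.le, hr1'⟩
    have hrs : 0 < r - s := by linarith
    have := h.conc.2 hs hrm (show (0 : ℝ) ≤ (r - t) / (r - s) by
        apply div_nonneg <;> linarith)
      (show (0 : ℝ) ≤ (t - s) / (r - s) by apply div_nonneg <;> linarith)
      (by field_simp; ring)
    simp only [smul_eq_mul] at this
    have e1 : (r - t) / (r - s) * s + (t - s) / (r - s) * r = t := by field_simp; ring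
    rw [e1] at this
    have hp := (h.pos r hrm).le
    have h3 : (r - t) / (r - s) * D s ≤ D t := by
      have : 0 ≤ (t - s) / (r - s) * D r := mul_nonneg (by apply div_nonneg <;> linarith) hp
      linarith
    rw [div_mul_eq_mul_div, div_le_iff₀ hrs] at h3
    linarith
  have l1 : Tendsto (fun r : ℝ => (r - t) * D s) (𝓝[<] 1) (𝓝 ((1 - t) * D s)) := by
    have : Continuous fun r : ℝ => (r - t) * D s := by fun_prop
    exact (this.tendsto 1).mono_left nhdsWithin_le_nhds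
  have l2 : Tendsto (fun r : ℝ => (r - s) * D t) (𝓝[<] 1) (𝓝 ((1 - s) * D t)) := by
    have : Continuous fun r : ℝ => (r - s) * D t := by fun_prop
    exact (this.tendsto 1).mono_left nhdsWithin_le_nhds
  exact le_of_tendsto_of_tendsto l1 l2 key

lemma PD.ge_zero {e : ℝ} {D : ℝ → ℝ} (h : PD e D) {t : ℝ} (ht : t ∈ Ico (0 : ℝ) 1) :
    (1 - t) * D 0 ≤ D t := by
  have := h.tail_ge zero_mem_Ico ht ht.1
  linarith

/-- lower bound of a profile by its entropy -/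
lemma PD.lower {e : ℝ} (he : 0 ≤ e) {D : ℝ → ℝ} (h : PD e D) {C : ℝ} (hC : 0 < C)
    (hE : Ent e D ≤ ENNReal.ofReal C) {t : ℝ} (ht : t ∈ Ico (0 : ℝ) 1) :
    (1 - t) / (4 * (C + e)) ≤ D t := by
  have hne : Ent e D ≠ ⊤ := ne_top_of_le_ne_top ENNReal.ofReal_ne_top hE
  have hCe : 0 < C + e := by linarith
  -- the case `1/2 ≤ t`
  have key : ∀ t ∈ Ico (1 / 2 : ℝ) 1, (1 - t) / (2 * (C + e)) ≤ D t := by
    intro t ht
    have htm : t ∈ Ico (0 : ℝ) 1 := ⟨by linarith [ht.1], ht.2⟩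
    have ha : 0 ≤ 2 * t - 1 := by linarith [ht.1]
    have hab : 2 * t - 1 ≤ t := by linarith [ht.2]
    have h1 := h.partial_le hne ha hab ht.2
    have h2 : (Ent e D).toReal ≤ C := ENNReal.toReal_le_of_le_ofReal hC.le hE
    have hpt := h.pos t htm
    have h1t : 0 < 1 - t := by linarith [ht.2]
    have hlow : ∫ _ in (2 * t - 1)..t, (1 / (2 * D t) - e / (1 - t)) ≤
        ∫ s in (2 * t - 1)..t, dens e D s := by
      refine intervalIntegral.integral_mono_on hab (by simp) (h.intervalIntegrable ha hab ht.2) ?_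
      intro s hs
      have hsm : s ∈ Ico (0 : ℝ) 1 := ⟨ha.trans hs.1, lt_of_le_of_lt hs.2 ht.2⟩
      have hts := h.tail_ge hsm htm hs.2
      have hps := h.pos s hsm
      have h1s : 0 < 1 - s := by linarith [hsm.2]
      unfold dens
      have a1 : D s ≤ 2 * D t := by
        have : (1 - s) ≤ 2 * (1 - t) := by linarith [hs.1]
        have : (1 - t) * D s ≤ 2 * (1 - t) * D t := hts.trans (by nlinarith)
        nlinarith
      have a2 : 1 / (2 * D t) ≤ 1 / D s := one_div_le_one_div_of_le hps a1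
      have a3 : e / (1 - s) ≤ e / (1 - t) := by
        apply div_le_div_of_nonneg_left he h1t
        linarith [hs.2]
      linarith
    rw [intervalIntegral.integral_const, smul_eq_mul] at hlow
    have h3 : (t - (2 * t - 1)) * (1 / (2 * D t) - e / (1 - t)) ≤ C := hlow.trans (h1.trans h2)
    have h4 : (t - (2 * t - 1)) * (1 / (2 * D t) - e / (1 - t)) = (1 - t) / (2 * D t) - e := by
      field_simp
      ring
    rw [h4] at h3
    have h5 : (1 - t) / (2 * D t) ≤ C + e := by linarith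
    rw [div_le_iff₀ (by positivity)] at h5
    rw [div_le_iff₀ (by positivity)]
    nlinarith
  by_cases hth : 1 / 2 ≤ t
  · refine le_trans ?_ (key t ⟨hth, ht.2⟩)
    have h1t : 0 ≤ 1 - t := by linarith [ht.2]
    apply div_le_div_of_nonneg_left h1t (by positivity)
    linarith
  · push Not at hth
    have hhalf : (1 / 2 : ℝ) ∈ Ico (1 / 2 : ℝ) 1 := ⟨le_rfl, by norm_num⟩
    have h1 := key _ hhalf
    have h2 := h.anti ht ⟨by norm_num, by norm_num⟩ hth.le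
    refine le_trans ?_ (h1.trans h2)
    rw [div_le_div_iff₀ (by positivity) (by positivity)]
    nlinarith [ht.1]

/-! ### convergence of partial integrals -/

/-- Riemann sums of a monotone function -/
lemma riemann_mono {E : ℝ → ℝ} {T : ℝ} (hT : 0 ≤ T) (hE : MonotoneOn E (Icc 0 T)) (N : ℕ)
    (hN : 0 < N) :
    |(∫ t in (0 : ℝ)..T, E t) - T / N * ∑ i ∈ Finset.range N, E (T * i / N)| ≤
      T / N * (E T - E 0) := by
  have hN' : (0 : ℝ) < N := by exact_mod_cast hN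
  have hmem : ∀ i ∈ Finset.range (N + 1), T * (i : ℝ) / N ∈ Icc (0 : ℝ) T := by
    intro i hi
    have : (i : ℝ) ≤ N := by
      have := Finset.mem_range.1 hi
      exact_mod_cast (by omega : i ≤ N)
    refine ⟨by positivity, ?_⟩
    rw [div_le_iff₀ hN']
    exact mul_le_mul_of_nonneg_left this hT
  have hint : ∀ i ∈ Finset.range N, IntervalIntegrable E volume (T * (i : ℝ) / N)
      (T * ((i + 1 : ℕ) : ℝ) / N) := by
    intro i hi
    have hi' := Finset.mem_range.1 hi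
    refine (hE.mono ?_).intervalIntegrable
    have hle : T * (i : ℝ) / N ≤ T * ((i + 1 : ℕ) : ℝ) / N := by
      push_cast
      gcongr
      linarith
    rw [uIcc_of_le hle]
    exact Icc_subset_Icc (hmem i (by simp; omega)).1 (hmem (i + 1) (by simp; omega)).2
  have hsum : ∫ t in (0 : ℝ)..T, E t =
      ∑ i ∈ Finset.range N, ∫ t in (T * (i : ℝ) / N)..(T * ((i + 1 : ℕ) : ℝ) / N), E t := by
    rw [intervalIntegral.sum_integral_adjacent_intervals
      (a := fun i : ℕ => T * (i : ℝ) / N) (fun i hi => hint i (Finset.mem_range.2 hi))]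
    simp only [CharP.cast_eq_zero, mul_zero, zero_div]
    rw [mul_div_assoc, div_self hN'.ne', mul_one]
  have hcell : ∀ i ∈ Finset.range N,
      T / N * E (T * i / N) ≤ (∫ t in (T * (i : ℝ) / N)..(T * ((i + 1 : ℕ) : ℝ) / N), E t) ∧
      (∫ t in (T * (i : ℝ) / N)..(T * ((i + 1 : ℕ) : ℝ) / N), E t) ≤
        T / N * E (T * ((i + 1 : ℕ) : ℝ) / N) := by
    intro i hi
    have hi' := Finset.mem_range.1 hi
    have hle : T * (i : ℝ) / N ≤ T * ((i + 1 : ℕ) : ℝ) / N := by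
      push_cast
      gcongr
      linarith
    have hm0 := hmem i (by simp; omega)
    have hm1 := hmem (i + 1) (by simp; omega)
    have hlen : T * ((i + 1 : ℕ) : ℝ) / N - T * (i : ℝ) / N = T / N := by
      push_cast; ring
    constructor
    · have : ∫ _ in (T * (i : ℝ) / N)..(T * ((i + 1 : ℕ) : ℝ) / N), E (T * i / N) ≤
          ∫ t in (T * (i : ℝ) / N)..(T * ((i + 1 : ℕ) : ℝ) / N), E t := by
        refine intervalIntegral.integral_mono_on hle (by simp) (hint i hi) fun t ht => ?_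
        exact hE hm0 ⟨hm0.1.trans ht.1, ht.2.trans hm1.2⟩ ht.1
      rwa [intervalIntegral.integral_const, smul_eq_mul, hlen] at this
    · have : ∫ t in (T * (i : ℝ) / N)..(T * ((i + 1 : ℕ) : ℝ) / N), E t ≤
          ∫ _ in (T * (i : ℝ) / N)..(T * ((i + 1 : ℕ) : ℝ) / N),
            E (T * ((i + 1 : ℕ) : ℝ) / N) := by
        refine intervalIntegral.integral_mono_on hle (hint i hi) (by simp) fun t ht => ?_
        exact hE ⟨hm0.1.trans ht.1, ht.2.trans hm1.2⟩ hm1 ht.2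
      rwa [intervalIntegral.integral_const, smul_eq_mul, hlen] at this
  have hlow : T / N * ∑ i ∈ Finset.range N, E (T * i / N) ≤ ∫ t in (0 : ℝ)..T, E t := by
    rw [hsum, Finset.mul_sum]
    exact Finset.sum_le_sum fun i hi => (hcell i hi).1
  have hup : ∫ t in (0 : ℝ)..T, E t ≤
      T / N * ∑ i ∈ Finset.range N, E (T * i / N) + T / N * (E T - E 0) := by
    rw [hsum]
    refine (Finset.sum_le_sum fun i hi => (hcell i hi).2).trans ?_
    rw [← Finset.mul_sum, ← mul_add]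
    refine mul_le_mul_of_nonneg_left ?_ (by positivity)
    have htel : ∑ i ∈ Finset.range N, E (T * ((i + 1 : ℕ) : ℝ) / N) -
        ∑ i ∈ Finset.range N, E (T * (i : ℝ) / N) = E T - E 0 := by
      rw [← Finset.sum_sub_distrib,
        Finset.sum_range_sub (fun i : ℕ => E (T * (i : ℝ) / N))]
      simp only [CharP.cast_eq_zero, mul_zero, zero_div]
      rw [mul_div_assoc, div_self hN'.ne', mul_one]
    linarith
  rw [abs_of_nonneg (by linarith)]
  linarith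

/-- convergence of `∫_0^T 1/D` -/
lemma tendsto_integral_inv {ι : Type*} {l : Filter ι} {D : ι → ℝ → ℝ} {D₀ : ℝ → ℝ} {e : ℝ}
    (hD : ∀ t ∈ Ico (0 : ℝ) 1, Tendsto (fun i => D i t) l (𝓝 (D₀ t)))
    (hP : ∀ᶠ i in l, PD e (D i)) (h₀ : PD e D₀) {T : ℝ} (hT0 : 0 ≤ T) (hT1 : T < 1) :
    Tendsto (fun i => ∫ t in (0 : ℝ)..T, dens e (D i) t) l
      (𝓝 (∫ t in (0 : ℝ)..T, dens e D₀ t)) := by
  -- reduce to `1/D`
  have hTm : T ∈ Ico (0 : ℝ) 1 := ⟨hT0, hT1⟩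
  have hsubT : Icc 0 T ⊆ Ico (0 : ℝ) 1 := fun t ht => ⟨ht.1, lt_of_le_of_lt ht.2 hT1⟩
  have hcapI : IntervalIntegrable (fun t : ℝ => e / (1 - t)) volume 0 T := by
    refine ((continuousOn_capterm e).mono ?_).intervalIntegrable
    rw [uIcc_of_le hT0]; exact hsubT
  have hinvI : ∀ D : ℝ → ℝ, PD e D → IntervalIntegrable (fun t => 1 / D t) volume 0 T := by
    intro D h
    refine (h.continuousOn_inv.mono ?_).intervalIntegrable
    rw [uIcc_of_le hT0]; exact hsubT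
  have hsplit : ∀ D : ℝ → ℝ, PD e D → ∫ t in (0 : ℝ)..T, dens e D t =
      (∫ t in (0 : ℝ)..T, 1 / D t) - ∫ t in (0 : ℝ)..T, e / (1 - t) := by
    intro D h
    exact intervalIntegral.integral_sub (hinvI D h) hcapI
  have hmono : ∀ D : ℝ → ℝ, PD e D → MonotoneOn (fun t => 1 / D t) (Icc 0 T) := by
    intro D h s hs t ht hst
    exact one_div_le_one_div_of_le (h.pos t (hsubT ht)) (h.anti (hsubT hs) (hsubT ht) hst)
  suffices hmain : Tendsto (fun i => ∫ t in (0 : ℝ)..T, 1 / D i t) l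
      (𝓝 (∫ t in (0 : ℝ)..T, 1 / D₀ t)) by
    rw [hsplit D₀ h₀]
    refine (hmain.sub_const _).congr' ?_
    filter_upwards [hP] with i hi
    rw [hsplit _ hi]
  -- bound of the end values
  have hinvt : ∀ t ∈ Ico (0 : ℝ) 1, Tendsto (fun i => 1 / D i t) l (𝓝 (1 / D₀ t)) := fun t ht =>
    tendsto_const_nhds.div (hD t ht) (h₀.pos t ht).ne'
  rw [Metric.tendsto_nhds]
  intro ε hε
  set C : ℝ := 1 / D₀ T + 1 with hC
  have hCpos : 0 < C := by have := h₀.pos T hTm; positivity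
  obtain ⟨N, hN⟩ := exists_nat_gt (4 * T * C / ε)
  set M : ℕ := N + 1 with hM
  have hMpos : 0 < M := Nat.succ_pos N
  have hM' : (0 : ℝ) < M := by exact_mod_cast hMpos
  have hTM : T / M * C < ε / 4 := by
    rw [div_mul_eq_mul_div, div_lt_iff₀ hM']
    rw [div_lt_iff₀ hε] at hN
    have : (N : ℝ) < M := by rw [hM]; push_cast; linarith
    nlinarith
  have hfin : Tendsto (fun i => T / M * ∑ k ∈ Finset.range M, 1 / D i (T * k / M)) l
      (𝓝 (T / M * ∑ k ∈ Finset.range M, 1 / D₀ (T * k / M))) := by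
    refine (tendsto_finsetSum _ fun k hk => hinvt _ ?_).const_mul _
    refine hsubT ⟨by positivity, ?_⟩
    rw [div_le_iff₀ hM']
    have : (k : ℝ) ≤ M := by exact_mod_cast (Finset.mem_range.1 hk).le
    exact mul_le_mul_of_nonneg_left this hT0
  have hev1 := hfin.eventually (Metric.ball_mem_nhds _ (show 0 < ε / 4 by positivity))
  have hev2 := (hinvt T hTm).eventually (Iio_mem_nhds (show 1 / D₀ T < C by rw [hC]; linarith))
  filter_upwards [hP, hev1, hev2] with i hi h1 h2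
  have r1 := riemann_mono hT0 (hmono _ hi) M hMpos
  have r2 := riemann_mono hT0 (hmono _ h₀) M hMpos
  rw [Real.dist_eq] at h1
  have h2' : 1 / D i T < C := h2
  have p1 : 0 ≤ 1 / D i 0 := by have := hi.pos 0 zero_mem_Ico; positivity
  have p2 : 0 ≤ 1 / D₀ 0 := by have := h₀.pos 0 zero_mem_Ico; positivity
  have b1 : T / M * (1 / D i T - 1 / D i 0) ≤ ε / 4 := by
    refine le_trans (mul_le_mul_of_nonneg_left ?_ (by positivity)) hTM.le
    linarith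
  have b2 : T / M * (1 / D₀ T - 1 / D₀ 0) ≤ ε / 4 := by
    refine le_trans (mul_le_mul_of_nonneg_left ?_ (by positivity)) hTM.le
    linarith
  have r1' := r1.trans b1
  have r2' := r2.trans b2
  rw [Real.dist_eq]
  rw [abs_le] at r1' r2'
  rw [abs_lt] at h1 ⊢
  constructor <;> linarith [r1'.1, r1'.2, r2'.1, r2'.2, h1.1, h1.2]

/-- lower semicontinuity of the entropy -/
lemma Ent_le_of_tendsto {ι : Type*} {l : Filter ι} [l.NeBot] {D : ι → ℝ → ℝ} {D₀ : ℝ → ℝ} {e : ℝ}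
    (hD : ∀ t ∈ Ico (0 : ℝ) 1, Tendsto (fun i => D i t) l (𝓝 (D₀ t)))
    (hP : ∀ᶠ i in l, PD e (D i)) (h₀ : PD e D₀) {a : ι → ℝ} {A : ℝ} (ha : Tendsto a l (𝓝 A))
    (hle : ∀ᶠ i in l, Ent e (D i) ≤ ENNReal.ofReal (a i)) (ha0 : ∀ᶠ i in l, 0 ≤ a i) :
    Ent e D₀ ≤ ENNReal.ofReal A := by
  refine h₀.Ent_le fun T hT0 hT1 => ?_
  refine le_of_tendsto_of_tendsto (tendsto_integral_inv hD hP h₀ hT0 hT1) ha ?_
  filter_upwards [hP, hle, ha0] with i hi h1 h2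
  have hne : Ent e (D i) ≠ ⊤ := ne_top_of_le_ne_top ENNReal.ofReal_ne_top h1
  exact (hi.partial_le hne le_rfl hT0 hT1).trans (ENNReal.toReal_le_of_le_ofReal h2 h1)

/-! ### compactness along an ultrafilter -/

lemma exists_lim_of_bdd {ι : Type*} (U : Ultrafilter ι) {f : ι → ℝ} {a b : ℝ}
    (h : ∀ᶠ i in (U : Filter ι), f i ∈ Icc a b) :
    ∃ x ∈ Icc a b, Tendsto f U (𝓝 x) := by
  have := (isCompact_Icc (a := a) (b := b)).ultrafilter_le_nhds (U.map f) (by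
    rw [Ultrafilter.coe_map, le_principal_iff]
    exact h)
  obtain ⟨x, hx, hle⟩ := this
  exact ⟨x, hx, hle⟩

/-- limit profile along an ultrafilter -/
lemma exists_limit_profile {ι : Type*} (U : Ultrafilter ι) {D : ι → ℝ → ℝ} {e c C : ℝ}
    (hc : 0 < c) (hP : ∀ᶠ i in (U : Filter ι), PD e (D i))
    (hlow : ∀ᶠ i in (U : Filter ι), ∀ t ∈ Ico (0 : ℝ) 1, c * (1 - t) ≤ D i t)
    (hup : ∀ᶠ i in (U : Filter ι), D i 0 ≤ C) :
    ∃ D₀ : ℝ → ℝ, PD e D₀ ∧ (∀ t ∈ Ico (0 : ℝ) 1, Tendsto (fun i => D i t) U (𝓝 (D₀ t))) ∧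
      (∀ t ∈ Ico (0 : ℝ) 1, c * (1 - t) ≤ D₀ t) ∧ D₀ 0 ≤ C := by
  have hex : ∀ t : ℝ, ∃ x : ℝ, t ∈ Ico (0 : ℝ) 1 →
      (c * (1 - t) ≤ x ∧ x ≤ C) ∧ Tendsto (fun i => D i t) U (𝓝 x) := by
    intro t
    by_cases ht : t ∈ Ico (0 : ℝ) 1
    · obtain ⟨x, hx, hlim⟩ := exists_lim_of_bdd U (f := fun i => D i t) (a := c * (1 - t))
        (b := C) (by
          filter_upwards [hP, hlow, hup] with i h1 h2 h3
          exact ⟨h2 t ht, (h1.anti zero_mem_Ico ht ht.1).trans h3⟩)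
      exact ⟨x, fun _ => ⟨hx, hlim⟩⟩
    · exact ⟨0, fun h => absurd h ht⟩
  choose D₀ hD₀ using hex
  have hlim : ∀ t ∈ Ico (0 : ℝ) 1, Tendsto (fun i => D i t) U (𝓝 (D₀ t)) := fun t ht =>
    (hD₀ t ht).2
  refine ⟨D₀, ⟨⟨convex_Ico 0 1, ?_⟩, ?_, ?_, ?_⟩, hlim, fun t ht => (hD₀ t ht).1.1,
    (hD₀ 0 zero_mem_Ico).1.2⟩
  · intro x hx y hy a b ha hb hab
    have hz : a • x + b • y ∈ Ico (0 : ℝ) 1 := convex_Ico 0 1 hx hy ha hb hab
    refine le_of_tendsto_of_tendsto (((hlim x hx).const_smul a).add ((hlim y hy).const_smul b))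
      (hlim _ hz) ?_
    filter_upwards [hP] with i hi
    exact hi.conc.2 hx hy ha hb hab
  · intro x hx y hy hxy
    refine le_of_tendsto_of_tendsto (hlim y hy) (hlim x hx) ?_
    filter_upwards [hP] with i hi
    exact hi.anti hx hy hxy
  · intro t ht
    have h1t : 0 < 1 - t := by linarith [ht.2]
    exact lt_of_lt_of_le (mul_pos hc h1t) (hD₀ t ht).1.1
  · intro t ht
    refine le_of_tendsto ((hlim t ht).const_mul e) ?_
    filter_upwards [hP] with i hi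
    exact hi.cap t ht

/-! ### operations on profiles -/

lemma PD.hm {e : ℝ} (he : 0 ≤ e) {D₁ D₂ : ℝ → ℝ} (h₁ : PD e D₁) (h₂ : PD e D₂) :
    PD e (LimForm_952.hm D₁ D₂) :=
  ⟨hm_concave h₁.conc h₂.conc h₁.pos h₂.pos, hm_anti h₁.anti h₂.anti h₁.pos h₂.pos,
    fun t ht => hm_pos (h₁.pos t ht) (h₂.pos t ht), fun t ht => by
      have a := hm_le_mean (h₁.pos t ht) (h₂.pos t ht)
      have b := h₁.cap t ht
      have c := h₂.cap t ht
      have := mul_le_mul_of_nonneg_left a he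
      linarith⟩

lemma PD.mean {e : ℝ} {D₁ D₂ : ℝ → ℝ} (h₁ : PD e D₁) (h₂ : PD e D₂) :
    PD e (fun t => 1 / 2 * (D₁ t + D₂ t)) := by
  refine ⟨?_, ?_, ?_, ?_⟩
  · have := (h₁.conc.add h₂.conc).smul (show (0 : ℝ) ≤ 1 / 2 by norm_num)
    simpa [Pi.add_apply, smul_eq_mul] using this
  · intro x hx y hy hxy
    have a := h₁.anti hx hy hxy
    have b := h₂.anti hx hy hxy
    simp only
    linarith
  · intro t ht
    have a := h₁.pos t ht
    have b := h₂.pos t ht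
    positivity
  · intro t ht
    have a := h₁.cap t ht
    have b := h₂.cap t ht
    show e * (1 / 2 * (D₁ t + D₂ t)) ≤ 1 - t
    linarith

lemma dens_hm {e : ℝ} {D₁ D₂ : ℝ → ℝ} (h₁ : PD e D₁) (h₂ : PD e D₂) {t : ℝ}
    (ht : t ∈ Ico (0 : ℝ) 1) :
    dens e (hm D₁ D₂) t = (dens e D₁ t + dens e D₂ t) / 2 := by
  unfold dens
  rw [inv_hm (h₁.pos t ht) (h₂.pos t ht)]
  ring

lemma int_half {e : ℝ} {D₁ D₂ : ℝ → ℝ} (h₁ : PD e D₁) (h₂ : PD e D₂)
    (hE₁ : Ent e D₁ ≠ ⊤) (hE₂ : Ent e D₂ ≠ ⊤) :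
    IntegrableOn (fun t => (dens e D₁ t + dens e D₂ t) / 2) (Ico 0 1) := by
  have : IntegrableOn (fun t => dens e D₁ t + dens e D₂ t) (Ico 0 1) :=
    (h₁.integrable_dens hE₁).add (h₂.integrable_dens hE₂)
  exact this.div_const 2

lemma Ent_hm_ne_top {e : ℝ} (he : 0 ≤ e) {D₁ D₂ : ℝ → ℝ} (h₁ : PD e D₁) (h₂ : PD e D₂)
    (hE₁ : Ent e D₁ ≠ ⊤) (hE₂ : Ent e D₂ ≠ ⊤) : Ent e (hm D₁ D₂) ≠ ⊤ := by
  refine (h₁.hm he h₂).Ent_ne_top_of_integrable ?_
  refine IntegrableOn.congr_fun (int_half h₁ h₂ hE₁ hE₂) (fun t ht => ?_) measurableSet_Ico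
  exact (dens_hm h₁ h₂ ht).symm

lemma Ent_hm {e : ℝ} (he : 0 ≤ e) {D₁ D₂ : ℝ → ℝ} (h₁ : PD e D₁) (h₂ : PD e D₂)
    (hE₁ : Ent e D₁ ≠ ⊤) (hE₂ : Ent e D₂ ≠ ⊤) :
    (Ent e (hm D₁ D₂)).toReal = ((Ent e D₁).toReal + (Ent e D₂).toReal) / 2 := by
  rw [(h₁.hm he h₂).Ent_eq (Ent_hm_ne_top he h₁ h₂ hE₁ hE₂), h₁.Ent_eq hE₁, h₂.Ent_eq hE₂,
    ← integral_add (h₁.integrable_dens hE₁) (h₂.integrable_dens hE₂), ← integral_div]
  exact setIntegral_congr_fun measurableSet_Ico fun t ht => dens_hm h₁ h₂ ht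

/-- deficit of the arithmetic mean -/
lemma dens_mean {e : ℝ} {D₁ D₂ : ℝ → ℝ} (h₁ : PD e D₁) (h₂ : PD e D₂) {t : ℝ}
    (ht : t ∈ Ico (0 : ℝ) 1) :
    dens e (fun t => 1 / 2 * (D₁ t + D₂ t)) t = (dens e D₁ t + dens e D₂ t) / 2 -
      (D₁ t - D₂ t) ^ 2 / (2 * D₁ t * D₂ t * (D₁ t + D₂ t)) := by
  have a := h₁.pos t ht
  have b := h₂.pos t ht
  unfold dens
  have hs : D₁ t + D₂ t ≠ 0 := by positivity
  field_simp
  ring

lemma dens_mean_le {e : ℝ} {D₁ D₂ : ℝ → ℝ} (h₁ : PD e D₁) (h₂ : PD e D₂) {t : ℝ}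
    (ht : t ∈ Ico (0 : ℝ) 1) :
    dens e (fun t => 1 / 2 * (D₁ t + D₂ t)) t ≤ (dens e D₁ t + dens e D₂ t) / 2 := by
  rw [dens_mean h₁ h₂ ht]
  have a := h₁.pos t ht
  have b := h₂.pos t ht
  have : 0 ≤ (D₁ t - D₂ t) ^ 2 / (2 * D₁ t * D₂ t * (D₁ t + D₂ t)) := by positivity
  linarith

lemma Ent_mean_ne_top {e : ℝ} {D₁ D₂ : ℝ → ℝ} (h₁ : PD e D₁) (h₂ : PD e D₂)
    (hE₁ : Ent e D₁ ≠ ⊤) (hE₂ : Ent e D₂ ≠ ⊤) :
    Ent e (fun t => 1 / 2 * (D₁ t + D₂ t)) ≠ ⊤ := by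
  refine (h₁.mean h₂).Ent_ne_top_of_integrable ?_
  have hI := int_half h₁ h₂ hE₁ hE₂
  refine Integrable.mono' hI (h₁.mean h₂).measurable_dens.aestronglyMeasurable ?_
  refine (ae_restrict_iff' measurableSet_Ico).2 (Eventually.of_forall fun t ht => ?_)
  rw [Real.norm_of_nonneg ((h₁.mean h₂).dens_nonneg ht)]
  exact dens_mean_le h₁ h₂ ht

lemma Ent_mean_lt {e : ℝ} {D₁ D₂ : ℝ → ℝ} (h₁ : PD e D₁) (h₂ : PD e D₂)
    (hE₁ : Ent e D₁ ≠ ⊤) (hE₂ : Ent e D₂ ≠ ⊤) {t₀ : ℝ} (ht₀ : t₀ ∈ Ico (0 : ℝ) 1)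
    (hne : D₁ t₀ ≠ D₂ t₀) :
    (Ent e (fun t => 1 / 2 * (D₁ t + D₂ t))).toReal <
      ((Ent e D₁).toReal + (Ent e D₂).toReal) / 2 := by
  have hm := h₁.mean h₂
  have hEm := Ent_mean_ne_top h₁ h₂ hE₁ hE₂
  rw [hm.Ent_eq hEm, h₁.Ent_eq hE₁, h₂.Ent_eq hE₂,
    ← integral_add (h₁.integrable_dens hE₁) (h₂.integrable_dens hE₂), ← integral_div]
  rw [← sub_pos, ← integral_sub (int_half h₁ h₂ hE₁ hE₂) (hm.integrable_dens hEm)]
  rw [setIntegral_pos_iff_support_of_nonneg_ae]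
  · -- the integrand is positive near `t₀`, to the right of `t₀`
    set g : ℝ → ℝ := fun t => (dens e D₁ t + dens e D₂ t) / 2 -
      dens e (fun t => 1 / 2 * (D₁ t + D₂ t)) t with hg
    have hgt : ∀ t ∈ Ico (0 : ℝ) 1, g t =
        (D₁ t - D₂ t) ^ 2 / (2 * D₁ t * D₂ t * (D₁ t + D₂ t)) := by
      intro t ht
      rw [hg]; simp only
      rw [dens_mean h₁ h₂ ht]; ring
    have hcd : ContinuousOn (fun t => D₁ t - D₂ t) (Ico 0 1) :=
      h₁.continuousOn.sub h₂.continuousOn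
    have hnz : ∀ᶠ t in 𝓝[Ico 0 1] t₀, D₁ t - D₂ t ≠ 0 :=
      (hcd t₀ ht₀).eventually_ne (sub_ne_zero.2 hne)
    obtain ⟨δ, hδ, hball⟩ := Metric.mem_nhdsWithin_iff.1 hnz
    have hsub : Ioo t₀ (min (t₀ + δ) 1) ⊆ Function.support g ∩ Ico 0 1 := by
      intro t ht
      have ht1 : t < 1 := lt_of_lt_of_le ht.2 (min_le_right _ _)
      have ht2 : t < t₀ + δ := lt_of_lt_of_le ht.2 (min_le_left _ _)
      have htm : t ∈ Ico (0 : ℝ) 1 := ⟨ht₀.1.trans ht.1.le, ht1⟩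
      refine ⟨?_, htm⟩
      have : t ∈ {x | D₁ x - D₂ x ≠ 0} := hball ⟨by
        rw [Metric.mem_ball, Real.dist_eq, abs_of_pos (by linarith [ht.1])]
        linarith, htm⟩
      rw [Function.mem_support, hgt t htm]
      have a := h₁.pos t htm
      have b := h₂.pos t htm
      have c : D₁ t - D₂ t ≠ 0 := this
      positivity
    refine lt_of_lt_of_le ?_ (measure_mono hsub)
    rw [Real.volume_Ioo, ENNReal.ofReal_pos, sub_pos, lt_min_iff]
    exact ⟨by linarith, ht₀.2⟩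
  · refine (ae_restrict_iff' measurableSet_Ico).2 (Eventually.of_forall fun t ht => ?_)
    have := dens_mean_le (e := e) h₁ h₂ ht
    simp only [Pi.zero_apply]
    linarith
  · exact (int_half h₁ h₂ hE₁ hE₂).sub (hm.integrable_dens hEm)

end Crest.Agent.R146.LimProf_952
end

-- ▼ part R146/StrConv_952
section

/-!
Abstract minimisation of midpoint-strongly convex functionals on closed convex sets of a real
Hilbert space (package P5, node C).
-/

set_option autoImplicit false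

namespace Crest.Agent.R146.StrConv_952

open Filter Topology Set

variable {H : Type*} [NormedAddCommGroup H] [InnerProductSpace ℝ H]

/-- midpoint strong convexity with constant `c` on `K` -/
def MidStrong (K : Set H) (c : ℝ) (F : H → ℝ) : Prop :=
  ∀ x ∈ K, ∀ y ∈ K, F ((1 / 2 : ℝ) • (x + y)) ≤ (F x + F y) / 2 - c / 8 * ‖x - y‖ ^ 2

lemma norm_mid_sq (x y : H) :
    ‖(1 / 2 : ℝ) • (x + y)‖ ^ 2 = (‖x‖ ^ 2 + ‖y‖ ^ 2) / 2 - 1 / 4 * ‖x - y‖ ^ 2 := by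
  rw [norm_smul, mul_pow, norm_add_sq_real, norm_sub_sq_real]
  norm_num
  ring

lemma mid_mem {K : Set H} (hK : Convex ℝ K) {x y : H} (hx : x ∈ K) (hy : y ∈ K) :
    (1 / 2 : ℝ) • (x + y) ∈ K := by
  have := hK hx hy (show (0 : ℝ) ≤ 1 / 2 by norm_num) (show (0 : ℝ) ≤ 1 / 2 by norm_num)
    (by norm_num)
  rwa [← smul_add] at this

/-- stability: near-minimisers are near the minimiser -/
lemma stab {K : Set H} (hK : Convex ℝ K) {c : ℝ} {F : H → ℝ} (hF : MidStrong K c F)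
    {x₀ : H} (hx₀ : x₀ ∈ K) (hmin : ∀ y ∈ K, F x₀ ≤ F y) {y : H} (hy : y ∈ K) :
    c / 4 * ‖y - x₀‖ ^ 2 ≤ F y - F x₀ := by
  have h1 := hF y hy x₀ hx₀
  have h2 := hmin _ (mid_mem hK hy hx₀)
  linarith


/-- existence of the minimiser -/
theorem exists_min [CompleteSpace H] {K : Set H} (hK : Convex ℝ K) (hKc : IsClosed K)
    (hKn : K.Nonempty) {c : ℝ} (hc : 0 < c) {F : H → ℝ} (hF : MidStrong K c F)
    (hcont : ContinuousOn F K) (hbdd : ∃ b, ∀ x ∈ K, b ≤ F x) :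
    ∃ x ∈ K, ∀ y ∈ K, F x ≤ F y := by
  obtain ⟨b, hb⟩ := hbdd
  set I := sInf (F '' K) with hI
  have hne : (F '' K).Nonempty := hKn.image F
  have hbelow : BddBelow (F '' K) := ⟨b, by rintro _ ⟨x, hx, rfl⟩; exact hb x hx⟩
  have hIle : ∀ x ∈ K, I ≤ F x := fun x hx => csInf_le hbelow ⟨x, hx, rfl⟩
  have hex : ∀ n : ℕ, ∃ x ∈ K, F x < I + 1 / ((n : ℝ) + 1) := by
    intro n
    obtain ⟨_, ⟨x, hx, rfl⟩, hlt⟩ := exists_lt_of_csInf_lt hne
      (show sInf (F '' K) < I + 1 / ((n : ℝ) + 1) by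
        have : (0 : ℝ) < 1 / ((n : ℝ) + 1) := by positivity
        linarith)
    exact ⟨x, hx, hlt⟩
  choose u huK hu using hex
  have hcauchy : CauchySeq u := by
    rw [Metric.cauchySeq_iff']
    intro ε hε
    -- `‖u m - u n‖² ≤ (8/c) (1/(n+1))` for `m ≥ n`
    obtain ⟨n, hn⟩ := exists_nat_gt (8 / (c * ε ^ 2))
    refine ⟨n, fun m hm => ?_⟩
    have h1 := hF (u m) (huK m) (u n) (huK n)
    have h2 := hIle _ (mid_mem hK (huK m) (huK n))
    have h3 := hu m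
    have h4 := hu n
    have h5 : (1 : ℝ) / ((m : ℝ) + 1) ≤ 1 / ((n : ℝ) + 1) := by
      apply one_div_le_one_div_of_le (by positivity)
      have : (n : ℝ) ≤ m := by exact_mod_cast hm
      linarith
    have h6 : c / 8 * ‖u m - u n‖ ^ 2 ≤ 1 / ((n : ℝ) + 1) := by linarith
    have h7 : (1 : ℝ) / ((n : ℝ) + 1) < c * ε ^ 2 / 8 := by
      rw [div_lt_div_iff₀ (by positivity) (by norm_num)]
      rw [div_lt_iff₀ (by positivity)] at hn
      nlinarith [mul_pos hc (pow_pos hε 2)]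
    have h8 : ‖u m - u n‖ ^ 2 < ε ^ 2 := by
      by_contra hcon
      push Not at hcon
      have := mul_le_mul_of_nonneg_left hcon (show 0 ≤ c / 8 by positivity)
      linarith
    rw [dist_eq_norm]
    exact lt_of_pow_lt_pow_left₀ 2 hε.le h8
  obtain ⟨x, hx⟩ := cauchySeq_tendsto_of_complete hcauchy
  have hxK : x ∈ K := hKc.mem_of_tendsto hx (Eventually.of_forall huK)
  refine ⟨x, hxK, fun y hy => ?_⟩
  have hlim : Tendsto (fun n => F (u n)) atTop (𝓝 (F x)) :=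
    (hcont x hxK).tendsto.comp (tendsto_nhdsWithin_iff.2 ⟨hx, Eventually.of_forall huK⟩)
  have hle : F x ≤ I := by
    refine le_of_tendsto_of_tendsto hlim (?_ : Tendsto (fun n : ℕ => I + 1 / ((n : ℝ) + 1)) atTop
      (𝓝 (I + 0))) (Eventually.of_forall fun n => (hu n).le) |>.trans (by simp)
    exact tendsto_const_nhds.add tendsto_one_div_add_atTop_nhds_zero_nat
  exact hle.trans (hIle y hy)




end Crest.Agent.R146.StrConv_952
end

-- ▼ part R146/LimMin_952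

/-!
Package P5 (row 146), node C: the reduced functional `Phi F e x = inf_D (Q F D x + Ent e D)/2`,
the profile problem at fixed `x`, and the joint problem.
-/

set_option autoImplicit false

namespace Crest.Agent.R146.LimMin_952

open Filter Topology Set MeasureTheory
open Crest.Agent.R146.LimFrame_952 Crest.Agent.R146.LimForm_952 Crest.Agent.R146.LimProf_952
open Crest.Agent.R146.StrConv_952

variable {H : Type*} [NormedAddCommGroup H] [InnerProductSpace ℝ H]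

/-- admissible profiles -/
def Ad (e : ℝ) (D : ℝ → ℝ) : Prop := PD e D ∧ Ent e D ≠ ⊤

/-- the functional at fixed `x` -/
noncomputable def G (F : Frame H) (e : ℝ) (x : H) (D : ℝ → ℝ) : ℝ :=
  (Q F D x + (Ent e D).toReal) / 2

/-- reduced functional -/
noncomputable def Phi (F : Frame H) (e : ℝ) (x : H) : ℝ :=
  sInf {r : ℝ | ∃ D, Ad e D ∧ r = G F e x D}

lemma G_nonneg (F : Frame H) {e : ℝ} (x : H) {D : ℝ → ℝ} (h : Ad e D) : 0 ≤ G F e x D := by
  unfold G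
  have := Q_nonneg F h.1.isAnti x
  have := ENNReal.toReal_nonneg (a := Ent e D)
  linarith

/-- test profile -/
noncomputable def tp (e s : ℝ) (t : ℝ) : ℝ := if e = 0 then 1 / s else min (1 / s) ((1 - t) / e)

lemma tp_PD {e s : ℝ} (he : 0 ≤ e) (hs : 0 < s) : PD e (tp e s) := by
  rcases eq_or_lt_of_le he with h | h
  · subst h
    have : tp 0 s = fun _ => 1 / s := by funext t; simp [tp]
    rw [this]
    exact ⟨concaveOn_const _ (convex_Ico 0 1), fun _ _ _ _ _ => le_rfl, fun _ _ => by positivity,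
      fun t ht => by simpa using ht.2.le⟩
  · have hne : e ≠ 0 := h.ne'
    have e1 : tp e s = fun t => min (1 / s) ((1 - t) / e) := by funext t; simp [tp, hne]
    rw [e1]
    refine ⟨?_, ?_, ?_, ?_⟩
    · refine (concaveOn_const (1 / s) (convex_Ico 0 1)).inf ?_
      refine ⟨convex_Ico 0 1, fun x _ y _ a b _ _ hab => le_of_eq ?_⟩
      simp only [smul_eq_mul]
      have : b = 1 - a := by linarith
      subst this
      field_simp
      ring
    · intro x _ y _ hxy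
      refine min_le_min le_rfl ?_
      gcongr
    · intro t ht
      have : 0 < 1 - t := by linarith [ht.2]
      exact lt_min (by positivity) (by positivity)
    · intro t _
      calc e * min (1 / s) ((1 - t) / e) ≤ e * ((1 - t) / e) :=
            mul_le_mul_of_nonneg_left (min_le_right _ _) he
        _ = 1 - t := by field_simp

lemma tp_dens_le {e s : ℝ} (he : 0 ≤ e) (hs : 0 < s) {t : ℝ} (ht : t ∈ Ico (0 : ℝ) 1) :
    dens e (tp e s) t ≤ s := by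
  have h1t : 0 < 1 - t := by linarith [ht.2]
  rcases eq_or_lt_of_le he with h | h
  · subst h
    unfold dens tp
    simp
  · have hne : e ≠ 0 := h.ne'
    unfold dens tp
    rw [if_neg hne]
    rcases le_total (1 / s) ((1 - t) / e) with hc | hc
    · rw [min_eq_left hc, one_div_one_div]
      have : 0 ≤ e / (1 - t) := by positivity
      linarith
    · rw [min_eq_right hc, one_div_div]
      linarith

lemma tp_Ent_le {e s : ℝ} (he : 0 ≤ e) (hs : 0 < s) : Ent e (tp e s) ≤ ENNReal.ofReal s := by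
  unfold Ent
  calc ∫⁻ t in Ico (0 : ℝ) 1, ENNReal.ofReal (dens e (tp e s) t)
      ≤ ∫⁻ _ in Ico (0 : ℝ) 1, ENNReal.ofReal s :=
        setLIntegral_mono' measurableSet_Ico fun t ht => ENNReal.ofReal_le_ofReal (tp_dens_le he hs ht)
    _ = ENNReal.ofReal s := by simp

lemma tp_Ad {e s : ℝ} (he : 0 ≤ e) (hs : 0 < s) : Ad e (tp e s) :=
  ⟨tp_PD he hs, ne_top_of_le_ne_top ENNReal.ofReal_ne_top (tp_Ent_le he hs)⟩

lemma tp_zero_le {e s : ℝ} (hs : 0 < s) : tp e s 0 ≤ 1 / s := by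
  unfold tp
  split_ifs
  · exact le_rfl
  · exact min_le_left _ _

lemma G_tp_le (F : Frame H) {e s : ℝ} (he : 0 ≤ e) (hs : 0 < s) (x : H) :
    G F e x (tp e s) ≤ (‖x‖ ^ 2 / s + s) / 2 := by
  unfold G
  have h1 := Q_le F (tp_PD he hs).isAnti x
  have h2 : tp e s 0 * ‖x‖ ^ 2 ≤ 1 / s * ‖x‖ ^ 2 :=
    mul_le_mul_of_nonneg_right (tp_zero_le hs) (sq_nonneg _)
  have h3 : (Ent e (tp e s)).toReal ≤ s := ENNReal.toReal_le_of_le_ofReal hs.le (tp_Ent_le he hs)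
  have h4 : 1 / s * ‖x‖ ^ 2 = ‖x‖ ^ 2 / s := by ring
  linarith

lemma Phi_bdd (F : Frame H) (e : ℝ) (x : H) : BddBelow {r : ℝ | ∃ D, Ad e D ∧ r = G F e x D} :=
  ⟨0, by rintro _ ⟨D, hD, rfl⟩; exact G_nonneg F x hD⟩

lemma Phi_nonempty (F : Frame H) {e : ℝ} (he : 0 ≤ e) (x : H) :
    {r : ℝ | ∃ D, Ad e D ∧ r = G F e x D}.Nonempty :=
  ⟨_, tp e 1, tp_Ad he one_pos, rfl⟩

lemma Phi_le (F : Frame H) {e : ℝ} (x : H) {D : ℝ → ℝ} (h : Ad e D) : Phi F e x ≤ G F e x D :=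
  csInf_le (Phi_bdd F e x) ⟨D, h, rfl⟩

lemma Phi_nonneg (F : Frame H) {e : ℝ} (he : 0 ≤ e) (x : H) : 0 ≤ Phi F e x :=
  le_csInf (Phi_nonempty F he x) (by rintro _ ⟨D, hD, rfl⟩; exact G_nonneg F x hD)

lemma exists_near (F : Frame H) {e : ℝ} (he : 0 ≤ e) (x : H) {ε : ℝ} (hε : 0 < ε) :
    ∃ D, Ad e D ∧ G F e x D < Phi F e x + ε := by
  obtain ⟨_, ⟨D, hD, rfl⟩, hlt⟩ := exists_lt_of_csInf_lt (Phi_nonempty F he x)
    (show sInf _ < Phi F e x + ε by unfold Phi; linarith)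
  exact ⟨D, hD, hlt⟩

lemma Phi_le_norm (F : Frame H) {e : ℝ} (he : 0 ≤ e) (x : H) : Phi F e x ≤ ‖x‖ := by
  have key : ∀ s : ℝ, 0 < s → Phi F e x ≤ (‖x‖ ^ 2 / s + s) / 2 := fun s hs =>
    (Phi_le F x (tp_Ad he hs)).trans (G_tp_le F he hs x)
  by_cases h0 : ‖x‖ = 0
  · rw [h0]
    refine le_of_forall_pos_le_add fun ε hε => ?_
    have := key (2 * ε) (by positivity)
    rw [h0] at this
    norm_num at this
    linarith
  · have hpos : 0 < ‖x‖ := lt_of_le_of_ne (norm_nonneg x) (Ne.symm h0)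
    have := key _ hpos
    have e1 : (‖x‖ ^ 2 / ‖x‖ + ‖x‖) / 2 = ‖x‖ := by field_simp; ring
    rwa [e1] at this

/-- joint convexity, reduced -/
lemma G_hm (F : Frame H) {e : ℝ} (he : 0 ≤ e) {D₁ D₂ : ℝ → ℝ} (h₁ : Ad e D₁) (h₂ : Ad e D₂)
    (x y : H) : G F e ((1 / 2 : ℝ) • (x + y)) (hm D₁ D₂) ≤ (G F e x D₁ + G F e y D₂) / 2 := by
  unfold G
  have a := Q_hm F h₁.1.anti h₂.1.anti h₁.1.pos h₂.1.pos x y
  have b := Ent_hm he h₁.1 h₂.1 h₁.2 h₂.2
  rw [b]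
  linarith

lemma Ad_hm {e : ℝ} (he : 0 ≤ e) {D₁ D₂ : ℝ → ℝ} (h₁ : Ad e D₁) (h₂ : Ad e D₂) :
    Ad e (hm D₁ D₂) := ⟨h₁.1.hm he h₂.1, Ent_hm_ne_top he h₁.1 h₂.1 h₁.2 h₂.2⟩

lemma Phi_mid (F : Frame H) {e : ℝ} (he : 0 ≤ e) (x y : H) :
    Phi F e ((1 / 2 : ℝ) • (x + y)) ≤ (Phi F e x + Phi F e y) / 2 := by
  refine le_of_forall_pos_le_add fun ε hε => ?_
  obtain ⟨D₁, h₁, g₁⟩ := exists_near F he x hε
  obtain ⟨D₂, h₂, g₂⟩ := exists_near F he y hε
  have := Phi_le F ((1 / 2 : ℝ) • (x + y)) (Ad_hm he h₁ h₂)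
  have := G_hm F he h₁ h₂ x y
  linarith

/-- a midpoint convex function with `F x ≤ L‖x‖` is `L`-Lipschitz -/
lemma lip_of_mid {f : H → ℝ} (hf : ∀ x y, f ((1 / 2 : ℝ) • (x + y)) ≤ (f x + f y) / 2) {L : ℝ}
    (hL : 0 ≤ L) (hle : ∀ x, f x ≤ L * ‖x‖) (x y : H) : f y - f x ≤ L * ‖y - x‖ := by
  have step : ∀ n : ℕ, f y ≤ (1 - (1 / 2 : ℝ) ^ n) * f x +
      (1 / 2 : ℝ) ^ n * f (x + (2 : ℝ) ^ n • (y - x)) := by
    intro n
    induction n with
    | zero => simp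
    | succ n ih =>
      have h1 := hf x (x + (2 : ℝ) ^ (n + 1) • (y - x))
      have e1 : (1 / 2 : ℝ) • (x + (x + (2 : ℝ) ^ (n + 1) • (y - x))) =
          x + (2 : ℝ) ^ n • (y - x) := by
        rw [← add_assoc, smul_add, smul_smul, pow_succ, ← two_smul ℝ x, smul_smul]
        have e2 : (1 / 2 : ℝ) * (2 ^ n * 2) = 2 ^ n := by ring
        rw [e2]
        norm_num
      rw [e1] at h1
      have hp : (0 : ℝ) < (1 / 2 : ℝ) ^ n := by positivity
      have h2 := mul_le_mul_of_nonneg_left h1 hp.le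
      rw [pow_succ (1 / 2 : ℝ) n]
      nlinarith
  have key : ∀ n : ℕ, f y - f x ≤ (L * ‖x‖ - f x) * (1 / 2 : ℝ) ^ n + L * ‖y - x‖ := by
    intro n
    have h1 := step n
    have h2 := hle (x + (2 : ℝ) ^ n • (y - x))
    have h3 : ‖x + (2 : ℝ) ^ n • (y - x)‖ ≤ ‖x‖ + 2 ^ n * ‖y - x‖ := by
      refine (norm_add_le _ _).trans ?_
      rw [norm_smul, Real.norm_of_nonneg (by positivity)]
    have hp : (0 : ℝ) < (1 / 2 : ℝ) ^ n := by positivity
    have h4 : (1 / 2 : ℝ) ^ n * f (x + (2 : ℝ) ^ n • (y - x)) ≤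
        (1 / 2 : ℝ) ^ n * (L * (‖x‖ + 2 ^ n * ‖y - x‖)) :=
      mul_le_mul_of_nonneg_left (h2.trans (mul_le_mul_of_nonneg_left h3 hL)) hp.le
    have h5 : (1 / 2 : ℝ) ^ n * (L * (‖x‖ + 2 ^ n * ‖y - x‖)) =
        L * ‖x‖ * (1 / 2 : ℝ) ^ n + L * ‖y - x‖ * ((1 / 2 : ℝ) ^ n * 2 ^ n) := by ring
    have h6 : (1 / 2 : ℝ) ^ n * 2 ^ n = 1 := by rw [← mul_pow]; norm_num
    rw [h6] at h5
    nlinarith
  have hlim : Tendsto (fun n : ℕ => (L * ‖x‖ - f x) * (1 / 2 : ℝ) ^ n + L * ‖y - x‖) atTop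
      (𝓝 ((L * ‖x‖ - f x) * 0 + L * ‖y - x‖)) := by
    refine Tendsto.add (Tendsto.const_mul _ ?_) tendsto_const_nhds
    exact tendsto_pow_atTop_nhds_zero_of_lt_one (by norm_num) (by norm_num)
  rw [mul_zero, zero_add] at hlim
  exact ge_of_tendsto' hlim key

lemma abs_Phi_sub_le (F : Frame H) {e : ℝ} (he : 0 ≤ e) (x y : H) :
    |Phi F e x - Phi F e y| ≤ ‖x - y‖ := by
  have hle : ∀ z : H, Phi F e z ≤ 1 * ‖z‖ := fun z => by simpa using Phi_le_norm F he z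
  have h1 := lip_of_mid (Phi_mid F he) zero_le_one hle x y
  have h2 := lip_of_mid (Phi_mid F he) zero_le_one hle y x
  rw [one_mul] at h1 h2
  rw [norm_sub_rev] at h1
  rw [abs_le]
  constructor <;> linarith

lemma continuous_Phi (F : Frame H) {e : ℝ} (he : 0 ≤ e) : Continuous (Phi F e) := by
  have : LipschitzWith 1 (Phi F e) := by
    refine LipschitzWith.of_dist_le_mul fun x y => ?_
    rw [Real.dist_eq, dist_eq_norm]
    simpa using abs_Phi_sub_le F he x y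
  exact this.continuous

/-! ### lower bound of the form at a positive time -/

lemma Q_ge_at (F : Frame H) {D : ℝ → ℝ} (h : IsAnti D) {r r' : ℝ} (hr : 0 ≤ r) (hrr : r < r')
    (hr1 : r' < 1) (x : H) : D r' * ‖F.E r x‖ ^ 2 ≤ Q F D x := by
  obtain ⟨n, hn⟩ := exists_pow_lt_of_lt_one (sub_pos.2 hrr) (by norm_num : (1 / 2 : ℝ) < 1)
  refine le_trans ?_ (Qs_le_Q F h n x)
  -- the grid point `k` just above `r`
  set k := ⌈r * 2 ^ n⌉₊ with hk
  have h2n : (0 : ℝ) < 2 ^ n := by positivity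
  have hk1 : r ≤ pt n k := by
    unfold pt
    rw [le_div_iff₀ h2n]
    exact Nat.le_ceil _
  have hk2 : pt n k ≤ r' := by
    unfold pt
    rw [div_le_iff₀ h2n]
    have := (Nat.ceil_lt_add_one (mul_nonneg hr h2n.le)).le
    refine this.trans ?_
    have h3 : (1 / 2 : ℝ) ^ n * 2 ^ n = 1 := by rw [← mul_pow]; norm_num
    nlinarith
  have hkN : k < 2 ^ n := by
    have : pt n k < 1 := lt_of_le_of_lt hk2 hr1
    unfold pt at this
    rw [div_lt_one h2n] at this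
    exact_mod_cast this
  have hkm : k ≤ 2 ^ n - 1 := by omega
  have hDk : ∀ i, i ≤ k → D r' ≤ D (pt n i) := by
    intro i hi
    refine h.anti (pt_mem (lt_of_le_of_lt hi hkN)) ⟨hr.trans hrr.le, hr1⟩ ?_
    exact (pt_mono n hi).trans hk2
  have hr'0 : 0 ≤ D r' := h.nonneg _ ⟨hr.trans hrr.le, hr1⟩
  have hsum : ∀ m : ℕ, ‖F.E 0 x‖ ^ 2 +
      ∑ i ∈ Finset.range m, ‖F.E (pt n (i + 1)) x - F.E (pt n i) x‖ ^ 2 =
        ‖F.E (pt n m) x‖ ^ 2 := by
    intro m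
    induction m with
    | zero => simp [pt_zero]
    | succ m ih =>
      rw [Finset.sum_range_succ, ← add_assoc, ih, F.pyth _ _ (pt_mono n (Nat.le_succ m))]
      ring
  unfold Qs
  have s1 : ∑ i ∈ Finset.range k, D r' * ‖F.E (pt n (i + 1)) x - F.E (pt n i) x‖ ^ 2 ≤
      ∑ i ∈ Finset.range (2 ^ n - 1), D (pt n (i + 1)) *
        ‖F.E (pt n (i + 1)) x - F.E (pt n i) x‖ ^ 2 := by
    refine (Finset.sum_le_sum fun i hi => ?_).trans
      (Finset.sum_le_sum_of_subset_of_nonneg (Finset.range_mono hkm) fun i hi _ => ?_)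
    · exact mul_le_mul_of_nonneg_right (hDk _ (Finset.mem_range.1 hi)) (sq_nonneg _)
    · exact mul_nonneg (h.nonneg _ (mem_of_range hi)) (sq_nonneg _)
  have s2 : D r' * ‖F.E 0 x‖ ^ 2 ≤ D 0 * ‖F.E 0 x‖ ^ 2 := by
    refine mul_le_mul_of_nonneg_right ?_ (sq_nonneg _)
    have := hDk 0 (Nat.zero_le k)
    rwa [pt_zero] at this
  rw [← Finset.mul_sum] at s1
  have s3 : ‖F.E r x‖ ^ 2 ≤ ‖F.E (pt n k) x‖ ^ 2 :=
    pow_le_pow_left₀ (norm_nonneg _) (F.norm_E_mono _ _ hk1 x) 2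
  have s4 := hsum k
  calc D r' * ‖F.E r x‖ ^ 2 ≤ D r' * ‖F.E (pt n k) x‖ ^ 2 := mul_le_mul_of_nonneg_left s3 hr'0
    _ = D r' * ‖F.E 0 x‖ ^ 2 +
        D r' * ∑ i ∈ Finset.range k, ‖F.E (pt n (i + 1)) x - F.E (pt n i) x‖ ^ 2 := by
      rw [← s4]; ring
    _ ≤ _ := add_le_add s2 s1

lemma exists_E_ne (F : Frame H) {x : H} (hx : x ≠ 0) :
    ∃ r : ℝ, 0 ≤ r ∧ r < 1 ∧ 0 < ‖F.E r x‖ := by
  have h1 := (F.tendsto_one x).norm.eventually (Ioi_mem_nhds (norm_pos_iff.2 hx))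
  have h2 : ∀ᶠ t in 𝓝[<] (1 : ℝ), 0 < t := by
    have : Ioi (0 : ℝ) ∈ 𝓝[<] (1 : ℝ) := mem_nhdsWithin_of_mem_nhds (Ioi_mem_nhds one_pos)
    exact this
  obtain ⟨r, ⟨hr1, hr2⟩, hr3⟩ := ((h1.and h2).and self_mem_nhdsWithin).exists
  exact ⟨r, hr2.le, hr3, hr1⟩

/-- uniform bounds along a family with bounded energy -/
lemma bounds_of_energy (F : Frame H) {e : ℝ} (he : 0 ≤ e) {ι : Type*} {l : Filter ι} {x : ι → H}
    {x₀ : H} (hx : Tendsto x l (𝓝 x₀)) (hne : e = 0 → x₀ ≠ 0) {D : ι → ℝ → ℝ}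
    (hD : ∀ᶠ i in l, Ad e (D i)) {A : ℝ} (hA : 0 < A) (hG : ∀ᶠ i in l, G F e (x i) (D i) ≤ A) :
    ∃ c C : ℝ, 0 < c ∧ (∀ᶠ i in l, ∀ t ∈ Ico (0 : ℝ) 1, c * (1 - t) ≤ D i t) ∧
      (∀ᶠ i in l, D i 0 ≤ C) := by
  refine ⟨1 / (4 * (2 * A + e)), ?_⟩
  have hlow : ∀ᶠ i in l, ∀ t ∈ Ico (0 : ℝ) 1, 1 / (4 * (2 * A + e)) * (1 - t) ≤ D i t := by
    filter_upwards [hD, hG] with i hi hg t ht
    have hQ := Q_nonneg F hi.1.isAnti (x i)
    have hE : Ent e (D i) ≤ ENNReal.ofReal (2 * A) := by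
      rw [← ENNReal.ofReal_toReal hi.2]
      refine ENNReal.ofReal_le_ofReal ?_
      unfold G at hg
      linarith
    have := hi.1.lower he (show 0 < 2 * A by positivity) hE ht
    calc 1 / (4 * (2 * A + e)) * (1 - t) = (1 - t) / (4 * (2 * A + e)) := by ring
      _ ≤ D i t := this
  by_cases h0 : e = 0
  · obtain ⟨r, hr0, hr1, hr⟩ := exists_E_ne F (hne h0)
    set a := ‖F.E r x₀‖ with ha
    set r' := (r + 1) / 2 with hr'
    have hrr' : r < r' := by rw [hr']; linarith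
    have hr'1 : r' < 1 := by rw [hr']; linarith
    refine ⟨8 * A / (a ^ 2 * (1 - r')), by positivity, hlow, ?_⟩
    have hlim : Tendsto (fun i => ‖F.E r (x i)‖) l (𝓝 a) :=
      (((F.E r).continuous.tendsto x₀).comp hx).norm
    have hev := hlim.eventually (Ioi_mem_nhds (show a / 2 < a by linarith))
    filter_upwards [hD, hG, hev] with i hi hg hai
    have hai' : a / 2 < ‖F.E r (x i)‖ := hai
    have h1 := Q_ge_at F hi.1.isAnti hr0 hrr' hr'1 (x i)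
    have h2 : Q F (D i) (x i) ≤ 2 * A := by
      unfold G at hg
      have := ENNReal.toReal_nonneg (a := Ent e (D i))
      linarith
    have hDr : 0 < D i r' := hi.1.pos _ ⟨by linarith, hr'1⟩
    have h3 : (a / 2) ^ 2 ≤ ‖F.E r (x i)‖ ^ 2 := pow_le_pow_left₀ (by positivity) hai'.le 2
    have h4 : D i r' * (a / 2) ^ 2 ≤ 2 * A :=
      (mul_le_mul_of_nonneg_left h3 hDr.le).trans (h1.trans h2)
    have h5 := hi.1.ge_zero (t := r') ⟨by linarith, hr'1⟩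
    have h1r : 0 < 1 - r' := by linarith
    rw [le_div_iff₀ (by positivity)]
    nlinarith [mul_le_mul_of_nonneg_left h5 (sq_nonneg a)]
  · have hpos : 0 < e := lt_of_le_of_ne he (Ne.symm h0)
    refine ⟨1 / e, by positivity, hlow, ?_⟩
    filter_upwards [hD] with i hi
    have := hi.1.cap 0 zero_mem_Ico
    rw [le_div_iff₀ hpos]
    linarith

/-- compactness of energy-bounded families along an ultrafilter, with lower semicontinuity -/
theorem limit_of_energy [CompleteSpace H] (F : Frame H) {e : ℝ} (he : 0 ≤ e) {ι : Type*}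
    (U : Ultrafilter ι) {x : ι → H} {x₀ : H} (hx : Tendsto x U (𝓝 x₀)) (hne : e = 0 → x₀ ≠ 0)
    {D : ι → ℝ → ℝ} (hD : ∀ᶠ i in (U : Filter ι), Ad e (D i)) {g : ι → ℝ} {A : ℝ}
    (hg : Tendsto g U (𝓝 A)) (hG : ∀ᶠ i in (U : Filter ι), G F e (x i) (D i) ≤ g i) :
    ∃ D₀ : ℝ → ℝ, Ad e D₀ ∧ (∀ t ∈ Ico (0 : ℝ) 1, Tendsto (fun i => D i t) U (𝓝 (D₀ t))) ∧
      G F e x₀ D₀ ≤ A := by
  have hA1 : ∀ᶠ i in (U : Filter ι), G F e (x i) (D i) ≤ |A| + 1 := by
    have := hg.eventually (Iio_mem_nhds (show A < |A| + 1 by linarith [le_abs_self A]))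
    filter_upwards [this, hG] with i h1 h2
    exact h2.trans h1.le
  obtain ⟨c, C, hc, hlow, hup⟩ := bounds_of_energy F he hx hne hD
    (show 0 < |A| + 1 by positivity) hA1
  obtain ⟨D₀, hP₀, hlim, _, _⟩ := exists_limit_profile U (e := e) hc
    (hD.mono fun i hi => hi.1) hlow hup
  have hQlim : Tendsto (fun i => Q F (D i) (x i)) U (𝓝 (Q F D₀ x₀)) :=
    tendsto_Q_of F hlim (hD.mono fun i hi => hi.1.isAnti) hP₀.isAnti hP₀.continuousOn hx
  have hEnt : Ent e D₀ ≤ ENNReal.ofReal (2 * A - Q F D₀ x₀) := by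
    refine Ent_le_of_tendsto hlim (hD.mono fun i hi => hi.1) hP₀
      (a := fun i => 2 * g i - Q F (D i) (x i)) ((hg.const_mul 2).sub hQlim) ?_ ?_
    · filter_upwards [hD, hG] with i hi hgi
      rw [← ENNReal.ofReal_toReal hi.2]
      refine ENNReal.ofReal_le_ofReal ?_
      unfold G at hgi
      linarith
    · filter_upwards [hD, hG] with i hi hgi
      unfold G at hgi
      have := ENNReal.toReal_nonneg (a := Ent e (D i))
      linarith
  have hnn : 0 ≤ 2 * A - Q F D₀ x₀ := by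
    refine ge_of_tendsto ((hg.const_mul 2).sub hQlim) ?_
    filter_upwards [hD, hG] with i hi hgi
    unfold G at hgi
    have := ENNReal.toReal_nonneg (a := Ent e (D i))
    linarith
  refine ⟨D₀, ⟨hP₀, ne_top_of_le_ne_top ENNReal.ofReal_ne_top hEnt⟩, hlim, ?_⟩
  have h2 := ENNReal.toReal_le_of_le_ofReal hnn hEnt
  unfold G
  linarith

/-- existence of the optimal profile at fixed `x` -/
theorem exists_profile [CompleteSpace H] (F : Frame H) {e : ℝ} (he : 0 ≤ e) {x : H}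
    (hne : e = 0 → x ≠ 0) : ∃ D, Ad e D ∧ G F e x D = Phi F e x := by
  have hex : ∀ n : ℕ, ∃ D, Ad e D ∧ G F e x D < Phi F e x + 1 / ((n : ℝ) + 1) := fun n =>
    exists_near F he x (by positivity)
  choose D hD hG using hex
  have hg : Tendsto (fun n : ℕ => Phi F e x + 1 / ((n : ℝ) + 1)) (hyperfilter ℕ)
      (𝓝 (Phi F e x + 0)) := by
    refine Tendsto.mono_left ?_ (Nat.hyperfilter_le_atTop)
    exact tendsto_const_nhds.add tendsto_one_div_add_atTop_nhds_zero_nat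
  rw [add_zero] at hg
  obtain ⟨D₀, h₀, _, hle⟩ := limit_of_energy F he (hyperfilter ℕ) (x := fun _ => x) (x₀ := x)
    tendsto_const_nhds hne (D := D) (Eventually.of_forall hD) hg
    (Eventually.of_forall fun n => (hG n).le)
  exact ⟨D₀, h₀, le_antisymm hle (Phi_le F x h₀)⟩

/-- uniqueness of the optimal profile at fixed `x` -/
theorem unique_profile (F : Frame H) {e : ℝ} {x : H} {D₁ D₂ : ℝ → ℝ} (h₁ : Ad e D₁)
    (h₂ : Ad e D₂) (hm₁ : G F e x D₁ ≤ Phi F e x) (hm₂ : G F e x D₂ ≤ Phi F e x) :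
    ∀ t ∈ Ico (0 : ℝ) 1, D₁ t = D₂ t := by
  by_contra hcon
  push Not at hcon
  obtain ⟨t₀, ht₀, hne⟩ := hcon
  have hlt := Ent_mean_lt h₁.1 h₂.1 h₁.2 h₂.2 ht₀ hne
  have hAd : Ad e (fun t => 1 / 2 * (D₁ t + D₂ t)) :=
    ⟨h₁.1.mean h₂.1, Ent_mean_ne_top h₁.1 h₂.1 h₁.2 h₂.2⟩
  have hle := Phi_le F x hAd
  have hQ : Q F (fun t => 1 / 2 * (D₁ t + D₂ t)) x = (Q F D₁ x + Q F D₂ x) / 2 := by
    rw [Q_smulD F (h₁.1.isAnti.add h₂.1.isAnti) (by norm_num), Q_addD F h₁.1.isAnti h₂.1.isAnti]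
    ring
  unfold G at hle hm₁ hm₂
  rw [hQ] at hle
  linarith

/-- the optimal profile depends continuously on `x`, and near-optimal profiles are close to it -/
theorem tendsto_profile [CompleteSpace H] (F : Frame H) {e : ℝ} (he : 0 ≤ e) {ι : Type*}
    {l : Filter ι} {x : ι → H} {x₀ : H} (hx : Tendsto x l (𝓝 x₀)) (hne : e = 0 → x₀ ≠ 0)
    {D : ι → ℝ → ℝ} (hD : ∀ᶠ i in l, Ad e (D i)) {g : ι → ℝ}
    (hg : Tendsto g l (𝓝 (Phi F e x₀))) (hG : ∀ᶠ i in l, G F e (x i) (D i) ≤ g i)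
    {D₀ : ℝ → ℝ} (h₀ : Ad e D₀) (hm₀ : G F e x₀ D₀ ≤ Phi F e x₀) :
    ∀ t ∈ Ico (0 : ℝ) 1, Tendsto (fun i => D i t) l (𝓝 (D₀ t)) := by
  intro t ht
  rw [tendsto_iff_ultrafilter]
  intro U hU
  obtain ⟨D₁, h₁, hlim, hle⟩ := limit_of_energy F he U (hx.mono_left hU) hne (hU hD)
    (hg.mono_left hU) (hU hG)
  have := unique_profile F h₁ h₀ hle hm₀ t ht
  rw [← this]
  exact hlim t ht

/-! ### the joint problem -/

/-- the joint functional -/
noncomputable def J (F : Frame H) (ξ : H) (α c e : ℝ) (x : H) (D : ℝ → ℝ) : ℝ :=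
  α * inner ℝ x ξ + α * c / 2 * ‖x‖ ^ 2 + α / 2 * Q F D x + (Ent e D).toReal / 2

/-- the reduced functional of `x` -/
noncomputable def Jr (F : Frame H) (ξ : H) (α c e : ℝ) (x : H) : ℝ :=
  α * inner ℝ x ξ + α * c / 2 * ‖x‖ ^ 2 + Phi F e (Real.sqrt α • x)

lemma J_eq (F : Frame H) (ξ : H) {α c e : ℝ} (hα : 0 ≤ α) (x : H) {D : ℝ → ℝ} (h : Ad e D) :
    J F ξ α c e x D = α * inner ℝ x ξ + α * c / 2 * ‖x‖ ^ 2 + G F e (Real.sqrt α • x) D := by
  unfold J G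
  rw [Q_smul F h.1.isAnti, Real.sq_sqrt hα]
  ring

lemma Jr_le_J (F : Frame H) (ξ : H) {α c e : ℝ} (hα : 0 ≤ α) (x : H) {D : ℝ → ℝ} (h : Ad e D) :
    Jr F ξ α c e x ≤ J F ξ α c e x D := by
  rw [J_eq F ξ hα x h]
  unfold Jr
  have := Phi_le F (Real.sqrt α • x) h
  linarith

lemma Jr_midStrong (F : Frame H) (ξ : H) {α c e : ℝ} (he : 0 ≤ e) (K : Set H) :
    MidStrong K (α * c) (Jr F ξ α c e) := by
  intro x _ y _
  unfold Jr
  have h1 := Phi_mid F he (Real.sqrt α • x) (Real.sqrt α • y)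
  have e1 : (1 / 2 : ℝ) • (Real.sqrt α • x + Real.sqrt α • y) =
      Real.sqrt α • ((1 / 2 : ℝ) • (x + y)) := by
    rw [← smul_add, smul_comm]
  rw [e1] at h1
  rw [norm_mid_sq, real_inner_smul_left, inner_add_left]
  nlinarith

lemma continuous_Jr (F : Frame H) (ξ : H) {α c e : ℝ} (he : 0 ≤ e) :
    Continuous (Jr F ξ α c e) := by
  unfold Jr
  have h := (continuous_Phi F he).comp (continuous_const_smul (Real.sqrt α) (T := H))
  have h2 : Continuous fun x : H => Phi F e (Real.sqrt α • x) := h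
  fun_prop

lemma Jr_bdd (F : Frame H) (ξ : H) {α c e : ℝ} (hα : 0 < α) (hc : 0 < c) (he : 0 ≤ e) (x : H) :
    -(α / (2 * c)) * ‖ξ‖ ^ 2 ≤ Jr F ξ α c e x := by
  unfold Jr
  have h1 := Phi_nonneg F he (Real.sqrt α • x)
  have h2 := (abs_le.1 (abs_real_inner_le_norm x ξ)).1
  have h3 : 0 ≤ (c * ‖x‖ - ‖ξ‖) ^ 2 := sq_nonneg _
  have h4 : -(1 / (2 * c)) * ‖ξ‖ ^ 2 ≤ inner ℝ x ξ + c / 2 * ‖x‖ ^ 2 := by
    have : -(1 / (2 * c)) * ‖ξ‖ ^ 2 ≤ -(‖x‖ * ‖ξ‖) + c / 2 * ‖x‖ ^ 2 := by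
      have e1 : -(‖x‖ * ‖ξ‖) + c / 2 * ‖x‖ ^ 2 - -(1 / (2 * c)) * ‖ξ‖ ^ 2 =
          (c * ‖x‖ - ‖ξ‖) ^ 2 / (2 * c) := by field_simp; ring
      have e2 : 0 ≤ (c * ‖x‖ - ‖ξ‖) ^ 2 / (2 * c) := by positivity
      linarith
    linarith
  have h5 := mul_le_mul_of_nonneg_left h4 hα.le
  have e3 : α * (-(1 / (2 * c)) * ‖ξ‖ ^ 2) = -(α / (2 * c)) * ‖ξ‖ ^ 2 := by ring
  have e4 : α * (inner ℝ x ξ + c / 2 * ‖x‖ ^ 2) = α * inner ℝ x ξ + α * c / 2 * ‖x‖ ^ 2 := by ring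
  linarith

/-- existence of the minimiser of the reduced functional -/
theorem exists_x [CompleteSpace H] (F : Frame H) (ξ : H) {α c e : ℝ} (hα : 0 < α) (hc : 0 < c)
    (he : 0 ≤ e) {K : Set H} (hK : Convex ℝ K) (hKc : IsClosed K) (hKn : K.Nonempty) :
    ∃ x ∈ K, ∀ y ∈ K, Jr F ξ α c e x ≤ Jr F ξ α c e y :=
  exists_min hK hKc hKn (mul_pos hα hc) (Jr_midStrong F ξ he K)
    (continuous_Jr F ξ he).continuousOn ⟨_, fun x _ => Jr_bdd F ξ hα hc he x⟩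

/-- `(x₀, D₀)` is a minimising pair -/
def IsMinPair (F : Frame H) (ξ : H) (α c e : ℝ) (K : Set H) (x₀ : H) (D₀ : ℝ → ℝ) : Prop :=
  x₀ ∈ K ∧ Ad e D₀ ∧ ∀ y ∈ K, ∀ D, Ad e D → J F ξ α c e x₀ D₀ ≤ J F ξ α c e y D

lemma J_le_Jr_add [CompleteSpace H] (F : Frame H) (ξ : H) {α c e : ℝ} (hα : 0 ≤ α) (he : 0 ≤ e)
    (x : H) {ε : ℝ} (hε : 0 < ε) : ∃ D, Ad e D ∧ J F ξ α c e x D < Jr F ξ α c e x + ε := by
  obtain ⟨D, hD, hlt⟩ := exists_near F he (Real.sqrt α • x) hε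
  refine ⟨D, hD, ?_⟩
  rw [J_eq F ξ hα x hD]
  unfold Jr
  linarith

lemma IsMinPair.reduced [CompleteSpace H] {F : Frame H} {ξ : H} {α c e : ℝ} {K : Set H} {x₀ : H}
    {D₀ : ℝ → ℝ} (h : IsMinPair F ξ α c e K x₀ D₀) (hα : 0 ≤ α) (he : 0 ≤ e) :
    (∀ y ∈ K, Jr F ξ α c e x₀ ≤ Jr F ξ α c e y) ∧ J F ξ α c e x₀ D₀ = Jr F ξ α c e x₀ := by
  have key : ∀ y ∈ K, J F ξ α c e x₀ D₀ ≤ Jr F ξ α c e y := fun y hy => by
    refine le_of_forall_pos_le_add fun ε hε => ?_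
    obtain ⟨D, hD, hlt⟩ := J_le_Jr_add F ξ (c := c) hα he y hε
    exact (h.2.2 y hy D hD).trans hlt.le
  have h1 := Jr_le_J F ξ (c := c) hα x₀ h.2.1
  exact ⟨fun y hy => h1.trans (key y hy), le_antisymm (key x₀ h.1) h1⟩



/-- stability of near-minimisers in `x` -/
theorem stab_pair [CompleteSpace H] (F : Frame H) (ξ : H) {α c e : ℝ} (hα : 0 ≤ α)
    (he : 0 ≤ e) {K : Set H} (hK : Convex ℝ K) {x₀ : H} {D₀ : ℝ → ℝ}
    (h₀ : IsMinPair F ξ α c e K x₀ D₀) {x : H} (hx : x ∈ K) {D : ℝ → ℝ} (hD : Ad e D) :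
    α * c / 4 * ‖x - x₀‖ ^ 2 ≤ J F ξ α c e x D - J F ξ α c e x₀ D₀ := by
  have r := h₀.reduced hα he
  have h1 := StrConv_952.stab hK (Jr_midStrong F ξ (α := α) (c := c) he K) h₀.1 r.1 hx
  have h2 := Jr_le_J F ξ (c := c) hα x hD
  rw [r.2]
  linarith

/-- near-minimising families converge to the minimising pair -/
theorem tendsto_minPair [CompleteSpace H] (F : Frame H) (ξ : H) {α c e : ℝ} (hα : 0 < α)
    (hc : 0 < c) (he : 0 ≤ e) {K : Set H} (hK : Convex ℝ K) {x₀ : H} {D₀ : ℝ → ℝ}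
    (h₀ : IsMinPair F ξ α c e K x₀ D₀) (hne : e = 0 → x₀ ≠ 0) {ι : Type*} {l : Filter ι}
    {x : ι → H} {D : ι → ℝ → ℝ} (hx : ∀ᶠ i in l, x i ∈ K) (hD : ∀ᶠ i in l, Ad e (D i))
    {g : ι → ℝ} (hg : Tendsto g l (𝓝 (J F ξ α c e x₀ D₀)))
    (hJ : ∀ᶠ i in l, J F ξ α c e (x i) (D i) ≤ g i) :
    Tendsto x l (𝓝 x₀) ∧ ∀ t ∈ Ico (0 : ℝ) 1, Tendsto (fun i => D i t) l (𝓝 (D₀ t)) := by
  have hxt : Tendsto x l (𝓝 x₀) := by
    rw [tendsto_iff_norm_sub_tendsto_zero]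
    have hb : ∀ᶠ i in l, ‖x i - x₀‖ ≤ Real.sqrt (4 / (α * c) * (g i - J F ξ α c e x₀ D₀)) := by
      filter_upwards [hx, hD, hJ] with i h1 h2 h3
      have h4 := stab_pair F ξ hα.le he hK h₀ h1 h2
      refine Real.le_sqrt_of_sq_le ?_
      have hac : 0 < α * c := mul_pos hα hc
      have h5 : α * c / 4 * ‖x i - x₀‖ ^ 2 ≤ g i - J F ξ α c e x₀ D₀ := by linarith
      calc ‖x i - x₀‖ ^ 2 = 4 / (α * c) * (α * c / 4 * ‖x i - x₀‖ ^ 2) := by field_simp
        _ ≤ _ := mul_le_mul_of_nonneg_left h5 (by positivity)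
    have hlim : Tendsto (fun i => Real.sqrt (4 / (α * c) * (g i - J F ξ α c e x₀ D₀))) l (𝓝 0) := by
      have h1 : Tendsto (fun i => 4 / (α * c) * (g i - J F ξ α c e x₀ D₀)) l
          (𝓝 (4 / (α * c) * (J F ξ α c e x₀ D₀ - J F ξ α c e x₀ D₀))) :=
        (hg.sub_const _).const_mul _
      rw [sub_self, mul_zero] at h1
      have h2 := (Real.continuous_sqrt.tendsto 0).comp h1
      rwa [Real.sqrt_zero] at h2
    exact tendsto_of_tendsto_of_tendsto_of_le_of_le' tendsto_const_nhds hlim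
      (Eventually.of_forall fun i => norm_nonneg _) hb
  refine ⟨hxt, ?_⟩
  have r := h₀.reduced hα.le he
  have g₀ : G F e (Real.sqrt α • x₀) D₀ ≤ Phi F e (Real.sqrt α • x₀) := by
    have := r.2
    rw [J_eq F ξ hα.le x₀ h₀.2.1] at this
    unfold Jr at this
    linarith
  have hlin : Tendsto (fun i => α * inner ℝ (x i) ξ + α * c / 2 * ‖x i‖ ^ 2) l
      (𝓝 (α * inner ℝ x₀ ξ + α * c / 2 * ‖x₀‖ ^ 2)) := by
    refine Tendsto.add ?_ ?_
    · exact (hxt.inner tendsto_const_nhds).const_mul α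
    · exact (hxt.norm.pow 2).const_mul _
  refine tendsto_profile F he (x := fun i => Real.sqrt α • x i) (x₀ := Real.sqrt α • x₀)
    (hxt.const_smul _) (fun h => smul_ne_zero (Real.sqrt_pos.2 hα).ne' (hne h)) hD
    (g := fun i => g i - (α * inner ℝ (x i) ξ + α * c / 2 * ‖x i‖ ^ 2)) ?_ ?_ h₀.2.1 g₀
  · have := hg.sub hlin
    rw [r.2] at this
    unfold Jr at this
    rwa [add_sub_cancel_left] at this
  · filter_upwards [hD, hJ] with i h1 h2
    rw [J_eq F ξ hα.le (x i) h1] at h2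
    linarith

end Crest.Agent.R146.LimMin_952
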