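import Crest.Agent.R146.LimIbp_290
import Crest.Agent.R146.L2Alg_36

/-!
Row 146, node (L2) (helper290): the defect `rel` of `L2Alg_36` is the defect of the
Schwinger-Dyson relation `P_b = α (κ_b - P_b κ_*)` of the limit model.
-/

set_option autoImplicit false

namespace Crest.Agent.R146.LimRel_290

open Finset
open Crest.Agent.R146.S6Def_988 Crest.Agent.R146.RowDef_874 Crest.Agent.R146.LimIbp_290
open Crest.Agent.R146.L2Alg_36

noncomputable section

variable {J : ℕ} {f f1 f2 : ℝ → ℝ} {P : ℕ → ℝ}

/-- summation by parts up to the level `b`. -/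
theorem sum_swap_b (T : ℕ → ℝ) {b : ℕ} (hb : b ≤ J) : ∑ j ∈ range (b + 1), dJ J P j *
    ∑ l ∈ Ico j (J + 1), T l = ∑ l ∈ range (J + 1), P (min l b) * T l := by
  have h1 : ∀ j ∈ range (b + 1), dJ J P j * ∑ l ∈ Ico j (J + 1), T l =
      ∑ l ∈ range (J + 1), if j ≤ l then dJ J P j * T l else 0 := by
    intro j _
    rw [mul_sum, ← sum_filter]
    refine sum_congr ?_ fun _ _ => rfl
    ext l
    simp only [mem_Ico, mem_filter, mem_range]
    omega
  rw [sum_congr rfl h1, sum_comm]
  refine sum_congr rfl fun l hl => ?_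
  rw [mem_range] at hl
  rw [← sum_filter, ← sum_mul]
  congr 1
  have h2 : (range (b + 1)).filter (fun j => j ≤ l) = range (min l b + 1) := by
    ext j
    simp only [mem_filter, mem_range]
    omega
  rw [h2, sum_dJ, tP_succ' (by omega)]

/-- **the defect of the Schwinger-Dyson relation of the limit model**. -/
theorem rel_eq {C : ℝ} (h : S2 f f1 f2 C) (hP : Lev J P) (α : ℝ) {b : ℕ} (hb : b ≤ J) :
    rel J P (fun l => α * kapX J f P l f1 f1) b =
      P b - α * (kapX J f P b f1 (fun x => x) -
        P b * cX J f P (J + 2) (fun x => f1 x * x) 0 0) := by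
  rw [kapX_id h hP hb, kap_star h hP, sum_swap_b _ hb]
  unfold rel QT
  have e1 : ∑ l ∈ range (J + 1), P l * (α * kapX J f P l f1 f1) =
      α * ∑ l ∈ range (J + 1), P l * kapX J f P l f1 f1 := by
    rw [mul_sum]; exact sum_congr rfl fun l _ => by ring
  have e2 : ∑ l ∈ range (J + 1), P (min l b) * (α * kapX J f P l f1 f1) =
      α * ∑ l ∈ range (J + 1), P (min l b) * kapX J f P l f1 f1 := by
    rw [mul_sum]; exact sum_congr rfl fun l _ => by ring
  rw [e1, e2, one_div]
  ring




end

end Crest.Agent.R146.LimRel_290
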