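import Mathlib
import Crest.Prelude.Def_SphericalPressure
import Crest.Agent.R146.Deloc3_878
import Crest.Agent.R146.Lind2_878
import Crest.Agent.R146.P34_734
import Crest.Agent.R146.Assoc4_323

-- ▼ part R146/Deloc4_878
section

/-!
Row 146, node (F5), literal form: for every `ε ∈ [0,1)` and every bounded potential `φ` such that
`β φ` has three bounded derivatives, eventually
`expectedPressure N α β φ - η ≤ ∫ spherePressure N α β φ ∂(patternLawMix N α ε)`.
-/

set_option autoImplicit false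

open MeasureTheory Set ProbabilityTheory Filter Topology
open Crest.ProbabilityR.Perceptron

namespace Crest.Agent.R146L878

theorem expo_const {N : ℕ} {α : ℝ} (β : ℝ) (φ : ℝ → ℝ) (g : Patterns N α) (y : UnitSphere N) :
    expo (fun _ : Fin (numPatterns N α) => fun x => β * φ x) sv g y = β * potentialSum φ g y := by
  unfold expo potentialSum sv
  rw [Finset.mul_sum]

theorem spherePressure_eq {N : ℕ} [NeZero N] {α : ℝ} (β : ℝ) {φ : ℝ → ℝ} {K0 : ℝ}
    (hφ : Measurable φ) (hb : ∀ x, |β * φ x| ≤ K0) (g : Patterns N α) :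
    spherePressure N α β φ g
      = (logZ (sphereLaw N) (fun _ : Fin (numPatterns N α) => fun x => β * φ x) sv g
          - Real.log ((sphereLaw N).real univ)) / N := by
  have hσ : 0 < (sphereLaw N).real univ := sphereLaw_real_pos
  have hpos : 0 < ∫ y, Real.exp (expo (fun _ : Fin (numPatterns N α) => fun x => β * φ x) sv g y)
      ∂(sphereLaw N) :=
    int_exp_pos (fun _ => hφ.const_mul β) (fun _ x => (le_abs_self _).trans (hb x)) _ hσ
      measurable_sv g
  unfold spherePressure logZ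
  have : ∀ y, Real.exp (β * potentialSum φ g y)
      = Real.exp (expo (fun _ : Fin (numPatterns N α) => fun x => β * φ x) sv g y) := by
    intro y; rw [expo_const]
  simp only [this]
  rw [Real.log_div hpos.ne' hσ.ne']

/-- error term of the comparison -/
noncomputable def errF (α K0 C T : ℝ) (N : ℕ) : ℝ :=
  (Real.log 2 + 4 * α * K0 * C16) / N + α * C * T * (N : ℝ) ^ (-(1 / 8) : ℝ)

theorem errF_tendsto (α K0 C T : ℝ) : Tendsto (errF α K0 C T) atTop (𝓝 0) := by
  unfold errF
  have h1 : Tendsto (fun N : ℕ => (Real.log 2 + 4 * α * K0 * C16) / (N : ℝ)) atTop (𝓝 0) :=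
    tendsto_const_div_atTop_nhds_zero_nat _
  have h2 : Tendsto (fun N : ℕ => (N : ℝ) ^ (-(1 / 8) : ℝ)) atTop (𝓝 0) :=
    (tendsto_rpow_neg_atTop (by norm_num : (0 : ℝ) < 1 / 8)).comp tendsto_natCast_atTop_atTop
  have h3 := h1.add (h2.const_mul (α * C * T))
  simpa using h3

theorem C16_nonneg : 0 ≤ C16 := integral_nonneg fun t => by positivity

/-- explicit finite volume inequality, literal pressures -/
theorem mixPressure_ge {N : ℕ} (hN : 0 < N) {α β ε : ℝ} (hα : 0 ≤ α) (h0 : 0 ≤ ε) (h1 : ε < 1)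
    {φ f1 f2 f3 : ℝ → ℝ} {K0 K1 K2 K3 : ℝ} (hK0 : 0 ≤ K0)
    (h : C3b (fun x => β * φ x) f1 f2 f3 K0 K1 K2 K3) (hφ : Measurable φ)
    (hb : ∀ x, |β * φ x| ≤ K0) (hτ : C16 / (N : ℝ) ≤ 1 / 2) :
    expectedPressure N α β φ - errF α K0 (K3 + 6 * K1 * K2 + 6 * K1 ^ 3) (T3 ε) N
      ≤ ∫ g, spherePressure N α β φ g ∂(patternLawMix N α ε) := by
  have : NeZero N := ⟨hN.ne'⟩
  have hN' : (0 : ℝ) < N := Nat.cast_pos.2 hN
  set M := numPatterns N α with hM
  have hMle : (M : ℝ) ≤ α * N := by
    rw [hM]; unfold numPatterns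
    exact Nat.floor_le (by positivity)
  set ψ : Fin M → ℝ → ℝ := fun _ x => β * φ x with hψ
  set δ : ℝ := (N : ℝ) ^ (-(3 / 8) : ℝ) with hδd
  have hδ : 0 < δ := Real.rpow_pos_of_pos hN' _
  have hδ16 : δ ^ 16 = ((N : ℝ) ^ 6)⁻¹ := by
    rw [hδd, ← Real.rpow_natCast, ← Real.rpow_mul hN'.le]
    norm_num
  have hδ3 : (N : ℝ) * δ ^ 3 = (N : ℝ) ^ (-(1 / 8) : ℝ) := by
    rw [hδd, ← Real.rpow_natCast, ← Real.rpow_mul hN'.le]
    have : (N : ℝ) = (N : ℝ) ^ (1 : ℝ) := (Real.rpow_one _).symm
    conv_lhs => rw [this]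
    rw [← Real.rpow_mul hN'.le, ← Real.rpow_add hN']
    norm_num
  have hτ2 : N * C16 / ((N : ℝ) ^ 8 * δ ^ 16) = C16 / N := by
    rw [hδ16]
    have : (N : ℝ) ≠ 0 := hN'.ne'
    field_simp
  have hmain := mix_ge_gauss (M := M) (N := N) h0 h1 (ψ := ψ) (ψ1 := fun _ => f1)
    (ψ2 := fun _ => f2) (ψ3 := fun _ => f3) hK0 (fun _ => h) (fun _ => hb) hδ
    (by rw [hτ2]; exact hτ)
  rw [hτ2] at hmain
  have hsp : ∀ g : Patterns N α, spherePressure N α β φ g
      = (logZ (sphereLaw N) ψ sv g - Real.log ((sphereLaw N).real univ)) / N :=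
    fun g => spherePressure_eq β hφ hb g
  have hσ : 0 < (sphereLaw N).real univ := sphereLaw_real_pos
  have hψm : ∀ a, Measurable (ψ a) := fun _ => hφ.const_mul β
  have key : ∀ (P : Measure (Fin M × Fin N → ℝ)) [IsProbabilityMeasure P],
      ∫ g, spherePressure N α β φ g ∂P
        = (∫ g, logZ (sphereLaw N) ψ sv g ∂P - Real.log ((sphereLaw N).real univ)) / N := by
    intro P _
    have e1 : ∫ g, spherePressure N α β φ g ∂P
        = ∫ g, (logZ (sphereLaw N) ψ sv g - Real.log ((sphereLaw N).real univ)) / N ∂P :=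
      integral_congr_ae (Filter.Eventually.of_forall hsp)
    rw [e1, integral_div,
      integral_sub (integrable_logZ hψm (fun _ => hb) _ hσ measurable_sv P) (integrable_const _)]
    simp
  have hE : expectedPressure N α β φ
      = (∫ g, logZ (sphereLaw N) ψ sv g ∂(gaussPi (Fin M) N)
          - Real.log ((sphereLaw N).real univ)) / N := key (gaussPi (Fin M) N)
  have hX : ∫ g, spherePressure N α β φ g ∂(patternLawMix N α ε)
      = (∫ g, logZ (sphereLaw N) ψ sv g ∂(mixPi M N ε)
          - Real.log ((sphereLaw N).real univ)) / N := key (mixPi M N ε)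
  rw [hE, hX]
  set C := K3 + 6 * K1 * K2 + 6 * K1 ^ 3 with hC
  have hC0 : 0 ≤ C := by
    have a1 : 0 ≤ K1 := (abs_nonneg _).trans (h.b1 0)
    have a2 : 0 ≤ K2 := (abs_nonneg _).trans (h.b2 0)
    have a3 : 0 ≤ K3 := (abs_nonneg _).trans (h.b3 0)
    positivity
  have hT := T3_nonneg ε
  have hC16 := C16_nonneg
  have e1 : 4 * (M : ℝ) * K0 * (C16 / N) ≤ 4 * α * K0 * C16 := by
    have : 4 * (M : ℝ) * K0 * (C16 / N) ≤ 4 * (α * N) * K0 * (C16 / N) := by gcongr
    refine this.trans (le_of_eq ?_)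
    field_simp
  have e2 : (M * N : ℝ) * (C * δ ^ 3) * T3 ε ≤ N * (α * C * T3 ε * (N : ℝ) ^ (-(1 / 8) : ℝ)) := by
    rw [← hδ3]
    have : (M * N : ℝ) * (C * δ ^ 3) * T3 ε ≤ (α * N * N : ℝ) * (C * δ ^ 3) * T3 ε := by gcongr
    refine this.trans (le_of_eq ?_)
    ring
  rw [errF, div_add' _ _ _ hN'.ne', ← sub_div, div_le_div_iff_of_pos_right hN']
  linarith

/-- **(F5)** -/
theorem mixPressure_eventually_ge {α β ε : ℝ} (hα : 0 ≤ α) (h0 : 0 ≤ ε) (h1 : ε < 1)
    {φ f1 f2 f3 : ℝ → ℝ} {K0 K1 K2 K3 : ℝ}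
    (h : C3b (fun x => β * φ x) f1 f2 f3 K0 K1 K2 K3) (hφ : Measurable φ)
    (hb : ∀ x, |β * φ x| ≤ K0) {η : ℝ} (hη : 0 < η) :
    ∀ᶠ N : ℕ in atTop, expectedPressure N α β φ - η
      ≤ ∫ g, spherePressure N α β φ g ∂(patternLawMix N α ε) := by
  have hK0 : 0 ≤ K0 := (abs_nonneg _).trans (hb 0)
  have e1 : ∀ᶠ N : ℕ in atTop, errF α K0 (K3 + 6 * K1 * K2 + 6 * K1 ^ 3) (T3 ε) N < η :=
    (errF_tendsto α K0 _ (T3 ε)).eventually (gt_mem_nhds hη)
  have e2 : ∀ᶠ N : ℕ in atTop, C16 / (N : ℝ) < 1 / 2 :=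
    (tendsto_const_div_atTop_nhds_zero_nat C16).eventually (gt_mem_nhds (by norm_num))
  filter_upwards [e1, e2, eventually_gt_atTop 0] with N a1 a2 a3
  have := mixPressure_ge (N := N) a3 hα h0 h1 hK0 h hφ hb a2.le
  linarith

end Crest.Agent.R146L878
end

-- ▼ part R146/Mollify_878
section

/-!
Row 146: uniform approximation of bounded Lipschitz functions by `C3b` functions (mollification).
-/

set_option autoImplicit false

open MeasureTheory Set Convolution
open scoped ContDiff

namespace Crest.Agent.R146L878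

/-- pointwise bound of a convolution with a bounded function -/
theorem abs_conv_le {h f : ℝ → ℝ} {K : ℝ} (hh : Integrable h) (hK : ∀ x, |f x| ≤ K) (x : ℝ) :
    |(h ⋆[ContinuousLinearMap.lsmul ℝ ℝ, volume] f) x| ≤ K * ∫ t, |h t| := by
  have hK0 : 0 ≤ K := (abs_nonneg _).trans (hK 0)
  rw [convolution_def, ← integral_const_mul]
  refine abs_integral_le_integral_abs.trans (integral_mono_of_nonneg
    (Filter.Eventually.of_forall fun t => abs_nonneg _) (hh.abs.const_mul K)
    (Filter.Eventually.of_forall fun t => ?_))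
  simp only [ContinuousLinearMap.lsmul_apply, smul_eq_mul, abs_mul]
  rw [mul_comm]
  exact mul_le_mul_of_nonneg_right (hK _) (abs_nonneg _)

theorem exists_C3b_approx {f : ℝ → ℝ} {K L : ℝ} (hK : ∀ x, |f x| ≤ K)
    (hL : ∀ x y, |f x - f y| ≤ L * |x - y|) {δ : ℝ} (hδ : 0 < δ) :
    ∃ (g g1 g2 g3 : ℝ → ℝ) (K1 K2 K3 : ℝ), C3b g g1 g2 g3 K K1 K2 K3 ∧ (∀ x, |g x| ≤ K) ∧
      ∀ x, |f x - g x| ≤ δ := by
  have hK0 : 0 ≤ K := (abs_nonneg _).trans (hK 0)
  have hL0 : 0 ≤ L := by
    have := hL 1 0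
    have h2 := (abs_nonneg _).trans this
    simpa using h2
  have hfc : Continuous f := by
    have : LipschitzWith (Real.toNNReal L) f := by
      refine LipschitzWith.of_dist_le_mul fun x y => ?_
      rw [Real.dist_eq, Real.dist_eq, Real.coe_toNNReal L hL0]
      exact hL x y
    exact this.continuous
  set r : ℝ := δ / (L + 1) with hr
  have hr0 : 0 < r := div_pos hδ (by linarith)
  let φ : ContDiffBump (0 : ℝ) := ⟨r / 2, r, half_pos hr0, half_lt_self hr0⟩
  set b : ℝ → ℝ := φ.normed volume with hb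
  have hbC : ContDiff ℝ ∞ b := φ.contDiff_normed
  have hbS : HasCompactSupport b := φ.hasCompactSupport_normed
  have hb1C : ContDiff ℝ ∞ (deriv b) := by
    have := (contDiff_infty_iff_deriv (f := b)).1 hbC
    exact this.2
  have hb2C : ContDiff ℝ ∞ (deriv (deriv b)) := ((contDiff_infty_iff_deriv (f := deriv b)).1 hb1C).2
  have hb3C : ContDiff ℝ ∞ (deriv (deriv (deriv b))) :=
    ((contDiff_infty_iff_deriv (f := deriv (deriv b))).1 hb2C).2
  have hb1S : HasCompactSupport (deriv b) := hbS.deriv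
  have hb2S : HasCompactSupport (deriv (deriv b)) := hb1S.deriv
  have hb3S : HasCompactSupport (deriv (deriv (deriv b))) := hb2S.deriv
  have hfl : LocallyIntegrable f := hfc.locallyIntegrable
  let Lm := ContinuousLinearMap.lsmul ℝ ℝ (E := ℝ)
  have d1 : ∀ x, HasDerivAt (b ⋆[Lm, volume] f) ((deriv b ⋆[Lm, volume] f) x) x := fun x =>
    hbS.hasDerivAt_convolution_left Lm (hbC.of_le (by exact_mod_cast le_top)) hfl x
  have d2 : ∀ x, HasDerivAt (deriv b ⋆[Lm, volume] f) ((deriv (deriv b) ⋆[Lm, volume] f) x) x :=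
    fun x => hb1S.hasDerivAt_convolution_left Lm (hb1C.of_le (by exact_mod_cast le_top)) hfl x
  have d3 : ∀ x, HasDerivAt (deriv (deriv b) ⋆[Lm, volume] f)
      ((deriv (deriv (deriv b)) ⋆[Lm, volume] f) x) x :=
    fun x => hb2S.hasDerivAt_convolution_left Lm (hb2C.of_le (by exact_mod_cast le_top)) hfl x
  have i0 : Integrable b := hbC.continuous.integrable_of_hasCompactSupport hbS
  have i1 : Integrable (deriv b) := hb1C.continuous.integrable_of_hasCompactSupport hb1S
  have i2 : Integrable (deriv (deriv b)) := hb2C.continuous.integrable_of_hasCompactSupport hb2S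
  have i3 : Integrable (deriv (deriv (deriv b))) :=
    hb3C.continuous.integrable_of_hasCompactSupport hb3S
  have hone : ∫ t, |b t| = 1 := by
    have : ∀ t, |b t| = b t := fun t => abs_of_nonneg (φ.nonneg_normed t)
    simp only [this]
    exact φ.integral_normed
  have hb0 : ∀ x, |(b ⋆[Lm, volume] f) x| ≤ K := by
    intro x
    have := abs_conv_le i0 hK x
    rwa [hone, mul_one] at this
  have m3 : Measurable (deriv (deriv (deriv b)) ⋆[Lm, volume] f) := by
    have : Continuous (deriv (deriv (deriv b)) ⋆[Lm, volume] f) :=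
      hb3S.continuous_convolution_left Lm hb3C.continuous hfl
    exact this.measurable
  refine ⟨b ⋆[Lm, volume] f, deriv b ⋆[Lm, volume] f, deriv (deriv b) ⋆[Lm, volume] f,
    deriv (deriv (deriv b)) ⋆[Lm, volume] f, _, _, _,
    ⟨d1, d2, d3, m3, fun x => (le_abs_self _).trans (hb0 x), abs_conv_le i1 hK, abs_conv_le i2 hK,
      abs_conv_le i3 hK⟩, hb0, fun x => ?_⟩
  have h1 := ContDiffBump.dist_normed_convolution_le (φ := φ) (μ := volume) (g := f) (x₀ := x)
    (ε := δ) hfc.aestronglyMeasurable (fun y hy => by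
      rw [Real.dist_eq]
      have hy' : |y - x| < r := by
        rw [Metric.mem_ball, Real.dist_eq] at hy; exact hy
      refine (hL y x).trans ?_
      have : L * |y - x| ≤ L * r := mul_le_mul_of_nonneg_left hy'.le hL0
      refine this.trans ?_
      rw [hr, mul_div_assoc', div_le_iff₀ (by linarith)]
      nlinarith)
  rw [Real.dist_eq, abs_sub_comm] at h1
  exact h1

end Crest.Agent.R146L878
end

-- ▼ part R146/LindLB1_878
section

/-!
Row 146: stability of the pressure in the potential and (F5) for bounded Lipschitz potentials.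
-/

set_option autoImplicit false

open MeasureTheory Set ProbabilityTheory Filter Topology
open Crest.ProbabilityR.Perceptron

namespace Crest.Agent.R146L878

section stab

variable {N M : ℕ}

/-- `logZ` is stable in the sup norm of the potentials -/
theorem logZ_sub_le {Y : Type*} [MeasurableSpace Y] (ρ : Measure Y) [IsFiniteMeasure ρ]
    (hρ : 0 < ρ.real univ) {ψ χ : Fin M → ℝ → ℝ} {K K' : ℝ}
    (hψ : ∀ a, Measurable (ψ a)) (hχ : ∀ a, Measurable (χ a)) (hψb : ∀ a x, ψ a x ≤ K)
    (hχb : ∀ a x, χ a x ≤ K') {t : ℝ} (ht : ∀ a x, ψ a x - χ a x ≤ t)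
    {v : Y → Fin N → ℝ} (hv : Measurable v) (A : Fin M × Fin N → ℝ) :
    logZ ρ ψ v A - logZ ρ χ v A ≤ M * t := by
  have h1 := int_exp_pos hψ hψb ρ hρ hv A
  have h2 := int_exp_pos hχ hχb ρ hρ hv A
  have h3 : ∫ y, Real.exp (expo ψ v A y) ∂ρ ≤ Real.exp (M * t) * ∫ y, Real.exp (expo χ v A y) ∂ρ := by
    rw [← integral_const_mul]
    refine integral_mono (integrable_exp_expo hψ hψb ρ hv A)
      ((integrable_exp_expo hχ hχb ρ hv A).const_mul _) fun y => ?_
    simp only
    rw [← Real.exp_add]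
    refine Real.exp_le_exp.2 ?_
    unfold expo
    have : ∑ a, ψ a (∑ i, A (a, i) * v y i) ≤ ∑ a, (t + χ a (∑ i, A (a, i) * v y i)) :=
      Finset.sum_le_sum fun a _ => by linarith [ht a (∑ i, A (a, i) * v y i)]
    rw [Finset.sum_add_distrib] at this
    simpa using this
  have h4 := Real.log_le_log h1 h3
  rw [Real.log_mul (Real.exp_pos _).ne' h2.ne', Real.log_exp] at h4
  unfold logZ
  linarith

theorem spherePressure_sub_le {α : ℝ} (hα : 0 ≤ α) (hN : 0 < N) {f g : ℝ → ℝ} {K : ℝ}
    (hf : Measurable f) (hg : Measurable g) (hfb : ∀ x, |f x| ≤ K) (hgb : ∀ x, |g x| ≤ K)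
    {t : ℝ} (ht0 : 0 ≤ t) (ht : ∀ x, f x - g x ≤ t) (A : Patterns N α) :
    spherePressure N α 1 f A - spherePressure N α 1 g A ≤ α * t := by
  have : NeZero N := ⟨hN.ne'⟩
  have hN' : (0 : ℝ) < N := Nat.cast_pos.2 hN
  have hM : (numPatterns N α : ℝ) ≤ α * N := Nat.floor_le (by positivity)
  have hfb' : ∀ x, |1 * f x| ≤ K := by simpa using hfb
  have hgb' : ∀ x, |1 * g x| ≤ K := by simpa using hgb
  rw [spherePressure_eq 1 hf hfb', spherePressure_eq 1 hg hgb', ← sub_div, div_le_iff₀ hN']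
  have h := logZ_sub_le (N := N) (M := numPatterns N α) (sphereLaw N) sphereLaw_real_pos
    (ψ := fun _ x => 1 * f x) (χ := fun _ x => 1 * g x) (K := K) (K' := K)
    (fun _ => hf.const_mul 1) (fun _ => hg.const_mul 1)
    (fun _ x => (le_abs_self _).trans (hfb' x)) (fun _ x => (le_abs_self _).trans (hgb' x))
    (t := t) (fun _ x => by simpa using ht x) measurable_sv A
  have h2 : (numPatterns N α : ℝ) * t ≤ α * N * t := mul_le_mul_of_nonneg_right hM ht0
  linarith

/-- **(F5) for bounded Lipschitz potentials** -/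
theorem mixPressure_ge_lip {α ε : ℝ} (hα : 0 ≤ α) (h0 : 0 ≤ ε) (h1 : ε < 1)
    {f : ℝ → ℝ} {K L : ℝ} (hK : ∀ x, |f x| ≤ K) (hL : ∀ x y, |f x - f y| ≤ L * |x - y|)
    {η : ℝ} (hη : 0 < η) :
    ∀ᶠ N : ℕ in atTop, expectedPressure N α 1 f - η
      ≤ ∫ g, spherePressure N α 1 f g ∂(patternLawMix N α ε) := by
  set δ := η / (3 * (α + 1)) with hδd
  have hα1 : 0 < 3 * (α + 1) := by positivity
  have hδ : 0 < δ := div_pos hη hα1
  obtain ⟨g, g1, g2, g3, K1, K2, K3, hC, hgK, hfg⟩ := exists_C3b_approx hK hL hδ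
  have hL0 : 0 ≤ L := by
    have := (abs_nonneg _).trans (hL 1 0)
    simpa using this
  have hfm : Measurable f := by
    have : LipschitzWith (Real.toNNReal L) f := by
      refine LipschitzWith.of_dist_le_mul fun x y => ?_
      rw [Real.dist_eq, Real.dist_eq, Real.coe_toNNReal L hL0]
      exact hL x y
    exact this.continuous.measurable
  have hgm : Measurable g := hC.c0.measurable
  have hC1 : C3b (fun x => 1 * g x) g1 g2 g3 K K1 K2 K3 := by simpa using hC
  have hev := mixPressure_eventually_ge (α := α) (β := 1) (ε := ε) hα h0 h1 hC1 hgm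
    (by simpa using hgK) (η := η / 3) (by positivity)
  have hαδ : α * δ ≤ η / 3 := by
    rw [hδd, mul_div_assoc', div_le_div_iff₀ hα1 (by norm_num)]
    nlinarith
  filter_upwards [hev, eventually_gt_atTop 0] with N hN1 hN
  have : NeZero N := ⟨hN.ne'⟩
  have hσ : 0 < (sphereLaw N).real univ := sphereLaw_real_pos
  have hint : ∀ (F : ℝ → ℝ) (_ : Measurable F) (_ : ∀ x, |F x| ≤ K) (P : Measure (Patterns N α))
      [IsProbabilityMeasure P], Integrable (spherePressure N α 1 F) P := by
    intro F hF hFK P _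
    have e : spherePressure N α 1 F = fun A : Patterns N α =>
        (logZ (sphereLaw N) (fun _ : Fin (numPatterns N α) => fun x => 1 * F x) sv A
          - Real.log ((sphereLaw N).real univ)) / N := by
      funext A; exact spherePressure_eq 1 hF (by simpa using hFK) A
    rw [e]
    exact ((integrable_logZ (fun _ => hF.const_mul 1) (K0 := K) (fun _ x => by simpa using hFK x)
      (sphereLaw N) hσ measurable_sv P).sub (integrable_const _)).div_const _
  have instG : IsProbabilityMeasure (patternLaw N α) := by unfold patternLaw; infer_instance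
  have instM : IsProbabilityMeasure (patternLawMix N α ε) := by
    unfold patternLawMix; infer_instance
  have a1 : expectedPressure N α 1 f ≤ expectedPressure N α 1 g + α * δ := by
    unfold expectedPressure
    have hi := hint f hfm hK (patternLaw N α)
    have hj := hint g hgm hgK (patternLaw N α)
    have : ∫ A, spherePressure N α 1 f A ∂(patternLaw N α)
        ≤ ∫ A, (spherePressure N α 1 g A + α * δ) ∂(patternLaw N α) :=
      integral_mono hi (hj.add (integrable_const _)) fun A => by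
        have := spherePressure_sub_le hα hN hfm hgm hK hgK hδ.le
          (fun x => (le_abs_self _).trans (hfg x)) A
        linarith
    rw [integral_add hj (integrable_const _)] at this
    simpa using this
  have a2 : ∫ A, spherePressure N α 1 g A ∂(patternLawMix N α ε)
      ≤ ∫ A, spherePressure N α 1 f A ∂(patternLawMix N α ε) + α * δ := by
    have hi := hint f hfm hK (patternLawMix N α ε)
    have hj := hint g hgm hgK (patternLawMix N α ε)
    have : ∫ A, spherePressure N α 1 g A ∂(patternLawMix N α ε)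
        ≤ ∫ A, (spherePressure N α 1 f A + α * δ) ∂(patternLawMix N α ε) :=
      integral_mono hj (hi.add (integrable_const _)) fun A => by
        have := spherePressure_sub_le hα hN hgm hfm hgK hK hδ.le
          (fun x => by have := hfg x; rw [abs_sub_comm] at this; exact (le_abs_self _).trans this) A
        linarith
    rw [integral_add hi (integrable_const _)] at this
    simpa using this
  linarith

end stab

end Crest.Agent.R146L878
end

-- ▼ part R146/LindLB2_878

/-!
Row 146: node LINDLB of `P34_734`, from `S6`, `VMONO`, `VZERO`.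
-/

set_option autoImplicit false

open MeasureTheory Set ProbabilityTheory Filter Topology
open Crest.ProbabilityR.Perceptron

namespace Crest.Agent.R146L878

open Crest.Agent.R146 Crest.Agent.R146.P34_734

theorem fqL_nonpos {L b : ℝ} (hb : 0 < b) (hL : 0 ≤ L) (k x : ℝ) : fqL L b k x ≤ 0 := by
  unfold fqL fq
  refine max_le ?_ (by linarith)
  have : 0 ≤ b / 2 * max (k - x) 0 ^ 2 := by positivity
  linarith

theorem neg_le_fqL (L b k x : ℝ) : -L ≤ fqL L b k x := le_max_right _ _

/-- the truncated penalty in clipped form -/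
theorem fqL_eq {L b : ℝ} (hb : 0 < b) (hL : 0 ≤ L) (k x : ℝ) :
    fqL L b k x = -(b / 2) * min (max (k - x) 0) (Real.sqrt (2 * L / b)) ^ 2 := by
  set R := Real.sqrt (2 * L / b) with hR
  have hR0 : 0 ≤ R := Real.sqrt_nonneg _
  have hR2 : b / 2 * R ^ 2 = L := by
    rw [hR, Real.sq_sqrt (by positivity)]
    field_simp
  set u := max (k - x) 0 with hu
  have hu0 : 0 ≤ u := le_max_right _ _
  unfold fqL fq
  rw [← hu]
  rcases le_total u R with h | h
  · rw [min_eq_left h, max_eq_left]
    have : b / 2 * u ^ 2 ≤ b / 2 * R ^ 2 := by gcongr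
    linarith
  · rw [min_eq_right h, max_eq_right]
    · linarith
    · have : b / 2 * R ^ 2 ≤ b / 2 * u ^ 2 := by gcongr
      linarith

/-- the truncated penalty is Lipschitz -/
theorem fqL_lip {L b : ℝ} (hb : 0 < b) (hL : 0 ≤ L) (k x y : ℝ) :
    |fqL L b k x - fqL L b k y| ≤ (b * Real.sqrt (2 * L / b)) * |x - y| := by
  set R := Real.sqrt (2 * L / b) with hR
  have hR0 : 0 ≤ R := Real.sqrt_nonneg _
  rw [fqL_eq hb hL, fqL_eq hb hL, ← hR]
  set u := min (max (k - x) 0) R
  set w := min (max (k - y) 0) R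
  have hu0 : 0 ≤ u := le_min (le_max_right _ _) hR0
  have hw0 : 0 ≤ w := le_min (le_max_right _ _) hR0
  have huR : u ≤ R := min_le_right _ _
  have hwR : w ≤ R := min_le_right _ _
  have huw : |u - w| ≤ |x - y| := by
    have h1 : |u - w| ≤ |max (k - x) 0 - max (k - y) 0| := by
      have := abs_min_sub_min_le_max (max (k - x) 0) R (max (k - y) 0) R
      rw [sub_self, abs_zero] at this
      exact this.trans (max_le le_rfl (abs_nonneg _))
    have h2 : |max (k - x) 0 - max (k - y) 0| ≤ |(k - x) - (k - y)| :=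
      abs_max_sub_max_le_abs _ _ _
    refine h1.trans (h2.trans ?_)
    rw [show (k - x) - (k - y) = -(x - y) by ring, abs_neg]
  have e : -(b / 2) * u ^ 2 - -(b / 2) * w ^ 2 = (b / 2 * (u + w)) * (w - u) := by ring
  rw [e, abs_mul, abs_of_nonneg (by positivity)]
  have h3 : b / 2 * (u + w) ≤ b * R := by nlinarith
  rw [abs_sub_comm w u]
  exact mul_le_mul h3 huw (abs_nonneg _) (by positivity)

theorem Test_lip {ψ : ℝ → ℝ} (h : Test ψ) : ∃ C : ℝ, 0 ≤ C ∧ ∀ x y, |ψ x - ψ y| ≤ C * |x - y| := by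
  obtain ⟨C, hC⟩ := h.bd 1
  have hd : Differentiable ℝ ψ := (h.smooth 1).differentiable (by norm_num)
  refine ⟨C, (abs_nonneg _).trans (hC 0), fun x y => ?_⟩
  have := Convex.norm_image_sub_le_of_norm_hasDerivWithin_le (f := ψ) (f' := deriv ψ) (C := C)
    (s := Set.univ) (fun x _ => (hd x).hasDerivAt.hasDerivWithinAt) (fun x _ => by
      have := hC x; rw [iteratedDeriv_one] at this; simpa using this) convex_univ
      (Set.mem_univ y) (Set.mem_univ x)
  simpa [Real.norm_eq_abs] using this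

theorem Test_bdd {ψ : ℝ → ℝ} (h : Test ψ) : ∃ C : ℝ, ∀ x, |ψ x| ≤ C := by
  obtain ⟨C, hC⟩ := h.bd 0
  exact ⟨C, fun x => by simpa using hC x⟩

theorem Test_cont {ψ : ℝ → ℝ} (h : Test ψ) : Continuous ψ := (h.smooth 0).continuous

theorem fq_cont (b k : ℝ) : Continuous (fq b k) := by unfold fq; fun_prop

theorem fqL_cont (L b k : ℝ) : Continuous (fqL L b k) := by
  unfold fqL; exact (fq_cont b k).max continuous_const

/-- the variational value is below the limit of the truncated pressures -/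
theorem Pv_le_iInf (W : BS) (hM : VMONO W) (hZ : VZERO W) {α b k L : ℝ} (hα : 0 < α) (hb : 0 < b)
    {ψ : ℝ → ℝ} (hψc : Continuous ψ) (hψb : ∃ K, ∀ x, |ψ x| ≤ K) :
    ((W.Pv α fun x => fq b k x + ψ x : ℝ) : EReal)
      ≤ ⨅ m : OverlapProfile, variationalFunctional W.P W.B W.meas α 1
        (fun x => fqL L b k x + ψ x) m := by
  refine le_iInf fun m => ?_
  unfold variationalFunctional
  by_cases hm : m.entropy = ⊤
  · rw [hm, EReal.coe_ennreal_top, EReal.coe_add_top]
    exact le_top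
  · have e1 : (m.entropy : EReal) = ((m.entropy.toReal : ℝ) : EReal) := by
      rw [EReal.coe_ennreal_toReal hm]
    rw [e1, ← EReal.coe_add, EReal.coe_le_coe_iff]
    have hbdd : BddBelow (W.vals α fun x => fq b k x + ψ x) := by
      refine ⟨α * ∫ z, (fq b k z + ψ z) ∂(gaussianReal 0 1), ?_⟩
      rintro x ⟨m', _, rfl⟩
      have h1 := mul_le_mul_of_nonneg_left (hZ b k hb ψ hψc hψb m') hα.le
      have h2 : 0 ≤ m'.entropy.toReal := ENNReal.toReal_nonneg
      linarith
    have h3 : W.Pv α (fun x => fq b k x + ψ x)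
        ≤ α * W.V (fun x => fq b k x + ψ x) m + m.entropy.toReal :=
      csInf_le hbdd ⟨m, hm, rfl⟩
    have h4 := mul_le_mul_of_nonneg_left (hM b k L hb ψ hψc hψb m) hα.le
    have h5 : controlValue W.P W.B W.meas (fun x => 1 * (fqL L b k x + ψ x)) m
        = W.V (fun x => fqL L b k x + ψ x) m := by
      simp only [one_mul]; rfl
    rw [h5]
    linarith


/-- **LINDLB** -/
theorem LINDLB_of (W : BS) (h6 : S6 W) (hM : VMONO W) (hZ : VZERO W) : LINDLB W := by
  intro ε hε0 hε1 α b k hα hb ψ hψ δ hδ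
  obtain ⟨T, hT⟩ := Test_bdd hψ
  obtain ⟨C, hC0, hC⟩ := Test_lip hψ
  have hψc := Test_cont hψ
  -- choose the truncation level
  obtain ⟨n, hn⟩ := ((Assoc_323.tendsto_cL α hb k T).eventually
    (gt_mem_nhds (show (0 : ℝ) < δ / 3 by positivity))).exists
  set L : ℝ := (n : ℝ) with hL
  have hL0 : 0 ≤ L := Nat.cast_nonneg n
  set fL : ℝ → ℝ := fun x => fqL L b k x + ψ x with hfL
  have hfLb : ∀ x, |fL x| ≤ L + T := by
    intro x
    refine (abs_add_le _ _).trans (add_le_add ?_ (hT x))
    rw [abs_of_nonpos (fqL_nonpos hb hL0 k x)]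
    linarith [neg_le_fqL L b k x]
  have hfLl : ∀ x y, |fL x - fL y| ≤ (b * Real.sqrt (2 * L / b) + C) * |x - y| := by
    intro x y
    have e : fL x - fL y = (fqL L b k x - fqL L b k y) + (ψ x - ψ y) := by
      simp only [hfL]; ring
    rw [e, add_mul]
    exact (abs_add_le _ _).trans (add_le_add (fqL_lip hb hL0 k x y) (hC x y))
  have hfLc : Continuous fL := (fqL_cont L b k).add hψc
  obtain ⟨p, hp1, hp2, -⟩ := h6 α 1 hα one_pos fL hfLc ⟨_, hfLb⟩
  have hPv : W.Pv α (fun x => fq b k x + ψ x) ≤ p := by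
    have := Pv_le_iInf W hM hZ (L := L) hα hb hψc ⟨T, hT⟩ (k := k)
    rw [hp1] at this
    exact EReal.coe_le_coe_iff.1 this
  have e1 : ∀ᶠ N : ℕ in atTop, p - δ / 3 < expectedPressure N α 1 fL :=
    hp2.eventually (lt_mem_nhds (by linarith))
  have e2 := mixPressure_ge_lip hα.le hε0 hε1 hfLb hfLl (η := δ / 3) (by positivity)
  have hgood : RepairLaw_840.Good (mixtureLaw ε) := RepairLaw_840.good_mixtureLaw ε hε0 hε1.le
  filter_upwards [e1, e2, eventually_gt_atTop 0] with N a1 a2 hN
  have htr := (Assoc_323.eP_trunc hgood (α := α) (b := b) hα.le hb k (θ := ψ) hψc.measurable hT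
    (L := L) hL0 hN).2
  have e3 : Assoc_323.eP (mixtureLaw ε) α (fun x => max (Assoc_323.qp b k x) (-L) + ψ x) N
      = ∫ g, spherePressure N α 1 fL g ∂(patternLawMix N α ε) := rfl
  have e4 : Assoc_323.eP (mixtureLaw ε) α (fun x => Assoc_323.qp b k x + ψ x) N
      = pM N α ε (fun x => fq b k x + ψ x) := rfl
  rw [e3, e4] at htr
  linarith

end Crest.Agent.R146L878
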