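import Mathlib
import Crest.Prelude.Def_InvariantGlass
import Crest.Agent.Lib.PrekopaLeindler
import Crest.Agent.R146.S6Def_988
import Crest.Prelude.Def_Perceptron

-- ▼ part R146/LocRec_508
section

/-!
Row 146, node (G) (localised part), helper508: the Gaussian operator `gaussOp a w` on bounded
continuous functions: monotonicity, Jensen, semiconvexity and semiconcavity
(`MidLo`, `MidHi`: symmetric second differences).
-/

set_option autoImplicit false

namespace Crest.Agent.R146.LocRec_508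

open MeasureTheory ProbabilityTheory Filter Topology Set
open Crest.ProbabilityR.InvariantGlass
open scoped ENNReal NNReal

noncomputable section

/-- bounded continuous functions -/
structure BC (F : ℝ → ℝ) (K : ℝ) : Prop where
  cont : Continuous F
  bd : ∀ x, |F x| ≤ K

/-- symmetric semiconvexity -/
def MidLo (κ : ℝ) (F : ℝ → ℝ) : Prop := ∀ y t, 2 * F y - κ * t ^ 2 ≤ F (y + t) + F (y - t)

/-- symmetric semiconcavity -/
def MidHi (κ : ℝ) (F : ℝ → ℝ) : Prop := ∀ y t, F (y + t) + F (y - t) ≤ 2 * F y + κ * t ^ 2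

local notation "γ" => gaussianReal 0 1

theorem BC.integrable_exp {F : ℝ → ℝ} {K : ℝ} (hF : BC F K) (a y s : ℝ) :
    Integrable (fun g : ℝ => Real.exp (a * F (y + s * g))) γ := by
  have hc := hF.cont
  refine Integrable.mono' (integrable_const (Real.exp (|a| * K))) (by fun_prop)
    (Eventually.of_forall fun g => ?_)
  rw [Real.norm_eq_abs, abs_of_pos (Real.exp_pos _)]
  refine Real.exp_le_exp.2 ?_
  calc a * F (y + s * g) ≤ |a * F (y + s * g)| := le_abs_self _
    _ = |a| * |F (y + s * g)| := abs_mul _ _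
    _ ≤ |a| * K := mul_le_mul_of_nonneg_left (hF.bd _) (abs_nonneg a)

theorem BC.integrable {F : ℝ → ℝ} {K : ℝ} (hF : BC F K) (y s : ℝ) :
    Integrable (fun g : ℝ => F (y + s * g)) γ := by
  have hc := hF.cont
  refine Integrable.mono' (integrable_const K) (by fun_prop)
    (Eventually.of_forall fun g => ?_)
  rw [Real.norm_eq_abs]
  exact hF.bd _

theorem integral_exp_pos {F : ℝ → ℝ} {K : ℝ} (hF : BC F K) (a y s : ℝ) :
    0 < ∫ g, Real.exp (a * F (y + s * g)) ∂γ := by
  refine (integral_pos_iff_support_of_nonneg (fun g => (Real.exp_pos _).le)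
    (hF.integrable_exp a y s)).2 ?_
  have : Function.support (fun g : ℝ => Real.exp (a * F (y + s * g))) = univ := by
    ext g
    simp [(Real.exp_pos _).ne']
  rw [this]
  simp

/-- Jensen: the linear average is below `gaussOp a`, `a ≥ 0`. -/
theorem gaussOp_jensen {F : ℝ → ℝ} {K : ℝ} (hF : BC F K) {a : ℝ} (ha : 0 ≤ a) (w y : ℝ) :
    ∫ g, F (y + Real.sqrt w * g) ∂γ ≤ gaussOp a w F y := by
  unfold gaussOp
  split_ifs with h0
  · exact le_rfl
  · have ha' : 0 < a := lt_of_le_of_ne ha (Ne.symm h0)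
    set s := Real.sqrt w
    set m := ∫ g, F (y + s * g) ∂γ with hm
    have hp := integral_exp_pos hF a y s
    have key : Real.exp (a * m) ≤ ∫ g, Real.exp (a * F (y + s * g)) ∂γ := by
      have h1 : ∀ g : ℝ, Real.exp (a * m) * (1 + (a * F (y + s * g) - a * m)) ≤
          Real.exp (a * F (y + s * g)) := by
        intro g
        have h2 := Real.add_one_le_exp (a * F (y + s * g) - a * m)
        have h3 : Real.exp (a * F (y + s * g)) =
            Real.exp (a * m) * Real.exp (a * F (y + s * g) - a * m) := by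
          rw [← Real.exp_add]; ring_nf
        rw [h3]
        refine mul_le_mul_of_nonneg_left ?_ (Real.exp_pos _).le
        linarith
      have h4 := integral_mono (f := fun g => Real.exp (a * m) * (1 + (a * F (y + s * g) - a * m)))
        (g := fun g => Real.exp (a * F (y + s * g))) (μ := γ) ?_ (hF.integrable_exp a y s) h1
      · have h5 : ∫ g, Real.exp (a * m) * (1 + (a * F (y + s * g) - a * m)) ∂γ =
            Real.exp (a * m) := by
          rw [integral_const_mul]
          have h6 : ∫ g, (1 + (a * F (y + s * g) - a * m)) ∂γ = 1 := by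
            have e : (fun g : ℝ => (1 + (a * F (y + s * g) - a * m))) =
                fun g => (1 - a * m) + a * F (y + s * g) := by
              funext g; ring
            rw [e, integral_add (integrable_const _) ((hF.integrable y s).const_mul a),
              integral_const_mul, integral_const]
            simp only [probReal_univ, smul_eq_mul, one_mul]
            rw [← hm]; ring
          rw [h6, mul_one]
        rw [h5] at h4
        exact h4
      · refine Integrable.const_mul ?_ _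
        exact (integrable_const _).add (((hF.integrable y s).const_mul a).sub (integrable_const _))
    have h7 : a * m ≤ Real.log (∫ g, Real.exp (a * F (y + s * g)) ∂γ) := by
      rw [← Real.log_exp (a * m)]
      exact Real.log_le_log (Real.exp_pos _) key
    rw [inv_mul_eq_div, le_div_iff₀ ha']
    linarith

/-- `gaussOp` is monotone. -/
theorem gaussOp_mono {F G : ℝ → ℝ} {K L : ℝ} (hF : BC F K) (hG : BC G L) {a : ℝ} (ha : 0 ≤ a)
    (w : ℝ) (h : ∀ x, F x ≤ G x) (y : ℝ) : gaussOp a w F y ≤ gaussOp a w G y := by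
  unfold gaussOp
  split_ifs with h0
  · exact integral_mono (hF.integrable y _) (hG.integrable y _) fun g => h _
  · have ha' : 0 < a := lt_of_le_of_ne ha (Ne.symm h0)
    refine mul_le_mul_of_nonneg_left ?_ (inv_nonneg.2 ha)
    refine Real.log_le_log (integral_exp_pos hF a y _) ?_
    refine integral_mono (hF.integrable_exp a y _) (hG.integrable_exp a y _) fun g => ?_
    exact Real.exp_le_exp.2 (mul_le_mul_of_nonneg_left (h _) ha)

/-- `gaussOp` of a constant. -/
theorem gaussOp_const {a : ℝ} (w c y : ℝ) : gaussOp a w (fun _ => c) y = c := by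
  unfold gaussOp
  split_ifs with h0
  · simp
  · simp only [integral_const, probReal_univ, one_smul, Real.log_exp]
    field_simp


theorem gaussOp_continuous {F : ℝ → ℝ} {K : ℝ} (hF : BC F K) (a w : ℝ) :
    Continuous (gaussOp a w F) := by
  have hc := hF.cont
  unfold gaussOp
  split_ifs with h0
  · refine continuous_of_dominated (bound := fun _ => K) (fun y => by fun_prop) (fun y => ?_)
      (integrable_const _) (Eventually.of_forall fun g => by fun_prop)
    exact Eventually.of_forall fun g => by rw [Real.norm_eq_abs]; exact hF.bd _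
  · have h1 : Continuous fun y => ∫ g, Real.exp (a * F (y + Real.sqrt w * g)) ∂γ := by
      refine continuous_of_dominated (bound := fun _ => Real.exp (|a| * K))
        (fun y => by fun_prop) (fun y => ?_) (integrable_const _)
        (Eventually.of_forall fun g => by fun_prop)
      refine Eventually.of_forall fun g => ?_
      rw [Real.norm_eq_abs, abs_of_pos (Real.exp_pos _)]
      refine Real.exp_le_exp.2 ?_
      calc a * F (y + Real.sqrt w * g) ≤ |a * F (y + Real.sqrt w * g)| := le_abs_self _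
        _ = |a| * |F (y + Real.sqrt w * g)| := abs_mul _ _
        _ ≤ |a| * K := mul_le_mul_of_nonneg_left (hF.bd _) (abs_nonneg a)
    exact continuous_const.mul (h1.log fun y => (integral_exp_pos hF a y _).ne')

theorem gaussOp_BC {F : ℝ → ℝ} {K : ℝ} (hF : BC F K) {a : ℝ} (ha : 0 ≤ a) (w : ℝ) :
    BC (gaussOp a w F) K := by
  refine ⟨gaussOp_continuous hF a w, fun y => ?_⟩
  have hK : 0 ≤ K := (abs_nonneg _).trans (hF.bd 0)
  have cK : BC (fun _ : ℝ => K) K := ⟨continuous_const, fun _ => by rw [abs_of_nonneg hK]⟩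
  have cK' : BC (fun _ : ℝ => -K) K :=
    ⟨continuous_const, fun _ => by rw [abs_neg, abs_of_nonneg hK]⟩
  rw [abs_le]
  constructor
  · have := gaussOp_mono cK' hF ha w (fun x => (abs_le.1 (hF.bd x)).1) y
    rwa [gaussOp_const] at this
  · have := gaussOp_mono hF cK ha w (fun x => (abs_le.1 (hF.bd x)).2) y
    rwa [gaussOp_const] at this

/-! ### shift of the Gaussian -/

theorem integral_gauss (φ : ℝ → ℝ) :
    ∫ g, φ g ∂γ = ∫ x, (Real.sqrt (2 * Real.pi))⁻¹ * Real.exp (-x ^ 2 / 2) * φ x := by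
  rw [integral_gaussianReal_eq_integral_smul one_ne_zero]
  refine integral_congr_ae (Eventually.of_forall fun x => ?_)
  simp [gaussianPDFReal]

theorem integral_gauss_shift (φ : ℝ → ℝ) (s : ℝ) :
    ∫ g, φ g ∂γ = ∫ g, φ (g - s) * Real.exp (g * s - s ^ 2 / 2) ∂γ := by
  rw [integral_gauss, integral_gauss,
    ← integral_sub_right_eq_self (fun x => (Real.sqrt (2 * Real.pi))⁻¹ *
      Real.exp (-x ^ 2 / 2) * φ x) s]
  refine integral_congr_ae (Eventually.of_forall fun x => ?_)
  simp only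
  have : Real.exp (-(x - s) ^ 2 / 2) = Real.exp (-x ^ 2 / 2) * Real.exp (x * s - s ^ 2 / 2) := by
    rw [← Real.exp_add]; ring_nf
  rw [this]; ring

/-- the shifted form of the exponential average -/
theorem expAvg_shift {F : ℝ → ℝ} {w : ℝ} (hw : 0 < w) (a α y : ℝ) :
    ∫ g, Real.exp (a * F (y + Real.sqrt w * g)) ∂γ =
      ∫ g, Real.exp (a * F (α * y + Real.sqrt w * g) + g * ((1 - α) * y / Real.sqrt w) -
        ((1 - α) * y / Real.sqrt w) ^ 2 / 2) ∂γ := by
  have hs : 0 < Real.sqrt w := Real.sqrt_pos.2 hw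
  rw [integral_gauss_shift _ ((1 - α) * y / Real.sqrt w)]
  refine integral_congr_ae (Eventually.of_forall fun g => ?_)
  simp only
  rw [← Real.exp_add]
  have : y + Real.sqrt w * (g - (1 - α) * y / Real.sqrt w) = α * y + Real.sqrt w * g := by
    field_simp; ring
  rw [this]
  ring_nf

theorem integrable_exp_lin (c : ℝ) : Integrable (fun g : ℝ => Real.exp (c * g)) γ := by
  exact integrable_exp_mul_gaussianReal c

theorem BC.integrable_shift {F : ℝ → ℝ} {K : ℝ} (hF : BC F K) (a z r s : ℝ) :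
    Integrable (fun g : ℝ => Real.exp (a * F (z + r * g) + g * s - s ^ 2 / 2)) γ := by
  have hc := hF.cont
  refine Integrable.mono' ((integrable_exp_lin s).const_mul (Real.exp (|a| * K - s ^ 2 / 2)))
    (by fun_prop) (Eventually.of_forall fun g => ?_)
  rw [Real.norm_eq_abs, abs_of_pos (Real.exp_pos _), ← Real.exp_add]
  refine Real.exp_le_exp.2 ?_
  have h1 : a * F (z + r * g) ≤ |a| * K := by
    calc a * F (z + r * g) ≤ |a * F (z + r * g)| := le_abs_self _
      _ = |a| * |F (z + r * g)| := abs_mul _ _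
      _ ≤ |a| * K := mul_le_mul_of_nonneg_left (hF.bd _) (abs_nonneg a)
  linarith

/-- algebra for the semiconvexity step -/
theorem alg_lo {a κ w α t r : ℝ} (hr : r ≠ 0) (hrw : r ^ 2 = w) (hα : α * (1 + κ * a * w) = 1) :
    a * κ * α ^ 2 * t ^ 2 + ((1 - α) * t / r) ^ 2 = a * (κ * α) * t ^ 2 := by
  have h1 : 1 - α = κ * a * w * α := by linarith
  have h2 : (1 - α) * t / r = κ * a * r * α * t := by
    rw [h1, ← hrw]; field_simp
  rw [h2, mul_pow, mul_pow, mul_pow, mul_pow, hrw]
  have h3 : α + κ * a * w * α = 1 := by linarith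
  calc a * κ * α ^ 2 * t ^ 2 + κ ^ 2 * a ^ 2 * w * α ^ 2 * t ^ 2
      = a * κ * α * t ^ 2 * (α + κ * a * w * α) := by ring
    _ = _ := by rw [h3]; ring

/-- semiconvexity is preserved by `gaussOp`, with the Riccati constant. -/
theorem gaussOp_midLo {F : ℝ → ℝ} {K : ℝ} (hF : BC F K) {a : ℝ} (ha : 0 ≤ a) {w : ℝ}
    (hw : 0 ≤ w) {κ : ℝ} (hκ : 0 ≤ κ) (h : MidLo κ F) :
    MidLo (κ / (1 + κ * a * w)) (gaussOp a w F) := by
  rcases hw.eq_or_lt with hw0 | hw
  · subst hw0
    intro y t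
    have e : ∀ z, gaussOp a 0 F z = F z := by
      intro z
      unfold gaussOp
      split_ifs with h0
      · simp
      · simp only [Real.sqrt_zero, zero_mul, add_zero, integral_const, probReal_univ, one_smul,
          Real.log_exp]
        field_simp
    rw [e, e, e]
    simpa using h y t
  by_cases h0 : a = 0
  · subst h0
    intro y t
    simp only [gaussOp, if_true, mul_zero, zero_mul, add_zero, div_one]
    have h1 := integral_mono (μ := γ) (f := fun g => 2 * F (y + Real.sqrt w * g) - κ * t ^ 2)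
      (g := fun g => F (y + t + Real.sqrt w * g) + F (y - t + Real.sqrt w * g))
      (((hF.integrable y _).const_mul 2).sub (integrable_const _))
      ((hF.integrable _ _).add (hF.integrable _ _)) (fun g => by
        have := h (y + Real.sqrt w * g) t
        have e1 : y + Real.sqrt w * g + t = y + t + Real.sqrt w * g := by ring
        have e2 : y + Real.sqrt w * g - t = y - t + Real.sqrt w * g := by ring
        rw [e1, e2] at this
        exact this)
    rw [integral_sub ((hF.integrable y _).const_mul 2) (integrable_const _), integral_const_mul,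
      integral_add (hF.integrable _ _) (hF.integrable _ _)] at h1
    simpa using h1
  have ha' : 0 < a := lt_of_le_of_ne ha (Ne.symm h0)
  have hden : 0 < 1 + κ * a * w := by positivity
  set r := Real.sqrt w with hr
  have hr0 : 0 < r := Real.sqrt_pos.2 hw
  have hrw : r ^ 2 = w := Real.sq_sqrt hw.le
  set α := (1 + κ * a * w)⁻¹ with hα
  have hα1 : α * (1 + κ * a * w) = 1 := inv_mul_cancel₀ hden.ne'
  have hκα : κ / (1 + κ * a * w) = κ * α := by rw [hα, div_eq_mul_inv]
  rw [hκα]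
  intro y t
  -- notation
  set G : ℝ → ℝ := fun z => ∫ g, Real.exp (a * F (z + r * g)) ∂γ with hG
  have hGpos : ∀ z, 0 < G z := fun z => integral_exp_pos hF a z r
  have hGO : ∀ z, gaussOp a w F z = a⁻¹ * Real.log (G z) := by
    intro z; unfold gaussOp; rw [if_neg h0]
  -- the shifted integrand
  set Q : ℝ → ℝ → ℝ := fun z g => a * F (α * z + r * g) + g * ((1 - α) * z / r) -
        ((1 - α) * z / r) ^ 2 / 2 with hQ
  have hGQ : ∀ z, G z = ∫ g, Real.exp (Q z g) ∂γ := fun z => expAvg_shift hw a α z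
  have hQi : ∀ z, Integrable (fun g => Real.exp (Q z g)) γ := fun z =>
    hF.integrable_shift a (α * z) r ((1 - α) * z / r)
  have hpt : ∀ g, 2 * Q y g - a * (κ * α) * t ^ 2 ≤ Q (y + t) g + Q (y - t) g := by
    intro g
    have h1 := h (α * y + r * g) (α * t)
    have e1 : α * y + r * g + α * t = α * (y + t) + r * g := by ring
    have e2 : α * y + r * g - α * t = α * (y - t) + r * g := by ring
    rw [e1, e2] at h1
    have h2 := mul_le_mul_of_nonneg_left h1 ha
    have h3 := alg_lo (t := t) hr0.ne' hrw hα1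
    have e3 : ((1 - α) * (y + t) / r) = (1 - α) * y / r + (1 - α) * t / r := by ring
    have e4 : ((1 - α) * (y - t) / r) = (1 - α) * y / r - (1 - α) * t / r := by ring
    simp only [hQ]
    rw [e3, e4]
    nlinarith [h2, h3]
  -- Cauchy-Schwarz through AM-GM with the normalising constants
  have key : Real.log (G y) ≤ (Real.log (G (y + t)) + Real.log (G (y - t))) / 2 +
      a * (κ * α) * t ^ 2 / 2 := by
    set A := Real.log (G (y + t))
    set B := Real.log (G (y - t))
    have h5 : ∀ g, Real.exp (Q y g - ((A + B) / 2 + a * (κ * α) * t ^ 2 / 2)) ≤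
        (1 / 2) * Real.exp (-A) * Real.exp (Q (y + t) g) +
        (1 / 2) * Real.exp (-B) * Real.exp (Q (y - t) g) := by
      intro g
      have h6 : Q y g - ((A + B) / 2 + a * (κ * α) * t ^ 2 / 2) ≤
          ((Q (y + t) g - A) + (Q (y - t) g - B)) / 2 := by
        have := hpt g; linarith
      refine (Real.exp_le_exp.2 h6).trans ?_
      have h7 : Real.exp (((Q (y + t) g - A) + (Q (y - t) g - B)) / 2) ≤
          (Real.exp (Q (y + t) g - A) + Real.exp (Q (y - t) g - B)) / 2 := by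
        set u := Q (y + t) g - A
        set v := Q (y - t) g - B
        have e5 : Real.exp ((u + v) / 2) = Real.exp (u / 2) * Real.exp (v / 2) := by
          rw [← Real.exp_add]; ring_nf
        have e6 : Real.exp u = Real.exp (u / 2) ^ 2 := by
          rw [← Real.exp_nat_mul]; ring_nf
        have e7 : Real.exp v = Real.exp (v / 2) ^ 2 := by
          rw [← Real.exp_nat_mul]; ring_nf
        rw [e5, e6, e7]
        nlinarith [sq_nonneg (Real.exp (u / 2) - Real.exp (v / 2))]
      refine h7.trans (le_of_eq ?_)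
      have e8 : Real.exp (Q (y + t) g - A) = Real.exp (-A) * Real.exp (Q (y + t) g) := by
        rw [← Real.exp_add]; ring_nf
      have e9 : Real.exp (Q (y - t) g - B) = Real.exp (-B) * Real.exp (Q (y - t) g) := by
        rw [← Real.exp_add]; ring_nf
      rw [e8, e9]; ring
    have h8 := integral_mono (μ := γ) (((hQi y).const_mul
        (Real.exp (-((A + B) / 2 + a * (κ * α) * t ^ 2 / 2)))).congr
        (Eventually.of_forall fun g => by
          show Real.exp (-((A + B) / 2 + a * (κ * α) * t ^ 2 / 2)) * Real.exp (Q y g) =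
            Real.exp (Q y g - ((A + B) / 2 + a * (κ * α) * t ^ 2 / 2))
          rw [← Real.exp_add]; ring_nf))
      (((hQi (y + t)).const_mul ((1 / 2) * Real.exp (-A))).add
        ((hQi (y - t)).const_mul ((1 / 2) * Real.exp (-B)))) h5
    rw [Pi.add_def, integral_add ((hQi (y + t)).const_mul _) ((hQi (y - t)).const_mul _),
      integral_const_mul, integral_const_mul, ← hGQ, ← hGQ] at h8
    have h9 : ∫ g, Real.exp (Q y g - ((A + B) / 2 + a * (κ * α) * t ^ 2 / 2)) ∂γ =
        Real.exp (-((A + B) / 2 + a * (κ * α) * t ^ 2 / 2)) * G y := by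
      rw [hGQ, ← integral_const_mul]
      refine integral_congr_ae (Eventually.of_forall fun g => ?_)
      simp only
      rw [← Real.exp_add]; ring_nf
    rw [h9] at h8
    have eA : Real.exp (-A) * G (y + t) = 1 := by
      rw [Real.exp_neg, Real.exp_log (hGpos _), inv_mul_cancel₀ (hGpos _).ne']
    have eB : Real.exp (-B) * G (y - t) = 1 := by
      rw [Real.exp_neg, Real.exp_log (hGpos _), inv_mul_cancel₀ (hGpos _).ne']
    have h10 : Real.exp (-((A + B) / 2 + a * (κ * α) * t ^ 2 / 2)) * G y ≤ 1 := by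
      calc _ ≤ _ := h8
        _ = (1 / 2) * (Real.exp (-A) * G (y + t)) + (1 / 2) * (Real.exp (-B) * G (y - t)) := by
          ring
        _ = 1 := by rw [eA, eB]; ring
    rw [Real.exp_neg, inv_mul_le_iff₀ (Real.exp_pos _), mul_one] at h10
    calc Real.log (G y) ≤ Real.log (Real.exp ((A + B) / 2 + a * (κ * α) * t ^ 2 / 2)) :=
          Real.log_le_log (hGpos y) h10
      _ = _ := Real.log_exp _
  rw [hGO, hGO, hGO]
  have h11 : a⁻¹ * (a * (κ * α) * t ^ 2) = (κ * α) * t ^ 2 := by field_simp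
  have h12 := mul_le_mul_of_nonneg_left key (inv_nonneg.2 ha)
  nlinarith [h11, h12]

/-- algebra for the semiconcavity step -/
theorem alg_hi {a κ w α t r δ : ℝ} (hr : r ≠ 0) (hrw : r ^ 2 = w)
    (hα : α * (1 - κ * a * w) = 1) (hκ : κ * a * w ≤ 1) :
    a * κ * (α * t + r * δ) ^ 2 + 2 * δ * ((1 - α) * t / r) - ((1 - α) * t / r) ^ 2 - δ ^ 2 ≤
      a * (κ * α) * t ^ 2 := by
  have h1 : 1 - α = -(κ * a * w * α) := by linarith
  have h2 : (1 - α) * t / r = -(κ * a * r * α * t) := by
    rw [h1, ← hrw]; field_simp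
  rw [h2]
  have h3 : α - κ * a * w * α = 1 := by linarith
  have h4 : a * (κ * α) * t ^ 2 - (a * κ * (α * t + r * δ) ^ 2 + 2 * δ * (-(κ * a * r * α * t)) -
      (-(κ * a * r * α * t)) ^ 2 - δ ^ 2) =
      a * κ * α * t ^ 2 * (1 - (α - κ * a * r ^ 2 * α)) + δ ^ 2 * (1 - κ * a * r ^ 2) := by
    ring
  rw [hrw, h3] at h4
  have h5 : 0 ≤ δ ^ 2 * (1 - κ * a * w) := mul_nonneg (sq_nonneg _) (by linarith)
  linarith

/-- semiconcavity is preserved by `gaussOp`, with the Riccati constant (Prekopa-Leindler). -/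
theorem gaussOp_midHi {F : ℝ → ℝ} {K : ℝ} (hF : BC F K) {a : ℝ} (ha : 0 ≤ a) {w : ℝ}
    (hw : 0 ≤ w) {κ : ℝ} (hκ1 : κ * a * w < 1) (h : MidHi κ F) :
    MidHi (κ / (1 - κ * a * w)) (gaussOp a w F) := by
  rcases hw.eq_or_lt with hw0 | hw
  · subst hw0
    intro y t
    have e : ∀ z, gaussOp a 0 F z = F z := by
      intro z
      unfold gaussOp
      split_ifs with h0
      · simp
      · simp only [Real.sqrt_zero, zero_mul, add_zero, integral_const, probReal_univ, one_smul,
          Real.log_exp]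
        field_simp
    rw [e, e, e]
    simpa using h y t
  by_cases h0 : a = 0
  · subst h0
    intro y t
    simp only [gaussOp, if_true, mul_zero, zero_mul, sub_zero, div_one]
    have h1 := integral_mono (μ := γ)
      (f := fun g => F (y + t + Real.sqrt w * g) + F (y - t + Real.sqrt w * g))
      (g := fun g => 2 * F (y + Real.sqrt w * g) + κ * t ^ 2)
      ((hF.integrable _ _).add (hF.integrable _ _))
      (((hF.integrable y _).const_mul 2).add (integrable_const _)) (fun g => by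
        have := h (y + Real.sqrt w * g) t
        have e1 : y + Real.sqrt w * g + t = y + t + Real.sqrt w * g := by ring
        have e2 : y + Real.sqrt w * g - t = y - t + Real.sqrt w * g := by ring
        rw [e1, e2] at this
        exact this)
    rw [integral_add ((hF.integrable y _).const_mul 2) (integrable_const _), integral_const_mul,
      integral_add (hF.integrable _ _) (hF.integrable _ _)] at h1
    simpa using h1
  have ha' : 0 < a := lt_of_le_of_ne ha (Ne.symm h0)
  have hden : 0 < 1 - κ * a * w := by linarith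
  set r := Real.sqrt w with hr
  have hr0 : 0 < r := Real.sqrt_pos.2 hw
  have hrw : r ^ 2 = w := Real.sq_sqrt hw.le
  set α := (1 - κ * a * w)⁻¹ with hα
  have hα1 : α * (1 - κ * a * w) = 1 := inv_mul_cancel₀ hden.ne'
  have hκα : κ / (1 - κ * a * w) = κ * α := by rw [hα, div_eq_mul_inv]
  rw [hκα]
  intro y t
  set G : ℝ → ℝ := fun z => ∫ g, Real.exp (a * F (z + r * g)) ∂γ with hG
  have hGpos : ∀ z, 0 < G z := fun z => integral_exp_pos hF a z r
  have hGO : ∀ z, gaussOp a w F z = a⁻¹ * Real.log (G z) := by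
    intro z; unfold gaussOp; rw [if_neg h0]
  set Q : ℝ → ℝ → ℝ := fun z g => a * F (α * z + r * g) + g * ((1 - α) * z / r) -
        ((1 - α) * z / r) ^ 2 / 2 with hQ
  have hGQ : ∀ z, G z = ∫ g, Real.exp (Q z g) ∂γ := fun z => expAvg_shift hw a α z
  set c0 := (Real.sqrt (2 * Real.pi))⁻¹ with hc0
  have hc0pos : 0 < c0 := by rw [hc0]; positivity
  -- densities on the line
  set d : ℝ → ℝ → ℝ := fun z x => c0 * Real.exp (-x ^ 2 / 2) * Real.exp (Q z x) with hd
  have hGd : ∀ z, G z = ∫ x, d z x := by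
    intro z; rw [hGQ, integral_gauss]
  have hdpos : ∀ z x, 0 < d z x := fun z x => by
    simp only [hd]; positivity
  have hdint : ∀ z, Integrable (d z) := by
    intro z
    by_contra hni
    have := integral_undef hni
    rw [← hGd] at this
    exact (hGpos z).ne' this
  have hFc := hF.cont
  have hdm : ∀ z, Measurable (d z) := by
    intro z
    have : Continuous (d z) := by
      simp only [hd, hQ]; fun_prop
    exact this.measurable
  -- pointwise inequality
  have hpt : ∀ x x' : ℝ, Q (y + t) x + Q (y - t) x' - (x ^ 2 + x' ^ 2) / 2 ≤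
      2 * Q y ((x + x') / 2) - ((x + x') / 2) ^ 2 + a * (κ * α) * t ^ 2 := by
    intro x x'
    set δ := (x - x') / 2 with hδ
    set mm := (x + x') / 2 with hmm
    have hx : x = mm + δ := by rw [hmm, hδ]; ring
    have hx' : x' = mm - δ := by rw [hmm, hδ]; ring
    have h1 := h (α * y + r * mm) (α * t + r * δ)
    have e1 : α * y + r * mm + (α * t + r * δ) = α * (y + t) + r * x := by rw [hx]; ring
    have e2 : α * y + r * mm - (α * t + r * δ) = α * (y - t) + r * x' := by rw [hx']; ring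
    rw [e1, e2] at h1
    have h2 := mul_le_mul_of_nonneg_left h1 ha
    have h3 := alg_hi (t := t) (δ := δ) hr0.ne' hrw hα1 hκ1.le
    have e3 : ((1 - α) * (y + t) / r) = (1 - α) * y / r + (1 - α) * t / r := by ring
    have e4 : ((1 - α) * (y - t) / r) = (1 - α) * y / r - (1 - α) * t / r := by ring
    simp only [hQ]
    rw [e3, e4]
    set S := (1 - α) * y / r
    set T := (1 - α) * t / r
    have e5 : a * F (α * (y + t) + r * x) + x * (S + T) - (S + T) ^ 2 / 2 +
        (a * F (α * (y - t) + r * x') + x' * (S - T) - (S - T) ^ 2 / 2) - (x ^ 2 + x' ^ 2) / 2 =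
        a * (F (α * (y + t) + r * x) + F (α * (y - t) + r * x')) + 2 * mm * S + 2 * δ * T - S ^ 2
          - T ^ 2 - mm ^ 2 - δ ^ 2 := by
      rw [hx, hx']; ring
    rw [e5]
    nlinarith [h2, h3]
  have key : (Real.log (G (y + t)) + Real.log (G (y - t))) / 2 ≤ Real.log (G y) +
      a * (κ * α) * t ^ 2 / 2 := by
    set E := Real.exp (a * (κ * α) * t ^ 2 / 2) with hE
    have hEpos : 0 < E := Real.exp_pos _
    have hPL := Lib.PrekopaLeindler.pl_real (t := 1 / 2) (by norm_num) (by norm_num)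
      (f := fun x => ENNReal.ofReal (d (y + t) x)) (g := fun x => ENNReal.ofReal (d (y - t) x))
      (h := fun x => ENNReal.ofReal (E * d y x)) (hdm _).ennreal_ofReal (hdm _).ennreal_ofReal
      ((hdm y).const_mul E).ennreal_ofReal ?_
    · rw [← ofReal_integral_eq_lintegral_ofReal (hdint _) (ae_of_all _ fun x => (hdpos _ x).le),
        ← ofReal_integral_eq_lintegral_ofReal (hdint _) (ae_of_all _ fun x => (hdpos _ x).le),
        ← ofReal_integral_eq_lintegral_ofReal ((hdint y).const_mul E)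
          (ae_of_all _ fun x => (mul_pos hEpos (hdpos _ x)).le), ← hGd, ← hGd,
        integral_const_mul, ← hGd] at hPL
      have e1 : (1 : ℝ) - 1 / 2 = 1 / 2 := by norm_num
      rw [e1, ENNReal.ofReal_rpow_of_pos (hGpos _), ENNReal.ofReal_rpow_of_pos (hGpos _),
        ← ENNReal.ofReal_mul (Real.rpow_nonneg (hGpos _).le _),
        ENNReal.ofReal_le_ofReal_iff (mul_pos hEpos (hGpos _)).le] at hPL
      have h2 := Real.log_le_log (mul_pos (Real.rpow_pos_of_pos (hGpos _) _)
        (Real.rpow_pos_of_pos (hGpos _) _)) hPL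
      rw [Real.log_mul (Real.rpow_pos_of_pos (hGpos _) _).ne'
        (Real.rpow_pos_of_pos (hGpos _) _).ne', Real.log_rpow (hGpos _), Real.log_rpow (hGpos _),
        Real.log_mul hEpos.ne' (hGpos _).ne', hE, Real.log_exp] at h2
      linarith
    · intro x x'
      have e1 : (1 : ℝ) - 1 / 2 = 1 / 2 := by norm_num
      rw [e1, ENNReal.ofReal_rpow_of_pos (hdpos _ _), ENNReal.ofReal_rpow_of_pos (hdpos _ _),
        ← ENNReal.ofReal_mul (Real.rpow_nonneg (hdpos _ _).le _)]
      refine ENNReal.ofReal_le_ofReal ?_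
      have e2 : (1 / 2 : ℝ) * x + 1 / 2 * x' = (x + x') / 2 := by ring
      rw [e2]
      have e3 : ∀ z u, d z u = Real.exp (Real.log c0 - u ^ 2 / 2 + Q z u) := by
        intro z u
        have e4 : c0 = Real.exp (Real.log c0) := (Real.exp_log hc0pos).symm
        have e5 : d z u = Real.exp (Real.log c0) * Real.exp (-u ^ 2 / 2) * Real.exp (Q z u) := by
          rw [← e4]
        rw [e5, ← Real.exp_add, ← Real.exp_add]
        congr 1
        ring
      rw [e3, e3, e3, hE, ← Real.exp_mul, ← Real.exp_mul, ← Real.exp_add, ← Real.exp_add]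
      refine Real.exp_le_exp.2 ?_
      have := hpt x x'
      nlinarith [this]
  rw [hGO, hGO, hGO]
  have h11 : a⁻¹ * (a * (κ * α) * t ^ 2) = (κ * α) * t ^ 2 := by field_simp
  have h12 := mul_le_mul_of_nonneg_left key (inv_nonneg.2 ha)
  nlinarith [h11, h12]

end

end Crest.Agent.R146.LocRec_508
end

-- ▼ part R146/LocRec2_508
section

/-!
Row 146, node (G) (localised part), helper508: the nested recursion `recV` started at an
intermediate time `μ` (time points `max (t i) μ`): semigroup, Jensen, scaling, semiconvexity and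
semiconcavity constants.
-/

set_option autoImplicit false

namespace Crest.Agent.R146.LocRec_508

open MeasureTheory ProbabilityTheory Filter Topology Set
open Crest.ProbabilityR.InvariantGlass
open Crest.Agent.R146.S6Def_988
open scoped ENNReal NNReal

noncomputable section

local notation "γ" => gaussianReal 0 1

theorem gaussOp_zero_width (a : ℝ) (F : ℝ → ℝ) (z : ℝ) : gaussOp a 0 F z = F z := by
  unfold gaussOp
  split_ifs with h0
  · simp
  · simp only [Real.sqrt_zero, zero_mul, add_zero, integral_const, probReal_univ, one_smul,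
      Real.log_exp]
    field_simp

/-- two independent Gaussian increments make one. -/
theorem integral_two {φ : ℝ → ℝ} (hφ : Continuous φ) {K : ℝ} (hK : ∀ x, |φ x| ≤ K) {v w : ℝ}
    (hv : 0 ≤ v) (hw : 0 ≤ w) (x : ℝ) :
    ∫ g, (∫ g', φ (x + Real.sqrt v * g + Real.sqrt w * g') ∂γ) ∂γ =
      ∫ g, φ (x + Real.sqrt (v + w) * g) ∂γ := by
  have hmeas : Measurable φ := hφ.measurable
  have hlaw : ((gaussianReal 0 1).prod (gaussianReal 0 1)).map
      (fun p : ℝ × ℝ => Real.sqrt v * p.1 + Real.sqrt w * p.2) =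
      (gaussianReal 0 1).map (fun g => Real.sqrt (v + w) * g) := by
    have h1 : (gaussianReal 0 1).map (fun g : ℝ => Real.sqrt v * g) =
        gaussianReal 0 (Real.toNNReal v) := by
      rw [gaussianReal_map_const_mul]
      congr 1
      · simp
      · ext
        simp [Real.sq_sqrt hv, Real.coe_toNNReal _ hv]
    have h2 : (gaussianReal 0 1).map (fun g : ℝ => Real.sqrt w * g) =
        gaussianReal 0 (Real.toNNReal w) := by
      rw [gaussianReal_map_const_mul]
      congr 1
      · simp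
      · ext
        simp [Real.sq_sqrt hw, Real.coe_toNNReal _ hw]
    have h3 : (gaussianReal 0 1).map (fun g : ℝ => Real.sqrt (v + w) * g) =
        gaussianReal 0 (Real.toNNReal (v + w)) := by
      rw [gaussianReal_map_const_mul]
      congr 1
      · simp
      · ext
        simp [Real.sq_sqrt (add_nonneg hv hw), Real.coe_toNNReal _ (add_nonneg hv hw)]
    rw [h3, Real.toNNReal_add hv hw]
    have h4 : gaussianReal 0 (Real.toNNReal v) ∗ gaussianReal 0 (Real.toNNReal w) =
        gaussianReal (0 + 0) (Real.toNNReal v + Real.toNNReal w) := gaussianReal_conv_gaussianReal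
    rw [add_zero] at h4
    rw [← h4, Measure.conv, ← h1, ← h2, Measure.map_prod_map _ _ (by fun_prop) (by fun_prop),
      Measure.map_map (by fun_prop) (by fun_prop)]
    rfl
  have e1 : ∫ g, (∫ g', φ (x + Real.sqrt v * g + Real.sqrt w * g') ∂γ) ∂γ =
      ∫ p : ℝ × ℝ, φ (x + (Real.sqrt v * p.1 + Real.sqrt w * p.2)) ∂((γ).prod γ) := by
    rw [integral_prod]
    · refine integral_congr_ae (Eventually.of_forall fun g => ?_)
      simp only
      refine integral_congr_ae (Eventually.of_forall fun g' => ?_)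
      simp only
      rw [add_assoc]
    · refine Integrable.mono' (integrable_const K) ?_ (Eventually.of_forall fun p => ?_)
      · exact (hmeas.comp (by fun_prop)).aestronglyMeasurable
      · rw [Real.norm_eq_abs]; exact hK _
  rw [e1]
  have e2 : ∫ p : ℝ × ℝ, φ (x + (Real.sqrt v * p.1 + Real.sqrt w * p.2)) ∂((γ).prod γ) =
      ∫ y, φ (x + y) ∂(((γ).prod γ).map (fun p : ℝ × ℝ => Real.sqrt v * p.1 + Real.sqrt w * p.2)) := by
    rw [integral_map (by fun_prop) (by fun_prop)]
  rw [e2, hlaw, integral_map (by fun_prop) (by fun_prop)]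

/-- semigroup property of `gaussOp a`. -/
theorem gaussOp_semigroup {F : ℝ → ℝ} {K : ℝ} (hF : BC F K) {a : ℝ} (ha : 0 ≤ a) {v w : ℝ}
    (hv : 0 ≤ v) (hw : 0 ≤ w) (x : ℝ) :
    gaussOp a v (gaussOp a w F) x = gaussOp a (v + w) F x := by
  by_cases h0 : a = 0
  · subst h0
    simp only [gaussOp, if_true]
    exact integral_two hF.cont hF.bd hv hw x
  · have ha' : 0 < a := lt_of_le_of_ne ha (Ne.symm h0)
    have hpos := fun z => integral_exp_pos hF a z (Real.sqrt w)
    simp only [gaussOp, if_neg h0]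
    congr 2
    have e : ∀ z : ℝ, Real.exp (a * (a⁻¹ * Real.log (∫ g, Real.exp (a * F (z + Real.sqrt w * g)) ∂γ)))
        = ∫ g, Real.exp (a * F (z + Real.sqrt w * g)) ∂γ := by
      intro z
      rw [← mul_assoc, mul_inv_cancel₀ h0, one_mul, Real.exp_log (hpos z)]
    simp only [e]
    have hc := hF.cont
    refine integral_two (φ := fun y => Real.exp (a * F y)) (by fun_prop)
      (K := Real.exp (|a| * K)) (fun y => ?_) hv hw x
    rw [abs_of_pos (Real.exp_pos _)]
    refine Real.exp_le_exp.2 ?_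
    calc a * F y ≤ |a * F y| := le_abs_self _
      _ = |a| * |F y| := abs_mul _ _
      _ ≤ |a| * K := mul_le_mul_of_nonneg_left (hF.bd _) (abs_nonneg a)

/-- scaling of `gaussOp`. -/
theorem gaussOp_scale (a w : ℝ) (F : ℝ → ℝ) {σ : ℝ} (hσ : 0 ≤ σ) (c x : ℝ) :
    gaussOp a w (fun y => F (c + σ * y)) x = gaussOp a (σ ^ 2 * w) F (c + σ * x) := by
  have hs : Real.sqrt (σ ^ 2 * w) = σ * Real.sqrt w := by
    rw [Real.sqrt_mul (sq_nonneg σ), Real.sqrt_sq hσ]
  unfold gaussOp
  rw [hs]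
  have e : ∀ g : ℝ, c + σ * (x + Real.sqrt w * g) = c + σ * x + σ * Real.sqrt w * g := by
    intro g; ring
  simp only [e]

theorem recV_scale (f : ℝ → ℝ) (t t' m : ℕ → ℝ) (k : ℕ) {σ : ℝ} (hσ : 0 ≤ σ) (c : ℝ)
    (ht : ∀ i, i < k → t (i + 1) - t i = σ ^ 2 * (t' (i + 1) - t' i)) :
    ∀ j ≤ k, ∀ x, recV (fun y => f (c + σ * y)) t' m k j x = recV f t m k j (c + σ * x) := by
  intro j
  induction j with
  | zero => intro _ x; rfl
  | succ j ih =>
    intro hj x
    have ih' := ih (by omega)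
    have e : recV (fun y => f (c + σ * y)) t' m k j = fun y => recV f t m k j (c + σ * y) := by
      funext y; exact ih' y
    show gaussOp (m (k - 1 - j)) (t' (k - j) - t' (k - 1 - j))
      (recV (fun y => f (c + σ * y)) t' m k j) x =
      gaussOp (m (k - 1 - j)) (t (k - j) - t (k - 1 - j)) (recV f t m k j) (c + σ * x)
    rw [e, gaussOp_scale _ _ _ hσ]
    have h1 : k - j = (k - 1 - j) + 1 := by omega
    rw [h1, ht (k - 1 - j) (by omega)]

theorem recV_BC {f : ℝ → ℝ} {K : ℝ} (hf : BC f K) (t m : ℕ → ℝ) (k : ℕ) (hm : ∀ i, 0 ≤ m i) :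
    ∀ j, BC (recV f t m k j) K := by
  intro j
  induction j with
  | zero => exact hf
  | succ j ih => exact gaussOp_BC ih (hm _) _

/-- the recursion from time `μ`, averaged over the missing increment, is below the recursion. -/
theorem recV_split {f : ℝ → ℝ} {K : ℝ} (hf : BC f K) {t m : ℕ → ℝ} {k : ℕ} (hm : ∀ i, 0 ≤ m i)
    (ht : ∀ i, i < k → t i ≤ t (i + 1)) {μ : ℝ} (hμ : μ ≤ t k) :
    ∀ j ≤ k, ∀ x, ∫ g, recV f (fun i => max (t i) μ) m k j
      (x + Real.sqrt (max (μ - t (k - j)) 0) * g) ∂γ ≤ recV f t m k j x := by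
  intro j
  induction j with
  | zero =>
    intro _ x
    have e : max (μ - t (k - 0)) 0 = 0 := by
      rw [Nat.sub_zero]; exact max_eq_right (by linarith)
    rw [e]
    simp [recV]
  | succ j ih =>
    intro hj x
    have ih' := ih (by omega)
    set t1 := t (k - j) with ht1
    set t0 := t (k - 1 - j) with ht0
    have h1 : k - j = (k - 1 - j) + 1 := by omega
    have h01 : t0 ≤ t1 := by
      rw [ht0, ht1, h1]; exact ht _ (by omega)
    have e0 : k - (j + 1) = k - 1 - j := by omega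
    rw [e0, ← ht0]
    set a := m (k - 1 - j) with ha_def
    have ha : 0 ≤ a := hm _
    set Rμ := recV f (fun i => max (t i) μ) m k j with hRμ
    set R := recV f t m k j with hR
    have bμ : BC Rμ K := recV_BC hf _ m k hm j
    have bR : BC R K := recV_BC hf _ m k hm j
    have eμ : recV f (fun i => max (t i) μ) m k (j + 1) =
        gaussOp a (max t1 μ - max t0 μ) Rμ := rfl
    have eR : recV f t m k (j + 1) = gaussOp a (t1 - t0) R := rfl
    rw [eμ, eR]
    rcases le_total μ t0 with h | h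
    · -- `μ ≤ t0`
      have hle : ∀ y, Rμ y ≤ R y := by
        intro y
        have := ih' y
        rw [max_eq_right (by linarith : μ - t1 ≤ 0)] at this
        simpa using this
      rw [max_eq_right (by linarith : μ - t0 ≤ 0), max_eq_left h, max_eq_left (h.trans h01)]
      simp only [Real.sqrt_zero, zero_mul, add_zero, integral_const, probReal_univ, one_smul]
      exact gaussOp_mono bμ bR ha _ hle x
    · rw [max_eq_left (by linarith : (0:ℝ) ≤ μ - t0), max_eq_right h]
      rcases le_total μ t1 with h' | h'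
      · have hle : ∀ y, Rμ y ≤ R y := by
          intro y
          have := ih' y
          rw [max_eq_right (by linarith : μ - t1 ≤ 0)] at this
          simpa using this
        rw [max_eq_left h']
        have b1 := gaussOp_BC bμ ha (t1 - μ)
        have b2 := gaussOp_BC bR ha (t1 - μ)
        calc ∫ g, gaussOp a (t1 - μ) Rμ (x + Real.sqrt (μ - t0) * g) ∂γ
            ≤ ∫ g, gaussOp a (t1 - μ) R (x + Real.sqrt (μ - t0) * g) ∂γ :=
              integral_mono (b1.integrable _ _) (b2.integrable _ _)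
                fun g => gaussOp_mono bμ bR ha _ hle _
          _ ≤ gaussOp a (μ - t0) (gaussOp a (t1 - μ) R) x := gaussOp_jensen b2 ha _ _
          _ = gaussOp a (t1 - t0) R x := by
              rw [gaussOp_semigroup bR ha (by linarith) (by linarith)]
              ring_nf
      · rw [max_eq_right h', sub_self]
        have e2 : gaussOp a 0 Rμ = Rμ := by funext z; exact gaussOp_zero_width a Rμ z
        rw [e2]
        have e3 : μ - t0 = (t1 - t0) + (μ - t1) := by ring
        rw [e3, ← integral_two bμ.cont bμ.bd (by linarith) (by linarith) x]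
        have hle : ∀ y, ∫ g', Rμ (y + Real.sqrt (μ - t1) * g') ∂γ ≤ R y := by
          intro y
          have := ih' y
          rw [max_eq_left (by linarith : 0 ≤ μ - t1)] at this
          exact this
        calc ∫ g, ∫ g', Rμ (x + Real.sqrt (t1 - t0) * g + Real.sqrt (μ - t1) * g') ∂γ ∂γ
            ≤ ∫ g, R (x + Real.sqrt (t1 - t0) * g) ∂γ := by
              refine integral_mono ?_ (bR.integrable _ _) fun g => hle _
              have b0 : BC (gaussOp 0 (μ - t1) Rμ) K := gaussOp_BC bμ le_rfl _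
              have := b0.integrable x (Real.sqrt (t1 - t0))
              refine this.congr (Eventually.of_forall fun g => ?_)
              simp [gaussOp]
          _ ≤ gaussOp a (t1 - t0) R x := gaussOp_jensen bR ha _ _

/-- the mass `∑ m_i (t_{i+1} - t_i)` of the last `j` intervals. -/
def massV (t m : ℕ → ℝ) (k : ℕ) : ℕ → ℝ
  | 0 => 0
  | j + 1 => massV t m k j + m (k - 1 - j) * (t (k - j) - t (k - 1 - j))

theorem massV_nonneg {t m : ℕ → ℝ} {k : ℕ} (hm : ∀ i, 0 ≤ m i)
    (ht : ∀ i, i < k → t i ≤ t (i + 1)) : ∀ j ≤ k, 0 ≤ massV t m k j := by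
  intro j
  induction j with
  | zero => intro _; exact le_rfl
  | succ j ih =>
    intro hj
    have h1 : k - j = (k - 1 - j) + 1 := by omega
    have h2 := ht (k - 1 - j) (by omega)
    rw [← h1] at h2
    exact add_nonneg (ih (by omega)) (mul_nonneg (hm _) (by linarith))

theorem massV_mono {t m : ℕ → ℝ} {k : ℕ} (hm : ∀ i, 0 ≤ m i)
    (ht : ∀ i, i < k → t i ≤ t (i + 1)) {i j : ℕ} (hij : i ≤ j) (hj : j ≤ k) :
    massV t m k i ≤ massV t m k j := by
  induction j with
  | zero => rw [Nat.le_zero.1 hij]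
  | succ j ih =>
    rcases Nat.lt_or_ge i (j + 1) with h | h
    · have h1 : k - j = (k - 1 - j) + 1 := by omega
      have h2 := ht (k - 1 - j) (by omega)
      rw [← h1] at h2
      have := ih (by omega) (by omega)
      show _ ≤ massV t m k j + m (k - 1 - j) * (t (k - j) - t (k - 1 - j))
      have h3 : 0 ≤ m (k - 1 - j) * (t (k - j) - t (k - 1 - j)) :=
        mul_nonneg (hm _) (by linarith)
      linarith
    · have : i = j + 1 := by omega
      rw [this]

theorem recV_midLo {f : ℝ → ℝ} {K : ℝ} (hf : BC f K) {t m : ℕ → ℝ} {k : ℕ} (hm : ∀ i, 0 ≤ m i)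
    (ht : ∀ i, i < k → t i ≤ t (i + 1)) {κ : ℝ} (hκ : 0 ≤ κ) (h : MidLo κ f) :
    ∀ j ≤ k, MidLo (κ / (1 + κ * massV t m k j)) (recV f t m k j) := by
  intro j
  induction j with
  | zero => intro _; simpa [massV, recV] using h
  | succ j ih =>
    intro hj
    have ih' := ih (by omega)
    have h1 : k - j = (k - 1 - j) + 1 := by omega
    have h2 := ht (k - 1 - j) (by omega)
    rw [← h1] at h2
    have hM := massV_nonneg hm ht j (by omega)
    have hpos : 0 < 1 + κ * massV t m k j := by positivity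
    have b := recV_BC hf t m k hm j
    have hw : 0 ≤ t (k - j) - t (k - 1 - j) := by linarith
    have key := gaussOp_midLo b (hm (k - 1 - j)) hw (κ := κ / (1 + κ * massV t m k j))
      (by positivity) ih'
    have e : κ / (1 + κ * massV t m k j) /
        (1 + κ / (1 + κ * massV t m k j) * m (k - 1 - j) * (t (k - j) - t (k - 1 - j))) =
        κ / (1 + κ * massV t m k (j + 1)) := by
      have hM2 : massV t m k (j + 1) =
        massV t m k j + m (k - 1 - j) * (t (k - j) - t (k - 1 - j)) := rfl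
      rw [hM2, div_div]
      congr 1
      field_simp
      ring
    rw [e] at key
    exact key

theorem recV_midHi {f : ℝ → ℝ} {K : ℝ} (hf : BC f K) {t m : ℕ → ℝ} {k : ℕ} (hm : ∀ i, 0 ≤ m i)
    (ht : ∀ i, i < k → t i ≤ t (i + 1)) {κ : ℝ} (hκ : 0 ≤ κ) (h : MidHi κ f)
    (hlt : κ * massV t m k k < 1) :
    ∀ j ≤ k, MidHi (κ / (1 - κ * massV t m k j)) (recV f t m k j) := by
  intro j
  induction j with
  | zero => intro _; simpa [massV, recV] using h
  | succ j ih =>
    intro hj
    have ih' := ih (by omega)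
    have h1 : k - j = (k - 1 - j) + 1 := by omega
    have h2 := ht (k - 1 - j) (by omega)
    rw [← h1] at h2
    have hlt1 : κ * massV t m k (j + 1) < 1 :=
      lt_of_le_of_lt (mul_le_mul_of_nonneg_left (massV_mono hm ht hj le_rfl) hκ) hlt
    have hlt0 : κ * massV t m k j < 1 :=
      lt_of_le_of_lt (mul_le_mul_of_nonneg_left (massV_mono hm ht (by omega) le_rfl) hκ) hlt
    have hM2 : massV t m k (j + 1) =
        massV t m k j + m (k - 1 - j) * (t (k - j) - t (k - 1 - j)) := rfl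
    have hpos : 0 < 1 - κ * massV t m k j := by linarith
    have b := recV_BC hf t m k hm j
    have hw : 0 ≤ t (k - j) - t (k - 1 - j) := by linarith
    have hlt2 : κ / (1 - κ * massV t m k j) * m (k - 1 - j) * (t (k - j) - t (k - 1 - j)) < 1 := by
      rw [div_mul_eq_mul_div, div_mul_eq_mul_div, div_lt_one hpos]
      rw [hM2] at hlt1
      nlinarith
    have key := gaussOp_midHi b (hm (k - 1 - j)) hw (κ := κ / (1 - κ * massV t m k j)) hlt2 ih'
    have e : κ / (1 - κ * massV t m k j) /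
        (1 - κ / (1 - κ * massV t m k j) * m (k - 1 - j) * (t (k - j) - t (k - 1 - j))) =
        κ / (1 - κ * massV t m k (j + 1)) := by
      rw [hM2, div_div]
      congr 1
      field_simp
      ring
    rw [e] at key
    exact key

end

end Crest.Agent.R146.LocRec_508
private theorem rz_54811d152d : type_of% @_root_.Crest.Agent.R146.LocRec_508.massV.eq_def := @_root_.Crest.Agent.R146.LocRec_508.massV.eq_def -- L228
private theorem rz_b4ea5afa11 : type_of% @_root_.Crest.Agent.R146.LocRec_508.massV.eq_1 := @_root_.Crest.Agent.R146.LocRec_508.massV.eq_1 -- L228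
end

-- ▼ part R146/LindA_846
section

/-!
Lindeberg replacement for log-partition functions, part A: one variable calculus.
-/

set_option autoImplicit false

namespace Crest.Agent.R146.LindA_846

open MeasureTheory

/-- One integration step for polynomial bounds. -/
theorem step_bound {f f' : ℝ → ℝ} {C : ℝ} {n : ℕ} (hC : 0 ≤ C)
    (h : ∀ x, HasDerivAt f (f' x) x) (h0 : f 0 = 0)
    (hb : ∀ x, |f' x| ≤ C * |x| ^ n) (x : ℝ) : |f x| ≤ C * |x| ^ (n + 1) := by
  have hs : ∀ s ∈ Set.uIcc 0 x, |s| ≤ |x| := by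
    intro s hs
    rcases le_total 0 x with hx | hx
    · rw [Set.uIcc_of_le hx] at hs
      rw [abs_of_nonneg hs.1, abs_of_nonneg hx]; exact hs.2
    · rw [Set.uIcc_of_ge hx] at hs
      rw [abs_of_nonpos hs.2, abs_of_nonpos hx]; linarith [hs.1]
  have key := Convex.norm_image_sub_le_of_norm_hasDerivWithin_le
    (f := f) (f' := f') (s := Set.uIcc 0 x) (x := 0) (y := x) (C := C * |x| ^ n)
    (fun s _ => (h s).hasDerivWithinAt)
    (fun s hs' => by
      rw [Real.norm_eq_abs]
      exact (hb s).trans (mul_le_mul_of_nonneg_left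
        (pow_le_pow_left₀ (abs_nonneg _) (hs s hs') n) hC))
    (convex_uIcc 0 x) Set.left_mem_uIcc Set.right_mem_uIcc
  rw [h0, sub_zero, sub_zero, Real.norm_eq_abs, Real.norm_eq_abs] at key
  calc |f x| ≤ C * |x| ^ n * |x| := key
    _ = C * |x| ^ (n + 1) := by ring

/-- Fourth order Taylor bound (without the factor `1/24`). -/
theorem taylor_four {g g1 g2 g3 g4 : ℝ → ℝ} {C : ℝ} (hC : 0 ≤ C)
    (h1 : ∀ x, HasDerivAt g (g1 x) x) (h2 : ∀ x, HasDerivAt g1 (g2 x) x)
    (h3 : ∀ x, HasDerivAt g2 (g3 x) x) (h4 : ∀ x, HasDerivAt g3 (g4 x) x)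
    (hb : ∀ x, |g4 x| ≤ C) (x : ℝ) :
    |g x - (g 0 + g1 0 * x + g2 0 * x ^ 2 / 2 + g3 0 * x ^ 3 / 6)| ≤ C * |x| ^ 4 := by
  -- third derivative remainder
  have e3 : ∀ x, |g3 x - g3 0| ≤ C * |x| ^ (0 + 1) := by
    refine step_bound (f' := g4) hC (fun x => ?_) (by simp) (fun x => by simpa using hb x)
    simpa using (h4 x).sub_const (g3 0)
  have e2 : ∀ x, |g2 x - (g2 0 + g3 0 * x)| ≤ C * |x| ^ (0 + 1 + 1) := by
    refine step_bound (f' := fun x => g3 x - g3 0) hC (fun x => ?_) (by simp) e3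
    have hp : HasDerivAt (fun x : ℝ => g2 0 + g3 0 * x) (g3 0) x := by
      refine (((hasDerivAt_id x).const_mul (g3 0)).const_add (g2 0)).congr_deriv ?_
      simp
    exact (h3 x).sub hp
  have e1 : ∀ x, |g1 x - (g1 0 + g2 0 * x + g3 0 * x ^ 2 / 2)| ≤ C * |x| ^ (0 + 1 + 1 + 1) := by
    refine step_bound (f' := fun x => g2 x - (g2 0 + g3 0 * x)) hC (fun x => ?_) (by simp) e2
    have hp : HasDerivAt (fun x : ℝ => g1 0 + g2 0 * x + g3 0 * x ^ 2 / 2) (g2 0 + g3 0 * x) x := by
      have a := ((hasDerivAt_id x).const_mul (g2 0)).const_add (g1 0)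
      have b := ((hasDerivAt_pow 2 x).const_mul (g3 0)).div_const 2
      refine (a.add b).congr_deriv ?_
      norm_num; ring
    exact (h2 x).sub hp
  have e0 : ∀ x, |g x - (g 0 + g1 0 * x + g2 0 * x ^ 2 / 2 + g3 0 * x ^ 3 / 6)|
      ≤ C * |x| ^ (0 + 1 + 1 + 1 + 1) := by
    refine step_bound (f' := fun x => g1 x - (g1 0 + g2 0 * x + g3 0 * x ^ 2 / 2)) hC
      (fun x => ?_) (by simp) e1
    have hp : HasDerivAt (fun x : ℝ => g 0 + g1 0 * x + g2 0 * x ^ 2 / 2 + g3 0 * x ^ 3 / 6)
        (g1 0 + g2 0 * x + g3 0 * x ^ 2 / 2) x := by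
      have a := ((hasDerivAt_id x).const_mul (g1 0)).const_add (g 0)
      have b := ((hasDerivAt_pow 2 x).const_mul (g2 0)).div_const 2
      have c := ((hasDerivAt_pow 3 x).const_mul (g3 0)).div_const 6
      refine ((a.add b).add c).congr_deriv ?_
      norm_num; ring
    exact (h1 x).sub hp
  simpa using e0 x

/-- A potential with four bounded derivatives. -/
structure Pot (K : ℝ) (ψ ψ1 ψ2 ψ3 ψ4 : ℝ → ℝ) : Prop where
  d1 : ∀ x, HasDerivAt ψ (ψ1 x) x
  d2 : ∀ x, HasDerivAt ψ1 (ψ2 x) x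
  d3 : ∀ x, HasDerivAt ψ2 (ψ3 x) x
  d4 : ∀ x, HasDerivAt ψ3 (ψ4 x) x
  b1 : ∀ x, |ψ1 x| ≤ K
  b2 : ∀ x, |ψ2 x| ≤ K
  b3 : ∀ x, |ψ3 x| ≤ K
  b4 : ∀ x, |ψ4 x| ≤ K

/-- `ψ` is a `C^4` potential with derivatives of order `1..4` bounded by `K`. -/
def IsPot (K : ℝ) (ψ : ℝ → ℝ) : Prop :=
  ∃ ψ1 ψ2 ψ3 ψ4 : ℝ → ℝ, Pot K ψ ψ1 ψ2 ψ3 ψ4

theorem IsPot.of_contDiff {K : ℝ} {ψ : ℝ → ℝ} (h : ContDiff ℝ 4 ψ)
    (hb : ∀ k : ℕ, 1 ≤ k → k ≤ 4 → ∀ x, |iteratedDeriv k ψ x| ≤ K) : IsPot K ψ := by
  have hd : ∀ k : ℕ, k < 4 → ∀ x, HasDerivAt (iteratedDeriv k ψ) (iteratedDeriv (k + 1) ψ x) x := by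
    intro k hk x
    have h1 : Differentiable ℝ (iteratedDeriv k ψ) :=
      h.differentiable_iteratedDeriv k (by exact_mod_cast hk)
    rw [iteratedDeriv_succ]
    exact (h1 x).hasDerivAt
  refine ⟨iteratedDeriv 1 ψ, iteratedDeriv 2 ψ, iteratedDeriv 3 ψ, iteratedDeriv 4 ψ, ?_⟩
  constructor
  · intro x; simpa using hd 0 (by norm_num) x
  · exact hd 1 (by norm_num)
  · exact hd 2 (by norm_num)
  · exact hd 3 (by norm_num)
  · exact hb 1 (by norm_num) (by norm_num)
  · exact hb 2 (by norm_num) (by norm_num)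
  · exact hb 3 (by norm_num) (by norm_num)
  · exact hb 4 (by norm_num) (by norm_num)

section pot

variable {K : ℝ} {ψ ψ1 ψ2 ψ3 ψ4 : ℝ → ℝ}

theorem Pot.K_nonneg (h : Pot K ψ ψ1 ψ2 ψ3 ψ4) : 0 ≤ K := (abs_nonneg _).trans (h.b1 0)

/-- Lipschitz bound for a potential. -/
theorem Pot.lip (h : Pot K ψ ψ1 ψ2 ψ3 ψ4) (x y : ℝ) : |ψ x - ψ y| ≤ K * |x - y| := by
  have := Convex.norm_image_sub_le_of_norm_hasDerivWithin_le
    (f := ψ) (f' := ψ1) (s := Set.univ) (x := y) (y := x) (C := K)
    (fun s _ => (h.d1 s).hasDerivWithinAt) (fun s _ => h.b1 s) convex_univ trivial trivial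
  simpa [Real.norm_eq_abs] using this

theorem Pot.continuous (h : Pot K ψ ψ1 ψ2 ψ3 ψ4) : Continuous ψ :=
  continuous_iff_continuousAt.2 fun x => (h.d1 x).continuousAt

/-- the functions `h_k` with `(exp ψ)^{(k)} = h_k exp ψ`. -/
def hk (ψ1 ψ2 ψ3 ψ4 : ℝ → ℝ) : ℕ → ℝ → ℝ
  | 0, _ => 1
  | 1, u => ψ1 u
  | 2, u => ψ2 u + ψ1 u ^ 2
  | 3, u => ψ3 u + 3 * ψ1 u * ψ2 u + ψ1 u ^ 3
  | 4, u => ψ4 u + 4 * ψ1 u * ψ3 u + 3 * ψ2 u ^ 2 + 6 * ψ1 u ^ 2 * ψ2 u + ψ1 u ^ 4
  | _, _ => 0

theorem Pot.meas1 (h : Pot K ψ ψ1 ψ2 ψ3 ψ4) : Measurable ψ1 :=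
  (continuous_iff_continuousAt.2 fun x => (h.d2 x).continuousAt).measurable
theorem Pot.meas2 (h : Pot K ψ ψ1 ψ2 ψ3 ψ4) : Measurable ψ2 :=
  (continuous_iff_continuousAt.2 fun x => (h.d3 x).continuousAt).measurable
theorem Pot.meas3 (h : Pot K ψ ψ1 ψ2 ψ3 ψ4) : Measurable ψ3 :=
  (continuous_iff_continuousAt.2 fun x => (h.d4 x).continuousAt).measurable
theorem Pot.meas4 (h : Pot K ψ ψ1 ψ2 ψ3 ψ4) : Measurable ψ4 := by
  have : ψ4 = deriv ψ3 := funext fun x => (h.d4 x).deriv.symm
  rw [this]; exact measurable_deriv ψ3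

theorem Pot.meas_hk (h : Pot K ψ ψ1 ψ2 ψ3 ψ4) {k : ℕ} (hk4 : k ≤ 4) :
    Measurable (hk ψ1 ψ2 ψ3 ψ4 k) := by
  have m1 := h.meas1
  have m2 := h.meas2
  have m3 := h.meas3
  have m4 := h.meas4
  interval_cases k
  · exact measurable_const
  · exact m1
  · exact m2.add (m1.pow_const 2)
  · exact (m3.add ((m1.const_mul 3).mul m2)).add (m1.pow_const 3)
  · exact (((m4.add ((m1.const_mul 4).mul m3)).add ((m2.pow_const 2).const_mul 3)).add
      (((m1.pow_const 2).const_mul 6).mul m2)).add (m1.pow_const 4)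

/-- the constant bounding all `h_k`. -/
noncomputable def cK (K : ℝ) : ℝ := 15 * (1 + K) ^ 4

theorem one_le_cK {K : ℝ} (hK : 0 ≤ K) : 1 ≤ cK K := by
  unfold cK
  have : (1 : ℝ) ≤ (1 + K) ^ 4 := one_le_pow₀ (by linarith)
  linarith

theorem Pot.bound_hk (h : Pot K ψ ψ1 ψ2 ψ3 ψ4) {k : ℕ} (hk4 : k ≤ 4) (u : ℝ) :
    |hk ψ1 ψ2 ψ3 ψ4 k u| ≤ cK K := by
  have hK := h.K_nonneg
  have b1 := h.b1 u
  have b2 := h.b2 u
  have b3 := h.b3 u
  have b4 := h.b4 u
  have n1 := abs_nonneg (ψ1 u)
  have n2 := abs_nonneg (ψ2 u)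
  have n3 := abs_nonneg (ψ3 u)
  have hK2 : 0 ≤ K ^ 2 := by positivity
  have hK3 : 0 ≤ K ^ 3 := by positivity
  have hK4 : 0 ≤ K ^ 4 := by positivity
  have hexp : cK K = 15 + 60 * K + 90 * K ^ 2 + 60 * K ^ 3 + 15 * K ^ 4 := by
    unfold cK; ring
  have p12 : |ψ1 u| ^ 2 ≤ K ^ 2 := pow_le_pow_left₀ n1 b1 2
  have p22 : |ψ2 u| ^ 2 ≤ K ^ 2 := pow_le_pow_left₀ n2 b2 2
  have p13 : |ψ1 u| ^ 3 ≤ K ^ 3 := pow_le_pow_left₀ n1 b1 3
  have p14 : |ψ1 u| ^ 4 ≤ K ^ 4 := pow_le_pow_left₀ n1 b1 4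
  have q12 : |ψ1 u| * |ψ2 u| ≤ K * K := mul_le_mul b1 b2 n2 hK
  have q13 : |ψ1 u| * |ψ3 u| ≤ K * K := mul_le_mul b1 b3 n3 hK
  have q112 : |ψ1 u| ^ 2 * |ψ2 u| ≤ K ^ 2 * K := mul_le_mul p12 b2 n2 hK2
  interval_cases k
  · simp only [hk]; rw [abs_one]; rw [hexp]; nlinarith
  · simp only [hk]; rw [hexp]; nlinarith
  · simp only [hk]
    calc |ψ2 u + ψ1 u ^ 2| ≤ |ψ2 u| + |ψ1 u| ^ 2 := by
          refine (abs_add_le _ _).trans ?_; rw [abs_pow]
      _ ≤ cK K := by rw [hexp]; nlinarith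
  · simp only [hk]
    calc |ψ3 u + 3 * ψ1 u * ψ2 u + ψ1 u ^ 3|
        ≤ |ψ3 u| + 3 * (|ψ1 u| * |ψ2 u|) + |ψ1 u| ^ 3 := by
          refine (abs_add_le _ _).trans ?_
          rw [abs_pow]
          refine add_le_add ((abs_add_le _ _).trans ?_) le_rfl
          rw [abs_mul, abs_mul]; norm_num; rw [mul_assoc]
      _ ≤ cK K := by rw [hexp]; nlinarith
  · simp only [hk]
    calc |ψ4 u + 4 * ψ1 u * ψ3 u + 3 * ψ2 u ^ 2 + 6 * ψ1 u ^ 2 * ψ2 u + ψ1 u ^ 4|
        ≤ |ψ4 u| + 4 * (|ψ1 u| * |ψ3 u|) + 3 * |ψ2 u| ^ 2 + 6 * (|ψ1 u| ^ 2 * |ψ2 u|)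
            + |ψ1 u| ^ 4 := by
          refine (abs_add_le _ _).trans ?_
          rw [abs_pow]
          refine add_le_add ((abs_add_le _ _).trans ?_) le_rfl
          refine add_le_add ((abs_add_le _ _).trans ?_) ?_
          · refine add_le_add ((abs_add_le _ _).trans ?_) ?_
            · refine add_le_add le_rfl ?_
              rw [abs_mul, abs_mul]; norm_num; rw [mul_assoc]
            · rw [abs_mul, abs_pow]; norm_num
          · rw [abs_mul, abs_mul, abs_pow]; norm_num; rw [mul_assoc]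
      _ ≤ cK K := by rw [hexp]; nlinarith

/-- `E_k = h_k exp ψ` and its derivative. -/
theorem Pot.hasDerivAt_E (h : Pot K ψ ψ1 ψ2 ψ3 ψ4) {k : ℕ} (hk4 : k < 4) (u : ℝ) :
    HasDerivAt (fun u => hk ψ1 ψ2 ψ3 ψ4 k u * Real.exp (ψ u))
      (hk ψ1 ψ2 ψ3 ψ4 (k + 1) u * Real.exp (ψ u)) u := by
  have he : HasDerivAt (fun u => Real.exp (ψ u)) (Real.exp (ψ u) * ψ1 u) u := (h.d1 u).exp
  have a1 := h.d2 u
  have a2 := h.d3 u
  have a3 := h.d4 u
  interval_cases k
  · simp only [hk]
    refine ((hasDerivAt_const u (1 : ℝ)).mul he).congr_deriv ?_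
    ring
  · simp only [hk]
    refine (a1.mul he).congr_deriv ?_
    ring
  · simp only [hk]
    refine ((a2.add (a1.pow 2)).mul he).congr_deriv ?_
    norm_num; ring
  · simp only [hk]
    have b : HasDerivAt (fun u => ψ3 u + 3 * ψ1 u * ψ2 u + ψ1 u ^ 3)
        (ψ4 u + (3 * ψ2 u * ψ2 u + 3 * ψ1 u * ψ3 u) + 3 * ψ1 u ^ 2 * ψ2 u) u := by
      refine ((a3.add ((a1.const_mul 3).mul a2)).add (a1.pow 3)).congr_deriv ?_
      norm_num
    refine (b.mul he).congr_deriv ?_
    ring

end pot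

end Crest.Agent.R146.LindA_846
private theorem rz_23b6b2c6aa : type_of% @_root_.Crest.Agent.R146.LindA_846.hk.eq_1 := @_root_.Crest.Agent.R146.LindA_846.hk.eq_1 -- L125
end

-- ▼ part R146/LindB_846
section

/-!
Lindeberg replacement, part B: the log-partition function as a function of ONE entry.
-/

set_option autoImplicit false

namespace Crest.Agent.R146.LindB_846

open MeasureTheory Crest.Agent.R146.LindA_846

section one

variable {Y : Type*} [MeasurableSpace Y] {μ : Measure Y}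
variable {K : ℝ} {ψ ψ1 ψ2 ψ3 ψ4 : ℝ → ℝ}

/-- the integrand of the `k`-th derivative of the partition function. -/
noncomputable def integrand (ψ ψ1 ψ2 ψ3 ψ4 : ℝ → ℝ) (W t r : Y → ℝ) (k : ℕ) (x : ℝ) (y : Y) : ℝ :=
  t y ^ k * (hk ψ1 ψ2 ψ3 ψ4 k (x * t y + r y) * Real.exp (ψ (x * t y + r y))) * W y

/-- `Z_k (x)`. -/
noncomputable def Z (μ : Measure Y) (ψ ψ1 ψ2 ψ3 ψ4 : ℝ → ℝ) (W t r : Y → ℝ) (k : ℕ) (x : ℝ) : ℝ :=
  ∫ y, integrand ψ ψ1 ψ2 ψ3 ψ4 W t r k x y ∂μ

theorem meas_integrand (h : Pot K ψ ψ1 ψ2 ψ3 ψ4) {W t r : Y → ℝ} (hW : Measurable W)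
    (ht : Measurable t) (hr : Measurable r) {k : ℕ} (hk4 : k ≤ 4) (x : ℝ) :
    Measurable (integrand ψ ψ1 ψ2 ψ3 ψ4 W t r k x) := by
  unfold integrand
  have hu : Measurable fun y => x * t y + r y := (ht.const_mul x).add hr
  exact ((ht.pow_const k).mul (((h.meas_hk hk4).comp hu).mul
    (Real.measurable_exp.comp (h.continuous.measurable.comp hu)))).mul hW

theorem exp_shift_le (h : Pot K ψ ψ1 ψ2 ψ3 ψ4) (u v : ℝ) :
    Real.exp (ψ u) ≤ Real.exp (K * |u - v|) * Real.exp (ψ v) := by
  rw [← Real.exp_add]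
  apply Real.exp_le_exp.2
  have := (abs_le.1 (h.lip u v)).2
  linarith

/-- pointwise domination. -/
theorem abs_integrand_le (h : Pot K ψ ψ1 ψ2 ψ3 ψ4) {W t r : Y → ℝ} (hW0 : ∀ y, 0 ≤ W y)
    {κ : ℝ} (hκ : ∀ y, |t y| ≤ κ) {k : ℕ} (hk4 : k ≤ 4) {x X : ℝ} (hx : |x| ≤ X) (y : Y) :
    |integrand ψ ψ1 ψ2 ψ3 ψ4 W t r k x y|
      ≤ (κ ^ k * cK K * Real.exp (K * (X * κ))) * (Real.exp (ψ (r y)) * W y) := by
  have hK := h.K_nonneg
  have hκ0 : 0 ≤ κ := (abs_nonneg _).trans (hκ y)
  have hX0 : 0 ≤ X := (abs_nonneg _).trans hx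
  unfold integrand
  rw [abs_mul, abs_mul, abs_mul, abs_pow, abs_of_nonneg (hW0 y), abs_of_pos (Real.exp_pos _)]
  have e1 : |t y| ^ k ≤ κ ^ k := pow_le_pow_left₀ (abs_nonneg _) (hκ y) k
  have e2 := h.bound_hk hk4 (x * t y + r y)
  have e3 : Real.exp (ψ (x * t y + r y)) ≤ Real.exp (K * (X * κ)) * Real.exp (ψ (r y)) := by
    refine (exp_shift_le h _ (r y)).trans ?_
    refine mul_le_mul_of_nonneg_right (Real.exp_le_exp.2 ?_) (Real.exp_pos _).le
    refine mul_le_mul_of_nonneg_left ?_ hK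
    rw [add_sub_cancel_right, abs_mul]
    exact mul_le_mul hx (hκ y) (abs_nonneg _) hX0
  have c0 : 0 ≤ cK K := zero_le_one.trans (one_le_cK hK)
  calc |t y| ^ k * (|hk ψ1 ψ2 ψ3 ψ4 k (x * t y + r y)| * Real.exp (ψ (x * t y + r y))) * W y
      ≤ κ ^ k * (cK K * (Real.exp (K * (X * κ)) * Real.exp (ψ (r y)))) * W y := by
        refine mul_le_mul_of_nonneg_right ?_ (hW0 y)
        refine mul_le_mul e1 ?_ (by positivity) (by positivity)
        exact mul_le_mul e2 e3 (Real.exp_pos _).le c0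
    _ = _ := by ring

theorem integrable_integrand (h : Pot K ψ ψ1 ψ2 ψ3 ψ4) {W t r : Y → ℝ} (hW : Measurable W)
    (hW0 : ∀ y, 0 ≤ W y) (ht : Measurable t) (hr : Measurable r)
    {κ : ℝ} (hκ : ∀ y, |t y| ≤ κ)
    (hint : Integrable (fun y => Real.exp (ψ (r y)) * W y) μ) {k : ℕ} (hk4 : k ≤ 4) (x : ℝ) :
    Integrable (integrand ψ ψ1 ψ2 ψ3 ψ4 W t r k x) μ := by
  refine Integrable.mono' (hint.const_mul (κ ^ k * cK K * Real.exp (K * (|x| * κ))))
    (meas_integrand h hW ht hr hk4 x).aestronglyMeasurable (Filter.Eventually.of_forall fun y => ?_)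
  rw [Real.norm_eq_abs]
  exact abs_integrand_le h hW0 hκ hk4 le_rfl y

theorem hasDerivAt_Z (h : Pot K ψ ψ1 ψ2 ψ3 ψ4) {W t r : Y → ℝ} (hW : Measurable W)
    (hW0 : ∀ y, 0 ≤ W y) (ht : Measurable t) (hr : Measurable r)
    {κ : ℝ} (hκ : ∀ y, |t y| ≤ κ)
    (hint : Integrable (fun y => Real.exp (ψ (r y)) * W y) μ) {k : ℕ} (hk4 : k < 4) (x : ℝ) :
    HasDerivAt (Z μ ψ ψ1 ψ2 ψ3 ψ4 W t r k) (Z μ ψ ψ1 ψ2 ψ3 ψ4 W t r (k + 1) x) x := by
  refine (hasDerivAt_integral_of_dominated_loc_of_deriv_le (μ := μ)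
    (F := fun x y => integrand ψ ψ1 ψ2 ψ3 ψ4 W t r k x y)
    (F' := fun x y => integrand ψ ψ1 ψ2 ψ3 ψ4 W t r (k + 1) x y)
    (s := Metric.ball x 1)
    (bound := fun y => (κ ^ (k + 1) * cK K * Real.exp (K * ((|x| + 1) * κ))) *
      (Real.exp (ψ (r y)) * W y)) (Metric.ball_mem_nhds x one_pos) ?_ ?_ ?_ ?_ ?_ ?_).2
  · exact Filter.Eventually.of_forall fun x =>
      (meas_integrand h hW ht hr hk4.le x).aestronglyMeasurable
  · exact integrable_integrand h hW hW0 ht hr hκ hint hk4.le x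
  · exact (meas_integrand h hW ht hr (Nat.succ_le_of_lt hk4) x).aestronglyMeasurable
  · refine Filter.Eventually.of_forall fun y z hz => ?_
    rw [Real.norm_eq_abs]
    refine abs_integrand_le h hW0 hκ (Nat.succ_le_of_lt hk4) ?_ y
    have : |z - x| < 1 := by simpa [Real.dist_eq] using hz
    calc |z| = |(z - x) + x| := by ring_nf
      _ ≤ |z - x| + |x| := abs_add_le _ _
      _ ≤ |x| + 1 := by linarith
  · exact hint.const_mul _
  · refine Filter.Eventually.of_forall fun y z _ => ?_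
    have hu : HasDerivAt (fun z : ℝ => z * t y + r y) (t y) z := by
      simpa using ((hasDerivAt_id z).mul_const (t y)).add_const (r y)
    have hE := (h.hasDerivAt_E hk4 (z * t y + r y)).comp z hu
    have := (hE.const_mul (t y ^ k)).mul_const (W y)
    refine this.congr_deriv ?_
    unfold integrand
    ring

theorem abs_Z_le (h : Pot K ψ ψ1 ψ2 ψ3 ψ4) {W t r : Y → ℝ} (hW : Measurable W)
    (hW0 : ∀ y, 0 ≤ W y) (ht : Measurable t) (hr : Measurable r)
    {κ : ℝ} (hκ0 : 0 ≤ κ) (hκ : ∀ y, |t y| ≤ κ)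
    (hint : Integrable (fun y => Real.exp (ψ (r y)) * W y) μ) {k : ℕ} (hk4 : k ≤ 4) (x : ℝ) :
    |Z μ ψ ψ1 ψ2 ψ3 ψ4 W t r k x| ≤ cK K * κ ^ k * Z μ ψ ψ1 ψ2 ψ3 ψ4 W t r 0 x := by
  unfold Z
  rw [← integral_const_mul]
  refine (abs_integral_le_integral_abs).trans ?_
  refine integral_mono (integrable_integrand h hW hW0 ht hr hκ hint hk4 x).abs
    ((integrable_integrand h hW hW0 ht hr hκ hint (Nat.zero_le _) x).const_mul _) fun y => ?_
  simp only [integrand, pow_zero, hk, one_mul]
  rw [abs_mul, abs_mul, abs_mul, abs_pow, abs_of_nonneg (hW0 y), abs_of_pos (Real.exp_pos _)]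
  have e1 : |t y| ^ k ≤ κ ^ k := pow_le_pow_left₀ (abs_nonneg _) (hκ y) k
  have e2 := h.bound_hk hk4 (x * t y + r y)
  have c0 : 0 ≤ cK K := zero_le_one.trans (one_le_cK h.K_nonneg)
  calc |t y| ^ k * (|hk ψ1 ψ2 ψ3 ψ4 k (x * t y + r y)| * Real.exp (ψ (x * t y + r y))) * W y
      ≤ κ ^ k * (cK K * Real.exp (ψ (x * t y + r y))) * W y := by
        refine mul_le_mul_of_nonneg_right ?_ (hW0 y)
        refine mul_le_mul e1 ?_ (by positivity) (by positivity)
        exact mul_le_mul_of_nonneg_right e2 (Real.exp_pos _).le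
    _ = _ := by ring

theorem Z_zero_pos (h : Pot K ψ ψ1 ψ2 ψ3 ψ4) {W t r : Y → ℝ} (hW : Measurable W)
    (hW0 : ∀ y, 0 ≤ W y) (ht : Measurable t) (hr : Measurable r)
    {κ : ℝ} (hκ0 : 0 ≤ κ) (hκ : ∀ y, |t y| ≤ κ)
    (hint : Integrable (fun y => Real.exp (ψ (r y)) * W y) μ)
    (hpos : 0 < ∫ y, Real.exp (ψ (r y)) * W y ∂μ) (x : ℝ) :
    0 < Z μ ψ ψ1 ψ2 ψ3 ψ4 W t r 0 x := by
  have hK := h.K_nonneg
  have key : Real.exp (-(K * (|x| * κ))) * ∫ y, Real.exp (ψ (r y)) * W y ∂μ
      ≤ Z μ ψ ψ1 ψ2 ψ3 ψ4 W t r 0 x := by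
    unfold Z
    rw [← integral_const_mul]
    refine integral_mono (hint.const_mul _)
      (integrable_integrand h hW hW0 ht hr hκ hint (Nat.zero_le _) x) fun y => ?_
    simp only [integrand, pow_zero, hk, one_mul]
    rw [← mul_assoc]
    refine mul_le_mul_of_nonneg_right ?_ (hW0 y)
    rw [← Real.exp_add]
    refine Real.exp_le_exp.2 ?_
    have e := (abs_le.1 (h.lip (x * t y + r y) (r y))).1
    have e' : K * |x * t y + r y - r y| ≤ K * (|x| * κ) := by
      refine mul_le_mul_of_nonneg_left ?_ hK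
      rw [add_sub_cancel_right, abs_mul]
      exact mul_le_mul_of_nonneg_left (hκ y) (abs_nonneg _)
    linarith
  exact lt_of_lt_of_le (mul_pos (Real.exp_pos _) hpos) key

/-- The one-variable log-partition function. -/
noncomputable def L (μ : Measure Y) (ψ : ℝ → ℝ) (W t r : Y → ℝ) (x : ℝ) : ℝ :=
  Real.log (∫ y, Real.exp (ψ (x * t y + r y)) * W y ∂μ)

theorem L_eq (ψ1 ψ2 ψ3 ψ4 : ℝ → ℝ) (W t r : Y → ℝ) (x : ℝ) :
    L μ ψ W t r x = Real.log (Z μ ψ ψ1 ψ2 ψ3 ψ4 W t r 0 x) := by
  unfold L Z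
  congr 1
  refine integral_congr_ae (Filter.Eventually.of_forall fun y => ?_)
  simp [integrand, hk]

/-- MAIN one-variable estimate. -/
theorem L_taylor (h : Pot K ψ ψ1 ψ2 ψ3 ψ4) {W t r : Y → ℝ} (hW : Measurable W)
    (hW0 : ∀ y, 0 ≤ W y) (ht : Measurable t) (hr : Measurable r)
    {κ : ℝ} (hκ0 : 0 ≤ κ) (hκ : ∀ y, |t y| ≤ κ)
    (hint : Integrable (fun y => Real.exp (ψ (r y)) * W y) μ)
    (hpos : 0 < ∫ y, Real.exp (ψ (r y)) * W y ∂μ) :
    ∃ a0 a1 a2 a3 : ℝ, ∀ x, |L μ ψ W t r x - (a0 + a1 * x + a2 * x ^ 2 + a3 * x ^ 3)|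
      ≤ 26 * cK K ^ 4 * κ ^ 4 * |x| ^ 4 := by
  set Zf : ℕ → ℝ → ℝ := Z μ ψ ψ1 ψ2 ψ3 ψ4 W t r with hZf
  have zpos : ∀ x, 0 < Zf 0 x := Z_zero_pos h hW hW0 ht hr hκ0 hκ hint hpos
  have zne : ∀ x, Zf 0 x ≠ 0 := fun x => (zpos x).ne'
  have D : ∀ k, k < 4 → ∀ x, HasDerivAt (Zf k) (Zf (k + 1) x) x := fun k hk x =>
    hasDerivAt_Z h hW hW0 ht hr hκ hint hk x
  have B : ∀ k, k ≤ 4 → ∀ x, |Zf k x / Zf 0 x| ≤ cK K * κ ^ k := by
    intro k hk x
    rw [abs_div, abs_of_pos (zpos x), div_le_iff₀ (zpos x)]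
    exact abs_Z_le h hW hW0 ht hr hκ0 hκ hint hk x
  -- normalised derivatives
  have dz : ∀ k, k < 4 → ∀ x, HasDerivAt (fun x => Zf k x / Zf 0 x)
      (Zf (k + 1) x / Zf 0 x - Zf k x / Zf 0 x * (Zf 1 x / Zf 0 x)) x := by
    intro k hk x
    refine ((D k hk x).div (D 0 (by norm_num) x) (zne x)).congr_deriv ?_
    have := zne x
    field_simp
    try ring
  set z1 : ℝ → ℝ := fun x => Zf 1 x / Zf 0 x with hz1
  set z2 : ℝ → ℝ := fun x => Zf 2 x / Zf 0 x with hz2
  set z3 : ℝ → ℝ := fun x => Zf 3 x / Zf 0 x with hz3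
  set z4 : ℝ → ℝ := fun x => Zf 4 x / Zf 0 x with hz4
  have dz1 : ∀ x, HasDerivAt z1 (z2 x - z1 x * z1 x) x := fun x => dz 1 (by norm_num) x
  have dz2 : ∀ x, HasDerivAt z2 (z3 x - z2 x * z1 x) x := fun x => dz 2 (by norm_num) x
  have dz3 : ∀ x, HasDerivAt z3 (z4 x - z3 x * z1 x) x := fun x => dz 3 (by norm_num) x
  have g1 : ∀ x, HasDerivAt (fun x => Real.log (Zf 0 x)) (z1 x) x := fun x =>
    (D 0 (by norm_num) x).log (zne x)
  have g2 : ∀ x, HasDerivAt z1 (z2 x - z1 x ^ 2) x := fun x => by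
    simpa [sq] using dz1 x
  have g3 : ∀ x, HasDerivAt (fun x => z2 x - z1 x ^ 2)
      (z3 x - 3 * z1 x * z2 x + 2 * z1 x ^ 3) x := fun x => by
    refine ((dz2 x).sub ((dz1 x).pow 2)).congr_deriv ?_
    norm_num; ring
  have g4 : ∀ x, HasDerivAt (fun x => z3 x - 3 * z1 x * z2 x + 2 * z1 x ^ 3)
      (z4 x - 4 * z1 x * z3 x - 3 * z2 x ^ 2 + 12 * z1 x ^ 2 * z2 x - 6 * z1 x ^ 4) x := fun x => by
    refine (((dz3 x).sub (((dz1 x).const_mul 3).mul (dz2 x))).add
      (((dz1 x).pow 3).const_mul 2)).congr_deriv ?_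
    norm_num; ring
  set c := cK K with hc
  have c1 : 1 ≤ c := one_le_cK h.K_nonneg
  have bound : ∀ x, |z4 x - 4 * z1 x * z3 x - 3 * z2 x ^ 2 + 12 * z1 x ^ 2 * z2 x - 6 * z1 x ^ 4|
      ≤ 26 * c ^ 4 * κ ^ 4 := by
    intro x
    have b1 : |z1 x| ≤ c * κ ^ 1 := B 1 (by norm_num) x
    have b2 : |z2 x| ≤ c * κ ^ 2 := B 2 (by norm_num) x
    have b3 : |z3 x| ≤ c * κ ^ 3 := B 3 (by norm_num) x
    have b4 : |z4 x| ≤ c * κ ^ 4 := B 4 (by norm_num) x
    rw [pow_one] at b1
    have n1 := abs_nonneg (z1 x)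
    have n2 := abs_nonneg (z2 x)
    have n3 := abs_nonneg (z3 x)
    have ck : 0 ≤ c * κ := by positivity
    have ck2 : 0 ≤ c * κ ^ 2 := by positivity
    have m13 : |z1 x| * |z3 x| ≤ (c * κ) * (c * κ ^ 3) := mul_le_mul b1 b3 n3 ck
    have m22 : |z2 x| ^ 2 ≤ (c * κ ^ 2) ^ 2 := pow_le_pow_left₀ n2 b2 2
    have m11 : |z1 x| ^ 2 ≤ (c * κ) ^ 2 := pow_le_pow_left₀ n1 b1 2
    have m112 : |z1 x| ^ 2 * |z2 x| ≤ (c * κ) ^ 2 * (c * κ ^ 2) :=
      mul_le_mul m11 b2 n2 (by positivity)
    have m1111 : |z1 x| ^ 4 ≤ (c * κ) ^ 4 := pow_le_pow_left₀ n1 b1 4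
    have k4 : 0 ≤ κ ^ 4 := by positivity
    have cc1 : c * κ ^ 4 ≤ c ^ 4 * κ ^ 4 :=
      mul_le_mul_of_nonneg_right (by nlinarith [pow_le_pow_right₀ c1 (show 1 ≤ 4 by norm_num)]) k4
    have cc2 : c ^ 2 * κ ^ 4 ≤ c ^ 4 * κ ^ 4 :=
      mul_le_mul_of_nonneg_right (pow_le_pow_right₀ c1 (by norm_num)) k4
    have cc3 : c ^ 3 * κ ^ 4 ≤ c ^ 4 * κ ^ 4 :=
      mul_le_mul_of_nonneg_right (pow_le_pow_right₀ c1 (by norm_num)) k4
    calc |z4 x - 4 * z1 x * z3 x - 3 * z2 x ^ 2 + 12 * z1 x ^ 2 * z2 x - 6 * z1 x ^ 4|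
        ≤ |z4 x| + 4 * (|z1 x| * |z3 x|) + 3 * |z2 x| ^ 2 + 12 * (|z1 x| ^ 2 * |z2 x|)
            + 6 * |z1 x| ^ 4 := by
          refine (abs_sub _ _).trans ?_
          refine add_le_add ((abs_add_le _ _).trans ?_) ?_
          · refine add_le_add ((abs_sub _ _).trans ?_) ?_
            · refine add_le_add ((abs_sub _ _).trans ?_) ?_
              · refine add_le_add le_rfl ?_
                rw [abs_mul, abs_mul]; norm_num; rw [mul_assoc]
              · rw [abs_mul, abs_pow]; norm_num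
            · rw [abs_mul, abs_mul, abs_pow]; norm_num; rw [mul_assoc]
          · rw [abs_mul, abs_pow]; norm_num
      _ ≤ c * κ ^ 4 + 4 * ((c * κ) * (c * κ ^ 3)) + 3 * (c * κ ^ 2) ^ 2
            + 12 * ((c * κ) ^ 2 * (c * κ ^ 2)) + 6 * (c * κ) ^ 4 := by
          gcongr
      _ = c * κ ^ 4 + 7 * (c ^ 2 * κ ^ 4) + 12 * (c ^ 3 * κ ^ 4) + 6 * (c ^ 4 * κ ^ 4) := by ring
      _ ≤ 26 * c ^ 4 * κ ^ 4 := by linarith
  refine ⟨Real.log (Zf 0 0), z1 0, (z2 0 - z1 0 ^ 2) / 2,
    (z3 0 - 3 * z1 0 * z2 0 + 2 * z1 0 ^ 3) / 6, fun x => ?_⟩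
  have T := taylor_four (by positivity) g1 g2 g3 g4 bound x
  rw [L_eq ψ1 ψ2 ψ3 ψ4]
  refine le_trans (le_of_eq ?_) T
  congr 1
  ring

/-- Lipschitz bound of the one variable function. -/
theorem L_lip (h : Pot K ψ ψ1 ψ2 ψ3 ψ4) {W t r : Y → ℝ} (hW : Measurable W)
    (hW0 : ∀ y, 0 ≤ W y) (ht : Measurable t) (hr : Measurable r)
    {κ : ℝ} (hκ0 : 0 ≤ κ) (hκ : ∀ y, |t y| ≤ κ)
    (hint : Integrable (fun y => Real.exp (ψ (r y)) * W y) μ)
    (hpos : 0 < ∫ y, Real.exp (ψ (r y)) * W y ∂μ) (x x' : ℝ) :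
    |L μ ψ W t r x - L μ ψ W t r x'| ≤ K * κ * |x - x'| := by
  have hI : ∀ x, Integrable (fun y => Real.exp (ψ (x * t y + r y)) * W y) μ := by
    intro x
    refine (integrable_integrand h hW hW0 ht hr hκ hint (Nat.zero_le _) x).congr
      (Filter.Eventually.of_forall fun y => ?_)
    simp [integrand, hk]
  have hP : ∀ x, 0 < ∫ y, Real.exp (ψ (x * t y + r y)) * W y ∂μ := by
    intro x
    refine lt_of_lt_of_eq (Z_zero_pos h hW hW0 ht hr hκ0 hκ hint hpos x) ?_
    unfold Z
    refine integral_congr_ae (Filter.Eventually.of_forall fun y => ?_)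
    simp [integrand, hk]
  have one : ∀ x x', L μ ψ W t r x ≤ L μ ψ W t r x' + K * κ * |x - x'| := by
    intro x x'
    unfold L
    have e : ∫ y, Real.exp (ψ (x * t y + r y)) * W y ∂μ ≤
        Real.exp (K * κ * |x - x'|) * ∫ y, Real.exp (ψ (x' * t y + r y)) * W y ∂μ := by
      rw [← integral_const_mul]
      refine integral_mono (hI x) ((hI x').const_mul _) fun y => ?_
      show Real.exp (ψ (x * t y + r y)) * W y ≤
        Real.exp (K * κ * |x - x'|) * (Real.exp (ψ (x' * t y + r y)) * W y)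
      rw [← mul_assoc]
      refine mul_le_mul_of_nonneg_right ?_ (hW0 y)
      refine (exp_shift_le h _ (x' * t y + r y)).trans ?_
      refine mul_le_mul_of_nonneg_right (Real.exp_le_exp.2 ?_) (Real.exp_pos _).le
      rw [mul_assoc]
      refine mul_le_mul_of_nonneg_left ?_ h.K_nonneg
      have : x * t y + r y - (x' * t y + r y) = t y * (x - x') := by ring
      rw [this, abs_mul]
      exact mul_le_mul_of_nonneg_right (hκ y) (abs_nonneg _)
    have := Real.log_le_log (hP x) e
    rw [Real.log_mul (Real.exp_pos _).ne' (hP x').ne', Real.log_exp] at this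
    linarith
  rw [abs_le]
  constructor
  · have := one x' x
    rw [abs_sub_comm] at this
    linarith
  · have := one x x'
    linarith

end one

end Crest.Agent.R146.LindB_846
end

-- ▼ part R146/LindC_846
section

/-!
Lindeberg replacement, part C: product measures, one coordinate at a time.
-/

set_option autoImplicit false

namespace Crest.Agent.R146.LindC_846

open MeasureTheory Crest.Agent.R146.LindA_846 Crest.Agent.R146.LindB_846

section swap

variable {ι : Type*} [Fintype ι] [DecidableEq ι]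

theorem prob_update {ρ : ι → Measure ℝ} (hρ : ∀ i, IsProbabilityMeasure (ρ i)) (i : ι)
    {ν : Measure ℝ} (hν : IsProbabilityMeasure ν) :
    ∀ j, IsProbabilityMeasure (Function.update ρ i ν j) := by
  intro j
  rcases eq_or_ne j i with rfl | hj
  · rw [Function.update_self]; exact hν
  · rw [Function.update_of_ne hj]; exact hρ j

/-- Replacing one factor of a product of probability measures. -/
theorem map_update {ρ : ι → Measure ℝ} (hρ : ∀ i, IsProbabilityMeasure (ρ i)) (i : ι)
    {ν : Measure ℝ} (hν : IsProbabilityMeasure ν) :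
    Measure.map (fun p : (ι → ℝ) × ℝ => Function.update p.1 i p.2) ((Measure.pi ρ).prod ν)
      = Measure.pi (Function.update ρ i ν) := by
  haveI := hρ
  haveI := hν
  haveI : ∀ j, IsProbabilityMeasure (Function.update ρ i ν j) := prob_update hρ i hν
  symm
  refine Measure.pi_eq fun s hs => ?_
  rw [Measure.map_apply measurable_update' (MeasurableSet.univ_pi hs)]
  have hpre : (fun p : (ι → ℝ) × ℝ => Function.update p.1 i p.2) ⁻¹' (Set.univ.pi s)
      = (Set.univ.pi (Function.update s i Set.univ)) ×ˢ (s i) := by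
    ext p
    simp only [Set.mem_preimage, Set.mem_univ_pi, Set.mem_prod]
    constructor
    · intro h
      refine ⟨fun j => ?_, by simpa using h i⟩
      rcases eq_or_ne j i with rfl | hj
      · simp
      · simpa [Function.update_of_ne hj] using h j
    · rintro ⟨h1, h2⟩ j
      rcases eq_or_ne j i with rfl | hj
      · simpa using h2
      · simpa [Function.update_of_ne hj] using h1 j
  rw [hpre, Measure.prod_prod, Measure.pi_pi]
  have e1 : (∏ j, ρ j (Function.update s i Set.univ j))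
      = ∏ j ∈ Finset.univ.erase i, ρ j (s j) := by
    rw [← Finset.mul_prod_erase Finset.univ _ (Finset.mem_univ i)]
    rw [Function.update_self, measure_univ, one_mul]
    refine Finset.prod_congr rfl fun j hj => ?_
    rw [Function.update_of_ne (Finset.ne_of_mem_erase hj)]
  rw [e1, ← Finset.mul_prod_erase Finset.univ _ (Finset.mem_univ i), Function.update_self,
    mul_comm]
  congr 1
  refine Finset.prod_congr rfl fun j hj => ?_
  rw [Function.update_of_ne (Finset.ne_of_mem_erase hj)]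

theorem integrable_abs_eval {ρ : ι → Measure ℝ} (hρ : ∀ i, IsProbabilityMeasure (ρ i))
    (hint : ∀ i, Integrable (fun x : ℝ => x) (ρ i)) (j : ι) :
    Integrable (fun x : ι → ℝ => |x j|) (Measure.pi ρ) := by
  haveI := hρ
  have h := measurePreserving_eval ρ j
  exact (h.integrable_comp_of_integrable (hint j)).abs

/-- a measurable function with linear growth is integrable. -/
theorem integrable_growth {ρ : ι → Measure ℝ} (hρ : ∀ i, IsProbabilityMeasure (ρ i))
    (hint : ∀ i, Integrable (fun x : ℝ => x) (ρ i)) {F : (ι → ℝ) → ℝ} (hF : Measurable F)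
    {C0 C1 : ℝ} (hg : ∀ x, |F x| ≤ C0 + C1 * ∑ j, |x j|) :
    Integrable F (Measure.pi ρ) := by
  haveI := hρ
  refine Integrable.mono' (g := fun x => C0 + C1 * ∑ j, |x j|) ?_ hF.aestronglyMeasurable
    (Filter.Eventually.of_forall fun x => by rw [Real.norm_eq_abs]; exact hg x)
  exact (integrable_const C0).add
    ((integrable_finsetSum _ fun j _ => integrable_abs_eval hρ hint j).const_mul C1)

/-- integral against an updated product. -/
theorem integral_update {ρ : ι → Measure ℝ} (hρ : ∀ i, IsProbabilityMeasure (ρ i))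
    (hint : ∀ i, Integrable (fun x : ℝ => x) (ρ i)) (i : ι)
    {ν : Measure ℝ} (hν : IsProbabilityMeasure ν) (hintν : Integrable (fun x : ℝ => x) ν)
    {F : (ι → ℝ) → ℝ} (hF : Measurable F)
    {C0 C1 : ℝ} (hg : ∀ x, |F x| ≤ C0 + C1 * ∑ j, |x j|) :
    (∫ x, F x ∂Measure.pi (Function.update ρ i ν)
      = ∫ x, (∫ t, F (Function.update x i t) ∂ν) ∂Measure.pi ρ) ∧
    Integrable (fun x => ∫ t, F (Function.update x i t) ∂ν) (Measure.pi ρ) := by
  haveI := hρ
  haveI := hν
  have hpr := prob_update hρ i hν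
  have hi : ∀ j, Integrable (fun x : ℝ => x) (Function.update ρ i ν j) := by
    intro j
    rcases eq_or_ne j i with rfl | hj
    · rw [Function.update_self]; exact hintν
    · rw [Function.update_of_ne hj]; exact hint j
  have hI : Integrable F (Measure.pi (Function.update ρ i ν)) := integrable_growth hpr hi hF hg
  rw [← map_update hρ i hν] at hI
  have hI2 : Integrable (fun p : (ι → ℝ) × ℝ => F (Function.update p.1 i p.2))
      ((Measure.pi ρ).prod ν) := hI.comp_measurable measurable_update'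
  refine ⟨?_, hI2.integral_prod_left⟩
  rw [← map_update hρ i hν, integral_map measurable_update'.aemeasurable hF.aestronglyMeasurable]
  exact integral_prod _ hI2

/-- HYBRID LEMMA. -/
theorem swap {μ ν : ι → Measure ℝ} (hμ : ∀ i, IsProbabilityMeasure (μ i))
    (hν : ∀ i, IsProbabilityMeasure (ν i))
    (hiμ : ∀ i, Integrable (fun x : ℝ => x) (μ i)) (hiν : ∀ i, Integrable (fun x : ℝ => x) (ν i))
    {F : (ι → ℝ) → ℝ} (hF : Measurable F)
    {C0 C1 : ℝ} (hg : ∀ x, |F x| ≤ C0 + C1 * ∑ j, |x j|) {δ : ι → ℝ}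
    (hδ : ∀ i, ∀ x : ι → ℝ, |∫ t, F (Function.update x i t) ∂μ i
      - ∫ t, F (Function.update x i t) ∂ν i| ≤ δ i) :
    |∫ x, F x ∂Measure.pi μ - ∫ x, F x ∂Measure.pi ν| ≤ ∑ i, δ i := by
  classical
  have key : ∀ s : Finset ι,
      |∫ x, F x ∂Measure.pi (s.piecewise μ ν) - ∫ x, F x ∂Measure.pi ν| ≤ ∑ i ∈ s, δ i := by
    intro s
    induction s using Finset.induction_on with
    | empty => simp
    | insert i s his ih =>
      rw [Finset.sum_insert his]
      have hp : ∀ j, IsProbabilityMeasure (s.piecewise μ ν j) := by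
        intro j
        by_cases hj : j ∈ s
        · rw [Finset.piecewise_eq_of_mem _ _ _ hj]; exact hμ j
        · rw [Finset.piecewise_eq_of_notMem _ _ _ hj]; exact hν j
      have hI : ∀ j, Integrable (fun x : ℝ => x) (s.piecewise μ ν j) := by
        intro j
        by_cases hj : j ∈ s
        · rw [Finset.piecewise_eq_of_mem _ _ _ hj]; exact hiμ j
        · rw [Finset.piecewise_eq_of_notMem _ _ _ hj]; exact hiν j
      have e1 : (insert i s).piecewise μ ν = Function.update (s.piecewise μ ν) i (μ i) :=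
        Finset.piecewise_insert _ _ _ _
      have e2 : s.piecewise μ ν = Function.update (s.piecewise μ ν) i (ν i) := by
        have : s.piecewise μ ν i = ν i := Finset.piecewise_eq_of_notMem _ _ _ his
        rw [← this, Function.update_eq_self]
      obtain ⟨a1, b1⟩ := integral_update hp hI i (hμ i) (hiμ i) hF hg
      obtain ⟨a2, b2⟩ := integral_update hp hI i (hν i) (hiν i) hF hg
      haveI := hp
      have d : |∫ x, F x ∂Measure.pi ((insert i s).piecewise μ ν)
          - ∫ x, F x ∂Measure.pi (s.piecewise μ ν)| ≤ δ i := by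
        rw [e1]
        nth_rewrite 2 [e2]
        rw [a1, a2, ← integral_sub b1 b2]
        have : |∫ x, ((∫ t, F (Function.update x i t) ∂μ i)
            - ∫ t, F (Function.update x i t) ∂ν i) ∂Measure.pi (s.piecewise μ ν)|
            ≤ ∫ _x, δ i ∂Measure.pi (s.piecewise μ ν) := by
          refine (abs_integral_le_integral_abs).trans ?_
          exact integral_mono (b1.sub b2).abs (integrable_const _) fun x => hδ i x
        simpa using this
      calc _ ≤ |∫ x, F x ∂Measure.pi ((insert i s).piecewise μ ν)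
              - ∫ x, F x ∂Measure.pi (s.piecewise μ ν)|
            + |∫ x, F x ∂Measure.pi (s.piecewise μ ν) - ∫ x, F x ∂Measure.pi ν| :=
            abs_sub_le _ _ _
        _ ≤ _ := add_le_add d ih
  have := key Finset.univ
  simpa using this

end swap

/-- Two laws with three matching moments. -/
structure Match3 (ν1 ν2 : Measure ℝ) (m4 : ℝ) : Prop where
  p1 : IsProbabilityMeasure ν1
  p2 : IsProbabilityMeasure ν2
  i1 : ∀ k : ℕ, k ≤ 4 → Integrable (fun x : ℝ => x ^ k) ν1
  i2 : ∀ k : ℕ, k ≤ 4 → Integrable (fun x : ℝ => x ^ k) ν2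
  eq : ∀ k : ℕ, k ≤ 3 → ∫ x, x ^ k ∂ν1 = ∫ x, x ^ k ∂ν2
  b1 : ∫ x, x ^ 4 ∂ν1 ≤ m4
  b2 : ∫ x, x ^ 4 ∂ν2 ≤ m4

/-- one variable comparison. -/
theorem Match3.compare {ν1 ν2 : Measure ℝ} {m4 : ℝ} (h : Match3 ν1 ν2 m4) {g : ℝ → ℝ}
    (hg : Measurable g) {a0 a1 a2 a3 C : ℝ} (hC : 0 ≤ C)
    (ht : ∀ x, |g x - (a0 + a1 * x + a2 * x ^ 2 + a3 * x ^ 3)| ≤ C * |x| ^ 4) :
    |∫ x, g x ∂ν1 - ∫ x, g x ∂ν2| ≤ 2 * C * m4 := by
  haveI := h.p1
  haveI := h.p2
  have poly : ∀ (ν : Measure ℝ) [IsProbabilityMeasure ν],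
      (∀ k : ℕ, k ≤ 4 → Integrable (fun x : ℝ => x ^ k) ν) →
      Integrable (fun x : ℝ => a0 + a1 * x + a2 * x ^ 2 + a3 * x ^ 3) ν ∧
      ∫ x, (a0 + a1 * x + a2 * x ^ 2 + a3 * x ^ 3) ∂ν = a0 + a1 * (∫ x, x ^ 1 ∂ν)
        + a2 * (∫ x, x ^ 2 ∂ν) + a3 * (∫ x, x ^ 3 ∂ν) := by
    intro ν _ hi
    have j1 : Integrable (fun x : ℝ => a1 * x) ν := by
      simpa using (hi 1 (by norm_num)).const_mul a1
    have j2 : Integrable (fun x : ℝ => a2 * x ^ 2) ν := (hi 2 (by norm_num)).const_mul a2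
    have j3 : Integrable (fun x : ℝ => a3 * x ^ 3) ν := (hi 3 (by norm_num)).const_mul a3
    refine ⟨(((integrable_const a0).add j1).add j2).add j3, ?_⟩
    have s3 := integral_add (((integrable_const a0).add j1).add j2) j3
    have s2 := integral_add ((integrable_const a0).add j1) j2
    have s1 := integral_add (integrable_const a0) j1
    simp only [Pi.add_apply] at s1 s2 s3
    rw [s3, s2, s1, integral_const_mul, integral_const_mul, integral_const_mul]
    simp
  have rem : ∀ (ν : Measure ℝ) [IsProbabilityMeasure ν],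
      (∀ k : ℕ, k ≤ 4 → Integrable (fun x : ℝ => x ^ k) ν) → ∫ x, x ^ 4 ∂ν ≤ m4 →
      |∫ x, g x ∂ν - (a0 + a1 * (∫ x, x ^ 1 ∂ν)
        + a2 * (∫ x, x ^ 2 ∂ν) + a3 * (∫ x, x ^ 3 ∂ν))| ≤ C * m4 := by
    intro ν _ hi h4
    obtain ⟨pI, pe⟩ := poly ν hi
    have hR : Integrable (fun x => g x - (a0 + a1 * x + a2 * x ^ 2 + a3 * x ^ 3)) ν := by
      refine Integrable.mono' (g := fun x => C * x ^ 4) ((hi 4 le_rfl).const_mul C)
        (hg.sub (by fun_prop)).aestronglyMeasurable (Filter.Eventually.of_forall fun x => ?_)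
      rw [Real.norm_eq_abs]
      refine (ht x).trans (le_of_eq ?_)
      rw [show |x| ^ 4 = x ^ 4 by rw [← abs_pow]; exact abs_of_nonneg (by positivity)]
    have hgI : Integrable g ν := by
      have := hR.add pI
      refine this.congr (Filter.Eventually.of_forall fun x => ?_)
      simp
    rw [← pe, ← integral_sub hgI pI]
    refine (abs_integral_le_integral_abs).trans ?_
    calc ∫ x, |g x - (a0 + a1 * x + a2 * x ^ 2 + a3 * x ^ 3)| ∂ν
        ≤ ∫ x, C * x ^ 4 ∂ν := by
          refine integral_mono hR.abs ((hi 4 le_rfl).const_mul C) fun x => ?_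
          refine (ht x).trans (le_of_eq ?_)
          rw [show |x| ^ 4 = x ^ 4 by rw [← abs_pow]; exact abs_of_nonneg (by positivity)]
      _ = C * ∫ x, x ^ 4 ∂ν := integral_const_mul _ _
      _ ≤ C * m4 := mul_le_mul_of_nonneg_left h4 hC
  have r1 := rem ν1 h.i1 h.b1
  have r2 := rem ν2 h.i2 h.b2
  rw [h.eq 1 (by norm_num), h.eq 2 (by norm_num), h.eq 3 (by norm_num)] at r1
  have h3 := abs_sub_le (∫ x, g x ∂ν1) (a0 + a1 * (∫ x, x ^ 1 ∂ν2)
        + a2 * (∫ x, x ^ 2 ∂ν2) + a3 * (∫ x, x ^ 3 ∂ν2)) (∫ x, g x ∂ν2)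
  have h4 := abs_sub_comm (a0 + a1 * (∫ x, x ^ 1 ∂ν2)
        + a2 * (∫ x, x ^ 2 ∂ν2) + a3 * (∫ x, x ^ 3 ∂ν2)) (∫ x, g x ∂ν2)
  linarith

/-! ### the general Lindeberg bound -/

section main

variable {Y : Type*} [MeasurableSpace Y] {𝓐 𝓘 : Type*} [Fintype 𝓐] [Fintype 𝓘]

/-- local field of row `a`. -/
def field (r : 𝓐 → Y → ℝ) (t : 𝓘 → Y → ℝ) (A : 𝓐 × 𝓘 → ℝ) (a : 𝓐) (y : Y) : ℝ :=
  r a y + ∑ i, A (a, i) * t i y

/-- log-partition function. -/
noncomputable def logZ (μ : Measure Y) (ψ : 𝓐 → ℝ → ℝ) (r : 𝓐 → Y → ℝ) (t : 𝓘 → Y → ℝ)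
    (A : 𝓐 × 𝓘 → ℝ) : ℝ :=
  Real.log (∫ y, Real.exp (∑ a, ψ a (field r t A a y)) ∂μ)

theorem meas_field {r : 𝓐 → Y → ℝ} {t : 𝓘 → Y → ℝ} (hr : ∀ a, Measurable (r a))
    (ht : ∀ i, Measurable (t i)) (A : 𝓐 × 𝓘 → ℝ) (a : 𝓐) : Measurable (field r t A a) := by
  unfold field
  exact (hr a).add (Finset.measurable_fun_sum _ fun i _ => (ht i).const_mul _)

variable [DecidableEq 𝓐] [DecidableEq 𝓘]

theorem field_update_ne (r : 𝓐 → Y → ℝ) (t : 𝓘 → Y → ℝ) (A : 𝓐 × 𝓘 → ℝ) {a b : 𝓐} (i : 𝓘)
    (hb : b ≠ a) (x : ℝ) (y : Y) :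
    field r t (Function.update A (a, i) x) b y = field r t A b y := by
  unfold field
  congr 1
  refine Finset.sum_congr rfl fun j _ => ?_
  rw [Function.update_of_ne]
  intro h
  exact hb (congrArg Prod.fst h)

theorem field_update_self (r : 𝓐 → Y → ℝ) (t : 𝓘 → Y → ℝ) (A : 𝓐 × 𝓘 → ℝ) (a : 𝓐) (i : 𝓘)
    (x : ℝ) (y : Y) :
    field r t (Function.update A (a, i) x) a y
      = x * t i y + field r t (Function.update A (a, i) 0) a y := by
  unfold field
  have e : ∀ z : ℝ, ∑ j, Function.update A (a, i) z (a, j) * t j y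
      = z * t i y + ∑ j ∈ Finset.univ.erase i, A (a, j) * t j y := by
    intro z
    rw [← Finset.add_sum_erase Finset.univ _ (Finset.mem_univ i), Function.update_self]
    congr 1
    refine Finset.sum_congr rfl fun j hj => ?_
    rw [Function.update_of_ne]
    intro h
    exact (Finset.ne_of_mem_erase hj) (congrArg Prod.snd h)
  rw [e x, e 0]
  ring

/-- as a function of one entry, `logZ` is the function `L` of part B. -/
theorem logZ_update (μ : Measure Y) (ψ : 𝓐 → ℝ → ℝ) (r : 𝓐 → Y → ℝ) (t : 𝓘 → Y → ℝ)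
    (A : 𝓐 × 𝓘 → ℝ) (a : 𝓐) (i : 𝓘) (x : ℝ) :
    logZ μ ψ r t (Function.update A (a, i) x)
      = L μ (ψ a) (fun y => Real.exp (∑ b ∈ Finset.univ.erase a, ψ b (field r t A b y)))
          (t i) (field r t (Function.update A (a, i) 0) a) x := by
  unfold logZ L
  congr 1
  refine integral_congr_ae (Filter.Eventually.of_forall fun y => ?_)
  show Real.exp (∑ b, ψ b (field r t (Function.update A (a, i) x) b y)) = _
  rw [← Finset.add_sum_erase Finset.univ _ (Finset.mem_univ a), Real.exp_add,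
    field_update_self]
  congr 2
  refine Finset.sum_congr rfl fun b hb => ?_
  rw [field_update_ne _ _ _ _ (Finset.ne_of_mem_erase hb)]

/-- hypotheses on the potentials: `C^4` with bounded derivatives and bounded above. -/
structure Setup (μ : Measure Y) (K B κ : ℝ) (ψ : 𝓐 → ℝ → ℝ) (r : 𝓐 → Y → ℝ)
    (t : 𝓘 → Y → ℝ) : Prop where
  fin : IsFiniteMeasure μ
  ne : NeZero μ
  pot : ∀ a, IsPot K (ψ a)
  bdd : ∀ a x, ψ a x ≤ B
  mr : ∀ a, Measurable (r a)
  mt : ∀ i, Measurable (t i)
  κ0 : 0 ≤ κ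
  bt : ∀ i y, |t i y| ≤ κ

section
variable {μ : Measure Y} {K B κ : ℝ} {ψ : 𝓐 → ℝ → ℝ} {r : 𝓐 → Y → ℝ} {t : 𝓘 → Y → ℝ}

omit [DecidableEq 𝓐] [DecidableEq 𝓘] in
theorem Setup.meas_exp (S : Setup μ K B κ ψ r t) (s : Finset 𝓐) (A : 𝓐 × 𝓘 → ℝ) :
    Measurable (fun y => Real.exp (∑ b ∈ s, ψ b (field r t A b y))) := by
  refine Real.measurable_exp.comp (Finset.measurable_fun_sum _ fun b _ => ?_)
  obtain ⟨_, _, _, _, h⟩ := S.pot b
  exact h.continuous.measurable.comp (meas_field S.mr S.mt A b)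

omit [DecidableEq 𝓐] [DecidableEq 𝓘] in
theorem Setup.integrable_exp (S : Setup μ K B κ ψ r t) (A : 𝓐 × 𝓘 → ℝ) :
    Integrable (fun y => Real.exp (∑ b, ψ b (field r t A b y))) μ := by
  haveI := S.fin
  refine Integrable.mono' (g := fun _ => Real.exp (∑ _b : 𝓐, B)) (integrable_const _)
    (S.meas_exp _ A).aestronglyMeasurable (Filter.Eventually.of_forall fun y => ?_)
  rw [Real.norm_eq_abs, abs_of_pos (Real.exp_pos _)]
  exact Real.exp_le_exp.2 (Finset.sum_le_sum fun b _ => S.bdd b _)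

theorem Setup.split (S : Setup μ K B κ ψ r t) (A : 𝓐 × 𝓘 → ℝ) (a : 𝓐) (i : 𝓘) :
    Integrable (fun y => Real.exp (ψ a (field r t (Function.update A (a, i) 0) a y)) *
      Real.exp (∑ b ∈ Finset.univ.erase a, ψ b (field r t A b y))) μ ∧
    0 < ∫ y, Real.exp (ψ a (field r t (Function.update A (a, i) 0) a y)) *
      Real.exp (∑ b ∈ Finset.univ.erase a, ψ b (field r t A b y)) ∂μ := by
  haveI := S.fin
  haveI := S.ne
  have e : (fun y => Real.exp (ψ a (field r t (Function.update A (a, i) 0) a y)) *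
      Real.exp (∑ b ∈ Finset.univ.erase a, ψ b (field r t A b y)))
      = fun y => Real.exp (∑ b, ψ b (field r t (Function.update A (a, i) 0) b y)) := by
    funext y
    rw [← Finset.add_sum_erase Finset.univ _ (Finset.mem_univ a), Real.exp_add]
    congr 2
    refine Finset.sum_congr rfl fun b hb => ?_
    rw [field_update_ne _ _ _ _ (Finset.ne_of_mem_erase hb)]
  rw [e]
  exact ⟨S.integrable_exp _, integral_exp_pos (S.integrable_exp _)⟩

theorem Setup.taylor (S : Setup μ K B κ ψ r t) (A : 𝓐 × 𝓘 → ℝ) (a : 𝓐) (i : 𝓘) :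
    ∃ a0 a1 a2 a3 : ℝ, ∀ x, |logZ μ ψ r t (Function.update A (a, i) x)
      - (a0 + a1 * x + a2 * x ^ 2 + a3 * x ^ 3)| ≤ 26 * cK K ^ 4 * κ ^ 4 * |x| ^ 4 := by
  obtain ⟨_, _, _, _, h⟩ := S.pot a
  obtain ⟨s1, s2⟩ := S.split A a i
  obtain ⟨a0, a1, a2, a3, H⟩ := L_taylor h (S.meas_exp _ A) (fun y => (Real.exp_pos _).le)
    (S.mt i) (meas_field S.mr S.mt _ a) S.κ0 (S.bt i) s1 s2
  refine ⟨a0, a1, a2, a3, fun x => ?_⟩
  rw [logZ_update]
  exact H x

theorem Setup.lip1 (S : Setup μ K B κ ψ r t) (A : 𝓐 × 𝓘 → ℝ) (a : 𝓐) (i : 𝓘) (x x' : ℝ) :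
    |logZ μ ψ r t (Function.update A (a, i) x) - logZ μ ψ r t (Function.update A (a, i) x')|
      ≤ K * κ * |x - x'| := by
  obtain ⟨_, _, _, _, h⟩ := S.pot a
  obtain ⟨s1, s2⟩ := S.split A a i
  rw [logZ_update, logZ_update]
  exact L_lip h (S.meas_exp _ A) (fun y => (Real.exp_pos _).le)
    (S.mt i) (meas_field S.mr S.mt _ a) S.κ0 (S.bt i) s1 s2 x x'

omit [DecidableEq 𝓐] [DecidableEq 𝓘] in
/-- global Lipschitz bound in the entries (ℓ¹ norm). -/
theorem Setup.lip (S : Setup μ K B κ ψ r t) (A A' : 𝓐 × 𝓘 → ℝ) :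
    |logZ μ ψ r t A - logZ μ ψ r t A'| ≤ K * κ * ∑ p, |A p - A' p| := by
  classical
  have key : ∀ s : Finset (𝓐 × 𝓘),
      |logZ μ ψ r t (s.piecewise A A') - logZ μ ψ r t A'| ≤ K * κ * ∑ p ∈ s, |A p - A' p| := by
    intro s
    induction s using Finset.induction_on with
    | empty => simp
    | insert p s hp ih =>
      rw [Finset.sum_insert hp, mul_add]
      have e1 : (insert p s).piecewise A A' = Function.update (s.piecewise A A') p (A p) :=
        Finset.piecewise_insert _ _ _ _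
      have e2 : s.piecewise A A' = Function.update (s.piecewise A A') p (A' p) := by
        have : s.piecewise A A' p = A' p := Finset.piecewise_eq_of_notMem _ _ _ hp
        rw [← this, Function.update_eq_self]
      have d : |logZ μ ψ r t ((insert p s).piecewise A A') - logZ μ ψ r t (s.piecewise A A')|
          ≤ K * κ * |A p - A' p| := by
        rw [e1]
        nth_rewrite 2 [e2]
        exact S.lip1 (s.piecewise A A') p.1 p.2 (A p) (A' p)
      calc _ ≤ _ := abs_sub_le _ (logZ μ ψ r t (s.piecewise A A')) _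
        _ ≤ _ := add_le_add d ih
  simpa using key Finset.univ

omit [DecidableEq 𝓐] [DecidableEq 𝓘] in
theorem Setup.continuous (S : Setup μ K B κ ψ r t) : Continuous (logZ μ ψ r t) := by
  rw [continuous_iff_continuousAt]
  intro A
  rw [ContinuousAt, tendsto_iff_dist_tendsto_zero]
  have h1 : Filter.Tendsto (fun A' : 𝓐 × 𝓘 → ℝ => K * κ * ∑ p, |A' p - A p|) (nhds A)
      (nhds 0) := by
    have : Continuous (fun A' : 𝓐 × 𝓘 → ℝ => K * κ * ∑ p, |A' p - A p|) := by fun_prop
    simpa using this.tendsto A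
  refine squeeze_zero (fun _ => dist_nonneg) (fun A' => ?_) h1
  rw [Real.dist_eq]
  exact S.lip A' A

omit [DecidableEq 𝓐] [DecidableEq 𝓘] in
theorem Setup.growth (S : Setup μ K B κ ψ r t) (A : 𝓐 × 𝓘 → ℝ) :
    |logZ μ ψ r t A| ≤ |logZ μ ψ r t 0| + K * κ * ∑ p, |A p| := by
  have := S.lip A 0
  have h2 : |logZ μ ψ r t A| ≤ |logZ μ ψ r t A - logZ μ ψ r t 0| + |logZ μ ψ r t 0| := by
    calc |logZ μ ψ r t A| = |(logZ μ ψ r t A - logZ μ ψ r t 0) + logZ μ ψ r t 0| := by ring_nf
      _ ≤ _ := abs_add_le _ _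
  simp only [Pi.zero_apply, sub_zero] at this
  linarith

omit [DecidableEq 𝓐] [DecidableEq 𝓘] in
/-- integrability of the log-partition function against products of laws with a first moment. -/
theorem Setup.integrable (S : Setup μ K B κ ψ r t) {ρ : 𝓐 × 𝓘 → Measure ℝ}
    (hρ : ∀ p, IsProbabilityMeasure (ρ p)) (hint : ∀ p, Integrable (fun x : ℝ => x) (ρ p)) :
    Integrable (logZ μ ψ r t) (Measure.pi ρ) := by
  classical
  exact integrable_growth hρ hint S.continuous.measurable S.growth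

omit [DecidableEq 𝓐] [DecidableEq 𝓘] in
/-- **Lindeberg comparison** for log-partition functions with `C^4` potentials. -/
theorem Setup.lindeberg (S : Setup μ K B κ ψ r t) {ν1 ν2 : 𝓐 × 𝓘 → Measure ℝ} {m4 : ℝ}
    (h : ∀ p, Match3 (ν1 p) (ν2 p) m4) :
    |∫ A, logZ μ ψ r t A ∂Measure.pi ν1 - ∫ A, logZ μ ψ r t A ∂Measure.pi ν2|
      ≤ Fintype.card 𝓐 * Fintype.card 𝓘 * (52 * cK K ^ 4 * κ ^ 4 * m4) := by
  classical
  have hc := swap (fun p => (h p).p1) (fun p => (h p).p2)
    (fun p => by simpa using (h p).i1 1 (by norm_num))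
    (fun p => by simpa using (h p).i2 1 (by norm_num))
    S.continuous.measurable S.growth (δ := fun _ => 2 * (26 * cK K ^ 4 * κ ^ 4) * m4) ?_
  · refine hc.trans (le_of_eq ?_)
    rw [Finset.sum_const, Finset.card_univ, Fintype.card_prod, nsmul_eq_mul]
    push_cast
    ring
  · rintro ⟨a, i⟩ A
    obtain ⟨a0, a1, a2, a3, H⟩ := S.taylor A a i
    refine (h (a, i)).compare ?_ (by positivity) H
    exact S.continuous.measurable.comp (measurable_update A)

end

end main

end Crest.Agent.R146.LindC_846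
end

-- ▼ part R146/LindD_846
section

/-!
Lindeberg replacement, part D: the scale mixture `mixtureLaw ε` against the standard Gaussian law,
and the comparison under `patternLawMix` and `patternLaw`.
-/

set_option autoImplicit false

namespace Crest.Agent.R146.LindD_846

open MeasureTheory ProbabilityTheory Crest.Agent.R146.LindA_846 Crest.Agent.R146.LindB_846
  Crest.Agent.R146.LindC_846
open Crest.ProbabilityR.Perceptron

/-- all powers are integrable for a centred Gaussian law. -/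
theorem integrable_pow_gaussianReal (v : NNReal) (k : ℕ) :
    Integrable (fun x : ℝ => x ^ k) (gaussianReal 0 v) := by
  have h := memLp_id_gaussianReal (μ := 0) (v := v) (k : NNReal)
  have h2 := h.integrable_norm_pow'
  refine (integrable_norm_iff (by fun_prop)).1 ?_
  simpa using h2

theorem odd_moment_gaussianReal (v : NNReal) {k : ℕ} (hk : Odd k) :
    ∫ x, x ^ k ∂gaussianReal 0 v = 0 := by
  have hmap : (gaussianReal 0 v).map (fun x => -x) = gaussianReal 0 v := by
    rw [gaussianReal_map_neg]; simp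
  have h1 : ∫ x, x ^ k ∂gaussianReal 0 v = ∫ x, (-x) ^ k ∂gaussianReal 0 v := by
    conv_lhs => rw [← hmap]
    rw [integral_map (by fun_prop) (by fun_prop)]
  have h2 : ∫ x, (-x) ^ k ∂gaussianReal 0 v = - ∫ x, x ^ k ∂gaussianReal 0 v := by
    rw [← integral_neg]
    refine integral_congr_ae (Filter.Eventually.of_forall fun x => ?_)
    exact hk.neg_pow x
  linarith

theorem sq_moment_gaussianReal (v : NNReal) :
    ∫ x, x ^ 2 ∂gaussianReal 0 v = v := by
  have h := variance_fun_id_gaussianReal (μ := 0) (v := v)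
  rw [variance_eq_integral (by fun_prop)] at h
  rw [← h]
  refine integral_congr_ae (Filter.Eventually.of_forall fun x => ?_)
  simp [integral_id_gaussianReal]

theorem fourth_moment_le (v : NNReal) :
    ∫ x, x ^ 4 ∂gaussianReal 0 v ≤ 24 * Real.exp (v / 2) := by
  have hc : ∀ x : ℝ, x ^ 4 ≤ 12 * (Real.exp (1 * x) + Real.exp (-1 * x)) := by
    intro x
    have h1 : ∀ y : ℝ, 0 ≤ y → y ^ 4 / 24 ≤ Real.exp y := by
      intro y hy
      have := Real.pow_div_factorial_le_exp y hy 4
      have h24 : ((Nat.factorial 4 : ℕ) : ℝ) = 24 := by norm_num [Nat.factorial]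
      rw [h24] at this
      exact this
    have hcosh : x ^ 4 / 24 ≤ Real.cosh x := by
      have hs : HasSum (fun n : ℕ => x ^ (2 * n) / ((2 * n).factorial : ℝ)) (Real.cosh x) :=
        Real.hasSum_cosh x
      have := hs.summable.sum_le_tsum ({2} : Finset ℕ) (fun n _ => by
        have : 0 ≤ x ^ (2 * n) := by rw [pow_mul]; positivity
        positivity)
      rw [hs.tsum_eq] at this
      have h24 : ((Nat.factorial 4 : ℕ) : ℝ) = 24 := by norm_num [Nat.factorial]
      simpa [h24] using this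
    rw [Real.cosh_eq] at hcosh
    rw [one_mul, neg_one_mul]
    linarith
  have m : ∀ t : ℝ, ∫ x, Real.exp (t * x) ∂gaussianReal 0 v = Real.exp (v * t ^ 2 / 2) := by
    intro t
    have := congrFun (mgf_id_gaussianReal (μ := 0) (v := v)) t
    simpa [mgf] using this
  have i : ∀ t : ℝ, Integrable (fun x => Real.exp (t * x)) (gaussianReal 0 v) := fun t =>
    integrable_exp_mul_gaussianReal t
  calc ∫ x, x ^ 4 ∂gaussianReal 0 v
      ≤ ∫ x, 12 * (Real.exp (1 * x) + Real.exp (-1 * x)) ∂gaussianReal 0 v :=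
        integral_mono (integrable_pow_gaussianReal v 4) (((i 1).add (i (-1))).const_mul 12) hc
    _ = 24 * Real.exp (v / 2) := by
        rw [integral_const_mul, integral_add (i 1) (i (-1)), m 1, m (-1)]
        norm_num; ring

/-- the fourth moment bound used for all `ε ∈ [0,1]`. -/
noncomputable def m4c : ℝ := 24 * Real.exp 1

theorem isProbabilityMeasure_mixtureLaw (ε : ℝ) : IsProbabilityMeasure (mixtureLaw ε) := by
  refine ⟨?_⟩
  unfold mixtureLaw
  rw [Measure.add_apply, Measure.smul_apply, Measure.smul_apply, measure_univ, measure_univ]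
  simp only [smul_eq_mul, mul_one, ENNReal.smul_def]
  rw [← ENNReal.coe_add]
  norm_num

theorem integrable_mixtureLaw {ε : ℝ} {f : ℝ → ℝ}
    (h1 : Integrable f (gaussianReal 0 (Real.toNNReal (1 - ε))))
    (h2 : Integrable f (gaussianReal 0 (Real.toNNReal (1 + ε)))) :
    Integrable f (mixtureLaw ε) := by
  unfold mixtureLaw
  exact (h1.smul_measure_nnreal).add_measure (h2.smul_measure_nnreal)

theorem integral_mixtureLaw {ε : ℝ} {f : ℝ → ℝ}
    (h1 : Integrable f (gaussianReal 0 (Real.toNNReal (1 - ε))))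
    (h2 : Integrable f (gaussianReal 0 (Real.toNNReal (1 + ε)))) :
    ∫ x, f x ∂mixtureLaw ε = 2⁻¹ * (∫ x, f x ∂gaussianReal 0 (Real.toNNReal (1 - ε)))
      + 2⁻¹ * (∫ x, f x ∂gaussianReal 0 (Real.toNNReal (1 + ε))) := by
  unfold mixtureLaw
  rw [integral_add_measure (h1.smul_measure_nnreal) (h2.smul_measure_nnreal),
    integral_smul_nnreal_measure, integral_smul_nnreal_measure]
  simp [NNReal.smul_def]

theorem integrable_pow_mixtureLaw (ε : ℝ) (k : ℕ) :
    Integrable (fun x : ℝ => x ^ k) (mixtureLaw ε) :=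
  integrable_mixtureLaw (integrable_pow_gaussianReal _ k) (integrable_pow_gaussianReal _ k)

/-- MOMENT MATCHING. -/
theorem match3_mixtureLaw {ε : ℝ} (h0 : 0 ≤ ε) (h1 : ε ≤ 1) :
    Match3 (mixtureLaw ε) (gaussianReal 0 1) m4c := by
  have a1 : ((Real.toNNReal (1 - ε) : NNReal) : ℝ) = 1 - ε := Real.coe_toNNReal _ (by linarith)
  have a2 : ((Real.toNNReal (1 + ε) : NNReal) : ℝ) = 1 + ε := Real.coe_toNNReal _ (by linarith)
  refine ⟨isProbabilityMeasure_mixtureLaw ε, inferInstance,
    fun k _ => integrable_pow_mixtureLaw ε k, fun k _ => integrable_pow_gaussianReal 1 k,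
    ?_, ?_, ?_⟩
  · intro k hk
    rw [integral_mixtureLaw (integrable_pow_gaussianReal _ k) (integrable_pow_gaussianReal _ k)]
    interval_cases k
    · simp; norm_num
    · rw [odd_moment_gaussianReal _ (by decide), odd_moment_gaussianReal _ (by decide),
        odd_moment_gaussianReal _ (by decide)]; simp
    · rw [sq_moment_gaussianReal, sq_moment_gaussianReal, sq_moment_gaussianReal, a1, a2]
      push_cast; ring
    · rw [odd_moment_gaussianReal _ (by decide), odd_moment_gaussianReal _ (by decide),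
        odd_moment_gaussianReal _ (by decide)]; simp
  · rw [integral_mixtureLaw (integrable_pow_gaussianReal _ 4) (integrable_pow_gaussianReal _ 4)]
    have b1 := fourth_moment_le (Real.toNNReal (1 - ε))
    have b2 := fourth_moment_le (Real.toNNReal (1 + ε))
    rw [a1] at b1
    rw [a2] at b2
    have e1 : Real.exp ((1 - ε) / 2) ≤ Real.exp 1 := Real.exp_le_exp.2 (by linarith)
    have e2 : Real.exp ((1 + ε) / 2) ≤ Real.exp 1 := Real.exp_le_exp.2 (by linarith)
    unfold m4c
    linarith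
  · have b := fourth_moment_le 1
    have e : Real.exp (((1 : NNReal) : ℝ) / 2) ≤ Real.exp 1 := Real.exp_le_exp.2 (by norm_num)
    unfold m4c
    linarith

section law

variable {Y : Type*} [MeasurableSpace Y] {μ : Measure Y} {K B κ : ℝ}

/-- **Lindeberg comparison, generic index types**: products of `mixtureLaw ε` against products of
`gaussianReal 0 1`. -/
theorem lindeberg_mix {𝓐 𝓘 : Type*} [Fintype 𝓐] [Fintype 𝓘] {ψ : 𝓐 → ℝ → ℝ} {r : 𝓐 → Y → ℝ}
    {t : 𝓘 → Y → ℝ} (S : Setup μ K B κ ψ r t) {ε : ℝ} (h0 : 0 ≤ ε) (h1 : ε ≤ 1) :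
    |∫ A, logZ μ ψ r t A ∂(Measure.pi fun _ : 𝓐 × 𝓘 => mixtureLaw ε)
      - ∫ A, logZ μ ψ r t A ∂(Measure.pi fun _ : 𝓐 × 𝓘 => gaussianReal 0 1)|
      ≤ Fintype.card 𝓐 * Fintype.card 𝓘 * (52 * cK K ^ 4 * κ ^ 4 * m4c) :=
  S.lindeberg fun _ => match3_mixtureLaw h0 h1





end law

end Crest.Agent.R146.LindD_846
end

-- ▼ part R146/LocMix_508
section

/-!
Row 146, node (G) (localised part), helper508: a linear form of a row of law `mixtureLaw ε`
compared with a Gaussian of the same variance, for functions with bounded second differences.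
-/

set_option autoImplicit false

namespace Crest.Agent.R146.LocMix_508

open MeasureTheory ProbabilityTheory Filter Topology Set
open Crest.Agent.R146.LocRec_508
open Crest.Agent.R146.LindC_846 Crest.Agent.R146.LindD_846
open Crest.ProbabilityR.Perceptron
open scoped ENNReal NNReal

noncomputable section

local notation "γ" => gaussianReal 0 1

/-- law of a linear form of a standard Gaussian vector. -/
theorem map_lin_gaussian {I : Type*} [Fintype I] (u : I → ℝ) :
    (Measure.pi fun _ : I => gaussianReal 0 1).map (fun x : I → ℝ => ∑ i, u i * x i) =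
      gaussianReal 0 (Real.toNNReal (∑ i, u i ^ 2)) := by
  have hm : Measurable fun x : I → ℝ => ∑ i, u i * x i := by fun_prop
  have hp : IsProbabilityMeasure ((Measure.pi fun _ : I => gaussianReal 0 1).map
      (fun x : I → ℝ => ∑ i, u i * x i)) := Measure.isProbabilityMeasure_map hm.aemeasurable
  have hs : 0 ≤ ∑ i, u i ^ 2 := Finset.sum_nonneg fun i _ => sq_nonneg _
  refine Measure.ext_of_charFun ?_
  funext t
  rw [charFun_gaussianReal, charFun_apply_real, integral_map hm.aemeasurable (by fun_prop)]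
  have h1 : ∀ x : I → ℝ, Complex.exp (t * ((∑ i, u i * x i : ℝ) : ℂ) * Complex.I) =
      ∏ i, Complex.exp ((t * u i : ℝ) * (x i : ℂ) * Complex.I) := by
    intro x
    rw [← Complex.exp_sum]
    congr 1
    push_cast
    rw [Finset.mul_sum, Finset.sum_mul]
    refine Finset.sum_congr rfl fun i _ => ?_
    ring
  simp_rw [h1]
  rw [integral_fintype_prod_eq_prod (𝕜 := ℂ)
    (f := fun (i : I) (s : ℝ) => Complex.exp ((t * u i : ℝ) * (s : ℂ) * Complex.I))]
  have h2 : ∀ i : I, ∫ s, Complex.exp ((t * u i : ℝ) * (s : ℂ) * Complex.I) ∂gaussianReal 0 1 =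
      Complex.exp (-((t * u i : ℝ) : ℂ) ^ 2 / 2) := by
    intro i
    have := charFun_gaussianReal (μ := 0) (v := 1) (t * u i)
    rw [charFun_apply_real] at this
    rw [this]
    congr 1
    push_cast
    ring
  simp_rw [h2]
  rw [← Complex.exp_sum]
  congr 1
  rw [Real.coe_toNNReal _ hs]
  push_cast
  rw [Finset.sum_mul, Finset.sum_div, mul_zero, zero_mul, zero_sub, ← Finset.sum_neg_distrib]
  refine Finset.sum_congr rfl fun i _ => ?_
  ring

theorem integral_lin_gaussian {I : Type*} [Fintype I] (u : I → ℝ) {φ : ℝ → ℝ}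
    (hφ : Continuous φ) :
    ∫ x, φ (∑ i, u i * x i) ∂(Measure.pi fun _ : I => gaussianReal 0 1) =
      ∫ g, φ (Real.sqrt (∑ i, u i ^ 2) * g) ∂γ := by
  have hs : 0 ≤ ∑ i, u i ^ 2 := Finset.sum_nonneg fun i _ => sq_nonneg _
  have hm : Measurable fun x : I → ℝ => ∑ i, u i * x i := by fun_prop
  have h1 : (gaussianReal 0 1).map (fun g : ℝ => Real.sqrt (∑ i, u i ^ 2) * g) =
      gaussianReal 0 (Real.toNNReal (∑ i, u i ^ 2)) := by
    rw [gaussianReal_map_const_mul]
    congr 1
    · simp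
    · ext
      simp [Real.sq_sqrt hs, Real.coe_toNNReal _ hs]
  rw [← integral_map (f := φ) hm.aemeasurable hφ.aestronglyMeasurable, map_lin_gaussian, ← h1,
    integral_map (by fun_prop) hφ.aestronglyMeasurable]

theorem integral_sq_gauss : ∫ g, g ^ 2 ∂γ = 1 := by
  have := sq_moment_gaussianReal 1
  simpa using this

/-- average of a semiconcave function over a symmetric Gaussian increment. -/
theorem MidHi.avg {F : ℝ → ℝ} {K κ : ℝ} (hF : BC F K) (h : MidHi κ F) (z s : ℝ) :
    ∫ g, F (z + s * g) ∂γ ≤ F z + κ * s ^ 2 / 2 := by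
  have hsym : ∫ g, F (z + s * g) ∂γ = ∫ g, F (z - s * g) ∂γ := by
    have hmap : (gaussianReal 0 1).map (fun x : ℝ => -x) = gaussianReal 0 1 := by
      rw [gaussianReal_map_neg]; simp
    have hc := hF.cont
    conv_lhs => rw [← hmap]
    rw [integral_map (by fun_prop) (by fun_prop)]
    refine integral_congr_ae (Eventually.of_forall fun g => ?_)
    simp only
    congr 1; ring
  have i1 := hF.integrable z s
  have i2 : Integrable (fun g : ℝ => F (z - s * g)) γ := by
    have := hF.integrable z (-s)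
    refine this.congr (Eventually.of_forall fun g => ?_)
    simp only
    congr 1; ring
  have hsq : Integrable (fun g : ℝ => g ^ 2) γ := integrable_pow_gaussianReal 1 2
  have h1 := integral_mono (μ := γ) (i1.add i2)
    ((integrable_const (2 * F z)).add (hsq.const_mul (κ * s ^ 2))) (fun g => by
      have := h z (s * g)
      show F (z + s * g) + F (z - s * g) ≤ 2 * F z + κ * s ^ 2 * g ^ 2
      nlinarith [this])
  rw [Pi.add_def, integral_add i1 i2, Pi.add_def, integral_add (integrable_const _)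
    (hsq.const_mul _), ← hsym] at h1
  have h3 : ∫ a : ℝ, κ * s ^ 2 * a ^ 2 ∂γ = κ * s ^ 2 := by
    rw [integral_const_mul, integral_sq_gauss, mul_one]
  rw [h3] at h1
  simp only [integral_const, probReal_univ, one_smul] at h1
  linarith

theorem MidLo.avg {F : ℝ → ℝ} {K κ : ℝ} (hF : BC F K) (h : MidLo κ F) (z s : ℝ) :
    F z - κ * s ^ 2 / 2 ≤ ∫ g, F (z + s * g) ∂γ := by
  have hF' : BC (fun x => -F x) K := ⟨hF.cont.neg, fun x => by rw [abs_neg]; exact hF.bd x⟩
  have h' : MidHi κ (fun x => -F x) := fun y t => by have := h y t; linarith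
  have := MidHi.avg hF' h' z s
  rw [integral_neg] at this
  linarith

/-- one coordinate of law `mixtureLaw ε` against a standard Gaussian one. -/
theorem one_coord {F : ℝ → ℝ} {K κ : ℝ} (hF : BC F K) (h1 : MidHi κ F) (h2 : MidLo κ F)
    {ε : ℝ} (hε0 : 0 ≤ ε) (hε1 : ε ≤ 1) (y u : ℝ) :
    |∫ x, F (y + u * x) ∂mixtureLaw ε - ∫ x, F (y + u * x) ∂γ| ≤ κ * u ^ 2 * ε / 2 := by
  have hc := hF.cont
  -- the Gaussian integrals with variance `v`
  have hv : ∀ v : ℝ, 0 ≤ v → ∫ x, F (y + u * x) ∂gaussianReal 0 (Real.toNNReal v) =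
      ∫ g, F (y + u * Real.sqrt v * g) ∂γ := by
    intro v hv
    have h3 : (gaussianReal 0 1).map (fun g : ℝ => Real.sqrt v * g) =
        gaussianReal 0 (Real.toNNReal v) := by
      rw [gaussianReal_map_const_mul]
      congr 1
      · simp
      · ext
        simp [Real.sq_sqrt hv, Real.coe_toNNReal _ hv]
    rw [← h3, integral_map (by fun_prop) (by fun_prop)]
    refine integral_congr_ae (Eventually.of_forall fun g => ?_)
    simp only
    congr 1; ring
  have bI : ∀ v : ℝ, Integrable (fun x : ℝ => F (y + u * x)) (gaussianReal 0 (Real.toNNReal v)) := by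
    intro v
    refine Integrable.mono' (integrable_const K) (by fun_prop) (Eventually.of_forall fun x => ?_)
    rw [Real.norm_eq_abs]; exact hF.bd _
  rw [integral_mixtureLaw (bI _) (bI _), hv _ (by linarith), hv _ (by linarith)]
  -- splitting off an increment of variance `ε u²`
  have two : ∀ v w : ℝ, 0 ≤ v → 0 ≤ w → ∫ g, F (y + u * Real.sqrt (v + w) * g) ∂γ =
      ∫ g, (∫ g', F (y + u * Real.sqrt v * g + u * Real.sqrt w * g') ∂γ) ∂γ := by
    intro v w hv hw
    have := integral_two (φ := fun z => F (y + u * z)) (by fun_prop) (K := K)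
      (fun x => hF.bd _) hv hw 0
    have e1 : ∀ g g' : ℝ, y + u * (0 + Real.sqrt v * g + Real.sqrt w * g') =
        y + u * Real.sqrt v * g + u * Real.sqrt w * g' := by intro g g'; ring
    have e2 : ∀ g : ℝ, y + u * (0 + Real.sqrt (v + w) * g) = y + u * Real.sqrt (v + w) * g := by
      intro g; ring
    simp only [e1, e2] at this
    exact this.symm
  have bnd : ∀ v w : ℝ, 0 ≤ v → 0 ≤ w →
      |∫ g, F (y + u * Real.sqrt (v + w) * g) ∂γ - ∫ g, F (y + u * Real.sqrt v * g) ∂γ| ≤
        κ * (u ^ 2 * w) / 2 := by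
    intro v w hv hw
    rw [two v w hv hw]
    have hinner : ∀ g, |(∫ g', F (y + u * Real.sqrt v * g + u * Real.sqrt w * g') ∂γ) -
        F (y + u * Real.sqrt v * g)| ≤ κ * (u ^ 2 * w) / 2 := by
      intro g
      have a1 := MidHi.avg hF h1 (y + u * Real.sqrt v * g) (u * Real.sqrt w)
      have a2 := MidLo.avg hF h2 (y + u * Real.sqrt v * g) (u * Real.sqrt w)
      have e : (u * Real.sqrt w) ^ 2 = u ^ 2 * w := by rw [mul_pow, Real.sq_sqrt hw]
      rw [e] at a1 a2
      rw [abs_le]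
      constructor <;> linarith
    have i1 : Integrable (fun g => ∫ g', F (y + u * Real.sqrt v * g + u * Real.sqrt w * g') ∂γ) γ := by
      have hcont : Continuous fun g : ℝ => ∫ g', F (y + u * Real.sqrt v * g + u * Real.sqrt w * g') ∂γ := by
        refine continuous_of_dominated (bound := fun _ => K) (fun y => by fun_prop) (fun y => ?_)
          (integrable_const _) (Eventually.of_forall fun g => by fun_prop)
        exact Eventually.of_forall fun g => by rw [Real.norm_eq_abs]; exact hF.bd _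
      refine Integrable.mono' (integrable_const K) hcont.aestronglyMeasurable
        (Eventually.of_forall fun g => ?_)
      refine (norm_integral_le_of_norm_le_const (C := K) (Eventually.of_forall fun g' => ?_)).trans ?_
      · rw [Real.norm_eq_abs]; exact hF.bd _
      · simp
    rw [← integral_sub i1 (hF.integrable _ _)]
    have hn := norm_integral_le_of_norm_le_const (μ := γ) (C := κ * (u ^ 2 * w) / 2)
      (f := fun g => (∫ g', F (y + u * Real.sqrt v * g + u * Real.sqrt w * g') ∂γ) -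
        F (y + u * Real.sqrt v * g))
      (Eventually.of_forall fun g => by rw [Real.norm_eq_abs]; exact hinner g)
    rw [Real.norm_eq_abs] at hn
    simpa using hn
  have b1 := bnd 1 ε zero_le_one hε0
  have b2 := bnd (1 - ε) ε (by linarith) hε0
  rw [sub_add_cancel] at b2
  rw [Real.sqrt_one, mul_one] at b1 b2
  rw [abs_le] at b1 b2 ⊢
  have e : κ * (u ^ 2 * ε) / 2 = κ * u ^ 2 * ε / 2 := by ring
  rw [e] at b1 b2
  constructor <;> linarith [b1.1, b1.2, b2.1, b2.2]

/-- **Mixture comparison.** -/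
theorem mix_compare {I : Type*} [Fintype I] {F : ℝ → ℝ} {K κ : ℝ} (hF : BC F K) (h1 : MidHi κ F)
    (h2 : MidLo κ F) {ε : ℝ} (hε0 : 0 ≤ ε) (hε1 : ε ≤ 1) (u : I → ℝ) :
    |∫ x, F (∑ i, u i * x i) ∂(Measure.pi fun _ : I => mixtureLaw ε) -
      ∫ g, F (Real.sqrt (∑ i, u i ^ 2) * g) ∂γ| ≤ κ * (∑ i, u i ^ 2) * ε / 2 := by
  classical
  have hc := hF.cont
  rw [← integral_lin_gaussian u hc]
  have hm : Measurable fun x : I → ℝ => F (∑ i, u i * x i) :=
    hc.measurable.comp (by fun_prop)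
  have key := LindC_846.swap (ι := I) (μ := fun _ => mixtureLaw ε) (ν := fun _ => gaussianReal 0 1)
    (fun _ => isProbabilityMeasure_mixtureLaw ε) (fun _ => inferInstance)
    (fun _ => by simpa using integrable_pow_mixtureLaw ε 1)
    (fun _ => by simpa using integrable_pow_gaussianReal 1 1) hm (C0 := K) (C1 := 0)
    (fun x => by simpa using hF.bd _) (δ := fun i => κ * u i ^ 2 * ε / 2) (fun i x => by
      have e : ∀ t : ℝ, ∑ j, u j * Function.update x i t j =
          (∑ j ∈ Finset.univ.erase i, u j * x j) + u i * t := by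
        intro t
        rw [← Finset.add_sum_erase Finset.univ _ (Finset.mem_univ i), Function.update_self,
          add_comm]
        congr 1
        refine Finset.sum_congr rfl fun j hj => ?_
        rw [Function.update_of_ne (Finset.ne_of_mem_erase hj)]
      simp only [e]
      exact one_coord hF h1 h2 hε0 hε1 _ _)
  refine key.trans (le_of_eq ?_)
  rw [Finset.mul_sum, Finset.sum_mul, Finset.sum_div]

end

end Crest.Agent.R146.LocMix_508
end

-- ▼ part R146/LocDet_508

/-!
Row 146, node (G) (localised part), helper508: the deterministic inequality of the localised part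
in terms of `Th` and `SP`: mass `μ` on the localised coordinates, levels
`P'_j = (P_j - μ)₊ / (1 - μ)` on the rest.
-/

set_option autoImplicit false

namespace Crest.Agent.R146.LocDet_508

open MeasureTheory ProbabilityTheory Filter Topology Set
open Crest.Agent.R146.LocRec_508 Crest.Agent.R146.LocMix_508
open Crest.Agent.R146.S6Def_988
open Crest.ProbabilityR.Perceptron
open scoped ENNReal NNReal

noncomputable section

local notation "γ" => gaussianReal 0 1

/-- the exponents of `Th`. -/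
def ex (J : ℕ) : ℕ → ℝ := fun j => (j : ℝ) / ((J : ℝ) + 1)

/-- levels of the rest -/
def Pr (μ : ℝ) (P : ℕ → ℝ) (j : ℕ) : ℝ := max (P j - μ) 0 / (1 - μ)

theorem ex_nonneg (J i : ℕ) : 0 ≤ ex J i := by unfold ex; positivity

theorem ex_mono (J : ℕ) {i j : ℕ} (h : i ≤ j) : ex J i ≤ ex J j := by
  unfold ex
  have : (i : ℝ) ≤ j := by exact_mod_cast h
  gcongr

variable {J : ℕ} {P : ℕ → ℝ}

theorem Lev.lev_nonneg (h : Lev J P) {j : ℕ} (hj : j ≤ J) : 0 ≤ P j :=
  h.nonneg.trans (h.mono 0 j (Nat.zero_le _) hj)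


theorem lev_Pr (h : Lev J P) {μ : ℝ} (hμ1 : μ < 1) (hμ0 : 0 ≤ μ) : Lev J (Pr μ P) := by
  have _ := hμ0
  have h1 : 0 < 1 - μ := by linarith
  refine ⟨?_, ?_, ?_⟩
  · unfold Pr; positivity
  · intro i j hij hj
    unfold Pr
    have := h.mono i j hij hj
    gcongr
  · unfold Pr
    rw [div_le_one h1]
    refine max_le ?_ h1.le
    have := h.le_one; linarith

theorem Pr_lt_one (hP : P J < 1) {μ : ℝ} (hμ1 : μ < 1) : Pr μ P J < 1 := by
  have h1 : 0 < 1 - μ := by linarith
  unfold Pr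
  rw [div_lt_one h1]
  exact max_lt (by linarith) h1

theorem tP_zero : tP J P 0 = 0 := by simp [tP]

theorem tP_last : tP J P (J + 2) = 1 := by
  unfold tP
  rw [if_neg (by omega), if_neg (by omega)]

theorem tP_mid {j : ℕ} (h1 : 1 ≤ j) (h2 : j ≤ J + 1) : tP J P j = P (j - 1) := by
  unfold tP
  rw [if_neg (by omega), if_pos h2]

theorem tP_mono (h : Lev J P) : ∀ i, i < J + 2 → tP J P i ≤ tP J P (i + 1) := by
  intro i hi
  rcases Nat.eq_zero_or_pos i with h0 | h0
  · subst h0
    rw [tP_zero, tP_mid (by omega) (by omega)]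
    exact Lev.lev_nonneg h (by omega)
  · rcases Nat.lt_or_ge i (J + 1) with h1 | h1
    · rw [tP_mid (by omega) (by omega), tP_mid (by omega) (by omega)]
      exact h.mono _ _ (by omega) (by omega)
    · have : i = J + 1 := by omega
      subst this
      rw [tP_mid (by omega) (by omega), tP_last]
      have := h.le_one
      simpa using this

theorem tP_nonneg (h : Lev J P) : ∀ i, i ≤ J + 2 → 0 ≤ tP J P i := by
  intro i
  induction i with
  | zero => intro _; rw [tP_zero]
  | succ i ih => intro hi; exact (ih (by omega)).trans (tP_mono h i (by omega))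

theorem tP_Pr {μ : ℝ} (hμ0 : 0 ≤ μ) (hμ1 : μ < 1) (i : ℕ) :
    max (tP J P i) μ = μ + (1 - μ) * tP J (Pr μ P) i := by
  have h1 : (1 - μ) ≠ 0 := by linarith
  unfold tP
  split_ifs with h0 h2
  · rw [max_eq_right hμ0]; ring
  · unfold Pr
    rw [mul_div_cancel₀ _ h1]
    rcases le_total (P (i - 1)) μ with h | h
    · rw [max_eq_right h, max_eq_right (by linarith)]; ring
    · rw [max_eq_left h, max_eq_left (by linarith)]; ring
  · rw [max_eq_left hμ1.le]; ring

/-- `Th` of the shifted and scaled function at the levels of the rest. -/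
theorem Th_rest {μ : ℝ} (hμ0 : 0 ≤ μ) (hμ1 : μ < 1) (f : ℝ → ℝ) (c : ℝ) :
    Th J (fun x => f (c + Real.sqrt (1 - μ) * x)) (Pr μ P) =
      recV f (fun i => max (tP J P i) μ) (ex J) (J + 2) (J + 2) c := by
  unfold Th
  have hσ2 : Real.sqrt (1 - μ) ^ 2 = 1 - μ := Real.sq_sqrt (by linarith)
  have := recV_scale f (fun i => max (tP J P i) μ) (tP J (Pr μ P)) (ex J) (J + 2)
    (Real.sqrt_nonneg (1 - μ)) c (fun i _ => by
      rw [hσ2, tP_Pr hμ0 hμ1, tP_Pr hμ0 hμ1]; ring) (J + 2) le_rfl 0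
  rw [mul_zero, add_zero] at this
  exact this

/-! ### masses -/

/-- mass of the profile after time `μ`. -/
def Dμ (J : ℕ) (P : ℕ → ℝ) (μ : ℝ) (j : ℕ) : ℝ :=
  (1 - max (P J) μ) + ∑ k ∈ Finset.Ico (j + 1) (J + 1),
    ((k : ℝ) / ((J : ℝ) + 1)) * (max (P k) μ - max (P (k - 1)) μ)

theorem Dμ_zero (h : Lev J P) {j : ℕ} : Dμ J P 0 j = DP J P j := by
  unfold Dμ DP
  rw [max_eq_left (Lev.lev_nonneg h le_rfl)]
  congr 1
  refine Finset.sum_congr rfl fun k hk => ?_
  rw [Finset.mem_Ico] at hk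
  rw [max_eq_left (Lev.lev_nonneg h (by omega)), max_eq_left (Lev.lev_nonneg h (by omega))]

theorem Dμ_Pr {μ : ℝ} (hμ1 : μ < 1) (j : ℕ) :
    DP J (Pr μ P) j = Dμ J P μ j / (1 - μ) := by
  have h1 : (1 - μ) ≠ 0 := by linarith
  have e : ∀ k, Pr μ P k = (max (P k) μ - μ) / (1 - μ) := by
    intro k
    unfold Pr
    congr 1
    rcases le_total (P k) μ with h | h
    · rw [max_eq_right h, max_eq_right (by linarith)]; ring
    · rw [max_eq_left h, max_eq_left (by linarith)]
  unfold DP Dμ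
  rw [add_div, Finset.sum_div]
  congr 1
  · rw [e]; field_simp; ring
  · refine Finset.sum_congr rfl fun k _ => ?_
    rw [e, e]; field_simp; ring

theorem Dμ_succ {μ : ℝ} {j : ℕ} (hj : j + 1 ≤ J) :
    Dμ J P μ j = Dμ J P μ (j + 1) +
      (((j + 1 : ℕ) : ℝ) / ((J : ℝ) + 1)) * (max (P (j + 1)) μ - max (P j) μ) := by
  unfold Dμ
  rw [Finset.sum_eq_sum_Ico_succ_bot (by omega : j + 1 < J + 1)]
  have : j + 1 - 1 = j := by omega
  rw [this]; ring

theorem Dμ_last {μ : ℝ} : Dμ J P μ J = 1 - max (P J) μ := by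
  unfold Dμ
  rw [Finset.Ico_self]; simp

theorem maxP_mono (h : Lev J P) {μ : ℝ} {i j : ℕ} (hij : i ≤ j) (hj : j ≤ J) :
    max (P i) μ ≤ max (P j) μ := max_le_max (h.mono i j hij hj) le_rfl

theorem Dμ_pos (h : Lev J P) (hP : P J < 1) {μ : ℝ} (hμ1 : μ < 1) (j : ℕ) : 0 < Dμ J P μ j := by
  unfold Dμ
  have h1 : max (P J) μ < 1 := max_lt hP hμ1
  have h2 : 0 ≤ ∑ k ∈ Finset.Ico (j + 1) (J + 1),
      ((k : ℝ) / ((J : ℝ) + 1)) * (max (P k) μ - max (P (k - 1)) μ) := by
    refine Finset.sum_nonneg fun k hk => mul_nonneg (by positivity) ?_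
    rw [Finset.mem_Ico] at hk
    have := maxP_mono h (μ := μ) (i := k - 1) (j := k) (by omega) (by omega)
    linarith
  linarith

theorem Dμ_anti (h : Lev J P) {μ : ℝ} {j : ℕ} (hj : j + 1 ≤ J) :
    Dμ J P μ (j + 1) ≤ Dμ J P μ j := by
  rw [Dμ_succ hj]
  have := maxP_mono h (μ := μ) (i := j) (j := j + 1) (by omega) hj
  have h2 : 0 ≤ (((j + 1 : ℕ) : ℝ) / ((J : ℝ) + 1)) * (max (P (j + 1)) μ - max (P j) μ) :=
    mul_nonneg (by positivity) (by linarith)
  linarith

theorem Dμ_le_zero (h : Lev J P) {μ : ℝ} : ∀ j, j ≤ J → Dμ J P μ j ≤ Dμ J P μ 0 := by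
  intro j
  induction j with
  | zero => intro _; exact le_rfl
  | succ j ih => intro hj; exact (Dμ_anti h hj).trans (ih (by omega))

/-- the mass of the recursion is `Dμ`. -/
theorem massV_eq (μ : ℝ) (hμ1 : μ < 1) :
    massV (fun i => max (tP J P i) μ) (ex J) (J + 2) (J + 2) = Dμ J P μ 0 := by
  have key : ∀ j ≤ J, massV (fun i => max (tP J P i) μ) (ex J) (J + 2) (j + 1) =
      Dμ J P μ (J - j) := by
    intro j
    induction j with
    | zero =>
      intro _
      show massV (fun i => max (tP J P i) μ) (ex J) (J + 2) 0 +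
        ex J (J + 2 - 1 - 0) * (max (tP J P (J + 2 - 0)) μ - max (tP J P (J + 2 - 1 - 0)) μ) = _
      have e0 : massV (fun i => max (tP J P i) μ) (ex J) (J + 2) 0 = 0 := rfl
      have e1 : J + 2 - 1 - 0 = J + 1 := by omega
      have e2 : J + 2 - 0 = J + 2 := by omega
      have e3 : J + 1 - 1 = J := by omega
      rw [Nat.sub_zero J, Dμ_last, e0, e1, e2, tP_last, tP_mid (by omega) le_rfl,
        max_eq_left hμ1.le, zero_add, e3]
      have e2 : ex J (J + 1) = 1 := by
        unfold ex; push_cast; rw [div_self]; positivity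
      rw [e2, one_mul]
    | succ j ih =>
      intro hj
      have ih' := ih (by omega)
      show massV (fun i => max (tP J P i) μ) (ex J) (J + 2) (j + 1) +
        ex J (J + 2 - 1 - (j + 1)) * (max (tP J P (J + 2 - (j + 1))) μ -
          max (tP J P (J + 2 - 1 - (j + 1))) μ) = _
      rw [ih']
      have e1 : J + 2 - 1 - (j + 1) = J - j := by omega
      have e2 : J + 2 - (j + 1) = J - j + 1 := by omega
      rw [e1, e2, tP_mid (j := J - j + 1) (by omega) (by omega),
        tP_mid (j := J - j) (by omega) (by omega)]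
      have e4 := Dμ_succ (J := J) (P := P) (μ := μ) (j := J - (j + 1)) (by omega)
      have e5 : J - (j + 1) + 1 = J - j := by omega
      have e6 : J - j + 1 - 1 = J - j := by omega
      have e7 : J - j - 1 = J - (j + 1) := by omega
      rw [e5] at e4
      rw [e6, e7, e4]
      rfl
  have h1 := key J le_rfl
  rw [Nat.sub_self] at h1
  show massV (fun i => max (tP J P i) μ) (ex J) (J + 2) (J + 1) + _ = _
  rw [h1]
  have e1 : J + 2 - 1 - (J + 1) = 0 := by omega
  rw [e1]
  simp [ex]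

/-- concavity of the tail mass. -/
theorem massV_concave {t m : ℕ → ℝ} {k : ℕ} (hm : ∀ i j, i ≤ j → m i ≤ m j)
    (htk : t k = 1) (ht0 : ∀ i, i ≤ k → 0 ≤ t i) (ht1 : ∀ i, i ≤ k → t i ≤ 1)
    {μ : ℝ} (hμ0 : 0 ≤ μ) (hμ1 : μ ≤ 1) :
    ∀ j ≤ k, m (k - j) * ((1 - max (t (k - j)) μ) - (1 - μ) * (1 - t (k - j))) ≤
      massV (fun i => max (t i) μ) m k j - (1 - μ) * massV t m k j := by
  intro j
  induction j with
  | zero =>
    intro _
    simp only [Nat.sub_zero, massV, htk]
    rw [max_eq_left hμ1]; simp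
  | succ j ih =>
    intro hj
    have ih' := ih (by omega)
    have e1 : k - (j + 1) = k - 1 - j := by omega
    have e2 : massV (fun i => max (t i) μ) m k (j + 1) =
      massV (fun i => max (t i) μ) m k j +
        m (k - 1 - j) * (max (t (k - j)) μ - max (t (k - 1 - j)) μ) := rfl
    have e3 : massV t m k (j + 1) =
      massV t m k j + m (k - 1 - j) * (t (k - j) - t (k - 1 - j)) := rfl
    rw [e1, e2, e3]
    have hτ : 0 ≤ (1 - max (t (k - j)) μ) - (1 - μ) * (1 - t (k - j)) := by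
      have a0 := ht0 (k - j) (by omega)
      have a1 := ht1 (k - j) (by omega)
      rcases le_total (t (k - j)) μ with h | h
      · rw [max_eq_right h]; nlinarith
      · rw [max_eq_left h]; nlinarith
    have hmm : m (k - 1 - j) ≤ m (k - j) := hm _ _ (by omega)
    nlinarith [mul_le_mul_of_nonneg_right hmm hτ]

theorem DP_concave (h : Lev J P) {μ : ℝ} (hμ0 : 0 ≤ μ) (hμ1 : μ < 1) :
    (1 - μ) * DP J P 0 ≤ Dμ J P μ 0 := by
  have key := massV_concave (t := tP J P) (m := ex J) (k := J + 2) (fun i j => ex_mono J)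
    tP_last (tP_nonneg h) (fun i hi => by
      have : ∀ n, i + n ≤ J + 2 → tP J P i ≤ tP J P (i + n) := by
        intro n
        induction n with
        | zero => intro _; exact le_rfl
        | succ n ih => intro hn; exact (ih (by omega)).trans (tP_mono h (i + n) (by omega))
      have h2 := this (J + 2 - i) (by omega)
      rw [show i + (J + 2 - i) = J + 2 by omega, tP_last] at h2
      exact h2) hμ0 hμ1.le (J + 2) le_rfl
  rw [Nat.sub_self, massV_eq μ hμ1] at key
  have e : massV (tP J P) (ex J) (J + 2) (J + 2) = DP J P 0 := by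
    have := massV_eq (J := J) (P := P) 0 one_pos
    rw [Dμ_zero h] at this
    rw [← this]
    -- `max (tP i) 0 = tP i` on the indices that are read
    have hcongr : ∀ j ≤ J + 2, massV (fun i => max (tP J P i) 0) (ex J) (J + 2) j =
        massV (tP J P) (ex J) (J + 2) j := by
      intro j
      induction j with
      | zero => intro _; rfl
      | succ j ih =>
        intro hj
        simp only [massV]
        rw [ih (by omega), max_eq_left (tP_nonneg h _ (by omega)),
          max_eq_left (tP_nonneg h _ (by omega))]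
    exact (hcongr _ le_rfl).symm
  rw [e] at key
  have e0 : ex J 0 = 0 := by simp [ex]
  rw [e0, zero_mul] at key
  linarith

theorem Dμ_le_one (h : Lev J P) {μ : ℝ} (hμ0 : 0 ≤ μ) : Dμ J P μ 0 ≤ 1 := by
  unfold Dμ
  have h1 : ∀ n ≤ J, ∑ k ∈ Finset.Ico (0 + 1) (n + 1),
      ((k : ℝ) / ((J : ℝ) + 1)) * (max (P k) μ - max (P (k - 1)) μ) ≤
      max (P n) μ - max (P 0) μ := by
    intro n
    induction n with
    | zero => intro _; simp
    | succ n ih =>
      intro hn
      rw [Finset.sum_Ico_succ_top (by omega)]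
      have := ih (by omega)
      have h2 := maxP_mono h (μ := μ) (i := n) (j := n + 1) (by omega) hn
      have h3 : (((n + 1 : ℕ) : ℝ) / ((J : ℝ) + 1)) ≤ 1 := by
        rw [div_le_one (by positivity)]
        have : ((n + 1 : ℕ) : ℝ) ≤ J := by exact_mod_cast hn
        linarith
      have e : n + 1 - 1 = n := by omega
      rw [e]
      nlinarith
  have h2 := h1 J le_rfl
  have h3 : 0 ≤ max (P 0) μ := le_max_of_le_right hμ0
  linarith

/-! ### entropy -/

theorem log_ratio_ge {a b : ℝ} (ha : 0 < a) (hb : 0 < b) : (a - b) / a ≤ Real.log a - Real.log b := by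
  have h := Real.one_sub_inv_le_log_of_pos (div_pos ha hb)
  rw [Real.log_div ha.ne' hb.ne', inv_div] at h
  have : (a - b) / a = 1 - b / a := by field_simp
  rw [this]; exact h

/-- **Entropy of the rest.** -/
theorem SP_rest (h : Lev J P) (hP : P J < 1) {μ : ℝ} (hμ1 : μ < 1) :
    SP J (Pr μ P) + 1 / 2 * Real.log (1 - μ) ≤ SP J P - μ / (2 * DP J P 0) := by
  have h1μ : 0 < 1 - μ := by linarith
  set D := fun j => Dμ J P μ j with hD
  set E := fun j => Dμ J P 0 j with hE
  have hDpos : ∀ j, 0 < D j := fun j => Dμ_pos h hP hμ1 j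
  have hEpos : ∀ j, 0 < E j := fun j => Dμ_pos h hP one_pos j
  have hE0 : ∀ j, DP J P j = E j := fun j => (Dμ_zero h).symm
  have hD0 : ∀ j, DP J (Pr μ P) j = D j / (1 - μ) := fun j => Dμ_Pr hμ1 j
  have hEle : ∀ j ≤ J, E j ≤ E 0 := fun j hj => Dμ_le_zero h j hj
  have hP0 : ∀ j ≤ J, max (P j) 0 = P j := fun j hj => max_eq_left (Lev.lev_nonneg h hj)
  -- equality of masses above `μ`
  have hDE : ∀ j ≤ J, μ ≤ P j → D j = E j := by
    intro j hj hμ
    simp only [hD, hE, Dμ]
    rw [max_eq_left (hμ.trans (h.mono j J hj le_rfl)), hP0 J le_rfl]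
    congr 1
    refine Finset.sum_congr rfl fun k hk => ?_
    rw [Finset.mem_Ico] at hk
    rw [max_eq_left (hμ.trans (h.mono j k (by omega) (by omega))),
      max_eq_left (hμ.trans (h.mono j (k - 1) (by omega) (by omega))), hP0 k (by omega),
      hP0 (k - 1) (by omega)]
  -- term 0
  have hA : min (P 0) μ / E 0 ≤ P 0 / E 0 - max (P 0 - μ) 0 / D 0 := by
    rcases le_total μ (P 0) with hc | hc
    · rw [min_eq_right hc, max_eq_left (by linarith), hDE 0 (Nat.zero_le _) hc, ← sub_div]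
      apply le_of_eq; congr 1; ring
    · rw [min_eq_left hc, max_eq_right (by linarith)]; simp
  -- middle terms
  have hB : ∀ j, j + 1 ≤ J → (min (P (j + 1)) μ - min (P j) μ) / E 0 ≤
      (((J : ℝ) + 1) / ((j + 1 : ℕ) : ℝ)) * ((Real.log (E j) - Real.log (E (j + 1))) -
        (Real.log (D j) - Real.log (D (j + 1)))) := by
    intro j hj
    have hx : (0 : ℝ) < ((j + 1 : ℕ) : ℝ) := by positivity
    have hJ : (0 : ℝ) < (J : ℝ) + 1 := by positivity
    have hPj := h.mono j (j + 1) (by omega) hj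
    have hEs : E j = E (j + 1) + (((j + 1 : ℕ) : ℝ) / ((J : ℝ) + 1)) * (P (j + 1) - P j) := by
      have := Dμ_succ (J := J) (P := P) (μ := 0) hj
      rw [hP0 _ hj, hP0 _ (by omega)] at this
      exact this
    have hDs : D j = D (j + 1) + (((j + 1 : ℕ) : ℝ) / ((J : ℝ) + 1)) *
        (max (P (j + 1)) μ - max (P j) μ) := Dμ_succ (J := J) (P := P) (μ := μ) hj
    rcases le_total μ (P j) with hc | hc
    · rw [hDE j (by omega) hc, hDE (j + 1) hj (hc.trans hPj), min_eq_right (hc.trans hPj),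
        min_eq_right hc]
      simp
    · rcases le_total μ (P (j + 1)) with hc2 | hc2
      · rw [min_eq_right hc2, min_eq_left hc, hDE (j + 1) hj hc2]
        rw [max_eq_left hc2, max_eq_right hc, hDE (j + 1) hj hc2] at hDs
        have h2 := log_ratio_ge (hEpos j) (hDpos j)
        have h3 : E j - D j = (((j + 1 : ℕ) : ℝ) / ((J : ℝ) + 1)) * (μ - P j) := by
          rw [hEs, hDs]; ring
        rw [h3] at h2
        have h4 : (((j + 1 : ℕ) : ℝ) / ((J : ℝ) + 1)) * (μ - P j) / E 0 ≤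
            (((j + 1 : ℕ) : ℝ) / ((J : ℝ) + 1)) * (μ - P j) / E j :=
          div_le_div_of_nonneg_left (mul_nonneg (by positivity) (by linarith)) (hEpos j)
            (hEle j (by omega))
        have h5 : (μ - P j) / E 0 = (((J : ℝ) + 1) / ((j + 1 : ℕ) : ℝ)) *
            ((((j + 1 : ℕ) : ℝ) / ((J : ℝ) + 1)) * (μ - P j) / E 0) := by
          field_simp
        rw [h5]
        refine mul_le_mul_of_nonneg_left ?_ (by positivity)
        linarith
      · rw [min_eq_left hc2, min_eq_left hc]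
        rw [max_eq_right hc2, max_eq_right hc, sub_self, mul_zero, add_zero] at hDs
        rw [hDs, sub_self, sub_zero]
        have h2 := log_ratio_ge (hEpos j) (hEpos (j + 1))
        have h3 : E j - E (j + 1) = (((j + 1 : ℕ) : ℝ) / ((J : ℝ) + 1)) * (P (j + 1) - P j) := by
          rw [hEs]; ring
        rw [h3] at h2
        have h4 : (((j + 1 : ℕ) : ℝ) / ((J : ℝ) + 1)) * (P (j + 1) - P j) / E 0 ≤
            (((j + 1 : ℕ) : ℝ) / ((J : ℝ) + 1)) * (P (j + 1) - P j) / E j :=
          div_le_div_of_nonneg_left (mul_nonneg (by positivity) (by linarith)) (hEpos j)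
            (hEle j (by omega))
        have h5 : (P (j + 1) - P j) / E 0 = (((J : ℝ) + 1) / ((j + 1 : ℕ) : ℝ)) *
            ((((j + 1 : ℕ) : ℝ) / ((J : ℝ) + 1)) * (P (j + 1) - P j) / E 0) := by
          field_simp
        rw [h5]
        refine mul_le_mul_of_nonneg_left ?_ (by positivity)
        linarith
  -- last term
  have hC : (μ - min (P J) μ) / E 0 ≤ Real.log (E J) - Real.log (D J) := by
    rcases le_total μ (P J) with hc | hc
    · rw [min_eq_right hc, hDE J le_rfl hc]; simp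
    · rw [min_eq_left hc]
      have h2 := log_ratio_ge (hEpos J) (hDpos J)
      have h3 : E J - D J = μ - P J := by
        simp only [hD, hE]
        rw [Dμ_last, Dμ_last, hP0 J le_rfl, max_eq_right hc]; ring
      rw [h3] at h2
      refine le_trans ?_ h2
      exact div_le_div_of_nonneg_left (by linarith) (hEpos J) (hEle J le_rfl)
  -- telescoping
  have hsum : ∑ j ∈ Finset.Ico 1 (J + 1), (min (P j) μ - min (P (j - 1)) μ) / E 0 =
      (min (P J) μ - min (P 0) μ) / E 0 := by
    have : ∀ n, ∑ j ∈ Finset.Ico 1 (n + 1), (min (P j) μ - min (P (j - 1)) μ) / E 0 =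
        (min (P n) μ - min (P 0) μ) / E 0 := by
      intro n
      induction n with
      | zero => simp
      | succ n ih =>
        rw [Finset.sum_Ico_succ_top (by omega), ih]
        have e : n + 1 - 1 = n := by omega
        rw [e, ← add_div]; congr 1; ring
    exact this J
  have hBs : ∑ j ∈ Finset.Ico 1 (J + 1), (min (P j) μ - min (P (j - 1)) μ) / E 0 ≤
      ∑ j ∈ Finset.Ico 1 (J + 1), (((J : ℝ) + 1) / (j : ℝ)) *
        ((Real.log (E (j - 1)) - Real.log (E j)) - (Real.log (D (j - 1)) - Real.log (D j))) := by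
    refine Finset.sum_le_sum fun j hj => ?_
    rw [Finset.mem_Ico] at hj
    obtain ⟨i, rfl⟩ : ∃ i, j = i + 1 := ⟨j - 1, by omega⟩
    simpa using hB i (by omega)
  -- assembly
  have e1 : SP J P = 1 / 2 * (P 0 / E 0 + ∑ j ∈ Finset.Ico 1 (J + 1), (((J : ℝ) + 1) / j) *
      (Real.log (E (j - 1)) - Real.log (E j)) + Real.log (E J)) := by
    unfold SP
    simp only [hE0]
    congr 3
    refine Finset.sum_congr rfl fun j _ => ?_
    rw [Real.log_div (hEpos _).ne' (hEpos _).ne']
  have e2 : SP J (Pr μ P) = 1 / 2 * (max (P 0 - μ) 0 / D 0 + ∑ j ∈ Finset.Ico 1 (J + 1),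
      (((J : ℝ) + 1) / j) * (Real.log (D (j - 1)) - Real.log (D j)) +
        (Real.log (D J) - Real.log (1 - μ))) := by
    unfold SP
    simp only [hD0]
    congr 3
    · unfold Pr
      rw [div_div_div_cancel_right₀ h1μ.ne']
    · refine Finset.sum_congr rfl fun j _ => ?_
      rw [div_div_div_cancel_right₀ h1μ.ne', Real.log_div (hDpos _).ne' (hDpos _).ne']
    · rw [Real.log_div (hDpos _).ne' h1μ.ne']
  rw [e1, e2, hE0 0]
  have e3 : ∑ j ∈ Finset.Ico 1 (J + 1), (((J : ℝ) + 1) / (j : ℝ)) *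
        ((Real.log (E (j - 1)) - Real.log (E j)) - (Real.log (D (j - 1)) - Real.log (D j))) =
      ∑ j ∈ Finset.Ico 1 (J + 1), (((J : ℝ) + 1) / j) * (Real.log (E (j - 1)) - Real.log (E j)) -
      ∑ j ∈ Finset.Ico 1 (J + 1), (((J : ℝ) + 1) / j) * (Real.log (D (j - 1)) - Real.log (D j)) := by
    rw [← Finset.sum_sub_distrib]
    refine Finset.sum_congr rfl fun j _ => ?_
    ring
  rw [e3] at hBs
  have e4 : μ / (2 * E 0) = 1 / 2 * (min (P 0) μ / E 0 +
      (min (P J) μ - min (P 0) μ) / E 0 + (μ - min (P J) μ) / E 0) := by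
    have := (hEpos 0).ne'
    field_simp; ring
  rw [e4]
  linarith [hA, hC, hBs, hsum]

theorem MidLo.mono {κ κ' : ℝ} {F : ℝ → ℝ} (h : MidLo κ F) (hk : κ ≤ κ') : MidLo κ' F := by
  intro y t
  have := h y t
  nlinarith [sq_nonneg t, mul_le_mul_of_nonneg_right hk (sq_nonneg t)]

theorem MidHi.mono {κ κ' : ℝ} {F : ℝ → ℝ} (h : MidHi κ F) (hk : κ ≤ κ') : MidHi κ' F := by
  intro y t
  have := h y t
  nlinarith [sq_nonneg t, mul_le_mul_of_nonneg_right hk (sq_nonneg t)]

/-- **Low region, deterministic part**: mass `μ` on the localised coordinates costs more entropy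
than it gains energy, as soon as `α ε ≤ 1 - μ`. -/
theorem low_ineq (h : Lev J P) (hP : P J < 1) {ψ : ℝ → ℝ} {K b κ : ℝ} (hψ : BC ψ K)
    (hb : 0 ≤ b) (hlo : MidLo b ψ) (hκ0 : 0 ≤ κ) (hκ : κ ≤ 1 / 2) (hhi : MidHi κ ψ)
    {I : Type*} [Fintype I] (u : I → ℝ) {μ : ℝ} (hu : ∑ i, u i ^ 2 = μ) (hμ1 : μ < 1)
    {α ε : ℝ} (hα : 0 ≤ α) (hε0 : 0 ≤ ε) (hε1 : ε ≤ 1) (hαε : α * ε ≤ 1 - μ) :
    α * (∫ x, Th J (fun z => ψ (∑ i, u i * x i + Real.sqrt (1 - μ) * z)) (Pr μ P)
        ∂(Measure.pi fun _ : I => mixtureLaw ε)) + SP J (Pr μ P) + 1 / 2 * Real.log (1 - μ) ≤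
      α * Th J ψ P + SP J P := by
  have hμ0 : 0 ≤ μ := by rw [← hu]; exact Finset.sum_nonneg fun i _ => sq_nonneg _
  have h1μ : 0 < 1 - μ := by linarith
  set F := recV ψ (fun i => max (tP J P i) μ) (ex J) (J + 2) (J + 2) with hF
  have hTh : ∀ c, Th J (fun z => ψ (c + Real.sqrt (1 - μ) * z)) (Pr μ P) = F c := fun c =>
    Th_rest hμ0 hμ1 ψ c
  simp only [hTh]
  have bF : BC F K := recV_BC hψ _ _ _ (ex_nonneg J) _
  set D := Dμ J P μ 0 with hD
  have hDpos : 0 < D := Dμ_pos h hP hμ1 0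
  have hD1 : D ≤ 1 := Dμ_le_one h hμ0
  have hmono : ∀ i, i < J + 2 → max (tP J P i) μ ≤ max (tP J P (i + 1)) μ := fun i hi =>
    max_le_max (tP_mono h i hi) le_rfl
  have hmass : massV (fun i => max (tP J P i) μ) (ex J) (J + 2) (J + 2) = D := massV_eq μ hμ1
  have hLo : MidLo (1 / D) F := by
    have := recV_midLo hψ (ex_nonneg J) hmono hb hlo (J + 2) le_rfl
    rw [hmass] at this
    refine MidLo.mono this ?_
    rw [div_le_div_iff₀ (by positivity) hDpos]
    nlinarith
  have hHi : MidHi (1 / D) F := by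
    have hlt : κ * massV (fun i => max (tP J P i) μ) (ex J) (J + 2) (J + 2) < 1 := by
      rw [hmass]; nlinarith
    have := recV_midHi hψ (ex_nonneg J) hmono hκ0 hhi hlt (J + 2) le_rfl
    rw [hmass] at this
    refine MidHi.mono this ?_
    have h2 : 0 < 1 - κ * D := by nlinarith
    rw [div_le_div_iff₀ h2 hDpos]
    nlinarith
  have hmix := mix_compare bF hHi hLo hε0 hε1 u
  rw [hu] at hmix
  have hsplit := recV_split hψ (ex_nonneg J) (tP_mono h) (k := J + 2) (μ := μ)
    (by rw [tP_last]; exact hμ1.le) (J + 2) le_rfl 0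
  rw [Nat.sub_self, tP_zero, sub_zero, max_eq_left hμ0] at hsplit
  simp only [zero_add] at hsplit
  have hThP : recV ψ (tP J P) (ex J) (J + 2) (J + 2) 0 = Th J ψ P := rfl
  rw [hThP] at hsplit
  have h1 : ∫ x, F (∑ i, u i * x i) ∂(Measure.pi fun _ : I => mixtureLaw ε) ≤
      Th J ψ P + 1 / D * μ * ε / 2 := by
    have := (abs_le.1 hmix).2
    linarith
  have hS := SP_rest h hP hμ1
  have hDP : 0 < DP J P 0 := by rw [← Dμ_zero h]; exact Dμ_pos h hP one_pos 0
  have hconc := DP_concave h hμ0 hμ1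
  have h2 : α * (1 / D * μ * ε / 2) ≤ μ / (2 * DP J P 0) := by
    have h3 : α * (1 / D * μ * ε / 2) = (α * ε) * μ / (2 * D) := by field_simp
    rw [h3]
    rw [div_le_div_iff₀ (by positivity) (by positivity)]
    have h4 : (α * ε) * DP J P 0 ≤ D :=
      (mul_le_mul_of_nonneg_right hαε hDP.le).trans hconc
    nlinarith [mul_le_mul_of_nonneg_right h4 hμ0]
  have h5 := mul_le_mul_of_nonneg_left h1 hα
  rw [mul_add] at h5
  linarith

end

end Crest.Agent.R146.LocDet_508
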