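import Crest.Agent.R146.LocXR_508
import Crest.Agent.R146.Sph2_409
import Crest.Agent.R146.RepairNet_840

-- ▼ part R146/LocCov_508
section

/-!
Row 146, node LOC (task 13), helper508: the covering inequality for one localised block `(I, u)`.
-/

set_option autoImplicit false

open MeasureTheory ProbabilityTheory Filter Set
open scoped ENNReal NNReal Topology

namespace Crest.Agent.R146.LocCov_508

open Crest.ProbabilityR.Perceptron
open Crest.Agent.R146.Sph_409
open Crest.Agent.R146.LocSph_508 (nrm nrm_nonneg nrm_sq measurable_nrm uS_split)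
open Crest.Agent.R146.LocXR_508
open Crest.Agent.R146L878 (logZ DD sv expo measurableSet_DD measurable_sv)

noncomputable section

variable {N n M : ℕ} {I : Type} [Fintype I]

/-- splitting a sum over the coordinates -/
theorem sum_E (E : I ⊕ Fin n ≃ Fin N) (f : Fin N → ℝ) :
    ∑ i, f i = ∑ a, f (E (Sum.inl a)) + ∑ b, f (E (Sum.inr b)) := by
  rw [← Equiv.sum_comp E, Fintype.sum_sum_type]

theorem sum_sq_sphere (y : UnitSphere N) : ∑ i, ((y : En N) i) ^ 2 = 1 := by
  have h := norm_coe_sphere y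
  rw [EuclideanSpace.norm_eq, Real.sqrt_eq_one] at h
  simpa [Real.norm_eq_abs, sq_abs] using h

/-- Lipschitz potentials along a bounded matrix -/
theorem sum_lip {ψ : ℝ → ℝ} {L B D : ℝ} (hL0 : 0 ≤ L) (hB0 : 0 ≤ B)
    (hL : ∀ x y, |ψ x - ψ y| ≤ L * |x - y|) {A : Fin M × Fin N → ℝ}
    (hA : ∀ v : Fin N → ℝ, ∑ a, (∑ i, A (a, i) * v i) ^ 2 ≤ B ^ 2 * ∑ i, v i ^ 2)
    (x x' : Fin M → ℝ) (v : Fin N → ℝ) (hv : ∀ a, x a - x' a = ∑ i, A (a, i) * v i)
    (hD : ∑ i, v i ^ 2 ≤ D) :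
    ∑ a, ψ (x a) ≤ L * √M * B * √D + ∑ a, ψ (x' a) := by
  have h1 : ∑ a, (ψ (x a) - ψ (x' a)) ≤ L * ∑ a, |x a - x' a| := by
    rw [Finset.mul_sum]
    exact Finset.sum_le_sum fun a _ => (le_abs_self _).trans (hL _ _)
  have h2 : ∑ a, |x a - x' a| ≤ √M * √(∑ a, (x a - x' a) ^ 2) := by
    have h := Finset.sum_mul_sq_le_sq_mul_sq Finset.univ (fun _ : Fin M => (1 : ℝ))
      fun a => |x a - x' a|
    simp only [one_mul, one_pow, Finset.sum_const, Finset.card_univ, Fintype.card_fin,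
      nsmul_eq_mul, mul_one, sq_abs] at h
    rw [← Real.sqrt_mul (by positivity)]
    exact Real.le_sqrt_of_sq_le h
  have h3 : √(∑ a, (x a - x' a) ^ 2) ≤ B * √D := by
    have e : ∑ a, (x a - x' a) ^ 2 ≤ B ^ 2 * D := by
      have := hA v
      simp only [← hv] at this
      exact this.trans (mul_le_mul_of_nonneg_left hD (sq_nonneg B))
    calc √(∑ a, (x a - x' a) ^ 2) ≤ √(B ^ 2 * D) := Real.sqrt_le_sqrt e
      _ = B * √D := by rw [Real.sqrt_mul (sq_nonneg B), Real.sqrt_sq hB0]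
  have h4 : L * ∑ a, |x a - x' a| ≤ L * (√M * (B * √D)) :=
    mul_le_mul_of_nonneg_left (h2.trans (mul_le_mul_of_nonneg_left h3 (Real.sqrt_nonneg _))) hL0
  rw [Finset.sum_sub_distrib] at h1
  linarith [show L * (√(M : ℝ) * (B * √D)) = L * √M * B * √D by ring]

/-- region of one block -/
def Rg (E : I ⊕ Fin n ≃ Fin N) (u : I → ℝ) (s h κ : ℝ) : Set (UnitSphere N) :=
  {y | (∀ b, |(y : En N) (E (Sum.inr b))| ≤ κ) ∧ s ≤ ∑ b, ((y : En N) (E (Sum.inr b))) ^ 2 ∧
    ∑ a, u a ^ 2 ≤ ∑ a, ((y : En N) (E (Sum.inl a))) ^ 2 ∧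
    ∑ a, ((y : En N) (E (Sum.inl a))) ^ 2 ≤ ∑ a, u a ^ 2 + h ∧
    ∑ a, ((y : En N) (E (Sum.inl a)) - u a) ^ 2 ≤ 9 * h}

theorem measurableSet_Rg (E : I ⊕ Fin n ≃ Fin N) (u : I → ℝ) (s h κ : ℝ) :
    MeasurableSet (Rg E u s h κ) := by
  have hc : ∀ i : Fin N, Continuous fun y : UnitSphere N => (y : En N) i := fun i =>
    (EuclideanSpace.proj i).continuous.comp continuous_subtype_val
  refine IsClosed.measurableSet ?_
  unfold Rg
  simp only [Set.ofPred_and, Set.ofPred_forall]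
  refine IsClosed.inter (isClosed_iInter fun b => isClosed_le (hc _).abs continuous_const)
    (IsClosed.inter (isClosed_le continuous_const
      (continuous_finsetSum _ fun b _ => (hc _).pow 2))
    (IsClosed.inter (isClosed_le continuous_const
      (continuous_finsetSum _ fun a _ => (hc _).pow 2))
    (IsClosed.inter (isClosed_le (continuous_finsetSum _ fun a _ => (hc _).pow 2)
      continuous_const)
    (isClosed_le (continuous_finsetSum _ fun a _ =>
      ((hc (E (Sum.inl a))).sub (continuous_const : Continuous fun _ : UnitSphere N => u a)).pow 2)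
      continuous_const))))

/-- pointwise replacement on the region -/
theorem point_le (E : I ⊕ Fin n ≃ Fin N) (u : I → ℝ) {μ s h κ L B : ℝ} (hu : ∑ a, u a ^ 2 = μ)
    (hs : 0 < s) (hL0 : 0 ≤ L) (hB0 : 0 ≤ B) {ψ : ℝ → ℝ}
    (hL : ∀ x y, |ψ x - ψ y| ≤ L * |x - y|) {A : Fin M × Fin N → ℝ}
    (hA : ∀ v : Fin N → ℝ, ∑ a, (∑ i, A (a, i) * v i) ^ 2 ≤ B ^ 2 * ∑ i, v i ^ 2)
    {y : UnitSphere N} (hy : y ∈ Rg E u s h κ) :
    (nrm fun b => (y : En N) (E (Sum.inr b))) ^ 2 ≤ 1 - μ ∧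
    (∀ j, |(nrm fun b => (y : En N) (E (Sum.inr b)))⁻¹ * (y : En N) (E (Sum.inr j))| ≤ κ / √s) ∧
    ∑ a, ψ (∑ i, A (a, i) * (y : En N) i) ≤ L * √M * B * √(9 * h + h ^ 2 / (4 * s)) +
      ∑ a, ψ (∑ i, A (a, E (Sum.inl i)) * u i + √(1 - μ) * ∑ j, A (a, E (Sum.inr j)) *
        ((nrm fun b => (y : En N) (E (Sum.inr b)))⁻¹ * (y : En N) (E (Sum.inr j)))) := by
  obtain ⟨h1, h2, h3, h4, h5⟩ := hy
  set ρ := nrm fun b => (y : En N) (E (Sum.inr b)) with hρ
  have hρsq : ρ ^ 2 = ∑ b, ((y : En N) (E (Sum.inr b))) ^ 2 := nrm_sq _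
  have hρ0 : 0 ≤ ρ := nrm_nonneg _
  have hsum := sum_sq_sphere y
  rw [sum_E E, ← hρsq] at hsum
  have hρs : √s ≤ ρ := by
    rw [← Real.sqrt_sq hρ0, hρsq]; exact Real.sqrt_le_sqrt h2
  have hs' : 0 < √s := Real.sqrt_pos.2 hs
  have hρpos : 0 < ρ := hs'.trans_le hρs
  have hle : ρ ^ 2 ≤ 1 - μ := by rw [hu] at h3; linarith
  have hge : 1 - μ - h ≤ ρ ^ 2 := by rw [hu] at h4; linarith
  have hμs : √s ≤ √(1 - μ) := Real.sqrt_le_sqrt ((hρsq ▸ h2).trans hle)
  have hμ0 : 0 ≤ 1 - μ := (sq_nonneg ρ).trans hle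
  refine ⟨hle, fun j => ?_, ?_⟩
  · rw [abs_mul, abs_inv, abs_of_pos hρpos, inv_mul_eq_div]
    exact div_le_div₀ ((abs_nonneg _).trans (h1 j)) (h1 j) hs' hρs
  · -- the difference vector
    set t := √(1 - μ) with ht
    have htsq : t ^ 2 = 1 - μ := Real.sq_sqrt hμ0
    have htρ : (t - ρ) ^ 2 ≤ h ^ 2 / (4 * s) := by
      have e1 : (t - ρ) * (t + ρ) ≤ h := by nlinarith
      have e0 : 0 ≤ t - ρ := by
        have : ρ ≤ t := by
          rw [ht, ← Real.sqrt_sq hρ0]; exact Real.sqrt_le_sqrt hle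
        linarith
      have e2 : (t - ρ) * (2 * √s) ≤ h :=
        (mul_le_mul_of_nonneg_left (by linarith) e0).trans e1
      rw [le_div_iff₀ (by positivity)]
      have e3 : ((t - ρ) * (2 * √s)) ^ 2 ≤ h ^ 2 := pow_le_pow_left₀ (by positivity) e2 2
      have e4 : ((t - ρ) * (2 * √s)) ^ 2 = (t - ρ) ^ 2 * (4 * s) := by
        rw [mul_pow, mul_pow, Real.sq_sqrt hs.le]; ring
      linarith
    let w : I ⊕ Fin n → ℝ := Sum.elim (fun a => (y : En N) (E (Sum.inl a)) - u a)
      fun j => (1 - t * ρ⁻¹) * (y : En N) (E (Sum.inr j))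
    let v : Fin N → ℝ := fun i => w (E.symm i)
    have hvE : ∀ x, v (E x) = w x := fun x => by simp [v]
    refine sum_lip hL0 hB0 hL hA (fun a => ∑ i, A (a, i) * (y : En N) i) _ v (fun a => ?_) ?_
    · rw [sum_E E (fun i => A (a, i) * (y : En N) i), sum_E E (fun i => A (a, i) * v i)]
      simp only [hvE, w, Sum.elim_inl, Sum.elim_inr]
      rw [Finset.mul_sum]
      have e1 : ∑ a_1, A (a, E (Sum.inl a_1)) * ((y : En N) (E (Sum.inl a_1)) - u a_1) =
          ∑ a_1, A (a, E (Sum.inl a_1)) * (y : En N) (E (Sum.inl a_1)) -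
            ∑ i, A (a, E (Sum.inl i)) * u i := by
        rw [← Finset.sum_sub_distrib]; exact Finset.sum_congr rfl fun i _ => by ring
      have e2 : ∑ b, A (a, E (Sum.inr b)) * ((1 - t * ρ⁻¹) * (y : En N) (E (Sum.inr b))) =
          ∑ b, A (a, E (Sum.inr b)) * (y : En N) (E (Sum.inr b)) -
            ∑ i, t * (A (a, E (Sum.inr i)) * (ρ⁻¹ * (y : En N) (E (Sum.inr i)))) := by
        rw [← Finset.sum_sub_distrib]; exact Finset.sum_congr rfl fun i _ => by ring
      rw [e1, e2]; ring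
    · rw [sum_E E]
      simp only [hvE, w, Sum.elim_inl, Sum.elim_inr]
      have e1 : ∑ b, ((1 - t * ρ⁻¹) * (y : En N) (E (Sum.inr b))) ^ 2 = (t - ρ) ^ 2 := by
        simp only [mul_pow]
        rw [← Finset.mul_sum, ← hρsq, ← mul_pow]
        have : (1 - t * ρ⁻¹) * ρ = ρ - t := by field_simp
        rw [this]; ring
      rw [e1]
      linarith

/-- the `lintegral` of the rest -/
theorem lintegral_rest {ψ : ℝ → ℝ} {K : ℝ} (hψ : Measurable ψ) (hK : ∀ x, |ψ x| ≤ K) [NeZero n]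
    (μ κ : ℝ) (c : Fin M → ℝ) (A : Fin M × Fin n → ℝ) :
    ∫⁻ z : UnitSphere n in DD n κ,
      ENNReal.ofReal (Real.exp (∑ a, ψ (c a + √(1 - μ) * ∑ j, A (a, j) * (z : En n) j))) ∂uS n ≤
      ENNReal.ofReal (Real.exp (XR ψ μ κ c A)) := by
  have hm : Measurable fun z : UnitSphere n =>
      Real.exp (∑ a, ψ (c a + √(1 - μ) * ∑ j, A (a, j) * (z : En n) j)) := by
    have hc : ∀ i : Fin n, Measurable fun y : UnitSphere n => (y : En n) i := fun i =>
      ((EuclideanSpace.proj i).continuous.comp continuous_subtype_val).measurable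
    refine Real.measurable_exp.comp (Finset.measurable_sum _ fun a _ => hψ.comp ?_)
    exact measurable_const.add (measurable_const.mul
      (Finset.measurable_sum _ fun j _ => measurable_const.mul (hc j)))
  have hint : Integrable (fun z : UnitSphere n =>
      Real.exp (∑ a, ψ (c a + √(1 - μ) * ∑ j, A (a, j) * (z : En n) j)))
      ((uS n).restrict (DD n κ)) := by
    refine Integrable.of_bound hm.aestronglyMeasurable (Real.exp (M * K))
      (Filter.Eventually.of_forall fun z => ?_)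
    rw [Real.norm_eq_abs, abs_of_pos (Real.exp_pos _)]
    refine Real.exp_le_exp.2 ?_
    calc _ ≤ ∑ _a : Fin M, K := Finset.sum_le_sum fun a _ => (le_abs_self _).trans (hK _)
      _ = _ := by simp
  rw [← ofReal_integral_eq_lintegral_ofReal hint
    (Filter.Eventually.of_forall fun z => (Real.exp_pos _).le)]
  refine ENNReal.ofReal_le_ofReal ?_
  unfold XR logZ expo sv
  exact Real.le_exp_log _

/-- **the block inequality** -/
theorem cov_one [NeZero N] [NeZero n] (E : I ⊕ Fin n ≃ Fin N) (u : I → ℝ) {μ s h κ L B K : ℝ}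
    (hu : ∑ a, u a ^ 2 = μ) (hs : 0 < s) (hL0 : 0 ≤ L) (hB0 : 0 ≤ B) {ψ : ℝ → ℝ}
    (hψ : Measurable ψ) (hK : ∀ x, |ψ x| ≤ K)
    (hL : ∀ x y, |ψ x - ψ y| ≤ L * |x - y|) {A : Fin M × Fin N → ℝ}
    (hA : ∀ v : Fin N → ℝ, ∑ a, (∑ i, A (a, i) * v i) ^ 2 ≤ B ^ 2 * ∑ i, v i ^ 2) :
    ∫⁻ y in Rg E u s h κ, ENNReal.ofReal (Real.exp (∑ a, ψ (∑ i, A (a, i) * (y : En N) i))) ∂uS N ≤
      ENNReal.ofReal (Real.exp (L * √M * B * √(9 * h + h ^ 2 / (4 * s)))) *
        (uS N {y : UnitSphere N | ∑ b, ((y : En N) (E (Sum.inr b))) ^ 2 ≤ 1 - μ} *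
          ENNReal.ofReal (Real.exp (XF ψ μ (κ / √s) u
            (fun p : Fin M × (I ⊕ Fin n) => A (p.1, E p.2))))) := by
  set e := L * √M * B * √(9 * h + h ^ 2 / (4 * s)) with he
  -- the two factors
  let G : (I → ℝ) × ℝ → ℝ≥0∞ := fun p => Set.indicator {r : ℝ | r ^ 2 ≤ 1 - μ} 1 p.2
  let X : (Fin n → ℝ) → ℝ := fun z =>
    ∑ a, ψ (∑ i, A (a, E (Sum.inl i)) * u i + √(1 - μ) * ∑ j, A (a, E (Sum.inr j)) * z j)
  let H : (Fin n → ℝ) → ℝ≥0∞ := Set.indicator {z | ∀ j, |z j| ≤ κ / √s}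
    fun z => ENNReal.ofReal (Real.exp (X z))
  have hset : MeasurableSet {r : ℝ | r ^ 2 ≤ 1 - μ} :=
    measurableSet_le (by fun_prop) measurable_const
  have hG : Measurable G := (measurable_one.indicator hset).comp measurable_snd
  have hD : MeasurableSet {z : Fin n → ℝ | ∀ j, |z j| ≤ κ / √s} := by
    simp only [Set.ofPred_forall]
    exact MeasurableSet.iInter fun j => measurableSet_le (by fun_prop) measurable_const
  have hX : Measurable X := by
    refine Finset.measurable_sum _ fun a _ => hψ.comp ?_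
    exact measurable_const.add (measurable_const.mul
      (Finset.measurable_sum _ fun j _ => measurable_const.mul (measurable_pi_apply j)))
  have hH : Measurable H := (ENNReal.measurable_ofReal.comp (Real.measurable_exp.comp hX)).indicator hD
  have hsplit := uS_split (N := N) (n := n) E hG hH
  have hpt : ∀ y : UnitSphere N, Set.indicator (Rg E u s h κ)
      (fun y : UnitSphere N =>
        ENNReal.ofReal (Real.exp (∑ a, ψ (∑ i, A (a, i) * (y : En N) i)))) y ≤
      ENNReal.ofReal (Real.exp e) * (G ((fun a => (y : En N) (E (Sum.inl a))),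
        nrm fun b => (y : En N) (E (Sum.inr b))) *
        H (fun j => (nrm fun b => (y : En N) (E (Sum.inr b)))⁻¹ * (y : En N) (E (Sum.inr j)))) := by
    intro y
    by_cases hy : y ∈ Rg E u s h κ
    · rw [Set.indicator_of_mem hy]
      obtain ⟨h1, h2, h3⟩ := point_le (κ := κ) E u hu hs hL0 hB0 hL hA hy
      have g1 : G ((fun a => (y : En N) (E (Sum.inl a))),
          nrm fun b => (y : En N) (E (Sum.inr b))) = 1 := by
        simp only [G]
        rw [Set.indicator_of_mem (by exact h1)]; rfl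
      have g2 : H (fun j => (nrm fun b => (y : En N) (E (Sum.inr b)))⁻¹ *
          (y : En N) (E (Sum.inr j))) = ENNReal.ofReal (Real.exp (X fun j =>
            (nrm fun b => (y : En N) (E (Sum.inr b)))⁻¹ * (y : En N) (E (Sum.inr j)))) := by
        simp only [H]
        rw [Set.indicator_of_mem (by exact h2)]
      rw [g1, g2, one_mul, ← ENNReal.ofReal_mul (Real.exp_pos _).le, ← Real.exp_add]
      exact ENNReal.ofReal_le_ofReal (Real.exp_le_exp.2 h3)
    · rw [Set.indicator_of_notMem hy]; exact zero_le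
  calc ∫⁻ y in Rg E u s h κ, ENNReal.ofReal (Real.exp (∑ a, ψ (∑ i, A (a, i) * (y : En N) i))) ∂uS N
      = ∫⁻ y, Set.indicator (Rg E u s h κ) (fun y : UnitSphere N =>
          ENNReal.ofReal (Real.exp (∑ a, ψ (∑ i, A (a, i) * (y : En N) i)))) y ∂uS N :=
        (lintegral_indicator (measurableSet_Rg E u s h κ) _).symm
    _ ≤ ∫⁻ y : UnitSphere N, ENNReal.ofReal (Real.exp e) *
        (G ((fun a => (y : En N) (E (Sum.inl a))), nrm fun b => (y : En N) (E (Sum.inr b))) *
        H (fun j => (nrm fun b => (y : En N) (E (Sum.inr b)))⁻¹ * (y : En N) (E (Sum.inr j)))) ∂uS N :=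
        lintegral_mono hpt
    _ = ENNReal.ofReal (Real.exp e) * ((∫⁻ y : UnitSphere N, G ((fun a => (y : En N) (E (Sum.inl a))),
        nrm fun b => (y : En N) (E (Sum.inr b))) ∂uS N) *
        ∫⁻ z : UnitSphere n, H (fun j => (z : En n) j) ∂uS n) := by
        rw [lintegral_const_mul' _ _ ENNReal.ofReal_ne_top, hsplit]
    _ ≤ _ := by
        refine mul_le_mul' le_rfl (mul_le_mul' ?_ ?_)
        · have e1 : ∀ y : UnitSphere N, G ((fun a => (y : En N) (E (Sum.inl a))),
              nrm fun b => (y : En N) (E (Sum.inr b))) =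
              Set.indicator {y : UnitSphere N | ∑ b, ((y : En N) (E (Sum.inr b))) ^ 2 ≤ 1 - μ} 1 y := by
            intro y
            simp only [G, Set.indicator_apply, Set.mem_ofPred_eq, nrm_sq, Pi.one_apply]
          simp only [e1]
          exact (lintegral_indicator_one_le _)
        · have e2 : ∀ z : UnitSphere n, H (fun j => (z : En n) j) =
              Set.indicator (DD n (κ / √s)) (fun z : UnitSphere n => ENNReal.ofReal (Real.exp
                (∑ a, ψ (∑ i, A (a, E (Sum.inl i)) * u i +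
                  √(1 - μ) * ∑ j, A (a, E (Sum.inr j)) * (z : En n) j)))) z := by
            intro z
            simp only [H, X, Set.indicator_apply, DD, sv, Set.mem_ofPred_eq]
          simp only [e2]
          rw [lintegral_indicator (measurableSet_DD _)]
          exact lintegral_rest hψ hK μ (κ / √s) (fun a => ∑ i, A (a, E (Sum.inl i)) * u i)
            (fun p : Fin M × Fin n => A (p.1, E (Sum.inr p.2)))

end

end Crest.Agent.R146.LocCov_508
end

-- ▼ part R146/LocCov2_508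
section

/-!
Row 146, node LOC (task 13), helper508: the sphere is covered by the high region and the blocks.
-/

set_option autoImplicit false

open MeasureTheory ProbabilityTheory Filter Set
open scoped ENNReal NNReal Topology

namespace Crest.Agent.R146.LocCov_508

open Crest.ProbabilityR.Perceptron
open Crest.Agent.R146.Sph_409
open Crest.Agent.R146.LocSph_508 (nrm nrm_nonneg nrm_sq measurable_nrm uS_split)
open Crest.Agent.R146.LocXR_508

noncomputable section

variable {N : ℕ}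

theorem card_compl_sub (I : Finset (Fin N)) :
    Fintype.card {i // i ∉ I} = N - I.card := by
  classical
  rw [Fintype.card_subtype_compl, Fintype.card_fin, Fintype.card_coe]

/-- the enumeration of the coordinates adapted to `I` -/
def EI (I : Finset (Fin N)) : {i // i ∈ I} ⊕ Fin (N - I.card) ≃ Fin N :=
  (Equiv.sumCongr (Equiv.refl _) (Fintype.equivFinOfCardEq (card_compl_sub I)).symm).trans
    (Equiv.sumCompl fun i => i ∈ I)

@[simp] theorem EI_inl (I : Finset (Fin N)) (a : {i // i ∈ I}) : EI I (Sum.inl a) = a.1 := by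
  simp [EI]

theorem EI_inr (I : Finset (Fin N)) (b : Fin (N - I.card)) : EI I (Sum.inr b) ∉ I := by
  simp only [EI, Equiv.trans_apply, Equiv.sumCongr_apply, Sum.map_inr, Equiv.sumCompl_apply_inr]
  exact ((Fintype.equivFinOfCardEq (card_compl_sub I)).symm b).2

theorem sum_inl (I : Finset (Fin N)) (f : Fin N → ℝ) :
    ∑ a, f (EI I (Sum.inl a)) = ∑ i ∈ I, f i := by
  simp only [EI_inl]
  exact Finset.sum_coe_sort I f

theorem sum_inr (I : Finset (Fin N)) (f : Fin N → ℝ) :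
    ∑ b, f (EI I (Sum.inr b)) = ∑ i ∈ Iᶜ, f i := by
  have h := sum_E (EI I) f
  rw [sum_inl, ← Finset.sum_add_sum_compl I f] at h
  linarith

/-- the high region -/
def Hg (N K0 : ℕ) (s : ℝ) : Set (UnitSphere N) :=
  {y | ∃ I : Finset (Fin N), I.card ≤ K0 ∧ ∑ i ∈ Iᶜ, ((y : En N) i) ^ 2 ≤ s}

theorem continuous_coord (i : Fin N) : Continuous fun y : UnitSphere N => (y : En N) i :=
  (EuclideanSpace.proj i).continuous.comp continuous_subtype_val

theorem measurableSet_Hg (N K0 : ℕ) (s : ℝ) : MeasurableSet (Hg N K0 s) := by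
  have e : Hg N K0 s = ⋃ I ∈ (Finset.univ : Finset (Finset (Fin N))).filter (fun I => I.card ≤ K0),
      {y : UnitSphere N | ∑ i ∈ Iᶜ, ((y : En N) i) ^ 2 ≤ s} := by
    ext y; simp [Hg]
  rw [e]
  refine Finset.measurableSet_biUnion _ fun I _ => ?_
  exact (isClosed_le (continuous_finsetSum _ fun i _ => (continuous_coord i).pow 2)
    continuous_const).measurableSet

theorem le_sum_sum {α : Type} {β : α → Type} (T : Finset α) (S : ∀ a, Finset (β a))
    (f : ∀ a, β a → ℝ≥0∞) {a : α} (ha : a ∈ T) {b : β a} (hb : b ∈ S a) :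
    f a b ≤ ∑ a ∈ T, ∑ b ∈ S a, f a b :=
  (Finset.single_le_sum (f := f a) (fun _ _ => zero_le) hb).trans
    (Finset.single_le_sum (f := fun a => ∑ b ∈ S a, f a b) (fun _ _ => zero_le) ha)

/-- **the cover** -/
theorem cover {κ s h : ℝ} (hκ : 0 < κ) {K0 : ℕ} (hK0 : (κ ^ 2)⁻¹ ≤ K0)
    (S : ∀ I : Finset (Fin N), Finset ({i // i ∈ I} → ℝ))
    (hS : ∀ (I : Finset (Fin N)) (w : {i // i ∈ I} → ℝ), ∑ i, w i ^ 2 ≤ 1 → ∃ u ∈ S I,
      ∑ i, u i ^ 2 ≤ ∑ i, w i ^ 2 ∧ ∑ i, w i ^ 2 ≤ ∑ i, u i ^ 2 + h ∧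
      ∑ i, (w i - u i) ^ 2 ≤ 9 * h)
    {F : UnitSphere N → ℝ≥0∞} (hF : Measurable F) :
    ∫⁻ y, F y ∂uS N ≤ ∫⁻ y in Hg N K0 s, F y ∂uS N +
      ∑ I ∈ (Finset.univ : Finset (Finset (Fin N))).filter (fun I => I.card ≤ K0),
        ∑ u ∈ (S I).filter (fun u => ∑ i, u i ^ 2 ≤ 1 - s),
          ∫⁻ y in Rg (EI I) u s h κ, F y ∂uS N := by
  have hpt : ∀ y : UnitSphere N, F y ≤ (Hg N K0 s).indicator F y +
      ∑ I ∈ (Finset.univ : Finset (Finset (Fin N))).filter (fun I => I.card ≤ K0),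
        ∑ u ∈ (S I).filter (fun u => ∑ i, u i ^ 2 ≤ 1 - s),
          (Rg (EI I) u s h κ).indicator F y := by
    intro y
    by_cases hy : y ∈ Hg N K0 s
    · rw [Set.indicator_of_mem hy]
      exact le_self_add
    · -- the localised set
      set I : Finset (Fin N) := Finset.univ.filter fun i => κ < |(y : En N) i| with hI
      have hmemI : ∀ i, i ∈ I ↔ κ < |(y : En N) i| := fun i => by simp [hI]
      clear_value I
      have hsum := sum_sq_sphere y
      have hcard : I.card ≤ K0 := by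
        have h1 : (I.card : ℝ) * κ ^ 2 ≤ 1 := by
          calc (I.card : ℝ) * κ ^ 2 = ∑ _i ∈ I, κ ^ 2 := by rw [Finset.sum_const, nsmul_eq_mul]
            _ ≤ ∑ i ∈ I, ((y : En N) i) ^ 2 := by
                refine Finset.sum_le_sum fun i hi => ?_
                have h2 := (hmemI i).1 hi
                rw [← sq_abs ((y : En N) i)]
                exact pow_le_pow_left₀ hκ.le h2.le 2
            _ ≤ ∑ i, ((y : En N) i) ^ 2 :=
                Finset.sum_le_sum_of_subset_of_nonneg (Finset.subset_univ _)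
                  fun i _ _ => sq_nonneg _
            _ = 1 := hsum
        have h2 : (I.card : ℝ) ≤ (κ ^ 2)⁻¹ := by
          rw [← one_div, le_div_iff₀ (by positivity)]; exact h1
        exact_mod_cast h2.trans hK0
      have hlow : s ≤ ∑ i ∈ Iᶜ, ((y : En N) i) ^ 2 := by
        by_contra hc
        push Not at hc
        exact hy ⟨I, hcard, hc.le⟩
      have hspl : ∑ i ∈ I, ((y : En N) i) ^ 2 + ∑ i ∈ Iᶜ, ((y : En N) i) ^ 2 = 1 := by
        rw [Finset.sum_add_sum_compl, hsum]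
      have hw : ∑ a : {i // i ∈ I}, ((y : En N) a.1) ^ 2 = ∑ i ∈ I, ((y : En N) i) ^ 2 :=
        Finset.sum_coe_sort I fun i => ((y : En N) i) ^ 2
      obtain ⟨u, hu, h1, h2, h3⟩ := hS I (fun a => (y : En N) a.1) (by
        rw [hw]
        have : 0 ≤ ∑ i ∈ Iᶜ, ((y : En N) i) ^ 2 := Finset.sum_nonneg fun i _ => sq_nonneg _
        linarith)
      have hmem : y ∈ Rg (EI I) u s h κ := by
        refine ⟨fun b => ?_, ?_, ?_, ?_, ?_⟩
        · exact not_lt.1 fun hc => EI_inr I b ((hmemI _).2 hc)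
        · rw [sum_inr I fun i => ((y : En N) i) ^ 2]; exact hlow
        · simp only [EI_inl]; exact h1
        · simp only [EI_inl]; exact h2
        · simp only [EI_inl]; exact h3
      have hus : ∑ i, u i ^ 2 ≤ 1 - s := by
        refine h1.trans ?_
        rw [hw]; linarith
      refine le_trans ?_ le_add_self
      have e1 : F y = (Rg (EI I) u s h κ).indicator F y := by rw [Set.indicator_of_mem hmem]
      rw [e1]
      have hI' : I ∈ (Finset.univ : Finset (Finset (Fin N))).filter (fun I => I.card ≤ K0) :=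
        Finset.mem_filter.2 ⟨Finset.mem_univ I, hcard⟩
      have hu' : u ∈ (S I).filter (fun u => ∑ i, u i ^ 2 ≤ 1 - s) :=
        Finset.mem_filter.2 ⟨hu, hus⟩
      have key := le_sum_sum (α := Finset (Fin N)) (β := fun I => {i // i ∈ I} → ℝ)
        ((Finset.univ : Finset (Finset (Fin N))).filter (fun I => I.card ≤ K0))
        (fun I => (S I).filter (fun u => ∑ i, u i ^ 2 ≤ 1 - s))
        (fun I u => (Rg (EI I) u s h κ).indicator F y) (a := I) hI' (b := u) hu'
      exact key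
  refine (lintegral_mono hpt).trans ?_
  rw [lintegral_add_left (hF.indicator (measurableSet_Hg N K0 s)),
    lintegral_indicator (measurableSet_Hg N K0 s)]
  refine add_le_add le_rfl (le_of_eq ?_)
  rw [lintegral_finsetSum]
  · refine Finset.sum_congr rfl fun I _ => ?_
    rw [lintegral_finsetSum]
    · exact Finset.sum_congr rfl fun u _ => lintegral_indicator (measurableSet_Rg _ _ _ _ _) _
    · exact fun u _ => hF.indicator (measurableSet_Rg _ _ _ _ _)
  · exact fun I _ => Finset.measurable_sum _ fun u _ => hF.indicator (measurableSet_Rg _ _ _ _ _)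

end

end Crest.Agent.R146.LocCov_508
end

-- ▼ part R146/LocAsm1_508
section

/-!
Row 146, node LOC (task 13), helper508: the deterministic bound of the partition function.
-/

set_option autoImplicit false

open MeasureTheory ProbabilityTheory Filter Set
open scoped ENNReal NNReal Topology

namespace Crest.Agent.R146.LocAsm_508

open Crest.ProbabilityR.Perceptron
open Crest.Agent.R146.Sph_409
open Crest.Agent.R146.LocSph_508 (uS_tail)
open Crest.Agent.R146.LocXR_508
open Crest.Agent.R146.LocCov_508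

noncomputable section

variable {N M : ℕ}

/-- error exponent of the entropy factors -/
def Rerr (N K0 : ℕ) (s κ' : ℝ) : ℝ :=
  K0 / 2 * Real.log (1 / κ') - K0 / 2 * Real.log s + N / 2 * Real.log (1 / (1 - κ'))

/-- entropy factor of one block -/
theorem ent_le [NeZero N] {I : Finset (Fin N)} {K0 : ℕ} (hI : I.card ≤ K0) {t s κ' : ℝ}
    (hs : 0 < s) (hst : s ≤ t) (ht1 : t ≤ 1) (hκ0 : 0 < κ') (hκ1 : κ' < 1) :
    uS N {y : UnitSphere N | ∑ b, ((y : En N) (EI I (Sum.inr b))) ^ 2 ≤ t} ≤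
      ENNReal.ofReal (Real.exp (Rerr N K0 s κ' + N / 2 * Real.log t)) := by
  have ht0 : 0 < t := hs.trans_le hst
  refine (uS_tail (EI I) ht0 ht1 hκ0 hκ1).trans (ENNReal.ofReal_le_ofReal ?_)
  have h1κ : 0 < 1 - κ' := by linarith
  have e1 : 1 / √κ' = Real.exp (1 / 2 * Real.log (1 / κ')) := by
    rw [show 1 / √κ' = √(1 / κ') by rw [Real.sqrt_div zero_le_one, Real.sqrt_one],
      Real.sqrt_eq_rpow, Real.rpow_def_of_pos (by positivity)]
    ring_nf
  have e2 : √(t / (1 - κ')) = Real.exp (1 / 2 * (Real.log t + Real.log (1 / (1 - κ')))) := by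
    rw [Real.sqrt_eq_rpow, Real.rpow_def_of_pos (by positivity),
      ← Real.log_mul ht0.ne' (by positivity)]
    ring_nf
  rw [e1, e2, ← Real.exp_nat_mul, ← Real.exp_nat_mul, ← Real.exp_add]
  refine Real.exp_le_exp.2 ?_
  have hcard : (Fintype.card {i // i ∈ I} : ℝ) = I.card := by rw [Fintype.card_coe]
  rw [hcard]
  have hIN : I.card ≤ N := by simpa using I.card_le_univ
  have hsub : ((N - I.card : ℕ) : ℝ) = N - I.card := by rw [Nat.cast_sub hIN]
  rw [hsub]
  have hl1 : 0 ≤ Real.log (1 / κ') := Real.log_nonneg (by rw [le_div_iff₀ hκ0]; linarith)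
  have hl2 : 0 ≤ Real.log (1 / (1 - κ')) :=
    Real.log_nonneg (by rw [le_div_iff₀ h1κ]; linarith)
  have hls : Real.log s ≤ Real.log t := Real.log_le_log hs hst
  have hlt : Real.log t ≤ 0 := Real.log_nonpos ht0.le ht1
  have hc0 : (0 : ℝ) ≤ I.card := Nat.cast_nonneg _
  have hcK : (I.card : ℝ) ≤ K0 := by exact_mod_cast hI
  unfold Rerr
  have a1 : (I.card : ℝ) * Real.log (1 / κ') ≤ K0 * Real.log (1 / κ') :=
    mul_le_mul_of_nonneg_right hcK hl1
  have a2 : (I.card : ℝ) * -Real.log t ≤ K0 * -Real.log s :=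
    mul_le_mul hcK (by linarith) (by linarith) (by positivity)
  have a3 : 0 ≤ (I.card : ℝ) * Real.log (1 / (1 - κ')) := mul_nonneg hc0 hl2
  nlinarith

/-- **the deterministic bound** -/
theorem Z_le [NeZero N] {κ s h κ' L B K W W' : ℝ} (hκ : 0 < κ) {K0 D : ℕ}
    (hK0 : (κ ^ 2)⁻¹ ≤ K0) (hKN : K0 < N) (hs : 0 < s) (hs1 : s < 1) (hκ0 : 0 < κ') (hκ1 : κ' < 1)
    (hL0 : 0 ≤ L) (hB0 : 0 ≤ B) (hD : 1 ≤ D)
    (S : ∀ I : Finset (Fin N), Finset ({i // i ∈ I} → ℝ))
    (hSc : ∀ I, (S I).card ≤ D ^ (I.card + 1))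
    (hS : ∀ (I : Finset (Fin N)) (w : {i // i ∈ I} → ℝ), ∑ i, w i ^ 2 ≤ 1 → ∃ u ∈ S I,
      ∑ i, u i ^ 2 ≤ ∑ i, w i ^ 2 ∧ ∑ i, w i ^ 2 ≤ ∑ i, u i ^ 2 + h ∧
      ∑ i, (w i - u i) ^ 2 ≤ 9 * h)
    {ψ : ℝ → ℝ} (hψ : Measurable ψ) (hK : ∀ x, |ψ x| ≤ K)
    (hL : ∀ x y, |ψ x - ψ y| ≤ L * |x - y|) {A : Fin M × Fin N → ℝ}
    (hA : ∀ v : Fin N → ℝ, ∑ a, (∑ i, A (a, i) * v i) ^ 2 ≤ B ^ 2 * ∑ i, v i ^ 2)
    (hlow : ∀ I : Finset (Fin N), I.card ≤ K0 → ∀ u ∈ S I, ∑ i, u i ^ 2 ≤ 1 - s →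
      XF ψ (∑ i, u i ^ 2) (κ / √s) u (fun p : Fin M × ({i // i ∈ I} ⊕ Fin (N - I.card)) =>
        A (p.1, EI I p.2)) + N / 2 * Real.log (1 - ∑ i, u i ^ 2) ≤ W)
    (hhigh : ∀ y ∈ Hg N K0 s, ∑ a, ψ (∑ i, A (a, i) * (y : En N) i) ≤ W') :
    Real.log (∫ y : UnitSphere N, Real.exp (∑ a, ψ (∑ i, A (a, i) * (y : En N) i)) ∂uS N) ≤
      Real.log (2 * (∑ I ∈ (Finset.univ : Finset (Finset (Fin N))).filter (fun I => I.card ≤ K0),
        D ^ (I.card + 1) : ℕ)) + (Rerr N K0 s κ' +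
        max (W' + N / 2 * Real.log s) (L * √M * B * √(9 * h + h ^ 2 / (4 * s)) + W)) := by
  set e := L * √M * B * √(9 * h + h ^ 2 / (4 * s)) with he
  set R := Rerr N K0 s κ' with hR
  set mx := max (W' + N / 2 * Real.log s) (e + W) with hmx
  set T := (Finset.univ : Finset (Finset (Fin N))).filter (fun I => I.card ≤ K0) with hT
  have hF : Measurable fun y : UnitSphere N =>
      Real.exp (∑ a, ψ (∑ i, A (a, i) * (y : En N) i)) := by
    refine Real.measurable_exp.comp (Finset.measurable_sum _ fun a _ => hψ.comp ?_)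
    exact Finset.measurable_sum _ fun j _ => measurable_const.mul (continuous_coord j).measurable
  have hFo := ENNReal.measurable_ofReal.comp hF
  have hint : Integrable (fun y : UnitSphere N =>
      Real.exp (∑ a, ψ (∑ i, A (a, i) * (y : En N) i))) (uS N) := by
    refine Integrable.of_bound hF.aestronglyMeasurable (Real.exp (M * K))
      (Filter.Eventually.of_forall fun z => ?_)
    rw [Real.norm_eq_abs, abs_of_pos (Real.exp_pos _)]
    refine Real.exp_le_exp.2 ?_
    calc _ ≤ ∑ _a : Fin M, K := Finset.sum_le_sum fun a _ => (le_abs_self _).trans (hK _)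
      _ = _ := by simp
  -- the high part
  have hH : ∫⁻ y in Hg N K0 s,
      ENNReal.ofReal (Real.exp (∑ a, ψ (∑ i, A (a, i) * (y : En N) i))) ∂uS N ≤
      ∑ I ∈ T, ENNReal.ofReal (Real.exp (R + mx)) := by
    have h1 : ∫⁻ y in Hg N K0 s,
        ENNReal.ofReal (Real.exp (∑ a, ψ (∑ i, A (a, i) * (y : En N) i))) ∂uS N ≤
        ENNReal.ofReal (Real.exp W') * uS N (Hg N K0 s) := by
      rw [← setLIntegral_const]
      refine setLIntegral_mono' (measurableSet_Hg N K0 s) fun y hy => ?_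
      exact ENNReal.ofReal_le_ofReal (Real.exp_le_exp.2 (hhigh y hy))
    have h2 : uS N (Hg N K0 s) ≤ ∑ I ∈ T, ENNReal.ofReal (Real.exp (R + N / 2 * Real.log s)) := by
      have h3 : Hg N K0 s ⊆ ⋃ I ∈ T,
          {y : UnitSphere N | ∑ b, ((y : En N) (EI I (Sum.inr b))) ^ 2 ≤ s} := by
        rintro y ⟨I, hI, hy⟩
        simp only [Set.mem_iUnion, exists_prop]
        refine ⟨I, by rw [hT]; exact Finset.mem_filter.2 ⟨Finset.mem_univ _, hI⟩, ?_⟩
        show ∑ b, ((y : En N) (EI I (Sum.inr b))) ^ 2 ≤ s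
        rw [sum_inr I fun i => ((y : En N) i) ^ 2]; exact hy
      refine (measure_mono h3).trans ((measure_biUnion_finset_le _ _).trans
        (Finset.sum_le_sum fun I hI => ?_))
      exact ent_le (Finset.mem_filter.1 hI).2 hs le_rfl hs1.le hκ0 hκ1
    refine h1.trans ((mul_le_mul' le_rfl h2).trans ?_)
    rw [Finset.mul_sum]
    refine Finset.sum_le_sum fun I _ => ?_
    rw [← ENNReal.ofReal_mul (Real.exp_pos _).le, ← Real.exp_add]
    refine ENNReal.ofReal_le_ofReal (Real.exp_le_exp.2 ?_)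
    have := le_max_left (W' + N / 2 * Real.log s) (e + W)
    linarith
  -- the blocks
  have hBl : ∀ I ∈ T, ∑ u ∈ (S I).filter (fun u => ∑ i, u i ^ 2 ≤ 1 - s),
      ∫⁻ y in Rg (EI I) u s h κ,
        ENNReal.ofReal (Real.exp (∑ a, ψ (∑ i, A (a, i) * (y : En N) i))) ∂uS N ≤
      (D ^ (I.card + 1) : ℕ) * ENNReal.ofReal (Real.exp (R + mx)) := by
    intro I hI
    have hIK : I.card ≤ K0 := (Finset.mem_filter.1 hI).2
    have : NeZero (N - I.card) := ⟨by omega⟩
    have h1 : ∀ u ∈ (S I).filter (fun u => ∑ i, u i ^ 2 ≤ 1 - s),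
        ∫⁻ y in Rg (EI I) u s h κ,
          ENNReal.ofReal (Real.exp (∑ a, ψ (∑ i, A (a, i) * (y : En N) i))) ∂uS N ≤
        ENNReal.ofReal (Real.exp (R + mx)) := by
      intro u hu
      obtain ⟨huS, hus⟩ := Finset.mem_filter.1 hu
      have hμ0 : 0 ≤ ∑ i, u i ^ 2 := Finset.sum_nonneg fun i _ => sq_nonneg _
      refine (cov_one (h := h) (κ := κ) (EI I) u rfl hs hL0 hB0 hψ hK hL hA).trans ?_
      refine (mul_le_mul' le_rfl (mul_le_mul' (ent_le hIK hs (by linarith) (by linarith)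
        hκ0 hκ1) le_rfl)).trans ?_
      rw [← ENNReal.ofReal_mul (Real.exp_pos _).le, ← ENNReal.ofReal_mul (Real.exp_pos _).le,
        ← Real.exp_add, ← Real.exp_add]
      refine ENNReal.ofReal_le_ofReal (Real.exp_le_exp.2 ?_)
      have h2 := hlow I hIK u huS hus
      have h3 := le_max_right (W' + N / 2 * Real.log s) (e + W)
      linarith
    refine (Finset.sum_le_sum h1).trans ?_
    rw [Finset.sum_const, nsmul_eq_mul]
    refine mul_le_mul' ?_ le_rfl
    exact_mod_cast (Finset.card_filter_le _ _).trans (hSc I)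
  -- total
  have htot : ∫⁻ y : UnitSphere N,
      ENNReal.ofReal (Real.exp (∑ a, ψ (∑ i, A (a, i) * (y : En N) i))) ∂uS N ≤
      ENNReal.ofReal (2 * (∑ I ∈ T, D ^ (I.card + 1) : ℕ) * Real.exp (R + mx)) := by
    refine (cover (s := s) hκ hK0 S hS hFo).trans ?_
    refine (add_le_add hH (Finset.sum_le_sum hBl)).trans ?_
    rw [← Finset.sum_mul, Finset.sum_const, nsmul_eq_mul, ENNReal.ofReal_mul (by positivity),
      ENNReal.ofReal_mul (by norm_num), ENNReal.ofReal_natCast, ← add_mul]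
    refine mul_le_mul' ?_ le_rfl
    have h1 : ((T.card : ℕ) : ℝ≥0∞) ≤ ((∑ I ∈ T, D ^ (I.card + 1) : ℕ) : ℝ≥0∞) := by
      have : T.card ≤ ∑ I ∈ T, D ^ (I.card + 1) := by
        rw [Finset.card_eq_sum_ones]
        exact Finset.sum_le_sum fun I _ => Nat.one_le_pow _ _ hD
      exact_mod_cast this
    have h2 : (∑ i ∈ T, ((D ^ (i.card + 1) : ℕ) : ℝ≥0∞)) =
        ((∑ I ∈ T, D ^ (I.card + 1) : ℕ) : ℝ≥0∞) := by push_cast; rfl
    rw [h2]
    calc (T.card : ℝ≥0∞) + ((∑ I ∈ T, D ^ (I.card + 1) : ℕ) : ℝ≥0∞) ≤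
        ((∑ I ∈ T, D ^ (I.card + 1) : ℕ) : ℝ≥0∞) + ((∑ I ∈ T, D ^ (I.card + 1) : ℕ) : ℝ≥0∞) :=
          add_le_add h1 le_rfl
      _ = ENNReal.ofReal 2 * ((∑ I ∈ T, D ^ (I.card + 1) : ℕ) : ℝ≥0∞) := by
          rw [← two_mul, ENNReal.ofReal_ofNat]
  rw [← ofReal_integral_eq_lintegral_ofReal hint
    (Filter.Eventually.of_forall fun z => (Real.exp_pos _).le)] at htot
  have hcount : (0 : ℝ) < (∑ I ∈ T, D ^ (I.card + 1) : ℕ) := by
    have : 0 < ∑ I ∈ T, D ^ (I.card + 1) := by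
      refine Finset.sum_pos (fun I _ => Nat.pow_pos (by omega)) ⟨∅, ?_⟩
      rw [hT]; exact Finset.mem_filter.2 ⟨Finset.mem_univ _, by simp⟩
    exact_mod_cast this
  have hle := (ENNReal.ofReal_le_ofReal_iff (by positivity)).1 htot
  have hpos : 0 < ∫ y : UnitSphere N,
      Real.exp (∑ a, ψ (∑ i, A (a, i) * (y : En N) i)) ∂uS N := integral_exp_pos hint
  have := Real.log_le_log hpos hle
  rw [Real.log_mul (by positivity) (Real.exp_pos _).ne', Real.log_exp] at this
  exact this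

end

end Crest.Agent.R146.LocAsm_508
end

-- ▼ part R146/Sph3_409
section

/-!
# Row 146, SPHERE part 3 (helper409): Gaussian domination, tails, moments

* `uS_le_stdGaussian` : for `A` with `r • A ⊆ A` (`r ≥ 1`), `uS A ≤ 2 γ(√(N/2) A)`, `N ≥ 16`;
* `uS_coord_tail`, `uS_sup_tail` : `uS (∃ i, t < |y i|) ≤ 4 N exp (-N t² / 4)`;
* `integral_radLaw_sq`, `integral_radLaw_pow4` : moments of the norm;
* `integral_inner_sq`, `integral_inner_pow4`, `integral_coord_sq`, `integral_coord_pow4`.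
-/

set_option autoImplicit false

open MeasureTheory MeasureTheory.Measure ProbabilityTheory Set Filter Topology Metric
open scoped ENNReal NNReal Real Pointwise

noncomputable section

namespace Crest.Agent.R146.Sph_409

open Crest.ProbabilityR.Perceptron
open Crest.Agent.R166.Gauss286 (gv)

/-! ### Gaussian domination -/

theorem radLaw_ge {N : ℕ} (hN : 16 ≤ N) : 1 / 2 ≤ (radLaw N).real {r | √(N / 2) ≤ r} := by
  have hNN : (16 : ℝ) ≤ N := by exact_mod_cast hN
  have : NeZero N := ⟨by omega⟩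
  have hw := radLaw_window N (c := (N : ℝ) / 2) (by positivity)
  have h1 : 2 * (N : ℝ) / (N / 2) ^ 2 ≤ 1 / 2 := by
    rw [div_le_div_iff₀ (by positivity) (by norm_num)]
    nlinarith
  have hSm : MeasurableSet {r : ℝ | (N : ℝ) / 2 ≤ |r ^ 2 - N|} :=
    measurableSet_le measurable_const (by fun_prop)
  have h2 : (radLaw N).real {r : ℝ | (N : ℝ) / 2 ≤ |r ^ 2 - N|}ᶜ ≤
      (radLaw N).real {r | √(N / 2) ≤ r} := by
    rw [measureReal_def, measureReal_def]
    refine ENNReal.toReal_mono (measure_ne_top _ _) (measure_mono_ae ?_)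
    filter_upwards [ae_radLaw_pos N] with r hr hrS
    have h3 : |r ^ 2 - N| < N / 2 := not_le.1 hrS
    rw [abs_lt] at h3
    exact (Real.sqrt_le_sqrt (by linarith [h3.1] : (N : ℝ) / 2 ≤ r ^ 2)).trans
      (le_of_eq (Real.sqrt_sq hr.le))
  rw [probReal_compl_eq_one_sub hSm] at h2
  linarith

theorem uS_le_stdGaussian {N : ℕ} (hN : 16 ≤ N) {A : Set (En N)} (hA : MeasurableSet A)
    (hmul : ∀ x ∈ A, ∀ r : ℝ, 1 ≤ r → r • x ∈ A) :
    (uS N).real {y | (y : En N) ∈ A} ≤
      2 * (stdGaussian (En N)).real {x | (√(N / 2))⁻¹ • x ∈ A} := by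
  have : NeZero N := ⟨by omega⟩
  have hNN : (16 : ℝ) ≤ N := by exact_mod_cast hN
  set c : ℝ := √(N / 2) with hc_def
  have hc : 0 < c := Real.sqrt_pos.2 (by positivity)
  have hB : MeasurableSet {x : En N | c⁻¹ • x ∈ A} := by
    have hm : Measurable fun x : En N => c⁻¹ • x := by fun_prop
    exact hm hA
  have hind : Measurable (indicator {x : En N | c⁻¹ • x ∈ A} (fun _ => (1 : ℝ≥0∞))) :=
    measurable_const.indicator hB
  have hAs : MeasurableSet {y : UnitSphere N | (y : En N) ∈ A} := measurable_subtype_coe hA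
  have h1 : (stdGaussian (En N)) {x | c⁻¹ • x ∈ A} =
      ∫⁻ r, ∫⁻ y, indicator {x : En N | c⁻¹ • x ∈ A} (fun _ => (1 : ℝ≥0∞)) (r • (y : En N))
        ∂uS N ∂radLaw N := by
    rw [← lintegral_stdGaussian_polar N hind, lintegral_indicator hB]
    simp
  have hRm : MeasurableSet {r : ℝ | c ≤ r} := measurableSet_Ici
  have h2 : (radLaw N) {r | c ≤ r} * (uS N) {y | (y : En N) ∈ A} ≤
      (stdGaussian (En N)) {x | c⁻¹ • x ∈ A} := by
    rw [h1, mul_comm, ← lintegral_indicator_const hRm]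
    refine lintegral_mono fun r => ?_
    by_cases hr : r ∈ {r : ℝ | c ≤ r}
    · rw [Set.indicator_of_mem hr, ← one_mul ((uS N) _), ← lintegral_indicator_const hAs]
      refine lintegral_mono fun y => ?_
      by_cases hy : y ∈ {y : UnitSphere N | (y : En N) ∈ A}
      · rw [Set.indicator_of_mem hy]
        have hmem : r • (y : En N) ∈ {x : En N | c⁻¹ • x ∈ A} := by
          change c⁻¹ • (r • (y : En N)) ∈ A
          rw [smul_smul]
          refine hmul _ hy _ ?_
          rw [inv_mul_eq_div, one_le_div hc]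
          exact hr
        rw [Set.indicator_of_mem hmem]
      · rw [Set.indicator_of_notMem hy]
        exact zero_le
    · rw [Set.indicator_of_notMem hr]
      exact zero_le
  have h3 : (radLaw N).real {r | c ≤ r} * (uS N).real {y | (y : En N) ∈ A} ≤
      (stdGaussian (En N)).real {x | c⁻¹ • x ∈ A} := by
    simp only [measureReal_def]
    rw [← ENNReal.toReal_mul]
    exact ENNReal.toReal_mono (measure_ne_top _ _) h2
  have h4 := radLaw_ge hN
  have h5 : 0 ≤ (uS N).real {y | (y : En N) ∈ A} := measureReal_nonneg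
  nlinarith

/-! ### tails -/

theorem gaussianReal_tail {t : ℝ} (ht : 0 ≤ t) :
    (gaussianReal 0 1).real {x | t ≤ |x|} ≤ 2 * Real.exp (-t ^ 2 / 2) := by
  have hsub : HasSubgaussianMGF (fun x : ℝ => x) 1 (gaussianReal 0 1) := by
    refine ⟨fun s => integrable_exp_mul_gaussianReal s, fun s => ?_⟩
    have := congrFun (mgf_id_gaussianReal (μ := 0) (v := 1)) s
    simp only [mgf, id] at this ⊢
    rw [this]
    simp
  have hneg : HasSubgaussianMGF (fun x : ℝ => -x) 1 (gaussianReal 0 1) := hsub.neg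
  have h1 := hsub.measure_ge_le ht
  have h2 := hneg.measure_ge_le ht
  have h3 : {x : ℝ | t ≤ |x|} ⊆ {x | t ≤ x} ∪ {x | t ≤ -x} := by
    intro x hx
    rcases le_abs.1 (show t ≤ |x| from hx) with h | h
    · exact Or.inl h
    · exact Or.inr h
  calc (gaussianReal 0 1).real {x | t ≤ |x|}
      ≤ (gaussianReal 0 1).real ({x | t ≤ x} ∪ {x | t ≤ -x}) := measureReal_mono h3
    _ ≤ (gaussianReal 0 1).real {x | t ≤ x} + (gaussianReal 0 1).real {x | t ≤ -x} :=
        measureReal_union_le _ _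
    _ ≤ Real.exp (-t ^ 2 / (2 * (1 : ℝ≥0))) + Real.exp (-t ^ 2 / (2 * (1 : ℝ≥0))) :=
        add_le_add h1 h2
    _ = 2 * Real.exp (-t ^ 2 / 2) := by push_cast; ring_nf

theorem map_apply_stdGaussian {N : ℕ} (i : Fin N) :
    (stdGaussian (En N)).map (fun x => x i) = gaussianReal 0 1 := by
  rw [stdGaussian_eq_map, Measure.map_map (by fun_prop) (measurable_toLp' N)]
  exact (measurePreserving_eval (fun _ : Fin N => gaussianReal 0 1) i).map_eq

/-- Tail of one coordinate. -/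
theorem uS_coord_tail {N : ℕ} (hN : 16 ≤ N) (i : Fin N) {t : ℝ} (ht : 0 ≤ t) :
    (uS N).real {y | t ≤ |(y : En N) i|} ≤ 4 * Real.exp (-(N * t ^ 2) / 4) := by
  have hNN : (16 : ℝ) ≤ N := by exact_mod_cast hN
  set c : ℝ := √(N / 2) with hc_def
  have hc : 0 < c := Real.sqrt_pos.2 (by positivity)
  have hA : MeasurableSet {x : En N | t ≤ |x i|} := measurableSet_le measurable_const (by fun_prop)
  have h := uS_le_stdGaussian hN hA (fun x hx r hr => by
    change t ≤ |(r • x) i|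
    rw [PiLp.smul_apply, smul_eq_mul, abs_mul, abs_of_pos (by linarith)]
    have hx' : t ≤ |x i| := hx
    nlinarith [abs_nonneg (x i)])
  refine h.trans ?_
  rw [← hc_def]
  have h2 : (stdGaussian (En N)).real {x | c⁻¹ • x ∈ {x : En N | t ≤ |x i|}} =
      (gaussianReal 0 1).real {x | t * c ≤ |x|} := by
    rw [← map_apply_stdGaussian i, map_measureReal_apply (by fun_prop)
      (measurableSet_le measurable_const (by fun_prop))]
    congr 1
    ext x
    simp only [Set.mem_ofPred_eq, PiLp.smul_apply, smul_eq_mul, abs_mul, abs_inv, abs_of_pos hc,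
      mem_preimage]
    rw [inv_mul_eq_div, le_div_iff₀ hc]
  rw [h2]
  have h3 := gaussianReal_tail (t := t * c) (by positivity)
  have h4 : -(t * c) ^ 2 / 2 = -(N * t ^ 2) / 4 := by
    rw [mul_pow, hc_def, Real.sq_sqrt (by positivity)]
    ring
  rw [h4] at h3
  linarith

/-- **Delocalisation**: tail of the sup norm. -/
theorem uS_sup_tail {N : ℕ} (hN : 16 ≤ N) {t : ℝ} (ht : 0 ≤ t) :
    (uS N).real {y | ∃ i, t ≤ |(y : En N) i|} ≤ 4 * N * Real.exp (-(N * t ^ 2) / 4) := by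
  have h1 : {y : UnitSphere N | ∃ i, t ≤ |(y : En N) i|} =
      ⋃ i, {y : UnitSphere N | t ≤ |(y : En N) i|} := by
    ext y; simp
  rw [h1]
  calc (uS N).real (⋃ i, {y : UnitSphere N | t ≤ |(y : En N) i|})
      ≤ ∑ i, (uS N).real {y : UnitSphere N | t ≤ |(y : En N) i|} :=
        measureReal_iUnion_fintype_le _
    _ ≤ ∑ _i : Fin N, 4 * Real.exp (-(N * t ^ 2) / 4) :=
        Finset.sum_le_sum fun i _ => uS_coord_tail hN i ht
    _ = _ := by
        rw [Finset.sum_const, Finset.card_univ, Fintype.card_fin, nsmul_eq_mul]; ring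


/-! ### moments -/


















end Crest.Agent.R146.Sph_409
end
end

-- ▼ part R146/LocSeq_508

/-!
Row 146, node LOC (task 13), helper508: the sequences `κN N = N^(-5/12)`, `K0 N = ⌈N^(5/6)⌉`.
-/

set_option autoImplicit false

open MeasureTheory ProbabilityTheory Filter Set
open scoped ENNReal NNReal Topology

namespace Crest.Agent.R146.LocSeq_508

open Crest.ProbabilityR.Perceptron
open Crest.Agent.R146.Sph_409

noncomputable section

def kN (N : ℕ) : ℝ := (N : ℝ) ^ (-(5 / 12) : ℝ)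

def K0 (N : ℕ) : ℕ := ⌈(N : ℝ) ^ (5 / 6 : ℝ)⌉₊

theorem kN_pos {N : ℕ} (hN : 0 < N) : 0 < kN N := by
  unfold kN
  have : (0 : ℝ) < N := by exact_mod_cast hN
  positivity

theorem kN_sq {N : ℕ} (hN : 0 < N) : kN N ^ 2 = (N : ℝ) ^ (-(5 / 6) : ℝ) := by
  unfold kN
  have : (0 : ℝ) < N := by exact_mod_cast hN
  rw [← Real.rpow_natCast, ← Real.rpow_mul this.le]; norm_num

theorem kN_inv_le {N : ℕ} (hN : 0 < N) : (kN N ^ 2)⁻¹ ≤ K0 N := by
  have h0 : (0 : ℝ) < N := by exact_mod_cast hN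
  rw [kN_sq hN, ← Real.rpow_neg h0.le, neg_neg]
  exact Nat.le_ceil _

theorem K0_le (N : ℕ) : (K0 N : ℝ) ≤ (N : ℝ) ^ (5 / 6 : ℝ) + 1 :=
  (Nat.ceil_lt_add_one (by positivity)).le

theorem tendsto_nat_rpow_neg {a : ℝ} (ha : 0 < a) :
    Tendsto (fun N : ℕ => (N : ℝ) ^ (-a)) atTop (𝓝 0) :=
  (tendsto_rpow_neg_atTop ha).comp tendsto_natCast_atTop_atTop

theorem tendsto_K0_log : Tendsto (fun N : ℕ => (K0 N : ℝ) * Real.log N / N) atTop (𝓝 0) := by
  have h1 : Tendsto (fun N : ℕ => Real.log (N : ℝ) / (N : ℝ) ^ (1 / 6 : ℝ)) atTop (𝓝 0) := by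
    have := (isLittleO_log_rpow_atTop (r := 1 / 6) (by norm_num)).tendsto_div_nhds_zero
    exact this.comp tendsto_natCast_atTop_atTop
  have h2 : Tendsto (fun N : ℕ => 2 * (Real.log (N : ℝ) / (N : ℝ) ^ (1 / 6 : ℝ))) atTop (𝓝 0) := by
    simpa using h1.const_mul 2
  refine squeeze_zero' ?_ ?_ h2
  · filter_upwards [eventually_ge_atTop 1] with N hN
    have : (1 : ℝ) ≤ N := by exact_mod_cast hN
    have := Real.log_nonneg this
    positivity
  · filter_upwards [eventually_ge_atTop 1] with N hN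
    have h1N : (1 : ℝ) ≤ N := by exact_mod_cast hN
    have h0 : (0 : ℝ) < N := by linarith
    have hl := Real.log_nonneg h1N
    have e1 : (1 : ℝ) ≤ (N : ℝ) ^ (5 / 6 : ℝ) := Real.one_le_rpow h1N (by norm_num)
    have e2 : (N : ℝ) = (N : ℝ) ^ (5 / 6 : ℝ) * (N : ℝ) ^ (1 / 6 : ℝ) := by
      rw [← Real.rpow_add h0]; norm_num
    have hp : 0 < (N : ℝ) ^ (1 / 6 : ℝ) := by positivity
    have hp2 : 0 < (N : ℝ) ^ (5 / 6 : ℝ) := by positivity
    calc (K0 N : ℝ) * Real.log N / N ≤ (2 * (N : ℝ) ^ (5 / 6 : ℝ)) * Real.log N / N := by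
          have := K0_le N
          gcongr
          linarith
      _ = 2 * (Real.log (N : ℝ) / (N : ℝ) ^ (1 / 6 : ℝ)) := by
          conv_lhs => rw [show (2 * (N : ℝ) ^ (5 / 6 : ℝ)) * Real.log N / N =
            (2 * (N : ℝ) ^ (5 / 6 : ℝ)) * Real.log N / ((N : ℝ) ^ (5 / 6 : ℝ) * (N : ℝ) ^ (1 / 6 : ℝ))
            from by rw [← e2]]
          field_simp

theorem tendsto_K0 : Tendsto (fun N : ℕ => (K0 N : ℝ) / N) atTop (𝓝 0) := by
  refine squeeze_zero' (Eventually.of_forall fun N => by positivity) ?_ tendsto_K0_log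
  filter_upwards [eventually_ge_atTop 3] with N hN
  have h3 : (3 : ℝ) ≤ N := by exact_mod_cast hN
  have h1 : 1 ≤ Real.log N := by
    rw [Real.le_log_iff_exp_le (by linarith)]
    exact Real.exp_one_lt_d9.le.trans (by linarith)
  have h0 : (0 : ℝ) ≤ K0 N := Nat.cast_nonneg _
  gcongr
  nlinarith

theorem tendsto_kN3 : Tendsto (fun N : ℕ => (N : ℝ) * kN N ^ 3) atTop (𝓝 0) := by
  have h1 := tendsto_nat_rpow_neg (a := 1 / 4) (by norm_num)
  refine h1.congr' ?_
  filter_upwards [eventually_ge_atTop 1] with N hN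
  have h0 : (0 : ℝ) < N := by exact_mod_cast hN
  unfold kN
  rw [← Real.rpow_natCast, ← Real.rpow_mul h0.le]
  nth_rewrite 2 [← Real.rpow_one (N : ℝ)]
  rw [← Real.rpow_add h0]
  norm_num

theorem K0_eventually_le {c : ℝ} (hc : 0 < c) : ∀ᶠ N : ℕ in atTop, (K0 N : ℝ) ≤ c * N := by
  filter_upwards [tendsto_K0.eventually (gt_mem_nhds hc), eventually_ge_atTop 1] with N h1 hN
  have h0 : (0 : ℝ) < N := by exact_mod_cast hN
  rw [div_lt_iff₀ h0] at h1
  exact h1.le

/-- the delocalised set has positive measure -/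
theorem DD_pos : ∀ᶠ N : ℕ in atTop, ∀ n : ℕ, N - K0 N ≤ n → n ≤ N → ∀ κ : ℝ, kN N ≤ κ →
    0 < (uS n).real (Crest.Agent.R146L878.DD n κ) := by
  have h1 : Tendsto (fun N : ℕ => 4 * (N : ℝ) * Real.exp (-(N : ℝ) ^ (1 / 6 : ℝ) / 8)) atTop (𝓝 0) := by
    have h2 : Tendsto (fun x : ℝ => 4 * ((8 * x) ^ 6 * Real.exp (-x))) atTop (𝓝 0) := by
      have := (Real.tendsto_pow_mul_exp_neg_atTop_nhds_zero 6).const_mul (4 * 8 ^ 6 : ℝ)
      rw [mul_zero] at this
      refine this.congr fun x => by ring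
    have h3 : Tendsto (fun N : ℕ => (N : ℝ) ^ (1 / 6 : ℝ) / 8) atTop atTop :=
      ((tendsto_rpow_atTop (by norm_num : (0 : ℝ) < 1 / 6)).comp
        tendsto_natCast_atTop_atTop).atTop_div_const (by norm_num)
    refine (h2.comp h3).congr fun N => ?_
    simp only [Function.comp]
    have e : (8 * ((N : ℝ) ^ (1 / 6 : ℝ) / 8)) ^ 6 = N := by
      rw [mul_div_cancel₀ _ (by norm_num : (8 : ℝ) ≠ 0), ← Real.rpow_natCast,
        ← Real.rpow_mul (Nat.cast_nonneg N)]
      norm_num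
    rw [e]; ring_nf
  filter_upwards [h1.eventually (gt_mem_nhds zero_lt_one), K0_eventually_le (c := 1 / 2)
    (by norm_num), eventually_ge_atTop 32] with N hN1 hN2 hN3 n hn hnN κ hκ
  have h0 : (0 : ℝ) < N := by
    have : (32 : ℝ) ≤ N := by exact_mod_cast hN3
    linarith
  have hn2 : (N : ℝ) / 2 ≤ n := by
    have : (N : ℝ) ≤ n + K0 N := by
      have : N ≤ n + K0 N := by omega
      exact_mod_cast this
    linarith
  have hn16 : 16 ≤ n := by
    have : (16 : ℝ) ≤ n := by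
      have : (32 : ℝ) ≤ N := by exact_mod_cast hN3
      linarith
    exact_mod_cast this
  have hnN' : (n : ℝ) ≤ N := by exact_mod_cast hnN
  have : NeZero n := ⟨by omega⟩
  have hk0 := kN_pos (N := N) (by omega)
  have htail := uS_sup_tail hn16 hk0.le
  have hexp : 4 * (n : ℝ) * Real.exp (-(n * kN N ^ 2) / 4) < 1 := by
    refine lt_of_le_of_lt ?_ hN1
    have e1 : (N : ℝ) ^ (1 / 6 : ℝ) = N * kN N ^ 2 := by
      rw [kN_sq (by omega)]
      nth_rewrite 2 [← Real.rpow_one (N : ℝ)]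
      rw [← Real.rpow_add h0]; norm_num
    rw [e1]
    have e2 : -(n * kN N ^ 2) / 4 ≤ -(N * kN N ^ 2) / 8 := by
      have : (N : ℝ) / 2 * kN N ^ 2 ≤ n * kN N ^ 2 :=
        mul_le_mul_of_nonneg_right hn2 (sq_nonneg _)
      linarith
    have e3 := Real.exp_le_exp.2 e2
    have := mul_le_mul (show 4 * (n : ℝ) ≤ 4 * N by linarith) e3 (Real.exp_pos _).le (by positivity)
    exact this
  have hsub : (Crest.Agent.R146L878.DD n κ)ᶜ ⊆ {y : UnitSphere n | ∃ i, kN N ≤ |(y : En n) i|} := by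
    intro y hy
    simp only [Crest.Agent.R146L878.DD, Set.mem_compl_iff, Set.mem_ofPred_eq, not_forall,
      not_le] at hy
    obtain ⟨i, hi⟩ := hy
    exact ⟨i, hκ.trans hi.le⟩
  have hlt : (uS n).real (Crest.Agent.R146L878.DD n κ)ᶜ < 1 :=
    (measureReal_mono hsub).trans_lt (htail.trans_lt hexp)
  have hadd := measureReal_compl (μ := uS n) (Crest.Agent.R146L878.measurableSet_DD (N := n) κ)
  rw [probReal_univ] at hadd
  linarith

/-- number of blocks -/
theorem count {δ : ℝ} (hδ : 0 < δ) (D : ℕ) : ∀ᶠ N : ℕ in atTop,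
    ((∑ I ∈ (Finset.univ : Finset (Finset (Fin N))).filter (fun I => I.card ≤ K0 N),
      D ^ (I.card + 1) : ℕ) : ℝ) ≤ Real.exp (δ * N) := by
  classical
  -- choice of `b`
  obtain ⟨b, hb0, hb⟩ : ∃ b : ℝ, 0 ≤ b ∧ D * Real.exp (-b) ≤ δ / 3 := by
    have h1 : Tendsto (fun b : ℝ => (D : ℝ) * Real.exp (-b)) atTop (𝓝 0) := by
      simpa using (Real.tendsto_exp_neg_atTop_nhds_zero).const_mul (D : ℝ)
    obtain ⟨b, hb⟩ := ((h1.eventually (gt_mem_nhds (show (0 : ℝ) < δ / 3 by positivity))).and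
      (eventually_ge_atTop 0)).exists
    exact ⟨b, hb.2, hb.1.le⟩
  have hc : (0 : ℝ) < δ / (3 * (b + 1)) := by positivity
  filter_upwards [K0_eventually_le hc, eventually_ge_atTop 1,
    (tendsto_natCast_atTop_atTop (R := ℝ)).eventually_ge_atTop (3 * D / δ)] with N hN h1 hD
  have h0 : (0 : ℝ) < N := by exact_mod_cast h1
  have e1 : ((∑ I ∈ (Finset.univ : Finset (Finset (Fin N))).filter (fun I => I.card ≤ K0 N),
      D ^ (I.card + 1) : ℕ) : ℝ) = D * ∑ U ∈ (Finset.univ : Finset (Fin N)).powerset.filter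
        (fun U => (U.card : ℝ) ≤ K0 N), (D : ℝ) ^ U.card := by
    push_cast
    rw [Finset.mul_sum]
    refine Finset.sum_congr ?_ fun I _ => by ring
    ext I; simp
  have h2 := Crest.Agent.R146.RepairNet_840.sum_small_subsets (κ := Fin N) (D : ℝ) b (K0 N)
    (Nat.cast_nonneg _) hb0
  rw [Fintype.card_fin] at h2
  rw [e1]
  have h3 : (D : ℝ) ≤ Real.exp (δ / 3 * N) := by
    have : (D : ℝ) ≤ δ / 3 * N := by
      rw [div_le_iff₀ hδ] at hD
      linarith
    exact this.trans ((le_add_of_nonneg_right zero_le_one).trans (Real.add_one_le_exp _))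
  have h4 : b * (K0 N : ℝ) + D * Real.exp (-b) * N ≤ 2 * δ / 3 * N := by
    have e2 : b * (K0 N : ℝ) ≤ δ / 3 * N := by
      calc b * (K0 N : ℝ) ≤ (b + 1) * (δ / (3 * (b + 1)) * N) := by
            have : (0 : ℝ) ≤ K0 N := Nat.cast_nonneg _
            exact mul_le_mul (by linarith) hN this (by linarith)
        _ = δ / 3 * N := by field_simp
    have e3 : D * Real.exp (-b) * N ≤ δ / 3 * N := mul_le_mul_of_nonneg_right hb h0.le
    linarith
  calc (D : ℝ) * ∑ U ∈ (Finset.univ : Finset (Fin N)).powerset.filter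
        (fun U => (U.card : ℝ) ≤ K0 N), (D : ℝ) ^ U.card
      ≤ Real.exp (δ / 3 * N) * Real.exp (2 * δ / 3 * N) :=
        mul_le_mul h3 (h2.trans (Real.exp_le_exp.2 h4))
          (Finset.sum_nonneg fun _ _ => by positivity) (Real.exp_pos _).le
    _ = Real.exp (δ * N) := by rw [← Real.exp_add]; ring_nf

end

end Crest.Agent.R146.LocSeq_508
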