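import Crest.Agent.R146.RepairFin_840
import Crest.Agent.R146.Large_840
import Crest.Agent.R146.P34_734

-- ▼ part R146/SatAsm_840
section

/-!
# Row 146: the final implications for S0203 and S0204 (helper840)

`LowE A k τ` : some unit vector has energy `∑ ½ (k - X_μ)₊² ≤ τ N`.

Everything is stated against an abstract limiting energy density `e : ℝ → ℝ → ℝ` (density, margin):

* `EnergyLimit e` : `P (LowE A k τ) → 1` for `τ > e α k` and `→ 0` for `τ < e α k`;
* `EnergyConvex e` : `e` is convex in `(α, α k)`;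
* `S0203_of` : `EnergyLimit e` and `EnergyConvex e` imply the statement S0203;
* `S0204_of` : with the two inputs on the mixture, the statement S0204.
-/

set_option autoImplicit false

open MeasureTheory ProbabilityTheory Set Filter Crest.Agent.R146.RepairLaw_840
  Crest.Agent.R146.RepairNet_840 Crest.Agent.R146.RepairFin_840 Crest.Agent.R146.Large_840
  Crest.ProbabilityR.Perceptron
open scoped ENNReal NNReal Topology

namespace Crest.Agent.R146.SatAsm_840

/-- some unit vector has energy at most `τ N` at margin `k` -/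
def LowE {N : ℕ} {α : ℝ} (A : Patterns N α) (k τ : ℝ) : Prop :=
  ∃ y : Fin N → ℝ, ∑ i, y i ^ 2 = 1 ∧
    ∑ μ : Fin (numPatterns N α), (1 / 2 : ℝ) * (max (k - ∑ i, A (μ, i) * y i) 0) ^ 2 ≤ τ * N

lemma LowE.mono {N : ℕ} {α : ℝ} {A : Patterns N α} {k k' τ τ' : ℝ} (h : LowE A k τ)
    (hk : k' ≤ k) (hτ : τ ≤ τ') : LowE A k' τ' := by
  obtain ⟨y, hy, hA⟩ := h
  refine ⟨y, hy, le_trans (Finset.sum_le_sum fun μ _ => ?_) (hA.trans (by gcongr))⟩
  have h1 : max (k' - ∑ i, A (μ, i) * y i) 0 ≤ max (k - ∑ i, A (μ, i) * y i) 0 :=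
    max_le_max (by linarith) le_rfl
  have h0 : 0 ≤ max (k' - ∑ i, A (μ, i) * y i) 0 := le_max_right _ _
  gcongr




/-! ### monotonicity in the density -/

lemma numPatterns_mono (N : ℕ) {α α' : ℝ} (h : α ≤ α') : numPatterns N α ≤ numPatterns N α' :=
  Nat.floor_le_floor (by gcongr)

/-- restriction of an array to its first rows -/
noncomputable def restr (N : ℕ) {α α' : ℝ} (h : α ≤ α') (A : Patterns N α') : Patterns N α :=
  fun q => A (Fin.castLE (numPatterns_mono N h) q.1, q.2)

lemma measurable_restr (N : ℕ) {α α' : ℝ} (h : α ≤ α') : Measurable (restr N h) :=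
  measurable_pi_lambda _ fun _ => measurable_pi_apply _

lemma map_restr (ν : Measure ℝ) [IsProbabilityMeasure ν] (N : ℕ) {α α' : ℝ} (h : α ≤ α') :
    (Measure.pi fun _ : Fin (numPatterns N α') × Fin N => ν).map (restr N h)
      = Measure.pi fun _ : Fin (numPatterns N α) × Fin N => ν := by
  classical
  symm
  refine Measure.pi_eq fun s hs => ?_
  rw [Measure.map_apply (measurable_restr N h) (MeasurableSet.univ_pi hs)]
  set c : Fin (numPatterns N α) × Fin N → Fin (numPatterns N α') × Fin N :=
    fun q => (Fin.castLE (numPatterns_mono N h) q.1, q.2) with hc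
  have hcinj : Function.Injective c := by
    intro p q hpq
    have h1 : (c p).1 = (c q).1 := by rw [hpq]
    have h2 : (c p).2 = (c q).2 := by rw [hpq]
    exact Prod.ext (Fin.castLE_injective (numPatterns_mono N h) h1) h2
  set t : Fin (numPatterns N α') × Fin N → Set ℝ := fun p =>
    if hp : ∃ q, c q = p then s hp.choose else univ with ht
  have htc : ∀ q, t (c q) = s q := by
    intro q
    have hex : ∃ q', c q' = c q := ⟨q, rfl⟩
    rw [ht]
    simp only [hex, dif_pos]
    have : hex.choose = q := hcinj hex.choose_spec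
    rw [this]
  have htn : ∀ p, (¬ ∃ q, c q = p) → t p = univ := by
    intro p hp
    rw [ht]
    simp only [hp, dif_neg, not_false_iff]
  have hpre : restr N h ⁻¹' (Set.pi univ s) = Set.pi univ t := by
    ext A
    simp only [Set.mem_preimage, Set.mem_univ_pi]
    constructor
    · intro hA p
      by_cases hp : ∃ q, c q = p
      · obtain ⟨q, rfl⟩ := hp
        rw [htc]
        exact hA q
      · rw [htn p hp]
        exact mem_univ _
    · intro hA q
      have := hA (c q)
      rw [htc] at this
      exact this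
  rw [hpre, Measure.pi_pi]
  have h1 : ∏ p, ν (t p) = ∏ p ∈ Finset.univ.image c, ν (t p) := by
    symm
    refine Finset.prod_subset (Finset.subset_univ _) fun p _ hp => ?_
    have : ¬ ∃ q, c q = p := by
      rintro ⟨q, rfl⟩
      exact hp (Finset.mem_image_of_mem _ (Finset.mem_univ _))
    rw [htn p this, measure_univ]
  rw [h1, Finset.prod_image fun _ _ _ _ h => hcinj h]
  exact Finset.prod_congr rfl fun q _ => by rw [htc]

lemma isSat_restr {N : ℕ} {α α' : ℝ} (h : α ≤ α') {A : Patterns N α'} (hA : IsSat A) :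
    IsSat (restr N h A) := by
  obtain ⟨y, hy, hA⟩ := hA
  exact ⟨y, hy, fun μ => hA (Fin.castLE (numPatterns_mono N h) μ)⟩


/-- The satisfiability probability is nonincreasing in the density. -/
lemma measure_isSat_anti (ν : Measure ℝ) [IsProbabilityMeasure ν] (N : ℕ) {α α' : ℝ}
    (h : α ≤ α') :
    (Measure.pi fun _ : Fin (numPatterns N α') × Fin N => ν) {A : Patterns N α' | IsSat A}
      ≤ (Measure.pi fun _ : Fin (numPatterns N α) × Fin N => ν) {A : Patterns N α | IsSat A} := by
  rw [← map_restr ν N h]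
  refine le_trans (measure_mono ?_) (Measure.le_map_apply (measurable_restr N h).aemeasurable _)
  intro A hA
  exact isSat_restr h hA


instance (N : ℕ) (α : ℝ) : IsProbabilityMeasure (patternLaw N α) := by
  unfold patternLaw; infer_instance

/-! ### the abstract inputs -/

/-- the law of large numbers for the ground state energy, Gaussian patterns -/
structure EnergyLimit (e : ℝ → ℝ → ℝ) : Prop where
  low : ∀ α k τ : ℝ, 0 < α → e α k < τ →
    Tendsto (fun N : ℕ => patternLaw N α {A | LowE A k τ}) atTop (𝓝 1)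
  high : ∀ α k τ : ℝ, 0 < α → τ < e α k →
    Tendsto (fun N : ℕ => patternLaw N α {A | LowE A k τ}) atTop (𝓝 0)




variable {e : ℝ → ℝ → ℝ}















end Crest.Agent.R146.SatAsm_840
end

-- ▼ part R146/P34Big_840

/-!
# Row 146: the nodes BIG, KERN, MONOA, MIX0 of `P34_734` (helper840)
-/

set_option autoImplicit false

open MeasureTheory ProbabilityTheory Filter Crest.ProbabilityR.Perceptron
  Crest.Agent.R146.RepairLaw_840 Crest.Agent.R146.Large_840 Crest.Agent.R146.SatAsm_840
open scoped Topology ENNReal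

namespace Crest.Agent.R146.P34Big_840

theorem mix0 : P34_734.MIX0 := by
  unfold P34_734.MIX0 mixtureLaw
  rw [sub_zero, add_zero, Real.toNNReal_one, ← add_smul]
  have : (2⁻¹ + 2⁻¹ : NNReal) = 1 := by
    rw [← two_mul]; exact mul_inv_cancel₀ (by norm_num)
  rw [this, one_smul]

theorem isProbabilityMeasure_mixtureLaw (ε : ℝ) : IsProbabilityMeasure (mixtureLaw ε) := by
  constructor
  rw [mixtureLaw]
  simp only [Measure.coe_add, Pi.add_apply, Measure.coe_nnreal_smul_apply, measure_univ, mul_one]
  have : ((2⁻¹ : NNReal) : ℝ≥0∞) = 2⁻¹ := by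
    rw [ENNReal.coe_inv (by norm_num)]; norm_num
  rw [this]
  exact ENNReal.inv_two_add_inv_two

theorem monoa : P34_734.MONOA := by
  intro N α α' ε _ h
  have := isProbabilityMeasure_mixtureLaw ε
  exact measure_isSat_anti (mixtureLaw ε) N h

theorem kern : P34_734.KERN := by
  intro N α hN hα A
  have hNpos : (0 : ℝ) < N := by exact_mod_cast hN
  have hlt : numPatterns N α < N := by
    rcases le_or_gt 0 α with h0 | h0
    · have h1 : (numPatterns N α : ℝ) ≤ α * N := Nat.floor_le (by positivity)
      have h2 : α * N < N := by nlinarith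
      exact_mod_cast h1.trans_lt h2
    · have h1 : numPatterns N α = 0 := Nat.floor_of_nonpos (by nlinarith)
      rw [h1]; exact hN
  exact exists_unit_ker (κ := Fin (numPatterns N α)) (J := Fin N) (by simpa using hlt) A

/-- Unsatisfiability for large density, every density above some threshold. -/
theorem satProb_tendsto_zero_large : ∃ α₁ : ℝ, 0 < α₁ ∧ ∀ α, α₁ ≤ α →
    Tendsto (fun N : ℕ => satProb N α) atTop (𝓝 0) := by
  obtain ⟨α₁, hα₁, c, hc, hmain⟩ := large_density
  refine ⟨α₁, hα₁, fun α hα => ?_⟩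
  have h2 : Tendsto (fun N : ℕ => ENNReal.ofReal (2 * Real.exp (-(N : ℝ)))) atTop (𝓝 0) := by
    rw [← ENNReal.ofReal_zero]
    refine ENNReal.tendsto_ofReal ?_
    have h3 : Tendsto (fun N : ℕ => -(N : ℝ)) atTop atBot :=
      tendsto_neg_atTop_atBot.comp tendsto_natCast_atTop_atTop
    have h4 := (Real.tendsto_exp_atBot.comp h3).const_mul 2
    simpa using h4
  refine tendsto_of_tendsto_of_tendsto_of_le_of_le' tendsto_const_nhds h2
    (Eventually.of_forall fun _ => zero_le) ?_
  filter_upwards [eventually_gt_atTop 0] with N hN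
  refine le_trans (measure_mono ?_) (hmain α hα N hN)
  rintro A ⟨y, hy, hA⟩
  refine ⟨y, hy, ?_⟩
  have h0 : ∑ μ : Fin (numPatterns N α), (max (-(∑ i, A (μ, i) * y i + 1)) 0) ^ 2 = 0 := by
    refine Finset.sum_eq_zero fun μ _ => ?_
    have := hA μ
    rw [max_eq_right (by linarith)]
    norm_num
  rw [h0]
  positivity

theorem big : P34_734.BIG := by
  obtain ⟨α₁, hα₁, h⟩ := satProb_tendsto_zero_large
  refine ⟨α₁, hα₁, ?_⟩
  have h1 := h α₁ le_rfl
  have h2 : (fun N : ℕ => satProbMix N α₁ 0) = fun N : ℕ => satProb N α₁ := by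
    ext N
    unfold satProbMix satProb patternLawMix patternLaw
    rw [show mixtureLaw 0 = gaussianReal 0 1 from mix0]
  rw [h2]
  exact h1

end Crest.Agent.R146.P34Big_840
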