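import Crest.Agent.R146.S6U_988
import Crest.Agent.R164.CoinIBP
import Crest.Agent.R164.OvConc

/-!
Row 146, statement S0206, task 61 (S6-CIBP): coin integration by parts for `S6Def_988`
(helper559).

* `xs_expo`, `xs_cell`, `xs_Lv`, `sum_incr_xs` : the exponents;
* `coin`, `UU_flip` : every coin is a fair coin of the filtration, effect of a flip on `UU`;
* `ibp_rows` : one field made of coins revealed at different steps;
* `cE_zf_mul` : IBP for one coordinate field, classwise;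
* `cE_Dobs` : classwise IBP for the field observable (hypothesis (A) of `OvConc.O1/O2`);
* `ibp_node : S6U_988.IBP`.
-/

set_option autoImplicit false

namespace Crest.Agent.R146.S6Ibp_559

open Finset MeasureTheory ProbabilityTheory
open Crest.Agent.R141 hiding Om prior prior_isProb frel frel_equiv fil fil_zero sv UU Phi PP
open Crest.Agent.R146.S6Def_988 Crest.Agent.R164.CoinIBP
open Crest.Agent.R164.RotRel (rr)

noncomputable section

/-! ### exponents -/

theorem xs_pos (nc n k : ℕ) : 0 < xs nc n k := by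
  unfold xs
  refine lt_min one_pos ?_
  positivity

theorem xs_le_one (nc n k : ℕ) : xs nc n k ≤ 1 := min_le_left _ _

theorem xs_mono (nc n : ℕ) : Monotone (xs nc n) := by
  intro a b hab
  unfold xs
  refine min_le_min le_rfl ?_
  have h1 : (a - 1) / n + 1 ≤ (b - 1) / n + 1 :=
    Nat.succ_le_succ (Nat.div_le_div_right (Nat.sub_le_sub_right hab 1))
  have h2 : (((a - 1) / n + 1 : ℕ) : ℝ) ≤ (((b - 1) / n + 1 : ℕ) : ℝ) := by exact_mod_cast h1
  exact div_le_div_of_nonneg_right h2 (by positivity)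

theorem xs_expo (nc n : ℕ) : IsExpo (xs nc n) where
  pos := xs_pos nc n
  mono := xs_mono nc n
  le_one := xs_le_one nc n

/-- the exponent on the cell `g` (`g ≤ nc`, the last cell is the configuration). -/
theorem xs_cell {nc n g k : ℕ} (hg : g ≤ nc) (h1 : g * n < k) (h2 : k ≤ (g + 1) * n) :
    xs nc n k = ((g : ℝ) + 1) / ((nc : ℝ) + 1) := by
  have hn : 0 < n := by
    rcases Nat.eq_zero_or_pos n with h | h
    · subst h; omega
    · exact h
  have h3 : (k - 1) / n = g := by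
    have e : (g + 1) * n = g * n + n := by ring
    refine Nat.div_eq_of_lt_le (by omega) (by omega)
  unfold xs
  rw [h3]
  push_cast
  rw [min_eq_right]
  rw [div_le_one (by positivity)]
  have : (g : ℝ) ≤ nc := by exact_mod_cast hg
  linarith

theorem xs_Lv {nc n : ℕ} (hn : 0 < n) : xs nc n (Lv nc n) = 1 := by
  have e : (nc + 1) * n = nc * n + n := by ring
  rw [xs_cell (g := nc) (n := n) le_rfl (by unfold Lv; omega) (by unfold Lv; omega)]
  exact div_self (by positivity)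

/-- the weighted increments of the exponents, seen from inside the cell `g`. -/
theorem sum_incr_xs {nc n : ℕ} (hn : 0 < n) (a : ℕ → ℝ) {g k : ℕ} (hg : g < nc)
    (h1 : g * n < k) (h2 : k ≤ (g + 1) * n) :
    ∑ j ∈ Ico k (Lv nc n), (xs nc n (j + 1) - xs nc n j) * a j =
      ((nc : ℝ) + 1)⁻¹ * ∑ g' ∈ Ico g nc, a (st n (g' + 1)) := by
  have first : ∀ g k : ℕ, g < nc → g * n < k → k ≤ (g + 1) * n →
      ∑ j ∈ Ico k ((g + 1) * n + 1), (xs nc n (j + 1) - xs nc n j) * a j =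
        ((nc : ℝ) + 1)⁻¹ * a (st n (g + 1)) := by
    intro g k hg h1 h2
    rw [Finset.sum_eq_single ((g + 1) * n)]
    · have e : (g + 1 + 1) * n = (g + 1) * n + n := by ring
      have e2 : (g + 1) * n = g * n + n := by ring
      rw [xs_cell (g := g + 1) (n := n) (by omega) (by omega) (by omega),
        xs_cell (g := g) (n := n) (by omega) (by omega) le_rfl]
      unfold st
      push_cast
      have : ((nc : ℝ) + 1) ≠ 0 := by positivity
      field_simp
      ring
    · intro j hj hne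
      rw [mem_Ico] at hj
      have h3 : j < (g + 1) * n := by omega
      rw [xs_cell (g := g) (n := n) (k := j + 1) (by omega) (by omega) (by omega),
        xs_cell (g := g) (n := n) (k := j) (by omega) (by omega) (by omega)]
      ring
    · intro h
      exact absurd (mem_Ico.mpr ⟨h2, Nat.lt_succ_self _⟩) h
  have key : ∀ m g k : ℕ, g + m + 1 = nc → g * n < k → k ≤ (g + 1) * n →
      ∑ j ∈ Ico k (Lv nc n), (xs nc n (j + 1) - xs nc n j) * a j =
        ((nc : ℝ) + 1)⁻¹ * ∑ g' ∈ Ico g nc, a (st n (g' + 1)) := by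
    intro m
    induction m with
    | zero =>
      intro g k hm h1 h2
      have hL : Lv nc n = (g + 1) * n + 1 := by unfold Lv; rw [← hm]
      have h3 : Ico g nc = {g} := by
        ext j; simp only [mem_Ico, mem_singleton]; omega
      rw [hL, first g k (by omega) h1 h2, h3, Finset.sum_singleton]
    | succ m ih =>
      intro g k hm h1 h2
      have e : (g + 1 + 1) * n = (g + 1) * n + n := by ring
      have h4 : (g + 1) * n ≤ nc * n := Nat.mul_le_mul_right n (by omega)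
      have hle : (g + 1) * n + 1 ≤ Lv nc n := by unfold Lv; omega
      rw [← Finset.sum_Ico_consecutive _ (by omega : k ≤ (g + 1) * n + 1) hle,
        first g k (by omega) h1 h2, ih (g + 1) ((g + 1) * n + 1) (by omega) (by omega) (by omega),
        Finset.sum_eq_sum_Ico_succ_bot (by omega : g < nc), mul_add]
  exact key (nc - 1 - g) g k (by omega) h1 h2

/-! ### the prior and the coins -/

variable {N : ℕ} (C : Cfg N) (nc n : ℕ)

theorem prior_isProb : IsProb (prior C nc n) where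
  pos ω := by
    unfold prior
    have h1 := C.hq.pos ω.1
    have h2 : (0 : ℝ) < (Fintype.card (Coins nc n N) : ℝ) := by
      exact_mod_cast Fintype.card_pos
    positivity
  sum := by
    unfold prior
    rw [Fintype.sum_prod_type]
    have h2 : (Fintype.card (Coins nc n N) : ℝ) ≠ 0 := by
      exact_mod_cast Fintype.card_ne_zero
    simp only [Finset.sum_const, Finset.card_univ, nsmul_eq_mul]
    have : ∀ y : C.Y, (Fintype.card (Coins nc n N) : ℝ) *
        (C.q y * (Fintype.card (Coins nc n N) : ℝ)⁻¹) = C.q y := by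
      intro y; field_simp
    simp only [this]
    exact C.hq.sum

theorem fil_L : (fil C nc n).L = Lv nc n := rfl


/-- flip of one coin -/
def cupd {nc n N : ℕ} (c : Coins nc n N) (g : Fin nc) (t : Fin n) (i : Fin N) : Coins nc n N :=
  fun g' t' i' => if g' = g ∧ t' = t ∧ i' = i then !(c g' t' i') else c g' t' i'

/-- flip of one coin, on configurations -/
def flp (g : Fin nc) (t : Fin n) (i : Fin N) (ω : Om C nc n) : Om C nc n :=
  (ω.1, cupd ω.2 g t i)

/-- value of one coin -/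
def cvl (g : Fin nc) (t : Fin n) (i : Fin N) (ω : Om C nc n) : ℝ :=
  if ω.2 g t i = true then 1 else 0

theorem two_cvl (g : Fin nc) (t : Fin n) (i : Fin N) (ω : Om C nc n) :
    2 * cvl C nc n g t i ω - 1 = sv (ω.2 g t i) := by
  unfold cvl sv
  split_ifs <;> norm_num

theorem index_inj {nc n : ℕ} {g g' : Fin nc} {t t' : Fin n}
    (h : (g' : ℕ) * n + t' < (g : ℕ) * n + t) : ¬(g' = g ∧ t' = t) := by
  rintro ⟨rfl, rfl⟩
  exact lt_irrefl _ h

theorem coin (g : Fin nc) (t : Fin n) (i : Fin N) :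
    Coin (prior C nc n) (fil C nc n) ((g : ℕ) * n + t + 1) (cvl C nc n g t i)
      (flp C nc n g t i) where
  invol ω := by
    unfold flp cupd
    refine Prod.ext rfl ?_
    funext g' t' i'
    dsimp only
    split_ifs <;> simp
  P_flip ω := rfl
  s01 ω := by unfold cvl; split_ifs <;> simp
  s_flip ω := by
    unfold cvl flp cupd
    simp only [and_self, if_true]
    cases ω.2 g t i <;> simp
  s_meas := by
    intro ω ω' h
    have h : frel C nc n _ ω ω' := h
    have h1 : ω.2 g t = ω'.2 g t := h.1 g t (Nat.lt_succ_self _)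
    unfold cvl
    rw [h1]
  flip_rel l _ a b h := by
    have h : frel C nc n l a b := h
    show frel C nc n l _ _
    refine ⟨fun g' t' hk => ?_, h.2⟩
    have h1 := h.1 g' t' hk
    funext i'
    show cupd a.2 g t i g' t' i' = cupd b.2 g t i g' t' i'
    unfold cupd
    rw [h1]
  rel_flip ω := by
    show frel C nc n _ _ _
    refine ⟨fun g' t' hk => ?_, fun _ => rfl⟩
    rw [Nat.add_sub_cancel] at hk
    have h1 := index_inj hk
    funext i'
    show ω.2 g' t' i' = cupd ω.2 g t i g' t' i'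
    unfold cupd
    rw [if_neg]
    rintro ⟨ha, hb, _⟩
    exact h1 ⟨ha, hb⟩

theorem zf_cupd (c : Coins nc n N) (g : Fin nc) (t : Fin n) (i : Fin N) (g' : Fin nc)
    (i' : Fin N) : zf (cupd c g t i) g' i' =
      zf c g' i' - if g' = g ∧ i' = i then 2 * (Real.sqrt n)⁻¹ * sv (c g t i) else 0 := by
  unfold zf
  by_cases h : g' = g ∧ i' = i
  · obtain ⟨rfl, rfl⟩ := h
    rw [if_pos ⟨rfl, rfl⟩]
    have e : ∀ t' : Fin n, sv (cupd c g' t i' g' t' i') =
        sv (c g' t' i') - if t' = t then 2 * sv (c g' t i') else 0 := by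
      intro t'
      unfold cupd
      by_cases ht : t' = t
      · subst ht
        simp only [and_self, if_true]
        unfold sv
        cases c g' t' i' <;> norm_num
      · simp only [ht, false_and, and_false, if_false, sub_zero]
    simp only [e]
    rw [Finset.sum_sub_distrib, Finset.sum_ite_eq' univ t]
    simp only [mem_univ, if_true]
    ring
  · rw [if_neg h, sub_zero]
    congr 1
    refine Finset.sum_congr rfl fun t' _ => ?_
    unfold cupd
    rw [if_neg]
    rintro ⟨ha, _, hb⟩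
    exact h ⟨ha, hb⟩

theorem UU_flip {M : ℕ} (f : ℕ → ℝ → ℝ) (G : Fin M → Fin N → ℝ) (s : Fin nc → ℝ) (g : Fin nc)
    (t : Fin n) (i : Fin N) (ω : Om C nc n) :
    UU f G s (flp C nc n g t i ω) = UU f G s ω -
      2 * ((Real.sqrt n)⁻¹ * s g) * (2 * cvl C nc n g t i ω - 1) * C.x ω.1 i := by
  rw [two_cvl]
  unfold UU fieldE
  have e0 : (flp C nc n g t i ω).1 = ω.1 := rfl
  have e1 : (flp C nc n g t i ω).2 = cupd ω.2 g t i := rfl
  rw [e0, e1]
  have e2 : ∑ g', s g' * ∑ i', zf (cupd ω.2 g t i) g' i' * C.x ω.1 i' =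
      ∑ g', s g' * ∑ i', zf ω.2 g' i' * C.x ω.1 i' -
        s g * (2 * (Real.sqrt n)⁻¹ * sv (ω.2 g t i) * C.x ω.1 i) := by
    have e3 : ∀ g', s g' * ∑ i', zf (cupd ω.2 g t i) g' i' * C.x ω.1 i' =
        s g' * ∑ i', zf ω.2 g' i' * C.x ω.1 i' -
          if g' = g then s g * (2 * (Real.sqrt n)⁻¹ * sv (ω.2 g t i) * C.x ω.1 i) else 0 := by
      intro g'
      simp only [zf_cupd, sub_mul]
      rw [Finset.sum_sub_distrib, mul_sub]
      congr 1
      by_cases hg : g' = g
      · subst hg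
        simp only [true_and, if_true, ite_mul, zero_mul]
        rw [Finset.sum_ite_eq' univ i]
        simp only [mem_univ, if_true]
      · simp only [hg, false_and, if_false, zero_mul, Finset.sum_const_zero, mul_zero]
    simp only [e3]
    rw [Finset.sum_sub_distrib, Finset.sum_ite_eq' univ g]
    simp only [mem_univ, if_true]
  rw [e2]
  ring

/-! ### one field made of coins revealed at different steps -/

section Field

variable {Ω : Type*} [Fintype Ω] {P : Ω → ℝ} {𝓕 : Filt Ω} {x : ℕ → ℝ}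

theorem ibp_rows (hP : IsProb P) (hx : IsExpo x) {n : ℕ} (hn : 0 < n) {k : Fin n → ℕ}
    (hkL : ∀ t, k t ≤ 𝓕.L)
    {s : Fin n → Ω → ℝ} {ι : Fin n → Ω → Ω} (C : ∀ t, Coin P 𝓕 (k t) (s t) (ι t))
    {U v f T : Ω → ℝ} {c K Kf : ℝ}
    (hU : ∀ t ω, U (ι t ω) = U ω - 2 * ((Real.sqrt n)⁻¹ * c) * (2 * s t ω - 1) * v ω)
    (hv : ∀ t ω, v (ι t ω) = v ω) (hf : ∀ t ω, f (ι t ω) = f ω)
    (hvK : ∀ ω, |v ω| ≤ K) (hfK : ∀ ω, |f ω| ≤ Kf) (hc : |c| * K ≤ Real.sqrt n / 8)
    (hT : ∀ t ω, x 𝓕.L * v ω - ∑ j ∈ Ico (k t) 𝓕.L,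
        (x (j + 1) - x j) * cE (tl P 𝓕 x U) (𝓕.F j) v ω = T ω)
    {l : ℕ} (hl : ∀ t, l + 1 ≤ k t) (ω : Ω) :
    |cE (tl P 𝓕 x U) (𝓕.F l) (fun a => ((Real.sqrt n)⁻¹ * ∑ t, (2 * s t a - 1)) * f a) ω -
      c * cE (tl P 𝓕 x U) (𝓕.F l) (fun a => f a * T a) ω| ≤
      52 * c ^ 2 * K ^ 2 * Kf / Real.sqrt n := by
  have hn0 : (0 : ℝ) < n := by exact_mod_cast hn
  have hsn : 0 < Real.sqrt n := Real.sqrt_pos.mpr hn0
  have hss : Real.sqrt n * Real.sqrt n = n := Real.mul_self_sqrt hn0.le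
  set δ := (Real.sqrt n)⁻¹ * c with hδ
  set R := cE (tl P 𝓕 x U) (𝓕.F l) (fun a => f a * T a) ω with hR
  have hδK : |δ| * K ≤ 1 / 8 := by
    rw [hδ, abs_mul, abs_of_pos (inv_pos.mpr hsn), mul_assoc]
    calc (Real.sqrt n)⁻¹ * (|c| * K) ≤ (Real.sqrt n)⁻¹ * (Real.sqrt n / 8) :=
          mul_le_mul_of_nonneg_left hc (inv_pos.mpr hsn).le
      _ = 1 / 8 := by field_simp
  have h1 : ∀ t, |cE (tl P 𝓕 x U) (𝓕.F l) (fun a => (2 * s t a - 1) * f a) ω - δ * R| ≤
      52 * (δ * K) ^ 2 * Kf := by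
    intro t
    have hG : ∀ ω, (fun a => U a - δ * (2 * s t a - 1) * v a) (ι t ω) =
        (fun a => U a - δ * (2 * s t a - 1) * v a) ω := by
      intro a
      simp only [hU, hv, (C t).s_flip]
      ring
    have := ibp (G := fun a => U a - δ * (2 * s t a - 1) * v a) (C t) hP hx (hkL t) hG (hv t)
      (hf t) hvK hfK hδK (hl t) ω
    simp only [sub_add_cancel] at this
    simp only [hT t] at this
    exact this
  have e1 : cE (tl P 𝓕 x U) (𝓕.F l) (fun a => ((Real.sqrt n)⁻¹ * ∑ t, (2 * s t a - 1)) * f a) ω =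
      (Real.sqrt n)⁻¹ * ∑ t, cE (tl P 𝓕 x U) (𝓕.F l) (fun a => (2 * s t a - 1) * f a) ω := by
    rw [← cE_sum, ← cE_smul]
    congr 1; funext a
    rw [mul_assoc, Finset.sum_mul]
  have e2 : c * R = (Real.sqrt n)⁻¹ * ∑ _t : Fin n, δ * R := by
    rw [Finset.sum_const, Finset.card_univ, Fintype.card_fin, nsmul_eq_mul, hδ]
    have e3 : (n : ℝ) * ((Real.sqrt n)⁻¹ * c * R) =
        (Real.sqrt n * Real.sqrt n) * ((Real.sqrt n)⁻¹ * c * R) := by rw [hss]
    rw [e3]
    field_simp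
  rw [e1, e2, ← mul_sub, ← Finset.sum_sub_distrib, abs_mul, abs_of_pos (inv_pos.mpr hsn)]
  calc (Real.sqrt n)⁻¹ * |∑ t, (cE (tl P 𝓕 x U) (𝓕.F l) (fun a => (2 * s t a - 1) * f a) ω -
        δ * R)| ≤ (Real.sqrt n)⁻¹ * ∑ _t : Fin n, 52 * (δ * K) ^ 2 * Kf := by
        refine mul_le_mul_of_nonneg_left ?_ (inv_pos.mpr hsn).le
        exact (Finset.abs_sum_le_sum_abs _ _).trans (Finset.sum_le_sum fun t _ => h1 t)
    _ = 52 * c ^ 2 * K ^ 2 * Kf / Real.sqrt n := by
        rw [Finset.sum_const, Finset.card_univ, Fintype.card_fin, nsmul_eq_mul, hδ]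
        have e3 : (n : ℝ) * (52 * ((Real.sqrt n)⁻¹ * c * K) ^ 2 * Kf) =
            (Real.sqrt n * Real.sqrt n) * (52 * ((Real.sqrt n)⁻¹ * c * K) ^ 2 * Kf) := by rw [hss]
        rw [e3]
        field_simp

end Field

/-! ### the system -/

variable {C nc n}

theorem abs_x_le (y : C.Y) (i : Fin N) : |C.x y i| ≤ Real.sqrt N := by
  refine Real.abs_le_sqrt ?_
  rw [← C.hx y]
  exact Finset.single_le_sum (f := fun i => C.x y i ^ 2) (fun _ _ => sq_nonneg _) (mem_univ i)

/-- coordinates as functions on the enriched space -/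
def XX (C : Cfg N) (nc n : ℕ) (i : Fin N) (ω : Om C nc n) : ℝ := C.x ω.1 i

/-- the part `v - w ∑_{g' ≥ g} E_{st (g'+1)} v` -/
def scr (P : Om C nc n → ℝ) (g : ℕ) (v : Om C nc n → ℝ) (ω : Om C nc n) : ℝ :=
  v ω - ((nc : ℝ) + 1)⁻¹ * ∑ g' ∈ Ico g nc, cE P ((fil C nc n).F (st n (g' + 1))) v ω

variable {M : ℕ} (f : ℕ → ℝ → ℝ) (G : Fin M → Fin N → ℝ) (s : Fin nc → ℝ)

theorem QQ_isProb : IsProb (QQ C nc n f G s) :=
  tl_isProb (prior_isProb C nc n) (xs_pos nc n) _

/-- **IBP for the field `(g,i)`, classwise**: `h` is any function which does not see the coins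
`(g, ·, i)`. -/
theorem cE_zf_mul (hn : 0 < n) (g : Fin nc) (i : Fin N) {h : Om C nc n → ℝ}
    (hh : ∀ t ω, h (flp C nc n g t i ω) = h ω) {Kh : ℝ} (hK : ∀ ω, |h ω| ≤ Kh)
    (hc : |s g| * Real.sqrt N ≤ Real.sqrt n / 8) {l : ℕ} (hl : l ≤ st n g) (ω : Om C nc n) :
    |cE (QQ C nc n f G s) ((fil C nc n).F l) (fun w => zf w.2 g i * h w) ω -
      s g * cE (QQ C nc n f G s) ((fil C nc n).F l)
        (fun w => h w * scr (QQ C nc n f G s) g (XX C nc n i) w) ω| ≤
      52 * s g ^ 2 * N * Kh / Real.sqrt n := by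
  have hkL : ∀ t : Fin n, (g : ℕ) * n + t + 1 ≤ (fil C nc n).L := by
    intro t
    rw [fil_L]
    have h1 : ((g : ℕ) + 1) * n ≤ nc * n := Nat.mul_le_mul_right n g.2
    have h2 : ((g : ℕ) + 1) * n = (g : ℕ) * n + n := by ring
    have h3 := t.2
    unfold Lv; omega
  have key := ibp_rows (𝓕 := fil C nc n) (x := xs nc n) (prior_isProb C nc n) (xs_expo nc n) hn
    (k := fun t : Fin n => (g : ℕ) * n + t + 1) hkL (fun t => coin C nc n g t i)
    (U := UU f G s) (v := XX C nc n i) (f := h)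
    (T := scr (QQ C nc n f G s) g (XX C nc n i)) (c := s g)
    (K := Real.sqrt N) (Kf := Kh) (fun t ω => UU_flip C nc n f G s g t i ω)
    (fun t ω => rfl) hh (fun ω => abs_x_le _ _) hK hc
    (fun t ω => by
      have h2 : ((g : ℕ) + 1) * n = (g : ℕ) * n + n := by ring
      have h3 := t.2
      rw [fil_L, xs_Lv hn, one_mul, sum_incr_xs hn (fun j => cE (tl (prior C nc n) (fil C nc n)
        (xs nc n) (UU f G s)) ((fil C nc n).F j) (XX C nc n i) ω) g.2 (by omega) (by omega)]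
      rfl)
    (l := l) (fun t => by unfold st at hl; omega) ω
  simp only [two_cvl] at key
  rw [Real.sq_sqrt (by positivity)] at key
  exact key

/-- error of the classwise IBP -/
def eIBP (N : ℕ) (n : ℕ) (a : ℝ) : ℝ := 52 * a ^ 2 * N * Real.sqrt N / Real.sqrt n

/-- **(C) classwise IBP for the field observable**, in the form used by `R164/OvConc`. -/
theorem cE_Dobs (hN : 0 < N) (hn : 0 < n) (g : Fin nc)
    (hc : |s g| * Real.sqrt N ≤ Real.sqrt n / 8) {l : ℕ} (hl : l ≤ st n g) (ω : Om C nc n) :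
    |cE (QQ C nc n f G s) ((fil C nc n).F l) (Dobs C nc n g) ω -
      s g * cE (QQ C nc n f G s) ((fil C nc n).F l)
        (Crest.Agent.R164.OvC.Tg (XX C nc n) (QQ C nc n f G s) (fil C nc n) univ (N : ℝ)
          ((nc : ℝ) + 1)⁻¹ (fun g' => st n (g' + 1)) nc g) ω| ≤ eIBP N n (s g) := by
  have hNr : (0 : ℝ) < N := by exact_mod_cast hN
  have e1 : cE (QQ C nc n f G s) ((fil C nc n).F l) (Dobs C nc n g) ω = (N : ℝ)⁻¹ *
      ∑ i, cE (QQ C nc n f G s) ((fil C nc n).F l) (fun w => zf w.2 g i * XX C nc n i w) ω := by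
    rw [← cE_sum, ← cE_smul]
    rfl
  have e2 : s g * cE (QQ C nc n f G s) ((fil C nc n).F l)
        (Crest.Agent.R164.OvC.Tg (XX C nc n) (QQ C nc n f G s) (fil C nc n) univ (N : ℝ)
          ((nc : ℝ) + 1)⁻¹ (fun g' => st n (g' + 1)) nc g) ω = (N : ℝ)⁻¹ * ∑ i, s g *
      cE (QQ C nc n f G s) ((fil C nc n).F l)
        (fun w => XX C nc n i w * scr (QQ C nc n f G s) g (XX C nc n i) w) ω := by
    rw [← Finset.mul_sum, ← cE_sum, mul_left_comm]
    congr 1
    rw [← cE_smul]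
    rfl
  rw [e1, e2, ← mul_sub, ← Finset.sum_sub_distrib, abs_mul, abs_of_pos (inv_pos.mpr hNr)]
  calc (N : ℝ)⁻¹ * |∑ i, _| ≤ (N : ℝ)⁻¹ * ∑ _i : Fin N, 52 * s g ^ 2 * N * Real.sqrt N /
        Real.sqrt n := by
        refine mul_le_mul_of_nonneg_left ?_ (inv_pos.mpr hNr).le
        refine (Finset.abs_sum_le_sum_abs _ _).trans (Finset.sum_le_sum fun i _ => ?_)
        exact cE_zf_mul f G s hn g i (fun _ _ => rfl) (fun ω => abs_x_le _ _) hc hl ω
    _ = eIBP N n (s g) := by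
        rw [Finset.sum_const, Finset.card_univ, Fintype.card_fin, nsmul_eq_mul]
        unfold eIBP
        field_simp

theorem Sq_eq (hN : 0 < N) (ω : Om C nc n) :
    Crest.Agent.R164.OvC.Sq (XX C nc n) univ (N : ℝ) ω = 1 := by
  have hNr : (N : ℝ) ≠ 0 := by exact_mod_cast hN.ne'
  unfold Crest.Agent.R164.OvC.Sq XX
  rw [C.hx ω.1, inv_mul_cancel₀ hNr]

/-- the mean of the field observable, for one disorder. -/
theorem eE_Dobs (hN : 0 < N) (hn : 0 < n) (g : Fin nc)
    (hc : |s g| * Real.sqrt N ≤ Real.sqrt n / 8) :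
    |eE (QQ C nc n f G s) (Dobs C nc n g) - s g * (1 - ((nc : ℝ) + 1)⁻¹ *
      ∑ g' ∈ Ico (g : ℕ) nc, eE (QQ C nc n f G s)
        (rr (XX C nc n) (QQ C nc n f G s) (fil C nc n) univ (st n (g' + 1))))| ≤
      eIBP N n (s g) := by
  have hNr : (N : ℝ) ≠ 0 := by exact_mod_cast hN.ne'
  have h := Crest.Agent.R164.OvC.O5 (XX C nc n) (QQ_isProb f G s) (𝓕 := fil C nc n) univ
    (nN := (N : ℝ)) (w0 := ((nc : ℝ) + 1)⁻¹) (fun g' => st n (g' + 1)) (nc := nc) (g := g) (l := 0)
    (D := Dobs C nc n g) (κ := s g) (err := eIBP N n (s g))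
    (fun ω => cE_Dobs f G s hN hn g hc (Nat.zero_le _) ω)
  have e1 : eE (QQ C nc n f G s) (Crest.Agent.R164.OvC.Sq (XX C nc n) univ (N : ℝ)) = 1 := by
    rw [show Crest.Agent.R164.OvC.Sq (XX C nc n) univ (N : ℝ) = fun _ => (1 : ℝ) from
      funext fun ω => Sq_eq hN ω]
    exact eE_const (QQ_isProb f G s) 1
  rw [e1] at h
  simp only [Finset.card_univ, Fintype.card_fin, div_self hNr, one_mul] at h
  exact h

/-! ### measurability in the disorder -/

section Meas

variable {Ω Θ : Type*} [Fintype Ω] [MeasurableSpace Θ] {P : Ω → ℝ} {𝓕 : Filt Ω} {x : ℕ → ℝ}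

theorem cE_measurable (P : Ω → ℝ) (r : Setoid Ω) {g : Θ → Ω → ℝ}
    (hg : ∀ ω, Measurable fun θ => g θ ω) (ω : Ω) : Measurable fun θ => cE P r (g θ) ω := by
  classical
  unfold cE
  exact (Finset.measurable_sum _ fun i _ => (hg i).const_mul _).div_const _

theorem cE_measurable' {P : Θ → Ω → ℝ} (hP : ∀ ω, Measurable fun θ => P θ ω) (r : Setoid Ω)
    {g : Θ → Ω → ℝ} (hg : ∀ ω, Measurable fun θ => g θ ω) (ω : Ω) :
    Measurable fun θ => cE (P θ) r (g θ) ω := by
  classical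
  unfold cE
  exact (Finset.measurable_sum _ fun i _ => (hP i).mul (hg i)).div
    (Finset.measurable_sum _ fun i _ => hP i)

theorem eE_measurable' {P : Θ → Ω → ℝ} (hP : ∀ ω, Measurable fun θ => P θ ω)
    {g : Θ → Ω → ℝ} (hg : ∀ ω, Measurable fun θ => g θ ω) :
    Measurable fun θ => eE (P θ) (g θ) :=
  Finset.measurable_sum _ fun i _ => (hP i).mul (hg i)

theorem A_measurable (hP : IsProb P) (hx : ∀ k, 0 < x k) {U : Θ → Ω → ℝ}
    (hU : ∀ ω, Measurable fun θ => U θ ω) (k : ℕ) :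
    ∀ ω, Measurable fun θ => A P 𝓕 x (U θ) k ω := by
  refine back_induction 𝓕 (Q := fun k => ∀ ω, Measurable fun θ => A P 𝓕 x (U θ) k ω) ?_ ?_ k
  · intro k hk ω
    simp only [A_of_ge _ hk]
    exact hU ω
  · intro k ih ω
    have e : ∀ θ, A P 𝓕 x (U θ) k ω = pm P (𝓕.F k) (x (k + 1)) (A P 𝓕 x (U θ) (k + 1)) ω :=
      fun θ => by rw [A_step hP hx]
    rw [funext e]
    unfold pm
    refine Measurable.const_mul (Real.measurable_log.comp ?_) _
    exact cE_measurable P _ (fun a => Real.measurable_exp.comp ((ih a).const_mul _)) ω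

theorem tl_measurable (hP : IsProb P) (hx : ∀ k, 0 < x k) {U : Θ → Ω → ℝ}
    (hU : ∀ ω, Measurable fun θ => U θ ω) (ω : Ω) : Measurable fun θ => tl P 𝓕 x (U θ) ω := by
  unfold tl S
  refine Measurable.const_mul (Real.measurable_exp.comp ?_) _
  exact Finset.measurable_sum _ fun l _ =>
    ((A_measurable hP hx hU (l + 1) ω).sub (A_measurable hP hx hU l ω)).const_mul _

end Meas

theorem UU_measurable {f : ℕ → ℝ → ℝ} (hf : ∀ a, Measurable (f a)) (s : Fin nc → ℝ)
    (ω : Om C nc n) : Measurable fun G : Fin M → Fin N → ℝ => UU f G s ω := by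
  unfold UU rowE
  refine Measurable.add_const ?_ _
  refine Finset.measurable_sum _ fun a _ => (hf a).comp ?_
  refine Finset.measurable_sum _ fun i _ => Measurable.mul_const ?_ _
  exact (measurable_pi_apply i).comp (measurable_pi_apply a)

theorem QQ_measurable {f : ℕ → ℝ → ℝ} (hf : ∀ a, Measurable (f a)) (s : Fin nc → ℝ)
    (ω : Om C nc n) : Measurable fun G : Fin M → Fin N → ℝ => QQ C nc n f G s ω :=
  tl_measurable (prior_isProb C nc n) (xs_pos nc n) (fun ω => UU_measurable hf s ω) ω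

instance gam_prob (M N : ℕ) : IsProbabilityMeasure (gam M N) := by
  unfold gam; infer_instance

/-- a bounded measurable quantity built from `QQ` is integrable. -/
theorem integrable_eE {f : ℕ → ℝ → ℝ} (hf : ∀ a, Measurable (f a)) (s : Fin nc → ℝ)
    {g : (Fin M → Fin N → ℝ) → Om C nc n → ℝ} (hg : ∀ ω, Measurable fun G => g G ω) {K : ℝ}
    (hK : ∀ G ω, |g G ω| ≤ K) :
    Integrable (fun G : Fin M → Fin N → ℝ => eE (QQ C nc n f G s) (g G)) (gam M N) := by
  refine Integrable.of_bound (C := K)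
    (eE_measurable' (fun ω => QQ_measurable hf s ω) hg).aestronglyMeasurable ?_
  refine Filter.Eventually.of_forall fun G => ?_
  rw [Real.norm_eq_abs]
  refine (Crest.Agent.R141.eE_abs_le (QQ_isProb f G s) _).trans ?_
  exact (eE_mono (QQ_isProb f G s) (hK G)).trans (le_of_eq (eE_const (QQ_isProb f G s) _))

theorem abs_zf_le (c : Coins nc n N) (g : Fin nc) (i : Fin N) : |zf c g i| ≤ Real.sqrt n := by
  unfold zf
  rw [abs_mul, abs_of_nonneg (inv_nonneg.mpr (Real.sqrt_nonneg _))]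
  have h1 : |∑ t : Fin n, sv (c g t i)| ≤ n := by
    refine (Finset.abs_sum_le_sum_abs _ _).trans ?_
    have : ∀ t : Fin n, |sv (c g t i)| = 1 := by
      intro t; unfold sv; split_ifs <;> simp
    rw [Finset.sum_congr rfl fun t _ => this t, Finset.sum_const, Finset.card_univ,
      Fintype.card_fin, nsmul_eq_mul, mul_one]
  refine (mul_le_mul_of_nonneg_left h1 (inv_nonneg.mpr (Real.sqrt_nonneg _))).trans ?_
  rcases Nat.eq_zero_or_pos n with h | h
  · subst h; simp
  · have hn : (0 : ℝ) < n := by exact_mod_cast h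
    have hs := Real.sqrt_pos.mpr hn
    rw [inv_mul_le_iff₀ hs, Real.mul_self_sqrt hn.le]

theorem abs_Dobs_le (g : Fin nc) (ω : Om C nc n) :
    |Dobs C nc n g ω| ≤ Real.sqrt n * Real.sqrt N := by
  unfold Dobs
  rw [abs_mul, abs_of_nonneg (by positivity : (0 : ℝ) ≤ (N : ℝ)⁻¹)]
  have h1 : |∑ i, zf ω.2 g i * C.x ω.1 i| ≤ N * (Real.sqrt n * Real.sqrt N) := by
    refine (Finset.abs_sum_le_sum_abs _ _).trans ?_
    have : ∀ i, |zf ω.2 g i * C.x ω.1 i| ≤ Real.sqrt n * Real.sqrt N := by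
      intro i
      rw [abs_mul]
      exact mul_le_mul (abs_zf_le _ _ _) (abs_x_le _ _) (abs_nonneg _) (Real.sqrt_nonneg _)
    refine (Finset.sum_le_sum fun i _ => this i).trans ?_
    rw [Finset.sum_const, Finset.card_univ, Fintype.card_fin, nsmul_eq_mul]
  refine (mul_le_mul_of_nonneg_left h1 (by positivity)).trans ?_
  rcases Nat.eq_zero_or_pos N with h | h
  · subst h; simp
  · have hN : (N : ℝ) ≠ 0 := by exact_mod_cast h.ne'
    rw [← mul_assoc, inv_mul_cancel₀ hN, one_mul]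

/-- the normalised squared norm of a conditional mean is at most one. -/
theorem rr_le_one (G : Fin M → Fin N → ℝ) (k : ℕ) (ω : Om C nc n) :
    rr (XX C nc n) (QQ C nc n f G s) (fil C nc n) univ k ω ≤ 1 := by
  unfold rr
  rw [Finset.card_univ, Fintype.card_fin]
  have h1 : ∑ i, (cE (QQ C nc n f G s) ((fil C nc n).F k) (XX C nc n i) ω) ^ 2 ≤ N := by
    have h2 : ∀ i, (cE (QQ C nc n f G s) ((fil C nc n).F k) (XX C nc n i) ω) ^ 2 ≤
        cE (QQ C nc n f G s) ((fil C nc n).F k) (fun w => XX C nc n i w ^ 2) ω := fun i =>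
      cE_sq_le (QQ_isProb f G s) _ _ ω
    refine (Finset.sum_le_sum fun i _ => h2 i).trans (le_of_eq ?_)
    rw [← cE_sum]
    have h3 : (fun w : Om C nc n => ∑ i, XX C nc n i w ^ 2) = fun _ => (N : ℝ) :=
      funext fun w => C.hx w.1
    rw [h3, cE_const (QQ_isProb f G s)]
  rcases Nat.eq_zero_or_pos N with h | h
  · subst h; simp
  · have hN : (0 : ℝ) < N := by exact_mod_cast h
    rw [inv_mul_le_iff₀ hN, mul_one]
    exact h1

theorem rr_nonneg' (G : Fin M → Fin N → ℝ) (k : ℕ) (ω : Om C nc n) :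
    0 ≤ rr (XX C nc n) (QQ C nc n f G s) (fil C nc n) univ k ω := by
  unfold rr
  positivity

theorem rr_measurable {f : ℕ → ℝ → ℝ} (hf : ∀ a, Measurable (f a)) (s : Fin nc → ℝ) (k : ℕ)
    (ω : Om C nc n) : Measurable fun G : Fin M → Fin N → ℝ =>
      rr (XX C nc n) (QQ C nc n f G s) (fil C nc n) univ k ω := by
  unfold rr
  refine Measurable.const_mul (Finset.measurable_sum _ fun i _ => Measurable.pow_const ?_ _) _
  exact cE_measurable' (g := fun _ => XX C nc n i) (fun ω => QQ_measurable hf s ω) _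
    (fun _ => measurable_const) ω

/-- `Rk` in terms of `rr`. -/
theorem Rk_eq (f : ℕ → ℝ → ℝ) (M : ℕ) (s : Fin nc → ℝ) (k : ℕ) :
    Rk C nc n f M s k = ∫ G, eE (QQ C nc n (M := M) f G s)
      (rr (XX C nc n) (QQ C nc n f G s) (fil C nc n) univ k) ∂(gam M N) := by
  unfold Rk rr XX
  rw [Finset.card_univ, Fintype.card_fin]

theorem integrable_rr {f : ℕ → ℝ → ℝ} (hf : ∀ a, Measurable (f a)) (M : ℕ) (s : Fin nc → ℝ)
    (k : ℕ) : Integrable (fun G : Fin M → Fin N → ℝ => eE (QQ C nc n f G s)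
      (rr (XX C nc n) (QQ C nc n f G s) (fil C nc n) univ k)) (gam M N) :=
  integrable_eE hf s (fun ω => rr_measurable hf s k ω) (K := 1) fun G ω => by
    rw [abs_of_nonneg (rr_nonneg' f s G k ω)]
    exact rr_le_one f s G k ω




theorem integrable_Dobs {f : ℕ → ℝ → ℝ} (hf : ∀ a, Measurable (f a)) (M : ℕ) (s : Fin nc → ℝ)
    (g : Fin nc) : Integrable (fun G : Fin M → Fin N → ℝ =>
      eE (QQ C nc n f G s) (Dobs C nc n g)) (gam M N) :=
  integrable_eE hf s (fun _ => measurable_const) fun _ ω => abs_Dobs_le g ω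

theorem tl1_eq (q : ℕ → ℝ) (g : ℕ) : S6U_988.tl1 nc q g =
    ((nc : ℝ) + 1)⁻¹ * ∑ g' ∈ Ico g nc, q (g' + 1) := by
  unfold S6U_988.tl1
  rw [one_div]
  congr 1
  rw [Finset.sum_Ico_add' q g nc 1]
  refine Finset.sum_congr ?_ fun _ _ => rfl
  ext j
  simp only [mem_Ioc, mem_Ico]
  omega

/-- size of `n` for the classwise IBP. -/
theorem n_large (A : ℝ) (N : ℕ) {ε : ℝ} (hε : 0 < ε) : ∃ n0 : ℕ, ∀ n, n0 ≤ n → 0 < n ∧
    ∀ a : ℝ, 0 ≤ a → a ≤ A → |a| * Real.sqrt N ≤ Real.sqrt n / 8 ∧ eIBP N n a ≤ ε := by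
  refine ⟨⌈(8 * |A| * Real.sqrt N) ^ 2⌉₊ + ⌈(52 * A ^ 2 * N * Real.sqrt N / ε) ^ 2⌉₊ + 1,
    fun n hn => ⟨by omega, fun a ha haA => ?_⟩⟩
  have hn0 : 0 < n := by omega
  have hsn : 0 < Real.sqrt n := Real.sqrt_pos.mpr (by exact_mod_cast hn0)
  have h1 : 8 * |A| * Real.sqrt N ≤ Real.sqrt n := by
    refine Real.le_sqrt_of_sq_le ?_
    refine (Nat.le_ceil _).trans ?_
    exact_mod_cast (by omega : ⌈(8 * |A| * Real.sqrt N) ^ 2⌉₊ ≤ n)
  have h2 : 52 * A ^ 2 * N * Real.sqrt N / ε ≤ Real.sqrt n := by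
    refine Real.le_sqrt_of_sq_le ?_
    refine (Nat.le_ceil _).trans ?_
    exact_mod_cast (by omega : ⌈(52 * A ^ 2 * N * Real.sqrt N / ε) ^ 2⌉₊ ≤ n)
  constructor
  · have h3 : |a| ≤ |A| := by
      rw [abs_of_nonneg ha, abs_of_nonneg (ha.trans haA)]; exact haA
    have h4 : |a| * Real.sqrt N ≤ |A| * Real.sqrt N :=
      mul_le_mul_of_nonneg_right h3 (Real.sqrt_nonneg _)
    linarith
  · unfold eIBP
    rw [div_le_iff₀ hsn]
    rw [div_le_iff₀ hε] at h2
    have h3 : a ^ 2 ≤ A ^ 2 := pow_le_pow_left₀ ha haA 2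
    have h4 : 52 * a ^ 2 * N * Real.sqrt N ≤ 52 * A ^ 2 * N * Real.sqrt N := by gcongr
    linarith


/-- **node `S6U_988.IBP`**. -/
theorem ibp_node : S6U_988.IBP := by
  intro nc A K ε hε
  choose n0 hn0 using fun N : ℕ => n_large A N hε
  refine ⟨fun N _ => n0 N, fun N hN M n hn C f hf _ s hs g => ?_⟩
  obtain ⟨hn', hA⟩ := hn0 N n hn
  obtain ⟨hc, he⟩ := hA (s g) (hs g).1 (hs g).2
  have hb : ∀ G : Fin M → Fin N → ℝ, |eE (QQ C nc n f G s) (Dobs C nc n g) -
      s g * (1 - ((nc : ℝ) + 1)⁻¹ * ∑ g' ∈ Ico (g : ℕ) nc, eE (QQ C nc n f G s)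
        (rr (XX C nc n) (QQ C nc n f G s) (fil C nc n) univ (st n (g' + 1))))| ≤ ε := fun G =>
    (eE_Dobs f G s hN hn' g hc).trans he
  have i1 := integrable_Dobs (C := C) (n := n) hf M s g
  have i2 : ∀ g' ∈ Ico (g : ℕ) nc, Integrable (fun G : Fin M → Fin N → ℝ =>
      eE (QQ C nc n f G s) (rr (XX C nc n) (QQ C nc n f G s) (fil C nc n) univ
        (st n (g' + 1)))) (gam M N) := fun g' _ => integrable_rr hf M s _
  have i3 : Integrable (fun G : Fin M → Fin N → ℝ => s g * (1 - ((nc : ℝ) + 1)⁻¹ *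
      ∑ g' ∈ Ico (g : ℕ) nc, eE (QQ C nc n f G s)
        (rr (XX C nc n) (QQ C nc n f G s) (fil C nc n) univ (st n (g' + 1))))) (gam M N) :=
    (((integrable_const (1 : ℝ)).sub ((integrable_finsetSum _ i2).const_mul _)).const_mul _)
  have e : ∫ G, s g * (1 - ((nc : ℝ) + 1)⁻¹ * ∑ g' ∈ Ico (g : ℕ) nc, eE (QQ C nc n f G s)
        (rr (XX C nc n) (QQ C nc n f G s) (fil C nc n) univ (st n (g' + 1)))) ∂(gam M N) =
      s g * (1 - S6U_988.tl1 nc (fun l => Rk C nc n f M s (st n l)) g) := by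
    rw [integral_const_mul, integral_sub (integrable_const 1)
      ((integrable_finsetSum _ i2).const_mul _), integral_const_mul, integral_finsetSum _ i2,
      tl1_eq]
    simp only [integral_const, probReal_univ, smul_eq_mul, mul_one, Rk_eq]
  rw [← e, ← integral_sub i1 i3]
  refine (abs_integral_le_integral_abs).trans ?_
  refine (integral_mono (i1.sub i3).abs (integrable_const ε) hb).trans ?_
  simp

end

end Crest.Agent.R146.S6Ibp_559
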