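import Crest.Agent.R164.CoinIBP
import Crest.Agent.R164.CavG2
import Crest.Agent.R146.S6U_988

-- ▼ part R146/Noise_143
section

/-!
Row 146, S0206, node NOISE (item (3) of the paper proof 146-674-1): the noise of one step of a coin
field forces linear purity (small Hilbert-Schmidt norm of the conditional covariance).
Abstract form, on the finite hierarchical calculus of row 141 and the coin integration by parts of
row 164.
-/

set_option autoImplicit false

namespace Crest.Agent.R146.Noise_143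

open Finset Crest.Agent.R141 Crest.Agent.R164 Crest.Agent.R164.CoinIBP Crest.Agent.R164.CavG

noncomputable section

section gen

variable {Ω : Type*} [Fintype Ω] {T : Ω → ℝ} {𝓕 : Filt Ω} {x : ℕ → ℝ}

/-- `W = x_L f - ∑_{k ≤ j < L} (x_{j+1} - x_j) E_j f`. -/
def Wf (T : Ω → ℝ) (𝓕 : Filt Ω) (x : ℕ → ℝ) (k : ℕ) (f : Ω → ℝ) (a : Ω) : ℝ :=
  x 𝓕.L * f a - ∑ j ∈ Ico k 𝓕.L, (x (j + 1) - x j) * cE T (𝓕.F j) f a

/-- conditional variance decreases under conditional expectation. -/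
theorem var_cE_le (hT : IsProb T) {r s : Setoid Ω} (h : s ≤ r) (f : Ω → ℝ) (ω : Ω) :
    cE T r (fun a => (f a - cE T r f ω) * cE T s f a) ω ≤
      cE T r (fun a => (f a - cE T r f ω) ^ 2) ω := by
  have h1 : cE T r (fun a => (f a - cE T r f ω) * (f a - cE T s f a)) ω =
      cE T r (fun a => (f a - cE T s f a) ^ 2) ω := by
    have e1 : cE T r (fun a => (cE T s f a - cE T r f ω) * (f a - cE T s f a)) ω = 0 := by
      rw [← cE_tower hT h]
      have e2 : ∀ a, cE T s (fun b => (cE T s f b - cE T r f ω) * (f b - cE T s f b)) a = 0 := by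
        intro a
        rw [cE_mul_left (g := fun b => cE T s f b - cE T r f ω)]
        · have e3 : cE T s (fun b => f b - cE T s f b) a = 0 := by
            rw [cE_sub, cE_of_meas hT (cE_meas T s f)]; ring
          rw [e3, mul_zero]
        · intro b c hbc
          simp only [cE_meas T s f b c hbc]
      rw [show cE T s (fun b => (cE T s f b - cE T r f ω) * (f b - cE T s f b)) = fun _ => 0 from
        funext e2]
      exact cE_const hT r 0 ω
    have e4 : cE T r (fun a => (f a - cE T r f ω) * (f a - cE T s f a)) ω =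
        cE T r (fun a => (f a - cE T s f a) ^ 2) ω +
        cE T r (fun a => (cE T s f a - cE T r f ω) * (f a - cE T s f a)) ω := by
      rw [← cE_add]
      congr 1
      funext a
      ring
    rw [e4, e1, add_zero]
  have h2 : 0 ≤ cE T r (fun a => (f a - cE T s f a) ^ 2) ω := cE_nonneg hT (fun _ => sq_nonneg _) ω
  have h3 : cE T r (fun a => (f a - cE T r f ω) ^ 2) ω =
      cE T r (fun a => (f a - cE T r f ω) * f a) ω := by
    have e : cE T r (fun a => (f a - cE T r f ω) ^ 2) ω =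
        cE T r (fun a => (f a - cE T r f ω) * f a) ω -
          cE T r (fun a => cE T r f ω * (f a - cE T r f ω)) ω := by
      rw [← cE_sub]
      congr 1
      funext a
      ring
    have e0 : cE T r (fun a => cE T r f ω * (f a - cE T r f ω)) ω = 0 := by
      rw [cE_smul, cE_sub, cE_const hT]; ring
    rw [e, e0, sub_zero]
  have h4 : cE T r (fun a => (f a - cE T r f ω) * (f a - cE T s f a)) ω =
      cE T r (fun a => (f a - cE T r f ω) * f a) ω -
        cE T r (fun a => (f a - cE T r f ω) * cE T s f a) ω := by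
    rw [← cE_sub]
    congr 1
    funext a
    ring
  rw [h3]
  linarith

/-- `Cov(f, W f | F) ≥ x_k Var(f | F)`. -/
theorem cov_W_ge (hT : IsProb T) (hx : IsExpo x) {k m : ℕ} (hm : m ≤ k) (hkL : k ≤ 𝓕.L)
    (f : Ω → ℝ) (ω : Ω) :
    x k * cE T (𝓕.F m) (fun a => (f a - cE T (𝓕.F m) f ω) ^ 2) ω ≤
      cE T (𝓕.F m) (fun a => (f a - cE T (𝓕.F m) f ω) * Wf T 𝓕 x k f a) ω := by
  set r := 𝓕.F m with hr
  set v := cE T r (fun a => (f a - cE T r f ω) ^ 2) ω with hv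
  have h3 : v = cE T r (fun a => (f a - cE T r f ω) * f a) ω := by
    have e : cE T r (fun a => (f a - cE T r f ω) ^ 2) ω =
        cE T r (fun a => (f a - cE T r f ω) * f a) ω -
          cE T r (fun a => cE T r f ω * (f a - cE T r f ω)) ω := by
      rw [← cE_sub]
      congr 1
      funext a
      ring
    have e0 : cE T r (fun a => cE T r f ω * (f a - cE T r f ω)) ω = 0 := by
      rw [cE_smul, cE_sub, cE_const hT]; ring
    rw [hv, e, e0, sub_zero]
  have h1 : cE T r (fun a => (f a - cE T r f ω) * Wf T 𝓕 x k f a) ω =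
      x 𝓕.L * cE T r (fun a => (f a - cE T r f ω) * f a) ω -
        ∑ j ∈ Ico k 𝓕.L, (x (j + 1) - x j) *
          cE T r (fun a => (f a - cE T r f ω) * cE T (𝓕.F j) f a) ω := by
    rw [← cE_smul]
    have e : ∀ j, (x (j + 1) - x j) * cE T r (fun a => (f a - cE T r f ω) * cE T (𝓕.F j) f a) ω =
        cE T r (fun a => (x (j + 1) - x j) * ((f a - cE T r f ω) * cE T (𝓕.F j) f a)) ω :=
      fun j => (cE_smul _ _ _ _ _).symm
    simp_rw [e]
    rw [← cE_sum, ← cE_sub]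
    congr 1
    funext a
    unfold Wf
    rw [mul_sub, Finset.mul_sum]
    congr 1
    · ring
    · exact Finset.sum_congr rfl fun j _ => by ring
  have h2 : ∑ j ∈ Ico k 𝓕.L, (x (j + 1) - x j) *
      cE T r (fun a => (f a - cE T r f ω) * cE T (𝓕.F j) f a) ω ≤
      ∑ j ∈ Ico k 𝓕.L, (x (j + 1) - x j) * v := by
    refine Finset.sum_le_sum fun j hj => ?_
    have hj' := (Finset.mem_Ico.mp hj).1
    have h0 : 0 ≤ x (j + 1) - x j := by
      have := hx.mono (Nat.le_succ j); simp only [Nat.succ_eq_add_one] at this; linarith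
    refine mul_le_mul_of_nonneg_left ?_ h0
    exact var_cE_le hT (𝓕.anti' (hm.trans hj')) f ω
  rw [← Finset.sum_mul, sum_incr x hkL] at h2
  rw [h1, ← h3]
  linarith

theorem abs_W_le (hT : IsProb T) (hx : IsExpo x) {k : ℕ} (hkL : k ≤ 𝓕.L) {f : Ω → ℝ} {K : ℝ}
    (hf : ∀ ω, |f ω| ≤ K) (a : Ω) : |Wf T 𝓕 x k f a| ≤ 2 * K := by
  have hK : 0 ≤ K := (abs_nonneg _).trans (hf a)
  have := tele_stab (x := x) hx hkL hK (a := fun j => if j = 𝓕.L then f a else cE T (𝓕.F j) f a)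
    (b := fun _ => 0)
    (fun j _ => by
      rw [sub_zero]
      split_ifs
      · exact hf a
      · exact abs_cE_le_of_le hT hf a)
  simp only [mul_zero, Finset.sum_const_zero, sub_zero, if_true] at this
  refine le_trans (le_of_eq ?_) this
  unfold Wf
  congr 2
  refine Finset.sum_congr rfl fun j hj => ?_
  rw [if_neg (Finset.mem_Ico.mp hj).2.ne]

end gen

section vec

variable {Ω κ : Type*} [Fintype Ω] [Fintype κ] {T : Ω → ℝ} {𝓕 : Filt Ω} {x : ℕ → ℝ}

/-- `Γ_{il} = Cov(v_i, W v_l | F_m)`. -/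
def Gm (T : Ω → ℝ) (𝓕 : Filt Ω) (x : ℕ → ℝ) (m k : ℕ) (v : Ω → κ → ℝ) (i l : κ) (ω : Ω) : ℝ :=
  cE T (𝓕.F m) (fun a => dv T (𝓕.F m) v ω a i * Wf T 𝓕 x k (fun b => v b l) a) ω

omit [Fintype κ] in
theorem Wf_lin (w : κ → ℝ) (t : Finset κ) (k : ℕ) (v : Ω → κ → ℝ) (a : Ω) :
    Wf T 𝓕 x k (fun b => ∑ l ∈ t, w l * v b l) a = ∑ l ∈ t, w l * Wf T 𝓕 x k (fun b => v b l) a := by
  unfold Wf
  simp_rw [cE_sum, cE_smul, mul_sub, Finset.sum_sub_distrib, Finset.mul_sum]
  congr 1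
  · exact Finset.sum_congr rfl fun l _ => by ring
  · rw [Finset.sum_comm]
    exact Finset.sum_congr rfl fun l _ => Finset.sum_congr rfl fun j _ => by ring

/-- `∑ Γ_{il} C_{il} ≥ x_k ∑ C_{il}^2`. -/
theorem inner_ge (hT : IsProb T) (hx : IsExpo x) {k m : ℕ} (hm : m ≤ k) (hkL : k ≤ 𝓕.L)
    (v : Ω → κ → ℝ) (ω : Ω) :
    x k * ∑ i, ∑ l, cvr T (𝓕.F m) v i l ω ^ 2 ≤
      ∑ i, ∑ l, Gm T 𝓕 x m k v i l ω * cvr T (𝓕.F m) v i l ω := by
  set r := 𝓕.F m with hr
  -- for a fixed vector `w`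
  have key : ∀ w : κ → ℝ,
      x k * ∑ i, ∑ l, (w i * w l) * cvr T r v i l ω ≤
        ∑ i, ∑ l, (w i * w l) * Gm T 𝓕 x m k v i l ω := by
    intro w
    have h := cov_W_ge (𝓕 := 𝓕) hT hx hm hkL (fun b => ∑ l, w l * v b l) ω
    rw [← hr] at h
    have e0 : cE T r (fun b => ∑ l, w l * v b l) ω = ∑ l, w l * cEv T r v ω l := by
      rw [cE_sum]
      exact Finset.sum_congr rfl fun l _ => cE_smul _ _ _ _ _
    have e1 : ∀ a, (∑ l, w l * v a l) - cE T r (fun b => ∑ l, w l * v b l) ω =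
        ∑ l, w l * dv T r v ω a l := by
      intro a
      rw [e0, ← Finset.sum_sub_distrib]
      exact Finset.sum_congr rfl fun l _ => by unfold dv; ring
    simp_rw [e1, Wf_lin w univ k v] at h
    have e2 : cE T r (fun a => (∑ l, w l * dv T r v ω a l) ^ 2) ω =
        ∑ i, ∑ l, (w i * w l) * cvr T r v i l ω := by
      have : ∀ a, (∑ l, w l * dv T r v ω a l) ^ 2 =
          ∑ i, ∑ l, (w i * w l) * (dv T r v ω a i * dv T r v ω a l) := by
        intro a
        rw [sq, Finset.sum_mul_sum]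
        exact Finset.sum_congr rfl fun i _ => Finset.sum_congr rfl fun j _ => by ring
      simp_rw [this, cE_sum, cE_smul]
      rfl
    have e3 : cE T r (fun a => (∑ l, w l * dv T r v ω a l) *
        ∑ l, w l * Wf T 𝓕 x k (fun b => v b l) a) ω =
        ∑ i, ∑ l, (w i * w l) * Gm T 𝓕 x m k v i l ω := by
      have : ∀ a, (∑ l, w l * dv T r v ω a l) * ∑ l, w l * Wf T 𝓕 x k (fun b => v b l) a =
          ∑ i, ∑ l, (w i * w l) * (dv T r v ω a i * Wf T 𝓕 x k (fun b => v b l) a) := by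
        intro a
        rw [Finset.sum_mul_sum]
        exact Finset.sum_congr rfl fun i _ => Finset.sum_congr rfl fun j _ => by ring
      simp_rw [this, cE_sum, cE_smul]
      rfl
    rw [e2, e3] at h
    exact h
  -- average over `w = dv ω b`
  have h2 := cE_mono' (r := r) hT (fun b => key (dv T r v ω b)) ω
  have e4 : cE T r (fun b => x k * ∑ i, ∑ l, (dv T r v ω b i * dv T r v ω b l) *
      cvr T r v i l ω) ω = x k * ∑ i, ∑ l, cvr T r v i l ω ^ 2 := by
    rw [cE_smul]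
    congr 1
    simp_rw [cE_sum]
    refine Finset.sum_congr rfl fun i _ => Finset.sum_congr rfl fun l _ => ?_
    have : cE T r (fun b => dv T r v ω b i * dv T r v ω b l * cvr T r v i l ω) ω =
        cE T r (fun b => cvr T r v i l ω * (dv T r v ω b i * dv T r v ω b l)) ω := by
      congr 1; funext b; ring
    rw [this, cE_smul, sq]
    rfl
  have e5 : cE T r (fun b => ∑ i, ∑ l, (dv T r v ω b i * dv T r v ω b l) *
      Gm T 𝓕 x m k v i l ω) ω = ∑ i, ∑ l, Gm T 𝓕 x m k v i l ω * cvr T r v i l ω := by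
    simp_rw [cE_sum]
    refine Finset.sum_congr rfl fun i _ => Finset.sum_congr rfl fun l _ => ?_
    have : cE T r (fun b => dv T r v ω b i * dv T r v ω b l * Gm T 𝓕 x m k v i l ω) ω =
        cE T r (fun b => Gm T 𝓕 x m k v i l ω * (dv T r v ω b i * dv T r v ω b l)) ω := by
      congr 1; funext b; ring
    rw [this, cE_smul]
    rfl
  rw [e4, e5] at h2
  exact h2

/-- `x_k² ‖C‖² ≤ ‖Γ‖²`. -/
theorem hs_ge (hT : IsProb T) (hx : IsExpo x) {k m : ℕ} (hm : m ≤ k) (hkL : k ≤ 𝓕.L)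
    (v : Ω → κ → ℝ) (ω : Ω) :
    x k ^ 2 * ∑ i, ∑ l, cvr T (𝓕.F m) v i l ω ^ 2 ≤ ∑ i, ∑ l, Gm T 𝓕 x m k v i l ω ^ 2 := by
  have h1 := inner_ge (𝓕 := 𝓕) hT hx hm hkL v ω
  have h2 := Finset.sum_mul_sq_le_sq_mul_sq (Finset.univ : Finset (κ × κ))
    (fun p => Gm T 𝓕 x m k v p.1 p.2 ω) (fun p => cvr T (𝓕.F m) v p.1 p.2 ω)
  rw [Fintype.sum_prod_type, Fintype.sum_prod_type, Fintype.sum_prod_type] at h2
  simp only at h2
  set C2 := ∑ i, ∑ l, cvr T (𝓕.F m) v i l ω ^ 2 with hC2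
  set G2 := ∑ i, ∑ l, Gm T 𝓕 x m k v i l ω ^ 2 with hG2
  set I := ∑ i, ∑ l, Gm T 𝓕 x m k v i l ω * cvr T (𝓕.F m) v i l ω with hI
  have hC0 : 0 ≤ C2 := Finset.sum_nonneg fun _ _ => Finset.sum_nonneg fun _ _ => sq_nonneg _
  have hG0 : 0 ≤ G2 := Finset.sum_nonneg fun _ _ => Finset.sum_nonneg fun _ _ => sq_nonneg _
  have hxk := hx.pos k
  rcases eq_or_lt_of_le hC0 with h0 | h0
  · rw [← h0, mul_zero]; exact hG0
  · have h3 : (x k * C2) ^ 2 ≤ G2 * C2 := by
      refine le_trans ?_ h2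
      exact pow_le_pow_left₀ (by positivity) h1 2
    have h4 : (x k ^ 2 * C2) * C2 ≤ G2 * C2 := by
      calc (x k ^ 2 * C2) * C2 = (x k * C2) ^ 2 := by ring
        _ ≤ _ := h3
    exact le_of_mul_le_mul_right h4 h0

end vec

/-! ### one step -/

section step

variable {Ω κ : Type*} [Fintype Ω] [Fintype κ] {P : Ω → ℝ} {𝓕 : Filt Ω} {x : ℕ → ℝ} {m : ℕ}
  {s : κ → Ω → ℝ} {ι : κ → Ω → Ω} {U : Ω → ℝ} {v : Ω → κ → ℝ} {δ K : ℝ}

/-- the hypotheses on one row of coins, all revealed at the step `m + 1`. -/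
structure Row (P : Ω → ℝ) (𝓕 : Filt Ω) (x : ℕ → ℝ) (m : ℕ) (s : κ → Ω → ℝ) (ι : κ → Ω → Ω)
    (U : Ω → ℝ) (v : Ω → κ → ℝ) (δ K : ℝ) : Prop where
  hP : IsProb P
  hx : IsExpo x
  hL : m + 1 ≤ 𝓕.L
  coin : ∀ i, Coin P 𝓕 (m + 1) (s i) (ι i)
  cross : ∀ i j, i ≠ j → ∀ ω, s j (ι i ω) = s j ω
  inv : ∀ i ω, v (ι i ω) = v ω
  en : ∀ i ω, U (ι i ω) = U ω - 2 * δ * (2 * s i ω - 1) * v ω i
  bd : ∀ ω i, |v ω i| ≤ K
  small : |δ| * K ≤ 1 / 8

/-- the coin as a sign -/
def zt (s : κ → Ω → ℝ) (i : κ) (ω : Ω) : ℝ := 2 * s i ω - 1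

omit [Fintype κ] in
theorem zt_sq (R : Row P 𝓕 x m s ι U v δ K) (i : κ) (ω : Ω) : zt s i ω ^ 2 = 1 := by
  unfold zt
  rcases (R.coin i).s01 ω with h | h
  · rw [h]; norm_num
  · rw [h]; norm_num

omit [Fintype κ] in
theorem abs_zt (R : Row P 𝓕 x m s ι U v δ K) (i : κ) (ω : Ω) : |zt s i ω| ≤ 1 := by
  have h := zt_sq R i ω
  have h2 : |zt s i ω| ^ 2 = 1 := by rw [sq_abs]; exact h
  nlinarith [abs_nonneg (zt s i ω)]

omit [Fintype κ] in
theorem row_ibp (R : Row P 𝓕 x m s ι U v δ K) (i : κ) {f : Ω → ℝ} {Kf : ℝ}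
    (hf : ∀ ω, f (ι i ω) = f ω) (hfK : ∀ ω, |f ω| ≤ Kf) (ω : Ω) :
    |cE (tl P 𝓕 x U) (𝓕.F m) (fun a => zt s i a * f a) ω -
      δ * cE (tl P 𝓕 x U) (𝓕.F m) (fun a => f a * Wf (tl P 𝓕 x U) 𝓕 x (m + 1)
        (fun b => v b i) a) ω| ≤ 52 * (δ * K) ^ 2 * Kf := by
  have hG : ∀ ω, (fun a => U a - δ * (2 * s i a - 1) * v a i) (ι i ω) =
      (fun a => U a - δ * (2 * s i a - 1) * v a i) ω := by
    intro a
    simp only [R.en, R.inv, (R.coin i).s_flip]
    ring
  have h := ibp (G := fun a => U a - δ * (2 * s i a - 1) * v a i) (R.coin i) R.hP R.hx R.hL hG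
    (v := fun a => v a i) (fun a => by rw [R.inv]) hf (fun a => R.bd a i) hfK R.small
    (l := m) le_rfl ω
  simp only [sub_add_cancel] at h
  exact h

omit [Fintype κ] in
theorem row_cross (R : Row P 𝓕 x m s ι U v δ K) {i j : κ} (hij : i ≠ j) (ω : Ω) :
    |cE (tl P 𝓕 x U) (𝓕.F m) (fun a => zt s i a * zt s j a) ω| ≤ 9 * (|δ| * K) := by
  have hT := tl_isProb (𝓕 := 𝓕) R.hP R.hx.pos U
  have h := row_ibp R i (f := zt s j) (Kf := 1) (fun a => by unfold zt; rw [R.cross i j hij])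
    (fun a => abs_zt R j a) ω
  have hK : 0 ≤ K := (abs_nonneg _).trans (R.bd ω i)
  have h2 : |cE (tl P 𝓕 x U) (𝓕.F m) (fun a => zt s j a * Wf (tl P 𝓕 x U) 𝓕 x (m + 1)
        (fun b => v b i) a) ω| ≤ 2 * K := by
    refine abs_cE_le_of_le hT (fun a => ?_) ω
    rw [abs_mul]
    calc |zt s j a| * |Wf (tl P 𝓕 x U) 𝓕 x (m + 1) (fun b => v b i) a| ≤ 1 * (2 * K) :=
          mul_le_mul (abs_zt R j a) (abs_W_le hT R.hx R.hL (fun a => R.bd a i) a)
            (abs_nonneg _) zero_le_one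
      _ = 2 * K := one_mul _
  set c := cE (tl P 𝓕 x U) (𝓕.F m) (fun a => zt s i a * zt s j a) ω
  set e := cE (tl P 𝓕 x U) (𝓕.F m) (fun a => zt s j a * Wf (tl P 𝓕 x U) 𝓕 x (m + 1)
        (fun b => v b i) a) ω
  have hδ := R.small
  have h3 : |δ * e| ≤ |δ| * (2 * K) := by
    rw [abs_mul]; exact mul_le_mul_of_nonneg_left h2 (abs_nonneg δ)
  have h4 : (δ * K) ^ 2 = (|δ| * K) ^ 2 := by rw [mul_pow, mul_pow, sq_abs]
  rw [h4] at h
  have h5 : |c| ≤ |c - δ * e| + |δ * e| := by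
    have := abs_add_le (c - δ * e) (δ * e)
    rwa [sub_add_cancel] at this
  have h6 : 0 ≤ |δ| * K := by positivity
  nlinarith

/-- the martingale increment of the coordinate `l`. -/
def Dn (T : Ω → ℝ) (𝓕 : Filt Ω) (m : ℕ) (v : Ω → κ → ℝ) (l : κ) (a : Ω) : ℝ :=
  cE T (𝓕.F (m + 1)) (fun b => v b l) a - cE T (𝓕.F m) (fun b => v b l) a

/-- `c_{li} = E[D_l ζ_i | F_m]` -/
def cc (T : Ω → ℝ) (𝓕 : Filt Ω) (m : ℕ) (s : κ → Ω → ℝ) (v : Ω → κ → ℝ) (l i : κ) (ω : Ω) : ℝ :=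
  cE T (𝓕.F m) (fun a => zt s i a * Dn T 𝓕 m v l a) ω

omit [Fintype κ] in
theorem cc_eq (R : Row P 𝓕 x m s ι U v δ K) (l i : κ) (ω : Ω) :
    cc (tl P 𝓕 x U) 𝓕 m s v l i ω =
      cE (tl P 𝓕 x U) (𝓕.F m) (fun a => zt s i a * dv (tl P 𝓕 x U) (𝓕.F m) v ω a l) ω := by
  set T := tl P 𝓕 x U with hTdef
  have hT : IsProb T := tl_isProb (𝓕 := 𝓕) R.hP R.hx.pos U
  unfold cc
  have e1 : cE T (𝓕.F m) (fun a => zt s i a * Dn T 𝓕 m v l a) ω =
      cE T (𝓕.F m) (fun a => zt s i a * cE T (𝓕.F (m + 1)) (fun b => v b l) a) ω -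
      cE T (𝓕.F m) (fun a => zt s i a * cE T (𝓕.F m) (fun b => v b l) a) ω := by
    rw [← cE_sub]
    congr 1
    funext a
    unfold Dn
    ring
  have e2 : cE T (𝓕.F m) (fun a => zt s i a * cE T (𝓕.F (m + 1)) (fun b => v b l) a) ω =
      cE T (𝓕.F m) (fun a => zt s i a * v a l) ω := by
    rw [← cE_tower hT (𝓕.anti m) (fun a => zt s i a * v a l)]
    congr 1
    funext a
    rw [cE_mul_left]
    intro b c hbc
    unfold zt
    rw [(R.coin i).s_meas b c hbc]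
  have e3 : cE T (𝓕.F m) (fun a => zt s i a * cE T (𝓕.F m) (fun b => v b l) a) ω =
      cE T (𝓕.F m) (fun a => zt s i a * cE T (𝓕.F m) (fun b => v b l) ω) ω := by
    refine cE_congr ω fun a ha => ?_
    rw [cE_meas T (𝓕.F m) (fun b => v b l) ω a ha]
  have e4 : cE T (𝓕.F m) (fun a => zt s i a * dv T (𝓕.F m) v ω a l) ω =
      cE T (𝓕.F m) (fun a => zt s i a * v a l) ω -
      cE T (𝓕.F m) (fun a => zt s i a * cE T (𝓕.F m) (fun b => v b l) ω) ω := by
    rw [← cE_sub]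
    congr 1
    funext a
    unfold dv cEv
    ring
  rw [e1, e2, e3, e4]

omit [Fintype κ] in
theorem abs_dv_le (hT : IsProb P) {r : Setoid Ω} (hb : ∀ ω i, |v ω i| ≤ K) (ω a : Ω) (l : κ) :
    |dv P r v ω a l| ≤ 2 * K := by
  unfold dv cEv
  have h1 := hb a l
  have h2 : |cE P r (fun b => v b l) ω| ≤ K := abs_cE_le_of_le hT (fun b => hb b l) ω
  have := abs_sub (v a l) (cE P r (fun b => v b l) ω)
  linarith

omit [Fintype κ] in
theorem abs_Gm_le (hT : IsProb P) (hx : IsExpo x) {k : ℕ} (hkL : k ≤ 𝓕.L)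
    (hb : ∀ ω i, |v ω i| ≤ K) (hK : 0 ≤ K) (i l : κ) (ω : Ω) :
    |Gm P 𝓕 x m k v i l ω| ≤ 4 * K ^ 2 := by
  unfold Gm
  refine abs_cE_le_of_le hT (fun a => ?_) ω
  rw [abs_mul]
  calc |dv P (𝓕.F m) v ω a i| * |Wf P 𝓕 x k (fun b => v b l) a| ≤ (2 * K) * (2 * K) :=
        mul_le_mul (abs_dv_le hT hb ω a i) (abs_W_le hT hx hkL (fun a => hb a l) a)
          (abs_nonneg _) (by positivity)
    _ = 4 * K ^ 2 := by ring

omit [Fintype κ] in
theorem cc_sub_le (R : Row P 𝓕 x m s ι U v δ K) (l i : κ) (ω : Ω) :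
    |cc (tl P 𝓕 x U) 𝓕 m s v l i ω - δ * Gm (tl P 𝓕 x U) 𝓕 x m (m + 1) v l i ω| ≤
      104 * δ ^ 2 * K ^ 3 := by
  have hT := tl_isProb (𝓕 := 𝓕) R.hP R.hx.pos U
  rw [cc_eq R l i ω]
  have h := row_ibp R i (f := fun a => dv (tl P 𝓕 x U) (𝓕.F m) v ω a l) (Kf := 2 * K)
    (fun a => by unfold dv; rw [R.inv]) (fun a => abs_dv_le hT R.bd ω a l) ω
  refine h.trans (le_of_eq ?_)
  ring

/-- Bessel inequality for nearly orthonormal signs. -/
theorem bessel (R : Row P 𝓕 x m s ι U v δ K) (l : κ) (ω : Ω) :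
    (1 - 9 * (|δ| * K) * Fintype.card κ) * ∑ i, cc (tl P 𝓕 x U) 𝓕 m s v l i ω ^ 2 ≤
      cE (tl P 𝓕 x U) (𝓕.F m) (fun a => Dn (tl P 𝓕 x U) 𝓕 m v l a ^ 2) ω := by
  classical
  set T := tl P 𝓕 x U with hTdef
  have hT : IsProb T := tl_isProb (𝓕 := 𝓕) R.hP R.hx.pos U
  set c : κ → ℝ := fun i => cc T 𝓕 m s v l i ω with hc
  have h0 : 0 ≤ cE T (𝓕.F m) (fun a => (Dn T 𝓕 m v l a - ∑ i, c i * zt s i a) ^ 2) ω :=
    cE_nonneg hT (fun _ => sq_nonneg _) ω
  have e1 : cE T (𝓕.F m) (fun a => (Dn T 𝓕 m v l a - ∑ i, c i * zt s i a) ^ 2) ω =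
      cE T (𝓕.F m) (fun a => Dn T 𝓕 m v l a ^ 2) ω - 2 * ∑ i, c i ^ 2 +
        ∑ i, ∑ j, (c i * c j) * cE T (𝓕.F m) (fun a => zt s i a * zt s j a) ω := by
    have e : ∀ a, (Dn T 𝓕 m v l a - ∑ i, c i * zt s i a) ^ 2 =
        (Dn T 𝓕 m v l a ^ 2 - 2 * ∑ i, c i * (zt s i a * Dn T 𝓕 m v l a)) +
          ∑ i, ∑ j, (c i * c j) * (zt s i a * zt s j a) := by
      intro a
      have h1 : (∑ i, c i * zt s i a) ^ 2 = ∑ i, ∑ j, (c i * c j) * (zt s i a * zt s j a) := by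
        rw [sq, Finset.sum_mul_sum]
        exact Finset.sum_congr rfl fun i _ => Finset.sum_congr rfl fun j _ => by ring
      have h2 : ∑ i, c i * (zt s i a * Dn T 𝓕 m v l a) =
          (∑ i, c i * zt s i a) * Dn T 𝓕 m v l a := by
        rw [Finset.sum_mul]
        exact Finset.sum_congr rfl fun i _ => by ring
      rw [← h1, h2]; ring
    simp_rw [e, cE_add, cE_sub, cE_smul, cE_sum, cE_smul]
    congr 2
    congr 1
    refine Finset.sum_congr rfl fun i _ => ?_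
    show c i * cc T 𝓕 m s v l i ω = c i ^ 2
    simp only [hc]; ring
  rw [e1] at h0
  set η := 9 * (|δ| * K) with hη
  have hterm : ∀ i j, (c i * c j) * cE T (𝓕.F m) (fun a => zt s i a * zt s j a) ω ≤
      (if i = j then c i ^ 2 else 0) + η * ((c i ^ 2 + c j ^ 2) / 2) := by
    intro i j
    have hη0 : 0 ≤ η * ((c i ^ 2 + c j ^ 2) / 2) := by
      have hK : 0 ≤ K := (abs_nonneg _).trans (R.bd ω i)
      have : 0 ≤ η := by rw [hη]; positivity
      positivity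
    by_cases hij : i = j
    · rw [if_pos hij, hij]
      have : cE T (𝓕.F m) (fun a => zt s j a * zt s j a) ω = 1 := by
        have e : (fun a => zt s j a * zt s j a) = fun _ => (1 : ℝ) := by
          funext a; rw [← sq]; exact zt_sq R j a
        rw [e, cE_const hT]
      rw [this]
      rw [hij] at hη0
      linarith [hη0]
    · rw [if_neg hij, zero_add]
      have h1 := row_cross R hij ω
      rw [← hTdef] at h1
      refine (le_abs_self _).trans ?_
      rw [abs_mul]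
      have h2 : |c i * c j| ≤ (c i ^ 2 + c j ^ 2) / 2 := by
        rw [abs_mul]
        nlinarith [sq_nonneg (|c i| - |c j|), sq_abs (c i), sq_abs (c j)]
      calc |c i * c j| * |cE T (𝓕.F m) (fun a => zt s i a * zt s j a) ω| ≤
            ((c i ^ 2 + c j ^ 2) / 2) * η :=
            mul_le_mul h2 h1 (abs_nonneg _) (by positivity)
        _ = _ := mul_comm _ _
  have hsum : ∑ i, ∑ j, (c i * c j) * cE T (𝓕.F m) (fun a => zt s i a * zt s j a) ω ≤
      ∑ i, c i ^ 2 + η * ((Fintype.card κ) * ∑ i, c i ^ 2) := by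
    refine (Finset.sum_le_sum fun i _ => Finset.sum_le_sum fun j _ => hterm i j).trans
      (le_of_eq ?_)
    have a1 : ∀ i, ∑ j, (if i = j then c i ^ 2 else 0) = c i ^ 2 := fun i => by
      rw [Finset.sum_ite_eq]; simp
    simp_rw [Finset.sum_add_distrib, a1, ← Finset.mul_sum, ← Finset.sum_div,
      Finset.sum_add_distrib, Finset.sum_const, Finset.card_univ, nsmul_eq_mul]
    rw [← Finset.mul_sum]
    ring
  have e3 : ∑ i, cc T 𝓕 m s v l i ω ^ 2 = ∑ i, c i ^ 2 := rfl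
  rw [e3]
  nlinarith

/-- **(N1)** noise of one row of coins. -/
theorem noise_step (R : Row P 𝓕 x m s ι U v δ K) (hK : 0 ≤ K) :
    δ ^ 2 * x (m + 1) ^ 2 * pur (tl P 𝓕 x U) (𝓕.F m) v ≤
      eE (tl P 𝓕 x U) (fun ω => ∑ l, Dn (tl P 𝓕 x U) 𝓕 m v l ω ^ 2) +
        4785 * (Fintype.card κ : ℝ) ^ 3 * K ^ 5 * |δ| ^ 3 := by
  set T := tl P 𝓕 x U with hTdef
  have hT : IsProb T := tl_isProb (𝓕 := 𝓕) R.hP R.hx.pos U
  set n : ℝ := (Fintype.card κ : ℝ) with hn
  have hn0 : 0 ≤ n := Nat.cast_nonneg _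
  set d := |δ| with hd
  have hd0 : 0 ≤ d := abs_nonneg _
  have hdδ : δ ^ 2 = d ^ 2 := by rw [hd, sq_abs]
  have hsm : d * K ≤ 1 / 8 := R.small
  have hdK : 0 ≤ d * K := by positivity
  -- termwise
  have hterm : ∀ ω l i, δ ^ 2 * Gm T 𝓕 x m (m + 1) v l i ω ^ 2 ≤
      cc T 𝓕 m s v l i ω ^ 2 + 2184 * K ^ 5 * d ^ 3 ∧
      cc T 𝓕 m s v l i ω ^ 2 ≤ 289 * K ^ 4 * d ^ 2 := by
    intro ω l i
    have h1 := cc_sub_le R l i ω
    rw [← hTdef] at h1
    have h2 := abs_Gm_le (𝓕 := 𝓕) (k := m + 1) (m := m) hT R.hx R.hL R.bd hK l i ω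
    set a := δ * Gm T 𝓕 x m (m + 1) v l i ω with ha
    set c := cc T 𝓕 m s v l i ω with hc
    have h3 : |a| ≤ 4 * K ^ 2 * d := by
      rw [ha, abs_mul, ← hd]
      calc d * |Gm T 𝓕 x m (m + 1) v l i ω| ≤ d * (4 * K ^ 2) :=
            mul_le_mul_of_nonneg_left h2 hd0
        _ = 4 * K ^ 2 * d := by ring
    have h4 : |c - a| ≤ 104 * d ^ 2 * K ^ 3 := by rw [← hdδ]; exact h1
    have h5 : 104 * d ^ 2 * K ^ 3 ≤ 13 * K ^ 2 * d := by
      have : d ^ 2 * K ^ 3 = (d * K) * (d * K ^ 2) := by ring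
      have h6 : (d * K) * (d * K ^ 2) ≤ 1 / 8 * (d * K ^ 2) :=
        mul_le_mul_of_nonneg_right hsm (by positivity)
      nlinarith
    have h7 : |c| ≤ 17 * K ^ 2 * d := by
      have : |c| ≤ |c - a| + |a| := by
        have := abs_add_le (c - a) a
        rwa [sub_add_cancel] at this
      linarith
    constructor
    · have e : δ ^ 2 * Gm T 𝓕 x m (m + 1) v l i ω ^ 2 = a ^ 2 := by rw [ha]; ring
      rw [e]
      have h8 : |a + c| ≤ 21 * K ^ 2 * d := by
        have := abs_add_le a c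
        linarith
      have h9 : a ^ 2 - c ^ 2 ≤ |c - a| * |a + c| := by
        rw [← abs_mul]
        refine le_trans (le_of_eq ?_) (neg_le_abs _)
        ring
      have h10 : |c - a| * |a + c| ≤ (104 * d ^ 2 * K ^ 3) * (21 * K ^ 2 * d) :=
        mul_le_mul h4 h8 (abs_nonneg _) (by positivity)
      have e2 : (104 * d ^ 2 * K ^ 3) * (21 * K ^ 2 * d) = 2184 * K ^ 5 * d ^ 3 := by ring
      linarith
    · have := pow_le_pow_left₀ (abs_nonneg c) h7 2
      rw [sq_abs] at this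
      refine this.trans (le_of_eq ?_)
      ring
  -- pointwise
  have hpt : ∀ ω, δ ^ 2 * x (m + 1) ^ 2 * ∑ i, ∑ j, cvr T (𝓕.F m) v i j ω ^ 2 ≤
      cE T (𝓕.F m) (fun a => ∑ l, Dn T 𝓕 m v l a ^ 2) ω + 4785 * n ^ 3 * K ^ 5 * d ^ 3 := by
    intro ω
    have h1 := hs_ge (𝓕 := 𝓕) (k := m + 1) (m := m) hT R.hx (Nat.le_succ m) R.hL v ω
    have h2 : δ ^ 2 * ∑ i, ∑ l, Gm T 𝓕 x m (m + 1) v i l ω ^ 2 ≤
        ∑ l, ∑ i, cc T 𝓕 m s v l i ω ^ 2 + n ^ 2 * (2184 * K ^ 5 * d ^ 3) := by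
      rw [Finset.mul_sum]
      have : ∀ l, δ ^ 2 * ∑ i, Gm T 𝓕 x m (m + 1) v l i ω ^ 2 ≤
          ∑ i, cc T 𝓕 m s v l i ω ^ 2 + n * (2184 * K ^ 5 * d ^ 3) := by
        intro l
        rw [Finset.mul_sum]
        refine (Finset.sum_le_sum fun i _ => (hterm ω l i).1).trans (le_of_eq ?_)
        rw [Finset.sum_add_distrib, Finset.sum_const, Finset.card_univ, nsmul_eq_mul]
      refine (Finset.sum_le_sum fun l _ => this l).trans (le_of_eq ?_)
      rw [Finset.sum_add_distrib, Finset.sum_const, Finset.card_univ, nsmul_eq_mul]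
      ring
    have h3 : ∀ l, ∑ i, cc T 𝓕 m s v l i ω ^ 2 ≤
        cE T (𝓕.F m) (fun a => Dn T 𝓕 m v l a ^ 2) ω + 2601 * n ^ 2 * K ^ 5 * d ^ 3 := by
      intro l
      have hb := bessel R l ω
      rw [← hTdef, ← hd, ← hn] at hb
      have hc : ∑ i, cc T 𝓕 m s v l i ω ^ 2 ≤ n * (289 * K ^ 4 * d ^ 2) := by
        refine (Finset.sum_le_sum fun i _ => (hterm ω l i).2).trans (le_of_eq ?_)
        rw [Finset.sum_const, Finset.card_univ, nsmul_eq_mul]
      have hc2 : 9 * (d * K) * n * ∑ i, cc T 𝓕 m s v l i ω ^ 2 ≤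
          9 * (d * K) * n * (n * (289 * K ^ 4 * d ^ 2)) :=
        mul_le_mul_of_nonneg_left hc (by positivity)
      have e : 9 * (d * K) * n * (n * (289 * K ^ 4 * d ^ 2)) = 2601 * n ^ 2 * K ^ 5 * d ^ 3 := by
        ring
      linarith
    have h4 : ∑ l, ∑ i, cc T 𝓕 m s v l i ω ^ 2 ≤
        ∑ l, cE T (𝓕.F m) (fun a => Dn T 𝓕 m v l a ^ 2) ω + n * (2601 * n ^ 2 * K ^ 5 * d ^ 3) := by
      refine (Finset.sum_le_sum fun l _ => h3 l).trans (le_of_eq ?_)
      rw [Finset.sum_add_distrib, Finset.sum_const, Finset.card_univ, nsmul_eq_mul]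
    rw [cE_sum]
    have h5 : δ ^ 2 * (x (m + 1) ^ 2 * ∑ i, ∑ l, cvr T (𝓕.F m) v i l ω ^ 2) ≤
        δ ^ 2 * ∑ i, ∑ l, Gm T 𝓕 x m (m + 1) v i l ω ^ 2 :=
      mul_le_mul_of_nonneg_left h1 (sq_nonneg _)
    have h6 : n ^ 2 ≤ n ^ 3 := by
      rcases Nat.eq_zero_or_pos (Fintype.card κ) with h | h
      · rw [hn, h]; norm_num
      · have h1n : (1 : ℝ) ≤ n := by rw [hn]; exact_mod_cast h
        nlinarith [sq_nonneg n]
    have h7 : n ^ 2 * (2184 * K ^ 5 * d ^ 3) ≤ n ^ 3 * (2184 * K ^ 5 * d ^ 3) :=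
      mul_le_mul_of_nonneg_right h6 (by positivity)
    nlinarith
  have h := eE_mono hT hpt
  rw [eE_smul, eE_add, eE_cE hT, eE_const hT] at h
  exact h

omit [Fintype κ] in
/-- orthogonality of the increments -/
theorem eE_Dn_sq (hT : IsProb P) (m : ℕ) (v : Ω → κ → ℝ) (l : κ) :
    eE P (fun ω => Dn P 𝓕 m v l ω ^ 2) =
      eE P (fun ω => cE P (𝓕.F (m + 1)) (fun b => v b l) ω ^ 2) -
        eE P (fun ω => cE P (𝓕.F m) (fun b => v b l) ω ^ 2) := by
  set M1 : Ω → ℝ := cE P (𝓕.F (m + 1)) (fun b => v b l) with hM1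
  set M0 : Ω → ℝ := cE P (𝓕.F m) (fun b => v b l) with hM0
  have e1 : eE P (fun ω => M0 ω * M1 ω) = eE P (fun ω => M0 ω ^ 2) := by
    rw [← eE_cE hT (𝓕.F m)]
    congr 1
    funext ω
    rw [cE_mul_left (cE_meas P (𝓕.F m) _), hM1, cE_tower hT (𝓕.anti m)]
    rw [sq]
  have e2 : eE P (fun ω => Dn P 𝓕 m v l ω ^ 2) =
      eE P (fun ω => M1 ω ^ 2) - 2 * eE P (fun ω => M0 ω * M1 ω) + eE P (fun ω => M0 ω ^ 2) := by
    rw [← eE_smul, ← eE_sub, ← eE_add]
    congr 1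
    funext ω
    unfold Dn
    rw [← hM1, ← hM0]
    ring
  rw [e2, e1]; ring

/-- **(N2)** noise of one cell of `n` rows of coins with the same strength. -/
theorem noise_cell {n m0 : ℕ} {s : ℕ → κ → Ω → ℝ} {ι : ℕ → κ → Ω → Ω}
    (R : ∀ t < n, Row P 𝓕 x (m0 + t) (s t) (ι t) U v δ K) (hP : IsProb P) (hx : IsExpo x)
    (hK : 0 ≤ K) {y : ℝ} (hy : 0 ≤ y)
    (hxy : ∀ t < n, y ≤ x (m0 + t + 1)) :
    δ ^ 2 * y ^ 2 * ∑ t ∈ range n, pur (tl P 𝓕 x U) (𝓕.F (m0 + t)) v ≤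
      eE (tl P 𝓕 x U) (fun ω => ∑ l, v ω l ^ 2) +
        n * (4785 * (Fintype.card κ : ℝ) ^ 3 * K ^ 5 * |δ| ^ 3) := by
  set T := tl P 𝓕 x U with hTdef
  have hT : IsProb T := tl_isProb (𝓕 := 𝓕) hP hx.pos U
  set e : ℝ := 4785 * (Fintype.card κ : ℝ) ^ 3 * K ^ 5 * |δ| ^ 3 with he
  have hstep : ∀ t ∈ range n, δ ^ 2 * y ^ 2 * pur T (𝓕.F (m0 + t)) v ≤
      (∑ l, (eE T (fun ω => cE T (𝓕.F (m0 + (t + 1))) (fun b => v b l) ω ^ 2) -
        eE T (fun ω => cE T (𝓕.F (m0 + t)) (fun b => v b l) ω ^ 2))) + e := by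
    intro t ht
    have ht' := Finset.mem_range.mp ht
    have h := noise_step (R t ht') hK
    rw [← hTdef, ← he, eE_sum] at h
    simp_rw [eE_Dn_sq (𝓕 := 𝓕) hT (m0 + t) v] at h
    refine le_trans ?_ h
    refine mul_le_mul_of_nonneg_right ?_ (pur_nonneg hT v)
    refine mul_le_mul_of_nonneg_left ?_ (sq_nonneg _)
    exact pow_le_pow_left₀ hy (hxy t ht') 2
  rw [Finset.mul_sum]
  refine (Finset.sum_le_sum hstep).trans ?_
  rw [Finset.sum_add_distrib, Finset.sum_const, Finset.card_range, nsmul_eq_mul]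
  refine add_le_add ?_ le_rfl
  rw [Finset.sum_comm, eE_sum]
  refine Finset.sum_le_sum fun l _ => ?_
  have htel := Finset.sum_range_sub (fun t => eE T (fun ω =>
    cE T (𝓕.F (m0 + t)) (fun b => v b l) ω ^ 2)) n
  rw [htel]
  have h1 : 0 ≤ eE T (fun ω => cE T (𝓕.F (m0 + 0)) (fun b => v b l) ω ^ 2) :=
    eE_nonneg hT fun _ => sq_nonneg _
  have h2 : eE T (fun ω => cE T (𝓕.F (m0 + n)) (fun b => v b l) ω ^ 2) ≤
      eE T (fun ω => v ω l ^ 2) := by
    rw [← eE_cE hT (𝓕.F (m0 + n)) (fun ω => v ω l ^ 2)]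
    exact eE_mono hT fun ω => cE_sq_le hT _ _ _
  linarith

end step

end

end Crest.Agent.R146.Noise_143
end

-- ▼ part R146/Noise2_143

/-!
Row 146, S0206, node NOISE, part 2: the noise lemma for the system of `S6Def_988`, averaged over the
rows, choice of a good step, and the pair-overlap form used by `S6U_988.STR`.
-/

set_option autoImplicit false

namespace Crest.Agent.R146.Noise2_143

open Finset MeasureTheory ProbabilityTheory
open Crest.Agent.R141 hiding prior sv UU Om fil frel cflip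
open Crest.Agent.R164.CavG hiding zf
open Crest.Agent.R146.S6Def_988 Crest.Agent.R146.S6U_988 Crest.Agent.R146.Noise_143

noncomputable section

variable {N : ℕ} (C : Cfg N) (nc n : ℕ)

/-! ### The prior, the exponents -/

theorem prior_isProb : IsProb (prior C nc n) := by
  constructor
  · intro ω
    unfold prior
    have h1 := C.hq.pos ω.1
    have h2 : 0 < Fintype.card (Coins nc n N) := Fintype.card_pos
    positivity
  · unfold prior
    rw [Fintype.sum_prod_type]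
    have h2 : (Fintype.card (Coins nc n N) : ℝ) ≠ 0 := by
      have : 0 < Fintype.card (Coins nc n N) := Fintype.card_pos
      positivity
    simp only [Finset.sum_const, Finset.card_univ, nsmul_eq_mul]
    rw [← C.hq.sum]
    refine Finset.sum_congr rfl fun y _ => ?_
    field_simp

theorem xs_expo : IsExpo (xs nc n) := by
  refine ⟨fun k => ?_, fun a b hab => ?_, fun k => min_le_left _ _⟩
  · unfold xs
    refine lt_min one_pos ?_
    positivity
  · unfold xs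
    refine min_le_min le_rfl ?_
    have h : (a - 1) / n + 1 ≤ (b - 1) / n + 1 :=
      Nat.add_le_add_right (Nat.div_le_div_right (Nat.sub_le_sub_right hab 1)) 1
    have h' : (((a - 1) / n + 1 : ℕ) : ℝ) ≤ (((b - 1) / n + 1 : ℕ) : ℝ) := by exact_mod_cast h
    exact div_le_div_of_nonneg_right h' (by positivity)

theorem xs_cell (g : Fin nc) {t : ℕ} (ht : t < n) :
    xs nc n ((g : ℕ) * n + t + 1) = ((g : ℝ) + 1) / ((nc : ℝ) + 1) := by
  unfold xs
  have h1 : ((g : ℕ) * n + t + 1 - 1) / n = g := by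
    rw [Nat.add_sub_cancel, mul_comm, Nat.mul_add_div (by omega), Nat.div_eq_of_lt ht, add_zero]
  rw [h1]
  push_cast
  refine min_eq_right ?_
  rw [div_le_one (by positivity)]
  have : ((g : ℕ) : ℝ) ≤ nc := by exact_mod_cast g.2.le
  linarith

theorem fil_L : (fil C nc n).L = nc * n + 1 := rfl

/-! ### The coins -/

/-- flip of one coin -/
def cflip (g : Fin nc) (t : Fin n) (i : Fin N) (c : Coins nc n N) : Coins nc n N :=
  Function.update c g (Function.update (c g) t (Function.update (c g t) i (!(c g t i))))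

variable {nc n}

theorem cflip_same (g : Fin nc) (t : Fin n) (i : Fin N) (c : Coins nc n N) :
    cflip nc n g t i c g t i = !(c g t i) := by
  simp [cflip]

theorem cflip_row (g : Fin nc) (t : Fin n) (i : Fin N) (c : Coins nc n N) (g' : Fin nc)
    (t' : Fin n) (h : (g', t') ≠ (g, t)) : cflip nc n g t i c g' t' = c g' t' := by
  unfold cflip
  by_cases hg : g' = g
  · subst hg
    have ht : t' ≠ t := fun h' => h (by rw [h'])
    rw [Function.update_self, Function.update_of_ne ht]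
  · rw [Function.update_of_ne hg]

theorem cflip_coord (g : Fin nc) (t : Fin n) (i : Fin N) (c : Coins nc n N) (j : Fin N)
    (h : j ≠ i) : cflip nc n g t i c g t j = c g t j := by
  unfold cflip
  rw [Function.update_self, Function.update_self, Function.update_of_ne h]

theorem cflip_invol (g : Fin nc) (t : Fin n) (i : Fin N) (c : Coins nc n N) :
    cflip nc n g t i (cflip nc n g t i c) = c := by
  funext g' t'
  by_cases h : (g', t') = (g, t)
  · obtain ⟨rfl, rfl⟩ := Prod.mk.inj h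
    funext j
    by_cases hj : j = i
    · subst hj
      rw [cflip_same, cflip_same, Bool.not_not]
    · rw [cflip_coord _ _ _ _ _ hj, cflip_coord _ _ _ _ _ hj]
  · rw [cflip_row _ _ _ _ _ _ h, cflip_row _ _ _ _ _ _ h]

/-- coin value -/
def cval (g : Fin nc) (t : Fin n) (i : Fin N) (ω : Om C nc n) : ℝ := if ω.2 g t i = true then 1 else 0

/-- flip on the system -/
def oflip (g : Fin nc) (t : Fin n) (i : Fin N) (ω : Om C nc n) : Om C nc n :=
  (ω.1, cflip nc n g t i ω.2)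

theorem coin_inst (g : Fin nc) (t : Fin n) (i : Fin N) :
    Coin (prior C nc n) (fil C nc n) ((g : ℕ) * n + t + 1) (cval C g t i) (oflip C g t i) where
  invol ω := by
    unfold oflip
    rw [cflip_invol]
  P_flip ω := rfl
  s01 ω := by unfold cval; split_ifs <;> simp
  s_flip ω := by
    unfold cval
    have h1 : (oflip C g t i ω).2 g t i = !(ω.2 g t i) := cflip_same g t i ω.2
    simp only [h1]
    cases h : ω.2 g t i <;> simp
  s_meas := by
    intro ω ω' h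
    have h : frel C nc n _ ω ω' := h
    unfold cval
    rw [h.1 g t (by omega)]
  flip_rel l hl a b h := by
    have h : frel C nc n l a b := h
    show frel C nc n l _ _
    refine ⟨fun g' t' hg => ?_, fun hL => h.2 hL⟩
    simp only [oflip]
    by_cases hgt : (g', t') = (g, t)
    · obtain ⟨rfl, rfl⟩ := Prod.mk.inj hgt
      have hr := h.1 g' t' hg
      funext j
      by_cases hj : j = i
      · subst hj
        rw [cflip_same, cflip_same, hr]
      · rw [cflip_coord _ _ _ _ _ hj, cflip_coord _ _ _ _ _ hj, hr]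
    · rw [cflip_row _ _ _ _ _ _ hgt, cflip_row _ _ _ _ _ _ hgt]
      exact h.1 g' t' hg
  rel_flip ω := by
    show frel C nc n _ _ _
    rw [Nat.add_sub_cancel]
    refine ⟨fun g' t' hg => ?_, fun hL => rfl⟩
    simp only [oflip]
    rw [cflip_row]
    intro h
    obtain ⟨rfl, rfl⟩ := Prod.mk.inj h
    omega

theorem sv_eq (b : Bool) : sv b = 2 * (if b = true then (1 : ℝ) else 0) - 1 := by
  unfold sv
  cases b <;> norm_num

/-- the field after a flip -/
theorem zf_flip (g : Fin nc) (t : Fin n) (i : Fin N) (c : Coins nc n N) (g' : Fin nc) (j : Fin N) :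
    zf (cflip nc n g t i c) g' j =
      zf c g' j - (if g' = g ∧ j = i then 2 * (Real.sqrt n)⁻¹ * sv (c g t i) else 0) := by
  unfold zf
  by_cases h : g' = g ∧ j = i
  · obtain ⟨rfl, rfl⟩ := h
    rw [if_pos ⟨rfl, rfl⟩]
    have h1 : ∑ t', sv (cflip nc n g' t j c g' t' j) = ∑ t', sv (c g' t' j) - 2 * sv (c g' t j) := by
      rw [← Finset.add_sum_erase _ _ (Finset.mem_univ t),
        ← Finset.add_sum_erase _ (fun t' => sv (c g' t' j)) (Finset.mem_univ t), cflip_same]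
      have h2 : ∑ t' ∈ univ.erase t, sv (cflip nc n g' t j c g' t' j) =
          ∑ t' ∈ univ.erase t, sv (c g' t' j) := by
        refine Finset.sum_congr rfl fun t' ht' => ?_
        rw [cflip_row]
        intro h3
        exact Finset.ne_of_mem_erase ht' (Prod.mk.inj h3).2
      rw [h2]
      have h3 : sv (!(c g' t j)) = - sv (c g' t j) := by
        cases c g' t j <;> simp [sv]
      rw [h3]; ring
    rw [h1]; ring
  · rw [if_neg h, sub_zero]
    congr 1
    refine Finset.sum_congr rfl fun t' _ => ?_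
    by_cases h2 : (g', t') = (g, t)
    · obtain ⟨rfl, rfl⟩ := Prod.mk.inj h2
      have hj : j ≠ i := fun h3 => h ⟨rfl, h3⟩
      rw [cflip_coord _ _ _ _ _ hj]
    · rw [cflip_row _ _ _ _ _ _ h2]

theorem UU_flip {M : ℕ} (f : ℕ → ℝ → ℝ) (G : Fin M → Fin N → ℝ) (s : Fin nc → ℝ) (g : Fin nc)
    (t : Fin n) (i : Fin N) (ω : Om C nc n) :
    UU f G s (oflip C g t i ω) =
      UU f G s ω - 2 * ((Real.sqrt n)⁻¹ * s g) * (2 * cval C g t i ω - 1) * C.x ω.1 i := by
  unfold UU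
  have h1 : (oflip C g t i ω).1 = ω.1 := rfl
  have h2 : (oflip C g t i ω).2 = cflip nc n g t i ω.2 := rfl
  have h3 : 2 * cval C g t i ω - 1 = sv (ω.2 g t i) := by
    unfold cval; rw [sv_eq]
  rw [h1, h3]
  have h4 : fieldE s (oflip C g t i ω) = fieldE s ω -
      2 * ((Real.sqrt n)⁻¹ * s g) * sv (ω.2 g t i) * C.x ω.1 i := by
    unfold fieldE
    rw [h1, h2]
    have h5 : ∀ g', s g' * ∑ j, zf (cflip nc n g t i ω.2) g' j * C.x ω.1 j =
        s g' * ∑ j, zf ω.2 g' j * C.x ω.1 j -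
          (if g' = g then 2 * ((Real.sqrt n)⁻¹ * s g) * sv (ω.2 g t i) * C.x ω.1 i else 0) := by
      intro g'
      simp_rw [zf_flip, sub_mul, Finset.sum_sub_distrib, mul_sub]
      congr 1
      by_cases hg : g' = g
      · subst hg
        rw [if_pos rfl]
        have h6 : ∀ j, (if g' = g' ∧ j = i then 2 * (Real.sqrt n)⁻¹ * sv (ω.2 g' t i) else 0) *
            C.x ω.1 j = if j = i then 2 * (Real.sqrt n)⁻¹ * sv (ω.2 g' t i) * C.x ω.1 j else 0 := by
          intro j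
          by_cases hj : j = i <;> simp [hj]
        rw [Finset.sum_congr rfl fun j _ => h6 j]
        rw [Finset.sum_ite_eq' univ i]
        simp only [Finset.mem_univ, if_true]
        ring
      · rw [if_neg hg]
        have h6 : ∀ j, (if g' = g ∧ j = i then 2 * (Real.sqrt n)⁻¹ * sv (ω.2 g t i) else 0) *
            C.x ω.1 j = 0 := by
          intro j
          rw [if_neg (fun h => hg h.1), zero_mul]
        simp_rw [h6, Finset.sum_const_zero, mul_zero]
    simp_rw [h5, Finset.sum_sub_distrib]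
    congr 1
    rw [Finset.sum_ite_eq' univ g]
    simp
  rw [h4]; ring

theorem abs_x_le (y : C.Y) (i : Fin N) : |C.x y i| ≤ Real.sqrt N := by
  apply Real.abs_le_sqrt
  rw [← C.hx y]
  exact Finset.single_le_sum (f := fun i => C.x y i ^ 2) (fun _ _ => sq_nonneg _)
    (Finset.mem_univ i)

/-- the row of coins `(g, t)` satisfies the hypotheses of the noise lemma. -/
theorem row_inst {M : ℕ} (f : ℕ → ℝ → ℝ) (G : Fin M → Fin N → ℝ) (s : Fin nc → ℝ) (g : Fin nc)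
    (t : Fin n) (hs : 8 * (|s g| * Real.sqrt N) ≤ Real.sqrt n) :
    Row (prior C nc n) (fil C nc n) (xs nc n) ((g : ℕ) * n + t) (cval C g t) (oflip C g t)
      (UU (C := C) f G s) (fun ω => C.x ω.1) ((Real.sqrt n)⁻¹ * s g) (Real.sqrt N) where
  hP := prior_isProb C nc n
  hx := xs_expo nc n
  hL := by
    rw [fil_L]
    have h1 : ((g : ℕ) + 1) * n ≤ nc * n := Nat.mul_le_mul_right n g.2
    have h2 := t.2
    have h3 : (g : ℕ) * n + n = ((g : ℕ) + 1) * n := by ring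
    omega
  coin i := coin_inst C g t i
  cross i j hij ω := by
    unfold cval
    have h1 : (oflip C g t i ω).2 g t j = ω.2 g t j := cflip_coord g t i ω.2 j (Ne.symm hij)
    simp only [h1]
  inv i ω := rfl
  en i ω := UU_flip C f G s g t i ω
  bd ω i := abs_x_le C ω.1 i
  small := by
    have hn : 0 < n := Fin.pos t
    have hsn : 0 < Real.sqrt n := Real.sqrt_pos.mpr (by exact_mod_cast hn)
    rw [abs_mul, abs_of_pos (inv_pos.mpr hsn), mul_assoc]
    calc (Real.sqrt n)⁻¹ * (|s g| * Real.sqrt N) ≤ (Real.sqrt n)⁻¹ * (Real.sqrt n / 8) := by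
          refine mul_le_mul_of_nonneg_left ?_ (inv_pos.mpr hsn).le
          linarith
      _ = 1 / 8 := by field_simp


theorem QQ_isProb {M : ℕ} (f : ℕ → ℝ → ℝ) (G : Fin M → Fin N → ℝ) (s : Fin nc → ℝ) :
    IsProb (QQ C nc n f G s) :=
  tl_isProb (prior_isProb C nc n) (xs_expo nc n).pos _

theorem pur_scale {Ω κ : Type*} [Fintype Ω] [Fintype κ] (P : Ω → ℝ) (r : Setoid Ω)
    (x : Ω → κ → ℝ) (c : ℝ) :
    pur P r (fun ω i => c * x ω i) = c ^ 4 * pur P r x := by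
  unfold pur
  rw [← eE_smul]
  congr 1
  funext ω
  rw [Finset.mul_sum]
  refine Finset.sum_congr rfl fun i _ => ?_
  rw [Finset.mul_sum]
  refine Finset.sum_congr rfl fun j _ => ?_
  have h1 : cvr P r (fun ω i => c * x ω i) i j ω = c ^ 2 * cvr P r x i j ω := by
    unfold cvr
    rw [← cE_smul]
    congr 1
    funext a
    unfold dv cEv
    rw [cE_smul, cE_smul]
    ring
  rw [h1]; ring

/-- **(N3)** noise in the cell `g`, pointwise in the rows, unnormalised. -/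
theorem noise_sys {M : ℕ} (f : ℕ → ℝ → ℝ) (G : Fin M → Fin N → ℝ) (s : Fin nc → ℝ) (g : Fin nc)
    (hn : 0 < n) (hs : 8 * (|s g| * Real.sqrt N) ≤ Real.sqrt n) :
    (s g ^ 2 / n) * (((g : ℝ) + 1) / ((nc : ℝ) + 1)) ^ 2 *
      ∑ t ∈ range n, pur (QQ C nc n f G s) ((fil C nc n).F ((g : ℕ) * n + t))
        (fun ω => C.x ω.1) ≤
      N + 4785 * (N : ℝ) ^ 3 * Real.sqrt N ^ 5 * |s g| ^ 3 / Real.sqrt n := by
  have hn0 : (0 : ℝ) < n := by exact_mod_cast hn
  have hsn : 0 < Real.sqrt n := Real.sqrt_pos.mpr hn0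
  have hss : Real.sqrt n ^ 2 = n := Real.sq_sqrt hn0.le
  have h := noise_cell (P := prior C nc n) (𝓕 := fil C nc n) (x := xs nc n) (n := n)
    (m0 := (g : ℕ) * n) (U := UU (C := C) f G s) (v := fun ω => C.x ω.1)
    (δ := (Real.sqrt n)⁻¹ * s g) (K := Real.sqrt N)
    (s := fun t => if h : t < n then cval C g ⟨t, h⟩ else fun _ _ => 0)
    (ι := fun t => if h : t < n then oflip C g ⟨t, h⟩ else fun _ ω => ω)
    (fun t ht => by
      simp only [dif_pos ht]
      exact row_inst C f G s g ⟨t, ht⟩ hs)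
    (prior_isProb C nc n) (xs_expo nc n) (Real.sqrt_nonneg _)
    (y := ((g : ℝ) + 1) / ((nc : ℝ) + 1)) (by positivity)
    (fun t ht => (xs_cell nc n g ht).ge)
  have e1 : ((Real.sqrt n)⁻¹ * s g) ^ 2 = s g ^ 2 / n := by
    rw [mul_pow, inv_pow, hss]; field_simp
  have e2 : eE (tl (prior C nc n) (fil C nc n) (xs nc n) (UU (C := C) f G s))
      (fun ω => ∑ l, C.x ω.1 l ^ 2) = N := by
    have hQ := QQ_isProb C (nc := nc) (n := n) f G s
    have : (fun ω : Om C nc n => ∑ l, C.x ω.1 l ^ 2) = fun _ => (N : ℝ) :=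
      funext fun ω => C.hx ω.1
    rw [this]
    exact eE_const hQ _
  have e3 : (n : ℝ) * (4785 * (Fintype.card (Fin N) : ℝ) ^ 3 * Real.sqrt N ^ 5 *
      |(Real.sqrt n)⁻¹ * s g| ^ 3) =
      4785 * (N : ℝ) ^ 3 * Real.sqrt N ^ 5 * |s g| ^ 3 / Real.sqrt n := by
    rw [Fintype.card_fin, abs_mul, abs_of_pos (inv_pos.mpr hsn), mul_pow]
    have : (n : ℝ) * ((Real.sqrt n)⁻¹ ^ 3) = 1 / Real.sqrt n := by
      rw [← hss]
      have h2 : Real.sqrt (Real.sqrt n ^ 2) = Real.sqrt n := Real.sqrt_sq hsn.le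
      rw [h2]
      field_simp
    calc (n : ℝ) * (4785 * (N : ℝ) ^ 3 * Real.sqrt N ^ 5 * ((Real.sqrt n)⁻¹ ^ 3 * |s g| ^ 3)) =
          4785 * (N : ℝ) ^ 3 * Real.sqrt N ^ 5 * |s g| ^ 3 * (n * ((Real.sqrt n)⁻¹ ^ 3)) := by ring
      _ = _ := by rw [this]; ring
  rw [e1, e2, e3] at h
  exact h

/-! ### Measurability in the rows -/

section meas

variable {Z Ω κ : Type*} [MeasurableSpace Z] [Fintype Ω] [Fintype κ]

theorem meas_cE {P : Z → Ω → ℝ} {f : Z → Ω → ℝ} (hP : ∀ ω, Measurable fun z => P z ω)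
    (hf : ∀ ω, Measurable fun z => f z ω) (r : Setoid Ω) (ω : Ω) :
    Measurable fun z => cE (P z) r (f z) ω := by
  unfold cE
  exact (Finset.measurable_sum _ fun a _ => (hP a).mul (hf a)).div
    (Finset.measurable_sum _ fun a _ => hP a)

theorem meas_eE {P : Z → Ω → ℝ} {f : Z → Ω → ℝ} (hP : ∀ ω, Measurable fun z => P z ω)
    (hf : ∀ ω, Measurable fun z => f z ω) : Measurable fun z => eE (P z) (f z) := by
  unfold eE
  exact Finset.measurable_sum _ fun a _ => (hP a).mul (hf a)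

theorem meas_A (P : Ω → ℝ) (𝓕 : Filt Ω) (x : ℕ → ℝ) {U : Z → Ω → ℝ}
    (hU : ∀ ω, Measurable fun z => U z ω) (k : ℕ) :
    ∀ ω, Measurable fun z => A P 𝓕 x (U z) k ω := by
  have h : ∀ j ω, Measurable fun z => Crest.Agent.R141.Ab P 𝓕 x (U z) j ω := by
    intro j
    induction j with
    | zero => intro ω; exact hU ω
    | succ j ih =>
      intro ω
      unfold Crest.Agent.R141.Ab pm
      refine Measurable.const_mul (Measurable.log ?_) _
      exact meas_cE (P := fun _ => P) (fun _ => measurable_const)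
        (fun a => ((ih a).const_mul _).exp) _ ω
  intro ω
  exact h _ ω

theorem meas_tl (P : Ω → ℝ) (𝓕 : Filt Ω) (x : ℕ → ℝ) {U : Z → Ω → ℝ}
    (hU : ∀ ω, Measurable fun z => U z ω) (ω : Ω) : Measurable fun z => tl P 𝓕 x (U z) ω := by
  unfold tl S
  refine Measurable.const_mul (Measurable.exp ?_) _
  refine Finset.measurable_sum _ fun l _ => ?_
  exact ((meas_A P 𝓕 x hU (l + 1) ω).sub (meas_A P 𝓕 x hU l ω)).const_mul _

theorem meas_pur {P : Z → Ω → ℝ} (hP : ∀ ω, Measurable fun z => P z ω) (r : Setoid Ω)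
    (x : Ω → κ → ℝ) : Measurable fun z => pur (P z) r x := by
  unfold pur
  refine meas_eE hP fun ω => ?_
  refine Finset.measurable_sum _ fun i _ => Finset.measurable_sum _ fun j _ => ?_
  refine Measurable.pow_const ?_ 2
  unfold cvr
  refine meas_cE hP (fun a => ?_) r ω
  unfold dv cEv
  have h : ∀ k, Measurable fun z => cE (P z) r (fun a => x a k) ω := fun k =>
    meas_cE (f := fun _ a => x a k) hP (fun _ => measurable_const) r ω
  exact ((h i).const_sub _).mul ((h j).const_sub _)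

theorem pur_le {P : Ω → ℝ} (hP : IsProb P) (r : Setoid Ω) {x : Ω → κ → ℝ} {K : ℝ} (hK : 0 ≤ K)
    (hx : ∀ ω i, |x ω i| ≤ K) : pur P r x ≤ (Fintype.card κ : ℝ) ^ 2 * (16 * K ^ 4) := by
  unfold pur
  refine eE_le_of_le hP fun ω => ?_
  have h : ∀ i j, cvr P r x i j ω ^ 2 ≤ 16 * K ^ 4 := by
    intro i j
    have h1 : |cvr P r x i j ω| ≤ 4 * K ^ 2 := by
      unfold cvr
      refine abs_cE_le_of_le hP (fun a => ?_) ω
      rw [abs_mul]
      calc |dv P r x ω a i| * |dv P r x ω a j| ≤ (2 * K) * (2 * K) :=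
            mul_le_mul (abs_dv_le hP hx ω a i) (abs_dv_le hP hx ω a j) (abs_nonneg _)
              (by positivity)
        _ = 4 * K ^ 2 := by ring
    have := pow_le_pow_left₀ (abs_nonneg _) h1 2
    rw [sq_abs] at this
    refine this.trans (le_of_eq (by ring))
  refine (Finset.sum_le_sum fun i _ => Finset.sum_le_sum fun j _ => h i j).trans (le_of_eq ?_)
  rw [Finset.sum_const, Finset.sum_const, Finset.card_univ, nsmul_eq_mul, nsmul_eq_mul]
  ring

end meas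

theorem meas_UU {M : ℕ} {f : ℕ → ℝ → ℝ} (hf : ∀ a, Measurable (f a)) (s : Fin nc → ℝ)
    (ω : Om C nc n) : Measurable fun G : Fin M → Fin N → ℝ => UU (C := C) f G s ω := by
  unfold UU rowE
  refine Measurable.add_const ?_ _
  refine Finset.measurable_sum _ fun a _ => (hf _).comp ?_
  exact Finset.measurable_sum _ fun i _ => by fun_prop

theorem meas_QQ {M : ℕ} {f : ℕ → ℝ → ℝ} (hf : ∀ a, Measurable (f a)) (s : Fin nc → ℝ)
    (ω : Om C nc n) : Measurable fun G : Fin M → Fin N → ℝ => QQ C nc n f G s ω :=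
  meas_tl _ _ _ (fun ω => meas_UU C hf s ω) ω

instance (M N : ℕ) : IsProbabilityMeasure (gam M N) := by unfold gam; infer_instance

theorem integrable_pur {M : ℕ} {f : ℕ → ℝ → ℝ} (hf : ∀ a, Measurable (f a)) (s : Fin nc → ℝ)
    (r : Setoid (Om C nc n)) {κ : Type*} [Fintype κ] (x : Om C nc n → κ → ℝ) {K : ℝ}
    (hK : 0 ≤ K) (hx : ∀ ω i, |x ω i| ≤ K) :
    Integrable (fun G : Fin M → Fin N → ℝ => pur (QQ C nc n f G s) r x) (gam M N) := by
  refine Integrable.of_bound (C := (Fintype.card κ : ℝ) ^ 2 * (16 * K ^ 4))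
    (meas_pur (fun ω => meas_QQ C hf s ω) r x).aestronglyMeasurable ?_
  refine Filter.Eventually.of_forall fun G => ?_
  have hQ := QQ_isProb C (nc := nc) (n := n) f G s
  rw [Real.norm_eq_abs, abs_of_nonneg (pur_nonneg hQ x)]
  exact pur_le hQ r hK hx

/-- **(N4)** averaged over the rows, normalised: some step of the cell `g` is good. -/
theorem exists_step {M : ℕ} {f : ℕ → ℝ → ℝ} (hf : ∀ a, Measurable (f a)) (s : Fin nc → ℝ)
    (g : Fin nc) (hN : 0 < N) (hn : 0 < n) (hsg : 0 < s g)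
    (hs : 8 * (s g * Real.sqrt N) ≤ Real.sqrt n) :
    ∃ t < n, ∫ G, pur (QQ C nc n (M := M) f G s) ((fil C nc n).F (st n g + t))
        (fun w i => C.x w.1 i / Real.sqrt N) ∂(gam M N) ≤
      (((nc : ℝ) + 1) / (((g : ℝ) + 1) * s g)) ^ 2 *
        ((N : ℝ)⁻¹ + 4785 * N * Real.sqrt N ^ 5 * s g ^ 3 / Real.sqrt n) := by
  have hn0 : (0 : ℝ) < n := by exact_mod_cast hn
  have hN0 : (0 : ℝ) < N := by exact_mod_cast hN
  have hsN : 0 < Real.sqrt N := Real.sqrt_pos.mpr hN0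
  have hsn : 0 < Real.sqrt n := Real.sqrt_pos.mpr hn0
  have hssN : Real.sqrt N ^ 2 = N := Real.sq_sqrt hN0.le
  set B : ℝ := (((nc : ℝ) + 1) / (((g : ℝ) + 1) * s g)) ^ 2 *
        ((N : ℝ)⁻¹ + 4785 * N * Real.sqrt N ^ 5 * s g ^ 3 / Real.sqrt n) with hB
  set I : ℕ → ℝ := fun t => ∫ G, pur (QQ C nc n (M := M) f G s) ((fil C nc n).F (st n g + t))
        (fun w i => C.x w.1 i / Real.sqrt N) ∂(gam M N) with hI
  have hbd : ∀ (ω : Om C nc n) i, |C.x ω.1 i / Real.sqrt N| ≤ 1 := by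
    intro ω i
    rw [abs_div, abs_of_pos hsN, div_le_one hsN]
    exact abs_x_le C ω.1 i
  have hint : ∀ t, Integrable (fun G : Fin M → Fin N → ℝ => pur (QQ C nc n f G s)
      ((fil C nc n).F (st n g + t)) (fun w i => C.x w.1 i / Real.sqrt N)) (gam M N) :=
    fun t => integrable_pur C hf s _ _ zero_le_one hbd
  -- pointwise bound of the sum
  have hpt : ∀ G : Fin M → Fin N → ℝ, ∑ t ∈ range n, pur (QQ C nc n f G s)
      ((fil C nc n).F (st n g + t)) (fun w i => C.x w.1 i / Real.sqrt N) ≤ n * B := by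
    intro G
    have h := noise_sys C f G s g hn (by rwa [abs_of_pos hsg])
    rw [abs_of_pos hsg] at h
    have e1 : ∀ t, pur (QQ C nc n f G s) ((fil C nc n).F (st n g + t))
        (fun w i => C.x w.1 i / Real.sqrt N) = ((N : ℝ)⁻¹) ^ 2 *
        pur (QQ C nc n f G s) ((fil C nc n).F ((g : ℕ) * n + t)) (fun ω => C.x ω.1) := by
      intro t
      have e2 : (fun (w : Om C nc n) i => C.x w.1 i / Real.sqrt N) =
          fun w i => (Real.sqrt N)⁻¹ * C.x w.1 i := by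
        funext w i; rw [div_eq_inv_mul]
      rw [e2, pur_scale]
      congr 1
      have : (Real.sqrt N)⁻¹ ^ 4 = ((Real.sqrt N ^ 2)⁻¹) ^ 2 := by
        rw [← inv_pow]; ring
      rw [this, hssN]
    simp_rw [e1]
    rw [← Finset.mul_sum]
    set Sg := ∑ t ∈ range n, pur (QQ C nc n f G s) ((fil C nc n).F ((g : ℕ) * n + t))
      (fun ω => C.x ω.1) with hSg
    set R : ℝ := N + 4785 * (N : ℝ) ^ 3 * Real.sqrt N ^ 5 * s g ^ 3 / Real.sqrt n with hR
    have hg1 : (0 : ℝ) < (g : ℝ) + 1 := by positivity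
    have hnc1 : (0 : ℝ) < (nc : ℝ) + 1 := by positivity
    have h2 : Sg ≤ n * ((((nc : ℝ) + 1) / (((g : ℝ) + 1) * s g)) ^ 2 * R) := by
      have h3 : Sg = n * ((((nc : ℝ) + 1) / (((g : ℝ) + 1) * s g)) ^ 2 *
          ((s g ^ 2 / n) * (((g : ℝ) + 1) / ((nc : ℝ) + 1)) ^ 2 * Sg)) := by
        field_simp
      rw [h3]
      refine mul_le_mul_of_nonneg_left (mul_le_mul_of_nonneg_left h (by positivity)) hn0.le
    have h4 : ((N : ℝ)⁻¹) ^ 2 * R =
        (N : ℝ)⁻¹ + 4785 * N * Real.sqrt N ^ 5 * s g ^ 3 / Real.sqrt n := by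
      rw [hR]; field_simp
    calc ((N : ℝ)⁻¹) ^ 2 * Sg ≤ ((N : ℝ)⁻¹) ^ 2 *
          (n * ((((nc : ℝ) + 1) / (((g : ℝ) + 1) * s g)) ^ 2 * R)) :=
          mul_le_mul_of_nonneg_left h2 (by positivity)
      _ = n * ((((nc : ℝ) + 1) / (((g : ℝ) + 1) * s g)) ^ 2 * (((N : ℝ)⁻¹) ^ 2 * R)) := by ring
      _ = n * B := by rw [h4]
  have hsum : ∑ t ∈ range n, I t ≤ n * B := by
    simp only [hI]
    rw [← integral_finsetSum _ fun t _ => hint t]
    have h1 := integral_mono (μ := gam M N) (integrable_finsetSum _ fun t _ => hint t)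
      (integrable_const (n * B)) hpt
    rwa [integral_const, probReal_univ, one_smul] at h1
  by_contra hcon
  push Not at hcon
  have h5 : ∑ t ∈ range n, B < ∑ t ∈ range n, I t := by
    refine Finset.sum_lt_sum_of_nonempty ⟨0, Finset.mem_range.mpr hn⟩ fun t ht => ?_
    exact hcon t (Finset.mem_range.mp ht)
  rw [Finset.sum_const, Finset.card_range, nsmul_eq_mul] at h5
  linarith

/-- **NOISE2** (form of helper649): in every cell there is a step at which the normalised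
configuration is `η`-pure, averaged over the rows. -/
theorem noise2 (nc : ℕ) (b0 A η : ℝ) (hb0 : 0 < b0) (hA : b0 < A) (hη : 0 < η) :
    ∃ (N0 : ℕ) (n0 : ℕ → ℕ), ∀ N, N0 ≤ N → ∀ n, n0 N ≤ n → ∀ (C : Cfg N) (f : ℕ → ℝ → ℝ) (M : ℕ),
      (∀ a, Measurable (f a)) → ∀ s : Fin nc → ℝ, (∀ g, b0 ≤ s g ∧ s g ≤ A) → ∀ g : Fin nc,
      ∃ t < n, ∫ G, pur (QQ C nc n (M := M) f G s) ((fil C nc n).F (st n g + t))
        (fun w i => C.x w.1 i / Real.sqrt N) ∂(gam M N) ≤ η := by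
  have hA0 : 0 < A := hb0.trans hA
  set R0 : ℝ := (((nc : ℝ) + 1) / b0) ^ 2 with hR0
  have hR0p : 0 < R0 := by positivity
  refine ⟨⌈2 * R0 / η⌉₊ + 1, fun N => ⌈(2 * R0 * (4785 * N * Real.sqrt N ^ 5 * A ^ 3) / η +
    8 * (A * Real.sqrt N)) ^ 2⌉₊ + 1, ?_⟩
  intro N hN n hn C f M hf s hs g
  have hn : ⌈(2 * R0 * (4785 * N * Real.sqrt N ^ 5 * A ^ 3) / η +
    8 * (A * Real.sqrt N)) ^ 2⌉₊ + 1 ≤ n := hn
  have hN1 : 0 < N := by omega
  have hn1 : 0 < n := lt_of_lt_of_le (Nat.succ_pos _) hn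
  have hN0 : (0 : ℝ) < N := by exact_mod_cast hN1
  have hn0 : (0 : ℝ) < n := by exact_mod_cast hn1
  have hsn : 0 < Real.sqrt n := Real.sqrt_pos.mpr hn0
  set q : ℝ := 2 * R0 * (4785 * N * Real.sqrt N ^ 5 * A ^ 3) / η with hq
  have hq0 : 0 ≤ q := by positivity
  have hr0 : 0 ≤ 8 * (A * Real.sqrt N) := by positivity
  have h1 : q + 8 * (A * Real.sqrt N) ≤ Real.sqrt n := by
    apply Real.le_sqrt_of_sq_le
    have h2 : ((⌈(q + 8 * (A * Real.sqrt N)) ^ 2⌉₊ + 1 : ℕ) : ℝ) ≤ n := Nat.cast_le.mpr hn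
    push_cast at h2
    have h3 := Nat.le_ceil ((q + 8 * (A * Real.sqrt N)) ^ 2)
    linarith
  have h4 : 2 * R0 / η ≤ N := by
    have h2 : ((⌈2 * R0 / η⌉₊ + 1 : ℕ) : ℝ) ≤ N := by exact_mod_cast hN
    push_cast at h2
    have h3 := Nat.le_ceil (2 * R0 / η)
    linarith
  have hsg := hs g
  have hsg0 : 0 < s g := hb0.trans_le hsg.1
  have hsm : 8 * (s g * Real.sqrt N) ≤ Real.sqrt n := by
    have : s g * Real.sqrt N ≤ A * Real.sqrt N :=
      mul_le_mul_of_nonneg_right hsg.2 (Real.sqrt_nonneg _)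
    linarith
  obtain ⟨t, ht, hle⟩ := exists_step C hf s g hN1 hn1 hsg0 hsm
  refine ⟨t, ht, hle.trans ?_⟩
  have h5 : (((nc : ℝ) + 1) / (((g : ℝ) + 1) * s g)) ^ 2 ≤ R0 := by
    rw [hR0]
    refine pow_le_pow_left₀ (by positivity) ?_ 2
    refine div_le_div_of_nonneg_left (by positivity) hb0 ?_
    have : (0 : ℝ) ≤ (g : ℝ) := Nat.cast_nonneg _
    nlinarith [hsg.1]
  have h6 : (N : ℝ)⁻¹ ≤ η / (2 * R0) := by
    rw [inv_le_comm₀ hN0 (by positivity), inv_div]
    exact h4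
  have h7 : 4785 * N * Real.sqrt N ^ 5 * s g ^ 3 / Real.sqrt n ≤ η / (2 * R0) := by
    rw [div_le_div_iff₀ hsn (by positivity)]
    have h8 : 4785 * N * Real.sqrt N ^ 5 * s g ^ 3 ≤ 4785 * N * Real.sqrt N ^ 5 * A ^ 3 := by
      refine mul_le_mul_of_nonneg_left (pow_le_pow_left₀ hsg0.le hsg.2 3) (by positivity)
    have h9 : q ≤ Real.sqrt n := by linarith
    rw [hq, div_le_iff₀ hη] at h9
    nlinarith
  have h8 : 0 ≤ (N : ℝ)⁻¹ + 4785 * N * Real.sqrt N ^ 5 * s g ^ 3 / Real.sqrt n := by positivity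
  calc (((nc : ℝ) + 1) / (((g : ℝ) + 1) * s g)) ^ 2 *
        ((N : ℝ)⁻¹ + 4785 * N * Real.sqrt N ^ 5 * s g ^ 3 / Real.sqrt n) ≤
        R0 * (η / (2 * R0) + η / (2 * R0)) :=
        mul_le_mul h5 (add_le_add h6 h7) h8 hR0p.le
    _ = η := by field_simp; ring

end

end Crest.Agent.R146.Noise2_143
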