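import Crest.Agent.R146.OvcA_679
import Crest.Agent.R164.OvConc
import Crest.Agent.R146.S6Ovl_382
import Crest.Agent.R146.S6Str_649
import Crest.Agent.R146.Noise2_143

-- ▼ part R146/OvcB_679
section

/-!
Row 146 (S0206), node CIBP, part B (helper679): classwise integration by parts for the field
observables of the sphere system `S6Def_988`.

* `ibp_rows`: summed integration by parts for `n` coins revealed at DIFFERENT steps which see the
  same increments of the exponents;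
* `ibp_zf`: the field `zf c g i`;
* `ibp_Dobs` (MAIN): for `|f| ≤ 1` invariant under the coins of the cell `g`, `l ≤ st n g`,
  `|E_l[D_g f] - s_g E_l[f T_g]| ≤ 52 s_g² N^{3/2} / √n`, `T_g = R164.OvC.Tg` with `B = univ`,
  `m g' = st n (g'+1)`, `w0 = (nc+1)⁻¹`: this is literally hypothesis `h` of `OvC.O1, O2, O4, O5`;
* `ibp_Dobs_one`: the case `f = 1`;
* `Sq_eq_one`: `N⁻¹ ∑ X_i² = 1`; `Tg_nc`: `T_{nc} = 1`; `abs_Tg_le`.
-/

set_option autoImplicit false

namespace Crest.Agent.R146.OvcB_679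

open Finset
open Crest.Agent.R141 (IsProb IsExpo Filt eE cE tl A S Coin RMeas tl_isProb cE_sum cE_smul cE_sub
  cE_bot cE_abs_le cE_const cE_mono' eE_mono eE_const eE_cE eE_smul eE_sub eE_add eE_sum)
open Crest.Agent.R164 (CoinIBP.ibp)
open Crest.Agent.R164.OvC (Tg Sq)
open Crest.Agent.R146.S6Def_988 Crest.Agent.R146.OvcA_679

noncomputable section

/-! ### a field made of `n` coins revealed at different steps -/

section Field

variable {Ω : Type*} [Fintype Ω] {P : Ω → ℝ} {𝓕 : Filt Ω} {x : ℕ → ℝ}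

theorem ibp_rows (hP : IsProb P) (hx : IsExpo x) {n : ℕ} (hn : 0 < n) {k : Fin n → ℕ}
    (hkL : ∀ t, k t ≤ 𝓕.L) {s : Fin n → Ω → ℝ} {ι : Fin n → Ω → Ω}
    (C : ∀ t, Coin P 𝓕 (k t) (s t) (ι t)) {U v f scr : Ω → ℝ} {c K Kf : ℝ}
    (hU : ∀ t ω, U (ι t ω) = U ω - 2 * ((Real.sqrt n)⁻¹ * c) * (2 * s t ω - 1) * v ω)
    (hv : ∀ t ω, v (ι t ω) = v ω) (hf : ∀ t ω, f (ι t ω) = f ω)
    (hvK : ∀ ω, |v ω| ≤ K) (hfK : ∀ ω, |f ω| ≤ Kf) (hc : |c| * K ≤ Real.sqrt n / 8)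
    (hscr : ∀ t ω, x 𝓕.L * v ω - ∑ j ∈ Ico (k t) 𝓕.L, (x (j + 1) - x j) *
      cE (tl P 𝓕 x U) (𝓕.F j) v ω = scr ω)
    {l : ℕ} (hl : ∀ t, l + 1 ≤ k t) (ω : Ω) :
    |cE (tl P 𝓕 x U) (𝓕.F l) (fun a => ((Real.sqrt n)⁻¹ * ∑ t, (2 * s t a - 1)) * f a) ω -
      c * cE (tl P 𝓕 x U) (𝓕.F l) (fun a => f a * scr a) ω| ≤
      52 * c ^ 2 * K ^ 2 * Kf / Real.sqrt n := by
  have hn0 : (0 : ℝ) < n := by exact_mod_cast hn
  have hsn : 0 < Real.sqrt n := Real.sqrt_pos.mpr hn0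
  have hss : Real.sqrt n * Real.sqrt n = n := Real.mul_self_sqrt hn0.le
  set δ := (Real.sqrt n)⁻¹ * c with hδ
  set R := cE (tl P 𝓕 x U) (𝓕.F l) (fun a => f a * scr a) ω with hR
  have hδK : |δ| * K ≤ 1 / 8 := by
    rw [hδ, abs_mul, abs_of_pos (inv_pos.mpr hsn), mul_assoc]
    calc (Real.sqrt n)⁻¹ * (|c| * K) ≤ (Real.sqrt n)⁻¹ * (Real.sqrt n / 8) :=
          mul_le_mul_of_nonneg_left hc (inv_pos.mpr hsn).le
      _ = 1 / 8 := by field_simp
  have h1 : ∀ t, |cE (tl P 𝓕 x U) (𝓕.F l) (fun a => (2 * s t a - 1) * f a) ω - δ * R| ≤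
      52 * (δ * K) ^ 2 * Kf := by
    intro t
    have hG : ∀ ω, (fun a => U a - δ * (2 * s t a - 1) * v a) (ι t ω) =
        (fun a => U a - δ * (2 * s t a - 1) * v a) ω := by
      intro a
      simp only [hU, hv, (C t).s_flip]
      ring
    have := CoinIBP.ibp (G := fun a => U a - δ * (2 * s t a - 1) * v a) (C t) hP hx (hkL t) hG
      (hv t) (hf t) hvK hfK hδK (hl t) ω
    simp only [sub_add_cancel] at this
    simp only [hscr t] at this
    exact this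
  have e1 : cE (tl P 𝓕 x U) (𝓕.F l) (fun a => ((Real.sqrt n)⁻¹ * ∑ t, (2 * s t a - 1)) * f a) ω =
      (Real.sqrt n)⁻¹ * ∑ t, cE (tl P 𝓕 x U) (𝓕.F l) (fun a => (2 * s t a - 1) * f a) ω := by
    rw [← cE_sum, ← cE_smul]
    congr 1; funext a
    rw [mul_assoc, Finset.sum_mul]
  have e2 : c * R = (Real.sqrt n)⁻¹ * ∑ _t : Fin n, δ * R := by
    rw [Finset.sum_const, Finset.card_univ, Fintype.card_fin, nsmul_eq_mul, hδ]
    have e3 : (n : ℝ) * ((Real.sqrt n)⁻¹ * c * R) =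
        (Real.sqrt n * Real.sqrt n) * ((Real.sqrt n)⁻¹ * c * R) := by rw [hss]
    rw [e3]
    field_simp
  rw [e1, e2, ← mul_sub, ← Finset.sum_sub_distrib, abs_mul, abs_of_pos (inv_pos.mpr hsn)]
  calc (Real.sqrt n)⁻¹ * |∑ t, (cE (tl P 𝓕 x U) (𝓕.F l) (fun a => (2 * s t a - 1) * f a) ω -
        δ * R)| ≤ (Real.sqrt n)⁻¹ * ∑ _t : Fin n, 52 * (δ * K) ^ 2 * Kf := by
        refine mul_le_mul_of_nonneg_left ?_ (inv_pos.mpr hsn).le
        exact (Finset.abs_sum_le_sum_abs _ _).trans (Finset.sum_le_sum fun t _ => h1 t)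
    _ = 52 * c ^ 2 * K ^ 2 * Kf / Real.sqrt n := by
        rw [Finset.sum_const, Finset.card_univ, Fintype.card_fin, nsmul_eq_mul, hδ]
        have e3 : (n : ℝ) * (52 * ((Real.sqrt n)⁻¹ * c * K) ^ 2 * Kf) =
            (Real.sqrt n * Real.sqrt n) * (52 * ((Real.sqrt n)⁻¹ * c * K) ^ 2 * Kf) := by rw [hss]
        rw [e3]
        field_simp

end Field

/-! ### the system -/

variable {N : ℕ} (C : Cfg N) (nc n : ℕ)

/-- the coordinates as functions on the enriched space -/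
def XO (i : Fin N) (ω : Om C nc n) : ℝ := C.x ω.1 i

theorem XO_flp (j : Fin N) (g : Fin nc) (t : Fin n) (i : Fin N) (ω : Om C nc n) :
    XO C nc n j (flp C nc n g t i ω) = XO C nc n j ω := rfl

theorem abs_XO_le (i : Fin N) (ω : Om C nc n) : |XO C nc n i ω| ≤ Real.sqrt N :=
  abs_x_le C ω.1 i


/-- the cell ends -/
def mE (n : ℕ) (g : ℕ) : ℕ := st n (g + 1)


variable {M : ℕ} (f : ℕ → ℝ → ℝ) (G : Fin M → Fin N → ℝ) (s : Fin nc → ℝ)


/-- the conditional integration by parts for the field `(g, i)`. -/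
theorem ibp_zf (hn : 0 < n) (g : Fin nc) (i : Fin N) {φ : Om C nc n → ℝ}
    (hφ : ∀ t ω, φ (flp C nc n g t i ω) = φ ω) {Kf : ℝ} (hφK : ∀ ω, |φ ω| ≤ Kf)
    (hc : |s g| * Real.sqrt N ≤ Real.sqrt n / 8) {l : ℕ} (hl : l ≤ st n g) (ω : Om C nc n) :
    |cE (QQ C nc n f G s) ((fil C nc n).F l) (fun w => zf w.2 g i * φ w) ω -
      s g * cE (QQ C nc n f G s) ((fil C nc n).F l) (fun w => φ w * (XO C nc n i w -
        ((nc : ℝ) + 1)⁻¹ * ∑ g' ∈ Ico (g : ℕ) nc,
          cE (QQ C nc n f G s) ((fil C nc n).F (mE n g')) (XO C nc n i) w)) ω| ≤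
      52 * (s g) ^ 2 * N * Kf / Real.sqrt n := by
  have hL : (fil C nc n).L = Lv nc n := rfl
  have h := ibp_rows (𝓕 := fil C nc n) (x := xs nc n) (prior_isProb C nc n) (xs_expo nc n) hn
    (k := fun t => cst n g t) (fun t => (cst_lt_L nc n g t).le) (fun t => coin C nc n g t i)
    (U := UU f G s) (v := XO C nc n i) (f := φ)
    (scr := fun w => XO C nc n i w - ((nc : ℝ) + 1)⁻¹ * ∑ g' ∈ Ico (g : ℕ) nc,
          cE (QQ C nc n f G s) ((fil C nc n).F (mE n g')) (XO C nc n i) w)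
    (c := s g) (K := Real.sqrt N) (Kf := Kf)
    (fun t ω => UU_flp C nc n f G s g t i ω) (fun t ω => rfl) hφ (abs_XO_le C nc n i) hφK hc
    (fun t w => by
      rw [hL, xs_last nc n hn le_rfl, one_mul, sum_incr_xs nc n _ g.2 (lt_cst nc n g t) (cst_le nc n g t)]
      rfl)
    (l := l) (fun t => by
      have := lt_cst nc n g t
      unfold st at hl
      omega) ω
  have hN : Real.sqrt (N : ℝ) ^ 2 = N := Real.sq_sqrt (Nat.cast_nonneg N)
  rw [hN] at h
  simp only [two_cval] at h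
  exact h

/-- **The classwise integration by parts for the field observable of the cell `g`.** -/
theorem ibp_Dobs (hn : 0 < n) (g : Fin nc) {φ : Om C nc n → ℝ}
    (hφ : ∀ t i ω, φ (flp C nc n g t i ω) = φ ω) (hφK : ∀ ω, |φ ω| ≤ 1)
    (hc : |s g| * Real.sqrt N ≤ Real.sqrt n / 8) {l : ℕ} (hl : l ≤ st n g) (ω : Om C nc n) :
    |cE (QQ C nc n f G s) ((fil C nc n).F l) (fun w => Dobs C nc n g w * φ w) ω -
      s g * cE (QQ C nc n f G s) ((fil C nc n).F l) (fun w => φ w *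
        Tg (XO C nc n) (QQ C nc n f G s) (fil C nc n) univ N ((nc : ℝ) + 1)⁻¹ (mE n) nc g w) ω| ≤
      52 * (s g) ^ 2 * (N * Real.sqrt N) / Real.sqrt n := by
  set Q := QQ C nc n f G s with hQ
  have hNr : (0 : ℝ) ≤ (N : ℝ)⁻¹ := by positivity
  have h1 : ∀ i : Fin N, |cE Q ((fil C nc n).F l)
        (fun w => zf w.2 g i * (XO C nc n i w * φ w)) ω -
      s g * cE Q ((fil C nc n).F l)
        (fun w => (XO C nc n i w * φ w) * (XO C nc n i w -
        ((nc : ℝ) + 1)⁻¹ * ∑ g' ∈ Ico (g : ℕ) nc,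
          cE Q ((fil C nc n).F (mE n g')) (XO C nc n i) w)) ω| ≤
      52 * (s g) ^ 2 * (N * Real.sqrt N) / Real.sqrt n := by
    intro i
    have := ibp_zf C nc n f G s hn g i (φ := fun w => XO C nc n i w * φ w)
      (fun t ω => by simp only [XO_flp, hφ]) (Kf := Real.sqrt N)
      (fun ω => by
        rw [abs_mul]
        calc |XO C nc n i ω| * |φ ω| ≤ Real.sqrt N * 1 :=
              mul_le_mul (abs_XO_le C nc n i ω) (hφK ω) (abs_nonneg _) (Real.sqrt_nonneg _)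
          _ = Real.sqrt N := mul_one _) hc hl ω
    rw [← mul_assoc]
    exact this
  have e1 : cE Q ((fil C nc n).F l) (fun w => Dobs C nc n g w * φ w) ω = (N : ℝ)⁻¹ *
      ∑ i, cE Q ((fil C nc n).F l) (fun w => zf w.2 g i * (XO C nc n i w * φ w)) ω := by
    rw [← cE_sum, ← cE_smul]
    congr 1; funext w
    unfold Dobs XO
    rw [mul_assoc, Finset.sum_mul]
    congr 1
    exact Finset.sum_congr rfl fun i _ => by ring
  have e2 : s g * cE Q ((fil C nc n).F l) (fun w => φ w *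
        Tg (XO C nc n) Q (fil C nc n) univ N ((nc : ℝ) + 1)⁻¹ (mE n) nc g w) ω = (N : ℝ)⁻¹ *
      ∑ i, s g * cE Q ((fil C nc n).F l)
        (fun w => (XO C nc n i w * φ w) * (XO C nc n i w -
        ((nc : ℝ) + 1)⁻¹ * ∑ g' ∈ Ico (g : ℕ) nc,
          cE Q ((fil C nc n).F (mE n g')) (XO C nc n i) w)) ω := by
    rw [← Finset.mul_sum, ← cE_sum, ← cE_smul, ← cE_smul, ← cE_smul]
    congr 1; funext w
    unfold Tg
    have : ∑ i, XO C nc n i w * φ w * (XO C nc n i w - ((nc : ℝ) + 1)⁻¹ *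
        ∑ g' ∈ Ico (g : ℕ) nc, cE Q ((fil C nc n).F (mE n g')) (XO C nc n i) w) =
        φ w * ∑ i, XO C nc n i w * (XO C nc n i w - ((nc : ℝ) + 1)⁻¹ *
        ∑ g' ∈ Ico (g : ℕ) nc, cE Q ((fil C nc n).F (mE n g')) (XO C nc n i) w) := by
      rw [Finset.mul_sum]
      exact Finset.sum_congr rfl fun i _ => by ring
    rw [this]; ring
  rw [e1, e2, ← mul_sub, ← Finset.sum_sub_distrib, abs_mul, abs_of_nonneg hNr]
  calc (N : ℝ)⁻¹ * |_| ≤ (N : ℝ)⁻¹ * ∑ _i : Fin N,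
        52 * (s g) ^ 2 * (N * Real.sqrt N) / Real.sqrt n :=
        mul_le_mul_of_nonneg_left
          ((Finset.abs_sum_le_sum_abs _ _).trans (Finset.sum_le_sum fun i _ => h1 i)) hNr
    _ = ((N : ℝ)⁻¹ * N) * (52 * (s g) ^ 2 * (N * Real.sqrt N) / Real.sqrt n) := by
        rw [Finset.sum_const, Finset.card_univ, Fintype.card_fin, nsmul_eq_mul]; ring
    _ ≤ 1 * (52 * (s g) ^ 2 * (N * Real.sqrt N) / Real.sqrt n) := by
        refine mul_le_mul_of_nonneg_right ?_ (by positivity)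
        rcases Nat.eq_zero_or_pos N with h0 | h0
        · subst h0; simp
        · have h3 : (0 : ℝ) < N := by exact_mod_cast h0
          rw [inv_mul_cancel₀ h3.ne']
    _ = 52 * (s g) ^ 2 * (N * Real.sqrt N) / Real.sqrt n := one_mul _

/-- the case `f = 1`: hypothesis of `OvC.O1`, `OvC.O2`, `OvC.O5`. -/
theorem ibp_Dobs_one (hn : 0 < n) (g : Fin nc)
    (hc : |s g| * Real.sqrt N ≤ Real.sqrt n / 8) {l : ℕ} (hl : l ≤ st n g) (ω : Om C nc n) :
    |cE (QQ C nc n f G s) ((fil C nc n).F l) (Dobs C nc n g) ω -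
      s g * cE (QQ C nc n f G s) ((fil C nc n).F l)
        (Tg (XO C nc n) (QQ C nc n f G s) (fil C nc n) univ N ((nc : ℝ) + 1)⁻¹ (mE n) nc g) ω| ≤
      52 * (s g) ^ 2 * (N * Real.sqrt N) / Real.sqrt n := by
  have h := ibp_Dobs C nc n f G s hn g (φ := fun _ => 1) (fun _ _ _ => rfl)
    (fun _ => by simp) hc hl ω
  simp only [mul_one, one_mul] at h
  exact h

/-! ### the normalised square -/



/-! ### size of the overlaps -/

open Crest.Agent.R164.RotRel (rr)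




end

end Crest.Agent.R146.OvcB_679
end

-- ▼ part R146/OvcC_679
section

/-!
Row 146 (S0206), node CIBP, parts C and D (helper679):

* `cibp : S6Ovl_382.CIBP`, hence `ovl2 : S6Ovl_382.OVL2`;
* `ibp_thm : S6U_988.IBP`.
-/

set_option autoImplicit false

namespace Crest.Agent.R146.OvcC_679

open Finset MeasureTheory
open Crest.Agent.R141 (IsProb eE cE eE_abs_le eE_const eE_mono)
open Crest.Agent.R146.S6Def_988 Crest.Agent.R146.S6U_988
open Crest.Agent.R146.S6Ovl_382 (CI CIBP OVL2 XX ov)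

noncomputable section

/-- the explicit form of `CI`. -/
theorem ci {N : ℕ} (C : Cfg N) {nc n : ℕ} (hn : 0 < n) (f : ℕ → ℝ → ℝ) (M : ℕ)
    (s : Fin nc → ℝ) {A : ℝ} (hs : ∀ g, |s g| ≤ A)
    (hc : A * Real.sqrt N ≤ Real.sqrt n / 8) :
    CI C nc n f M s (52 * A ^ 2 * (N * Real.sqrt N) / Real.sqrt n) := by
  intro G g l hl w
  have h := OvcB_679.ibp_Dobs_one C nc n f G s hn g
    ((mul_le_mul_of_nonneg_right (hs g) (Real.sqrt_nonneg _)).trans hc) hl w
  refine le_trans (le_of_eq ?_) (h.trans ?_)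
  · rfl
  · have h1 : (s g) ^ 2 ≤ A ^ 2 := by
      rw [← sq_abs]
      exact pow_le_pow_left₀ (abs_nonneg _) (hs g) 2
    gcongr

/-- the choice of `n`. -/
def nn (A ε : ℝ) (N : ℕ) : ℕ :=
  1 + ⌈((8 * A * Real.sqrt N) ^ 2 + (52 * A ^ 2 * (N * Real.sqrt N) / ε) ^ 2)⌉₊

theorem nn_spec {A ε : ℝ} (_ : 0 ≤ A) (hε : 0 < ε) {N n : ℕ} (hn : nn A ε N ≤ n) :
    0 < n ∧ A * Real.sqrt N ≤ Real.sqrt n / 8 ∧
      52 * A ^ 2 * (N * Real.sqrt N) / Real.sqrt n ≤ ε := by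
  have hn0 : 0 < n := by unfold nn at hn; omega
  have h1 : (8 * A * Real.sqrt N) ^ 2 + (52 * A ^ 2 * (N * Real.sqrt N) / ε) ^ 2 ≤ n := by
    have h2 := Nat.le_ceil ((8 * A * Real.sqrt N) ^ 2 + (52 * A ^ 2 * (N * Real.sqrt N) / ε) ^ 2)
    have h3 : (⌈((8 * A * Real.sqrt N) ^ 2 + (52 * A ^ 2 * (N * Real.sqrt N) / ε) ^ 2)⌉₊ : ℝ) ≤
        n := by
      unfold nn at hn
      exact_mod_cast (by omega)
    exact h2.trans h3
  have hn' : (0 : ℝ) < n := by exact_mod_cast hn0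
  have hsn : 0 < Real.sqrt n := Real.sqrt_pos.mpr hn'
  refine ⟨hn0, ?_, ?_⟩
  · have h4 : 8 * A * Real.sqrt N ≤ Real.sqrt n :=
      Real.le_sqrt_of_sq_le (by nlinarith [sq_nonneg (52 * A ^ 2 * (N * Real.sqrt N) / ε)])
    linarith
  · have h5 : 52 * A ^ 2 * (N * Real.sqrt N) / ε ≤ Real.sqrt n :=
      Real.le_sqrt_of_sq_le (by nlinarith [sq_nonneg (8 * A * Real.sqrt N)])
    rw [div_le_iff₀ hε] at h5
    rw [div_le_iff₀ hsn]
    linarith

/-- **(C)** of task S6-CIBP. -/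
theorem cibp : CIBP := by
  intro nc A ε hε
  rcases lt_or_ge A 0 with hA | hA
  · refine ⟨fun _ => 0, fun N hN n hn C f M s hs G g l hl w => ?_⟩
    exact absurd ((hs g).1.trans (hs g).2) (not_le.mpr hA)
  · refine ⟨nn A ε, fun N hN n hn C f M s hs => ?_⟩
    obtain ⟨h1, h2, h3⟩ := nn_spec hA hε hn
    intro G g l hl w
    exact (ci C h1 f M s (fun g => by rw [abs_of_nonneg (hs g).1]; exact (hs g).2) h2 G g l hl
      w).trans h3

/-- **(OVL2)** of task S6-OVL. -/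
theorem ovl2 : OVL2 := S6Ovl_382.ovl2_of_cibp cibp

/-! ### (D): the averaged form -/




end

end Crest.Agent.R146.OvcC_679
end

-- ▼ part R146/S6StrF_649

/-!
Row 146, statement S0206 (helper649): `S6U_988.STR` without hypotheses.
-/

set_option autoImplicit false

namespace Crest.Agent.R146.S6StrF_649

open Crest.Agent.R146.S6Str_649

theorem ovl2 : OVL2 := OvcC_679.ovl2

theorem noise2 : NOISE2 := by
  intro nc b0 A K η hb0 hA hη
  obtain ⟨N0, n0, h⟩ := Noise2_143.noise2 nc b0 A η hb0 hA hη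
  exact ⟨N0, n0, fun N hN n hn C f M hf _ s hs g => h N hN n hn C f M hf s hs g⟩

/-- (STR) concentrated field observables ⇒ a skeleton. -/
theorem str : Crest.Agent.R146.S6U_988.STR := STR_of ovl2 noise2

end Crest.Agent.R146.S6StrF_649
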