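import Crest.Agent.R146.S6U_988
import Crest.Agent.R146.U0det_762
import Mathlib
import Crest.Prelude.Def_Perceptron
import Crest.Agent.R070.Polar_664
import Crest.Agent.R070.RotInv_260

-- ▼ part R146/U0asm_762
section

/-!
Row 146, statement S0206, node (U0): assembly from the polar bound (Polar) and the coin recursion
(Rec) (helper762).
-/

set_option autoImplicit false

namespace Crest.Agent.R146.U0asm_762

open Finset MeasureTheory ProbabilityTheory Crest.Agent.R141
open Crest.Agent.R146.S6Def_988 Crest.Agent.R146.S6U_988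
open Crest.ProbabilityR.Perceptron

noncomputable section

/-- the polar bound, uniform for `b` in a bounded interval `[1, B]`. -/
def Polar : Prop := ∀ B : ℝ, ∃ c : ℝ, ∀ N : ℕ, 0 < N → ∀ b : ℝ, 1 ≤ b → b ≤ B → ∀ W : Fin N → ℝ,
  ∫ y, Real.exp (∑ i, W i * (Real.sqrt N * (y : EuclideanSpace ℝ (Fin N)) i)) ∂(sph N) ≤
    Real.exp (N * (b - 1 - Real.log b) / 2 + c * Real.sqrt N + (∑ i, W i ^ 2) / (2 * b))

/-- the coin recursion without rows. -/
def Rec : Prop := ∀ (nc N n : ℕ), 0 < N → 0 < n → ∀ (C : Cfg N) (f : ℕ → ℝ → ℝ) (s : Fin nc → ℝ),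
  (∀ g, 0 ≤ s g) → ∀ (b : ℕ → ℝ), 0 < b 0 →
  (∀ g : Fin nc, b g = b (g + 1) - (((g : ℝ) + 1) / ((nc : ℝ) + 1)) * s g ^ 2) →
  ∀ c0 : ℝ, (∀ W : Fin N → ℝ, (∀ i, |W i| ≤ Real.sqrt n * ∑ g, s g) →
    Real.log (∑ y, C.q y * Real.exp (∑ i, W i * C.x y i)) ≤ c0 + (∑ i, W i ^ 2) / (2 * b nc)) →
  ∀ G : Fin 0 → Fin N → ℝ, Phi C nc n (M := 0) f G s ≤
    c0 + N / 2 * ∑ g : Fin nc, ((nc : ℝ) + 1) / ((g : ℝ) + 1) * Real.log (b (g + 1) / b g)

/-- transfer of the polar bound to a configuration space close to the sphere. -/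
theorem polar_cfg {B c : ℝ} (hc : ∀ N : ℕ, 0 < N → ∀ b : ℝ, 1 ≤ b → b ≤ B → ∀ W : Fin N → ℝ,
    ∫ y, Real.exp (∑ i, W i * (Real.sqrt N * (y : EuclideanSpace ℝ (Fin N)) i)) ∂(sph N) ≤
    Real.exp (N * (b - 1 - Real.log b) / 2 + c * Real.sqrt N + (∑ i, W i ^ 2) / (2 * b)))
    {N : ℕ} (hN : 0 < N) {R : ℝ} (hR : 0 ≤ R) (C : Cfg N)
    (hC : Near C (1 / ((1 + R) * Real.exp (R * N)))) {b : ℝ} (hb : 1 ≤ b) (hbB : b ≤ B)
    (W : Fin N → ℝ) (hW : ∀ i, |W i| ≤ R) :
    Real.log (∑ y, C.q y * Real.exp (∑ i, W i * C.x y i)) ≤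
      Real.log 2 + N * (b - 1 - Real.log b) / 2 + |c| * Real.sqrt N + (∑ i, W i ^ 2) / (2 * b) := by
  have hsN : Real.sqrt N * Real.sqrt N = N := Real.mul_self_sqrt (by positivity)
  -- bound of the linear form on the sphere
  have hlin : ∀ u : Fin N → ℝ, ∑ i, u i ^ 2 = N → ∑ i, W i * u i ≤ R * N := by
    intro u hu
    have h1 : ∀ i ∈ (univ : Finset (Fin N)), W i * u i ≤ R * ((u i ^ 2 + 1) / 2) := by
      intro i _
      have h2 : W i * u i ≤ |W i| * |u i| := by rw [← abs_mul]; exact le_abs_self _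
      have h3 : |W i| * |u i| ≤ R * |u i| := mul_le_mul_of_nonneg_right (hW i) (abs_nonneg _)
      have h4 : |u i| ≤ (u i ^ 2 + 1) / 2 := by
        nlinarith [sq_nonneg (|u i| - 1), sq_abs (u i)]
      have h5 := mul_le_mul_of_nonneg_left h4 hR
      linarith
    have h2 := Finset.sum_le_sum h1
    have h3 : ∑ i : Fin N, R * ((u i ^ 2 + 1) / 2) = R * N := by
      rw [← Finset.mul_sum, ← Finset.sum_div, Finset.sum_add_distrib, hu]
      simp
    linarith
  set K : ℝ := (1 + R) * Real.exp (R * N) with hK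
  have hK0 : 0 < K := by positivity
  set F : (Fin N → ℝ) → ℝ := fun u => K⁻¹ * Real.exp (min (∑ i, W i * u i) (R * N)) with hF
  have hexp : ∀ a a' : ℝ, a ≤ R * N → a' ≤ R * N →
      |Real.exp a - Real.exp a'| ≤ Real.exp (R * N) * |a - a'| := by
    intro a a' ha ha'
    have key : ∀ a a' : ℝ, a' ≤ a → a ≤ R * N →
        Real.exp a - Real.exp a' ≤ Real.exp (R * N) * (a - a') := by
      intro a a' h h'
      have h1 : Real.exp a - Real.exp a' = Real.exp a * (1 - Real.exp (a' - a)) := by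
        rw [mul_sub, mul_one, ← Real.exp_add]; congr 2; ring
      have h2 : 1 - Real.exp (a' - a) ≤ a - a' := by
        have := Real.add_one_le_exp (a' - a); linarith
      have h3 : Real.exp a ≤ Real.exp (R * N) := Real.exp_le_exp.mpr h'
      rw [h1]
      calc Real.exp a * (1 - Real.exp (a' - a)) ≤ Real.exp a * (a - a') :=
            mul_le_mul_of_nonneg_left h2 (Real.exp_pos _).le
        _ ≤ Real.exp (R * N) * (a - a') := mul_le_mul_of_nonneg_right h3 (by linarith)
    rcases le_total a' a with h | h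
    · rw [abs_of_nonneg (by have := Real.exp_le_exp.mpr h; linarith), abs_of_nonneg (by linarith)]
      exact key a a' h ha
    · rw [abs_sub_comm, abs_sub_comm a a',
        abs_of_nonneg (by have := Real.exp_le_exp.mpr h; linarith), abs_of_nonneg (by linarith)]
      exact key a' a h ha'
  have hLip : ∀ u v, |F u - F v| ≤ ∑ i, |u i - v i| := by
    intro u v
    simp only [hF]
    rw [← mul_sub, abs_mul, abs_of_pos (by positivity : (0:ℝ) < K⁻¹)]
    have h1 := hexp (min (∑ i, W i * u i) (R * N)) (min (∑ i, W i * v i) (R * N))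
      (min_le_right _ _) (min_le_right _ _)
    have h2 : |min (∑ i, W i * u i) (R * N) - min (∑ i, W i * v i) (R * N)| ≤
        |∑ i, W i * u i - ∑ i, W i * v i| := by
      have := abs_min_sub_min_le_max (∑ i, W i * u i) (R * N) (∑ i, W i * v i) (R * N)
      simpa using this
    have h3 : |∑ i, W i * u i - ∑ i, W i * v i| ≤ R * ∑ i, |u i - v i| := by
      rw [← Finset.sum_sub_distrib, Finset.mul_sum]
      refine (Finset.abs_sum_le_sum_abs _ _).trans (Finset.sum_le_sum fun i _ => ?_)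
      rw [← mul_sub, abs_mul]
      exact mul_le_mul_of_nonneg_right (hW i) (abs_nonneg _)
    have h4 : 0 ≤ ∑ i, |u i - v i| := Finset.sum_nonneg fun i _ => abs_nonneg _
    have h5 : |Real.exp (min (∑ i, W i * u i) (R * N)) - Real.exp (min (∑ i, W i * v i) (R * N))| ≤
        Real.exp (R * N) * (R * ∑ i, |u i - v i|) :=
      h1.trans (mul_le_mul_of_nonneg_left (h2.trans h3) (Real.exp_pos _).le)
    calc K⁻¹ * |Real.exp (min (∑ i, W i * u i) (R * N)) - Real.exp (min (∑ i, W i * v i) (R * N))|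
        ≤ K⁻¹ * (Real.exp (R * N) * (R * ∑ i, |u i - v i|)) :=
          mul_le_mul_of_nonneg_left h5 (by positivity)
      _ ≤ K⁻¹ * (Real.exp (R * N) * ((1 + R) * ∑ i, |u i - v i|)) := by
          apply mul_le_mul_of_nonneg_left _ (by positivity)
          apply mul_le_mul_of_nonneg_left _ (by positivity)
          nlinarith
      _ = ∑ i, |u i - v i| := by
          rw [hK]; field_simp
  have h1 := hC F hLip
  have h2 : ∑ y, C.q y * F (C.x y) = K⁻¹ * ∑ y, C.q y * Real.exp (∑ i, W i * C.x y i) := by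
    rw [Finset.mul_sum]
    apply Finset.sum_congr rfl
    intro y _
    simp only [hF]
    rw [min_eq_left (hlin _ (C.hx y))]
    ring
  have h3 : ∫ y, F (fun i => Real.sqrt N * (y : EuclideanSpace ℝ (Fin N)) i) ∂(sph N) =
      K⁻¹ * ∫ y, Real.exp (∑ i, W i * (Real.sqrt N * (y : EuclideanSpace ℝ (Fin N)) i)) ∂(sph N) := by
    rw [← integral_const_mul]
    congr 1
    funext y
    simp only [hF]
    rw [min_eq_left]
    apply hlin
    have hy : ‖(y : EuclideanSpace ℝ (Fin N))‖ = 1 := by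
      have := y.2
      rwa [mem_sphere_zero_iff_norm] at this
    have hy2 : ∑ i, (y : EuclideanSpace ℝ (Fin N)) i ^ 2 = 1 := by
      have := EuclideanSpace.norm_sq_eq (y : EuclideanSpace ℝ (Fin N))
      rw [hy] at this
      simp only [Real.norm_eq_abs, sq_abs] at this
      linarith
    calc ∑ i, (Real.sqrt N * (y : EuclideanSpace ℝ (Fin N)) i) ^ 2
        = (Real.sqrt N * Real.sqrt N) * ∑ i, (y : EuclideanSpace ℝ (Fin N)) i ^ 2 := by
          rw [Finset.mul_sum]; apply Finset.sum_congr rfl; intro i _; ring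
      _ = N := by rw [hy2, hsN, mul_one]
  rw [h2, h3, ← mul_sub, abs_mul, abs_of_pos (by positivity : (0:ℝ) < K⁻¹),
    inv_mul_le_iff₀ hK0, mul_one_div_cancel hK0.ne'] at h1
  have h4 := (abs_le.mp h1).2
  have h5 := hc N hN b hb hbB W
  have hlogb : 0 ≤ b - 1 - Real.log b := by
    have := Real.log_le_sub_one_of_pos (show 0 < b by linarith)
    linarith
  set E : ℝ := N * (b - 1 - Real.log b) / 2 + |c| * Real.sqrt N + (∑ i, W i ^ 2) / (2 * b) with hE
  have hE0 : 0 ≤ E := by
    have e1 : 0 ≤ (N : ℝ) * (b - 1 - Real.log b) / 2 := by positivity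
    have e2 : 0 ≤ |c| * Real.sqrt N := by positivity
    have e3 : 0 ≤ (∑ i, W i ^ 2) / (2 * b) := by
      apply div_nonneg (Finset.sum_nonneg fun i _ => sq_nonneg _); linarith
    linarith
  have h6 : Real.exp (N * (b - 1 - Real.log b) / 2 + c * Real.sqrt N + (∑ i, W i ^ 2) / (2 * b)) ≤
      Real.exp E := by
    apply Real.exp_le_exp.mpr
    have : c * Real.sqrt N ≤ |c| * Real.sqrt N :=
      mul_le_mul_of_nonneg_right (le_abs_self c) (Real.sqrt_nonneg _)
    linarith
  have h7 : 1 ≤ Real.exp E := Real.one_le_exp hE0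
  have h8 : ∑ y, C.q y * Real.exp (∑ i, W i * C.x y i) ≤ 2 * Real.exp E := by linarith
  have h9 : 0 < ∑ y, C.q y * Real.exp (∑ i, W i * C.x y i) := by
    apply Finset.sum_pos
    · intro y _; exact mul_pos (C.hq.pos y) (Real.exp_pos _)
    · exact Finset.univ_nonempty
  have h10 := Real.log_le_log h9 h8
  rw [Real.log_mul (by norm_num) (Real.exp_pos _).ne', Real.log_exp] at h10
  linarith

/-- **(U0)** from the polar bound and the coin recursion. -/
theorem U0_of (hpol : Polar) (hrec : Rec) : U0 := by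
  intro nc A ε hε
  obtain ⟨c, hc⟩ := hpol (1 + 2 * (nc * A ^ 2))
  -- choice of N0
  obtain ⟨N0, hN0⟩ : ∃ N0 : ℕ, 0 < N0 ∧ ∀ N : ℕ, N0 ≤ N →
      (N : ℝ)⁻¹ * (Real.log 2 + |c| * Real.sqrt N) ≤ ε := by
    set κ : ℝ := (Real.log 2 + |c|) / ε with hκ
    have hκ0 : 0 < κ := by
      have := Real.log_pos (show (1:ℝ) < 2 by norm_num)
      have := abs_nonneg c
      positivity
    obtain ⟨m, hm⟩ := exists_nat_ge (κ ^ 2)
    refine ⟨m + 1, by omega, fun N hN => ?_⟩
    have hNp : (0 : ℝ) < N := by exact_mod_cast (show 0 < N by omega)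
    have hN1 : (1 : ℝ) ≤ N := by exact_mod_cast (show 1 ≤ N by omega)
    have h1 : κ ≤ Real.sqrt N := by
      apply Real.le_sqrt_of_sq_le
      have : (m : ℝ) ≤ N := by exact_mod_cast (show m ≤ N by omega)
      linarith
    have h2 : 1 ≤ Real.sqrt N := by rw [Real.one_le_sqrt]; exact hN1
    have h3 : Real.sqrt N * Real.sqrt N = N := Real.mul_self_sqrt hNp.le
    have h4 : Real.log 2 + |c| * Real.sqrt N ≤ (Real.log 2 + |c|) * Real.sqrt N := by
      have := Real.log_pos (show (1:ℝ) < 2 by norm_num)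
      nlinarith
    have h5 : Real.log 2 + |c| = κ * ε := by rw [hκ]; field_simp
    rw [inv_mul_le_iff₀ hNp]
    calc Real.log 2 + |c| * Real.sqrt N ≤ (κ * ε) * Real.sqrt N := by rw [← h5]; exact h4
      _ = κ * (ε * Real.sqrt N) := by ring
      _ ≤ Real.sqrt N * (ε * Real.sqrt N) := mul_le_mul_of_nonneg_right h1 (by positivity)
      _ = N * ε := by linear_combination ε * h3
  refine ⟨N0, fun N hN n hn => ?_⟩
  have hNpos : 0 < N := by omega
  have hNp : (0 : ℝ) < N := by exact_mod_cast hNpos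
  set R : ℝ := Real.sqrt n * (nc * |A|) with hR
  have hR0 : 0 ≤ R := by positivity
  refine ⟨1 / ((1 + R) * Real.exp (R * N)), by positivity, fun C hC f s hs q hq hq1 => ?_⟩
  -- the data
  set α : ℕ → ℝ := fun j => if h : j - 1 < nc then s ⟨j - 1, h⟩ ^ 2 else 0 with hα
  have hαv : ∀ g : Fin nc, α (g + 1) = s g ^ 2 := by
    intro g
    simp only [hα]
    have : (g : ℕ) + 1 - 1 < nc := by simp
    rw [dif_pos this]
    congr 2
  have hαpos : ∀ j, 1 ≤ j → j ≤ nc → 0 < α j := by
    intro j h1 h2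
    have h3 : j - 1 < nc := by omega
    simp only [hα, dif_pos h3]
    have := (hs ⟨j - 1, h3⟩).1
    positivity
  obtain ⟨b, hb0, hbs, hroot, hb1, hbB⟩ := U0det_762.exists_root nc α hαpos
  have conv : ∀ φ : ℕ → ℝ, ∑ j ∈ Ico 1 (nc + 1), φ j = ∑ g : Fin nc, φ (g + 1) := by
    intro φ
    rw [Finset.sum_Ico_eq_sum_range, Fin.sum_univ_eq_sum_range (fun i => φ (i + 1))]
    simp only [Nat.add_sub_cancel]
    apply Finset.sum_congr rfl
    intro i _
    rw [add_comm]
  have hsumα : ∑ j ∈ Ico 1 (nc + 1), α j = ∑ g : Fin nc, s g ^ 2 := by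
    rw [conv]; exact Finset.sum_congr rfl fun g _ => hαv g
  have hbB' : b nc ≤ 1 + 2 * (nc * A ^ 2) := by
    have h1 : ∑ g : Fin nc, s g ^ 2 ≤ ∑ _g : Fin nc, A ^ 2 := by
      apply Finset.sum_le_sum
      intro g _
      have := hs g
      nlinarith
    simp only [Finset.sum_const, Finset.card_univ, Fintype.card_fin, nsmul_eq_mul] at h1
    rw [hsumα] at hbB
    linarith
  have hbstep : ∀ g : Fin nc, b g = b (g + 1) - (((g : ℝ) + 1) / ((nc : ℝ) + 1)) * s g ^ 2 := by
    intro g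
    have h1 := hbs (g + 1) (by omega) (by have := g.2; omega)
    rw [hαv g] at h1
    have e : (g : ℕ) + 1 - 1 = g := by omega
    rw [e] at h1
    push_cast at h1
    exact h1
  have hsA : Real.sqrt n * ∑ g, s g ≤ R := by
    rw [hR]
    apply mul_le_mul_of_nonneg_left _ (Real.sqrt_nonneg _)
    have h1 : ∑ g : Fin nc, s g ≤ ∑ _g : Fin nc, |A| := by
      apply Finset.sum_le_sum
      intro g _
      exact (hs g).2.trans (le_abs_self A)
    simpa using h1
  have hphi : ∀ G : Fin 0 → Fin N → ℝ, Phi C nc n (M := 0) f G s ≤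
      (Real.log 2 + N * (b nc - 1 - Real.log (b nc)) / 2 + |c| * Real.sqrt N) +
      N / 2 * ∑ g : Fin nc, ((nc : ℝ) + 1) / ((g : ℝ) + 1) * Real.log (b (g + 1) / b g) := by
    apply hrec nc N n hNpos hn C f s (fun g => (hs g).1.le) b hb0 hbstep
    intro W hW
    exact polar_cfg hc hNpos hR0 C hC hb1 hbB' W fun i => (hW i).trans hsA
  have hFN : FN C nc n f 0 s ≤ (N : ℝ)⁻¹ *
      ((Real.log 2 + N * (b nc - 1 - Real.log (b nc)) / 2 + |c| * Real.sqrt N) +
      N / 2 * ∑ g : Fin nc, ((nc : ℝ) + 1) / ((g : ℝ) + 1) * Real.log (b (g + 1) / b g)) -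
      1 / 2 * ∑ g, s g ^ 2 := by
    unfold FN
    have h1 : ∫ G, Phi C nc n (M := 0) f G s ∂(gam 0 N) = Phi C nc n (M := 0) f default s := by
      have : (fun G : Fin 0 → Fin N → ℝ => Phi C nc n (M := 0) f G s) =
          fun _ => Phi C nc n (M := 0) f default s := by
        funext G
        rw [Subsingleton.elim G default]
      rw [this]
      have : IsProbabilityMeasure (gam 0 N) := by unfold gam; infer_instance
      simp
    rw [h1]
    have h2 := mul_le_mul_of_nonneg_left (hphi default) (inv_nonneg.mpr hNp.le)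
    linarith
  have hdet := U0det_762.main hq hq1 (fun j h1 h2 => (hαpos j h1 h2).le) hb0 hbs hroot
  rw [hsumα, conv, conv] at hdet
  have e1 : ∑ g : Fin nc, (((nc : ℝ) + 1) / ((g + 1 : ℕ) : ℝ)) *
      Real.log (b (g + 1) / b (g + 1 - 1)) =
      ∑ g : Fin nc, ((nc : ℝ) + 1) / ((g : ℝ) + 1) * Real.log (b (g + 1) / b g) := by
    apply Finset.sum_congr rfl
    intro g _
    have e : (g : ℕ) + 1 - 1 = g := by omega
    rw [e]
    push_cast
    ring
  have e2 : ∑ g : Fin nc, α (g + 1) * (1 / ((nc : ℝ) + 1) * ∑ k ∈ Ico ((g : ℕ) + 1) (nc + 1), q k) =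
      ∑ g : Fin nc, s g ^ 2 * tl1 nc q g := by
    apply Finset.sum_congr rfl
    intro g _
    rw [hαv g]
    unfold tl1
    have e5 : Ico ((g : ℕ) + 1) (nc + 1) = Ioc (g : ℕ) nc := by
      ext k
      rw [mem_Ico, mem_Ioc]
      omega
    rw [e5]
  rw [e1, e2] at hdet
  have h3 := hN0.2 N hN
  have e3 : (N : ℝ)⁻¹ * ((Real.log 2 + N * (b nc - 1 - Real.log (b nc)) / 2 + |c| * Real.sqrt N) +
      N / 2 * ∑ g : Fin nc, ((nc : ℝ) + 1) / ((g : ℝ) + 1) * Real.log (b (g + 1) / b g)) =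
      (N : ℝ)⁻¹ * (Real.log 2 + |c| * Real.sqrt N) + (b nc - 1 - Real.log (b nc)) / 2 +
      1 / 2 * ∑ g : Fin nc, ((nc : ℝ) + 1) / ((g : ℝ) + 1) * Real.log (b (g + 1) / b g) := by
    field_simp
    ring
  rw [e3] at hFN
  linarith

end

end Crest.Agent.R146.U0asm_762
end

-- ▼ part R146/Sph1_214
section

/-!
# Row 146, package SPH (helper214), part 1: the uniform law of the sphere

* `sig N` : the normalised `sphereLaw N`; probability for `N ≥ 1`; `integral_sig`
* `sig_cap` : caps have mass at least `(min ε 2 / 4) ^ N`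
* `sphere_exp_bound` : `∫ exp (√N ⟪W, y⟫) ≤ C √N exp (3b/2) exp (N (b - 1 - log b)/2 + |W|²/(2b))`
* rotation invariance: `integral_sig_rot`
-/

set_option autoImplicit false

noncomputable section

open MeasureTheory Set Metric
open Crest.ProbabilityR.Perceptron
open scoped ENNReal

namespace Crest.Agent.R146.Sph214

/-- `N`-dimensional Euclidean space. -/
abbrev Eu (N : ℕ) : Type := EuclideanSpace ℝ (Fin N)

instance (N : ℕ) : IsFiniteMeasure (sphereLaw N) := by
  unfold sphereLaw; infer_instance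

/-- The uniform probability law on the unit sphere (zero measure if `N = 0`). -/
def sig (N : ℕ) : Measure (UnitSphere N) := (sphereLaw N univ)⁻¹ • sphereLaw N

instance instNontrivialEu (N : ℕ) [NeZero N] : Nontrivial (Eu N) := by
  have : Nonempty (Fin N) := ⟨0⟩
  infer_instance

theorem sphereLaw_ne_zero (N : ℕ) [NeZero N] : sphereLaw N ≠ 0 := by
  unfold sphereLaw
  exact Measure.toSphere_ne_zero _

theorem sphereLaw_univ_ne_zero (N : ℕ) [NeZero N] : sphereLaw N univ ≠ 0 := by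
  intro h
  exact sphereLaw_ne_zero N (Measure.measure_univ_eq_zero.1 h)

theorem sphereLaw_univ_ne_top (N : ℕ) : sphereLaw N univ ≠ ⊤ := measure_ne_top _ _

theorem sphereLaw_real_pos (N : ℕ) [NeZero N] : 0 < (sphereLaw N).real univ :=
  ENNReal.toReal_pos (sphereLaw_univ_ne_zero N) (sphereLaw_univ_ne_top N)

instance isProb_sig (N : ℕ) [NeZero N] : IsProbabilityMeasure (sig N) := by
  refine ⟨?_⟩
  simp only [sig, Measure.smul_apply, smul_eq_mul]
  exact ENNReal.inv_mul_cancel (sphereLaw_univ_ne_zero N) (sphereLaw_univ_ne_top N)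

theorem sphereLaw_zero : sphereLaw 0 = 0 := by
  unfold sphereLaw
  rw [Measure.toSphere_eq_zero_iff_finrank]
  simp

instance isFinite_sig (N : ℕ) : IsFiniteMeasure (sig N) := by
  rcases Nat.eq_zero_or_pos N with h | h
  · subst h
    refine ⟨?_⟩
    simp [sig, sphereLaw_zero]
  · have : NeZero N := ⟨h.ne'⟩
    infer_instance

theorem integral_sig {N : ℕ} {G : Type*} [NormedAddCommGroup G] [NormedSpace ℝ G]
    (F : UnitSphere N → G) :
    ∫ y, F y ∂(sig N) = ((sphereLaw N).real univ)⁻¹ • ∫ y, F y ∂(sphereLaw N) := by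
  rw [sig, integral_smul_measure, ENNReal.toReal_inv]
  rfl



theorem continuous_integrable_sig {N : ℕ} {F : UnitSphere N → ℝ} (hF : Continuous F) :
    Integrable F (sig N) := by
  exact hF.integrable_of_hasCompactSupport (HasCompactSupport.of_compactSpace _)

/-! ### Rotation invariance -/

theorem measurePreserving_sig {N : ℕ} (T : Eu N ≃ₗᵢ[ℝ] Eu N) :
    MeasurePreserving (R070.RotInv260.sphMap T) (sig N) (sig N) := by
  have h := R070.RotInv260.measurePreserving_sphMap (E := Eu N) T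
  refine ⟨h.measurable, ?_⟩
  have h2 : (sphereLaw N).map (R070.RotInv260.sphMap T) = sphereLaw N := h.map_eq
  rw [sig, Measure.map_smul, h2]

theorem integral_sig_rot {N : ℕ} {G : Type*} [NormedAddCommGroup G] [NormedSpace ℝ G]
    (T : Eu N ≃ₗᵢ[ℝ] Eu N) (F : UnitSphere N → G) :
    ∫ y, F (R070.RotInv260.sphMap T y) ∂(sig N) = ∫ y, F y ∂(sig N) :=
  (measurePreserving_sig T).integral_comp (R070.RotInv260.sphHomeo T).measurableEmbedding F


/-! ### Caps -/


/-! ### The exponential bound -/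

/-- The symmetrised form of the spherical Laplace transform. -/
theorem integral_exp_eq_cosh {N : ℕ} (W : Eu N) (r : ℝ) :
    ∫ y : UnitSphere N, Real.exp (r * inner ℝ W (y : Eu N)) ∂(sig N) =
      ∫ y : UnitSphere N, Real.cosh (r * inner ℝ W (y : Eu N)) ∂(sig N) := by
  have hc : Continuous fun y : UnitSphere N => r * inner ℝ W (y : Eu N) := by fun_prop
  have h1 : ∫ y : UnitSphere N, Real.exp (-(r * inner ℝ W (y : Eu N))) ∂(sig N) =
      ∫ y : UnitSphere N, Real.exp (r * inner ℝ W (y : Eu N)) ∂(sig N) := by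
    have h := integral_sig_rot (LinearIsometryEquiv.neg ℝ (E := Eu N))
      (fun y : UnitSphere N => Real.exp (r * inner ℝ W (y : Eu N)))
    rw [← h]
    refine integral_congr_ae (Filter.Eventually.of_forall fun y => ?_)
    simp
  have h2 : ∫ y : UnitSphere N, Real.cosh (r * inner ℝ W (y : Eu N)) ∂(sig N) =
      (∫ y : UnitSphere N, Real.exp (r * inner ℝ W (y : Eu N)) ∂(sig N) +
        ∫ y : UnitSphere N, Real.exp (-(r * inner ℝ W (y : Eu N))) ∂(sig N)) / 2 := by
    rw [← integral_add (continuous_integrable_sig (by fun_prop))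
      (continuous_integrable_sig (by fun_prop)), ← integral_div]
    refine integral_congr_ae (Filter.Eventually.of_forall fun y => ?_)
    simp only [Real.cosh_eq]
  rw [h2, h1]
  ring

theorem integral_exp_mono {N : ℕ} (W : Eu N) {r s : ℝ} (hr : 0 ≤ r) (hrs : r ≤ s) :
    ∫ y : UnitSphere N, Real.exp (r * inner ℝ W (y : Eu N)) ∂(sig N) ≤
      ∫ y : UnitSphere N, Real.exp (s * inner ℝ W (y : Eu N)) ∂(sig N) := by
  rw [integral_exp_eq_cosh, integral_exp_eq_cosh]
  refine integral_mono (continuous_integrable_sig (by fun_prop))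
    (continuous_integrable_sig (by fun_prop)) fun y => ?_
  rw [Real.cosh_le_cosh, abs_mul, abs_mul]
  exact mul_le_mul_of_nonneg_right (abs_le_abs_of_nonneg hr hrs) (abs_nonneg _)

end Crest.Agent.R146.Sph214
end
end

-- ▼ part R146/Sph2_214

/-!
# Row 146, package SPH (helper214), part 2: the exponential bound on the sphere

`sphere_exp_bound` :
`∫ exp (√N ⟪W, y⟫) dσ ≤ e √(2π) √N exp (3b/2) exp (N (b - 1 - log b)/2 + ‖W‖²/(2b))`.
-/

set_option autoImplicit false

noncomputable section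

open MeasureTheory Set Metric
open Crest.ProbabilityR.Perceptron
open scoped ENNReal

namespace Crest.Agent.R146.Sph214

/-- completing the square -/
theorem gauss_shift {N : ℕ} {b : ℝ} (hb : 0 < b) (W : Eu N) :
    ∫ x : Eu N, Real.exp (inner ℝ W x - b / 2 * ‖x‖ ^ 2) =
      Real.exp (‖W‖ ^ 2 / (2 * b)) * ∫ x : Eu N, Real.exp (-(b / 2) * ‖x‖ ^ 2) := by
  rw [← integral_sub_right_eq_self (fun x : Eu N => Real.exp (-(b / 2) * ‖x‖ ^ 2)) (b⁻¹ • W),
    ← integral_const_mul]
  refine integral_congr_ae (Filter.Eventually.of_forall fun x => ?_)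
  simp only
  rw [← Real.exp_add]
  congr 1
  rw [@norm_sub_sq_real, norm_smul, inner_smul_right, Real.norm_eq_abs, abs_of_pos (inv_pos.2 hb),
    real_inner_comm]
  field_simp
  ring

theorem gauss_integrable {N : ℕ} {b : ℝ} (hb : 0 < b) :
    Integrable (fun x : Eu N => Real.exp (-(b / 2) * ‖x‖ ^ 2)) := by
  have h := GaussianFourier.integrable_cexp_neg_mul_sq_norm_add (V := Eu N)
    (b := ((b / 2 : ℝ) : ℂ)) (by simpa using hb) 0 (0 : Eu N)
  refine (h.re).congr (Filter.Eventually.of_forall fun x => ?_)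
  have h2 : Complex.exp (-((b / 2 : ℝ) : ℂ) * (‖x‖ : ℂ) ^ 2 + 0 * ((inner ℝ 0 x : ℝ) : ℂ)) =
      ((Real.exp (-(b / 2) * ‖x‖ ^ 2) : ℝ) : ℂ) := by
    rw [Complex.ofReal_exp]
    congr 1
    push_cast
    ring
  simp only [h2]
  exact Complex.ofReal_re _

theorem gauss_shift_integrable {N : ℕ} {b : ℝ} (hb : 0 < b) (W : Eu N) :
    Integrable (fun x : Eu N => Real.exp (inner ℝ W x - b / 2 * ‖x‖ ^ 2)) := by
  have h := ((gauss_integrable (N := N) hb).comp_sub_right (b⁻¹ • W)).const_mul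
    (Real.exp (‖W‖ ^ 2 / (2 * b)))
  refine h.congr (Filter.Eventually.of_forall fun x => ?_)
  simp only
  rw [← Real.exp_add]
  congr 1
  rw [@norm_sub_sq_real, norm_smul, inner_smul_right, Real.norm_eq_abs, abs_of_pos (inv_pos.2 hb),
    real_inner_comm]
  field_simp
  ring

/-- Laplace transform of the uniform law as a function of the radius. -/
def lap {N : ℕ} (W : Eu N) (r : ℝ) : ℝ :=
  ∫ y : UnitSphere N, Real.exp (r * inner ℝ W (y : Eu N)) ∂(sig N)

theorem lap_pos {N : ℕ} [NeZero N] (W : Eu N) (r : ℝ) : 0 < lap W r := by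
  unfold lap
  exact integral_exp_pos (continuous_integrable_sig (by fun_prop))

theorem polar_gauss {N : ℕ} [NeZero N] {b : ℝ} (hb : 0 < b) (W : Eu N) :
    ∫ x : Eu N, Real.exp (inner ℝ W x - b / 2 * ‖x‖ ^ 2) =
      (sphereLaw N).real univ *
        ∫ r in Ioi (0 : ℝ), r ^ (N - 1) * Real.exp (-(b / 2) * r ^ 2) * lap W r := by
  have h := R070.Polar664.integral_polar (E := Eu N) volume (gauss_shift_integrable hb W)
  rw [h, ← integral_const_mul]
  refine setIntegral_congr_fun measurableSet_Ioi fun r hr => ?_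
  have hr' : (0 : ℝ) < r := hr
  have hdim : Module.finrank ℝ (Eu N) = N := by simp
  have h2 : ∫ w : UnitSphere N, Real.exp (inner ℝ W (r • (w : Eu N)) - b / 2 * ‖r • (w : Eu N)‖ ^ 2)
      ∂(sphereLaw N) = (sphereLaw N).real univ * (Real.exp (-(b / 2) * r ^ 2) * lap W r) := by
    rw [lap, integral_sig, smul_eq_mul, ← mul_assoc, ← mul_assoc,
      mul_comm ((sphereLaw N).real univ), mul_assoc (Real.exp _),
      mul_inv_cancel₀ (sphereLaw_real_pos N).ne', mul_one, ← integral_const_mul]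
    refine integral_congr_ae (Filter.Eventually.of_forall fun w => ?_)
    simp only
    rw [← Real.exp_add, inner_smul_right, norm_smul, Real.norm_eq_abs, abs_of_pos hr',
      norm_eq_of_mem_sphere]
    congr 1
    ring
  have h3 : ∫ w : UnitSphere N, Real.exp (inner ℝ W (r • (w : Eu N)) - b / 2 * ‖r • (w : Eu N)‖ ^ 2)
      ∂(volume : Measure (Eu N)).toSphere =
      (sphereLaw N).real univ * (Real.exp (-(b / 2) * r ^ 2) * lap W r) := h2
  simp only [smul_eq_mul, hdim]
  rw [h3]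
  ring

theorem rad_pointwise {N : ℕ} (hN : 0 < N) {b : ℝ} (hb : 0 < b) {r : ℝ} (hr : 0 ≤ r) :
    r ^ (N - 1) * Real.exp (-(b / 2) * r ^ 2) ≤
      Real.exp (1 - (N : ℝ) / 2) * (Real.sqrt N / Real.sqrt b) ^ (N - 1) *
        Real.exp (-(b / 2) * (r - Real.sqrt N / Real.sqrt b) ^ 2) := by
  set c : ℝ := Real.sqrt N / Real.sqrt b with hc
  have hN' : (0 : ℝ) < N := by exact_mod_cast hN
  have hcpos : 0 < c := div_pos (Real.sqrt_pos.2 hN') (Real.sqrt_pos.2 hb)
  have hbc : b * c ^ 2 = N := by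
    rw [hc, div_pow, Real.sq_sqrt hN'.le, Real.sq_sqrt hb.le]
    field_simp
  set x : ℝ := r / c with hx
  have hx0 : 0 ≤ x := div_nonneg hr hcpos.le
  have hrx : r = c * x := by rw [hx]; field_simp
  have h1 : r ^ (N - 1) ≤ c ^ (N - 1) * Real.exp (((N : ℝ) - 1) * (x - 1)) := by
    rw [hrx, mul_pow]
    refine mul_le_mul_of_nonneg_left ?_ (pow_nonneg hcpos.le _)
    have h2 : x ≤ Real.exp (x - 1) := by
      have := Real.add_one_le_exp (x - 1)
      linarith
    calc x ^ (N - 1) ≤ (Real.exp (x - 1)) ^ (N - 1) := pow_le_pow_left₀ hx0 h2 _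
      _ = Real.exp (((N : ℝ) - 1) * (x - 1)) := by
        rw [← Real.exp_nat_mul]
        congr 2
        rw [Nat.cast_sub hN]
        simp
  calc r ^ (N - 1) * Real.exp (-(b / 2) * r ^ 2)
      ≤ c ^ (N - 1) * Real.exp (((N : ℝ) - 1) * (x - 1)) * Real.exp (-(b / 2) * r ^ 2) :=
        mul_le_mul_of_nonneg_right h1 (Real.exp_pos _).le
    _ = c ^ (N - 1) * Real.exp (((N : ℝ) - 1) * (x - 1) - (b / 2) * r ^ 2) := by
        rw [mul_assoc, ← Real.exp_add]
        congr 2
        ring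
    _ ≤ c ^ (N - 1) * Real.exp (1 - (N : ℝ) / 2 - (b / 2) * (r - c) ^ 2) := by
        refine mul_le_mul_of_nonneg_left (Real.exp_le_exp.2 ?_) (pow_nonneg hcpos.le _)
        have h3 : (b / 2) * r ^ 2 - (b / 2) * (r - c) ^ 2 = N * x - N / 2 := by
          rw [hrx, ← hbc]
          ring
        nlinarith
    _ = Real.exp (1 - (N : ℝ) / 2) * c ^ (N - 1) * Real.exp (-(b / 2) * (r - c) ^ 2) := by
        rw [show 1 - (N : ℝ) / 2 - (b / 2) * (r - c) ^ 2 =
          (1 - (N : ℝ) / 2) + (-(b / 2) * (r - c) ^ 2) by ring, Real.exp_add]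
        ring

theorem rad_integral_le {N : ℕ} (hN : 0 < N) {b : ℝ} (hb : 0 < b) :
    ∫ r in Ioi (0 : ℝ), r ^ (N - 1) * Real.exp (-(b / 2) * r ^ 2) ≤
      Real.exp (1 - (N : ℝ) / 2) * (Real.sqrt N / Real.sqrt b) ^ (N - 1) *
        Real.sqrt (2 * Real.pi / b) := by
  set c : ℝ := Real.sqrt N / Real.sqrt b with hc
  have hint : Integrable fun r : ℝ => Real.exp (1 - (N : ℝ) / 2) * c ^ (N - 1) *
      Real.exp (-(b / 2) * (r - c) ^ 2) := by
    refine Integrable.const_mul ?_ _
    exact (integrable_exp_neg_mul_sq (half_pos hb)).comp_sub_right c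
  have hval : ∫ r : ℝ, Real.exp (-(b / 2) * (r - c) ^ 2) = Real.sqrt (2 * Real.pi / b) := by
    rw [integral_sub_right_eq_self (fun r : ℝ => Real.exp (-(b / 2) * r ^ 2)) c, integral_gaussian]
    congr 1
    field_simp
  have hc0 : 0 ≤ c := by positivity
  calc ∫ r in Ioi (0 : ℝ), r ^ (N - 1) * Real.exp (-(b / 2) * r ^ 2)
      ≤ ∫ r in Ioi (0 : ℝ), Real.exp (1 - (N : ℝ) / 2) * c ^ (N - 1) *
          Real.exp (-(b / 2) * (r - c) ^ 2) := by
        refine setIntegral_mono_on₀ ?_ hint.integrableOn nullMeasurableSet_Ioi fun r hr => ?_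
        · refine Integrable.mono' hint.integrableOn
            (by fun_prop : Measurable _).aestronglyMeasurable ?_
          filter_upwards [ae_restrict_mem measurableSet_Ioi] with r hr
          have hr' : (0 : ℝ) < r := hr
          rw [Real.norm_eq_abs, abs_of_nonneg (by positivity)]
          exact rad_pointwise hN hb hr'.le
        · exact rad_pointwise hN hb (le_of_lt hr)
    _ ≤ ∫ r : ℝ, Real.exp (1 - (N : ℝ) / 2) * c ^ (N - 1) *
          Real.exp (-(b / 2) * (r - c) ^ 2) :=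
        setIntegral_le_integral hint (Filter.Eventually.of_forall fun r => by positivity)
    _ = _ := by rw [integral_const_mul, hval]

/-- polar coordinates for the Gaussian integral, divided by the total mass -/
theorem rad_lap {N : ℕ} [NeZero N] {b : ℝ} (hb : 0 < b) (W : Eu N) :
    ∫ r in Ioi (0 : ℝ), r ^ (N - 1) * Real.exp (-(b / 2) * r ^ 2) * lap W r =
      Real.exp (‖W‖ ^ 2 / (2 * b)) *
        ∫ r in Ioi (0 : ℝ), r ^ (N - 1) * Real.exp (-(b / 2) * r ^ 2) := by
  have h1 := polar_gauss hb W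
  have h2 := polar_gauss hb (0 : Eu N)
  have h3 := gauss_shift hb W
  have h4 := gauss_shift hb (0 : Eu N)
  have hl : ∀ r, lap (0 : Eu N) r = 1 := fun r => by simp [lap]
  simp only [hl, mul_one] at h2
  rw [h2] at h4
  simp only [norm_zero, ne_eq, OfNat.ofNat_ne_zero, not_false_eq_true, zero_pow, zero_div,
    Real.exp_zero, one_mul] at h4
  rw [h1, ← h4] at h3
  have hS := (sphereLaw_real_pos N).ne'
  have h5 : (sphereLaw N).real univ *
      ∫ r in Ioi (0 : ℝ), r ^ (N - 1) * Real.exp (-(b / 2) * r ^ 2) * lap W r =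
      (sphereLaw N).real univ * (Real.exp (‖W‖ ^ 2 / (2 * b)) *
        ∫ r in Ioi (0 : ℝ), r ^ (N - 1) * Real.exp (-(b / 2) * r ^ 2)) := by
    rw [h3]; ring
  exact mul_left_cancel₀ hS h5



theorem lap_mono {N : ℕ} (W : Eu N) {r s : ℝ} (hr : 0 ≤ r) (hrs : r ≤ s) : lap W r ≤ lap W s :=
  integral_exp_mono W hr hrs

theorem rad_lap_integrable {N : ℕ} [NeZero N] {b : ℝ} (hb : 0 < b) (W : Eu N) :
    IntegrableOn (fun r : ℝ => r ^ (N - 1) * Real.exp (-(b / 2) * r ^ 2) * lap W r)
      (Ioi (0 : ℝ)) := by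
  by_contra hcon
  have h1 := rad_lap hb W
  rw [integral_undef hcon] at h1
  have h2 : 0 < ∫ r in Ioi (0 : ℝ), r ^ (N - 1) * Real.exp (-(b / 2) * r ^ 2) := by
    have h3 := polar_gauss hb (0 : Eu N)
    have hl : ∀ r, lap (0 : Eu N) r = 1 := fun r => by simp [lap]
    simp only [hl, mul_one] at h3
    have h4 : 0 < ∫ x : Eu N, Real.exp (inner ℝ (0 : Eu N) x - b / 2 * ‖x‖ ^ 2) :=
      integral_exp_pos (gauss_shift_integrable hb 0)
    rw [h3] at h4
    exact (pos_iff_pos_of_mul_pos h4).1 (sphereLaw_real_pos N)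
  have h5 := mul_pos (Real.exp_pos (‖W‖ ^ 2 / (2 * b))) h2
  linarith

/-- **The exponential bound on the sphere.** -/
theorem sphere_exp_bound {N : ℕ} [NeZero N] {b : ℝ} (hb : 0 < b) (W : Eu N) :
    ∫ y : UnitSphere N, Real.exp (Real.sqrt N * inner ℝ W (y : Eu N)) ∂(sig N) ≤
      (Real.exp 1 * Real.sqrt (2 * Real.pi)) * Real.sqrt N * Real.exp (3 * b / 2) *
        Real.exp (N * (b - 1 - Real.log b) / 2 + ‖W‖ ^ 2 / (2 * b)) := by
  have hN : 0 < N := Nat.pos_of_ne_zero (NeZero.ne N)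
  have hN' : (0 : ℝ) < N := by exact_mod_cast hN
  have hN1 : (1 : ℝ) ≤ N := by exact_mod_cast hN
  set s : ℝ := Real.sqrt N with hs
  have hs0 : 0 < s := Real.sqrt_pos.2 hN'
  have hss : s ^ 2 = N := Real.sq_sqrt hN'.le
  set A : ℝ := lap W s with hA
  have hA0 : 0 < A := lap_pos W s
  -- lower bound of the radial integral by the window
  have hwin : A * (s ^ (N - 1) * Real.exp (-(b / 2) * (N + 3)) * s⁻¹) ≤
      ∫ r in Ioi (0 : ℝ), r ^ (N - 1) * Real.exp (-(b / 2) * r ^ 2) * lap W r := by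
    have hsub : Icc s (s + s⁻¹) ⊆ Ioi (0 : ℝ) := fun r hr => lt_of_lt_of_le hs0 hr.1
    have hvol : (volume : Measure ℝ).real (Icc s (s + s⁻¹)) = s⁻¹ := by
      rw [Measure.real, Real.volume_Icc, add_sub_cancel_left, ENNReal.toReal_ofReal (by positivity)]
    calc A * (s ^ (N - 1) * Real.exp (-(b / 2) * (N + 3)) * s⁻¹)
        = ∫ _r in Icc s (s + s⁻¹), A * (s ^ (N - 1) * Real.exp (-(b / 2) * (N + 3))) := by
          rw [setIntegral_const, hvol, smul_eq_mul]
          ring
      _ ≤ ∫ r in Icc s (s + s⁻¹), r ^ (N - 1) * Real.exp (-(b / 2) * r ^ 2) * lap W r := by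
          refine setIntegral_mono_on ?_ ((rad_lap_integrable hb W).mono_set hsub)
            measurableSet_Icc fun r hr => ?_
          · exact integrableOn_const (by simp)
          · have hr0 : 0 < r := lt_of_lt_of_le hs0 hr.1
            have h1 : s ^ (N - 1) ≤ r ^ (N - 1) := pow_le_pow_left₀ hs0.le hr.1 _
            have h2 : Real.exp (-(b / 2) * (N + 3)) ≤ Real.exp (-(b / 2) * r ^ 2) := by
              refine Real.exp_le_exp.2 ?_
              have h3 : r ^ 2 ≤ N + 3 := by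
                calc r ^ 2 ≤ (s + s⁻¹) ^ 2 := pow_le_pow_left₀ hr0.le hr.2 2
                  _ = s ^ 2 + 2 + (s⁻¹) ^ 2 := by field_simp; ring
                  _ ≤ N + 3 := by
                    rw [hss]
                    have : (s⁻¹) ^ 2 ≤ 1 := by
                      rw [inv_pow, hss]
                      exact inv_le_one_of_one_le₀ hN1
                    linarith
              nlinarith
            have h4 : A ≤ lap W r := lap_mono W hs0.le hr.1
            calc A * (s ^ (N - 1) * Real.exp (-(b / 2) * (N + 3)))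
                ≤ lap W r * (r ^ (N - 1) * Real.exp (-(b / 2) * r ^ 2)) := by
                  refine mul_le_mul h4 (mul_le_mul h1 h2 (Real.exp_pos _).le (by positivity))
                    (by positivity) (lap_pos W r).le
              _ = _ := by ring
      _ ≤ _ := by
          refine setIntegral_mono_set (rad_lap_integrable hb W) ?_ hsub.eventuallyLE
          filter_upwards [ae_restrict_mem measurableSet_Ioi] with r hr
          have hr' : (0 : ℝ) < r := hr
          exact mul_nonneg (by positivity) (lap_pos W r).le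
  rw [rad_lap hb W] at hwin
  have hJ := rad_integral_le hN hb
  have h6 : A * (s ^ (N - 1) * Real.exp (-(b / 2) * (N + 3)) * s⁻¹) ≤
      Real.exp (‖W‖ ^ 2 / (2 * b)) * (Real.exp (1 - (N : ℝ) / 2) * (s / Real.sqrt b) ^ (N - 1) *
        Real.sqrt (2 * Real.pi / b)) :=
    hwin.trans (mul_le_mul_of_nonneg_left hJ (Real.exp_pos _).le)
  -- rewrite
  have hsb : 0 < Real.sqrt b := Real.sqrt_pos.2 hb
  have h7 : (s / Real.sqrt b) ^ (N - 1) * Real.sqrt (2 * Real.pi / b) =
      s ^ (N - 1) * (Real.sqrt (2 * Real.pi) * Real.exp (-(N * Real.log b / 2))) := by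
    rw [div_pow, Real.sqrt_div (by positivity)]
    have h8 : Real.exp (-(N * Real.log b / 2)) = ((Real.sqrt b) ^ N)⁻¹ := by
      rw [Real.exp_neg]
      congr 1
      rw [show (N : ℝ) * Real.log b / 2 = N * (Real.log b / 2) by ring, Real.exp_nat_mul,
        ← Real.log_sqrt hb.le, Real.exp_log hsb]
    rw [h8]
    have h9 : (Real.sqrt b) ^ N = (Real.sqrt b) ^ (N - 1) * Real.sqrt b := by
      rw [← pow_succ, Nat.sub_add_cancel hN]
    rw [h9]
    field_simp
  have h10 : A * (Real.exp (-(b / 2) * (N + 3)) * s⁻¹) ≤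
      Real.exp (‖W‖ ^ 2 / (2 * b)) * (Real.exp (1 - (N : ℝ) / 2) *
        (Real.sqrt (2 * Real.pi) * Real.exp (-(N * Real.log b / 2)))) := by
    have hsp : 0 < s ^ (N - 1) := pow_pos hs0 _
    refine le_of_mul_le_mul_left ?_ hsp
    calc s ^ (N - 1) * (A * (Real.exp (-(b / 2) * (N + 3)) * s⁻¹))
        = A * (s ^ (N - 1) * Real.exp (-(b / 2) * (N + 3)) * s⁻¹) := by ring
      _ ≤ _ := h6
      _ = Real.exp (‖W‖ ^ 2 / (2 * b)) * (Real.exp (1 - (N : ℝ) / 2) *
          ((s / Real.sqrt b) ^ (N - 1) * Real.sqrt (2 * Real.pi / b))) := by ring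
      _ = _ := by rw [h7]; ring
  have h11 : A ≤ s * Real.exp ((b / 2) * (N + 3)) *
      (Real.exp (‖W‖ ^ 2 / (2 * b)) * (Real.exp (1 - (N : ℝ) / 2) *
        (Real.sqrt (2 * Real.pi) * Real.exp (-(N * Real.log b / 2))))) := by
    have h12 : A = s * Real.exp ((b / 2) * (N + 3)) *
        (A * (Real.exp (-(b / 2) * (N + 3)) * s⁻¹)) := by
      rw [neg_mul, Real.exp_neg]
      field_simp
    calc A = _ := h12
      _ ≤ _ := mul_le_mul_of_nonneg_left h10 (by positivity)
  refine h11.trans (le_of_eq ?_)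
  have h13 : Real.exp 1 * Real.exp (3 * b / 2) *
      Real.exp (N * (b - 1 - Real.log b) / 2 + ‖W‖ ^ 2 / (2 * b)) =
      Real.exp ((b / 2) * (N + 3)) * (Real.exp (‖W‖ ^ 2 / (2 * b)) *
        (Real.exp (1 - (N : ℝ) / 2) * Real.exp (-(N * Real.log b / 2)))) := by
    simp only [← Real.exp_add]
    congr 1
    ring
  calc s * Real.exp ((b / 2) * (N + 3)) *
      (Real.exp (‖W‖ ^ 2 / (2 * b)) * (Real.exp (1 - (N : ℝ) / 2) *
        (Real.sqrt (2 * Real.pi) * Real.exp (-(N * Real.log b / 2)))))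
      = s * Real.sqrt (2 * Real.pi) * (Real.exp ((b / 2) * (N + 3)) *
        (Real.exp (‖W‖ ^ 2 / (2 * b)) *
        (Real.exp (1 - (N : ℝ) / 2) * Real.exp (-(N * Real.log b / 2))))) := by ring
    _ = _ := by rw [← h13]; ring

end Crest.Agent.R146.Sph214
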