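import Crest.Agent.R146.S6U_988
import Crest.Agent.R146.OvcA_679
import Crest.Agent.R146.Sph2_214_Mg

-- ▼ part R146/S6U1_993
section

/-!
Row 146 (S0206), node U1 (helper993), and the coin recursion for U0.

* `one_row`: one coin row is dominated by a Gaussian step: if `V ≤ c0 + ∑_i (W_i + σ s_i)²/(2β)`,
  `W` known at step `k`, the row `(g, t)` revealed at step `k + 1`, `β' = β - x σ² > 0`, then
  `pm_x V ≤ c0 + ∑_i W_i²/(2β') + N/(2x) (log β - log β')`;
* `cell_step`: the same for a whole cell; `cells`: for all the cells;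
* `result`: the Prop `S6U_988.U1`.
-/

set_option autoImplicit false

namespace Crest.Agent.R146.S6U1_993

open Finset MeasureTheory
open Crest.Agent.R141 (IsProb IsExpo Filt eE cE tl A S Coin RMeas pm exp_pm pm_mono pm_of_meas
  cE_pos cE_mono' cE_meas A_step A_mono A_of_meas A_step_lt eE_le_of_le)
open Crest.Agent.R146.S6Def_988 Crest.Agent.R146.OvcA_679

noncomputable section

/-! ### scalar inequalities -/

/-- one sign -/
theorem scal {c w σ : ℝ} (hc : 0 ≤ c) (hu : 2 * c * σ ^ 2 < 1) :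
    1 / 2 * (Real.exp (c * (w + σ) ^ 2) + Real.exp (c * (w - σ) ^ 2)) ≤
      Real.exp (c * w ^ 2 / (1 - 2 * c * σ ^ 2) - 1 / 2 * Real.log (1 - 2 * c * σ ^ 2)) := by
  set u := 2 * c * σ ^ 2 with hu_def
  have hu0 : 0 ≤ u := by rw [hu_def]; positivity
  have h1 : 0 < 1 - u := by linarith
  have e1 : 1 / 2 * (Real.exp (c * (w + σ) ^ 2) + Real.exp (c * (w - σ) ^ 2)) =
      Real.exp (c * w ^ 2 + u / 2) * Real.cosh (2 * c * w * σ) := by
    rw [Real.cosh_eq]
    rw [show Real.exp (c * w ^ 2 + u / 2) * ((Real.exp (2 * c * w * σ) +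
      Real.exp (-(2 * c * w * σ))) / 2) = 1 / 2 * (Real.exp (c * w ^ 2 + u / 2) *
      Real.exp (2 * c * w * σ) + Real.exp (c * w ^ 2 + u / 2) * Real.exp (-(2 * c * w * σ))) by ring,
      ← Real.exp_add, ← Real.exp_add]
    congr 2
    · congr 1; rw [hu_def]; ring
    · congr 1; rw [hu_def]; ring
  rw [e1]
  refine (mul_le_mul_of_nonneg_left (Real.cosh_le_exp_half_sq _) (Real.exp_pos _).le).trans ?_
  rw [← Real.exp_add]
  refine Real.exp_le_exp.mpr ?_
  have h2 : Real.log (1 - u) ≤ -u := by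
    have := Real.log_le_sub_one_of_pos h1
    linarith
  have h3 : c * w ^ 2 * (1 + u) ≤ c * w ^ 2 / (1 - u) := by
    rw [le_div_iff₀ h1]
    have h4 : 0 ≤ c * w ^ 2 := by positivity
    nlinarith [mul_nonneg h4 (sq_nonneg u)]
  have e2 : (2 * c * w * σ) ^ 2 / 2 = c * w ^ 2 * u := by rw [hu_def]; ring
  rw [e2]
  linarith

/-- one sign, in the variables of the recursion -/
theorem scal' {x β β' w σ : ℝ} (hx : 0 < x) (hβ' : 0 < β') (hβ : β' = β - x * σ ^ 2) :
    1 / 2 * (Real.exp (x * ((w + σ) ^ 2 / (2 * β))) + Real.exp (x * ((w - σ) ^ 2 / (2 * β)))) ≤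
      Real.exp (x * (w ^ 2 / (2 * β') + 1 / (2 * x) * (Real.log β - Real.log β'))) := by
  have hβ0 : 0 < β := by
    have : 0 ≤ x * σ ^ 2 := by positivity
    linarith
  have e0 : 2 * (x / (2 * β)) * σ ^ 2 = x * σ ^ 2 / β := by field_simp
  have e1 : 1 - 2 * (x / (2 * β)) * σ ^ 2 = β' / β := by
    rw [e0, hβ]; field_simp
  have hlt : 2 * (x / (2 * β)) * σ ^ 2 < 1 := by
    have : 0 < β' / β := div_pos hβ' hβ0
    linarith
  have h := scal (c := x / (2 * β)) (w := w) (σ := σ) (by positivity) hlt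
  rw [e1] at h
  have e2 : x * (w ^ 2 / (2 * β') + 1 / (2 * x) * (Real.log β - Real.log β')) =
      x / (2 * β) * w ^ 2 / (β' / β) - 1 / 2 * Real.log (β' / β) := by
    rw [Real.log_div hβ'.ne' hβ0.ne']
    field_simp
    ring
  rw [e2]
  have e3 : x * ((w + σ) ^ 2 / (2 * β)) = x / (2 * β) * (w + σ) ^ 2 := by ring
  have e4 : x * ((w - σ) ^ 2 / (2 * β)) = x / (2 * β) * (w - σ) ^ 2 := by ring
  rw [e3, e4]
  exact h

variable {N : ℕ} (C : Cfg N) (nc n : ℕ)

/-! ### one coin row -/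

/-- partially averaged exponent -/
def EJ (g : Fin nc) (t : Fin n) (c0 x σ β β' : ℝ) (W : Om C nc n → Fin N → ℝ)
    (J : Finset (Fin N)) (ω : Om C nc n) : ℝ :=
  c0 + ∑ i, if i ∈ J then W ω i ^ 2 / (2 * β') + 1 / (2 * x) * (Real.log β - Real.log β')
    else (W ω i + σ * sv (ω.2 g t i)) ^ 2 / (2 * β)

theorem cE_EJ (g : Fin nc) (t : Fin n) {k : ℕ} (hk : k ≤ (g : ℕ) * n + t) {c0 x σ β β' : ℝ}
    (hx : 0 < x) (hβ' : 0 < β') (hβ : β' = β - x * σ ^ 2) {W : Om C nc n → Fin N → ℝ}
    (hW : ∀ i, RMeas ((fil C nc n).F k) (fun ω => W ω i)) (ω : Om C nc n) (J : Finset (Fin N)) :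
    cE (prior C nc n) ((fil C nc n).F k)
      (fun ω' => Real.exp (x * EJ C nc n g t c0 x σ β β' W ∅ ω')) ω ≤
    cE (prior C nc n) ((fil C nc n).F k)
      (fun ω' => Real.exp (x * EJ C nc n g t c0 x σ β β' W J ω')) ω := by
  have hP := prior_isProb C nc n
  induction J using Finset.induction_on with
  | empty => exact le_rfl
  | insert i J hi ih =>
    refine ih.trans ?_
    have hl : k + 1 ≤ cst n g t := by unfold cst; omega
    rw [R164.CoinIBP.cE_sym (coin C nc n g t i) hl]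
    refine cE_mono' hP (fun a => ?_) ω
    -- the rest
    set R : ℝ := c0 + ∑ j ∈ univ.erase i, (if j ∈ J then W a j ^ 2 / (2 * β') +
      1 / (2 * x) * (Real.log β - Real.log β')
      else (W a j + σ * sv (a.2 g t j)) ^ 2 / (2 * β)) with hR
    have hWf : ∀ j, W (flp C nc n g t i a) j = W a j := by
      intro j
      have h1 := (coin C nc n g t i).rel_flip a
      have h2 : (fil C nc n).F k a (flp C nc n g t i a) :=
        (fil C nc n).anti' (by unfold cst; omega) h1
      exact (hW j _ _ h2).symm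
    have e1 : EJ C nc n g t c0 x σ β β' W J a =
        R + (W a i + σ * sv (a.2 g t i)) ^ 2 / (2 * β) := by
      unfold EJ
      rw [← Finset.add_sum_erase univ _ (mem_univ i), if_neg hi, hR]
      ring
    have e2 : EJ C nc n g t c0 x σ β β' W J (flp C nc n g t i a) =
        R + (W a i - σ * sv (a.2 g t i)) ^ 2 / (2 * β) := by
      unfold EJ
      rw [← Finset.add_sum_erase univ _ (mem_univ i), if_neg hi, hR, hWf i, flp_snd, cupd_self,
        sv_not]
      have : ∑ j ∈ univ.erase i, (if j ∈ J then W (flp C nc n g t i a) j ^ 2 / (2 * β') +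
          1 / (2 * x) * (Real.log β - Real.log β')
          else (W (flp C nc n g t i a) j + σ * sv (cupd a.2 g t i g t j)) ^ 2 / (2 * β)) =
          ∑ j ∈ univ.erase i, (if j ∈ J then W a j ^ 2 / (2 * β') +
          1 / (2 * x) * (Real.log β - Real.log β')
          else (W a j + σ * sv (a.2 g t j)) ^ 2 / (2 * β)) := by
        refine Finset.sum_congr rfl fun j hj => ?_
        rw [Finset.mem_erase] at hj
        rw [hWf j, cupd_of_ne]
        rintro ⟨-, -, h⟩
        exact hj.1 h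
      rw [this]
      ring
    have e3 : EJ C nc n g t c0 x σ β β' W (insert i J) a =
        R + (W a i ^ 2 / (2 * β') + 1 / (2 * x) * (Real.log β - Real.log β')) := by
      unfold EJ
      rw [← Finset.add_sum_erase univ _ (mem_univ i), if_pos (mem_insert_self i J), hR]
      have : ∑ j ∈ univ.erase i, (if j ∈ insert i J then W a j ^ 2 / (2 * β') +
          1 / (2 * x) * (Real.log β - Real.log β')
          else (W a j + σ * sv (a.2 g t j)) ^ 2 / (2 * β)) =
          ∑ j ∈ univ.erase i, (if j ∈ J then W a j ^ 2 / (2 * β') +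
          1 / (2 * x) * (Real.log β - Real.log β')
          else (W a j + σ * sv (a.2 g t j)) ^ 2 / (2 * β)) := by
        refine Finset.sum_congr rfl fun j hj => ?_
        rw [Finset.mem_erase] at hj
        have : (j ∈ insert i J) = (j ∈ J) := by
          rw [Finset.mem_insert, eq_iff_iff]
          exact ⟨fun h => h.resolve_left hj.1, Or.inr⟩
        simp only [this]
      rw [this]
      ring
    have hβ2 : β' = β - x * (σ * sv (a.2 g t i)) ^ 2 := by
      rw [mul_pow, sq (sv _), sv_mul_self, mul_one]; exact hβ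
    have h := scal' (w := W a i) hx hβ' hβ2
    show 1 / 2 * (Real.exp (x * EJ C nc n g t c0 x σ β β' W J a) +
      Real.exp (x * EJ C nc n g t c0 x σ β β' W J (flp C nc n g t i a))) ≤ _
    clear_value R
    have hs : ∀ y : ℝ, Real.exp (x * (R + y)) = Real.exp (x * R) * Real.exp (x * y) := fun y => by
      rw [mul_add, Real.exp_add]
    rw [e1, e2, e3, hs, hs, hs, ← mul_add, ← mul_assoc, mul_comm (1 / 2) (Real.exp (x * R)),
      mul_assoc]
    exact mul_le_mul_of_nonneg_left h (Real.exp_pos _).le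

/-- **one coin row is dominated by a Gaussian step.** -/
theorem one_row (g : Fin nc) (t : Fin n) {k : ℕ} (hk : k ≤ (g : ℕ) * n + t) {c0 x σ β β' : ℝ}
    (hx : 0 < x) (hβ' : 0 < β') (hβ : β' = β - x * σ ^ 2) {W : Om C nc n → Fin N → ℝ}
    (hW : ∀ i, RMeas ((fil C nc n).F k) (fun ω => W ω i)) {V : Om C nc n → ℝ}
    (hV : ∀ ω, V ω ≤ c0 + ∑ i, (W ω i + σ * sv (ω.2 g t i)) ^ 2 / (2 * β)) (ω : Om C nc n) :
    pm (prior C nc n) ((fil C nc n).F k) x V ω ≤
      c0 + ∑ i, W ω i ^ 2 / (2 * β') + N / (2 * x) * (Real.log β - Real.log β') := by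
  have hP := prior_isProb C nc n
  have h0 : ∀ ω, V ω ≤ EJ C nc n g t c0 x σ β β' W ∅ ω := by
    intro ω
    refine (hV ω).trans (le_of_eq ?_)
    unfold EJ
    simp
  refine (pm_mono hP hx ω fun a _ => h0 a).trans ?_
  have h1 : pm (prior C nc n) ((fil C nc n).F k) x (EJ C nc n g t c0 x σ β β' W ∅) ω ≤
      pm (prior C nc n) ((fil C nc n).F k) x (EJ C nc n g t c0 x σ β β' W univ) ω := by
    unfold pm
    refine mul_le_mul_of_nonneg_left ?_ (by positivity)
    exact Real.log_le_log (cE_pos hP (fun _ => Real.exp_pos _) ω)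
      (cE_EJ C nc n g t hk hx hβ' hβ hW ω univ)
  refine h1.trans ?_
  have e1 : EJ C nc n g t c0 x σ β β' W univ = fun ω =>
      c0 + ∑ i, W ω i ^ 2 / (2 * β') + N / (2 * x) * (Real.log β - Real.log β') := by
    funext ω
    unfold EJ
    simp only [mem_univ, if_true, Finset.sum_add_distrib, Finset.sum_const, Finset.card_univ,
      Fintype.card_fin, nsmul_eq_mul]
    ring
  rw [e1, pm_of_meas hP hx]
  intro a b hab
  have : ∀ i, W a i = W b i := fun i => hW i a b hab
  simp only [this]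

/-! ### a cell, all cells -/

/-- partial field: the coin rows revealed up to step `k`, with strengths -/
def Wk (s : Fin nc → ℝ) (k : ℕ) (ω : Om C nc n) (i : Fin N) : ℝ :=
  ∑ g : Fin nc, ∑ t : Fin n, if (g : ℕ) * n + t < k then
    (Real.sqrt n)⁻¹ * s g * sv (ω.2 g t i) else 0

theorem Wk_meas (s : Fin nc → ℝ) (k : ℕ) (i : Fin N) :
    RMeas ((fil C nc n).F k) (fun ω => Wk C nc n s k ω i) := by
  intro a b h
  have h : frel C nc n k a b := h
  show Wk C nc n s k a i = Wk C nc n s k b i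
  unfold Wk
  refine Finset.sum_congr rfl fun g _ => Finset.sum_congr rfl fun t _ => ?_
  by_cases hk : (g : ℕ) * n + t < k
  · rw [if_pos hk, if_pos hk, h.1 g t hk]
  · rw [if_neg hk, if_neg hk]

theorem Wk_succ (s : Fin nc → ℝ) (g : Fin nc) (t : Fin n) (ω : Om C nc n) (i : Fin N) :
    Wk C nc n s ((g : ℕ) * n + t + 1) ω i =
      Wk C nc n s ((g : ℕ) * n + t) ω i + (Real.sqrt n)⁻¹ * s g * sv (ω.2 g t i) := by
  unfold Wk
  have h1 : ∀ (g' : Fin nc) (t' : Fin n), (if (g' : ℕ) * n + t' < (g : ℕ) * n + t + 1 then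
      (Real.sqrt n)⁻¹ * s g' * sv (ω.2 g' t' i) else 0) =
      (if (g' : ℕ) * n + t' < (g : ℕ) * n + t then
      (Real.sqrt n)⁻¹ * s g' * sv (ω.2 g' t' i) else 0) +
      (if g' = g then (if t' = t then (Real.sqrt n)⁻¹ * s g * sv (ω.2 g t i) else 0) else 0) := by
    intro g' t'
    by_cases h : (g' : ℕ) * n + t' < (g : ℕ) * n + t
    · rw [if_pos (by omega), if_pos h]
      by_cases h2 : g' = g
      · rw [if_pos h2]
        by_cases h3 : t' = t
        · exfalso; rw [h2, h3] at h; exact lt_irrefl _ h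
        · rw [if_neg h3, add_zero]
      · rw [if_neg h2, add_zero]
    · rw [if_neg h, zero_add]
      by_cases h2 : (g' : ℕ) * n + t' < (g : ℕ) * n + t + 1
      · obtain ⟨rfl, rfl⟩ := row_inj nc n (show (g' : ℕ) * n + t' = (g : ℕ) * n + t by omega)
        rw [if_pos h2, if_pos rfl, if_pos rfl]
      · rw [if_neg h2]
        by_cases h3 : g' = g
        · rw [if_pos h3]
          by_cases h4 : t' = t
          · exfalso; apply h2; rw [h3, h4]; exact Nat.lt_succ_self _
          · rw [if_neg h4]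
        · rw [if_neg h3]
  simp only [h1, Finset.sum_add_distrib]
  congr 1
  rw [Finset.sum_eq_single g]
  · simp
  · intro g' _ h; simp [h]
  · intro h; exact absurd (mem_univ g) h

theorem Wk_last (s : Fin nc → ℝ) (ω : Om C nc n) (i : Fin N) :
    Wk C nc n s (nc * n) ω i = ∑ g, s g * zf ω.2 g i := by
  unfold Wk zf
  refine Finset.sum_congr rfl fun g _ => ?_
  rw [← mul_assoc, Finset.mul_sum]
  refine Finset.sum_congr rfl fun t _ => ?_
  have h1 : (g : ℕ) * n + t < ((g : ℕ) + 1) * n := by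
    have := t.2
    rw [add_mul, one_mul]; omega
  have h2 : ((g : ℕ) + 1) * n ≤ nc * n := Nat.mul_le_mul_right n g.2
  rw [if_pos (by omega)]
  ring

theorem Wk_zero (s : Fin nc → ℝ) (ω : Om C nc n) (i : Fin N) : Wk C nc n s 0 ω i = 0 := by
  unfold Wk
  simp

/-- **one step of the recursion.** -/
theorem step_row (s : Fin nc → ℝ) (U : Om C nc n → ℝ) (g : Fin nc) (t : Fin n) {E0 β β' : ℝ}
    (hβ' : 0 < β')
    (hβ : β' = β - ((g : ℝ) + 1) / ((nc : ℝ) + 1) * (s g ^ 2 / n))
    (hU : ∀ ω, A (prior C nc n) (fil C nc n) (xs nc n) U ((g : ℕ) * n + t + 1) ω ≤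
      E0 + ∑ i, Wk C nc n s ((g : ℕ) * n + t + 1) ω i ^ 2 / (2 * β)) (ω : Om C nc n) :
    A (prior C nc n) (fil C nc n) (xs nc n) U ((g : ℕ) * n + t) ω ≤
      E0 + ∑ i, Wk C nc n s ((g : ℕ) * n + t) ω i ^ 2 / (2 * β') +
        N / (2 * (((g : ℝ) + 1) / ((nc : ℝ) + 1))) * (Real.log β - Real.log β') := by
  have hP := prior_isProb C nc n
  have hn : 0 < n := by have := t.2; omega
  have hx : xs nc n ((g : ℕ) * n + t + 1) = ((g : ℝ) + 1) / ((nc : ℝ) + 1) :=
    xs_cell nc n g.2.le (by omega) (by have := t.2; rw [add_mul, one_mul]; omega)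
  rw [A_step hP (xs_pos nc n) U]
  rw [hx]
  refine one_row C nc n g t le_rfl (σ := (Real.sqrt n)⁻¹ * s g) (by positivity) hβ' ?_
    (W := Wk C nc n s ((g : ℕ) * n + t)) (fun i => Wk_meas C nc n s _ i) ?_ ω
  · rw [hβ, mul_pow, inv_pow, Real.sq_sqrt (by positivity)]
    ring
  · intro ω
    refine (hU ω).trans (le_of_eq ?_)
    congr 1
    refine Finset.sum_congr rfl fun i _ => ?_
    rw [Wk_succ]

/-- **one cell of the recursion.** -/
theorem cell_step (hn : 0 < n) (s : Fin nc → ℝ) (U : Om C nc n → ℝ) (g : Fin nc) {E0 b b' : ℝ}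
    (hb' : 0 < b') (hb : b' = b - ((g : ℝ) + 1) / ((nc : ℝ) + 1) * s g ^ 2)
    (hU : ∀ ω, A (prior C nc n) (fil C nc n) (xs nc n) U (((g : ℕ) + 1) * n) ω ≤
      E0 + ∑ i, Wk C nc n s (((g : ℕ) + 1) * n) ω i ^ 2 / (2 * b)) :
    ∀ ω, A (prior C nc n) (fil C nc n) (xs nc n) U ((g : ℕ) * n) ω ≤
      E0 + ∑ i, Wk C nc n s ((g : ℕ) * n) ω i ^ 2 / (2 * b') +
        N / (2 * (((g : ℝ) + 1) / ((nc : ℝ) + 1))) * (Real.log b - Real.log b') := by
  set x : ℝ := ((g : ℝ) + 1) / ((nc : ℝ) + 1) with hx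
  have hx0 : 0 < x := by rw [hx]; positivity
  have hn' : (0 : ℝ) < n := by exact_mod_cast hn
  have key : ∀ m : ℕ, m ≤ n → ∀ ω,
      A (prior C nc n) (fil C nc n) (xs nc n) U ((g : ℕ) * n + (n - m)) ω ≤
      E0 + ∑ i, Wk C nc n s ((g : ℕ) * n + (n - m)) ω i ^ 2 / (2 * (b - m / n * (x * s g ^ 2))) +
        N / (2 * x) * (Real.log b - Real.log (b - m / n * (x * s g ^ 2))) := by
    intro m
    induction m with
    | zero =>
      intro _ ω
      have h := hU ω
      rw [add_mul, one_mul] at h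
      simpa using h
    | succ m ih =>
      intro hm ω
      have h1 := ih (by omega)
      have ht : n - (m + 1) < n := by omega
      have h2 : n - m = n - (m + 1) + 1 := by omega
      rw [h2, ← add_assoc] at h1
      have hpos : 0 < b - ((m + 1 : ℕ) : ℝ) / n * (x * s g ^ 2) := by
        have h3 : ((m + 1 : ℕ) : ℝ) / n ≤ 1 := by
          rw [div_le_one hn']; exact_mod_cast hm
        have h4 : 0 ≤ x * s g ^ 2 := by positivity
        nlinarith
      have h5 := step_row C nc n s U g ⟨n - (m + 1), ht⟩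
        (E0 := E0 + N / (2 * x) * (Real.log b - Real.log (b - m / n * (x * s g ^ 2))))
        (β := b - m / n * (x * s g ^ 2)) (β' := b - ((m + 1 : ℕ) : ℝ) / n * (x * s g ^ 2)) hpos
        (by rw [← hx]; push_cast; field_simp; ring)
        (fun ω => (h1 ω).trans (le_of_eq (by ring))) ω
      refine h5.trans (le_of_eq ?_)
      rw [← hx]
      ring
  intro ω
  have h := key n le_rfl ω
  rw [Nat.sub_self, add_zero, div_self hn'.ne', one_mul, ← hb] at h
  exact h

/-- **all cells of the recursion**: Gaussian domination of the coins. -/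
theorem cells (hn : 0 < n) (s : Fin nc → ℝ) (U : Om C nc n → ℝ) (b : ℕ → ℝ) {E0 : ℝ}
    (hb0 : ∀ g < nc, 0 < b g)
    (hb : ∀ g : Fin nc, b g = b ((g : ℕ) + 1) - ((g : ℝ) + 1) / ((nc : ℝ) + 1) * s g ^ 2)
    (hU : ∀ ω, A (prior C nc n) (fil C nc n) (xs nc n) U (nc * n) ω ≤
      E0 + ∑ i, (∑ g, s g * zf ω.2 g i) ^ 2 / (2 * b nc)) (ω : Om C nc n) :
    A (prior C nc n) (fil C nc n) (xs nc n) U 0 ω ≤
      E0 + N / 2 * ∑ g ∈ range nc, ((nc : ℝ) + 1) / ((g : ℝ) + 1) *
        (Real.log (b (g + 1)) - Real.log (b g)) := by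
  have key : ∀ m : ℕ, m ≤ nc → ∀ ω,
      A (prior C nc n) (fil C nc n) (xs nc n) U ((nc - m) * n) ω ≤
      E0 + ∑ i, Wk C nc n s ((nc - m) * n) ω i ^ 2 / (2 * b (nc - m)) +
        N / 2 * ∑ g ∈ Ico (nc - m) nc, ((nc : ℝ) + 1) / ((g : ℝ) + 1) *
          (Real.log (b (g + 1)) - Real.log (b g)) := by
    intro m
    induction m with
    | zero =>
      intro _ ω
      simp only [Nat.sub_zero, Finset.Ico_self, Finset.sum_empty, mul_zero, add_zero]
      refine (hU ω).trans (le_of_eq ?_)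
      simp only [Wk_last]
    | succ m ih =>
      intro hm ω
      have h1 := ih (by omega)
      have hg : nc - (m + 1) < nc := by omega
      have h2 : nc - m = nc - (m + 1) + 1 := by omega
      rw [h2] at h1
      have h3 := cell_step C nc n hn s U ⟨nc - (m + 1), hg⟩
        (E0 := E0 + N / 2 * ∑ g ∈ Ico (nc - (m + 1) + 1) nc, ((nc : ℝ) + 1) / ((g : ℝ) + 1) *
          (Real.log (b (g + 1)) - Real.log (b g)))
        (b := b (nc - (m + 1) + 1)) (b' := b (nc - (m + 1))) (hb0 _ hg) (hb ⟨_, hg⟩)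
        (fun ω => (h1 ω).trans (le_of_eq (by ring))) ω
      refine h3.trans (le_of_eq ?_)
      rw [Finset.sum_eq_sum_Ico_succ_bot hg]
      have hpos : ((nc - (m + 1) : ℕ) : ℝ) + 1 ≠ 0 := by positivity
      have hpos2 : (nc : ℝ) + 1 ≠ 0 := by positivity
      show E0 + N / 2 * _ + _ + N / (2 * ((((nc - (m + 1) : ℕ) : ℝ) + 1) / ((nc : ℝ) + 1))) * _ = _
      field_simp
      ring
  have h := key nc le_rfl ω
  simp only [Nat.sub_self, zero_mul, Wk_zero] at h
  rw [← Nat.Ico_zero_eq_range]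
  simpa using h

/-! ### U1 -/

/-- partial sums of the field budget -/
def bs (s : Fin nc → ℝ) (g : ℕ) : ℝ :=
  1 + ∑ g' : Fin nc, if (g' : ℕ) < g then ((g' : ℝ) + 1) / ((nc : ℝ) + 1) * s g' ^ 2 else 0

theorem one_le_bs (s : Fin nc → ℝ) (g : ℕ) : 1 ≤ bs nc s g := by
  unfold bs
  have : 0 ≤ ∑ g' : Fin nc, if (g' : ℕ) < g then ((g' : ℝ) + 1) / ((nc : ℝ) + 1) * s g' ^ 2
      else 0 := Finset.sum_nonneg fun g' _ => by split_ifs <;> positivity
  linarith

theorem bs_succ (s : Fin nc → ℝ) (g : Fin nc) :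
    bs nc s g = bs nc s ((g : ℕ) + 1) - ((g : ℝ) + 1) / ((nc : ℝ) + 1) * s g ^ 2 := by
  unfold bs
  have h1 : ∀ g' : Fin nc, (if (g' : ℕ) < (g : ℕ) + 1 then
      ((g' : ℝ) + 1) / ((nc : ℝ) + 1) * s g' ^ 2 else 0) =
      (if (g' : ℕ) < (g : ℕ) then ((g' : ℝ) + 1) / ((nc : ℝ) + 1) * s g' ^ 2 else 0) +
      (if g' = g then ((g : ℝ) + 1) / ((nc : ℝ) + 1) * s g ^ 2 else 0) := by
    intro g'
    rcases lt_trichotomy (g' : ℕ) (g : ℕ) with h | h | h
    · rw [if_pos (by omega), if_pos h, if_neg (fun h' => by rw [h'] at h; exact lt_irrefl _ h),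
        add_zero]
    · have : g' = g := Fin.ext h
      subst this
      rw [if_pos (by omega), if_neg (lt_irrefl _), if_pos rfl, zero_add]
    · rw [if_neg (by omega), if_neg (by omega),
        if_neg (fun h' => by rw [h'] at h; exact lt_irrefl _ h), add_zero]
  simp only [h1, Finset.sum_add_distrib, Finset.sum_ite_eq', mem_univ, if_true]
  ring

theorem bs_zero (s : Fin nc → ℝ) : bs nc s 0 = 1 := by
  unfold bs; simp

theorem bs_last (s : Fin nc → ℝ) :
    bs nc s nc = 1 + ∑ g : Fin nc, ((g : ℝ) + 1) / ((nc : ℝ) + 1) * s g ^ 2 := by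
  unfold bs
  congr 1
  exact Finset.sum_congr rfl fun g _ => if_pos g.2

theorem bs_le (s : Fin nc → ℝ) : bs nc s nc ≤ 1 + ∑ g : Fin nc, s g ^ 2 := by
  rw [bs_last]
  have : ∑ g : Fin nc, ((g : ℝ) + 1) / ((nc : ℝ) + 1) * s g ^ 2 ≤ ∑ g : Fin nc, s g ^ 2 := by
    refine Finset.sum_le_sum fun g _ => ?_
    have h1 : ((g : ℝ) + 1) / ((nc : ℝ) + 1) ≤ 1 := by
      rw [div_le_one (by positivity)]
      have : ((g : ℕ) : ℝ) ≤ nc := by exact_mod_cast g.2.le
      linarith
    nlinarith [sq_nonneg (s g)]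
  linarith

/-- the logarithmic budget -/
theorem log_budget (s : Fin nc → ℝ) :
    ∑ g ∈ range nc, ((nc : ℝ) + 1) / ((g : ℝ) + 1) *
        (Real.log (bs nc s (g + 1)) - Real.log (bs nc s g)) ≤
      ((nc : ℝ) + 1) * Real.log (1 + ∑ g : Fin nc, s g ^ 2) := by
  have h1 : ∑ g ∈ range nc, ((nc : ℝ) + 1) / ((g : ℝ) + 1) *
      (Real.log (bs nc s (g + 1)) - Real.log (bs nc s g)) ≤
      ∑ g ∈ range nc, ((nc : ℝ) + 1) *
      (Real.log (bs nc s (g + 1)) - Real.log (bs nc s g)) := by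
    refine Finset.sum_le_sum fun g hg => ?_
    rw [Finset.mem_range] at hg
    have h2 : 0 ≤ Real.log (bs nc s (g + 1)) - Real.log (bs nc s g) := by
      have h3 := bs_succ nc s ⟨g, hg⟩
      have h4 : bs nc s g ≤ bs nc s (g + 1) := by
        have : 0 ≤ ((((⟨g, hg⟩ : Fin nc) : ℕ) : ℝ) + 1) / ((nc : ℝ) + 1) * s ⟨g, hg⟩ ^ 2 := by
          positivity
        show bs nc s ((⟨g, hg⟩ : Fin nc) : ℕ) ≤ bs nc s (((⟨g, hg⟩ : Fin nc) : ℕ) + 1)
        linarith
      have := Real.log_le_log (by linarith [one_le_bs nc s g]) h4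
      linarith
    refine mul_le_mul_of_nonneg_right ?_ h2
    rw [div_le_iff₀ (by positivity)]
    have : (0 : ℝ) ≤ g := by positivity
    have : (0 : ℝ) ≤ nc := by positivity
    nlinarith
  refine h1.trans ?_
  rw [← Finset.mul_sum, Finset.sum_range_sub (fun g => Real.log (bs nc s g)), bs_zero,
    Real.log_one, sub_zero]
  exact mul_le_mul_of_nonneg_left (Real.log_le_log (by linarith [one_le_bs nc s nc])
    (bs_le nc s)) (by positivity)

/-- the last step: Young's inequality -/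
theorem top_step {M : ℕ} {K : ℝ} {f : ℕ → ℝ → ℝ} (hf : ∀ a x, |f a x| ≤ K)
    (G : Fin M → Fin N → ℝ) (s : Fin nc → ℝ) {b : ℝ} (hb : 0 < b) (ω : Om C nc n) :
    A (prior C nc n) (fil C nc n) (xs nc n) (UU f G s) (nc * n) ω ≤
      (K * M + b * N / 2) + ∑ i, (∑ g, s g * zf ω.2 g i) ^ 2 / (2 * b) := by
  have hP := prior_isProb C nc n
  have h1 : ∀ ω : Om C nc n, UU f G s ω ≤
      (K * M + b * N / 2) + ∑ i, (Wk C nc n s (nc * n) ω i) ^ 2 / (2 * b) := by
    intro ω
    have h2 : rowE f G (C.x ω.1) ≤ K * M := by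
      unfold rowE
      calc ∑ a : Fin M, f a (∑ i, G a i * (C.x ω.1 i / Real.sqrt N)) ≤ ∑ a : Fin M, K :=
            Finset.sum_le_sum fun a _ => (le_abs_self _).trans (hf a _)
        _ = K * M := by rw [Finset.sum_const, Finset.card_univ, Fintype.card_fin, nsmul_eq_mul]; ring
    have h3 : fieldE s ω = ∑ i, Wk C nc n s (nc * n) ω i * C.x ω.1 i := by
      unfold fieldE
      simp only [Wk_last, Finset.mul_sum, Finset.sum_mul]
      rw [Finset.sum_comm]
      exact Finset.sum_congr rfl fun i _ => Finset.sum_congr rfl fun g _ => by ring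
    have h4 : ∀ i, Wk C nc n s (nc * n) ω i * C.x ω.1 i ≤
        Wk C nc n s (nc * n) ω i ^ 2 / (2 * b) + b / 2 * C.x ω.1 i ^ 2 := by
      intro i
      have h5 : 0 ≤ (Wk C nc n s (nc * n) ω i - b * C.x ω.1 i) ^ 2 / (2 * b) := by positivity
      have h6 : (Wk C nc n s (nc * n) ω i - b * C.x ω.1 i) ^ 2 / (2 * b) =
          Wk C nc n s (nc * n) ω i ^ 2 / (2 * b) - Wk C nc n s (nc * n) ω i * C.x ω.1 i +
            b / 2 * C.x ω.1 i ^ 2 := by field_simp; ring
      linarith
    have h7 := Finset.sum_le_sum fun i (_ : i ∈ (univ : Finset (Fin N))) => h4 i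
    rw [Finset.sum_add_distrib, ← Finset.mul_sum, C.hx] at h7
    unfold UU
    rw [h3]
    linarith
  refine (A_mono hP (xs_pos nc n) h1 (nc * n) ω).trans (le_of_eq ?_)
  rw [A_of_meas hP (xs_pos nc n)]
  · simp only [Wk_last]
  · intro a b' hab
    have : ∀ i, Wk C nc n s (nc * n) a i = Wk C nc n s (nc * n) b' i :=
      fun i => Wk_meas C nc n s _ i a b' hab
    simp only [this]

/-- the bound of the hierarchical free energy -/
theorem Phi_le (hn : 0 < n) {M : ℕ} {K : ℝ} {f : ℕ → ℝ → ℝ} (hf : ∀ a x, |f a x| ≤ K)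
    (G : Fin M → Fin N → ℝ) (s : Fin nc → ℝ) :
    Phi C nc n f G s ≤ K * M +
      N / 2 * (1 + ∑ g : Fin nc, ((g : ℝ) + 1) / ((nc : ℝ) + 1) * s g ^ 2) +
      N / 2 * (((nc : ℝ) + 1) * Real.log (1 + ∑ g : Fin nc, s g ^ 2)) := by
  unfold Phi
  refine eE_le_of_le (prior_isProb C nc n) fun ω => ?_
  have h := cells C nc n hn s (UU f G s) (bs nc s) (E0 := K * M + bs nc s nc * N / 2)
    (fun g _ => by linarith [one_le_bs nc s g]) (bs_succ nc s)
    (fun ω => top_step C nc n hf G s (by linarith [one_le_bs nc s nc]) ω) ω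
  have h2 := mul_le_mul_of_nonneg_left (log_budget nc s) (show (0 : ℝ) ≤ N / 2 by positivity)
  rw [← bs_last]
  linarith

theorem gam_prob (M N : ℕ) : IsProbabilityMeasure (gam M N) := by unfold gam; infer_instance

/-- **(U1)** -/
theorem result : S6U_988.U1 := by
  intro nc N n hN hn C K f M hfm hfK s
  have hK : 0 ≤ K := (abs_nonneg _).trans (hfK 0 0)
  have hN' : (0 : ℝ) < N := by exact_mod_cast hN
  have := gam_prob M N
  set c : ℝ := K * M +
      N / 2 * (1 + ∑ g : Fin nc, ((g : ℝ) + 1) / ((nc : ℝ) + 1) * s g ^ 2) +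
      N / 2 * (((nc : ℝ) + 1) * Real.log (1 + ∑ g : Fin nc, s g ^ 2)) with hc
  have hs0 : 0 ≤ ∑ g : Fin nc, s g ^ 2 := Finset.sum_nonneg fun g _ => sq_nonneg _
  have hc0 : 0 ≤ c := by
    have h1 : 0 ≤ Real.log (1 + ∑ g : Fin nc, s g ^ 2) := Real.log_nonneg (by linarith)
    have h2 : 0 ≤ ∑ g : Fin nc, ((g : ℝ) + 1) / ((nc : ℝ) + 1) * s g ^ 2 :=
      Finset.sum_nonneg fun g _ => by positivity
    rw [hc]
    positivity
  have hI : ∫ G, Phi C nc n (M := M) f G s ∂(gam M N) ≤ c := by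
    by_cases hint : Integrable (fun G => Phi C nc n (M := M) f G s) (gam M N)
    · have := integral_mono hint (integrable_const c) (fun G => Phi_le C nc n hn hfK G s)
      simpa using this
    · rw [integral_undef hint]; exact hc0
  unfold FN
  have h3 := mul_le_mul_of_nonneg_left hI (inv_nonneg.mpr hN'.le)
  refine (sub_le_sub_right h3 _).trans (le_of_eq ?_)
  rw [hc]
  have e : ∑ g : Fin nc, s g ^ 2 * (1 - ((g : ℝ) + 1) / ((nc : ℝ) + 1)) =
      ∑ g : Fin nc, s g ^ 2 - ∑ g : Fin nc, ((g : ℝ) + 1) / ((nc : ℝ) + 1) * s g ^ 2 := by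
    rw [← Finset.sum_sub_distrib]
    exact Finset.sum_congr rfl fun g _ => by ring
  rw [e]
  field_simp
  ring

end

end Crest.Agent.R146.S6U1_993
end

-- ▼ part R146/U0_762

/-!
Row 146, statement S0206, node (U0): final file (helper762).

* `polar : Polar` from `sphere_exp_bound` (helper214);
* `coin_rec : Rec` from `cells` (helper993);
* `result : S6U_988.U0`.
-/

set_option autoImplicit false

namespace Crest.Agent.R146.U0_762

open Finset MeasureTheory
open Crest.Agent.R141 (IsProb IsExpo Filt eE cE tl A S Coin RMeas pm A_step A_step_lt A_of_ge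
  eE_le_of_le cE_pos)
open Crest.Agent.R146.S6Def_988 Crest.Agent.R146.OvcA_679 Crest.Agent.R146.U0asm_762
open Crest.ProbabilityR.Perceptron

noncomputable section

/-! ### the polar bound -/

theorem polar : Polar := by
  intro B
  refine ⟨Real.exp 1 * Real.sqrt (2 * Real.pi) + 1 + 3 * |B| / 2, fun N hN b hb hbB W => ?_⟩
  have : NeZero N := ⟨hN.ne'⟩
  have hb0 : 0 < b := by linarith
  have h := Sph214.sphere_exp_bound (N := N) hb0 (WithLp.toLp 2 W)
  have e1 : ∀ y : UnitSphere N, Real.sqrt N * inner ℝ (WithLp.toLp 2 W)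
      (y : EuclideanSpace ℝ (Fin N)) =
      ∑ i, W i * (Real.sqrt N * (y : EuclideanSpace ℝ (Fin N)) i) := by
    intro y
    rw [EuclideanSpace.inner_eq_star_dotProduct]
    simp only [dotProduct, Finset.mul_sum]
    apply Finset.sum_congr rfl
    intro i _
    simp
    ring
  have e2 : ‖WithLp.toLp 2 W‖ ^ 2 = ∑ i, W i ^ 2 := by
    rw [EuclideanSpace.norm_sq_eq]
    simp
  simp only [e1, e2] at h
  refine h.trans ?_
  have hN1 : (1 : ℝ) ≤ N := by exact_mod_cast hN
  have hs1 : 1 ≤ Real.sqrt N := by rw [Real.one_le_sqrt]; exact hN1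
  have hs0 : 0 < Real.sqrt N := by linarith
  set c1 : ℝ := Real.exp 1 * Real.sqrt (2 * Real.pi) with hc1
  have hc1p : 0 < c1 := by positivity
  have k1 : c1 ≤ Real.exp c1 := by have := Real.add_one_le_exp c1; linarith
  have k2 : Real.sqrt N ≤ Real.exp (Real.sqrt N) := by
    have := Real.add_one_le_exp (Real.sqrt N); linarith
  have k3 : c1 * Real.sqrt N * Real.exp (3 * b / 2) ≤
      Real.exp (c1 + Real.sqrt N + 3 * b / 2) := by
    rw [Real.exp_add, Real.exp_add]
    apply mul_le_mul_of_nonneg_right _ (Real.exp_pos _).le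
    exact mul_le_mul k1 k2 hs0.le (Real.exp_pos _).le
  calc c1 * Real.sqrt N * Real.exp (3 * b / 2) *
        Real.exp (N * (b - 1 - Real.log b) / 2 + (∑ i, W i ^ 2) / (2 * b))
      ≤ Real.exp (c1 + Real.sqrt N + 3 * b / 2) *
        Real.exp (N * (b - 1 - Real.log b) / 2 + (∑ i, W i ^ 2) / (2 * b)) :=
        mul_le_mul_of_nonneg_right k3 (Real.exp_pos _).le
    _ = Real.exp (c1 + Real.sqrt N + 3 * b / 2 +
        (N * (b - 1 - Real.log b) / 2 + (∑ i, W i ^ 2) / (2 * b))) := by rw [← Real.exp_add]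
    _ ≤ _ := by
        apply Real.exp_le_exp.mpr
        have hB : b ≤ |B| := hbB.trans (le_abs_self B)
        have k4 : c1 ≤ c1 * Real.sqrt N := by nlinarith
        have k5 : 3 * b / 2 ≤ 3 * |B| / 2 * Real.sqrt N := by
          have : 3 * |B| / 2 ≤ 3 * |B| / 2 * Real.sqrt N :=
            le_mul_of_one_le_right (by positivity) hs1
          linarith
        linarith

/-! ### the last step of the hierarchy -/

variable {N : ℕ} (C : Cfg N) (nc n : ℕ)

theorem fil_last (ω ω' : Om C nc n) : (fil C nc n).F (nc * n) ω ω' ↔ ω.2 = ω'.2 := by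
  show frel C nc n (nc * n) ω ω' ↔ _
  constructor
  · intro h
    funext g t
    refine h.1 g t ?_
    have h1 : (g : ℕ) * n + t < ((g : ℕ) + 1) * n := by
      have := t.2
      rw [add_mul, one_mul]; omega
    have h2 : ((g : ℕ) + 1) * n ≤ nc * n := Nat.mul_le_mul_right n g.2
    omega
  · intro h
    refine ⟨fun g t _ => by rw [h], fun hL => ?_⟩
    unfold Lv at hL
    omega

/-- conditional expectation before the last step: average over the configuration. -/
theorem cE_last (F : Om C nc n → ℝ) (ω : Om C nc n) :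
    cE (prior C nc n) ((fil C nc n).F (nc * n)) F ω = ∑ y, C.q y * F (y, ω.2) := by
  classical
  have hK : (0 : ℝ) < (Fintype.card (Coins nc n N) : ℝ)⁻¹ :=
    inv_pos.mpr (by exact_mod_cast Fintype.card_pos)
  have key : ∀ F : Om C nc n → ℝ,
      (∑ ω' ∈ univ.filter (fun ω' => (fil C nc n).F (nc * n) ω ω'), prior C nc n ω' * F ω') =
      (Fintype.card (Coins nc n N) : ℝ)⁻¹ * ∑ y, C.q y * F (y, ω.2) := by
    intro F
    rw [Finset.sum_filter, Fintype.sum_prod_type, Finset.mul_sum]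
    refine Finset.sum_congr rfl fun y _ => ?_
    simp only [fil_last]
    rw [Finset.sum_ite_eq]
    simp only [mem_univ, if_true]
    unfold prior
    ring
  unfold cE
  have h1 := key F
  have h2 := key (fun _ => 1)
  simp only [mul_one, C.hq.sum] at h2
  have e : ∀ (p : DecidablePred fun ω' => (fil C nc n).F (nc * n) ω ω'),
      (@Finset.filter _ (fun ω' => (fil C nc n).F (nc * n) ω ω') p univ) =
      univ.filter (fun ω' => (fil C nc n).F (nc * n) ω ω') := by
    intro p; congr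
  rw [e, h1, h2]
  field_simp

/-- the hierarchical free energy before the last step. -/
theorem A_last (hn : 0 < n) (U : Om C nc n → ℝ) (ω : Om C nc n) :
    A (prior C nc n) (fil C nc n) (xs nc n) U (nc * n) ω =
      Real.log (∑ y, C.q y * Real.exp (U (y, ω.2))) := by
  have hL : (fil C nc n).L = nc * n + 1 := rfl
  rw [A_step_lt U (by rw [hL]; omega), A_of_ge U (by rw [hL]),
    xs_last nc n hn (show Lv nc n ≤ nc * n + 1 by unfold Lv; omega)]
  unfold pm
  rw [cE_last]
  simp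

/-- field energy in terms of the total field -/
theorem fieldE_eq (s : Fin nc → ℝ) (ω : Om C nc n) :
    fieldE s ω = ∑ i, (∑ g, s g * zf ω.2 g i) * C.x ω.1 i := by
  unfold fieldE
  simp only [Finset.mul_sum, Finset.sum_mul]
  rw [Finset.sum_comm]
  exact Finset.sum_congr rfl fun i _ => Finset.sum_congr rfl fun g _ => by ring

theorem abs_zf_le (hn : 0 < n) (c : Coins nc n N) (g : Fin nc) (i : Fin N) :
    |zf c g i| ≤ Real.sqrt n := by
  unfold zf
  have hn' : (0 : ℝ) < n := by exact_mod_cast hn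
  rw [abs_mul, abs_of_pos (inv_pos.mpr (Real.sqrt_pos.mpr hn'))]
  have h1 : |∑ t : Fin n, sv (c g t i)| ≤ n := by
    refine (Finset.abs_sum_le_sum_abs _ _).trans ?_
    simp only [abs_sv]
    simp
  rw [inv_mul_le_iff₀ (Real.sqrt_pos.mpr hn'), Real.mul_self_sqrt hn'.le]
  exact h1

/-! ### the coin recursion -/

theorem coin_rec : Rec := by
  intro nc N n hN hn C f s hs b hb0 hbs c0 hW G
  have hbpos : ∀ g, g ≤ nc → 0 < b g := by
    intro g
    induction g with
    | zero => intro _; exact hb0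
    | succ g ih =>
      intro hg
      have h1 := hbs ⟨g, by omega⟩
      have h2 := ih (by omega)
      have h3 : 0 ≤ ((((⟨g, by omega⟩ : Fin nc) : ℕ) : ℝ) + 1) / ((nc : ℝ) + 1) *
          s ⟨g, by omega⟩ ^ 2 := by positivity
      have h4 : b g = b (g + 1) - ((((⟨g, by omega⟩ : Fin nc) : ℕ) : ℝ) + 1) / ((nc : ℝ) + 1) *
          s ⟨g, by omega⟩ ^ 2 := h1
      linarith
  unfold Phi
  refine eE_le_of_le (prior_isProb C nc n) fun ω => ?_
  have h := S6U1_993.cells C nc n hn s (UU f G s) b (E0 := c0) (fun g hg => hbpos g hg.le) hbs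
    ?_ ω
  · refine h.trans (le_of_eq ?_)
    congr 2
    rw [← Fin.sum_univ_eq_sum_range (fun g => ((nc : ℝ) + 1) / ((g : ℝ) + 1) *
      (Real.log (b (g + 1)) - Real.log (b g)))]
    refine Finset.sum_congr rfl fun g _ => ?_
    rw [Real.log_div (hbpos _ g.2).ne' (hbpos _ g.2.le).ne']
  · intro ω
    rw [A_last C nc n hn]
    have e : ∀ y, UU f G s (y, ω.2) = ∑ i, (∑ g, s g * zf ω.2 g i) * C.x y i := by
      intro y
      unfold UU rowE
      rw [fieldE_eq]
      simp
    simp only [e]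
    refine (hW (fun i => ∑ g, s g * zf ω.2 g i) fun i => ?_).trans (le_of_eq ?_)
    · refine (Finset.abs_sum_le_sum_abs _ _).trans ?_
      rw [Finset.mul_sum]
      refine Finset.sum_le_sum fun g _ => ?_
      rw [abs_mul, abs_of_nonneg (hs g), mul_comm]
      exact mul_le_mul_of_nonneg_right (abs_zf_le nc n hn _ _ _) (hs g)
    · rw [Finset.sum_div]

/-- **(U0)** -/
theorem result : S6U_988.U0 := U0_of polar coin_rec

end

end Crest.Agent.R146.U0_762
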