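import Crest.Agent.R146.VTr_468
import Crest.Agent.R146.P34_734
import Crest.Agent.R146.P34a_323
import Crest.Agent.R146.AsmP_663
import Crest.Agent.R146.P34Big_840
import Crest.Agent.R148.BM
import Crest.Agent.R146.LocCore_508
import Crest.Agent.R146.Asm0204_734
import Crest.Agent.R146.S6U_988
import Crest.Agent.R146.Wrap_947
import Mathlib.Analysis.Calculus.BumpFunction.Convolution
import Mathlib.Analysis.Calculus.BumpFunction.FiniteDimension
import Crest.Agent.R146.S6Lit_663
import Crest.Agent.R146.PLim_857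
import Crest.Agent.R146.HConc_52_Mg
import Crest.Agent.R146.MonF_422_Mg
import Crest.Agent.R146.U0_762
import Crest.Agent.R146.DerJen_52
import Crest.Agent.R146.S6Ibp_559
import Crest.Agent.R146.S6StrF_649
import Crest.Agent.R146.CtlG_130

-- ▼ part R146/VCc_468
section

/-!
# R146 (helper468): concavity of the control value

`vconc : VCONC W`: the payoff is jointly concave in the margin and the control.
-/

set_option autoImplicit false
set_option linter.unusedSectionVars false

open MeasureTheory ProbabilityTheory Set Crest.ProbabilityR.Perceptron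

namespace Crest.Agent.R146.VCc_468

open Crest.Agent.R146.Mono_930 Crest.Agent.R146.MonoShift_930 Crest.Agent.R146.VTr_468

variable {Ω : Type*} [MeasurableSpace Ω]
variable {B : NNReal → Ω → ℝ} {hB : ∀ t, Measurable (B t)} {P : Measure Ω}

/-- convex combination of two controls -/
def cc (a b : ℝ) (v w : NNReal → Ω → ℝ) : NNReal → Ω → ℝ := fun t ω => a * v t ω + b * w t ω

lemma path_cc (a b : ℝ) (v w : NNReal → Ω → ℝ) (ω : Ω) (t : ℝ) :
    path (cc a b v w) ω t = a * path v ω t + b * path w ω t := rfl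

lemma sq_cc_le {a b : ℝ} (ha : 0 ≤ a) (hb : 0 ≤ b) (hab : a + b = 1) (x y : ℝ) :
    (a * x + b * y) ^ 2 ≤ a * x ^ 2 + b * y ^ 2 := by
  have hb' : b = 1 - a := by linarith
  subst hb'
  nlinarith [mul_nonneg (mul_nonneg ha hb) (sq_nonneg (x - y))]

lemma cc_adm {m : OverlapProfile} {a b : ℝ} (ha : 0 ≤ a) (hb : 0 ≤ b) (hab : a + b = 1)
    {v w : NNReal → Ω → ℝ} (hv : IsAdmissibleControl P B hB m v)
    (hw : IsAdmissibleControl P B hB m w) : IsAdmissibleControl P B hB m (cc a b v w) := by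
  have hp : IsProgressive (brownianFiltration B hB) (cc a b v w) := fun i =>
    ((hv.1 i).const_mul a).add ((hw.1 i).const_mul b)
  refine ⟨hp, ?_⟩
  rw [cost_eq hp]
  have h : ∀ ω, qq m (cc a b v w) ω ≤ ENNReal.ofReal a * qq m v ω + ENNReal.ofReal b * qq m w ω := by
    intro ω
    unfold qq
    have m1 : Measurable (fun t => ENNReal.ofReal (path v ω t ^ 2)) :=
      ((meas_path _ hv.1 ω).pow_const 2).ennreal_ofReal
    have m2 : Measurable (fun t => ENNReal.ofReal (path w ω t ^ 2)) :=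
      ((meas_path _ hw.1 ω).pow_const 2).ennreal_ofReal
    rw [← lintegral_const_mul _ m1, ← lintegral_const_mul _ m2,
      ← lintegral_add_left (m1.const_mul _)]
    refine lintegral_mono fun t => ?_
    rw [path_cc, ← ENNReal.ofReal_mul ha, ← ENNReal.ofReal_mul hb,
      ← ENNReal.ofReal_add (by positivity) (by positivity)]
    exact ENNReal.ofReal_le_ofReal (sq_cc_le ha hb hab _ _)
  refine (lintegral_mono h).trans_lt ?_
  rw [lintegral_add_left ((meas_qq _ m hv.1).const_mul _), lintegral_const_mul _ (meas_qq _ m hv.1),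
    lintegral_const_mul _ (meas_qq _ m hw.1), ← cost_eq hv.1, ← cost_eq hw.1]
  exact ENNReal.add_lt_top.2 ⟨ENNReal.mul_lt_top ENNReal.ofReal_lt_top hv.2,
    ENNReal.mul_lt_top ENNReal.ofReal_lt_top hw.2⟩

lemma dsp_cc {m : OverlapProfile} (a b : ℝ) {v w : NNReal → Ω → ℝ}
    (hv : IsAdmissibleControl P B hB m v) (hw : IsAdmissibleControl P B hB m w) {ω : Ω}
    (h1 : qq m v ω < ⊤) (h2 : qq m w ω < ⊤) :
    dsp m (cc a b v w) ω = a * dsp m v ω + b * dsp m w ω := by
  unfold dsp
  have p1 := (int_path _ hv.1 h1).const_mul a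
  have p2 := (int_path _ hw.1 h2).const_mul b
  rw [← integral_const_mul, ← integral_const_mul, ← integral_add p1 p2]
  rfl

lemma qq_cc {m : OverlapProfile} {a b : ℝ} (ha : 0 ≤ a) (hb : 0 ≤ b) (hab : a + b = 1)
    {v w : NNReal → Ω → ℝ}
    (hv : IsAdmissibleControl P B hB m v) (hw : IsAdmissibleControl P B hB m w) {ω : Ω}
    (h1 : qq m v ω < ⊤) (h2 : qq m w ω < ⊤) (h3 : qq m (cc a b v w) ω < ⊤) :
    (qq m (cc a b v w) ω).toReal ≤ a * (qq m v ω).toReal + b * (qq m w ω).toReal := by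
  have hp : IsProgressive (brownianFiltration B hB) (cc a b v w) :=
    (cc_adm ha hb hab hv hw).1
  rw [qq_toReal _ hv.1, qq_toReal _ hw.1, qq_toReal _ hp]
  have s1 := (int_sq_path _ hv.1 h1).const_mul a
  have s2 := (int_sq_path _ hw.1 h2).const_mul b
  rw [← integral_const_mul, ← integral_const_mul, ← integral_add s1 s2]
  exact integral_mono (int_sq_path _ hp h3) (s1.add s2) fun t => sq_cc_le ha hb hab _ _

/-- joint concavity of the payoff -/
theorem payoff_cc [IsProbabilityMeasure P] (hB2 : MemLp (B 1) 2 P) {f f1 f2 : ℝ → ℝ} (hf : QG f)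
    (hf1 : QG f1) (hf2 : QG f2) {a b : ℝ} (ha : 0 ≤ a) (hb : 0 ≤ b) (hab : a + b = 1)
    (hc : ∀ x y, a * f1 x + b * f2 y ≤ f (a * x + b * y)) {m : OverlapProfile}
    {v w : NNReal → Ω → ℝ} (hv : IsAdmissibleControl P B hB m v)
    (hw : IsAdmissibleControl P B hB m w) :
    a * controlPayoff P B f1 m v + b * controlPayoff P B f2 m w ≤
      controlPayoff P B f m (cc a b v w) := by
  have hcc := cc_adm ha hb hab hv hw
  rw [payoff_eq, payoff_eq, payoff_eq, cost_toReal hv, cost_toReal hw, cost_toReal hcc]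
  have i1 := hf1.integrable (memLp_end hB2 hv)
  have i2 := hf2.integrable (memLp_end hB2 hw)
  have i3 := hf.integrable (memLp_end hB2 hcc)
  have j1 := int_qq hv
  have j2 := int_qq hw
  have j3 := int_qq hcc
  have key : ∫ ω, ((a * f1 (B 1 ω + dsp m v ω) + b * f2 (B 1 ω + dsp m w ω)) +
      (qq m (cc a b v w) ω).toReal / 2) ∂P ≤
      ∫ ω, (f (B 1 ω + dsp m (cc a b v w) ω) +
        (a * (qq m v ω).toReal + b * (qq m w ω).toReal) / 2) ∂P := by
    refine integral_mono_ae (((i1.const_mul a).add (i2.const_mul b)).add (j3.div_const 2))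
      (i3.add (((j1.const_mul a).add (j2.const_mul b)).div_const 2)) ?_
    filter_upwards [adm_ae hv, adm_ae hw, adm_ae hcc] with ω h1 h2 h3
    have e := dsp_cc a b hv hw h1 h2
    have q := qq_cc ha hb hab hv hw h1 h2 h3
    have c := hc (B 1 ω + dsp m v ω) (B 1 ω + dsp m w ω)
    have e2 : a * (B 1 ω + dsp m v ω) + b * (B 1 ω + dsp m w ω) =
        B 1 ω + dsp m (cc a b v w) ω := by
      rw [e]
      have : B 1 ω = (a + b) * B 1 ω := by rw [hab, one_mul]
      nlinarith
    rw [e2] at c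
    linarith
  have t1 : Integrable (fun ω => a * f1 (B 1 ω + dsp m v ω) + b * f2 (B 1 ω + dsp m w ω)) P :=
    (i1.const_mul a).add (i2.const_mul b)
  have t2 : Integrable (fun ω => (a * (qq m v ω).toReal + b * (qq m w ω).toReal) / 2) P :=
    ((j1.const_mul a).add (j2.const_mul b)).div_const 2
  rw [integral_add t1 (j3.div_const 2), integral_add i3 t2,
    integral_add (i1.const_mul a) (i2.const_mul b), integral_const_mul, integral_const_mul,
    integral_div, integral_div, integral_add (j1.const_mul a) (j2.const_mul b),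
    integral_const_mul, integral_const_mul] at key
  linarith

/-- joint concavity of the value -/
theorem controlValue_cc [IsProbabilityMeasure P] (hB2 : MemLp (B 1) 2 P) {f f1 f2 : ℝ → ℝ}
    (hf : QG f) (hf1 : QG f1) (hf2 : QG f2) {a b : ℝ} (ha : 0 ≤ a) (hb : 0 ≤ b) (hab : a + b = 1)
    (hc : ∀ x y, a * f1 x + b * f2 y ≤ f (a * x + b * y)) {K : ℝ} (hK : ∀ x, f x ≤ K)
    (m : OverlapProfile) :
    a * controlValue P B hB f1 m + b * controlValue P B hB f2 m ≤ controlValue P B hB f m := by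
  refine le_of_forall_pos_le_add fun ε hε => ?_
  have h0 := isAdmissible_zero P B hB m
  obtain ⟨x, ⟨v, hv, rfl⟩, hx⟩ := exists_lt_of_lt_csSup
    (s := {x : ℝ | ∃ v : NNReal → Ω → ℝ, IsAdmissibleControl P B hB m v ∧
      x = controlPayoff P B f1 m v}) ⟨_, _, h0, rfl⟩
    (show controlValue P B hB f1 m - ε < sSup _ from sub_lt_self _ hε)
  obtain ⟨y, ⟨w, hw, rfl⟩, hy⟩ := exists_lt_of_lt_csSup
    (s := {x : ℝ | ∃ v : NNReal → Ω → ℝ, IsAdmissibleControl P B hB m v ∧
      x = controlPayoff P B f2 m v}) ⟨_, _, h0, rfl⟩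
    (show controlValue P B hB f2 m - ε < sSup _ from sub_lt_self _ hε)
  have h1 := payoff_cc (hB := hB) hB2 hf hf1 hf2 ha hb hab hc hv hw
  have h2 : controlPayoff P B f m (cc a b v w) ≤ controlValue P B hB f m :=
    le_csSup (bddAbove_payoffs P B hB hK m) ⟨_, cc_adm ha hb hab hv hw, rfl⟩
  have h3 : a * (controlValue P B hB f1 m - ε) ≤ a * controlPayoff P B f1 m v :=
    mul_le_mul_of_nonneg_left hx.le ha
  have h4 : b * (controlValue P B hB f2 m - ε) ≤ b * controlPayoff P B f2 m w :=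
    mul_le_mul_of_nonneg_left hy.le hb
  have h5 : (a + b) * ε = ε := by rw [hab, one_mul]
  nlinarith

open Crest.Agent.R146.P34_734

lemma fq_cc {β : ℝ} (hβ : 0 < β) {a b : ℝ} (ha : 0 ≤ a) (hb : 0 ≤ b) (hab : a + b = 1)
    (k1 k2 x y : ℝ) :
    a * fq β k1 x + b * fq β k2 y ≤ fq β (a * k1 + b * k2) (a * x + b * y) := by
  unfold fq
  have h1 : max (a * k1 + b * k2 - (a * x + b * y)) 0 ≤
      a * max (k1 - x) 0 + b * max (k2 - y) 0 := by
    refine max_le ?_ (by positivity)
    have e1 := mul_le_mul_of_nonneg_left (le_max_left (k1 - x) 0) ha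
    have e2 := mul_le_mul_of_nonneg_left (le_max_left (k2 - y) 0) hb
    nlinarith
  have h0 : 0 ≤ max (a * k1 + b * k2 - (a * x + b * y)) 0 := le_max_right _ _
  have h2 := pow_le_pow_left₀ h0 h1 2
  have h3 := sq_cc_le ha hb hab (max (k1 - x) 0) (max (k2 - y) 0)
  nlinarith

/-- **VCONC** -/
theorem vconc (W : BS) : VCONC W := by
  intro β hβ m
  refine ⟨convex_univ, ?_⟩
  rintro k1 - k2 - a b ha hb hab
  simp only [smul_eq_mul]
  exact controlValue_cc (memLp_B1 W) (qg_fq hβ) (qg_fq hβ) (qg_fq hβ) ha hb hab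
    (fun x y => fq_cc hβ ha hb hab k1 k2 x y) (fun x => fq_nonpos hβ x) m

end Crest.Agent.R146.VCc_468
end

-- ▼ part R146/P34b_323
section

/-!
Row 146: node GUB of `P34_734` (Gaussian upper bound with truncation) from the literal S0206.
-/

set_option autoImplicit false
set_option linter.unusedSectionVars false

namespace Crest.Agent.R146.P34b_323

open MeasureTheory ProbabilityTheory Filter Topology
open Crest.ProbabilityR.Perceptron
open Crest.Agent.R146.Assoc_323
open Crest.Agent.R146.P34_734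
open Crest.Agent.R146.P34a_323

theorem continuous_fqL (L b k : ℝ) : Continuous (fqL L b k) := by
  unfold fqL fq; fun_prop

theorem abs_fqL_le {L b : ℝ} (hL : 0 ≤ L) (hb : 0 ≤ b) (k x : ℝ) : |fqL L b k x| ≤ L := by
  have h1 : fq b k x ≤ 0 := qp_nonpos hb k x
  unfold fqL
  rw [abs_of_nonpos (max_le h1 (by linarith))]
  have := le_max_right (fq b k x) (-L)
  linarith

theorem test_lipschitz {ψ : ℝ → ℝ} (h : Test ψ) :
    ∃ c : ℝ, 0 ≤ c ∧ ∀ x y, |ψ x - ψ y| ≤ c * |x - y| := by
  obtain ⟨C, hC⟩ := h.bd 1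
  have hC0 : 0 ≤ C := (abs_nonneg _).trans (hC 0)
  have hd : Differentiable ℝ ψ := (h.smooth 1).differentiable (by norm_num)
  refine ⟨C, hC0, fun x y => ?_⟩
  have h1 := Convex.norm_image_sub_le_of_norm_deriv_le (f := ψ) (s := Set.univ) (C := C)
    (fun z _ => hd z) (fun z _ => by
      have := hC z
      rw [iteratedDeriv_one] at this
      rwa [Real.norm_eq_abs]) convex_univ (Set.mem_univ y) (Set.mem_univ x)
  simpa [Real.norm_eq_abs] using h1

theorem pM_zero (N : ℕ) (α : ℝ) (f : ℝ → ℝ) : pM N α 0 f = expectedPressure N α 1 f := by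
  unfold pM expectedPressure patternLawMix patternLaw
  rw [P34Big_840.mix0]

/-- **(GUB)** from the literal S0206. -/
theorem gub (W : BS) (hS6 : S6 W) : GUB W := by
  intro α b k hα hb ψ hψ δ hδ
  obtain ⟨c, hc0, hc⟩ := test_lipschitz hψ
  obtain ⟨K, hK⟩ := hψ.bd 0
  have hK' : ∀ x, |ψ x| ≤ K := fun x => by simpa using hK x
  have hψc : Continuous ψ := (hψ.smooth 0).continuous
  have hD := VTr_468.dtail b k c hb
  have hδ' : (0 : ℝ) < δ / (2 * α) := by positivity
  have hev := hD.eventually_le_const hδ'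
  obtain ⟨L1, hL1⟩ := (hev.and (eventually_ge_atTop (0 : ℝ))).exists_forall_of_atTop
  refine ⟨L1, fun L hL => ?_⟩
  obtain ⟨h1, h2⟩ := hL1 L hL
  set d : ℝ := ∫ z, (fqL L b k (z - c) - fq b k (z - c)) ∂(gaussianReal 0 1) with hd
  set φ : ℝ → ℝ := fun x => fqL L b k x + ψ x with hφ
  have hφc : Continuous φ := (continuous_fqL L b k).add hψc
  have hφb : ∃ K', ∀ x, |φ x| ≤ K' := ⟨L + K, fun x =>
    (abs_add_le _ _).trans (add_le_add (abs_fqL_le h2 hb.le k x) (hK' x))⟩
  obtain ⟨p, hp, hlim, -⟩ := hS6 α 1 hα one_pos φ hφc hφb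
  -- the value of every profile
  have hval : ∀ m : OverlapProfile, m.entropy ≠ ⊤ → p ≤ α * W.V φ m + m.entropy.toReal := by
    intro m hm
    have h3 : (p : EReal) ≤ variationalFunctional W.P W.B W.meas α 1 φ m := by
      rw [← hp]; exact iInf_le _ m
    have h4 : variationalFunctional W.P W.B W.meas α 1 φ m =
        ((α * W.V φ m + m.entropy.toReal : ℝ) : EReal) := by
      unfold variationalFunctional BS.V
      have e1 : (fun x => 1 * φ x) = φ := by funext x; ring
      rw [e1]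
      have e2 : (m.entropy : EReal) = ((m.entropy.toReal : ℝ) : EReal) := by
        conv_lhs => rw [← ENNReal.ofReal_toReal hm, EReal.coe_ennreal_ofReal,
          max_eq_left ENNReal.toReal_nonneg]
      rw [e2, EReal.coe_add]
    rw [h4] at h3
    exact EReal.coe_le_coe_iff.1 h3
  have hPv : p ≤ W.Pv α (fun x => fq b k x + ψ x) + α * d := by
    have h5 : p - α * d ≤ W.Pv α (fun x => fq b k x + ψ x) := by
      refine le_csInf ⟨_, AsmP_663.oneProf, by
        rw [AsmP_663.entropy_oneProf]; exact ENNReal.zero_ne_top, rfl⟩ ?_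
      rintro x ⟨m, hm, rfl⟩
      have h6 := hval m hm
      have h7 := VTr_468.vtr W b k L c hb h2 hc0 ψ ⟨K, hK'⟩ hc m
      have h8 := mul_le_mul_of_nonneg_left h7 hα.le
      have e3 : W.V φ m = W.V (fun x => fqL L b k x + ψ x) m := rfl
      rw [e3] at h6
      linarith
    linarith
  have hαd : α * d ≤ δ / 2 := by
    have := mul_le_mul_of_nonneg_left h1 hα.le
    refine this.trans (le_of_eq ?_)
    field_simp
  filter_upwards [hlim.eventually_le_const (show p < p + δ / 2 by linarith)] with N hN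
  rw [pM_zero]
  linarith

end Crest.Agent.R146.P34b_323
end

-- ▼ part R146/Bsw_649
section

/-!
Row 146, package P3/P4 (helper649): a Brownian space `P34_734.BS` exists, with all paths continuous
and started at `0`.
-/

set_option autoImplicit false

open MeasureTheory ProbabilityTheory

namespace Crest.Agent.R146.Bsw_649

open Crest.Agent.R146.P34_734

/-- a Brownian space with continuous paths started at `0` -/
theorem exists_bs : ∃ W : BS, (∀ ω, Continuous fun t => W.B t ω) ∧ ∀ ω, W.B 0 ω = 0 := by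
  obtain ⟨Ω, mΩ, P, B, hP, hB, hBm, hBc, hB0⟩ := Crest.Agent.R148.exists_brownian
  exact ⟨⟨Ω, P, B, hBm, hB⟩, hBc, hB0⟩

/-- the Brownian space -/
noncomputable def bsw : BS := exists_bs.choose



end Crest.Agent.R146.Bsw_649
end

-- ▼ part R146/G7Def_393
section

/-!
Row 146, node G7 (LOCUB from LOCCORE, post 960): exact Props of the pieces (helper393).
Nothing is proved here.

* `POT`  : the smooth potential of (d)                       (helper947)
* `QLOWP`: the truncated energy of a mixture row, (b)         (helper559)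
* `G7A`  : numerical inequality (a)+(b)                       (helper734)
-/

set_option autoImplicit false

open MeasureTheory ProbabilityTheory Filter Crest.ProbabilityR.Perceptron
open scoped Topology

namespace Crest.Agent.R146.G7Def_393

open Crest.Agent.R146.LocRec_508 (MidLo MidHi)
open Crest.Agent.R146.P34_734
open Crest.Agent.R146.LocCore_508 (Tcut QLow)

noncomputable section

/-- (POT) a smooth potential `F` between the truncated quadratic penalties, with second differences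
in `[-b, 1/4]`, below `d - (b/2) Tcut R ^ 2`.

Construction: `F0 = fq b (-1)` on `x ≥ -1 - R2`; for `x = -1 - R2 - t`, `t ≥ 0`:
`F0 = - b R2^2/2 - b R2 t + t^2/8` for `t ≤ 4 b R2`, constant `- b R2^2/2 - 2 b^2 R2^2` afterwards;
`F = F0 * rho + b R2 d'` (mollification by a smooth bump of support `[-d', d']`, `2 b R2 d' ≤ d`). -/
def POT : Prop := ∀ b R R2 d : ℝ, 0 < b → 0 ≤ R → R ≤ R2 → 0 < d → ∃ F : ℝ → ℝ,
  Test F ∧ MidLo b F ∧ MidHi (1 / 4) F ∧
  (∀ x, F x ≤ d - b / 2 * Tcut R x ^ 2) ∧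
  (∀ x, F x ≤ fqL (b * R2 ^ 2 / 2) b (-1) x + d) ∧
  ∃ L0 : ℝ, ∀ L, L0 ≤ L → ∀ x, fqL L b (-1) x ≤ F x


/-- (G7A) the energy bound of the high region is below the Gaussian value, for every `b`. -/
def G7A (W : BS) : Prop := ∀ αc : ℝ, 0 < αc → (∀ α, 0 < α → α < αc → W.ZeroE α (-1)) →
  ∀ C : ℝ, 0 < C → ∃ η s ε0 R q : ℝ, 0 < η ∧ η ≤ αc ∧ 0 < s ∧ s < 1 ∧ 0 < ε0 ∧ ε0 ≤ 1 / 2 ∧
    2 * αc * ε0 ≤ s ∧ 0 ≤ R ∧ 0 ≤ q ∧ (∀ ε : ℝ, 0 ≤ ε → ε < ε0 → QLow ε R q) ∧
    ∀ α : ℝ, αc < α → α < αc + η → ∀ b : ℝ, 0 < b →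
      -(b / 2) * (max (√(α * q) - C * √s) 0) ^ 2 + 1 / 2 * Real.log s ≤
        W.Pv α (fq b (-1)) - 1

end

end Crest.Agent.R146.G7Def_393
end

-- ▼ part R146/G7b_393
section

/-!
Row 146, node G7 (helper393): `P34_734.LOCUB` from `LocCore_508.LOCCORE`, `G7A`, `POT` and the
literal nodes `VID`, `VL`, `APX`, `ENT` of S0206.
-/

set_option autoImplicit false

open MeasureTheory ProbabilityTheory Filter Crest.ProbabilityR.Perceptron
open scoped Topology ENNReal

namespace Crest.Agent.R146.G7b_393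

open Crest.Agent.R146.LocRec_508 (MidLo MidHi)
open Crest.Agent.R146.P34_734
open Crest.Agent.R146.LocCore_508 (Tcut QLow LOCCORE)
open Crest.Agent.R146.G7Def_393
open Crest.Agent.R146.S6Def_988 (Lev Th SP mP BL)
open Crest.Agent.R146.S6U_988 (VID VL APX ENT)
open Crest.Agent.R146.VTr_468

/-! ### Test functions -/

lemma test_cont {ψ : ℝ → ℝ} (h : Test ψ) : Continuous ψ := (h.smooth 0).continuous

lemma test_bdd {ψ : ℝ → ℝ} (h : Test ψ) : ∃ K : ℝ, 0 ≤ K ∧ ∀ x, |ψ x| ≤ K := by
  obtain ⟨K, hK⟩ := h.bd 0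
  exact ⟨K, (abs_nonneg _).trans (hK 0), fun x => by simpa using hK x⟩

lemma test_diff {ψ : ℝ → ℝ} (h : Test ψ) : Differentiable ℝ ψ :=
  (h.smooth 1).differentiable (by norm_num)

lemma test_lip {ψ : ℝ → ℝ} (h : Test ψ) : ∃ C : ℝ, 0 ≤ C ∧ ∀ x y, |ψ x - ψ y| ≤ C * |x - y| := by
  obtain ⟨C, hC⟩ := h.bd 1
  refine ⟨C, (abs_nonneg _).trans (hC 0), fun x y => ?_⟩
  have := Convex.norm_image_sub_le_of_norm_hasDerivWithin_le (f := ψ) (f' := deriv ψ) (C := C)
    (s := Set.univ) (fun x _ => (test_diff h x).hasDerivAt.hasDerivWithinAt) (fun x _ => by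
      have := hC x; rw [iteratedDeriv_one] at this; simpa using this) convex_univ
      (Set.mem_univ y) (Set.mem_univ x)
  simpa [Real.norm_eq_abs] using this

lemma test_deriv {ψ : ℝ → ℝ} (h : Test ψ) : Test (deriv ψ) := by
  refine ⟨fun n => ?_, fun n => ?_⟩
  · have := h.smooth (n + 1)
    exact ((contDiff_succ_iff_deriv (n := n)).1 (by exact_mod_cast this)).2.2
  · obtain ⟨C, hC⟩ := h.bd (n + 1)
    refine ⟨C, fun x => ?_⟩
    have := hC x
    rwa [iteratedDeriv_succ'] at this

lemma test_smul {ψ : ℝ → ℝ} (h : Test ψ) (c : ℝ) : Test fun x => c * ψ x := by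
  refine ⟨fun n => contDiff_const.mul (h.smooth n), fun n => ?_⟩
  obtain ⟨C, hC⟩ := h.bd n
  refine ⟨|c| * C, fun x => ?_⟩
  have : iteratedDeriv n (fun x => c * ψ x) x = c * iteratedDeriv n ψ x := by simp
  rw [this, abs_mul]
  exact mul_le_mul_of_nonneg_left (hC x) (abs_nonneg c)

lemma test_add {ψ φ : ℝ → ℝ} (h : Test ψ) (h' : Test φ) : Test fun x => ψ x + φ x := by
  refine ⟨fun n => (h.smooth n).add (h'.smooth n), fun n => ?_⟩
  obtain ⟨C, hC⟩ := h.bd n
  obtain ⟨C', hC'⟩ := h'.bd n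
  refine ⟨C + C', fun x => ?_⟩
  have : iteratedDeriv n (fun x => ψ x + φ x) x = iteratedDeriv n ψ x + iteratedDeriv n φ x := by
    exact iteratedDeriv_fun_add ((h.smooth n).contDiffAt) ((h'.smooth n).contDiffAt)
  rw [this]
  exact (abs_add_le _ _).trans (add_le_add (hC x) (hC' x))

/-- second differences of a test function -/
lemma test_second {ψ : ℝ → ℝ} (h : Test ψ) : ∃ T : ℝ, 0 ≤ T ∧
    ∀ y t, |ψ (y + t) + ψ (y - t) - 2 * ψ y| ≤ T * t ^ 2 := by
  obtain ⟨C, hC0, hC⟩ := test_lip (test_deriv h)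
  refine ⟨2 * C, by positivity, fun y t => ?_⟩
  have hd : ∀ s : ℝ, HasDerivAt (fun s => ψ (y + s) + ψ (y - s))
      (deriv ψ (y + s) - deriv ψ (y - s)) s := by
    intro s
    have h1 : HasDerivAt (fun s => ψ (y + s)) (deriv ψ (y + s)) s :=
      (test_diff h (y + s)).hasDerivAt.comp_const_add y s
    have h2 : HasDerivAt (fun s => ψ (y - s)) (-deriv ψ (y - s)) s :=
      (test_diff h (y - s)).hasDerivAt.comp_const_sub y s
    exact (h1.add h2)
  have hb : ∀ s ∈ Set.uIcc 0 t, |deriv ψ (y + s) - deriv ψ (y - s)| ≤ 2 * C * |t| := by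
    intro s hs
    have h1 := hC (y + s) (y - s)
    have h2 : |y + s - (y - s)| = 2 * |s| := by
      rw [show y + s - (y - s) = 2 * s by ring, abs_mul, abs_two]
    have h3 : |s| ≤ |t| := by
      rcases le_total 0 t with h0 | h0
      · rw [Set.uIcc_of_le h0] at hs
        rw [abs_of_nonneg hs.1, abs_of_nonneg h0]; exact hs.2
      · rw [Set.uIcc_of_ge h0] at hs
        rw [abs_of_nonpos hs.2, abs_of_nonpos h0]; linarith [hs.1]
    rw [h2] at h1
    nlinarith
  have := Convex.norm_image_sub_le_of_norm_hasDerivWithin_le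
    (f := fun s => ψ (y + s) + ψ (y - s)) (f' := fun s => deriv ψ (y + s) - deriv ψ (y - s))
    (C := 2 * C * |t|) (s := Set.uIcc 0 t) (fun s _ => (hd s).hasDerivWithinAt)
    (fun s hs => by rw [Real.norm_eq_abs]; exact hb s hs) (convex_uIcc 0 t)
    Set.left_mem_uIcc Set.right_mem_uIcc
  rw [Real.norm_eq_abs, Real.norm_eq_abs, sub_zero, add_zero, sub_zero] at this
  have e : ψ (y + t) + ψ (y - t) - (ψ y + ψ y) = ψ (y + t) + ψ (y - t) - 2 * ψ y := by ring
  rw [e] at this
  refine this.trans (le_of_eq ?_)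
  rw [mul_assoc, abs_mul_abs_self]; ring

/-! ### The literal control value -/

variable {W : BS}

/-- the control value of `f + d` -/
theorem value_add_const_le {f : ℝ → ℝ} (hf : QG f) {K : ℝ} (hK : ∀ x, f x ≤ K) (d : ℝ)
    (m : OverlapProfile) : W.V (fun x => f x + d) m ≤ W.V f m + d := by
  unfold BS.V controlValue
  refine csSup_le ⟨_, _, Mono_930.isAdmissible_zero W.P W.B W.meas m, rfl⟩ ?_
  rintro x ⟨v, hv, rfl⟩
  have i1 := hf.integrable (memLp_end (memLp_B1 W) hv)
  have e : controlPayoff W.P W.B (fun x => f x + d) m v = controlPayoff W.P W.B f m v + d := by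
    rw [payoff_eq, payoff_eq, integral_add i1 (integrable_const _)]
    simp
    ring
  rw [e]
  have := le_csSup (Mono_930.bddAbove_payoffs W.P W.B W.meas hK m) ⟨v, hv, rfl⟩
  linarith

/-- `VID` for test functions -/
theorem vid_test (hVID : VID) {F : ℝ → ℝ} (hF : Test F) (J : ℕ) {P : ℕ → ℝ} (hP : Lev J P) :
    W.V F (mP J P) = Th J F P := by
  refine hVID W.Ω W.P W.B W.meas W.br F (by exact_mod_cast hF.smooth 2) ?_ J P hP
  obtain ⟨C0, -, h0⟩ := test_bdd hF
  obtain ⟨C1, -, h1⟩ := test_bdd (test_deriv hF)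
  obtain ⟨C2, -, h2⟩ := test_bdd (test_deriv (test_deriv hF))
  exact ⟨max C0 (max C1 C2), fun x => ⟨(h0 x).trans (le_max_left _ _),
    (h1 x).trans ((le_max_left _ _).trans (le_max_right _ _)),
    (h2 x).trans ((le_max_right _ _).trans (le_max_right _ _))⟩⟩

/-- step profiles of every high resolution for a test function: the value is almost attained. -/
theorem step_approx (hVID : VID) (hVL : VL) (hAPX : APX) (hENT : ENT) {F : ℝ → ℝ} (hF : Test F)
    {α : ℝ} (hα : 0 < α) (m : OverlapProfile) (hm : m.entropy ≠ ⊤) {δ : ℝ} (hδ : 0 < δ) :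
    ∃ J0 : ℕ, ∀ J, J0 ≤ J → ∃ P : ℕ → ℝ, Lev J P ∧ P J < 1 ∧
      α * Th J F P + SP J P ≤ α * W.V F m + m.entropy.toReal + δ := by
  obtain ⟨K, hK0, hK⟩ := test_bdd hF
  obtain ⟨L, hL0, hL⟩ := test_lip hF
  have hden : 0 < α * L ^ 2 + 1 := by positivity
  obtain ⟨J0, hJ0⟩ := hAPX m hm (δ / (α * L ^ 2 + 1)) (by positivity)
  refine ⟨J0, fun J hJ => ?_⟩
  obtain ⟨P, hP, hP1, hent, hle, hint⟩ := hJ0 J hJ
  refine ⟨P, hP, hP1, ?_⟩
  have hval := (hVL W.Ω W.P W.B W.meas W.br F K L ⟨hK, hL⟩ m (mP J P)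
    (Wrap_947.le_mP_Icc hP m hle)).2
  have hval' : W.V F (mP J P) ≤ W.V F m + L ^ 2 * (δ / (α * L ^ 2 + 1)) := by
    refine hval.trans ?_
    have := mul_le_mul_of_nonneg_left hint (sq_nonneg L)
    exact add_le_add le_rfl this
  rw [vid_test hVID hF J hP] at hval'
  have hS : SP J P ≤ m.entropy.toReal + δ / (α * L ^ 2 + 1) := by
    rw [hENT J P hP hP1] at hent
    have h1 : ENNReal.ofReal (SP J P) ≤
        ENNReal.ofReal (m.entropy.toReal + δ / (α * L ^ 2 + 1)) := by
      rw [ENNReal.ofReal_add ENNReal.toReal_nonneg (by positivity), ENNReal.ofReal_toReal hm]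
      exact hent
    exact (ENNReal.ofReal_le_ofReal_iff (by positivity)).1 h1
  have h3 := mul_le_mul_of_nonneg_left hval' hα.le
  have h4 : α * (L ^ 2 * (δ / (α * L ^ 2 + 1))) + δ / (α * L ^ 2 + 1) = δ := by
    field_simp
  linarith

/-- **(e)** the value of the smooth potential. -/
theorem value (hVID : VID) (hVL : VL) (hAPX : APX) (hENT : ENT) {α b : ℝ} (hα : 0 < α)
    (hb : 0 < b) {θ : ℝ → ℝ} (hθ : Test θ) {T c : ℝ} (hT : ∀ x, |θ x| ≤ T) (hc : 0 ≤ c)
    (hθl : ∀ x y, |θ x - θ y| ≤ c * |x - y|) {L d : ℝ} (hL : 0 ≤ L) {F : ℝ → ℝ} (hF : Test F)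
    (hFle : ∀ x, F x ≤ fqL L b (-1) x + d) {δ : ℝ} (hδ : 0 < δ) :
    ∃ J0 : ℕ, ∀ J, J0 ≤ J → ∃ P : ℕ → ℝ, Lev J P ∧ P J < 1 ∧
      α * Th J (fun x => F x + θ x) P + SP J P ≤ W.Pv α (fun x => fq b (-1) x + θ x) +
        α * (∫ z, (fqL L b (-1) (z - c) - fq b (-1) (z - c)) ∂(gaussianReal 0 1)) + α * d + δ := by
  -- a near minimiser
  have hne : (W.vals α (fun x => fq b (-1) x + θ x)).Nonempty :=
    Asm0204_734.vals_nonempty W α _
  obtain ⟨x, ⟨m, hm, rfl⟩, hx⟩ := exists_lt_of_csInf_lt hne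
    (lt_add_of_pos_right (sInf (W.vals α fun x => fq b (-1) x + θ x)) (half_pos hδ))
  obtain ⟨J0, hJ0⟩ := step_approx (W := W) hVID hVL hAPX hENT (test_add hF hθ) hα m hm
    (half_pos hδ)
  refine ⟨J0, fun J hJ => ?_⟩
  obtain ⟨P, hP, hP1, hval⟩ := hJ0 J hJ
  refine ⟨P, hP, hP1, hval.trans ?_⟩
  have hθm : Measurable θ := (test_cont hθ).measurable
  have q1 : QG (fun x => F x + θ x) := by
    obtain ⟨K, hK0, hK⟩ := test_bdd hF
    refine ⟨(test_cont hF).measurable.add hθm, K + T, fun x => ?_⟩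
    have h1 : |F x + θ x| ≤ K + T := (abs_add_le _ _).trans (add_le_add (hK x) (hT x))
    have h2 : 0 ≤ K + T := (abs_nonneg _).trans h1
    nlinarith [sq_nonneg x]
  have q2 : QG (fun x => fqL L b (-1) x + θ x) := (qg_fqL L hb).add_bdd hθm hT
  have q3 : QG (fun x => (fqL L b (-1) x + θ x) + d) := by
    exact q2.add_bdd measurable_const (K := |d|) fun x => le_rfl
  have hup : ∀ x, fqL L b (-1) x + θ x ≤ T := fun x => by
    have h1 : fqL L b (-1) x ≤ 0 := max_le (fq_nonpos hb x) (by linarith)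
    have h2 := (abs_le.1 (hT x)).2
    linarith
  have v1 : W.V (fun x => F x + θ x) m ≤ W.V (fun x => (fqL L b (-1) x + θ x) + d) m := by
    unfold BS.V
    refine controlValue_mono (memLp_B1 W) q1 q3 (fun x => ?_) (K := T + d) (fun x => ?_) m
    · have := hFle x
      linarith
    · have := hup x
      linarith
  have v2 := value_add_const_le (W := W) q2 hup d m
  have v3 := vtr W b (-1) L c hb hL hc θ ⟨T, hT⟩ hθl m
  have v4 := mul_le_mul_of_nonneg_left (v1.trans (v2.trans (add_le_add v3 le_rfl))) hα.le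
  have hx' : α * W.V (fun x => fq b (-1) x + θ x) m + m.entropy.toReal <
      W.Pv α (fun x => fq b (-1) x + θ x) + δ / 2 := hx
  rw [mul_add, mul_add] at v4
  linarith

/-- perturbation of the value by a bounded function -/
theorem Pv_pert {α b : ℝ} (hα : 0 < α) (hb : 0 < b) {θ : ℝ → ℝ} (hθ : Test θ) {T : ℝ}
    (hT : ∀ x, |θ x| ≤ T) :
    W.Pv α (fq b (-1)) ≤ W.Pv α (fun x => fq b (-1) x + θ x) + α * T := by
  have hθm : Measurable θ := (test_cont hθ).measurable
  have h1 : W.Pv α (fq b (-1)) - α * T ≤ W.Pv α (fun x => fq b (-1) x + θ x) := by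
    refine le_csInf (Asm0204_734.vals_nonempty W α _) ?_
    rintro x ⟨m, hm, rfl⟩
    have h2 : W.Pv α (fq b (-1)) ≤ α * W.V (fq b (-1)) m + m.entropy.toReal :=
      csInf_le (Asm0204_734.bddBelow_vals W (vzero W) hα.le hb) ⟨m, hm, rfl⟩
    have q2 : QG (fun x => fq b (-1) x + θ x) := (qg_fq hb).add_bdd hθm hT
    have hup : ∀ x, fq b (-1) x + θ x ≤ T := fun x => by
      have h1 := fq_nonpos (k := -1) hb x
      have h2 := (abs_le.1 (hT x)).2
      linarith
    have v1 : W.V (fq b (-1)) m ≤ W.V (fun x => (fq b (-1) x + θ x) + T) m := by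
      unfold BS.V
      refine controlValue_mono (memLp_B1 W) (qg_fq hb)
        (q2.add_bdd measurable_const (K := |T|) fun x => le_rfl) (fun x => ?_) (K := T + T)
        (fun x => ?_) m
      · have := (abs_le.1 (hT x)).1
        linarith
      · have := hup x
        linarith
    have v2 := value_add_const_le (W := W) q2 hup T m
    have v3 := mul_le_mul_of_nonneg_left (v1.trans v2) hα.le
    rw [mul_add] at v3
    linarith
  linarith

/-! ### Second differences -/

lemma midLo_add {κ T : ℝ} {F θ : ℝ → ℝ} (hF : MidLo κ F)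
    (hθ : ∀ y t, |θ (y + t) + θ (y - t) - 2 * θ y| ≤ T * t ^ 2) :
    MidLo (κ + T) fun x => F x + θ x := by
  intro y t
  have h1 := hF y t
  have h2 := (abs_le.1 (hθ y t)).1
  simp only
  nlinarith

lemma midHi_add {κ T : ℝ} {F θ : ℝ → ℝ} (hF : MidHi κ F)
    (hθ : ∀ y t, |θ (y + t) + θ (y - t) - 2 * θ y| ≤ T * t ^ 2) :
    MidHi (κ + T) fun x => F x + θ x := by
  intro y t
  have h1 := hF y t
  have h2 := (abs_le.1 (hθ y t)).2
  simp only
  nlinarith

/-- monotonicity of the averaged pressure in a bounded potential -/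
theorem pM_mono {N : ℕ} (hN : 0 < N) {α ε : ℝ} (hα : 0 ≤ α) (h0 : 0 ≤ ε) (h1 : ε ≤ 1)
    {φ φ' : ℝ → ℝ} (hφ : Measurable φ) (hφ' : Measurable φ') {K K' : ℝ} (hK : ∀ x, |φ x| ≤ K)
    (hK' : ∀ x, |φ' x| ≤ K') (h : ∀ x, φ x ≤ φ' x) : pM N α ε φ ≤ pM N α ε φ' := by
  have := Asm0204_734.isProb_patternLawMix (N := N) (α := α) h0 h1
  exact integral_mono (PressC_663.integrable_spherePressure hN hα hφ hK _)
    (PressC_663.integrable_spherePressure hN hα hφ' hK' _) fun A =>
      Asm0204_734.spherePressure_mono hφ hφ' (fun x => (abs_le.1 (hK' x)).2) h A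

/-- **G7**: `LOCUB` from `LOCCORE`. -/
theorem locub_of (W : BS) (hCore : LOCCORE) (hA : G7A W) (hPot : POT) (hVID : VID) (hVL : VL)
    (hAPX : APX) (hENT : ENT) : LOCUB W := by
  intro αc hαc hZ
  obtain ⟨C, hC, core⟩ := hCore (2 * αc) (by positivity)
  obtain ⟨η, s, ε0, R, q, hη, hηc, hs0, hs1, hε0, hε01, hsε, hR, hq, hQ, hH⟩ :=
    hA αc hαc hZ C hC
  refine ⟨ε0, hε0, by linarith, η, hη, fun ε he0 he α hα1 hα2 b hb θ hθ => ?_⟩
  have hα : 0 < α := hαc.trans hα1
  obtain ⟨T, hT0, hT⟩ := test_bdd hθ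
  obtain ⟨T2, hT20, hT2⟩ := test_second hθ
  obtain ⟨Cl, hCl0, hCl⟩ := test_lip hθ
  have hden : 0 < 8 * (T2 + 1) + 8 * α * (T + 1) := by positivity
  set h0 : ℝ := 1 / (8 * (T2 + 1) + 8 * α * (T + 1)) with hh0
  have hh0p : 0 < h0 := by positivity
  have e0 : h0 * (8 * (T2 + 1) + 8 * α * (T + 1)) = 1 := by rw [hh0]; field_simp
  have e1 : h0 * T2 ≤ 1 / 4 := by
    have h1 : 0 ≤ h0 * (α * (T + 1)) := by positivity
    nlinarith
  have e2 : α * (h0 * T) ≤ 1 / 8 := by
    have h1 : 0 ≤ h0 * (T2 + 1) := by positivity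
    have h2 : 0 ≤ h0 * α := by positivity
    nlinarith
  refine ⟨h0, hh0p, fun h hh δ hδ => ?_⟩
  -- the perturbation
  have hθ' : Test fun x => h * θ x := test_smul hθ h
  have hT' : ∀ x, |h * θ x| ≤ h0 * T := fun x => by
    rw [abs_mul]
    exact mul_le_mul hh (hT x) (abs_nonneg _) hh0p.le
  have hl' : ∀ x y, |h * θ x - h * θ y| ≤ |h| * Cl * |x - y| := fun x y => by
    rw [← mul_sub, abs_mul, mul_assoc]
    exact mul_le_mul_of_nonneg_left (hCl x y) (abs_nonneg _)
  have hs' : ∀ y t, |h * θ (y + t) + h * θ (y - t) - 2 * (h * θ y)| ≤ 1 / 4 * t ^ 2 := by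
    intro y t
    have e : h * θ (y + t) + h * θ (y - t) - 2 * (h * θ y) =
        h * (θ (y + t) + θ (y - t) - 2 * θ y) := by ring
    rw [e, abs_mul]
    calc |h| * |θ (y + t) + θ (y - t) - 2 * θ y| ≤ h0 * (T2 * t ^ 2) :=
          mul_le_mul hh (hT2 y t) (abs_nonneg _) hh0p.le
      _ = h0 * T2 * t ^ 2 := by ring
      _ ≤ 1 / 4 * t ^ 2 := mul_le_mul_of_nonneg_right e1 (sq_nonneg t)
  -- the truncation level
  have htail : Tendsto (fun R2 : ℝ => ∫ z, (fqL (b * R2 ^ 2 / 2) b (-1) (z - |h| * Cl) -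
      fq b (-1) (z - |h| * Cl)) ∂(gaussianReal 0 1)) atTop (𝓝 0) := by
    have h1 : Tendsto (fun R2 : ℝ => b * R2 ^ 2 / 2) atTop atTop :=
      ((tendsto_pow_atTop two_ne_zero).const_mul_atTop hb).atTop_div_const two_pos
    exact (dtail b (-1) (|h| * Cl) hb).comp h1
  obtain ⟨R2, hR2, hRR⟩ := ((htail.eventually (gt_mem_nhds (show (0 : ℝ) < δ / (8 * α) by
    positivity))).and (eventually_ge_atTop R)).exists
  set d : ℝ := min (δ / (8 * α)) (1 / (4 * α)) with hd
  have hdp : 0 < d := lt_min (by positivity) (by positivity)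
  have hd1 : α * d ≤ δ / 8 := by
    calc α * d ≤ α * (δ / (8 * α)) := mul_le_mul_of_nonneg_left (min_le_left _ _) hα.le
      _ = δ / 8 := by field_simp
  have hd2 : α * d ≤ 1 / 4 := by
    calc α * d ≤ α * (1 / (4 * α)) := mul_le_mul_of_nonneg_left (min_le_right _ _) hα.le
      _ = 1 / 4 := by field_simp
  obtain ⟨F, hF, hlo, hhi, hup, hup2, L0, hL0⟩ := hPot b R R2 d hb hR hRR hdp
  have hψ : Test fun x => F x + h * θ x := test_add hF hθ'
  obtain ⟨J1, hJ1⟩ := value (W := W) hVID hVL hAPX hENT hα hb hθ' hT'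
    (show 0 ≤ |h| * Cl by positivity) hl' (show 0 ≤ b * R2 ^ 2 / 2 by positivity) hF hup2
    (show 0 < δ / 8 by positivity)
  obtain ⟨J0, hJ0⟩ := core α ε s hα (by linarith) he0 (by linarith) hs0 hs1 (by nlinarith)
    (fun x => F x + h * θ x) hψ (b + 1 / 4) (by positivity) (midLo_add (θ := fun x => h * θ x) hlo hs')
    (by
      have := midHi_add (θ := fun x => h * θ x) hhi hs'
      rwa [show (1 : ℝ) / 4 + 1 / 4 = 1 / 2 by norm_num] at this)
    b (d + h0 * T) R q hb.le hR hq (fun x => by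
      have h1 := hup x
      have h2 := (abs_le.1 (hT' x)).2
      linarith) (hQ ε he0 he) (δ / 2) (half_pos hδ)
  obtain ⟨P, hP, hP1, hval⟩ := hJ1 (max J0 J1) (le_max_right _ _)
  have hev := hJ0 (max J0 J1) (le_max_left _ _) P hP hP1
  refine ⟨max L0 0, fun L hL => ?_⟩
  filter_upwards [hev, eventually_gt_atTop 0] with N hN hN0
  obtain ⟨KF, hKF0, hKF⟩ := test_bdd hψ
  have hL' : 0 ≤ L := (le_max_right _ _).trans hL
  have hbd : ∀ x, |fqL L b (-1) x + h * θ x| ≤ L + h0 * T := fun x =>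
    (abs_add_le _ _).trans (add_le_add (Asm0204_734.fqL_bdd hb hL' x) (hT' x))
  have hmono : pM N α ε (fun x => fqL L b (-1) x + h * θ x) ≤
      pM N α ε (fun x => F x + h * θ x) := by
    refine pM_mono hN0 hα.le he0 (by linarith)
      ((Asm0204_734.fqL_measurable L b (-1)).add (test_cont hθ').measurable)
      (test_cont hψ).measurable hbd hKF fun x => ?_
    have := hL0 L ((le_max_left _ _).trans hL) x
    linarith
  refine hmono.trans (hN.trans ?_)
  have hmax : max (α * Th (max J0 J1) (fun x => F x + h * θ x) P + SP (max J0 J1) P)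
      (α * (d + h0 * T) - b / 2 * (max (√(α * q) - C * √s) 0) ^ 2 + 1 / 2 * Real.log s) ≤
      W.Pv α (fun x => fq b (-1) x + h * θ x) + δ / 2 := by
    refine max_le ?_ ?_
    · refine hval.trans ?_
      have h1 : α * (∫ z, (fqL (b * R2 ^ 2 / 2) b (-1) (z - |h| * Cl) -
          fq b (-1) (z - |h| * Cl)) ∂(gaussianReal 0 1)) ≤ δ / 8 := by
        calc _ ≤ α * (δ / (8 * α)) := mul_le_mul_of_nonneg_left hR2.le hα.le
          _ = δ / 8 := by field_simp
      linarith
    · have h1 := hH α hα1 hα2 b hb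
      have h2 := Pv_pert (W := W) hα hb hθ' hT'
      have h3 : α * (d + h0 * T) = α * d + α * (h0 * T) := by ring
      rw [h3]
      linarith
  linarith

end Crest.Agent.R146.G7b_393
end

-- ▼ part R146/G7Pot_435
section

/-!
Row 146, node (G7)(d) of post 960 (helper508), helper435: the truncated smooth potential.

* `F0 b R` : the `C^1` potential `-(b/2)(-1-x)_+^2` for `x ≥ -1-R`, continued by a slow flattening
  (second difference `≤ 1/4`) to a constant;
* `potential` : its mollification, a `Test` function squeezed between `fqL L b (-1)` (`L` large) and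
  `fqL (b R^2/2) b (-1) + d = d - (b/2) Tcut R ^ 2`, second differences in `[-b, 1/4]`;
* `Test.add`, `Test.const_mul`, `MidLo`/`MidHi` from bounds of the second derivative,
  `potential_add` : the same potential plus a small multiple of a test function.
-/

set_option autoImplicit false

open MeasureTheory ProbabilityTheory Filter Crest.ProbabilityR.Perceptron
open scoped Topology Convolution

namespace Crest.Agent.R146.G7Pot_435

open Crest.Agent.R146.LocRec_508 (MidLo MidHi)
open Crest.Agent.R146.P34_734 (Test pM fq fqL)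
open Crest.Agent.R146.LocCore_508 (Tcut)

noncomputable section

/-! ### Second differences -/

lemma midHi_of_deriv {F f : ℝ → ℝ} {κ : ℝ} (hF : ∀ x, HasDerivAt F (f x) x)
    (hf : ∀ x y, y ≤ x → f x - f y ≤ κ * (x - y)) : MidHi κ F := by
  have main : ∀ y t : ℝ, 0 ≤ t → F (y + t) + F (y - t) ≤ 2 * F y + κ * t ^ 2 := by
    intro y t ht
    set g : ℝ → ℝ := fun s => F (y + s) + F (y - s) - κ * s ^ 2 with hg
    have hd : ∀ s, HasDerivAt g (f (y + s) * 1 + f (y - s) * (-1) - κ * (2 * s)) s := by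
      intro s
      have h1 : HasDerivAt (fun s => F (y + s)) (f (y + s) * 1) s :=
        (hF (y + s)).comp s ((hasDerivAt_id s).const_add y)
      have h2 : HasDerivAt (fun s => F (y - s)) (f (y - s) * (-1)) s :=
        (hF (y - s)).comp s ((hasDerivAt_id s).const_sub y)
      have h3 : HasDerivAt (fun s : ℝ => κ * s ^ 2) (κ * (2 * s)) s := by
        have := (hasDerivAt_pow 2 s).const_mul κ
        simpa using this
      exact (h1.add h2).sub h3
    have hanti : AntitoneOn g (Set.Ici 0) := by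
      apply antitoneOn_of_deriv_nonpos (convex_Ici 0)
      · exact fun s _ => (hd s).continuousAt.continuousWithinAt
      · exact fun s _ => (hd s).differentiableAt.differentiableWithinAt
      · intro s hs
        rw [interior_Ici] at hs
        have hs0 : (0 : ℝ) < s := hs
        rw [(hd s).deriv]
        have := hf (y + s) (y - s) (by linarith)
        nlinarith
    have := hanti (Set.mem_Ici.2 le_rfl) (Set.mem_Ici.2 ht) ht
    simp only [hg, add_zero, sub_zero] at this
    nlinarith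
  intro y t
  rcases le_total 0 t with h | h
  · exact main y t h
  · have := main y (-t) (by linarith)
    have e1 : y + -t = y - t := by ring
    have e2 : y - -t = y + t := by ring
    rw [e1, e2] at this
    nlinarith

lemma midLo_of_deriv {F f : ℝ → ℝ} {κ : ℝ} (hF : ∀ x, HasDerivAt F (f x) x)
    (hf : ∀ x y, y ≤ x → -(κ * (x - y)) ≤ f x - f y) : MidLo κ F := by
  have h := midHi_of_deriv (F := fun x => -F x) (f := fun x => -f x) (κ := κ)
    (fun x => (hF x).neg) (fun x y hxy => by have := hf x y hxy; linarith)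
  intro y t
  have := h y t
  simp only at this
  linarith

lemma MidHi.add' {κ κ' : ℝ} {F G : ℝ → ℝ} (h : MidHi κ F) (h' : MidHi κ' G) :
    MidHi (κ + κ') (fun x => F x + G x) := by
  intro y t
  have := h y t
  have := h' y t
  simp only
  linarith

lemma MidLo.add' {κ κ' : ℝ} {F G : ℝ → ℝ} (h : MidLo κ F) (h' : MidLo κ' G) :
    MidLo (κ + κ') (fun x => F x + G x) := by
  intro y t
  have := h y t
  have := h' y t
  simp only
  linarith

/-! ### The potential -/

/-- slope of the truncated potential -/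
def sl (b R x : ℝ) : ℝ := max 0 (min (b * (-1 - x)) (b * R - (-1 - x - R) / 4))

lemma sl_cont (b R : ℝ) : Continuous (sl b R) := by
  unfold sl
  fun_prop

lemma sl_nonneg (b R x : ℝ) : 0 ≤ sl b R x := le_max_left _ _

lemma sl_le {b R : ℝ} (hb : 0 ≤ b) (hR : 0 ≤ R) (x : ℝ) : sl b R x ≤ b * R := by
  refine max_le (by positivity) ?_
  rcases le_total (-1 - x) R with h | h
  · exact (min_le_left _ _).trans (mul_le_mul_of_nonneg_left h hb)
  · exact (min_le_right _ _).trans (by linarith)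

lemma sl_le_t {b : ℝ} (hb : 0 ≤ b) (R : ℝ) {x : ℝ} (hx : x ≤ -1) : sl b R x ≤ b * (-1 - x) :=
  max_le (mul_nonneg hb (by linarith)) (min_le_left _ _)

lemma sl_eq {b R : ℝ} (hb : 0 ≤ b) {x : ℝ} (hx : x ≤ -1) (hx2 : -1 - R ≤ x) :
    sl b R x = b * (-1 - x) := by
  unfold sl
  have h1 : b * (-1 - x) ≤ b * R - (-1 - x - R) / 4 := by nlinarith
  rw [min_eq_left h1]
  exact max_eq_right (mul_nonneg hb (by linarith))

lemma sl_right {b : ℝ} (hb : 0 ≤ b) (R : ℝ) {x : ℝ} (hx : -1 ≤ x) : sl b R x = 0 := by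
  unfold sl
  apply max_eq_left
  exact (min_le_left _ _).trans (mul_nonpos_of_nonneg_of_nonpos hb (by linarith))

lemma sl_left {b R : ℝ} {x : ℝ} (hx : x ≤ -1 - R - 4 * (b * R)) : sl b R x = 0 := by
  unfold sl
  apply max_eq_left
  exact (min_le_right _ _).trans (by linarith)

lemma sl_up {b : ℝ} (hb : 0 ≤ b) (R : ℝ) (x y : ℝ) (h : y ≤ x) :
    sl b R x - sl b R y ≤ 1 / 4 * (x - y) := by
  unfold sl
  have h1 : b * (-1 - x) ≤ b * (-1 - y) := mul_le_mul_of_nonneg_left (by linarith) hb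
  have h2 : min (b * (-1 - x)) (b * R - (-1 - x - R) / 4) ≤
      min (b * (-1 - y)) (b * R - (-1 - y - R) / 4) + 1 / 4 * (x - y) := by
    rcases le_total (b * (-1 - y)) (b * R - (-1 - y - R) / 4) with h3 | h3
    · rw [min_eq_left h3]
      exact (min_le_left _ _).trans (by linarith)
    · rw [min_eq_right h3]
      exact (min_le_right _ _).trans (by linarith)
  have h4 : max 0 (min (b * (-1 - x)) (b * R - (-1 - x - R) / 4)) ≤
      max 0 (min (b * (-1 - y)) (b * R - (-1 - y - R) / 4)) + 1 / 4 * (x - y) := by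
    refine max_le ?_ (h2.trans ?_)
    · have := le_max_left 0 (min (b * (-1 - y)) (b * R - (-1 - y - R) / 4))
      linarith
    · have := le_max_right 0 (min (b * (-1 - y)) (b * R - (-1 - y - R) / 4))
      linarith
  linarith

lemma sl_lo {b : ℝ} (hb : 0 ≤ b) (R : ℝ) (x y : ℝ) (h : y ≤ x) :
    -(b * (x - y)) ≤ sl b R x - sl b R y := by
  unfold sl
  have hbx : 0 ≤ b * (x - y) := mul_nonneg hb (by linarith)
  have h2 : min (b * (-1 - y)) (b * R - (-1 - y - R) / 4) ≤
      min (b * (-1 - x)) (b * R - (-1 - x - R) / 4) + b * (x - y) := by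
    rcases le_total (b * (-1 - x)) (b * R - (-1 - x - R) / 4) with h3 | h3
    · rw [min_eq_left h3]
      exact (min_le_left _ _).trans (by nlinarith)
    · rw [min_eq_right h3]
      exact (min_le_right _ _).trans (by linarith)
  have h4 : max 0 (min (b * (-1 - y)) (b * R - (-1 - y - R) / 4)) ≤
      max 0 (min (b * (-1 - x)) (b * R - (-1 - x - R) / 4)) + b * (x - y) := by
    refine max_le ?_ (h2.trans ?_)
    · have := le_max_left 0 (min (b * (-1 - x)) (b * R - (-1 - x - R) / 4))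
      linarith
    · have := le_max_right 0 (min (b * (-1 - x)) (b * R - (-1 - x - R) / 4))
      linarith
  linarith

/-- the `C^1` potential -/
def F0 (b R x : ℝ) : ℝ := ∫ y in (-1 : ℝ)..x, sl b R y

lemma F0_deriv (b R x : ℝ) : HasDerivAt (F0 b R) (sl b R x) x :=
  intervalIntegral.integral_hasDerivAt_right ((sl_cont b R).intervalIntegrable _ _)
    ((sl_cont b R).stronglyMeasurableAtFilter _ _) (sl_cont b R).continuousAt

lemma F0_cont (b R : ℝ) : Continuous (F0 b R) :=
  continuous_iff_continuousAt.2 fun x => (F0_deriv b R x).continuousAt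

lemma F0_mono (b R : ℝ) : Monotone (F0 b R) := by
  apply monotone_of_deriv_nonneg (fun x => (F0_deriv b R x).differentiableAt)
  intro x
  rw [(F0_deriv b R x).deriv]
  exact sl_nonneg _ _ _

lemma F0_right {b : ℝ} (hb : 0 ≤ b) (R : ℝ) {x : ℝ} (hx : -1 ≤ x) : F0 b R x = 0 := by
  unfold F0
  rw [intervalIntegral.integral_congr (g := fun _ => (0 : ℝ))]
  · simp
  · intro y hy
    rw [Set.uIcc_of_le hx] at hy
    exact sl_right hb R hy.1

lemma F0_left {b R : ℝ} {x : ℝ} (hx : x ≤ -1 - R - 4 * (b * R)) :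
    F0 b R x = F0 b R (-1 - R - 4 * (b * R)) := by
  have h := intervalIntegral.integral_interval_sub_left
    (f := sl b R) (μ := volume) (a := -1) (b := -1 - R - 4 * (b * R)) (c := x)
    ((sl_cont b R).intervalIntegrable _ _) ((sl_cont b R).intervalIntegrable _ _)
  have h0 : ∫ y in x..(-1 - R - 4 * (b * R)), sl b R y = 0 := by
    rw [intervalIntegral.integral_congr (g := fun _ => (0 : ℝ))]
    · simp
    · intro y hy
      rw [Set.uIcc_of_le hx] at hy
      exact sl_left hy.2
  rw [h0] at h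
  unfold F0
  linarith

lemma int_lin (b x : ℝ) : ∫ y in (-1 : ℝ)..x, b * (-1 - y) = -(b / 2) * (-1 - x) ^ 2 := by
  have hd : ∀ y ∈ Set.uIcc (-1 : ℝ) x,
      HasDerivAt (fun y : ℝ => -(b / 2) * (-1 - y) ^ 2) (b * (-1 - y)) y := by
    intro y _
    have h1 : HasDerivAt (fun y : ℝ => -1 - y) (-1) y := (hasDerivAt_id y).const_sub (-1)
    have h2 := (h1.pow 2).const_mul (-(b / 2))
    refine h2.congr_deriv ?_
    norm_num
    ring
  rw [intervalIntegral.integral_eq_sub_of_hasDerivAt hd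
    ((by fun_prop : Continuous fun y : ℝ => b * (-1 - y)).intervalIntegrable _ _)]
  ring

lemma F0_mid {b R : ℝ} (hb : 0 ≤ b) {x : ℝ} (hx : x ≤ -1) (hx2 : -1 - R ≤ x) :
    F0 b R x = -(b / 2) * (-1 - x) ^ 2 := by
  rw [← int_lin]
  unfold F0
  apply intervalIntegral.integral_congr
  intro y hy
  rw [Set.uIcc_of_ge hx] at hy
  exact sl_eq hb hy.2 (hx2.trans hy.1)

lemma fq_le_F0 {b : ℝ} (hb : 0 ≤ b) (R x : ℝ) : fq b (-1) x ≤ F0 b R x := by
  rcases le_total x (-1) with hx | hx
  · unfold fq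
    rw [max_eq_left (by linarith : (0 : ℝ) ≤ -1 - x), ← int_lin]
    unfold F0
    rw [intervalIntegral.integral_symm, intervalIntegral.integral_symm (a := x)]
    apply neg_le_neg
    apply intervalIntegral.integral_mono_on hx ((sl_cont b R).intervalIntegrable _ _)
      ((by fun_prop : Continuous fun y : ℝ => b * (-1 - y)).intervalIntegrable _ _)
    intro y hy
    exact sl_le_t hb R hy.2
  · rw [F0_right hb R hx]
    unfold fq
    nlinarith [sq_nonneg (max (-1 - x) 0)]

lemma F0_low (b R x : ℝ) : F0 b R (-1 - R - 4 * (b * R)) ≤ F0 b R x := by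
  rcases le_total x (-1 - R - 4 * (b * R)) with h | h
  · exact (F0_left h).symm.le
  · exact F0_mono b R h

lemma fqL_le_F0 {b : ℝ} (hb : 0 ≤ b) (R : ℝ) {L : ℝ} (hL : -F0 b R (-1 - R - 4 * (b * R)) ≤ L)
    (x : ℝ) : fqL L b (-1) x ≤ F0 b R x :=
  max_le (fq_le_F0 hb R x) (le_trans (by linarith) (F0_low b R x))


/-- the potential truncated at `-(b R^2/2)` -/
lemma fqL_eq {b R : ℝ} (hb : 0 ≤ b) (hR : 0 ≤ R) (x : ℝ) :
    fqL (b * R ^ 2 / 2) b (-1) x = -(b / 2) * Tcut R x ^ 2 := by
  unfold fqL fq Tcut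
  have h0 : 0 ≤ max (-1 - x) 0 := le_max_right _ _
  rcases le_total (max (-1 - x) 0) R with h | h
  · rw [min_eq_left h]
    apply max_eq_left
    nlinarith [mul_le_mul h h h0 hR]
  · rw [min_eq_right h, max_eq_right]
    · ring
    · nlinarith [mul_le_mul h h hR h0]

lemma F0_le {b R : ℝ} (hb : 0 ≤ b) (hR : 0 ≤ R) (x : ℝ) :
    F0 b R x ≤ -(b / 2) * Tcut R x ^ 2 := by
  unfold Tcut
  rcases le_total (-1) x with hx | hx
  · rw [F0_right hb R hx, max_eq_right (by linarith : -1 - x ≤ 0), min_eq_left hR]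
    simp
  · rw [max_eq_left (by linarith : (0 : ℝ) ≤ -1 - x)]
    rcases le_total (-1 - R) x with hx2 | hx2
    · rw [F0_mid hb hx hx2, min_eq_left (by linarith)]
    · rw [min_eq_right (by linarith)]
      refine (F0_mono b R hx2).trans ?_
      rw [F0_mid hb (by linarith) le_rfl]
      apply le_of_eq
      ring

lemma F0_lip {b R : ℝ} (hb : 0 ≤ b) (hR : 0 ≤ R) (x y : ℝ) :
    |F0 b R x - F0 b R y| ≤ b * R * |x - y| := by
  have h := Convex.norm_image_sub_le_of_norm_hasDerivWithin_le (f := F0 b R) (f' := sl b R)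
    (C := b * R) (s := Set.univ) (x := y) (y := x)
    (fun z _ => (F0_deriv b R z).hasDerivWithinAt)
    (fun z _ => by rw [Real.norm_eq_abs, abs_of_nonneg (sl_nonneg _ _ _)]; exact sl_le hb hR z)
    convex_univ trivial trivial
  simpa [Real.norm_eq_abs] using h

lemma F0_midHi {b : ℝ} (hb : 0 ≤ b) (R : ℝ) : MidHi (1 / 4) (F0 b R) :=
  midHi_of_deriv (F0_deriv b R) (sl_up hb R)

lemma F0_midLo {b : ℝ} (hb : 0 ≤ b) (R : ℝ) : MidLo b (F0 b R) :=
  midLo_of_deriv (F0_deriv b R) (sl_lo hb R)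

/-! ### Mollification -/

/-- the bump function of radius `δ` -/
def bump (δ : ℝ) (hδ : 0 < δ) : ContDiffBump (0 : ℝ) := ⟨δ / 2, δ, by positivity, by linarith⟩

/-- mollified function -/
def moll (δ : ℝ) (hδ : 0 < δ) (F : ℝ → ℝ) : ℝ → ℝ :=
  (bump δ hδ).normed volume ⋆[ContinuousLinearMap.lsmul ℝ ℝ, volume] F

lemma moll_contDiff {δ : ℝ} (hδ : 0 < δ) {F : ℝ → ℝ} (hF : Continuous F) (n : ℕ) :
    ContDiff ℝ n (moll δ hδ F) := by
  unfold moll
  exact (bump δ hδ).hasCompactSupport_normed.contDiff_convolution_left _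
    (bump δ hδ).contDiff_normed (hF.locallyIntegrable)

lemma moll_dist {δ : ℝ} (hδ : 0 < δ) {F : ℝ → ℝ} (hF : Continuous F) {x e : ℝ}
    (h : ∀ y, |y - x| < δ → |F y - F x| ≤ e) : |moll δ hδ F x - F x| ≤ e := by
  have := (bump δ hδ).dist_normed_convolution_le (μ := volume) (g := F) (x₀ := x) (ε := e)
    hF.aestronglyMeasurable (by
      intro y hy
      rw [Real.dist_eq]
      apply h
      rwa [Metric.mem_ball, Real.dist_eq] at hy)
  rwa [Real.dist_eq] at this

lemma moll_eq {δ : ℝ} (hδ : 0 < δ) {F : ℝ → ℝ} {x : ℝ}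
    (h : ∀ y, |y - x| < δ → F y = F x) : moll δ hδ F x = F x := by
  apply (bump δ hδ).normed_convolution_eq_right
  intro y hy
  apply h
  rwa [Metric.mem_ball, Real.dist_eq] at hy

lemma moll_apply {δ : ℝ} (hδ : 0 < δ) (F : ℝ → ℝ) (x : ℝ) :
    moll δ hδ F x = ∫ t, (bump δ hδ).normed volume t * F (x - t) := rfl

lemma moll_int {δ : ℝ} (hδ : 0 < δ) {F : ℝ → ℝ} (hF : Continuous F) (x : ℝ) :
    Integrable (fun t => (bump δ hδ).normed volume t * F (x - t)) := by
  apply Continuous.integrable_of_hasCompactSupport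
  · exact ((bump δ hδ).continuous_normed).mul (hF.comp (by fun_prop))
  · exact (bump δ hδ).hasCompactSupport_normed.mul_right

lemma moll_midHi {δ : ℝ} (hδ : 0 < δ) {F : ℝ → ℝ} (hF : Continuous F) {κ : ℝ} (h : MidHi κ F) :
    MidHi κ (moll δ hδ F) := by
  intro y t
  rw [moll_apply, moll_apply, moll_apply, ← integral_add (moll_int hδ hF _) (moll_int hδ hF _),
    ← integral_const_mul]
  have e : κ * t ^ 2 = ∫ s, (bump δ hδ).normed volume s * (κ * t ^ 2) := by
    rw [integral_mul_const, (bump δ hδ).integral_normed, one_mul]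
  rw [e, ← integral_add ((moll_int hδ hF _).const_mul 2)
    (((bump δ hδ).integrable_normed).mul_const _)]
  apply integral_mono ((moll_int hδ hF _).add (moll_int hδ hF _))
    (((moll_int hδ hF _).const_mul 2).add (((bump δ hδ).integrable_normed).mul_const _))
  intro s
  simp only [Pi.add_apply]
  have h1 := h (y - s) t
  have h2 : 0 ≤ (bump δ hδ).normed volume s := (bump δ hδ).nonneg_normed s
  have e1 : y + t - s = y - s + t := by ring
  have e2 : y - t - s = y - s - t := by ring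
  rw [e1, e2]
  nlinarith [mul_le_mul_of_nonneg_left h1 h2]

lemma moll_midLo {δ : ℝ} (hδ : 0 < δ) {F : ℝ → ℝ} (hF : Continuous F) {κ : ℝ} (h : MidLo κ F) :
    MidLo κ (moll δ hδ F) := by
  have h1 : MidHi κ (fun x => -F x) := fun y t => by have := h y t; simp only; linarith
  have h2 : MidHi κ (moll δ hδ (fun x => -F x)) := moll_midHi hδ hF.neg h1
  have e : ∀ x, moll δ hδ (fun x => -F x) x = -moll δ hδ F x := by
    intro x
    rw [moll_apply, moll_apply, ← integral_neg]
    congr 1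
    ext t
    ring
  intro y t
  have := h2 y t
  rw [e, e, e] at this
  linarith

/-! ### Test functions -/

/-- smooth and constant outside a bounded interval -/
lemma test_of_const {F : ℝ → ℝ} (hF : ∀ n : ℕ, ContDiff ℝ n F) {A B c c' : ℝ}
    (hA : ∀ x, x < A → F x = c) (hB : ∀ x, B < x → F x = c') : Test F where
  smooth := hF
  bd := by
    intro n
    have hcont : Continuous (iteratedDeriv n F) :=
      (hF n).continuous_iteratedDeriv n le_rfl
    obtain ⟨C, hC⟩ := (isCompact_Icc (a := A - 1) (b := B + 1)).exists_bound_of_continuousOn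
      hcont.continuousOn
    have hconst : ∀ (d x : ℝ), |iteratedDeriv n (fun _ : ℝ => d) x| ≤ |d| := by
      intro d x
      rcases n with _ | n
      · simp
      · rw [iteratedDeriv_succ', deriv_const']
        have : iteratedDeriv n (fun _ : ℝ => (0 : ℝ)) x = 0 := by
          simp
        rw [this]
        simp
    refine ⟨max C (max |c| |c'|), fun x => ?_⟩
    by_cases h1 : x < A
    · have he : F =ᶠ[𝓝 x] fun _ => c := by
        filter_upwards [Iio_mem_nhds h1] with y hy using hA y hy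
      rw [he.iteratedDeriv_eq n]
      exact (hconst c x).trans ((le_max_left _ _).trans (le_max_right _ _))
    · by_cases h2 : B < x
      · have he : F =ᶠ[𝓝 x] fun _ => c' := by
          filter_upwards [Ioi_mem_nhds h2] with y hy using hB y hy
        rw [he.iteratedDeriv_eq n]
        exact (hconst c' x).trans ((le_max_right _ _).trans (le_max_right _ _))
      · refine le_trans ?_ (le_max_left _ _)
        have := hC x ⟨by linarith, by linarith⟩
        rwa [Real.norm_eq_abs] at this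

lemma Test.add' {F G : ℝ → ℝ} (hF : Test F) (hG : Test G) : Test fun x => F x + G x where
  smooth n := (hF.smooth n).add (hG.smooth n)
  bd n := by
    obtain ⟨C, hC⟩ := hF.bd n
    obtain ⟨D, hD⟩ := hG.bd n
    refine ⟨C + D, fun x => ?_⟩
    have e : iteratedDeriv n (fun x => F x + G x) x = iteratedDeriv n F x + iteratedDeriv n G x :=
      iteratedDeriv_fun_add (hF.smooth n).contDiffAt (hG.smooth n).contDiffAt
    rw [e]
    exact (abs_add_le _ _).trans (add_le_add (hC x) (hD x))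










/-! ### Main statements -/

/-- **the smooth truncated potential** -/
theorem potential {b R d : ℝ} (hb : 0 < b) (hR : 0 ≤ R) (hd : 0 < d) :
    ∃ F : ℝ → ℝ, ∃ L1 : ℝ, Test F ∧ MidLo b F ∧ MidHi (1 / 4) F ∧
      (∀ L, L1 ≤ L → ∀ x, fqL L b (-1) x ≤ F x) ∧
      (∀ x, F x ≤ fqL (b * R ^ 2 / 2) b (-1) x + d) ∧
      (∀ x, F x ≤ d - b / 2 * Tcut R x ^ 2) := by
  have hb0 := hb.le
  set δ : ℝ := d / (2 * (b * R + 1)) with hδdef
  have hbR : 0 ≤ b * R := mul_nonneg hb0 hR
  have hδ : 0 < δ := by positivity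
  have h2 : 2 * (b * R * δ) ≤ d := by
    have e : δ * (2 * (b * R + 1)) = d := by rw [hδdef]; field_simp
    nlinarith
  have hF0c := F0_cont b R
  have hdist : ∀ x, |moll δ hδ (F0 b R) x - F0 b R x| ≤ b * R * δ := by
    intro x
    apply moll_dist hδ hF0c
    intro y hy
    exact (F0_lip hb0 hR y x).trans (mul_le_mul_of_nonneg_left hy.le hbR)
  have hup : ∀ x, moll δ hδ (F0 b R) x + b * R * δ ≤ d - b / 2 * Tcut R x ^ 2 := by
    intro x
    have h3 := (abs_le.1 (hdist x)).2
    have h4 := F0_le hb0 hR x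
    linarith
  refine ⟨fun x => moll δ hδ (F0 b R) x + b * R * δ, -F0 b R (-1 - R - 4 * (b * R)), ?_, ?_, ?_,
    ?_, ?_, hup⟩
  · apply test_of_const (A := -1 - R - 4 * (b * R) - δ) (B := -1 + δ)
      (c := F0 b R (-1 - R - 4 * (b * R)) + b * R * δ) (c' := 0 + b * R * δ)
    · intro n
      exact (moll_contDiff hδ hF0c n).add contDiff_const
    · intro x hx
      have h3 : F0 b R x = F0 b R (-1 - R - 4 * (b * R)) := F0_left (by linarith)
      rw [moll_eq hδ, h3]
      intro y hy
      have h4 := (abs_lt.1 hy).2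
      rw [h3]
      exact F0_left (by linarith)
    · intro x hx
      have h3 : F0 b R x = 0 := F0_right hb0 R (by linarith)
      rw [moll_eq hδ, h3]
      intro y hy
      have h4 := (abs_lt.1 hy).1
      rw [h3]
      exact F0_right hb0 R (by linarith)
  · have := moll_midLo hδ hF0c (F0_midLo hb0 R)
    intro y t
    have := this y t
    simp only
    linarith
  · have := moll_midHi hδ hF0c (F0_midHi hb0 R)
    intro y t
    have := this y t
    simp only
    linarith
  · intro L hL x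
    have h3 := fqL_le_F0 hb0 R hL x
    have h4 := (abs_le.1 (hdist x)).1
    simp only
    linarith
  · intro x
    rw [fqL_eq hb0 hR]
    have := hup x
    simp only
    linarith


end

end Crest.Agent.R146.G7Pot_435
end

-- ▼ part R146/G7a_734
section

/-!
Row 146, node G7, parts (a), (b) of helper508's note (helper734): the constants of LOCUB.
`G7A W`: for every constant `C` there are `η, s, ε0, R, q` such that the energy bound of the region
`r² ≤ s` is below the variational value minus one, for all `b > 0` at once.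
-/

set_option autoImplicit false

open MeasureTheory ProbabilityTheory Filter Crest.ProbabilityR.Perceptron
open scoped Topology

namespace Crest.Agent.R146.G7a_734

open Crest.Agent.R146.P34_734 Crest.Agent.R146.LocCore_508 Crest.Agent.R146.LocRec_508

noncomputable section

local notation "γ" => gaussianReal 0 1

/-- parts (a), (b) of G7 -/
def G7A (W : BS) : Prop := ∀ αc : ℝ, 0 < αc → (∀ α, 0 < α → α < αc → W.ZeroE α (-1)) →
  ∀ C : ℝ, 0 < C → ∃ η s ε0 R q : ℝ, 0 < η ∧ η ≤ αc ∧ 0 < s ∧ s < 1 ∧ 0 < ε0 ∧ ε0 ≤ 1 / 2 ∧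
    2 * αc * ε0 ≤ s ∧ 0 ≤ R ∧ 0 ≤ q ∧ (∀ ε, 0 ≤ ε → ε < ε0 → QLow ε R q) ∧
    ∀ α, αc < α → α < αc + η → ∀ b : ℝ, 0 < b →
      -(b / 2) * (max (√(α * q) - C * √s) 0) ^ 2 + 1 / 2 * Real.log s ≤
        W.Pv α (fq b (-1)) - 1

/-! ### A smooth truncation of the square -/

/-- tent function -/
def om (T t : ℝ) : ℝ := 2 * max 0 (min t (2 * T - t))

/-- its primitive: `t²` on `[0, T]`, second differences in `[-2, 2]`, constant beyond `2T` -/
def Wt (T t : ℝ) : ℝ := ∫ u in (0 : ℝ)..t, om T u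

lemma om_cont (T : ℝ) : Continuous (om T) := by unfold om; fun_prop

lemma om_nonneg (T t : ℝ) : 0 ≤ om T t := by unfold om; positivity

lemma Wt_deriv (T t : ℝ) : HasDerivAt (Wt T) (om T t) t :=
  intervalIntegral.integral_hasDerivAt_right ((om_cont T).intervalIntegrable _ _)
    ((om_cont T).stronglyMeasurableAtFilter _ _) (om_cont T).continuousAt

lemma Wt_cont (T : ℝ) : Continuous (Wt T) :=
  continuous_iff_continuousAt.2 fun t => (Wt_deriv T t).continuousAt

lemma om_lip (T a b : ℝ) (h : a ≤ b) : |om T b - om T a| ≤ 2 * (b - a) := by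
  unfold om
  rw [abs_le]
  constructor <;> rcases max_cases 0 (min a (2 * T - a)) with h1 | h1 <;>
    rcases max_cases 0 (min b (2 * T - b)) with h2 | h2 <;>
    rcases min_cases a (2 * T - a) with h3 | h3 <;>
    rcases min_cases b (2 * T - b) with h4 | h4 <;> linarith [h1.1, h2.1, h3.1, h4.1, h1.2, h2.2, h3.2, h4.2]

lemma Wt_lo (T : ℝ) : MidLo 2 (Wt T) := by
  have hd : ∀ x, HasDerivAt (fun x => Wt T x + x ^ 2) (om T x + 2 * x) x := fun x => by
    have := (Wt_deriv T x).fun_add (hasDerivAt_pow 2 x)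
    simpa using this
  have hc : ConvexOn ℝ Set.univ fun x => Wt T x + x ^ 2 := by
    refine Monotone.convexOn_univ_of_deriv (fun x => (hd x).differentiableAt) ?_
    intro a b hab
    rw [(hd a).deriv, (hd b).deriv]
    have := (abs_le.1 (om_lip T a b hab)).1
    linarith
  intro y t
  have := hc.2 (Set.mem_univ (y + t)) (Set.mem_univ (y - t)) (show (0 : ℝ) ≤ 1 / 2 by norm_num)
    (show (0 : ℝ) ≤ 1 / 2 by norm_num) (by norm_num)
  simp only [smul_eq_mul] at this
  have e : 1 / 2 * (y + t) + 1 / 2 * (y - t) = y := by ring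
  rw [e] at this
  nlinarith

lemma Wt_hi (T : ℝ) : MidHi 2 (Wt T) := by
  have hd : ∀ x, HasDerivAt (fun x => x ^ 2 - Wt T x) (2 * x - om T x) x := fun x => by
    have := (hasDerivAt_pow 2 x).fun_sub (Wt_deriv T x)
    simpa using this
  have hc : ConvexOn ℝ Set.univ fun x => x ^ 2 - Wt T x := by
    refine Monotone.convexOn_univ_of_deriv (fun x => (hd x).differentiableAt) ?_
    intro a b hab
    rw [(hd a).deriv, (hd b).deriv]
    have := (abs_le.1 (om_lip T a b hab)).2
    linarith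
  intro y t
  have := hc.2 (Set.mem_univ (y + t)) (Set.mem_univ (y - t)) (show (0 : ℝ) ≤ 1 / 2 by norm_num)
    (show (0 : ℝ) ≤ 1 / 2 by norm_num) (by norm_num)
  simp only [smul_eq_mul] at this
  have e : 1 / 2 * (y + t) + 1 / 2 * (y - t) = y := by ring
  rw [e] at this
  nlinarith

lemma Wt_of_nonpos {T t : ℝ} (_hT : 0 ≤ T) (ht : t ≤ 0) : Wt T t = 0 := by
  unfold Wt
  rw [intervalIntegral.integral_symm, neg_eq_zero]
  refine (intervalIntegral.integral_congr (g := fun _ => 0) fun u hu => ?_).trans (by simp)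
  rw [Set.uIcc_of_le ht] at hu
  have : om T u = 0 := by
    unfold om
    have h1 : min u (2 * T - u) ≤ 0 := (min_le_left _ _).trans hu.2
    rw [max_eq_left h1, mul_zero]
  simpa using this

lemma Wt_eq_sq {T t : ℝ} (ht : 0 ≤ t) (htT : t ≤ T) : Wt T t = t ^ 2 := by
  unfold Wt
  have : ∫ u in (0 : ℝ)..t, om T u = ∫ u in (0 : ℝ)..t, 2 * u := by
    refine intervalIntegral.integral_congr fun u hu => ?_
    rw [Set.uIcc_of_le ht] at hu
    have h1 : u ≤ 2 * T - u := by linarith [hu.2]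
    simp only [om]
    rw [min_eq_left h1, max_eq_right hu.1]
  rw [this, intervalIntegral.integral_const_mul, integral_id]
  ring

lemma Wt_mono (T : ℝ) : Monotone (Wt T) := by
  intro a b hab
  have : Wt T b - Wt T a = ∫ u in a..b, om T u :=
    intervalIntegral.integral_interval_sub_left ((om_cont T).intervalIntegrable _ _)
      ((om_cont T).intervalIntegrable _ _)
  have h2 : 0 ≤ ∫ u in a..b, om T u :=
    intervalIntegral.integral_nonneg hab fun u _ => om_nonneg T u
  linarith

lemma Wt_nonneg {T : ℝ} (hT : 0 ≤ T) (t : ℝ) : 0 ≤ Wt T t := by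
  rcases le_total t 0 with h | h
  · rw [Wt_of_nonpos hT h]
  · rw [← Wt_of_nonpos hT le_rfl]; exact Wt_mono T h

lemma Wt_le_sq {T t : ℝ} (hT : 0 ≤ T) : Wt T t ≤ max t 0 ^ 2 := by
  rcases le_total t 0 with h | h
  · rw [Wt_of_nonpos hT h]; positivity
  · rw [max_eq_left h]
    unfold Wt
    have : ∫ u in (0 : ℝ)..t, om T u ≤ ∫ u in (0 : ℝ)..t, 2 * u := by
      refine intervalIntegral.integral_mono_on h ((om_cont T).intervalIntegrable _ _)
        ((by fun_prop : Continuous fun u : ℝ => 2 * u).intervalIntegrable _ _) fun u hu => ?_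
      unfold om
      have h1 : max 0 (min u (2 * T - u)) ≤ u := max_le hu.1 (min_le_left _ _)
      linarith
    refine this.trans (le_of_eq ?_)
    rw [intervalIntegral.integral_const_mul, integral_id]
    ring

lemma Wt_const {T t : ℝ} (_hT : 0 ≤ T) (ht : 2 * T ≤ t) : Wt T t = Wt T (2 * T) := by
  have : Wt T t - Wt T (2 * T) = ∫ u in (2 * T)..t, om T u :=
    intervalIntegral.integral_interval_sub_left ((om_cont T).intervalIntegrable _ _)
      ((om_cont T).intervalIntegrable _ _)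
  have h2 : ∫ u in (2 * T)..t, om T u = 0 := by
    refine (intervalIntegral.integral_congr (g := fun _ => 0) fun u hu => ?_).trans (by simp)
    rw [Set.uIcc_of_le ht] at hu
    have : om T u = 0 := by
      unfold om
      have h1 : min u (2 * T - u) ≤ 0 := (min_le_right _ _).trans (by linarith [hu.1])
      rw [max_eq_left h1, mul_zero]
    simpa using this
  linarith

lemma Wt_le_cut {T t : ℝ} (hT : 0 ≤ T) : Wt T t ≤ (min (max t 0) (2 * T)) ^ 2 := by
  rcases le_total (max t 0) (2 * T) with h | h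
  · rw [min_eq_left h]; exact Wt_le_sq hT
  · rw [min_eq_right h]
    rcases le_total t (2 * T) with h2 | h2
    · have : Wt T t ≤ Wt T (2 * T) := Wt_mono T h2
      refine this.trans ((Wt_le_sq hT).trans (le_of_eq ?_))
      rw [max_eq_left (by linarith)]
    · rw [Wt_const hT h2]
      refine (Wt_le_sq hT).trans (le_of_eq ?_)
      rw [max_eq_left (by linarith)]

lemma Wt_abs {T : ℝ} (hT : 0 ≤ T) (t : ℝ) : |Wt T t| ≤ (2 * T) ^ 2 := by
  rw [abs_of_nonneg (Wt_nonneg hT t)]
  refine (Wt_le_cut hT).trans ?_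
  have h1 : min (max t 0) (2 * T) ≤ 2 * T := min_le_right _ _
  have h2 : 0 ≤ min (max t 0) (2 * T) := le_min (le_max_right _ _) (by linarith)
  exact pow_le_pow_left₀ h2 h1 2

/-- `E (-1 - Z)_+²` -/
def psi2 : ℝ := ∫ z, max (-1 - z) 0 ^ 2 ∂γ

lemma integrable_sq_part : Integrable (fun z : ℝ => max (-1 - z) 0 ^ 2) γ := by
  have h : MemLp (fun z : ℝ => -1 - z) 2 γ := (memLp_const (-1 : ℝ)).sub (memLp_id_gaussianReal 2)
  refine Integrable.mono h.integrable_sq (by fun_prop) (Eventually.of_forall fun z => ?_)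
  rw [Real.norm_eq_abs, Real.norm_eq_abs, abs_of_nonneg (sq_nonneg _), abs_of_nonneg (sq_nonneg _)]
  rcases le_total (-1 - z) 0 with h | h
  · rw [max_eq_right h, zero_pow two_ne_zero]; exact sq_nonneg _
  · rw [max_eq_left h]

lemma psi2_pos : 0 < psi2 := by
  unfold psi2
  rw [integral_pos_iff_support_of_nonneg (fun z => sq_nonneg _) integrable_sq_part]
  have hsub : Set.Iio (-1 : ℝ) ⊆ Function.support fun z : ℝ => max (-1 - z) 0 ^ 2 := by
    intro z hz
    rw [Set.mem_Iio] at hz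
    rw [Function.mem_support]
    have : 0 < max (-1 - z) 0 := lt_max_of_lt_left (by linarith)
    exact (pow_pos this 2).ne'
  refine lt_of_lt_of_le (pos_iff_ne_zero.2 fun h0 => ?_) (measure_mono hsub)
  have hv := gaussianReal_absolutelyContinuous' 0 (one_ne_zero (α := NNReal)) h0
  rw [Real.volume_Iio] at hv
  exact ENNReal.top_ne_zero hv

lemma tendsto_Wt : Tendsto (fun T : ℝ => ∫ z, Wt T (-1 - z) ∂γ) atTop (𝓝 psi2) := by
  unfold psi2
  refine tendsto_integral_filter_of_dominated_convergence (fun z : ℝ => max (-1 - z) 0 ^ 2) ?_ ?_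
    integrable_sq_part ?_
  · exact Eventually.of_forall fun T => ((Wt_cont T).comp (by fun_prop)).aestronglyMeasurable
  · filter_upwards [eventually_ge_atTop (0 : ℝ)] with T hT
    refine Eventually.of_forall fun z => ?_
    rw [Real.norm_eq_abs, abs_of_nonneg (Wt_nonneg hT _)]
    exact Wt_le_sq hT
  · refine Eventually.of_forall fun z => ?_
    refine tendsto_const_nhds.congr' ?_
    filter_upwards [eventually_ge_atTop (0 : ℝ), eventually_ge_atTop (-1 - z)] with T hT hz
    rcases le_total (-1 - z) 0 with h | h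
    · rw [Wt_of_nonpos hT h, max_eq_right h]; norm_num
    · rw [Wt_eq_sq h hz, max_eq_left h]

/-- lower bound of the truncated energy of a row -/
lemma qlow {e : ℝ} (he : 0 < e) : ∃ R : ℝ, 0 ≤ R ∧ ∀ ε : ℝ, 0 ≤ ε → ε ≤ 1 → ε ≤ e / 2 →
    QLow ε R (psi2 - e) := by
  obtain ⟨T, hT0, hT⟩ := ((eventually_ge_atTop (0 : ℝ)).and
    (tendsto_Wt.eventually (lt_mem_nhds (show psi2 - e / 2 < psi2 by linarith)))).exists
  refine ⟨2 * T, by linarith, fun ε h0 h1 h2 κ _ u hu => ?_⟩
  have hBC : BC (fun x => Wt T (-1 - x)) ((2 * T) ^ 2) :=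
    ⟨(Wt_cont T).comp (by fun_prop), fun x => Wt_abs hT0 _⟩
  have hhi : MidHi 2 (fun x => Wt T (-1 - x)) := fun y t => by
    have := Wt_hi T (-1 - y) t
    have e1 : -1 - (y + t) = -1 - y - t := by ring
    have e2 : -1 - (y - t) = -1 - y + t := by ring
    simp only [e1, e2]; linarith
  have hlo : MidLo 2 (fun x => Wt T (-1 - x)) := fun y t => by
    have := Wt_lo T (-1 - y) t
    have e1 : -1 - (y + t) = -1 - y - t := by ring
    have e2 : -1 - (y - t) = -1 - y + t := by ring
    simp only [e1, e2]; linarith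
  have hmix := LocMix_508.mix_compare hBC hhi hlo h0 h1 u
  rw [hu, Real.sqrt_one] at hmix
  simp only [one_mul] at hmix
  have hpr := LindD_846.isProbabilityMeasure_mixtureLaw ε
  have hmono : ∫ x, Wt T (-1 - ∑ i, u i * x i) ∂(Measure.pi fun _ : κ => mixtureLaw ε) ≤
      ∫ x, (Tcut (2 * T) (∑ i, u i * x i)) ^ 2 ∂(Measure.pi fun _ : κ => mixtureLaw ε) := by
    have hm : Continuous fun x : κ → ℝ => ∑ i, u i * x i := by fun_prop
    refine integral_mono ?_ ?_ fun x => ?_
    · refine Integrable.of_bound (C := (2 * T) ^ 2) ?_ (Eventually.of_forall fun x => ?_)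
      · exact ((Wt_cont T).comp (by fun_prop)).aestronglyMeasurable
      · rw [Real.norm_eq_abs]; exact Wt_abs hT0 _
    · refine Integrable.of_bound (C := (2 * T) ^ 2) ?_ (Eventually.of_forall fun x => ?_)
      · have : Continuous fun x : κ → ℝ => Tcut (2 * T) (∑ i, u i * x i) ^ 2 := by
          unfold Tcut; fun_prop
        exact this.aestronglyMeasurable
      · unfold Tcut
        rw [Real.norm_eq_abs, abs_of_nonneg (sq_nonneg _)]
        exact pow_le_pow_left₀ (le_min (le_max_right _ _) (by linarith)) (min_le_right _ _) 2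
    · exact Wt_le_cut hT0
  have := (abs_le.1 hmix).1
  linarith

/-! ### Lower bounds of the variational value -/

lemma integral_fq (b : ℝ) : ∫ z, fq b (-1) z ∂γ = -(b / 2) * psi2 := by
  unfold psi2 fq
  rw [integral_const_mul]

lemma V_ge (W : BS) {b : ℝ} (hb : 0 < b) (m : OverlapProfile) :
    -(b / 2) * psi2 ≤ W.V (fq b (-1)) m := by
  have h := VTr_468.vzero W b (-1) hb (fun _ => 0) continuous_const ⟨0, by simp⟩ m
  simp only [add_zero] at h
  rw [integral_fq] at h
  exact h

lemma Pv_ge_i (W : BS) {α b : ℝ} (hα : 0 ≤ α) (hb : 0 < b) :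
    -(b / 2) * (α * psi2) ≤ W.Pv α (fq b (-1)) := by
  refine le_csInf (Asm0204_734.vals_nonempty W α _) ?_
  rintro x ⟨m, _, rfl⟩
  have h1 := mul_le_mul_of_nonneg_left (V_ge W hb m) hα
  have h2 : 0 ≤ m.entropy.toReal := ENNReal.toReal_nonneg
  nlinarith

lemma Pv_ge_ii (W : BS) {α α' b : ℝ} (hα' : 0 ≤ α') (h : α' ≤ α) (hb : 0 < b) :
    W.Pv α' (fq b (-1)) - (α - α') * (b / 2 * psi2) ≤ W.Pv α (fq b (-1)) := by
  refine le_csInf (Asm0204_734.vals_nonempty W α _) ?_
  rintro x ⟨m, hm, rfl⟩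
  have e1 : W.Pv α' (fq b (-1)) ≤ α' * W.V (fq b (-1)) m + m.entropy.toReal :=
    csInf_le (Asm0204_734.bddBelow_vals W (VTr_468.vzero W) hα' hb) ⟨m, hm, rfl⟩
  have h1 := mul_le_mul_of_nonneg_left (V_ge W hb m) (sub_nonneg.2 h)
  nlinarith

lemma sq_part_ge {x y : ℝ} (hx : 0 ≤ x) (hy : 0 ≤ y) : x ^ 2 - 2 * x * y ≤ (max (x - y) 0) ^ 2 := by
  rcases le_total y x with h | h
  · rw [max_eq_left (by linarith)]; nlinarith
  · rw [max_eq_right (by linarith)]; nlinarith [mul_nonneg hx hy]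

/-- **parts (a), (b) of G7** -/
theorem g7a (W : BS) : G7A W := by
  intro αc hαc hZ C hC
  have hψ := psi2_pos
  -- zero energy at `α' = 15/16 αc`
  set α' : ℝ := 15 / 16 * αc with hα'
  have hα'0 : 0 < α' := by positivity
  obtain ⟨b0, hb0, hE⟩ := hZ α' hα'0 (by rw [hα']; linarith) (αc * psi2 / 16) (by positivity)
  set c0 : ℝ := min (2 / b0) (αc * psi2 / 2) with hc0
  have hc0p : 0 < c0 := by rw [hc0]; positivity
  have hc01 : c0 ≤ 2 / b0 := min_le_left _ _
  have hc02 : c0 ≤ αc * psi2 / 2 := min_le_right _ _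
  -- choice of `s`
  set M : ℝ := 2 * C * √(2 * αc * psi2) with hM
  have hMp : 0 < M := by rw [hM]; positivity
  have hs_tend : Tendsto (fun s : ℝ => M * √s) (𝓝[>] 0) (𝓝 0) := by
    have h1 : Continuous fun s : ℝ => M * √s := by fun_prop
    have h2 := h1.tendsto 0
    simp only [Real.sqrt_zero, mul_zero] at h2
    exact h2.mono_left nhdsWithin_le_nhds
  have hlog := Real.tendsto_log_nhdsGT_zero.eventually (eventually_le_atBot (-4))
  have hev1 : ∀ᶠ s : ℝ in 𝓝[>] 0, 0 < s := eventually_mem_nhdsWithin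
  have hev2 : ∀ᶠ s : ℝ in 𝓝[>] 0, s < 1 :=
    nhdsWithin_le_nhds (Iio_mem_nhds (show (0 : ℝ) < 1 by norm_num))
  obtain ⟨s, hs0, hs1, hs2, hs3⟩ := (hev1.and (hev2.and
      ((hs_tend.eventually (gt_mem_nhds (show (0 : ℝ) < c0 / 2 by positivity))).and hlog))).exists
  -- choice of `q`
  set e : ℝ := min (c0 / (4 * αc)) psi2 with he
  have hep : 0 < e := by rw [he]; positivity
  have he1 : e ≤ c0 / (4 * αc) := min_le_left _ _
  have he2 : e ≤ psi2 := min_le_right _ _
  obtain ⟨R, hR, hQ⟩ := qlow hep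
  set ε0 : ℝ := min (min (e / 2) (1 / 2)) (s / (2 * αc)) with hε0
  have hε0p : 0 < ε0 := by
    have : 0 < s := hs0
    rw [hε0]; positivity
  have hε01 : ε0 ≤ e / 2 := (min_le_left _ _).trans (min_le_left _ _)
  have hε02 : ε0 ≤ 1 / 2 := (min_le_left _ _).trans (min_le_right _ _)
  have hε03 : ε0 ≤ s / (2 * αc) := min_le_right _ _
  refine ⟨αc / 16, s, ε0, R, psi2 - e, by positivity, by linarith, hs0, hs1, hε0p, hε02, ?_, hR,
    by linarith, fun ε h0 h1 => hQ ε h0 (by linarith) (by linarith), ?_⟩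
  · rw [le_div_iff₀ (by positivity)] at hε03
    linarith
  intro α h1 h2 b hb
  have hα0 : 0 < α := hαc.trans h1
  have hα2 : α ≤ 2 * αc := by linarith
  set q : ℝ := psi2 - e with hq
  have hq0 : 0 ≤ q := by rw [hq]; linarith
  have hqψ : q ≤ psi2 := by rw [hq]; linarith
  -- the energy
  set g : ℝ := (max (√(α * q) - C * √s) 0) ^ 2 with hg
  have hg1 : α * psi2 - c0 ≤ g := by
    have h3 := sq_part_ge (Real.sqrt_nonneg (α * q)) (show 0 ≤ C * √s by positivity)
    rw [Real.sq_sqrt (by positivity)] at h3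
    have h4 : √(α * q) ≤ √(2 * αc * psi2) := by
      apply Real.sqrt_le_sqrt
      exact mul_le_mul hα2 hqψ hq0 (by positivity)
    have h5 : 2 * √(α * q) * (C * √s) ≤ M * √s := by
      rw [hM]
      have : 0 ≤ C * √s := by positivity
      nlinarith [mul_le_mul_of_nonneg_right h4 this]
    have h6 : α * psi2 - α * q ≤ c0 / 2 := by
      have e1 : α * psi2 - α * q = α * e := by rw [hq]; ring
      rw [e1]
      have e2 : α * e ≤ 2 * αc * (c0 / (4 * αc)) := mul_le_mul hα2 he1 hep.le (by positivity)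
      have e3 : 2 * αc * (c0 / (4 * αc)) = c0 / 2 := by field_simp; norm_num
      linarith
    have hs2' : M * √s < c0 / 2 := hs2
    linarith
  have hlogs : Real.log s ≤ -4 := hs3
  rcases le_total b b0 with hbb | hbb
  · -- small `b`
    have h3 := Pv_ge_i W (α := α) hα0.le hb
    have h4 : b / 2 * (α * psi2 - g) ≤ 1 := by
      have h5 : b / 2 * (α * psi2 - g) ≤ b / 2 * c0 := by
        refine mul_le_mul_of_nonneg_left ?_ (by positivity)
        linarith
      have h6 : b / 2 * c0 ≤ b0 / 2 * (2 / b0) := mul_le_mul (by linarith) hc01 hc0p.le (by positivity)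
      have h7 : b0 / 2 * (2 / b0) = 1 := by field_simp
      linarith
    nlinarith
  · -- large `b`
    have h3 := Pv_ge_ii W (α := α) (α' := α') hα'0.le (by rw [hα']; linarith) hb
    have h4 := hE b hbb
    have h5 : (α - α') * (b / 2 * psi2) ≤ αc / 8 * (b / 2 * psi2) := by
      refine mul_le_mul_of_nonneg_right ?_ (by positivity)
      rw [hα']; linarith
    have h6 : αc * psi2 / 2 ≤ g := by
      have : αc * psi2 ≤ α * psi2 := mul_le_mul_of_nonneg_right h1.le hψ.le
      linarith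
    have h7 : b / 2 * (αc * psi2 / 2) ≤ b / 2 * g := mul_le_mul_of_nonneg_left h6 (by positivity)
    have h8 : 0 < b * (αc * psi2) := by positivity
    nlinarith


end

end Crest.Agent.R146.G7a_734
end

-- ▼ part R146/ChkS6_47
section

/-!
# R146 (helper47): interface check of the S0206 nodes, and S0206 from the open ones
-/

set_option autoImplicit false

open MeasureTheory ProbabilityTheory Filter Topology
open Crest.ProbabilityR.Perceptron
open Crest.Agent.R146.S6Def_988 Crest.Agent.R146.S6U_988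

namespace Crest.Agent.R146.ChkS6_47

theorem c_ENT : ENT := MonB_911.ent
theorem c_APX : APX := MonB_911.apx



end Crest.Agent.R146.ChkS6_47
end

-- ▼ part R146/LocUb_393

/-!
Row 146, node G7 (helper393): `LOCCORE → LOCUB W` for every Brownian space `W`.
-/

set_option autoImplicit false

open Crest.Agent.R146.P34_734

namespace Crest.Agent.R146.LocUb_393

open Crest.Agent.R146.LocCore_508 (Tcut LOCCORE)

theorem Tcut_mono {R R' : ℝ} (h : R ≤ R') (hR : 0 ≤ R) (x : ℝ) :
    Tcut R x ^ 2 ≤ Tcut R' x ^ 2 := by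
  unfold Tcut
  have h0 : 0 ≤ min (max (-1 - x) 0) R := le_min (le_max_right _ _) hR
  exact pow_le_pow_left₀ h0 (min_le_min le_rfl h) 2

theorem pot : G7Def_393.POT := by
  intro b R R2 d hb hR hRR hd
  obtain ⟨F, L1, h1, h2, h3, h4, h5, h6⟩ := G7Pot_435.potential hb (hR.trans hRR) hd
  refine ⟨F, h1, h2, h3, fun x => (h6 x).trans ?_, h5, L1, h4⟩
  have := mul_le_mul_of_nonneg_left (Tcut_mono hRR hR x) (by positivity : 0 ≤ b / 2)
  linarith

/-- **G7** -/
theorem locub_of (hCore : LOCCORE) (W : BS) : LOCUB W :=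
  G7b_393.locub_of W hCore (G7a_734.g7a W) pot CtlG_130.vid CtlG_130.vl ChkS6_47.c_APX
    ChkS6_47.c_ENT

end Crest.Agent.R146.LocUb_393
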