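import Mathlib

-- ▼ part R146/Slide_109
section

/-!
Sliding comparison of two profiles in the phase plane (row 146, numerics certificate).

A `Jet` is a `C²` function whose second derivative has a right derivative.  `slide` compares two
increasing profiles `S` (sub) and `U` (super): if every touching with nonnegative offset is
impossible and crossings live in a bounded box, then the slope of `S` at height `y` is smaller than
the slope of `U` at every height `≥ y`.
-/

set_option autoImplicit false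

namespace Crest.Agent.R146.Slide_109

open Filter Topology Set

lemma pos_right {E : ℝ → ℝ} {x e : ℝ} (h0 : E x = 0)
    (h : HasDerivWithinAt E e (Ici x) x) (he : 0 < e) :
    ∃ ε > 0, ∀ z, x < z → z < x + ε → 0 < E z := by
  have h1 : HasDerivWithinAt E e (Ioi x) x := h.mono Ioi_subset_Ici_self
  rw [hasDerivWithinAt_iff_tendsto_slope' (by simp)] at h1
  have h2 : ∀ᶠ z in 𝓝[>] x, 0 < slope E x z := h1.eventually (lt_mem_nhds he)
  obtain ⟨u, hu, hsub⟩ := mem_nhdsGT_iff_exists_Ioo_subset.1 h2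
  refine ⟨u - x, sub_pos.2 hu, fun z hz1 hz2 => ?_⟩
  have h3 : 0 < slope E x z := hsub ⟨hz1, by linarith⟩
  rw [slope_def_field, h0, sub_zero] at h3
  have h4 : 0 < z - x := sub_pos.2 hz1
  have h5 : E z = E z / (z - x) * (z - x) := by field_simp
  rw [h5]
  exact mul_pos h3 h4

/-- `h` differentiable, `h' > 0` just right of `x`: then `h > h x` just right of `x`. -/
lemma incr_right {h h' : ℝ → ℝ} {x ε : ℝ}
    (hd : ∀ z, HasDerivAt h (h' z) z) (hpos : ∀ z, x < z → z < x + ε → 0 < h' z) :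
    ∀ z, x < z → z < x + ε → h x < h z := by
  intro z hz1 hz2
  have hmono : StrictMonoOn h (Icc x z) := by
    apply strictMonoOn_of_deriv_pos (convex_Icc x z)
    · intro w _
      exact (hd w).continuousAt.continuousWithinAt
    · intro w hw
      rw [interior_Icc] at hw
      rw [(hd w).deriv]
      exact hpos w hw.1 (lt_trans hw.2 hz2)
  exact hmono (left_mem_Icc.2 hz1.le) (right_mem_Icc.2 hz1.le) hz1

/-- A `C²` function with right-differentiable second derivative. -/
structure Jet (F0 F1 F2 F3 : ℝ → ℝ) : Prop where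
  d0 : ∀ z, HasDerivAt F0 (F1 z) z
  d1 : ∀ z, HasDerivAt F1 (F2 z) z
  d2 : ∀ z, HasDerivWithinAt F2 (F3 z) (Ici z) z

section inv
variable {U0 U1 : ℝ → ℝ}

/-- inverse function of an increasing bijection with positive derivative -/
lemma exists_inverse (hU : ∀ z, HasDerivAt U0 (U1 z) z) (hU1 : ∀ z, 0 < U1 z)
    (hs : Function.Surjective U0) :
    ∃ G : ℝ → ℝ, (∀ y, U0 (G y) = y) ∧ (∀ z, G (U0 z) = z) ∧ StrictMono G ∧
      ∀ y, HasDerivAt G (U1 (G y))⁻¹ y := by
  have hm : StrictMono U0 := strictMono_of_hasDerivAt_pos hU hU1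
  let e := hm.orderIsoOfSurjective U0 hs
  have he : ∀ z, e z = U0 z := fun z => rfl
  have h1 : ∀ y, U0 (e.symm y) = y := fun y => by rw [← he]; exact e.apply_symm_apply y
  refine ⟨e.symm, h1, fun z => ?_, e.symm.strictMono, fun y => ?_⟩
  · rw [← he]; exact e.symm_apply_apply z
  · exact HasDerivAt.of_local_left_inverse (e.symm.continuous.continuousAt) (hU _)
      (hU1 _).ne' (Eventually.of_forall h1)

end inv

/-- Two increasing profiles cannot touch from the right side when the third derivatives are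
strictly ordered the wrong way. -/
theorem touch_false {S0 S1 S2 S3 U0 U1 U2 U3 : ℝ → ℝ} (hS : Jet S0 S1 S2 S3)
    (hU : Jet U0 U1 U2 U3) (hS1 : ∀ z, 0 < S1 z) (hU1 : ∀ z, 0 < U1 z)
    (hUs : Function.Surjective U0)
    (hconv : (∀ z, 0 ≤ S2 z) ∨ (∀ z, 0 ≤ U2 z)) {F a b : ℝ}
    (hF : U0 a = S0 b + F) (heq : U1 a = S1 b)
    (hle : ∀ z1 z2, U0 z1 = S0 z2 + F → S1 z2 ≤ U1 z1)
    (hlt : U2 a = S2 b → U3 a < S3 b) : False := by
  obtain ⟨G, hG1, hG2, hGm, hGd⟩ := exists_inverse hU.d0 hU1 hUs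
  set T : ℝ → ℝ := fun z => G (S0 z + F) with hTdef
  have hT : ∀ z, U0 (T z) = S0 z + F := fun z => hG1 _
  have hTb : T b = a := by
    have : T b = G (U0 a) := by simp only [hTdef]; rw [hF]
    rw [this, hG2]
  have hTd : ∀ z, HasDerivAt T ((U1 (T z))⁻¹ * S1 z) z := by
    intro z
    have h1 : HasDerivAt (fun w => S0 w + F) (S1 z) z := (hS.d0 z).add_const F
    exact (hGd (S0 z + F)).comp z h1
  have hTmono : StrictMono T :=
    strictMono_of_hasDerivAt_pos hTd (fun z => mul_pos (inv_pos.2 (hU1 _)) (hS1 z))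
  set h : ℝ → ℝ := fun z => U1 (T z) - S1 z with hhdef
  set h' : ℝ → ℝ := fun z => U2 (T z) * ((U1 (T z))⁻¹ * S1 z) - S2 z with hh'def
  have hhd : ∀ z, HasDerivAt h (h' z) z := by
    intro z
    exact ((hU.d1 (T z)).comp z (hTd z)).sub (hS.d1 z)
  have hh0 : ∀ z, 0 ≤ h z := fun z => sub_nonneg.2 (hle _ _ (hT z))
  have hhb : h b = 0 := by simp only [hhdef]; rw [hTb, heq, sub_self]
  have hmin : IsLocalMin h b := by
    refine Eventually.of_forall fun z => ?_
    rw [hhb]; exact hh0 z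
  have hd0 : h' b = 0 := hmin.hasDerivAt_eq_zero (hhd b)
  have hone : (U1 a)⁻¹ * S1 b = 1 := by
    rw [heq]; exact inv_mul_cancel₀ (hS1 b).ne'
  have hE2 : U2 a = S2 b := by
    have : U2 (T b) * ((U1 (T b))⁻¹ * S1 b) - S2 b = 0 := hd0
    rw [hTb, hone, mul_one] at this
    linarith
  have h3 := hlt hE2
  -- right derivative of -E
  have hEd : HasDerivWithinAt (fun z => S2 z - U2 (T z)) (S3 b - U3 a) (Ici b) b := by
    have h1 : HasDerivWithinAt U2 (U3 a) (Ici (T b)) (T b) := by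
      have := hU.d2 (T b)
      rw [hTb] at this ⊢
      exact this
    have h2 : HasDerivWithinAt T ((U1 (T b))⁻¹ * S1 b) (Ici b) b := (hTd b).hasDerivWithinAt
    have h4 := h1.comp b h2 (fun z hz => hTmono.monotone hz)
    rw [hTb, hone, mul_one] at h4
    exact (hS.d2 b).sub h4
  have hE0 : (fun z => S2 z - U2 (T z)) b = 0 := by
    simp only [hTb, hE2, sub_self]
  obtain ⟨ε, hε, hpos⟩ :=
    pos_right (E := fun z => S2 z - U2 (T z)) hE0 hEd (sub_pos.2 h3)
  have hneg : ∀ z, b < z → z < b + ε → 0 < -h' z := by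
    intro z hz1 hz2
    have hE : U2 (T z) < S2 z := by
      have := hpos z hz1 hz2
      linarith
    have hu := hU1 (T z)
    have hs := hS1 z
    have hh := hh0 z
    have hhz : S1 z ≤ U1 (T z) := by
      have : 0 ≤ U1 (T z) - S1 z := hh
      linarith
    have key : -h' z * U1 (T z) = S2 z * U1 (T z) - U2 (T z) * S1 z := by
      simp only [hh'def]
      field_simp
      ring
    have : 0 < -h' z * U1 (T z) := by
      rw [key]
      rcases hconv with hc | hc
      · have h5 := hc z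
        nlinarith [mul_nonneg h5 (sub_nonneg.2 hhz), mul_pos (sub_pos.2 hE) hs]
      · have h5 := hc (T z)
        nlinarith [mul_nonneg h5 (sub_nonneg.2 hhz), mul_pos (sub_pos.2 hE) hu]
    by_contra hcon
    push Not at hcon
    nlinarith [mul_nonneg (sub_nonneg.2 hcon) hu.le]
  have hinc := incr_right (h := fun z => -h z) (h' := fun z => -h' z) (ε := ε)
    (fun z => (hhd z).neg) hneg (b + ε / 2) (by linarith) (by linarith)
  have h6 := hh0 (b + ε / 2)
  simp only [hhb] at hinc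
  linarith

/-- Sliding theorem. -/
theorem slide {S0 S1 S2 S3 U0 U1 U2 U3 : ℝ → ℝ} (hS : Jet S0 S1 S2 S3)
    (hU : Jet U0 U1 U2 U3) (hS1 : ∀ z, 0 < S1 z) (hU1 : ∀ z, 0 < U1 z)
    (hUs : Function.Surjective U0)
    (hconv : (∀ z, 0 ≤ S2 z) ∨ (∀ z, 0 ≤ U2 z))
    (htouch : ∀ z1 z2, S0 z2 ≤ U0 z1 → U1 z1 = S1 z2 → U2 z1 = S2 z2 → U3 z1 < S3 z2)
    (hbdd : ∃ B, ∀ z1 z2, S0 z2 ≤ U0 z1 → U1 z1 ≤ S1 z2 → |z1| ≤ B ∧ |z2| ≤ B) :
    ∀ z1 z2, S0 z2 ≤ U0 z1 → S1 z2 < U1 z1 := by
  have cS0 : Continuous S0 := continuous_iff_continuousAt.2 fun z => (hS.d0 z).continuousAt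
  have cS1 : Continuous S1 := continuous_iff_continuousAt.2 fun z => (hS.d1 z).continuousAt
  have cU0 : Continuous U0 := continuous_iff_continuousAt.2 fun z => (hU.d0 z).continuousAt
  have cU1 : Continuous U1 := continuous_iff_continuousAt.2 fun z => (hU.d1 z).continuousAt
  have hm : StrictMono U0 := strictMono_of_hasDerivAt_pos hU.d0 hU1
  by_contra hcon
  push Not at hcon
  obtain ⟨x1, x2, hx1, hx2⟩ := hcon
  obtain ⟨B, hB⟩ := hbdd
  set K : Set (ℝ × ℝ) := {p | S0 p.2 ≤ U0 p.1 ∧ U1 p.1 ≤ S1 p.2} with hK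
  have hKc : IsClosed K := by
    apply IsClosed.inter
    · exact isClosed_le (cS0.comp continuous_snd) (cU0.comp continuous_fst)
    · exact isClosed_le (cU1.comp continuous_fst) (cS1.comp continuous_snd)
  have hKsub : K ⊆ (Icc (-B) B) ×ˢ (Icc (-B) B) := by
    rintro ⟨p1, p2⟩ ⟨hp1, hp2⟩
    obtain ⟨h1, h2⟩ := hB p1 p2 hp1 hp2
    exact ⟨abs_le.1 h1, abs_le.1 h2⟩
  have hKcomp : IsCompact K :=
    (isCompact_Icc.prod isCompact_Icc).of_isClosed_subset hKc hKsub
  have hKne : K.Nonempty := ⟨(x1, x2), hx1, hx2⟩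
  obtain ⟨⟨a, b⟩, ⟨hab1, hab2⟩, hmax⟩ := hKcomp.exists_isMaxOn hKne
    (f := fun p : ℝ × ℝ => U0 p.1 - S0 p.2)
    ((cU0.comp continuous_fst).sub (cS0.comp continuous_snd)).continuousOn
  simp only at hab1 hab2
  set F := U0 a - S0 b with hFdef
  have hF0 : 0 ≤ F := sub_nonneg.2 hab1
  have hle : ∀ z1 z2, U0 z1 = S0 z2 + F → S1 z2 ≤ U1 z1 := by
    intro z1 z2 hz
    by_contra hlt
    push Not at hlt
    -- increase z1 slightly
    have hev : ∀ᶠ w in 𝓝[>] z1, U1 w < S1 z2 :=
      (cU1.continuousAt.eventually (gt_mem_nhds hlt)).filter_mono nhdsWithin_le_nhds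
    obtain ⟨w, hw1, hw2⟩ := (hev.and (self_mem_nhdsWithin)).exists
    have hw3 : U0 z1 < U0 w := hm hw2
    have hwK : (w, z2) ∈ K := by
      refine ⟨?_, hw1.le⟩
      simp only
      linarith
    have h7 : U0 w - S0 z2 ≤ U0 a - S0 b := hmax hwK
    linarith
  have hUeq : U1 a = S1 b := le_antisymm hab2 (hle a b (by rw [hFdef]; ring))
  exact touch_false hS hU hS1 hU1 hUs hconv (F := F) (a := a) (b := b)
    (by rw [hFdef]; ring) hUeq hle (fun h2 => htouch a b hab1 hUeq h2)

end Crest.Agent.R146.Slide_109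
end

-- ▼ part R146/Prof_109
section

/-!
The self-similar profile `W'' + A W' - W = 0`, `A = z + 2 ν (W - z)` (row 146, numerics
certificate): sign and decay properties obtained from maximum principles and integrating factors.
-/

set_option autoImplicit false

namespace Crest.Agent.R146.Prof_109

open Filter Topology Set
open Crest.Agent.R146.Slide_109

/-- the drift -/
noncomputable def A (ν : ℝ) (W : ℝ → ℝ) (z : ℝ) : ℝ := z + 2 * ν * (W z - z)

/-- profile with named first derivative -/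
structure ProfD (ν : ℝ) (W V : ℝ → ℝ) : Prop where
  d0 : ∀ z, HasDerivAt W (V z) z
  d1 : ∀ z, HasDerivAt V (W z - A ν W z * V z) z
  left : Tendsto W atBot (𝓝 0)
  right : Tendsto (fun z => W z - z) atTop (𝓝 0)
  pos : 0 < ν
  lt : ν < 1 / 2

/-- second derivative test with a one-sided derivative -/
lemma localMin_second {f f1 : ℝ → ℝ} {x w : ℝ} (hf : ∀ z, HasDerivAt f (f1 z) z)
    (h1 : HasDerivAt f1 w x) (hmin : IsLocalMin f x) : 0 ≤ w := by
  by_contra hw
  push Not at hw
  have h0 : f1 x = 0 := hmin.hasDerivAt_eq_zero (hf x)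
  obtain ⟨ε, hε, hpos⟩ := pos_right (E := fun z => -f1 z) (by simp [h0])
    (h1.neg.hasDerivWithinAt) (neg_pos.2 hw)
  have hinc := incr_right (h := fun z => -f z) (h' := fun z => -f1 z) (ε := ε)
    (fun z => (hf z).neg) hpos
  have hev : ∀ᶠ z in 𝓝[>] x, f x ≤ f z := hmin.filter_mono nhdsWithin_le_nhds
  have hev2 : ∀ᶠ z in 𝓝[>] x, z < x + ε :=
    (eventually_lt_nhds (by linarith : x < x + ε)).filter_mono nhdsWithin_le_nhds
  obtain ⟨z, ⟨hz1, hz2⟩, hz3⟩ := ((hev.and hev2).and self_mem_nhdsWithin).exists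
  have := hinc z hz3 hz2
  linarith

lemma exists_global_min {f : ℝ → ℝ} (hc : Continuous f) {x0 : ℝ}
    (hl : ∀ᶠ z in atBot, f x0 ≤ f z) (hr : ∀ᶠ z in atTop, f x0 ≤ f z) :
    ∃ x, ∀ z, f x ≤ f z := by
  apply hc.exists_forall_le' x0
  rw [cocompact_eq_atBot_atTop]
  exact eventually_sup.2 ⟨hl, hr⟩

section mfun
variable {B : ℝ → ℝ}

/-- integrating factor -/
noncomputable def mf (B : ℝ → ℝ) (z : ℝ) : ℝ := Real.exp (∫ t in (0 : ℝ)..z, B t)

lemma mf_pos (z : ℝ) : 0 < mf B z := Real.exp_pos _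

lemma mf_zero : mf B 0 = 1 := by simp [mf]

lemma hasDerivAt_prim (hB : Continuous B) (z : ℝ) :
    HasDerivAt (fun z => ∫ t in (0 : ℝ)..z, B t) (B z) z :=
  intervalIntegral.integral_hasDerivAt_right (hB.intervalIntegrable _ _)
    (hB.stronglyMeasurableAtFilter _ _) hB.continuousAt

lemma mf_deriv (hB : Continuous B) (z : ℝ) : HasDerivAt (mf B) (mf B z * B z) z :=
  (hasDerivAt_prim hB z).exp

/-- `(m f)' = m (f' + B f)` -/
lemma mf_mul_deriv (hB : Continuous B) {f : ℝ → ℝ} {f' z : ℝ} (hf : HasDerivAt f f' z) :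
    HasDerivAt (fun z => mf B z * f z) (mf B z * (f' + B z * f z)) z := by
  exact ((mf_deriv hB z).mul hf).congr_deriv (by ring)

lemma mf_mono_of (hB : Continuous B) {f f' : ℝ → ℝ} (hf : ∀ z, HasDerivAt f (f' z) z)
    (h : ∀ z, 0 ≤ f' z + B z * f z) : Monotone (fun z => mf B z * f z) :=
  monotone_of_hasDerivAt_nonneg (fun z => mf_mul_deriv hB (hf z))
    (fun z => mul_nonneg (mf_pos z).le (h z))

end mfun

namespace ProfD
variable {ν : ℝ} {W V : ℝ → ℝ}

lemma contW (h : ProfD ν W V) : Continuous W :=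
  continuous_iff_continuousAt.2 fun z => (h.d0 z).continuousAt

lemma contV (h : ProfD ν W V) : Continuous V :=
  continuous_iff_continuousAt.2 fun z => (h.d1 z).continuousAt

lemma contA (h : ProfD ν W V) : Continuous (A ν W) := by
  unfold A
  exact continuous_id.add (continuous_const.mul (h.contW.sub continuous_id))

lemma tendsto_top (h : ProfD ν W V) : Tendsto W atTop atTop := by
  have := h.right.add_atTop tendsto_id
  simpa using this

lemma W_nonneg (h : ProfD ν W V) (z : ℝ) : 0 ≤ W z := by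
  by_contra hz
  push Not at hz
  obtain ⟨x, hx⟩ := exists_global_min h.contW (x0 := z)
    ((h.left.eventually (lt_mem_nhds hz)).mono fun w hw => hw.le)
    ((h.tendsto_top.eventually (eventually_gt_atTop 0)).mono fun w hw => by linarith)
  have hmin : IsLocalMin W x := Eventually.of_forall hx
  have hVx : V x = 0 := hmin.hasDerivAt_eq_zero (h.d0 x)
  have h2 := localMin_second h.d0 (h.d1 x) hmin
  rw [hVx] at h2
  have := hx z
  linarith

lemma V_nonneg (h : ProfD ν W V) (z : ℝ) : 0 ≤ V z := by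
  by_contra hz
  push Not at hz
  have hmono := mf_mono_of h.contA h.d1 (fun w => by
    have := h.W_nonneg w
    linarith)
  have hneg : ∀ w ≤ z, V w < 0 := by
    intro w hw
    have h1 : mf (A ν W) w * V w ≤ mf (A ν W) z * V z := hmono hw
    have h2 : mf (A ν W) z * V z < 0 := mul_neg_of_pos_of_neg (mf_pos z) hz
    by_contra hc
    push Not at hc
    have := mul_nonneg (mf_pos (B := A ν W) w).le hc
    linarith
  have hanti : StrictAntiOn W (Iic z) := by
    apply strictAntiOn_of_deriv_neg (convex_Iic z) h.contW.continuousOn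
    intro w hw
    rw [interior_Iic] at hw
    rw [(h.d0 w).deriv]
    exact hneg w hw.le
  have h1 : W z < W (z - 1) := hanti (by simp) (by simp) (by linarith)
  have h2 := h.W_nonneg z
  -- W (z-1) > 0, and W w ≥ W (z-1) for w ≤ z-1
  have h3 : ∀ᶠ w in atBot, W w < W (z - 1) := h.left.eventually (gt_mem_nhds (by linarith))
  obtain ⟨w, hw1, hw2⟩ := (h3.and (eventually_le_atBot (z - 1))).exists
  have : W (z - 1) ≤ W w := hanti.antitoneOn (show w ∈ Iic z by simp; linarith)
    (show z - 1 ∈ Iic z by simp) hw2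
  linarith

/-- `u = W - z` -/
lemma u_nonneg (h : ProfD ν W V) (z : ℝ) : 0 ≤ W z - z := by
  by_contra hz
  push Not at hz
  have hd0 : ∀ z, HasDerivAt (fun z => W z - z) (V z - 1) z := fun z =>
    (h.d0 z).sub (hasDerivAt_id z)
  have hbot : Tendsto (fun z => W z - z) atBot atTop := by
    have : Tendsto (fun z : ℝ => -z) atBot atTop := tendsto_neg_atBot_atTop
    have := h.left.add_atTop this
    simpa [sub_eq_add_neg] using this
  obtain ⟨x, hx⟩ := exists_global_min (f := fun z => W z - z) (h.contW.sub continuous_id) (x0 := z)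
    ((hbot.eventually (eventually_gt_atTop 0)).mono fun w hw => by linarith)
    ((h.right.eventually (lt_mem_nhds hz)).mono fun w hw => hw.le)
  have hmin : IsLocalMin (fun z => W z - z) x := Eventually.of_forall hx
  have hVx : V x - 1 = 0 := hmin.hasDerivAt_eq_zero (hd0 x)
  have h2 := localMin_second hd0 ((h.d1 x).sub_const 1) hmin
  have hV : V x = 1 := by linarith
  rw [hV, A] at h2
  have h3 : W x - x ≤ W z - z := hx z
  have h4 := h.pos
  have h5 := h.lt
  nlinarith

lemma V_le_one (h : ProfD ν W V) (z : ℝ) : V z ≤ 1 := by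
  by_contra hz
  push Not at hz
  have hd0 : ∀ z, HasDerivAt (fun z => W z - z) (V z - 1) z := fun z =>
    (h.d0 z).sub (hasDerivAt_id z)
  have hmono := mf_mono_of h.contA (f := fun z => V z - 1) (fun z => (h.d1 z).sub_const 1)
    (fun w => by
      have h1 := h.u_nonneg w
      have h2 := h.lt
      have h3 : W w - A ν W w * V w + A ν W w * (V w - 1) = (1 - 2 * ν) * (W w - w) := by
        unfold A; ring
      rw [h3]
      exact mul_nonneg (by linarith) h1)
  have hpos : ∀ w, z ≤ w → 0 < V w - 1 := by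
    intro w hw
    have h1 : mf (A ν W) z * (V z - 1) ≤ mf (A ν W) w * (V w - 1) := hmono hw
    have h2 : 0 < mf (A ν W) z * (V z - 1) := mul_pos (mf_pos z) (by linarith)
    by_contra hc
    push Not at hc
    have := mul_nonneg (mf_pos (B := A ν W) w).le (neg_nonneg.2 hc)
    linarith
  have hm : StrictMonoOn (fun z => W z - z) (Ici z) := by
    apply strictMonoOn_of_deriv_pos (f := fun z => W z - z) (convex_Ici z)
      (h.contW.sub continuous_id).continuousOn
    intro w hw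
    rw [interior_Ici] at hw
    rw [(hd0 w).deriv]
    exact hpos w (le_of_lt hw)
  have h1 : W z - z < W (z + 1) - (z + 1) := hm (by simp) (by simp) (by linarith)
  have h2 := h.u_nonneg z
  have h3 : ∀ᶠ w in atTop, W w - w < W (z + 1) - (z + 1) :=
    h.right.eventually (gt_mem_nhds (by linarith))
  obtain ⟨w, hw1, hw2⟩ := (h3.and (eventually_ge_atTop (z + 1))).exists
  have : W (z + 1) - (z + 1) ≤ W w - w := hm.monotoneOn (show z + 1 ∈ Ici z by simp)
    (show w ∈ Ici z by simp only [mem_Ici]; linarith) hw2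
  linarith

/-- `X = W''` -/
lemma hasDerivX (h : ProfD ν W V) (z : ℝ) :
    HasDerivAt (fun z => W z - A ν W z * V z)
      (2 * ν * V z * (1 - V z) - A ν W z * (W z - A ν W z * V z)) z := by
  have hA : HasDerivAt (A ν W) (1 + 2 * ν * (V z - 1)) z := by
    unfold A
    exact (hasDerivAt_id z).add (((h.d0 z).sub (hasDerivAt_id z)).const_mul (2 * ν))
  exact ((h.d0 z).sub (hA.mul (h.d1 z))).congr_deriv (by ring)

lemma mX_mono (h : ProfD ν W V) :
    Monotone (fun z => mf (A ν W) z * (W z - A ν W z * V z)) :=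
  mf_mono_of h.contA (fun z => h.hasDerivX z) (fun z => by
    have h1 := h.V_nonneg z
    have h2 := h.V_le_one z
    have h3 := h.pos
    have h4 : 0 ≤ V z * (1 - V z) := mul_nonneg h1 (by linarith)
    nlinarith [mul_nonneg h3.le h4])

lemma X_nonneg (h : ProfD ν W V) (z : ℝ) : 0 ≤ W z - A ν W z * V z := by
  by_contra hz
  push Not at hz
  have hneg : ∀ w ≤ z, W w - A ν W w * V w < 0 := by
    intro w hw
    have h1 := h.mX_mono hw
    simp only at h1
    have h2 : mf (A ν W) z * (W z - A ν W z * V z) < 0 := mul_neg_of_pos_of_neg (mf_pos z) hz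
    by_contra hc
    push Not at hc
    have := mul_nonneg (mf_pos (B := A ν W) w).le hc
    linarith
  have hanti : StrictAntiOn V (Iic z) := by
    apply strictAntiOn_of_deriv_neg (convex_Iic z) h.contV.continuousOn
    intro w hw
    rw [interior_Iic] at hw
    rw [(h.d1 w).deriv]
    exact hneg w hw.le
  have h1 : V z < V (z - 1) := hanti (by simp) (by simp) (by linarith)
  have h2 := h.V_nonneg z
  set c := V (z - 1) with hc
  have hcpos : 0 < c := by linarith
  have hge : ∀ w ≤ z - 1, c ≤ V w := fun w hw =>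
    hanti.antitoneOn (show w ∈ Iic z by simp only [mem_Iic]; linarith)
      (show z - 1 ∈ Iic z by simp) hw
  -- W w ≤ W (z-1) - c (z-1-w)
  have hmono : MonotoneOn (fun w => W w - c * w) (Iic (z - 1)) := by
    apply monotoneOn_of_deriv_nonneg (f := fun w => W w - c * w) (convex_Iic _)
      (h.contW.sub (continuous_const.mul continuous_id)).continuousOn
    · intro w _
      exact ((h.d0 w).sub ((hasDerivAt_id w).const_mul c)).differentiableAt.differentiableWithinAt
    · intro w hw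
      rw [interior_Iic] at hw
      have hdw : HasDerivAt (fun w => W w - c * w) (V w - c * 1) w :=
        (h.d0 w).sub ((hasDerivAt_id w).const_mul c)
      rw [hdw.deriv]
      have := hge w (le_of_lt hw)
      linarith
  set w := z - 1 - (W (z - 1) + 1) / c with hw
  have hWz := h.W_nonneg (z - 1)
  have hwle : w ≤ z - 1 := by
    rw [hw]
    have : 0 ≤ (W (z - 1) + 1) / c := div_nonneg (by linarith) hcpos.le
    linarith
  have h3 := hmono (show w ∈ Iic (z - 1) from hwle) (show z - 1 ∈ Iic (z - 1) by simp) hwle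
  simp only at h3
  have h4 : c * w = c * (z - 1) - (W (z - 1) + 1) := by
    rw [hw, mul_sub, mul_div_cancel₀ _ hcpos.ne']
  have h5 := h.W_nonneg w
  linarith

lemma V_mono (h : ProfD ν W V) : Monotone V :=
  monotone_of_hasDerivAt_nonneg (fun z => h.d1 z) (fun z => h.X_nonneg z)

lemma V_small (h : ProfD ν W V) {c : ℝ} (hc : 0 < c) : ∃ z, ∀ w ≤ z, V w < c := by
  by_contra hcon
  push Not at hcon
  have hge : ∀ z, c ≤ V z := by
    intro z
    obtain ⟨w, hw1, hw2⟩ := hcon z
    exact hw2.trans (h.V_mono hw1)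
  have hmono : Monotone (fun w => W w - c * w) :=
    monotone_of_hasDerivAt_nonneg (f' := fun w => V w - c * 1)
      (fun w => (h.d0 w).sub ((hasDerivAt_id w).const_mul c))
      (fun w => by have := hge w; simp only [Pi.zero_apply]; linarith)
  have hWz := h.W_nonneg 0
  have h3 := hmono (show -((W 0 + 1) / c) ≤ 0 by
    have : 0 ≤ (W 0 + 1) / c := div_nonneg (by linarith) hc.le
    linarith)
  simp only at h3
  have h4 : c * (-((W 0 + 1) / c)) = -(W 0 + 1) := by
    rw [mul_neg, mul_div_cancel₀ _ hc.ne']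
  have h5 := h.W_nonneg (-((W 0 + 1) / c))
  linarith

lemma V_lt_one (h : ProfD ν W V) (z : ℝ) : V z < 1 := by
  by_contra hz
  push Not at hz
  have hV1 : V z = 1 := le_antisymm (h.V_le_one z) hz
  have hmax : IsLocalMax V z := Eventually.of_forall fun w => by rw [hV1]; exact h.V_le_one w
  have hX0 : W z - A ν W z * V z = 0 := hmax.hasDerivAt_eq_zero (h.d1 z)
  have hX : ∀ w ≤ z, W w - A ν W w * V w = 0 := by
    intro w hw
    have h1 := h.mX_mono hw
    simp only [hX0, mul_zero] at h1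
    have h2 := h.X_nonneg w
    have h3 := mf_pos (B := A ν W) w
    by_contra hne
    have h4 : 0 < W w - A ν W w * V w := lt_of_le_of_ne h2 (Ne.symm hne)
    have := mul_pos h3 h4
    linarith
  -- V constant on (-∞, z]
  have hanti : AntitoneOn V (Iic z) := by
    apply antitoneOn_of_deriv_nonpos (convex_Iic z) h.contV.continuousOn
    · intro w _
      exact (h.d1 w).differentiableAt.differentiableWithinAt
    · intro w hw
      rw [interior_Iic] at hw
      rw [(h.d1 w).deriv, hX w hw.le]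
  obtain ⟨x, hx⟩ := h.V_small (c := 1) one_pos
  have h1 := hx (min x z) (min_le_left _ _)
  have h2 := hanti (show min x z ∈ Iic z from mem_Iic.2 (min_le_right _ _)) (show z ∈ Iic z by simp)
    (min_le_right _ _)
  linarith

lemma W_mono (h : ProfD ν W V) : Monotone W :=
  monotone_of_hasDerivAt_nonneg (fun z => h.d0 z) (fun z => h.V_nonneg z)

lemma u_anti (h : ProfD ν W V) : Antitone (fun z => W z - z) :=
  antitone_of_hasDerivAt_nonpos (f' := fun z => V z - 1)
    (fun z => (h.d0 z).sub (hasDerivAt_id z))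
    (fun z => by have := h.V_le_one z; simp only [Pi.zero_apply]; linarith)

lemma A_ge (h : ProfD ν W V) (z : ℝ) : z ≤ A ν W z := by
  have h1 := h.u_nonneg z
  have h2 := h.pos
  unfold A
  nlinarith [mul_nonneg h2.le h1]

lemma A_le (h : ProfD ν W V) {z : ℝ} (hz : 0 ≤ z) : A ν W z ≤ z + 2 * ν * W 0 := by
  have h1 := h.u_anti hz
  simp only [sub_zero] at h1
  have h2 := h.pos
  unfold A
  nlinarith [mul_nonneg h2.le (sub_nonneg.2 h1)]

lemma A_le_neg (h : ProfD ν W V) {z : ℝ} (hz : z ≤ 0) :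
    A ν W z ≤ (1 - 2 * ν) * z + 2 * ν * W 0 := by
  have h1 := h.W_mono hz
  have h2 := h.pos
  unfold A
  nlinarith [mul_nonneg h2.le (sub_nonneg.2 h1)]

/-- lower bound of the integrating factor on the right -/
lemma m_ge (h : ProfD ν W V) {z : ℝ} (hz : 0 ≤ z) : Real.exp (z ^ 2 / 2) ≤ mf (A ν W) z := by
  unfold mf
  apply Real.exp_le_exp.2
  have hmono : Monotone (fun z => (∫ t in (0 : ℝ)..z, A ν W t) - z ^ 2 / 2) := by
    apply monotone_of_hasDerivAt_nonneg (f' := fun z => A ν W z - z)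
    · intro w
      have h1 := hasDerivAt_prim h.contA w
      have h2 : HasDerivAt (fun z : ℝ => z ^ 2 / 2) w w := by
        have := (hasDerivAt_pow 2 w).div_const 2
        exact this.congr_deriv (by simp)
      exact h1.sub h2
    · intro w
      have := h.A_ge w
      simp only [Pi.zero_apply]
      linarith
  have := hmono hz
  simp only [intervalIntegral.integral_same] at this
  norm_num at this
  linarith

/-- lower bound of the integrating factor on the left -/
lemma m_ge_left (h : ProfD ν W V) {z : ℝ} (hz : z ≤ 0) :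
    Real.exp ((1 - 2 * ν) * (z ^ 2 / 2) + 2 * ν * W 0 * z) ≤ mf (A ν W) z := by
  unfold mf
  apply Real.exp_le_exp.2
  set f : ℝ → ℝ := fun z => (∫ t in (0 : ℝ)..z, A ν W t) -
      ((1 - 2 * ν) * (z ^ 2 / 2) + 2 * ν * W 0 * z) with hf
  have hd : ∀ w, HasDerivAt f (A ν W w - ((1 - 2 * ν) * w + 2 * ν * W 0)) w := by
    intro w
    have h1 := hasDerivAt_prim h.contA w
    have h2 : HasDerivAt (fun z : ℝ => z ^ 2 / 2) w w := by
      have := (hasDerivAt_pow 2 w).div_const 2
      exact this.congr_deriv (by simp)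
    have h3 : HasDerivAt (fun z : ℝ => (1 - 2 * ν) * (z ^ 2 / 2) + 2 * ν * W 0 * z)
        ((1 - 2 * ν) * w + 2 * ν * W 0 * 1) w :=
      (h2.const_mul _).add ((hasDerivAt_id w).const_mul _)
    rw [mul_one] at h3
    exact h1.sub h3
  have hanti : AntitoneOn f (Iic 0) := by
    apply antitoneOn_of_deriv_nonpos (convex_Iic 0)
    · exact fun w _ => (hd w).continuousAt.continuousWithinAt
    · exact fun w _ => (hd w).differentiableAt.differentiableWithinAt
    · intro w hw
      rw [interior_Iic] at hw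
      rw [(hd w).deriv]
      have := h.A_le_neg (le_of_lt hw)
      linarith
  have h0 : f 0 = 0 := by simp [hf]
  have := hanti (show z ∈ Iic 0 from hz) (show (0 : ℝ) ∈ Iic 0 by simp) hz
  rw [h0] at this
  simp only [hf] at this
  linarith

/-- Gaussian decay of `R = 1 - V` -/
lemma R_le (h : ProfD ν W V) {z : ℝ} (hz : 0 ≤ z) : 1 - V z ≤ Real.exp (-(z ^ 2 / 2)) := by
  have hmono := mf_mono_of h.contA (f := fun z => V z - 1) (fun z => (h.d1 z).sub_const 1)
    (fun w => by
      have h1 := h.u_nonneg w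
      have h2 := h.lt
      have h3 : W w - A ν W w * V w + A ν W w * (V w - 1) = (1 - 2 * ν) * (W w - w) := by
        unfold A; ring
      rw [h3]
      exact mul_nonneg (by linarith) h1)
  have h1 := hmono hz
  simp only [mf_zero, one_mul] at h1
  have h2 := h.V_nonneg 0
  have h3 : mf (A ν W) z * (1 - V z) ≤ 1 := by nlinarith
  have h4 := h.m_ge hz
  have h5 := h.V_le_one z
  have h6 : Real.exp (z ^ 2 / 2) * (1 - V z) ≤ 1 :=
    (mul_le_mul_of_nonneg_right h4 (by linarith)).trans h3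
  rw [Real.exp_neg, ← one_div, le_div_iff₀ (Real.exp_pos _)]
  linarith

/-- the jet of the drift -/
lemma jet (h : ProfD ν W V) : Jet (A ν W) (fun z => 1 - 2 * ν + 2 * ν * V z)
    (fun z => 2 * ν * (W z - A ν W z * V z))
    (fun z => 2 * ν * (2 * ν * V z * (1 - V z) - A ν W z * (W z - A ν W z * V z))) where
  d0 z := by
    have : HasDerivAt (A ν W) (1 + 2 * ν * (V z - 1)) z := by
      unfold A
      exact (hasDerivAt_id z).add (((h.d0 z).sub (hasDerivAt_id z)).const_mul (2 * ν))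
    convert this using 1
    ring
  d1 z := ((h.d1 z).const_mul (2 * ν)).const_add (1 - 2 * ν)
  d2 z := ((h.hasDerivX z).const_mul (2 * ν)).hasDerivWithinAt

lemma A_surj (h : ProfD ν W V) : Function.Surjective (A ν W) := by
  apply h.contA.surjective
  · exact tendsto_atTop_mono h.A_ge tendsto_id
  · have h1 : Tendsto (fun z : ℝ => (1 - 2 * ν) * z + 2 * ν * W 0) atBot atBot := by
      apply tendsto_atBot_add_const_right
      have := h.lt
      exact tendsto_id.const_mul_atBot (by linarith)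
    refine tendsto_atBot_mono' _ ?_ h1
    filter_upwards [eventually_le_atBot 0] with z hz using h.A_le_neg hz

end ProfD

end Crest.Agent.R146.Prof_109
end

-- ▼ part R146/Trans_109
section

/-!
Eigenfunctions of the self-similar problem and their comparison with explicit test functions
(row 146, numerics certificate).
-/

set_option autoImplicit false

namespace Crest.Agent.R146.Trans_109

open Filter Topology Set
open Crest.Agent.R146.Slide_109 Crest.Agent.R146.Prof_109

/-- adjoint eigenfunction (`q'' - (A q)' + lam q = 0`) with named derivative, at most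
exponentially growing -/
structure ChargeD (ν lam : ℝ) (W q q1 : ℝ → ℝ) : Prop where
  pos : ∀ z, 0 < q z
  d0 : ∀ z, HasDerivAt q (q1 z) z
  d1 : ∀ z, HasDerivAt (fun z => q1 z - A ν W z * q z) (-(lam * q z)) z
  growth : ∃ C c : ℝ, ∀ z, q z ≤ C * Real.exp (c * |z|)

section ratio
variable {f f1 f2 g g1 g2 : ℝ → ℝ}

lemma ratio_max_false {f f1 g g1 : ℝ → ℝ} {x f2 g2 : ℝ}
    (hf : ∀ z, HasDerivAt f (f1 z) z) (hf2 : HasDerivWithinAt f1 f2 (Ici x) x)
    (hg : ∀ z, HasDerivAt g (g1 z) z) (hg2 : HasDerivWithinAt g1 g2 (Ici x) x)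
    (hgpos : ∀ z, 0 < g z) (hmax : IsLocalMax (fun z => f z / g z) x)
    (hE : 0 < f2 * g x - f x * g2) : False := by
  have hd : ∀ z, HasDerivAt (fun z => f z / g z) ((f1 z * g z - f z * g1 z) / g z ^ 2) z :=
    fun z => (hf z).div (hg z) (hgpos z).ne'
  have h0 : (f1 x * g x - f x * g1 x) / g x ^ 2 = 0 := hmax.hasDerivAt_eq_zero (hd x)
  have h1 : f1 x * g x - f x * g1 x = 0 := by
    rcases div_eq_zero_iff.1 h0 with h | h
    · exact h
    · exact absurd (pow_eq_zero_iff (two_ne_zero) |>.1 h) (hgpos x).ne'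
  have hEd : HasDerivWithinAt (fun z => f1 z * g z - f z * g1 z) (f2 * g x - f x * g2)
      (Ici x) x := by
    have := (hf2.mul (hg x).hasDerivWithinAt).sub ((hf x).hasDerivWithinAt.mul hg2)
    exact this.congr_deriv (by ring)
  obtain ⟨ε, hε, hpos⟩ := pos_right (E := fun z => f1 z * g z - f z * g1 z) h1 hEd hE
  have hinc := incr_right (ε := ε) hd (fun z hz1 hz2 =>
    div_pos (hpos z hz1 hz2) (pow_pos (hgpos z) 2))
  have hev : ∀ᶠ z in 𝓝[>] x, f z / g z ≤ f x / g x := hmax.filter_mono nhdsWithin_le_nhds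
  have hev2 : ∀ᶠ z in 𝓝[>] x, z < x + ε :=
    (eventually_lt_nhds (by linarith : x < x + ε)).filter_mono nhdsWithin_le_nhds
  obtain ⟨z, ⟨hz1, hz2⟩, hz3⟩ := ((hev.and hev2).and self_mem_nhdsWithin).exists
  have := hinc z hz3 hz2
  linarith

/-- compactly supported strict subsolution against a positive supersolution -/
theorem barta_sub {B f f1 f2 g g1 g2 : ℝ → ℝ} {lam α β : ℝ}
    (hf : ∀ z, HasDerivAt f (f1 z) z) (hf2 : ∀ z, HasDerivWithinAt f1 (f2 z) (Ici z) z)
    (hg : ∀ z, HasDerivAt g (g1 z) z) (hg2 : ∀ z, HasDerivWithinAt g1 (g2 z) (Ici z) z)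
    (hgpos : ∀ z, 0 < g z) (hsup : ∀ z, g2 z + B z * g1 z + lam * g z ≤ 0)
    (hsub : ∀ z, α ≤ z → z < β → 0 < f2 z + B z * f1 z + lam * f z)
    (hα : f α ≤ 0) (hβ : f β ≤ 0) (hex : ∃ z, α ≤ z ∧ z ≤ β ∧ 0 < f z) : False := by
  obtain ⟨w, hw1, hw2, hw3⟩ := hex
  have hcf : Continuous f := continuous_iff_continuousAt.2 fun z => (hf z).continuousAt
  have hcg : Continuous g := continuous_iff_continuousAt.2 fun z => (hg z).continuousAt
  have hc : Continuous (fun z => f z / g z) := hcf.div hcg fun z => (hgpos z).ne'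
  obtain ⟨x, hx, hmax⟩ := isCompact_Icc.exists_isMaxOn (⟨w, hw1, hw2⟩ : (Icc α β).Nonempty)
    hc.continuousOn
  have hgx : 0 < f x / g x := by
    have h1 : f w / g w ≤ f x / g x := hmax ⟨hw1, hw2⟩
    exact lt_of_lt_of_le (div_pos hw3 (hgpos w)) h1
  have hfx : 0 < f x := by
    have := mul_pos hgx (hgpos x)
    rwa [div_mul_cancel₀ _ (hgpos x).ne'] at this
  have hxα : α < x := by
    rcases eq_or_lt_of_le hx.1 with h | h
    · rw [← h] at hfx; linarith
    · exact h
  have hxβ : x < β := by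
    rcases eq_or_lt_of_le hx.2 with h | h
    · rw [h] at hfx; linarith
    · exact h
  have hloc : IsLocalMax (fun z => f z / g z) x :=
    hmax.isLocalMax (Icc_mem_nhds hxα hxβ)
  refine ratio_max_false hf (hf2 x) hg (hg2 x) hgpos hloc ?_
  -- E(x) = 0 at the maximum
  have hd : HasDerivAt (fun z => f z / g z) ((f1 x * g x - f x * g1 x) / g x ^ 2) x :=
    (hf x).div (hg x) (hgpos x).ne'
  have h0 : (f1 x * g x - f x * g1 x) / g x ^ 2 = 0 := hloc.hasDerivAt_eq_zero hd
  have h1 : f1 x * g x - f x * g1 x = 0 := by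
    rcases div_eq_zero_iff.1 h0 with h | h
    · exact h
    · exact absurd (pow_eq_zero_iff (two_ne_zero) |>.1 h) (hgpos x).ne'
  have h2 := hsub x hxα.le hxβ
  have h3 := hsup x
  have h4 := mul_pos h2 (hgpos x)
  have h5 := mul_nonneg hfx.le (neg_nonneg.2 h3)
  nlinarith [congrArg (fun t => B x * t) h1]

/-- positive strict supersolution against a decaying positive subsolution -/
theorem barta_super {B f f1 f2 g g1 g2 : ℝ → ℝ} {lam : ℝ}
    (hf : ∀ z, HasDerivAt f (f1 z) z) (hf2 : ∀ z, HasDerivWithinAt f1 (f2 z) (Ici z) z)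
    (hg : ∀ z, HasDerivAt g (g1 z) z) (hg2 : ∀ z, HasDerivWithinAt g1 (g2 z) (Ici z) z)
    (hfpos : ∀ z, 0 < f z) (hgpos : ∀ z, 0 < g z)
    (hsub : ∀ z, 0 ≤ f2 z + B z * f1 z + lam * f z)
    (hsup : ∀ z, g2 z + B z * g1 z + lam * g z < 0)
    (hlim : Tendsto (fun z => f z / g z) (cocompact ℝ) (𝓝 0)) : False := by
  have hcf : Continuous f := continuous_iff_continuousAt.2 fun z => (hf z).continuousAt
  have hcg : Continuous g := continuous_iff_continuousAt.2 fun z => (hg z).continuousAt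
  have hc : Continuous (fun z => f z / g z) := hcf.div hcg fun z => (hgpos z).ne'
  obtain ⟨x, hx⟩ := hc.exists_forall_ge' (x₀ := (0 : ℝ))
    ((hlim.eventually (gt_mem_nhds (div_pos (hfpos 0) (hgpos 0)))).mono fun w hw => hw.le)
  have hloc : IsLocalMax (fun z => f z / g z) x := Eventually.of_forall hx
  refine ratio_max_false hf (hf2 x) hg (hg2 x) hgpos hloc ?_
  have hd : HasDerivAt (fun z => f z / g z) ((f1 x * g x - f x * g1 x) / g x ^ 2) x :=
    (hf x).div (hg x) (hgpos x).ne'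
  have h0 : (f1 x * g x - f x * g1 x) / g x ^ 2 = 0 := hloc.hasDerivAt_eq_zero hd
  have h1 : f1 x * g x - f x * g1 x = 0 := by
    rcases div_eq_zero_iff.1 h0 with h | h
    · exact h
    · exact absurd (pow_eq_zero_iff (two_ne_zero) |>.1 h) (hgpos x).ne'
  have h2 := hsub x
  have h3 := hsup x
  have h4 := mul_nonneg h2 (hgpos x).le
  have h5 := mul_pos (hfpos x) (neg_pos.2 h3)
  nlinarith [congrArg (fun t => B x * t) h1]

end ratio

section order

/-- if `S` is flatter than `U` at equal heights, then after matching at `z0` the graph of `S` is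
above on the left and below on the right -/
lemma order_super {S0 S1 U0 U1 : ℝ → ℝ} (hS : ∀ z, HasDerivAt S0 (S1 z) z)
    (hU : ∀ z, HasDerivAt U0 (U1 z) z) (hU1 : ∀ z, 0 < U1 z)
    (hUs : Function.Surjective U0)
    (hlt : ∀ z1 z2, U0 z1 = S0 z2 → S1 z2 < U1 z1) (z0 : ℝ) :
    ∃ s, (∀ z, z ≤ z0 → U0 (z + s) ≤ S0 z) ∧ (∀ z, z0 ≤ z → S0 z ≤ U0 (z + s)) := by
  have hm : StrictMono U0 := strictMono_of_hasDerivAt_pos hU hU1
  obtain ⟨G, hG1, hG2, hGm, hGd⟩ := exists_inverse hU hU1 hUs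
  have hTd : ∀ z, HasDerivAt (fun z => G (S0 z) - z) ((U1 (G (S0 z)))⁻¹ * S1 z - 1) z := fun z =>
    ((hGd (S0 z)).comp z (hS z)).sub (hasDerivAt_id z)
  have hanti : Antitone (fun z => G (S0 z) - z) := by
    apply antitone_of_hasDerivAt_nonpos hTd
    intro z
    simp only [Pi.zero_apply, sub_nonpos]
    rw [inv_mul_le_iff₀ (hU1 _), mul_one]
    exact (hlt _ _ (hG1 _)).le
  refine ⟨G (S0 z0) - z0, fun z hz => ?_, fun z hz => ?_⟩
  · have h1 := hanti hz
    simp only at h1
    have h2 : U0 (z + (G (S0 z0) - z0)) ≤ U0 (G (S0 z)) := hm.monotone (by linarith)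
    rwa [hG1] at h2
  · have h1 := hanti hz
    simp only at h1
    have h2 : U0 (G (S0 z)) ≤ U0 (z + (G (S0 z0) - z0)) := hm.monotone (by linarith)
    rwa [hG1] at h2

lemma order_sub {S0 S1 U0 U1 : ℝ → ℝ} (hS : ∀ z, HasDerivAt S0 (S1 z) z)
    (hU : ∀ z, HasDerivAt U0 (U1 z) z) (hS1 : ∀ z, 0 < S1 z)
    (hSs : Function.Surjective S0)
    (hlt : ∀ z1 z2, U0 z1 = S0 z2 → S1 z2 < U1 z1) (z0 : ℝ) :
    ∃ s, (∀ z, z ≤ z0 → U0 z ≤ S0 (z + s)) ∧ (∀ z, z0 ≤ z → S0 (z + s) ≤ U0 z) := by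
  have hm : StrictMono S0 := strictMono_of_hasDerivAt_pos hS hS1
  obtain ⟨G, hG1, hG2, hGm, hGd⟩ := exists_inverse hS hS1 hSs
  have hTd : ∀ z, HasDerivAt (fun z => G (U0 z) - z) ((S1 (G (U0 z)))⁻¹ * U1 z - 1) z := fun z =>
    ((hGd (U0 z)).comp z (hU z)).sub (hasDerivAt_id z)
  have hmono : Monotone (fun z => G (U0 z) - z) := by
    apply monotone_of_hasDerivAt_nonneg hTd
    intro z
    simp only [Pi.zero_apply, sub_nonneg]
    rw [le_inv_mul_iff₀ (hS1 _), mul_one]
    exact (hlt _ _ (hG1 _).symm).le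
  refine ⟨G (U0 z0) - z0, fun z hz => ?_, fun z hz => ?_⟩
  · have h1 := hmono hz
    simp only at h1
    have h2 : S0 (G (U0 z)) ≤ S0 (z + (G (U0 z0) - z0)) := hm.monotone (by linarith)
    rwa [hG1] at h2
  · have h1 := hmono hz
    simp only at h1
    have h2 : S0 (z + (G (U0 z0) - z0)) ≤ S0 (G (U0 z)) := hm.monotone (by linarith)
    rwa [hG1] at h2

end order

section phi
variable {ν lam : ℝ} {W V q q1 : ℝ → ℝ}

/-- the decaying eigenfunction -/
noncomputable def phi (ν : ℝ) (W q : ℝ → ℝ) (z : ℝ) : ℝ := q z / mf (A ν W) z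

noncomputable def phi1 (ν : ℝ) (W q q1 : ℝ → ℝ) (z : ℝ) : ℝ :=
  (q1 z - A ν W z * q z) / mf (A ν W) z

lemma phi_pos (hq : ChargeD ν lam W q q1) (z : ℝ) : 0 < phi ν W q z :=
  div_pos (hq.pos z) (mf_pos z)

lemma phi_d0 (h : ProfD ν W V) (hq : ChargeD ν lam W q q1) (z : ℝ) :
    HasDerivAt (phi ν W q) (phi1 ν W q q1 z) z := by
  have := (hq.d0 z).div (mf_deriv h.contA z) (mf_pos z).ne'
  refine this.congr_deriv ?_
  unfold phi1
  have := (mf_pos (B := A ν W) z).ne'
  field_simp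

lemma phi_d1 (h : ProfD ν W V) (hq : ChargeD ν lam W q q1) (z : ℝ) :
    HasDerivAt (phi1 ν W q q1) (-(lam * phi ν W q z) - A ν W z * phi1 ν W q q1 z) z := by
  have := (hq.d1 z).div (mf_deriv h.contA z) (mf_pos z).ne'
  refine this.congr_deriv ?_
  unfold phi phi1
  have := (mf_pos (B := A ν W) z).ne'
  field_simp

/-- Gaussian bound -/
lemma phi_le (h : ProfD ν W V) (hq : ChargeD ν lam W q q1) :
    ∃ C c : ℝ, 0 < C ∧ ∀ z, phi ν W q z ≤ C * Real.exp (c * |z| - (1 - 2 * ν) / 2 * z ^ 2) := by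
  obtain ⟨C, c, hC⟩ := hq.growth
  have hCpos : 0 < C := by
    have h1 := hC 0
    have h2 := hq.pos 0
    by_contra hcon
    push Not at hcon
    have := mul_nonneg (neg_nonneg.2 hcon) (Real.exp_pos (c * |(0 : ℝ)|)).le
    linarith
  refine ⟨C, c + 2 * ν * W 0, hCpos, fun z => ?_⟩
  have hW0 := h.W_nonneg 0
  have hν := h.pos
  have hνW : 0 ≤ 2 * ν * W 0 := by positivity
  have hm : Real.exp ((1 - 2 * ν) / 2 * z ^ 2 - 2 * ν * W 0 * |z|) ≤ mf (A ν W) z := by
    rcases le_total 0 z with hz | hz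
    · refine le_trans (Real.exp_le_exp.2 ?_) (h.m_ge hz)
      have h1 : 0 ≤ 2 * ν * W 0 * |z| := mul_nonneg hνW (abs_nonneg z)
      have h2 : 0 ≤ ν * z ^ 2 := by positivity
      linarith
    · refine le_trans (Real.exp_le_exp.2 ?_) (h.m_ge_left hz)
      rw [abs_of_nonpos hz]
      linarith
  unfold phi
  rw [div_le_iff₀ (mf_pos z)]
  refine (hC z).trans ?_
  have h3 : C * Real.exp (c * |z|) = C * Real.exp ((c + 2 * ν * W 0) * |z| -
      (1 - 2 * ν) / 2 * z ^ 2) * Real.exp ((1 - 2 * ν) / 2 * z ^ 2 - 2 * ν * W 0 * |z|) := by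
    rw [mul_assoc, ← Real.exp_add]
    congr 2
    ring
  rw [h3]
  exact mul_le_mul_of_nonneg_left hm (mul_nonneg hCpos.le (Real.exp_pos _).le)

lemma gauss_tendsto {b : ℝ} (hb : 0 < b) (C c : ℝ) :
    Tendsto (fun z : ℝ => C * Real.exp (c * |z| - b * z ^ 2)) (cocompact ℝ) (𝓝 0) := by
  have h1 : Tendsto (fun x : ℝ => x * (c - b * x)) atTop atBot := by
    apply Tendsto.atTop_mul_atBot₀ tendsto_id
    have : Tendsto (fun x : ℝ => b * x) atTop atTop := tendsto_id.const_mul_atTop hb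
    have h2 := tendsto_neg_atTop_atBot.comp this
    have h3 := tendsto_atBot_add_const_left _ c h2
    refine h3.congr fun x => ?_
    simp [sub_eq_add_neg]
  have h2 : Tendsto (fun z : ℝ => |z|) (cocompact ℝ) atTop := by
    exact (tendsto_norm_cocompact_atTop (E := ℝ)).congr fun z => Real.norm_eq_abs z
  have h3 := (Real.tendsto_exp_atBot.comp (h1.comp h2)).const_mul C
  rw [mul_zero] at h3
  refine h3.congr fun z => ?_
  simp only [Function.comp]
  congr 2
  rw [← sq_abs z]
  ring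

lemma phi_exp_tendsto (h : ProfD ν W V) (hq : ChargeD ν lam W q q1) (K : ℝ) :
    Tendsto (fun z => phi ν W q z * Real.exp (K * |z|)) (cocompact ℝ) (𝓝 0) := by
  obtain ⟨C, c, hC, hle⟩ := phi_le h hq
  have hb : 0 < (1 - 2 * ν) / 2 := by have := h.lt; linarith
  refine squeeze_zero (fun z => mul_nonneg (phi_pos hq z).le (Real.exp_pos _).le)
    (fun z => ?_) (gauss_tendsto hb C (c + K))
  have h1 := mul_le_mul_of_nonneg_right (hle z) (Real.exp_pos (K * |z|)).le
  refine h1.trans (le_of_eq ?_)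
  rw [mul_assoc, ← Real.exp_add]
  congr 2
  ring

/-- unimodality -/
lemma phi_mode (h : ProfD ν W V) (hq : ChargeD ν lam W q q1) (hlam : 0 < lam) :
    ∃ z0, (∀ z, z ≤ z0 → 0 ≤ phi1 ν W q q1 z) ∧ (∀ z, z0 ≤ z → phi1 ν W q q1 z ≤ 0) := by
  have hc : Continuous (phi ν W q) :=
    continuous_iff_continuousAt.2 fun z => (phi_d0 h hq z).continuousAt
  have hlim : Tendsto (phi ν W q) (cocompact ℝ) (𝓝 0) := by
    have := phi_exp_tendsto h hq 0
    simpa using this
  obtain ⟨x, hx⟩ := hc.exists_forall_ge' (x₀ := (0 : ℝ))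
    ((hlim.eventually (gt_mem_nhds (phi_pos hq 0))).mono fun w hw => hw.le)
  have hloc : IsLocalMax (phi ν W q) x := Eventually.of_forall hx
  have h0 : phi1 ν W q q1 x = 0 := hloc.hasDerivAt_eq_zero (phi_d0 h hq x)
  have hj0 : q1 x - A ν W x * q x = 0 := by
    unfold phi1 at h0
    rcases div_eq_zero_iff.1 h0 with h | h
    · exact h
    · exact absurd h (mf_pos x).ne'
  have hanti : Antitone (fun z => q1 z - A ν W z * q z) :=
    antitone_of_hasDerivAt_nonpos hq.d1 (fun z => by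
      have := mul_pos hlam (hq.pos z)
      simp only [Pi.zero_apply]
      linarith)
  refine ⟨x, fun z hz => ?_, fun z hz => ?_⟩
  · have h1 := hanti hz
    simp only [hj0] at h1
    exact div_nonneg h1 (mf_pos z).le
  · have h1 := hanti hz
    simp only [hj0] at h1
    exact div_nonpos_of_nonpos_of_nonneg h1 (mf_pos z).le

end phi

end Crest.Agent.R146.Trans_109
end

-- ▼ part R146/Encl_109
section

/-!
The two one-sided exclusion theorems (row 146, numerics certificate): explicit super/sub profiles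
and test functions exclude the closure `lambda = 2 ν` above/below a given value of `ν`.
-/

set_option autoImplicit false

namespace Crest.Agent.R146.Encl_109

open Filter Topology Set
open Crest.Agent.R146.Slide_109 Crest.Agent.R146.Prof_109 Crest.Agent.R146.Trans_109

/-- explicit data excluding the closure for all `ν ≥ n` -/
structure DataPlus (n : ℝ) (U0 U1 U2 U3 f f1 f2 : ℝ → ℝ) : Prop where
  jet : Jet U0 U1 U2 U3
  surj : Function.Surjective U0
  pos : ∀ z, 0 < U1 z
  lower : ∃ c, 1 - 2 * n < c ∧ ∀ z, c ≤ U1 z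
  right : ∃ zR, (∀ z, zR ≤ z → 1 ≤ U1 z) ∧
    ∀ z, z < zR → U3 z + U0 z * U2 z - (1 - U1 z) * (U1 z - (1 - 2 * n)) < 0
  g0 : ∀ z, HasDerivAt f (f1 z) z
  g1 : ∀ z, HasDerivWithinAt f1 (f2 z) (Ici z) z
  sub : ∃ α β, f α ≤ 0 ∧ f β ≤ 0 ∧ (∃ z, α ≤ z ∧ z ≤ β ∧ 0 < f z) ∧
    ∀ z, α ≤ z → z < β → 0 < f2 z + U0 z * f1 z + 2 * n * f z

theorem exclude_above {n : ℝ} {U0 U1 U2 U3 f f1 f2 : ℝ → ℝ}
    (D : DataPlus n U0 U1 U2 U3 f f1 f2) {ν : ℝ} (hn : n ≤ ν) {W V q q1 : ℝ → ℝ}
    (h : ProfD ν W V) (hq : ChargeD ν (2 * ν) W q q1) : False := by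
  have hν := h.pos
  have hν2 := h.lt
  have hmU : StrictMono U0 := strictMono_of_hasDerivAt_pos D.jet.d0 D.pos
  have hS1 : ∀ z, 0 < 1 - 2 * ν + 2 * ν * V z := fun z => by
    have := h.V_nonneg z
    nlinarith [mul_nonneg hν.le this]
  have hmS : StrictMono (A ν W) := strictMono_of_hasDerivAt_pos h.jet.d0 hS1
  obtain ⟨c, hc1, hc2⟩ := D.lower
  obtain ⟨zR, hR1, hR2⟩ := D.right
  -- box
  have hbdd : ∃ B, ∀ z1 z2, A ν W z2 ≤ U0 z1 → U1 z1 ≤ 1 - 2 * ν + 2 * ν * V z2 →
      |z1| ≤ B ∧ |z2| ≤ B := by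
    have hcc : 0 < (c - (1 - 2 * ν)) / (2 * ν) := div_pos (by linarith) (by linarith)
    obtain ⟨Z, hZ⟩ := h.V_small hcc
    obtain ⟨Z1, hZ1⟩ := D.surj (A ν W Z)
    refine ⟨|zR| + |Z| + |Z1| + |U0 zR|, fun z1 z2 h1 h2 => ?_⟩
    have h3 : z1 < zR := by
      by_contra hcon
      push Not at hcon
      have h4 := hR1 z1 hcon
      have h5 := h.V_lt_one z2
      nlinarith [mul_pos hν (sub_pos.2 h5)]
    have h6 : Z < z2 := by
      by_contra hcon
      push Not at hcon
      have h7 := hZ z2 hcon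
      rw [lt_div_iff₀ (by linarith)] at h7
      have h8 := hc2 z1
      linarith
    have h9 : Z1 ≤ z1 := by
      by_contra hcon
      push Not at hcon
      have h10 := hmU hcon
      have h11 := hmS h6
      linarith
    have h12 : z2 ≤ U0 zR := (h.A_ge z2).trans (h1.trans (hmU.monotone h3.le))
    have e1 := le_abs_self zR
    have e2 := neg_abs_le Z
    have e3 := neg_abs_le Z1
    have e4 := le_abs_self (U0 zR)
    have p1 := abs_nonneg zR
    have p2 := abs_nonneg Z
    have p3 := abs_nonneg Z1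
    have p4 := abs_nonneg (U0 zR)
    constructor
    · rw [abs_le]; constructor <;> linarith
    · rw [abs_le]; constructor <;> linarith
  have hslide := slide h.jet D.jet hS1 D.pos D.surj
    (Or.inl fun z => mul_nonneg (by linarith) (h.X_nonneg z))
    (fun z1 z2 h1 h2 h3 => by
      have hV := h.V_lt_one z2
      have hlt1 : U1 z1 < 1 := by rw [h2]; nlinarith [mul_pos hν (sub_pos.2 hV)]
      have hz1 : z1 < zR := by
        by_contra hcon
        push Not at hcon
        have := hR1 z1 hcon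
        linarith
      have hN := hR2 z1 hz1
      have hX := mul_nonneg (by linarith : (0 : ℝ) ≤ 2 * ν) (h.X_nonneg z2)
      rw [h2, h3] at hN
      have h4 := mul_nonneg hX (sub_nonneg.2 h1)
      have h5 := mul_nonneg (sub_nonneg.2 hn) (sub_nonneg.2 hV.le)
      nlinarith [mul_nonneg hν.le h5])
    hbdd
  obtain ⟨z0, hm1, hm2⟩ := phi_mode h hq (by linarith)
  obtain ⟨s, ho1, ho2⟩ := order_super h.jet.d0 D.jet.d0 D.pos D.surj
    (fun z1 z2 hz => hslide z1 z2 hz.ge) z0
  obtain ⟨α, β, hα, hβ, hex, hsub⟩ := D.sub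
  have hshift : ∀ (F F' : ℝ → ℝ), (∀ z, HasDerivAt F (F' z) z) →
      ∀ z, HasDerivAt (fun z => F (z - s)) (F' (z - s)) z := fun F F' hF z =>
    (hF (z - s)).comp_sub_const z s
  refine barta_sub (B := U0) (lam := 2 * n) (f := f) (f1 := f1) (f2 := f2)
    (g := fun z => phi ν W q (z - s)) (g1 := fun z => phi1 ν W q q1 (z - s))
    (g2 := fun z => -(2 * ν * phi ν W q (z - s)) - A ν W (z - s) * phi1 ν W q q1 (z - s))
    D.g0 D.g1 (hshift _ _ (phi_d0 h hq))
    (fun z => (hshift _ _ (phi_d1 h hq) z).hasDerivWithinAt)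
    (fun z => phi_pos hq _) (fun z => ?_) hsub hα hβ hex
  have hφ := phi_pos hq (z - s)
  have h1 : (U0 z - A ν W (z - s)) * phi1 ν W q q1 (z - s) ≤ 0 := by
    rcases le_total (z - s) z0 with hz | hz
    · have h2 := ho1 _ hz
      rw [sub_add_cancel] at h2
      exact mul_nonpos_of_nonpos_of_nonneg (by linarith) (hm1 _ hz)
    · have h2 := ho2 _ hz
      rw [sub_add_cancel] at h2
      exact mul_nonpos_of_nonneg_of_nonpos (by linarith) (hm2 _ hz)
  nlinarith [mul_nonneg (sub_nonneg.2 hn) hφ.le]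

/-- explicit data excluding the closure for all `ν ≤ n` -/
structure DataMinus (n : ℝ) (S0 S1 S2 S3 g g1 g2 : ℝ → ℝ) : Prop where
  jet : Jet S0 S1 S2 S3
  surj : Function.Surjective S0
  pos : ∀ z, 0 < S1 z
  left : ∃ c zL, c < 1 - 2 * n ∧ ∀ z, z ≤ zL → S1 z ≤ c
  lt_one : ∀ z, S1 z < 1
  tail : ∃ zR k K C : ℝ, 0 < k ∧ ∀ z, zR ≤ z → k * Real.exp (-(K * z)) ≤ 1 - S1 z ∧ z - C ≤ S0 z
  res : ∀ z, 0 < S3 z + S0 z * S2 z - (1 - S1 z) * (S1 z - (1 - 2 * n))
  g0 : ∀ z, HasDerivAt g (g1 z) z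
  g1' : ∀ z, HasDerivWithinAt g1 (g2 z) (Ici z) z
  gpos : ∃ k K : ℝ, 0 < k ∧ 0 ≤ K ∧ ∀ z, k * Real.exp (-(K * |z|)) ≤ g z
  super : ∀ z, g2 z + S0 z * g1 z + 2 * n * g z < 0

lemma exp_gauss_lt (k K C : ℝ) (hk : 0 < k) :
    ∃ Z : ℝ, ∀ z, Z ≤ z → Real.exp (-((z - C) ^ 2 / 2)) < k * Real.exp (-(K * z)) := by
  -- -(z-C)^2/2 + K z → -∞
  have h1 : Tendsto (fun z : ℝ => z * ((K + C) - 1 / 2 * z) - C ^ 2 / 2) atTop atBot := by
    apply tendsto_atBot_add_const_right
    apply Tendsto.atTop_mul_atBot₀ tendsto_id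
    have : Tendsto (fun x : ℝ => 1 / 2 * x) atTop atTop :=
      tendsto_id.const_mul_atTop (by norm_num)
    have h2 := tendsto_neg_atTop_atBot.comp this
    have h3 := tendsto_atBot_add_const_left _ (K + C) h2
    refine h3.congr fun x => ?_
    simp [sub_eq_add_neg]
  have h2 := h1.eventually (eventually_lt_atBot (Real.log k))
  obtain ⟨Z, hZ⟩ := eventually_atTop.1 h2
  refine ⟨Z, fun z hz => ?_⟩
  have h3 := hZ z hz
  have h4 : Real.exp (-((z - C) ^ 2 / 2)) < Real.exp (Real.log k + -(K * z)) := by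
    apply Real.exp_lt_exp.2
    nlinarith
  rwa [Real.exp_add, Real.exp_log hk] at h4

theorem exclude_below {n : ℝ} {S0 S1 S2 S3 g g1 g2 : ℝ → ℝ}
    (D : DataMinus n S0 S1 S2 S3 g g1 g2) {ν : ℝ} (hn : ν ≤ n) {W V q q1 : ℝ → ℝ}
    (h : ProfD ν W V) (hq : ChargeD ν (2 * ν) W q q1) : False := by
  have hν := h.pos
  have hν2 := h.lt
  have hmS : StrictMono S0 := strictMono_of_hasDerivAt_pos D.jet.d0 D.pos
  have hU1 : ∀ z, 0 < 1 - 2 * ν + 2 * ν * V z := fun z => by
    have := h.V_nonneg z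
    nlinarith [mul_nonneg hν.le this]
  have hmU : StrictMono (A ν W) := strictMono_of_hasDerivAt_pos h.jet.d0 hU1
  obtain ⟨c, zL, hc1, hc2⟩ := D.left
  obtain ⟨zR, k, K, C, hk, htail⟩ := D.tail
  have cS1 : Continuous S1 := continuous_iff_continuousAt.2 fun z => (D.jet.d1 z).continuousAt
  -- box
  have hbdd : ∃ B, ∀ z1 z2, S0 z2 ≤ A ν W z1 → 1 - 2 * ν + 2 * ν * V z1 ≤ S1 z2 →
      |z1| ≤ B ∧ |z2| ≤ B := by
    set C2 : ℝ := C + 2 * ν * W 0 with hC2
    obtain ⟨Z, hZ⟩ := exp_gauss_lt k K C2 hk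
    set Z2 : ℝ := max (max zR Z) (C2 + 1) with hZ2
    obtain ⟨μx, hμx, hμ⟩ := isCompact_Icc.exists_isMaxOn
      (⟨min zL Z2, le_refl _, min_le_right _ _⟩ : (Icc (min zL Z2) Z2).Nonempty)
      cS1.continuousOn
    have hμ1 := D.lt_one μx
    have hμpos : 0 < 1 - S1 μx := by linarith
    -- decay of 1 - V
    have hdec : ∃ Y : ℝ, 0 ≤ Y ∧ ∀ z, Y ≤ z → Real.exp (-(z ^ 2 / 2)) < 1 - S1 μx := by
      obtain ⟨Y, hY⟩ := exp_gauss_lt (1 - S1 μx) 0 0 hμpos
      refine ⟨max Y 0, le_max_right _ _, fun z hz => ?_⟩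
      have := hY z ((le_max_left _ _).trans hz)
      simpa using this
    obtain ⟨Y, hY0, hY⟩ := hdec
    obtain ⟨Y1, hY1⟩ := h.A_surj (S0 zL)
    refine ⟨|zL| + |Z2| + |Y| + |Y1|, fun z1 z2 h1 h2 => ?_⟩
    have hV1 := h.V_nonneg z1
    have h3 : zL < z2 := by
      by_contra hcon
      push Not at hcon
      have h4 := hc2 z2 hcon
      nlinarith [mul_nonneg hν.le hV1]
    have h5 : z2 < Z2 := by
      by_contra hcon
      push Not at hcon
      have e1 : zR ≤ z2 := (le_max_left _ _).trans ((le_max_left _ _).trans hcon)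
      have e2 : Z ≤ z2 := (le_max_right _ _).trans ((le_max_left _ _).trans hcon)
      have e3 : C2 + 1 ≤ z2 := (le_max_right _ _).trans hcon
      obtain ⟨t1, t2⟩ := htail z2 e1
      have h6 : 0 ≤ z1 := by
        by_contra hc0
        push Not at hc0
        have h7 := hmU hc0
        have h8 : A ν W 0 = 2 * ν * W 0 := by unfold A; ring
        rw [h8] at h7
        linarith
      have h9 := h.A_le h6
      have h10 : z2 - C2 ≤ z1 := by rw [hC2]; linarith
      have h11 := h.R_le h6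
      have h12 : Real.exp (-(z1 ^ 2 / 2)) ≤ Real.exp (-((z2 - C2) ^ 2 / 2)) := by
        apply Real.exp_le_exp.2
        have : (z2 - C2) ^ 2 ≤ z1 ^ 2 := by
          apply pow_le_pow_left₀ (by linarith) h10
        linarith
      have h13 := hZ z2 e2
      have h14 : 0 ≤ 1 - V z1 := by have := h.V_le_one z1; linarith
      nlinarith [mul_nonneg (by linarith : (0 : ℝ) ≤ 1 - 2 * ν) h14]
    have h6 : Y1 < z1 := by
      by_contra hcon
      push Not at hcon
      have h7 := hmU.monotone hcon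
      have h8 := hmS h3
      rw [hY1] at h7
      linarith
    have h7 : z1 < Y := by
      by_contra hcon
      push Not at hcon
      have h8 := hY z1 hcon
      have h9 := h.R_le (hY0.trans hcon)
      have h10 : S1 z2 ≤ S1 μx := hμ ⟨(min_le_left _ _).trans h3.le, h5.le⟩
      have h14 : 0 ≤ 1 - V z1 := by have := h.V_le_one z1; linarith
      nlinarith [mul_nonneg (by linarith : (0 : ℝ) ≤ 1 - 2 * ν) h14]
    have e1 := neg_abs_le zL
    have e2 := le_abs_self Z2
    have e3 := le_abs_self Y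
    have e4 := neg_abs_le Y1
    have p1 := abs_nonneg zL
    have p2 := abs_nonneg Z2
    have p3 := abs_nonneg Y
    have p4 := abs_nonneg Y1
    constructor
    · rw [abs_le]; constructor <;> linarith
    · rw [abs_le]; constructor <;> linarith
  have hslide := slide D.jet h.jet D.pos hU1 h.A_surj
    (Or.inr fun z => mul_nonneg (by linarith) (h.X_nonneg z))
    (fun z1 z2 h1 h2 h3 => by
      have hN := D.res z2
      have hV := h.V_le_one z1
      have hX := mul_nonneg (by linarith : (0 : ℝ) ≤ 2 * ν) (h.X_nonneg z1)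
      rw [← h2, ← h3] at hN
      have h4 := mul_nonneg hX (sub_nonneg.2 h1)
      have h5 := mul_nonneg (sub_nonneg.2 hn) (sub_nonneg.2 hV)
      nlinarith [mul_nonneg hν.le h5])
    hbdd
  obtain ⟨z0, hm1, hm2⟩ := phi_mode h hq (by linarith)
  obtain ⟨s, ho1, ho2⟩ := order_sub D.jet.d0 h.jet.d0 D.pos D.surj
    (fun z1 z2 hz => hslide z1 z2 hz.ge) z0
  obtain ⟨k', K', hk', hK', hg⟩ := D.gpos
  have hgpos : ∀ z, 0 < g z := fun z => lt_of_lt_of_le (mul_pos hk' (Real.exp_pos _)) (hg z)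
  have hshift : ∀ (F F' : ℝ → ℝ), (∀ z, HasDerivAt F (F' z) z) →
      ∀ z, HasDerivAt (fun z => F (z - s)) (F' (z - s)) z := fun F F' hF z =>
    (hF (z - s)).comp_sub_const z s
  refine barta_super (B := S0) (lam := 2 * n)
    (f := fun z => phi ν W q (z - s)) (f1 := fun z => phi1 ν W q q1 (z - s))
    (f2 := fun z => -(2 * ν * phi ν W q (z - s)) - A ν W (z - s) * phi1 ν W q q1 (z - s))
    (g := g) (g1 := g1) (g2 := g2)
    (hshift _ _ (phi_d0 h hq))
    (fun z => (hshift _ _ (phi_d1 h hq) z).hasDerivWithinAt) D.g0 D.g1'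
    (fun z => phi_pos hq _) hgpos (fun z => ?_) D.super ?_
  · have hφ := phi_pos hq (z - s)
    have h1 : 0 ≤ (S0 z - A ν W (z - s)) * phi1 ν W q q1 (z - s) := by
      rcases le_total (z - s) z0 with hz | hz
      · have h2 := ho1 _ hz
        rw [sub_add_cancel] at h2
        exact mul_nonneg (by linarith) (hm1 _ hz)
      · have h2 := ho2 _ hz
        rw [sub_add_cancel] at h2
        exact mul_nonneg_of_nonpos_of_nonpos (by linarith) (hm2 _ hz)
    nlinarith [mul_nonneg (sub_nonneg.2 hn) hφ.le]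
  · have hlim := phi_exp_tendsto h hq K'
    have hsh : Tendsto (fun z : ℝ => z - s) (cocompact ℝ) (cocompact ℝ) :=
      (Homeomorph.subRight s).isClosedEmbedding.tendsto_cocompact
    have h1 := (hlim.comp hsh).const_mul (Real.exp (K' * |s|) / k')
    rw [mul_zero] at h1
    refine squeeze_zero (fun z => (div_pos (phi_pos hq _) (hgpos z)).le) (fun z => ?_) h1
    simp only [Function.comp]
    rw [div_le_iff₀ (hgpos z)]
    have h2 := hg z
    have hφ := phi_pos hq (z - s)
    have h3 : phi ν W q (z - s) = Real.exp (K' * |s|) / k' *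
        (phi ν W q (z - s) * Real.exp (K' * |z - s|)) *
        (k' * Real.exp (-(K' * (|z - s| + |s|)))) := by
      have e1 : Real.exp (K' * |s|) * Real.exp (K' * |z - s|) *
          Real.exp (-(K' * (|z - s| + |s|))) = 1 := by
        rw [← Real.exp_add, ← Real.exp_add]
        rw [show K' * |s| + K' * |z - s| + -(K' * (|z - s| + |s|)) = 0 by ring, Real.exp_zero]
      have e2 := hk'.ne'
      calc phi ν W q (z - s) = phi ν W q (z - s) * (Real.exp (K' * |s|) *
            Real.exp (K' * |z - s|) * Real.exp (-(K' * (|z - s| + |s|)))) := by rw [e1, mul_one]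
        _ = _ := by field_simp
    have h4 : k' * Real.exp (-(K' * (|z - s| + |s|))) ≤ k' * Real.exp (-(K' * |z|)) := by
      apply mul_le_mul_of_nonneg_left _ hk'.le
      apply Real.exp_le_exp.2
      have : |z| ≤ |z - s| + |s| := by
        calc |z| = |(z - s) + s| := by rw [sub_add_cancel]
          _ ≤ _ := abs_add_le _ _
      nlinarith [mul_nonneg hK' (sub_nonneg.2 this)]
    have h5 : 0 ≤ Real.exp (K' * |s|) / k' * (phi ν W q (z - s) * Real.exp (K' * |z - s|)) := by
      positivity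
    calc phi ν W q (z - s) = _ := h3
      _ ≤ _ := mul_le_mul_of_nonneg_left (h4.trans h2) h5

end Crest.Agent.R146.Encl_109
end

-- ▼ part R146/Pc_109
section

/-!
Piecewise polynomials with integer coefficients: evaluation, derivatives, positivity tests, gluing
(row 146, numerics certificate).
-/

set_option autoImplicit false

namespace Crest.Agent.R146.Pc_109

open Filter Topology Set
open Crest.Agent.R146.Slide_109

/-! ### integer polynomials as lists -/

/-- Horner evaluation -/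
noncomputable def ev : List ℤ → ℝ → ℝ
  | [], _ => 0
  | c :: p, x => (c : ℝ) + x * ev p x

/-- addition -/
def padd : List ℤ → List ℤ → List ℤ
  | [], q => q
  | a :: p, [] => a :: p
  | a :: p, b :: q => (a + b) :: padd p q

/-- scalar multiple -/
def psm (k : ℤ) : List ℤ → List ℤ
  | [] => []
  | a :: p => (k * a) :: psm k p

/-- product -/
def pmul : List ℤ → List ℤ → List ℤ
  | [], _ => []
  | a :: p, q => padd (psm a q) (0 :: pmul p q)

/-- derivative -/
def pder : List ℤ → List ℤ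
  | [] => []
  | _ :: p => padd p (0 :: pder p)

/-- sum of absolute values -/
def sab : List ℤ → ℤ
  | [] => 0
  | a :: p => |a| + sab p

/-- integer evaluation -/
def evz (x : ℤ) : List ℤ → ℤ
  | [] => 0
  | a :: p => a + x * evz x p

/-- `2^(len p) * p ((x+s)/2)` -/
def sh (s : ℤ) : List ℤ → List ℤ
  | [] => []
  | a :: p => padd [a * 2 ^ (p.length + 1)] (pmul [s, 1] (sh s p))

/-- positivity on `[-1,1]` by bisection of depth `d` -/
def chk : ℕ → List ℤ → Bool
  | _, [] => false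
  | 0, a :: p => decide (sab p < a)
  | d + 1, a :: p => decide (sab p < a) || (chk d (sh 1 (a :: p)) && chk d (sh (-1) (a :: p)))

lemma ev_padd (p q : List ℤ) (x : ℝ) : ev (padd p q) x = ev p x + ev q x := by
  induction p generalizing q with
  | nil => simp [padd, ev]
  | cons a p ih =>
    cases q with
    | nil => simp [padd, ev]
    | cons b q => simp only [padd, ev, ih]; push_cast; ring

lemma ev_psm (k : ℤ) (p : List ℤ) (x : ℝ) : ev (psm k p) x = k * ev p x := by
  induction p with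
  | nil => simp [psm, ev]
  | cons a p ih => simp only [psm, ev, ih]; push_cast; ring

lemma ev_pmul (p q : List ℤ) (x : ℝ) : ev (pmul p q) x = ev p x * ev q x := by
  induction p with
  | nil => simp [pmul, ev]
  | cons a p ih => simp only [pmul, ev_padd, ev_psm, ev, ih]; push_cast; ring

lemma ev_pder (p : List ℤ) (x : ℝ) : HasDerivAt (ev p) (ev (pder p) x) x := by
  induction p with
  | nil => exact hasDerivAt_const x 0
  | cons a p ih =>
    have h1 : HasDerivAt (fun x : ℝ => (a : ℝ) + x * ev p x) (1 * ev p x + x * ev (pder p) x) x :=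
      ((hasDerivAt_id x).mul ih).const_add (a : ℝ)
    have h2 : ev (pder (a :: p)) x = 1 * ev p x + x * ev (pder p) x := by
      simp only [pder, ev_padd, ev]; push_cast; ring
    rw [h2]
    exact h1

lemma ev_evz (x : ℤ) (p : List ℤ) : ev p (x : ℝ) = (evz x p : ℝ) := by
  induction p with
  | nil => simp [ev, evz]
  | cons a p ih => simp only [ev, evz, ih]; push_cast; ring

lemma abs_ev_le (p : List ℤ) {x : ℝ} (hx : |x| ≤ 1) : |ev p x| ≤ (sab p : ℝ) := by
  induction p with
  | nil => simp [ev, sab]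
  | cons a p ih =>
    simp only [ev, sab]
    push_cast
    calc |(a : ℝ) + x * ev p x| ≤ |(a : ℝ)| + |x * ev p x| := abs_add_le _ _
      _ = |(a : ℝ)| + |x| * |ev p x| := by rw [abs_mul]
      _ ≤ |(a : ℝ)| + 1 * sab p := by
        gcongr
      _ = _ := by ring

lemma ev_pos_of_sab {a : ℤ} {p : List ℤ} (h : sab p < a) {x : ℝ} (hx : |x| ≤ 1) :
    0 < ev (a :: p) x := by
  simp only [ev]
  have h1 := abs_ev_le p hx
  have h2 : |x * ev p x| ≤ (sab p : ℝ) := by
    rw [abs_mul]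
    calc |x| * |ev p x| ≤ 1 * |ev p x| := mul_le_mul_of_nonneg_right hx (abs_nonneg _)
      _ ≤ _ := by rw [one_mul]; exact h1
  have h3 := (abs_le.1 h2).1
  have h4 : (sab p : ℝ) < a := by exact_mod_cast h
  linarith

lemma ev_sh (s : ℤ) (p : List ℤ) (x : ℝ) :
    ev (sh s p) x = 2 ^ p.length * ev p ((x + s) / 2) := by
  induction p with
  | nil => simp [sh, ev]
  | cons a p ih =>
    simp only [sh, ev_padd, ev_pmul, ev, ih, List.length_cons]
    push_cast
    ring

lemma chk_pos : ∀ (d : ℕ) (p : List ℤ), chk d p = true → ∀ x : ℝ, |x| ≤ 1 → 0 < ev p x := by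
  intro d
  induction d with
  | zero =>
    intro p hp x hx
    cases p with
    | nil => simp [chk] at hp
    | cons a p =>
      simp only [chk, decide_eq_true_eq] at hp
      exact ev_pos_of_sab hp hx
  | succ d ih =>
    intro p hp x hx
    cases p with
    | nil => simp [chk] at hp
    | cons a p =>
      simp only [chk, Bool.or_eq_true, decide_eq_true_eq, Bool.and_eq_true] at hp
      rcases hp with hp | ⟨hp1, hp2⟩
      · exact ev_pos_of_sab hp hx
      · rw [abs_le] at hx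
        rcases le_total 0 x with h0 | h0
        · have h1 := ih _ hp1 (2 * x - 1) (by rw [abs_le]; constructor <;> linarith [hx.2])
          rw [ev_sh] at h1
          have h2 : (2 * x - 1 + ((1 : ℤ) : ℝ)) / 2 = x := by push_cast; ring
          rw [h2] at h1
          exact (mul_pos_iff_of_pos_left (by positivity)).1 h1
        · have h1 := ih _ hp2 (2 * x + 1) (by rw [abs_le]; constructor <;> linarith [hx.1])
          rw [ev_sh] at h1
          have h2 : (2 * x + 1 + ((-1 : ℤ) : ℝ)) / 2 = x := by push_cast; ring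
          rw [h2] at h1
          exact (mul_pos_iff_of_pos_left (by positivity)).1 h1

/-! ### gluing -/

/-- glue two functions at `c` -/
noncomputable def glue (c : ℝ) (f g : ℝ → ℝ) (z : ℝ) : ℝ := if z < c then f z else g z

lemma glue_lt {c z : ℝ} (f g : ℝ → ℝ) (h : z < c) : glue c f g z = f z := if_pos h

lemma glue_ge {c z : ℝ} (f g : ℝ → ℝ) (h : c ≤ z) : glue c f g z = g z := if_neg (not_lt.2 h)

lemma glue_ev_lt {c z : ℝ} (f g : ℝ → ℝ) (h : z < c) : glue c f g =ᶠ[𝓝 z] f := by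
  filter_upwards [Iio_mem_nhds h] with w hw using if_pos hw

lemma glue_ev_gt {c z : ℝ} (f g : ℝ → ℝ) (h : c < z) : glue c f g =ᶠ[𝓝 z] g := by
  filter_upwards [Ioi_mem_nhds h] with w hw using if_neg (not_lt.2 (le_of_lt hw))

lemma glue_deriv {c : ℝ} {f g f' g' : ℝ → ℝ} (hf : ∀ z, HasDerivAt f (f' z) z)
    (hg : ∀ z, HasDerivAt g (g' z) z) (h0 : f c = g c) (h1 : f' c = g' c) (z : ℝ) :
    HasDerivAt (glue c f g) (glue c f' g' z) z := by
  rcases lt_trichotomy z c with hz | hz | hz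
  · rw [glue_lt _ _ hz]
    exact (hf z).congr_of_eventuallyEq (glue_ev_lt f g hz)
  · subst hz
    rw [glue_ge _ _ le_rfl]
    have hl : HasDerivWithinAt (glue z f g) (g' z) (Iic z) z := by
      rw [← h1]
      refine (hf z).hasDerivWithinAt.congr (fun w hw => ?_) ?_
      · rcases lt_or_eq_of_le (mem_Iic.1 hw) with h | h
        · exact glue_lt _ _ h
        · rw [h, glue_ge _ _ le_rfl, h0]
      · rw [glue_ge _ _ le_rfl, h0]
    have hr : HasDerivWithinAt (glue z f g) (g' z) (Ici z) z :=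
      (hg z).hasDerivWithinAt.congr (fun w hw => glue_ge _ _ hw) (glue_ge _ _ le_rfl)
    have := hl.union hr
    rw [Iic_union_Ici, hasDerivWithinAt_univ] at this
    exact this
  · rw [glue_ge _ _ hz.le]
    exact (hg z).congr_of_eventuallyEq (glue_ev_gt f g hz)

lemma glue_rderiv {c : ℝ} {f g f' g' : ℝ → ℝ}
    (hf : ∀ z, HasDerivWithinAt f (f' z) (Ici z) z)
    (hg : ∀ z, HasDerivWithinAt g (g' z) (Ici z) z) (z : ℝ) :
    HasDerivWithinAt (glue c f g) (glue c f' g' z) (Ici z) z := by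
  rcases lt_or_ge z c with hz | hz
  · rw [glue_lt _ _ hz]
    refine (hf z).congr_of_eventuallyEq ?_ (glue_lt _ _ hz)
    exact (glue_ev_lt f g hz).filter_mono nhdsWithin_le_nhds
  · rw [glue_ge _ _ hz]
    refine (hg z).congr (fun w hw => glue_ge _ _ (hz.trans hw)) (glue_ge _ _ hz)

/-- gluing of jets -/
lemma glue_jet {c : ℝ} {F0 F1 F2 F3 G0 G1 G2 G3 : ℝ → ℝ} (hF : Jet F0 F1 F2 F3)
    (hG : Jet G0 G1 G2 G3) (h0 : F0 c = G0 c) (h1 : F1 c = G1 c) (h2 : F2 c = G2 c) :
    Jet (glue c F0 G0) (glue c F1 G1) (glue c F2 G2) (glue c F3 G3) where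
  d0 := glue_deriv hF.d0 hG.d0 h0 h1
  d1 := glue_deriv hF.d1 hG.d1 h1 h2
  d2 := glue_rderiv hF.d2 hG.d2

/-- `C¹` function with right-differentiable derivative -/
structure Jet1 (F0 F1 F2 : ℝ → ℝ) : Prop where
  d0 : ∀ z, HasDerivAt F0 (F1 z) z
  d1 : ∀ z, HasDerivWithinAt F1 (F2 z) (Ici z) z

lemma glue_jet1 {c : ℝ} {F0 F1 F2 G0 G1 G2 : ℝ → ℝ} (hF : Jet1 F0 F1 F2)
    (hG : Jet1 G0 G1 G2) (h0 : F0 c = G0 c) (h1 : F1 c = G1 c) :
    Jet1 (glue c F0 G0) (glue c F1 G1) (glue c F2 G2) where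
  d0 := glue_deriv hF.d0 hG.d0 h0 h1
  d1 := glue_rderiv hF.d1 hG.d1

/-! ### polynomial pieces of length `1/2` -/

/-- `k`-th derivative of the piece with left knot `x`: `4^k p^(k)(4 (z-x) - 1) / Q` -/
noncomputable def pf (Q : ℤ) (k : ℕ) (p : List ℤ) (x z : ℝ) : ℝ :=
  4 ^ k * ev (pder^[k] p) (4 * (z - x) - 1) / Q

lemma pf_deriv (Q : ℤ) (k : ℕ) (p : List ℤ) (x z : ℝ) :
    HasDerivAt (pf Q k p x) (pf Q (k + 1) p x z) z := by
  have h1 : HasDerivAt (fun z : ℝ => 4 * (z - x) - 1) (4 * 1) z :=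
    (((hasDerivAt_id z).sub_const x).const_mul 4).sub_const 1
  have h2 := (ev_pder (pder^[k] p) (4 * (z - x) - 1)).comp z h1
  have h3 := (h2.const_mul ((4 : ℝ) ^ k)).div_const (Q : ℝ)
  refine h3.congr_deriv ?_
  unfold pf
  rw [Function.iterate_succ_apply', pow_succ]
  ring

lemma pf_jet (Q : ℤ) (p : List ℤ) (x : ℝ) :
    Jet (pf Q 0 p x) (pf Q 1 p x) (pf Q 2 p x) (pf Q 3 p x) where
  d0 := pf_deriv Q 0 p x
  d1 := pf_deriv Q 1 p x
  d2 z := (pf_deriv Q 2 p x z).hasDerivWithinAt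

lemma pf_jet1 (Q : ℤ) (p : List ℤ) (x : ℝ) :
    Jet1 (pf Q 0 p x) (pf Q 1 p x) (pf Q 2 p x) where
  d0 := pf_deriv Q 0 p x
  d1 z := (pf_deriv Q 1 p x z).hasDerivWithinAt

lemma pf_left (Q : ℤ) (k : ℕ) (p : List ℤ) (x : ℝ) :
    pf Q k p x x = 4 ^ k * (evz (-1) (pder^[k] p) : ℝ) / Q := by
  unfold pf
  rw [← ev_evz]
  norm_num

lemma pf_right (Q : ℤ) (k : ℕ) (p : List ℤ) (x : ℝ) :
    pf Q k p x (x + 1 / 2) = 4 ^ k * (evz 1 (pder^[k] p) : ℝ) / Q := by
  unfold pf
  rw [← ev_evz]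
  congr 3
  push_cast
  ring

/-- piecewise polynomial with right outer function `T` -/
noncomputable def pw (Q : ℤ) (k : ℕ) (T : ℝ → ℝ) : List (List ℤ) → ℝ → ℝ → ℝ
  | [], _ => T
  | p :: L, x => glue (x + 1 / 2) (pf Q k p x) (pw Q k T L (x + 1 / 2))

/-- consecutive pieces match up to order `m` (exclusive) and the last one has the end values `e` -/
def mtch : List ℤ → List ℤ → ℕ → Bool
  | _, _, 0 => true
  | p, q, m + 1 => mtch p q m && decide (evz 1 (pder^[m] p) = evz (-1) (pder^[m] q))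

lemma mtch_spec {p q : List ℤ} {m : ℕ} (h : mtch p q m = true) {k : ℕ} (hk : k < m) :
    evz 1 (pder^[k] p) = evz (-1) (pder^[k] q) := by
  induction m with
  | zero => omega
  | succ m ih =>
    simp only [mtch, Bool.and_eq_true, decide_eq_true_eq] at h
    rcases Nat.lt_succ_iff_lt_or_eq.1 hk with h1 | h1
    · exact ih h.1 h1
    · subst h1; exact h.2

/-- chain condition -/
def chain (m : ℕ) : List (List ℤ) → Bool
  | [] => true
  | [_] => true
  | p :: q :: L => mtch p q m && chain m (q :: L)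

lemma pw_at (Q : ℤ) (k : ℕ) (T : ℝ → ℝ) (p : List ℤ) (L : List (List ℤ)) (x : ℝ) :
    pw Q k T (p :: L) x x = 4 ^ k * (evz (-1) (pder^[k] p) : ℝ) / Q := by
  rw [pw, glue_lt _ _ (by linarith), pf_left]

/-- the last polynomial of a nonempty list -/
def lst : List ℤ → List (List ℤ) → List ℤ
  | p, [] => p
  | _, q :: L => lst q L

lemma pw_jet {Q : ℤ} {T0 T1 T2 T3 : ℝ → ℝ} (hT : Jet T0 T1 T2 T3) :
    ∀ (L : List (List ℤ)) (p : List ℤ) (x : ℝ), chain 3 (p :: L) = true →
    (4 ^ 0 * (evz 1 (pder^[0] (lst p L)) : ℝ) / Q = T0 (x + (L.length + 1) / 2)) →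
    (4 ^ 1 * (evz 1 (pder^[1] (lst p L)) : ℝ) / Q = T1 (x + (L.length + 1) / 2)) →
    (4 ^ 2 * (evz 1 (pder^[2] (lst p L)) : ℝ) / Q = T2 (x + (L.length + 1) / 2)) →
    Jet (pw Q 0 T0 (p :: L) x) (pw Q 1 T1 (p :: L) x) (pw Q 2 T2 (p :: L) x)
      (pw Q 3 T3 (p :: L) x) := by
  intro L
  induction L with
  | nil =>
    intro p x _ h0 h1 h2
    simp only [List.length_nil, Nat.cast_zero, zero_add, lst] at h0 h1 h2
    refine glue_jet (pf_jet Q p x) hT ?_ ?_ ?_
    · rw [pf_right]; exact h0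
    · rw [pf_right]; exact h1
    · rw [pf_right]; exact h2
  | cons q L ih =>
    intro p x hc h0 h1 h2
    simp only [chain, Bool.and_eq_true] at hc
    have hx : x + (((q :: L).length : ℝ) + 1) / 2 = (x + 1 / 2) + ((L.length : ℝ) + 1) / 2 := by
      simp only [List.length_cons]; push_cast; ring
    rw [hx] at h0 h1 h2
    have hrec := ih q (x + 1 / 2) hc.2 h0 h1 h2
    refine glue_jet (pf_jet Q p x) hrec ?_ ?_ ?_
    · rw [pf_right, pw_at, mtch_spec hc.1 (k := 0) (by norm_num)]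
    · rw [pf_right, pw_at, mtch_spec hc.1 (k := 1) (by norm_num)]
    · rw [pf_right, pw_at, mtch_spec hc.1 (k := 2) (by norm_num)]

lemma pw_jet1 {Q : ℤ} {T0 T1 T2 : ℝ → ℝ} (hT : Jet1 T0 T1 T2) :
    ∀ (L : List (List ℤ)) (p : List ℤ) (x : ℝ), chain 2 (p :: L) = true →
    (4 ^ 0 * (evz 1 (pder^[0] (lst p L)) : ℝ) / Q = T0 (x + (L.length + 1) / 2)) →
    (4 ^ 1 * (evz 1 (pder^[1] (lst p L)) : ℝ) / Q = T1 (x + (L.length + 1) / 2)) →
    Jet1 (pw Q 0 T0 (p :: L) x) (pw Q 1 T1 (p :: L) x) (pw Q 2 T2 (p :: L) x) := by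
  intro L
  induction L with
  | nil =>
    intro p x _ h0 h1
    simp only [List.length_nil, Nat.cast_zero, zero_add, lst] at h0 h1
    refine glue_jet1 (pf_jet1 Q p x) hT ?_ ?_
    · rw [pf_right]; exact h0
    · rw [pf_right]; exact h1
  | cons q L ih =>
    intro p x hc h0 h1
    simp only [chain, Bool.and_eq_true] at hc
    have hx : x + (((q :: L).length : ℝ) + 1) / 2 = (x + 1 / 2) + ((L.length : ℝ) + 1) / 2 := by
      simp only [List.length_cons]; push_cast; ring
    rw [hx] at h0 h1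
    have hrec := ih q (x + 1 / 2) hc.2 h0 h1
    refine glue_jet1 (pf_jet1 Q p x) hrec ?_ ?_
    · rw [pf_right, pw_at, mtch_spec hc.1 (k := 0) (by norm_num)]
    · rw [pf_right, pw_at, mtch_spec hc.1 (k := 1) (by norm_num)]

/-- on the range of the pieces the piecewise function is given by one of the pieces; two lists of
the same length are cut at the same knots -/
lemma pw_local (Q : ℤ) {P : List ℤ → List ℤ → Bool} :
    ∀ (L M : List (List ℤ)) (x z : ℝ), L.length = M.length →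
    (List.zipWith P L M).all id = true → x ≤ z → z < x + (L.length : ℝ) / 2 →
    ∃ p q : List ℤ, ∃ y : ℝ, P p q = true ∧ |4 * (z - y) - 1| ≤ 1 ∧
      (∀ (k : ℕ) (T : ℝ → ℝ), pw Q k T L x z = pf Q k p y z) ∧
      (∀ (k : ℕ) (T : ℝ → ℝ), pw Q k T M x z = pf Q k q y z) := by
  intro L
  induction L with
  | nil =>
    intro M x z _ _ h1 h2
    simp at h2
    linarith
  | cons p L ih =>
    intro M x z hlen hall h1 h2
    cases M with
    | nil => simp at hlen
    | cons q M =>
      simp only [List.zipWith_cons_cons, List.all_cons, id_eq, Bool.and_eq_true] at hall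
      rcases lt_or_ge z (x + 1 / 2) with hz | hz
      · refine ⟨p, q, x, hall.1, ?_, fun k T => ?_, fun k T => ?_⟩
        · rw [abs_le]; constructor <;> linarith
        · rw [pw, glue_lt _ _ hz]
        · rw [pw, glue_lt _ _ hz]
      · have hx : x + (((p :: L).length : ℕ) : ℝ) / 2 = (x + 1 / 2) + (L.length : ℝ) / 2 := by
          simp only [List.length_cons]; push_cast; ring
        rw [hx] at h2
        obtain ⟨p', q', y, e1, e2, e3, e4⟩ := ih M (x + 1 / 2) z
          (by simpa using hlen) hall.2 hz h2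
        refine ⟨p', q', y, e1, e2, fun k T => ?_, fun k T => ?_⟩
        · rw [pw, glue_ge _ _ hz, e3]
        · rw [pw, glue_ge _ _ hz, e4]

lemma pw_ge (Q : ℤ) (k : ℕ) (T : ℝ → ℝ) :
    ∀ (L : List (List ℤ)) (x z : ℝ), x + (L.length : ℝ) / 2 ≤ z → pw Q k T L x z = T z := by
  intro L
  induction L with
  | nil => intro x z _; rfl
  | cons p L ih =>
    intro x z h
    have hx : x + (((p :: L).length : ℕ) : ℝ) / 2 = (x + 1 / 2) + (L.length : ℝ) / 2 := by
      simp only [List.length_cons]; push_cast; ring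
    rw [hx] at h
    have h2 : x + 1 / 2 ≤ z := by
      have : (0 : ℝ) ≤ (L.length : ℝ) / 2 := by positivity
      linarith
    rw [pw, glue_ge _ _ h2, ih _ _ h]

/-! ### residual polynomials -/

/-- `Q² D (U''' + U U'' - (1 - U') (U' - nA / D))` -/
def resA (Q nA D : ℤ) (p : List ℤ) : List ℤ :=
  padd (psm D (padd (psm (64 * Q) (pder^[3] p)) (psm 16 (pmul p (pder^[2] p)))))
    (pmul (padd [-Q] (psm 4 (pder^[1] p))) (padd (psm (4 * D) (pder^[1] p)) [-(nA * Q)]))

lemma ev_resA {Q nA D : ℤ} (hQ : 0 < Q) (hD : 0 < D) (p : List ℤ) (x z : ℝ) :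
    ev (resA Q nA D p) (4 * (z - x) - 1) = (Q : ℝ) ^ 2 * D *
      (pf Q 3 p x z + pf Q 0 p x z * pf Q 2 p x z -
        (1 - pf Q 1 p x z) * (pf Q 1 p x z - (nA : ℝ) / D)) := by
  have h1 : (Q : ℝ) ≠ 0 := by exact_mod_cast hQ.ne'
  have h2 : (D : ℝ) ≠ 0 := by exact_mod_cast hD.ne'
  simp only [resA, ev_padd, ev_psm, ev_pmul, ev, pf, Function.iterate_zero, id]
  push_cast
  field_simp
  ring

/-- `Q² D (f'' + U f' + (nl / D) f)` -/
def resP (Q nl D : ℤ) (p f : List ℤ) : List ℤ :=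
  padd (psm D (padd (psm (16 * Q) (pder^[2] f)) (psm 4 (pmul p (pder^[1] f)))))
    (psm (nl * Q) f)

lemma ev_resP {Q nl D : ℤ} (hQ : 0 < Q) (hD : 0 < D) (p f : List ℤ) (x z : ℝ) :
    ev (resP Q nl D p f) (4 * (z - x) - 1) = (Q : ℝ) ^ 2 * D *
      (pf Q 2 f x z + pf Q 0 p x z * pf Q 1 f x z + (nl : ℝ) / D * pf Q 0 f x z) := by
  have h1 : (Q : ℝ) ≠ 0 := by exact_mod_cast hQ.ne'
  have h2 : (D : ℝ) ≠ 0 := by exact_mod_cast hD.ne'
  simp only [resP, ev_padd, ev_psm, ev_pmul, pf, Function.iterate_zero, id]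
  push_cast
  field_simp
  ring

end Crest.Agent.R146.Pc_109
private theorem rz_4cf09da53b : type_of% @_root_.Crest.Agent.R146.Pc_109.chain.eq_def := @_root_.Crest.Agent.R146.Pc_109.chain.eq_def -- L294
private theorem rz_28de8e7acf : type_of% @_root_.Crest.Agent.R146.Pc_109.chain.eq_1 := @_root_.Crest.Agent.R146.Pc_109.chain.eq_1 -- L294
private theorem rz_205e1da76e : type_of% @_root_.Crest.Agent.R146.Pc_109.chk.eq_def := @_root_.Crest.Agent.R146.Pc_109.chk.eq_def -- L60
private theorem rz_14ee9a26e3 : type_of% @_root_.Crest.Agent.R146.Pc_109.chk.eq_1 := @_root_.Crest.Agent.R146.Pc_109.chk.eq_1 -- L60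
private theorem rz_243f6d3f94 : type_of% @_root_.Crest.Agent.R146.Pc_109.ev.eq_def := @_root_.Crest.Agent.R146.Pc_109.ev.eq_def -- L19
private theorem rz_56c4e9e0f7 : type_of% @_root_.Crest.Agent.R146.Pc_109.ev.eq_1 := @_root_.Crest.Agent.R146.Pc_109.ev.eq_1 -- L19
private theorem rz_6101de9af1 : type_of% @_root_.Crest.Agent.R146.Pc_109.evz.eq_def := @_root_.Crest.Agent.R146.Pc_109.evz.eq_def -- L50
private theorem rz_7dda3cf734 : type_of% @_root_.Crest.Agent.R146.Pc_109.evz.eq_1 := @_root_.Crest.Agent.R146.Pc_109.evz.eq_1 -- L50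
private theorem rz_a7127f12e0 : type_of% @_root_.Crest.Agent.R146.Pc_109.lst.eq_def := @_root_.Crest.Agent.R146.Pc_109.lst.eq_def -- L304
private theorem rz_5ad2a8c817 : type_of% @_root_.Crest.Agent.R146.Pc_109.lst.eq_1 := @_root_.Crest.Agent.R146.Pc_109.lst.eq_1 -- L304
private theorem rz_95db44da4c : type_of% @_root_.Crest.Agent.R146.Pc_109.mtch.eq_def := @_root_.Crest.Agent.R146.Pc_109.mtch.eq_def -- L279
private theorem rz_c830575325 : type_of% @_root_.Crest.Agent.R146.Pc_109.mtch.eq_1 := @_root_.Crest.Agent.R146.Pc_109.mtch.eq_1 -- L279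
private theorem rz_87f0f32f95 : type_of% @_root_.Crest.Agent.R146.Pc_109.padd.eq_def := @_root_.Crest.Agent.R146.Pc_109.padd.eq_def -- L24
private theorem rz_ac78c4e0f7 : type_of% @_root_.Crest.Agent.R146.Pc_109.padd.eq_1 := @_root_.Crest.Agent.R146.Pc_109.padd.eq_1 -- L24
private theorem rz_70da88819b : type_of% @_root_.Crest.Agent.R146.Pc_109.pder.eq_def := @_root_.Crest.Agent.R146.Pc_109.pder.eq_def -- L40
private theorem rz_7172d634b2 : type_of% @_root_.Crest.Agent.R146.Pc_109.pder.eq_1 := @_root_.Crest.Agent.R146.Pc_109.pder.eq_1 -- L40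
private theorem rz_323ddd5ba4 : type_of% @_root_.Crest.Agent.R146.Pc_109.pmul.eq_def := @_root_.Crest.Agent.R146.Pc_109.pmul.eq_def -- L35
private theorem rz_0df4287895 : type_of% @_root_.Crest.Agent.R146.Pc_109.pmul.eq_1 := @_root_.Crest.Agent.R146.Pc_109.pmul.eq_1 -- L35
private theorem rz_9fed42f9a3 : type_of% @_root_.Crest.Agent.R146.Pc_109.psm.eq_def := @_root_.Crest.Agent.R146.Pc_109.psm.eq_def -- L30
private theorem rz_1569ae58b9 : type_of% @_root_.Crest.Agent.R146.Pc_109.psm.eq_1 := @_root_.Crest.Agent.R146.Pc_109.psm.eq_1 -- L30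
private theorem rz_404242f88a : type_of% @_root_.Crest.Agent.R146.Pc_109.pw.eq_def := @_root_.Crest.Agent.R146.Pc_109.pw.eq_def -- L274
private theorem rz_2c4f4f50fc : type_of% @_root_.Crest.Agent.R146.Pc_109.pw.eq_1 := @_root_.Crest.Agent.R146.Pc_109.pw.eq_1 -- L274
private theorem rz_6f41a8d61e : type_of% @_root_.Crest.Agent.R146.Pc_109.sab.eq_def := @_root_.Crest.Agent.R146.Pc_109.sab.eq_def -- L45
private theorem rz_89d0079d55 : type_of% @_root_.Crest.Agent.R146.Pc_109.sab.eq_1 := @_root_.Crest.Agent.R146.Pc_109.sab.eq_1 -- L45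
private theorem rz_d921136bc0 : type_of% @_root_.Crest.Agent.R146.Pc_109.sh.eq_def := @_root_.Crest.Agent.R146.Pc_109.sh.eq_def -- L55
private theorem rz_7157530cc8 : type_of% @_root_.Crest.Agent.R146.Pc_109.sh.eq_1 := @_root_.Crest.Agent.R146.Pc_109.sh.eq_1 -- L55
end

-- ▼ part R146/Mk_109

/-!
From integer tests on piecewise polynomials to the explicit data of the exclusion theorems
(row 146, numerics certificate).
-/

set_option autoImplicit false

namespace Crest.Agent.R146.Mk_109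

open Filter Topology Set
open Crest.Agent.R146.Slide_109 Crest.Agent.R146.Prof_109 Crest.Agent.R146.Trans_109
open Crest.Agent.R146.Encl_109 Crest.Agent.R146.Pc_109

lemma surj_of_ge {U0 U1 : ℝ → ℝ} {c : ℝ} (hc : 0 < c) (hd : ∀ z, HasDerivAt U0 (U1 z) z)
    (hge : ∀ z, c ≤ U1 z) : Function.Surjective U0 := by
  have hcont : Continuous U0 := continuous_iff_continuousAt.2 fun z => (hd z).continuousAt
  have hmono : Monotone (fun z => U0 z - c * z) :=
    monotone_of_hasDerivAt_nonneg (f' := fun z => U1 z - c * 1)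
      (fun z => (hd z).sub ((hasDerivAt_id z).const_mul c))
      (fun z => by have := hge z; simp only [Pi.zero_apply]; linarith)
  apply hcont.surjective
  · have h1 : Tendsto (fun z : ℝ => c * z + U0 0) atTop atTop :=
      tendsto_atTop_add_const_right _ _ (tendsto_id.const_mul_atTop hc)
    refine tendsto_atTop_mono' _ ?_ h1
    filter_upwards [eventually_ge_atTop 0] with z hz
    have := hmono hz
    simp only [mul_zero, sub_zero] at this
    linarith
  · have h1 : Tendsto (fun z : ℝ => c * z + U0 0) atBot atBot :=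
      tendsto_atBot_add_const_right _ _ (tendsto_id.const_mul_atBot hc)
    refine tendsto_atBot_mono' _ ?_ h1
    filter_upwards [eventually_le_atBot 0] with z hz
    have := hmono hz
    simp only [mul_zero, sub_zero] at this
    linarith

/-- affine jet -/
lemma affine_jet (y c x : ℝ) :
    Jet (fun z => y + c * (z - x)) (fun _ => c) (fun _ => 0) (fun _ => 0) where
  d0 z := by
    have := (((hasDerivAt_id z).sub_const x).const_mul c).const_add y
    simpa using this
  d1 z := hasDerivAt_const z c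
  d2 z := (hasDerivAt_const z (0 : ℝ)).hasDerivWithinAt

lemma affine_jet1 (y c x : ℝ) :
    Jet1 (fun z => y + c * (z - x)) (fun _ => c) (fun _ => 0) where
  d0 := (affine_jet y c x).d0
  d1 z := (hasDerivAt_const z c).hasDerivWithinAt

/-! ### upper side -/

/-- test of one piece, upper side -/
def Pp (Q nA nl D e : ℤ) (p q : List ℤ) : Bool :=
  chk 1 (psm (-1) (resA Q nA D p)) && (chk 1 (resP Q nl D p q) &&
    chk 3 (padd (psm (4 * D) (pder p)) [-(nA * Q + e)]))

lemma Pp_spec {Q nA nl D e : ℤ} (hQ : 0 < Q) (hD : 0 < D) {p q : List ℤ}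
    (h : Pp Q nA nl D e p q = true) {y z : ℝ} (hz : |4 * (z - y) - 1| ≤ 1) :
    (pf Q 3 p y z + pf Q 0 p y z * pf Q 2 p y z -
        (1 - pf Q 1 p y z) * (pf Q 1 p y z - (nA : ℝ) / D) < 0) ∧
    (0 < pf Q 2 q y z + pf Q 0 p y z * pf Q 1 q y z + (nl : ℝ) / D * pf Q 0 q y z) ∧
    ((nA * Q + e : ℝ) / (D * Q) ≤ pf Q 1 p y z) := by
  simp only [Pp, Bool.and_eq_true] at h
  obtain ⟨h1, h2, h3⟩ := h
  have hQr : (0 : ℝ) < Q := by exact_mod_cast hQ
  have hDr : (0 : ℝ) < D := by exact_mod_cast hD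
  have hK : (0 : ℝ) < (Q : ℝ) ^ 2 * D := by positivity
  have e1 := chk_pos _ _ h1 _ hz
  have e2 := chk_pos _ _ h2 _ hz
  have e3 := chk_pos _ _ h3 _ hz
  rw [ev_psm, ev_resA hQ hD] at e1
  rw [ev_resP hQ hD] at e2
  rw [ev_padd, ev_psm] at e3
  refine ⟨?_, ?_, ?_⟩
  · by_contra hcon
    push Not at hcon
    have := mul_nonneg hK.le hcon
    push_cast at e1
    linarith
  · exact (mul_pos_iff_of_pos_left hK).1 e2
  · simp only [ev] at e3
    push_cast at e3
    unfold pf
    rw [div_le_div_iff₀ (by positivity) hQr]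
    simp only [Function.iterate_one, pow_one]
    nlinarith

/-- right outer functions (slope one) -/
noncomputable def Tp (y x : ℝ) : ℕ → ℝ → ℝ
  | 0 => fun z => y + 1 * (z - x)
  | 1 => fun _ => 1
  | _ => fun _ => 0

theorem dataPlus_of {Q nA nl D e N0 M1 NR g gd : ℤ} {n : ℝ} {p q q' : List ℤ}
    {L M : List (List ℤ)}
    (hQ : 0 < Q) (hD : 0 < D) (he : 0 < e) (hnA : 0 < nA)
    (ha : (nA : ℝ) / D = 1 - 2 * n) (hl : (nl : ℝ) / D = 2 * n)
    (hlen : (p :: L).length = (q :: q' :: M).length)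
    (hc3 : chain 3 (p :: L) = true) (hc2 : chain 2 (q :: q' :: M) = true)
    (hall : (List.zipWith (Pp Q nA nl D e) (p :: L) (q :: q' :: M)).all id = true)
    (hp0 : evz (-1) p = N0) (hp1 : evz (-1) (pder p) = M1) (hp2 : evz (-1) (pder (pder p)) = 0)
    (hM1 : nA * Q + e ≤ 4 * M1 * D) (hM1' : 4 * M1 < Q)
    (hr0 : evz 1 (lst p L) = NR) (hr1 : 4 * evz 1 (pder (lst p L)) = Q)
    (hr2 : evz 1 (pder (pder (lst p L))) = 0)
    (hQc : nA * Q + e ≤ D * Q)
    (hq0 : evz (-1) q ≤ 0) (hq1 : 0 < evz (-1) q')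
    (hg0 : evz 1 (lst q (q' :: M)) = g) (hg1 : evz 1 (pder (lst q (q' :: M))) = gd) (hg : g ≤ 0) :
    ∃ U0 U1 U2 U3 f f1 f2 : ℝ → ℝ, DataPlus n U0 U1 U2 U3 f f1 f2 := by
  have hQr : (0 : ℝ) < Q := by exact_mod_cast hQ
  have hDr : (0 : ℝ) < D := by exact_mod_cast hD
  have her : (0 : ℝ) < e := by exact_mod_cast he
  set xn : ℝ := 0 + ((L.length : ℝ) + 1) / 2 with hxn
  set c0 : ℝ := 4 * M1 / Q with hc0
  set cc : ℝ := (nA * Q + e : ℝ) / (D * Q) with hcc
  have hc0' : cc ≤ c0 := by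
    rw [hcc, hc0, div_le_div_iff₀ (by positivity) hQr]
    have : ((nA * Q + e : ℤ) : ℝ) ≤ ((4 * M1 * D : ℤ) : ℝ) := by exact_mod_cast hM1
    push_cast at this
    nlinarith
  have hc01 : c0 < 1 := by
    rw [hc0, div_lt_one hQr]
    exact_mod_cast hM1'
  have hcc1 : cc ≤ 1 := by
    rw [hcc, div_le_one (by positivity)]
    exact_mod_cast hQc
  have hcca : 1 - 2 * n < cc := by
    rw [← ha, hcc, div_lt_div_iff₀ hDr (by positivity)]
    nlinarith [mul_pos her hDr]
  have hcc0 : 0 < cc := by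
    have : (0 : ℝ) < nA := by exact_mod_cast hnA
    rw [hcc]; positivity
  -- the functions
  set W : ℕ → ℝ → ℝ := fun k => pw Q k (Tp (NR / Q) xn k) (p :: L) 0 with hW
  set U0 : ℝ → ℝ := glue 0 (fun z => (N0 : ℝ) / Q + c0 * (z - 0)) (W 0) with hU0
  set U1 : ℝ → ℝ := glue 0 (fun _ => c0) (W 1) with hU1
  set U2 : ℝ → ℝ := glue 0 (fun _ => 0) (W 2) with hU2
  set U3 : ℝ → ℝ := glue 0 (fun _ => 0) (W 3) with hU3
  have hjW : Jet (W 0) (W 1) (W 2) (W 3) := by
    refine pw_jet (T0 := Tp (NR / Q) xn 0) (T1 := Tp (NR / Q) xn 1) (T2 := Tp (NR / Q) xn 2)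
      (T3 := Tp (NR / Q) xn 3) (affine_jet (NR / Q) 1 xn) L p 0 hc3 ?_ ?_ ?_
    · simp only [Function.iterate_zero, id, pow_zero, one_mul, hr0, Tp]
      rw [← hxn]; ring
    · simp only [Function.iterate_one, Tp]
      have : ((4 * evz 1 (pder (lst p L)) : ℤ) : ℝ) = Q := by exact_mod_cast hr1
      push_cast at this
      rw [pow_one, this, div_self hQr.ne']
    · have e2 : pder^[2] (lst p L) = pder (pder (lst p L)) := rfl
      simp only [Tp]
      rw [e2, hr2]
      simp
  have hjet : Jet U0 U1 U2 U3 := by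
    refine glue_jet (affine_jet ((N0 : ℝ) / Q) c0 0) hjW ?_ ?_ ?_
    · simp only [hW]
      rw [pw_at]
      simp only [Function.iterate_zero, id, pow_zero, hp0]
      ring
    · simp only [hW]
      rw [pw_at]
      simp only [Function.iterate_one, hp1, pow_one, hc0]
    · simp only [hW]
      rw [pw_at]
      have e2 : pder^[2] p = pder (pder p) := rfl
      rw [e2, hp2]
      simp
  -- local description
  have hloc : ∀ z, 0 ≤ z → z < xn → ∃ p1 q1 : List ℤ, ∃ y : ℝ,
      Pp Q nA nl D e p1 q1 = true ∧ |4 * (z - y) - 1| ≤ 1 ∧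
      (∀ (k : ℕ) (T : ℝ → ℝ), pw Q k T (p :: L) 0 z = pf Q k p1 y z) ∧
      (∀ (k : ℕ) (T : ℝ → ℝ), pw Q k T (q :: q' :: M) 0 z = pf Q k q1 y z) := by
    intro z h1 h2
    refine pw_local Q (p :: L) (q :: q' :: M) 0 z hlen hall h1 ?_
    simpa [hxn] using h2
  have hge : ∀ z, xn ≤ z → ∀ k T, pw Q k T (p :: L) 0 z = T z := by
    intro z hz k T
    apply pw_ge
    simpa [hxn] using hz
  have hxn0 : 0 < xn := by
    rw [hxn]; positivity
  have hlow : ∀ z, cc ≤ U1 z := by
    intro z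
    rcases lt_or_ge z 0 with h0 | h0
    · simp only [hU1]; rw [glue_lt _ _ h0]; exact hc0'
    · rcases lt_or_ge z xn with h1 | h1
      · obtain ⟨p1, q1, y, e1, e2, e3, e4⟩ := hloc z h0 h1
        simp only [hU1, hW]
        rw [glue_ge _ _ h0, e3]
        exact (Pp_spec hQ hD e1 e2).2.2
      · simp only [hU1, hW]
        rw [glue_ge _ _ h0, hge z h1]
        exact hcc1
  set f : ℕ → ℝ → ℝ := fun k => pw Q k
    (match k with
      | 0 => fun z => (g : ℝ) / Q + (4 * gd / Q) * (z - xn)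
      | 1 => fun _ => (4 * gd / Q : ℝ)
      | _ => fun _ => 0) (q :: q' :: M) 0 with hf
  have hlen' : (M.length : ℝ) + 1 = L.length := by
    simp only [List.length_cons] at hlen
    have : M.length + 1 = L.length := by omega
    exact_mod_cast this
  have hjf : Jet1 (f 0) (f 1) (f 2) := by
    refine pw_jet1 (affine_jet1 ((g : ℝ) / Q) (4 * gd / Q) xn) (q' :: M) q 0 hc2 ?_ ?_
    · simp only [Function.iterate_zero, id, pow_zero, one_mul, hg0]
      have : (0 : ℝ) + (((q' :: M).length : ℝ) + 1) / 2 = xn := by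
        rw [hxn]; simp only [List.length_cons]; push_cast; rw [hlen']
      rw [this]; ring
    · simp only [Function.iterate_one, hg1, pow_one]
  refine ⟨U0, U1, U2, U3, f 0, f 1, f 2, hjet, surj_of_ge hcc0 hjet.d0 hlow,
    fun z => lt_of_lt_of_le hcc0 (hlow z), ⟨cc, hcca, hlow⟩, ⟨xn, ?_, ?_⟩, hjf.d0, hjf.d1,
    ⟨0, xn, ?_, ?_, ⟨1 / 2, by norm_num, ?_, ?_⟩, ?_⟩⟩
  · intro z hz
    simp only [hU1, hW]
    rw [glue_ge _ _ (hxn0.le.trans hz), hge z hz]
    exact le_refl _
  · intro z hz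
    rcases lt_or_ge z 0 with h0 | h0
    · simp only [hU0, hU1, hU2, hU3]
      rw [glue_lt _ _ h0, glue_lt _ _ h0, glue_lt _ _ h0, glue_lt _ _ h0]
      have h1 : 0 < (1 - c0) * (c0 - (1 - 2 * n)) := mul_pos (by linarith) (by linarith)
      simp only [mul_zero, add_zero, zero_sub]
      linarith
    · obtain ⟨p1, q1, y, e1, e2, e3, e4⟩ := hloc z h0 hz
      simp only [hU0, hU1, hU2, hU3, hW]
      rw [glue_ge _ _ h0, glue_ge _ _ h0, glue_ge _ _ h0, glue_ge _ _ h0, e3, e3, e3, e3, ← ha]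
      exact (Pp_spec hQ hD e1 e2).1
  · simp only [hf]
    rw [pw_at]
    simp only [Function.iterate_zero, id, pow_zero, one_mul]
    apply div_nonpos_of_nonpos_of_nonneg _ hQr.le
    exact_mod_cast hq0
  · simp only [hf]
    rw [pw_ge]
    · simp only [sub_self, mul_zero, add_zero]
      apply div_nonpos_of_nonpos_of_nonneg _ hQr.le
      exact_mod_cast hg
    · simp only [List.length_cons, hxn]
      push_cast
      rw [← hlen']
  · rw [hxn, ← hlen']
    have : (0 : ℝ) ≤ M.length := by positivity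
    linarith
  · simp only [hf]
    rw [pw, glue_ge _ _ (by norm_num)]
    rw [zero_add, pw_at]
    simp only [Function.iterate_zero, id, pow_zero, one_mul]
    apply div_pos _ hQr
    exact_mod_cast hq1
  · intro z h0 h1
    obtain ⟨p1, q1, y, e1, e2, e3, e4⟩ := hloc z h0 h1
    simp only [hU0, hW, hf]
    rw [glue_ge _ _ h0, e3, e4, e4, e4, ← hl]
    exact (Pp_spec hQ hD e1 e2).2.1

/-! ### lower side -/

/-- test of one piece, lower side -/
def Pm (Q nA nl D : ℤ) (p q : List ℤ) : Bool :=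
  chk 1 (resA Q nA D p) && (chk 1 (psm (-1) (resP Q nl D p q)) &&
    (chk 3 (padd (psm 16 (pder p)) [-Q]) && (chk 3 (padd [Q] (psm (-4) (pder p))) &&
      chk 3 q)))

lemma Pm_spec {Q nA nl D : ℤ} (hQ : 0 < Q) (hD : 0 < D) {p q : List ℤ}
    (h : Pm Q nA nl D p q = true) {y z : ℝ} (hz : |4 * (z - y) - 1| ≤ 1) :
    (0 < pf Q 3 p y z + pf Q 0 p y z * pf Q 2 p y z -
        (1 - pf Q 1 p y z) * (pf Q 1 p y z - (nA : ℝ) / D)) ∧
    (pf Q 2 q y z + pf Q 0 p y z * pf Q 1 q y z + (nl : ℝ) / D * pf Q 0 q y z < 0) ∧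
    (1 / 4 < pf Q 1 p y z) ∧ (pf Q 1 p y z < 1) ∧ 0 < pf Q 0 q y z := by
  simp only [Pm, Bool.and_eq_true] at h
  obtain ⟨h1, h2, h3, h4, h5⟩ := h
  have hQr : (0 : ℝ) < Q := by exact_mod_cast hQ
  have hDr : (0 : ℝ) < D := by exact_mod_cast hD
  have hK : (0 : ℝ) < (Q : ℝ) ^ 2 * D := by positivity
  have e1 := chk_pos _ _ h1 _ hz
  have e2 := chk_pos _ _ h2 _ hz
  have e3 := chk_pos _ _ h3 _ hz
  have e4 := chk_pos _ _ h4 _ hz
  have e5 := chk_pos _ _ h5 _ hz
  rw [ev_resA hQ hD] at e1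
  rw [ev_psm, ev_resP hQ hD] at e2
  rw [ev_padd, ev_psm] at e3
  rw [ev_padd, ev_psm] at e4
  refine ⟨?_, ?_, ?_, ?_, ?_⟩
  · exact (mul_pos_iff_of_pos_left hK).1 e1
  · by_contra hcon
    push Not at hcon
    have := mul_nonneg hK.le hcon
    push_cast at e2
    linarith
  · simp only [ev] at e3
    push_cast at e3
    unfold pf
    rw [lt_div_iff₀ hQr]
    simp only [Function.iterate_one, pow_one]
    linarith
  · simp only [ev] at e4
    push_cast at e4
    unfold pf
    rw [div_lt_iff₀ hQr]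
    simp only [Function.iterate_one, pow_one]
    linarith
  · unfold pf
    simp only [Function.iterate_zero, id, pow_zero, one_mul]
    exact div_pos e5 hQr

/-- exponentials with all their derivatives -/
noncomputable def ex (C k x : ℝ) (m : ℕ) (z : ℝ) : ℝ := C * k ^ m * Real.exp (k * (z - x))

lemma ex_deriv (C k x : ℝ) (m : ℕ) (z : ℝ) :
    HasDerivAt (ex C k x m) (ex C k x (m + 1) z) z := by
  unfold ex
  have h1 : HasDerivAt (fun z : ℝ => k * (z - x)) (k * 1) z :=
    ((hasDerivAt_id z).sub_const x).const_mul k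
  have h2 := h1.exp.const_mul (C * k ^ m)
  refine h2.congr_deriv ?_
  rw [pow_succ]; ring

lemma ex_at (C k x : ℝ) (m : ℕ) : ex C k x m x = C * k ^ m := by
  simp [ex]

set_option maxHeartbeats 2000000 in
theorem dataMinus_of {Q nA nl D N0 M1 AR A1 A2 g0 g gd KL : ℤ} {n : ℝ} {p q : List ℤ}
    {L M : List (List ℤ)}
    (hQ : 0 < Q) (hD : 0 < D) (hn : 0 < 2 * n) (hn1 : 2 * n < 3 / 4)
    (ha : (nA : ℝ) / D = 1 - 2 * n) (hl : (nl : ℝ) / D = 2 * n)
    (hlen : (p :: L).length = (q :: M).length)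
    (hc3 : chain 3 (p :: L) = true) (hc2 : chain 2 (q :: M) = true)
    (hall : (List.zipWith (Pm Q nA nl D) (p :: L) (q :: M)).all id = true)
    (hp0 : evz (-1) p = N0) (hp1 : evz (-1) (pder p) = M1) (hp2 : evz (-1) (pder (pder p)) = 0)
    (hM1 : 4 * M1 * D < nA * Q) (hM1' : Q < 16 * M1)
    (hr0 : evz 1 (lst p L) = AR) (hr1 : evz 1 (pder (lst p L)) = A1)
    (hr2 : evz 1 (pder (pder (lst p L))) = A2)
    -- right tail of the profile: `P = 1 - 4 A1 / Q`, `K = (16 A2 / Q) / P`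
    (hA1 : 4 * A1 < Q) (hA1' : Q < 16 * A1) (hA2 : 0 < A2)
    (hres : ((16 * A2 / (Q - 4 * A1) : ℝ) ^ 2 + 1 <
      (16 * A2 / (Q - 4 * A1) : ℝ) * ((AR : ℝ) / Q)))
    -- test function
    (hq0 : evz (-1) q = g0) (hq1 : 4 * evz (-1) (pder q) = KL * g0) (hg0 : 0 < g0)
    (hKL : 0 < KL) (hKLr : ((KL : ℝ) ^ 2 + KL * ((N0 : ℝ) / Q) + 1 < 0))
    (hh0 : evz 1 (lst q M) = g) (hh1 : evz 1 (pder (lst q M)) = gd) (hg : 0 < g) (hgd : gd < 0)
    (hKR : ((4 * gd / g : ℝ) ^ 2 + (4 * gd / g : ℝ) * ((AR : ℝ) / Q) + 2 * n < 0)) :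
    ∃ S0 S1 S2 S3 f f1 f2 : ℝ → ℝ, DataMinus n S0 S1 S2 S3 f f1 f2 := by
  have hQr : (0 : ℝ) < Q := by exact_mod_cast hQ
  have hDr : (0 : ℝ) < D := by exact_mod_cast hD
  set xn : ℝ := 0 + ((L.length : ℝ) + 1) / 2 with hxn
  set c0 : ℝ := 4 * M1 / Q with hc0
  set P : ℝ := 1 - 4 * A1 / Q with hP
  set K : ℝ := 16 * A2 / (Q - 4 * A1) with hK
  set B : ℝ := (AR : ℝ) / Q with hB
  have hQA : (0 : ℝ) < Q - 4 * A1 := by
    have : (4 * A1 : ℝ) < Q := by exact_mod_cast hA1
    linarith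
  have hP0 : 0 < P := by
    have : P = (Q - 4 * A1) / Q := by rw [hP]; field_simp
    rw [this]; positivity
  have hP1 : P < 3 / 4 := by
    have h1 : (Q : ℝ) < 16 * A1 := by exact_mod_cast hA1'
    have : 1 / 4 < 4 * (A1 : ℝ) / Q := by rw [lt_div_iff₀ hQr]; linarith
    rw [hP]; linarith
  have hA2r : (0 : ℝ) < A2 := by exact_mod_cast hA2
  have hK0 : 0 < K := by rw [hK]; positivity
  have hKP : K * P = 16 * A2 / Q := by
    rw [hK, hP]; field_simp
  have hB0 : 0 < B := by
    by_contra hcon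
    push Not at hcon
    nlinarith [mul_nonneg hK0.le (neg_nonneg.2 hcon), sq_nonneg K]
  have hc0a : c0 < 1 - 2 * n := by
    rw [← ha, hc0, div_lt_div_iff₀ hQr hDr]
    have : ((4 * M1 * D : ℤ) : ℝ) < ((nA * Q : ℤ) : ℝ) := by exact_mod_cast hM1
    push_cast at this
    linarith
  have hc04 : 1 / 4 < c0 := by
    rw [hc0, lt_div_iff₀ hQr]
    have : (Q : ℝ) < 16 * M1 := by exact_mod_cast hM1'
    linarith
  -- outer functions
  set T : ℕ → ℝ → ℝ := fun k =>
    match k with
    | 0 => fun z => (B - P / K) + 1 * (z - xn) + ex (P / K) (-K) xn 0 z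
    | 1 => fun z => 1 + ex (P / K) (-K) xn 1 z
    | 2 => fun z => ex (P / K) (-K) xn 2 z
    | _ => fun z => ex (P / K) (-K) xn 3 z with hT
  have hjT : Jet (T 0) (T 1) (T 2) (T 3) := by
    refine ⟨fun z => ?_, fun z => ?_, fun z => ?_⟩
    · exact ((affine_jet (B - P / K) 1 xn).d0 z).add (ex_deriv (P / K) (-K) xn 0 z)
    · exact (ex_deriv (P / K) (-K) xn 1 z).const_add 1
    · exact (ex_deriv (P / K) (-K) xn 2 z).hasDerivWithinAt
  set W : ℕ → ℝ → ℝ := fun k => pw Q k (T k) (p :: L) 0 with hW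
  set S0 : ℝ → ℝ := glue 0 (fun z => (N0 : ℝ) / Q + c0 * (z - 0)) (W 0) with hS0
  set S1 : ℝ → ℝ := glue 0 (fun _ => c0) (W 1) with hS1
  set S2 : ℝ → ℝ := glue 0 (fun _ => 0) (W 2) with hS2
  set S3 : ℝ → ℝ := glue 0 (fun _ => 0) (W 3) with hS3
  have hjW : Jet (W 0) (W 1) (W 2) (W 3) := by
    refine pw_jet (T0 := T 0) (T1 := T 1) (T2 := T 2) (T3 := T 3) hjT L p 0 hc3 ?_ ?_ ?_
    · simp only [Function.iterate_zero, id, pow_zero, one_mul, hr0, hT]
      rw [← hxn, ex_at, hB]; ring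
    · simp only [Function.iterate_one, hT, hr1]
      rw [← hxn, ex_at, hP]
      have : (P / K) * (-K) ^ 1 = -P := by field_simp
      rw [← hP, this, hP]; ring
    · have e2 : pder^[2] (lst p L) = pder (pder (lst p L)) := rfl
      simp only [hT]
      rw [e2, hr2, ← hxn, ex_at]
      have : (P / K) * (-K) ^ 2 = K * P := by field_simp
      rw [this, hKP]; ring
  have hjet : Jet S0 S1 S2 S3 := by
    refine glue_jet (affine_jet ((N0 : ℝ) / Q) c0 0) hjW ?_ ?_ ?_
    · simp only [hW]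
      rw [pw_at]
      simp only [Function.iterate_zero, id, pow_zero, hp0]
      ring
    · simp only [hW]
      rw [pw_at]
      simp only [Function.iterate_one, hp1, pow_one, hc0]
    · simp only [hW]
      rw [pw_at]
      have e2 : pder^[2] p = pder (pder p) := rfl
      rw [e2, hp2]
      simp
  have hloc : ∀ z, 0 ≤ z → z < xn → ∃ p1 q1 : List ℤ, ∃ y : ℝ,
      Pm Q nA nl D p1 q1 = true ∧ |4 * (z - y) - 1| ≤ 1 ∧
      (∀ (k : ℕ) (T : ℝ → ℝ), pw Q k T (p :: L) 0 z = pf Q k p1 y z) ∧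
      (∀ (k : ℕ) (T : ℝ → ℝ), pw Q k T (q :: M) 0 z = pf Q k q1 y z) := by
    intro z h1 h2
    refine pw_local Q (p :: L) (q :: M) 0 z hlen hall h1 ?_
    simpa [hxn] using h2
  have hge : ∀ z, xn ≤ z → ∀ k T, pw Q k T (p :: L) 0 z = T z := by
    intro z hz k T
    apply pw_ge
    simpa [hxn] using hz
  have hlen' : (M.length : ℝ) = L.length := by
    simp only [List.length_cons] at hlen
    have : M.length = L.length := by omega
    exact_mod_cast this
  have hge' : ∀ z, xn ≤ z → ∀ k T, pw Q k T (q :: M) 0 z = T z := by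
    intro z hz k T
    apply pw_ge
    simpa [hxn, hlen'] using hz
  have hxn0 : 0 < xn := by
    rw [hxn]; positivity
  have hexp : ∀ z, xn ≤ z → 0 < Real.exp (-K * (z - xn)) ∧ Real.exp (-K * (z - xn)) ≤ 1 := by
    intro z hz
    refine ⟨Real.exp_pos _, Real.exp_le_one_iff.2 ?_⟩
    nlinarith [mul_nonneg hK0.le (sub_nonneg.2 hz)]
  have hT1 : ∀ z, T 1 z = 1 - P * Real.exp (-K * (z - xn)) := by
    intro z
    simp only [hT, ex]
    have : P / K * (-K) ^ 1 = -P := by field_simp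
    rw [this]; ring
  have hT2 : ∀ z, T 2 z = K * P * Real.exp (-K * (z - xn)) := by
    intro z
    simp only [hT, ex]
    have : P / K * (-K) ^ 2 = K * P := by field_simp
    rw [this]
  have hT3 : ∀ z, T 3 z = -(K ^ 2 * P * Real.exp (-K * (z - xn))) := by
    intro z
    simp only [hT, ex]
    have : P / K * (-K) ^ 3 = -(K ^ 2 * P) := by field_simp
    rw [this]; ring
  have hT0 : ∀ z, xn ≤ z → B ≤ T 0 z ∧ z - xn + B - P / K ≤ T 0 z := by
    intro z hz
    have h2 : 0 ≤ z - xn := by linarith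
    have h3 := (hexp z hz).1
    simp only [hT, ex, pow_zero, mul_one, one_mul]
    constructor
    · -- 1 - exp(-K t) ≤ K t
      have h1 := Real.add_one_le_exp (-K * (z - xn))
      have h4 : P / K * (1 - Real.exp (-K * (z - xn))) ≤ P / K * (K * (z - xn)) := by
        apply mul_le_mul_of_nonneg_left _ (by positivity)
        linarith
      have h5 : P / K * (K * (z - xn)) = P * (z - xn) := by field_simp
      rw [h5] at h4
      nlinarith [mul_nonneg (by linarith : (0 : ℝ) ≤ 1 - P) h2]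
    · have : 0 ≤ P / K * Real.exp (-K * (z - xn)) := by positivity
      linarith
  have hlow : ∀ z, 1 / 4 ≤ S1 z := by
    intro z
    rcases lt_or_ge z 0 with h0 | h0
    · simp only [hS1]; rw [glue_lt _ _ h0]; exact hc04.le
    · rcases lt_or_ge z xn with h1 | h1
      · obtain ⟨p1, q1, y, e1, e2, e3, e4⟩ := hloc z h0 h1
        simp only [hS1, hW]
        rw [glue_ge _ _ h0, e3]
        exact (Pm_spec hQ hD e1 e2).2.2.1.le
      · simp only [hS1, hW]
        rw [glue_ge _ _ h0, hge z h1, hT1]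
        have := hexp z h1
        nlinarith [mul_nonneg hP0.le (sub_nonneg.2 this.2)]
  have hupp : ∀ z, S1 z < 1 := by
    intro z
    rcases lt_or_ge z 0 with h0 | h0
    · simp only [hS1]; rw [glue_lt _ _ h0]; linarith
    · rcases lt_or_ge z xn with h1 | h1
      · obtain ⟨p1, q1, y, e1, e2, e3, e4⟩ := hloc z h0 h1
        simp only [hS1, hW]
        rw [glue_ge _ _ h0, e3]
        exact (Pm_spec hQ hD e1 e2).2.2.2.1
      · simp only [hS1, hW]
        rw [glue_ge _ _ h0, hge z h1, hT1]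
        have := mul_pos hP0 (hexp z h1).1
        linarith
  -- test function
  have hgr : (0 : ℝ) < g := by exact_mod_cast hg
  have hg0r : (0 : ℝ) < g0 := by exact_mod_cast hg0
  have hgdr : (gd : ℝ) < 0 := by exact_mod_cast hgd
  have hKLr0 : (0 : ℝ) < KL := by exact_mod_cast hKL
  set k : ℝ := 4 * gd / g with hk
  have hk0 : k < 0 := by
    rw [hk]; exact div_neg_of_neg_of_pos (by linarith) hgr
  set Wf : ℕ → ℝ → ℝ := fun m => pw Q m (ex ((g : ℝ) / Q) k xn m) (q :: M) 0 with hWf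
  set f : ℕ → ℝ → ℝ := fun m => glue 0 (ex ((g0 : ℝ) / Q) KL 0 m) (Wf m) with hf
  have hjWf : Jet1 (Wf 0) (Wf 1) (Wf 2) := by
    refine pw_jet1 (T0 := ex ((g : ℝ) / Q) k xn 0) (T1 := ex ((g : ℝ) / Q) k xn 1)
      (T2 := ex ((g : ℝ) / Q) k xn 2)
      ⟨ex_deriv _ _ _ 0, fun z => (ex_deriv _ _ _ 1 z).hasDerivWithinAt⟩ M q 0 hc2 ?_ ?_
    · rw [hlen', ← hxn, ex_at]
      simp only [Function.iterate_zero, id, pow_zero, one_mul, mul_one, hh0]
    · rw [hlen', ← hxn, ex_at]
      simp only [Function.iterate_one, pow_one, hh1, hk]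
      field_simp
  have hjf : Jet1 (f 0) (f 1) (f 2) := by
    refine glue_jet1 ⟨ex_deriv _ _ _ 0, fun z => (ex_deriv _ _ _ 1 z).hasDerivWithinAt⟩ hjWf ?_ ?_
    · simp only [hWf]
      rw [pw_at, ex_at]
      simp only [Function.iterate_zero, id, pow_zero, one_mul, mul_one, hq0]
    · simp only [hWf]
      rw [pw_at, ex_at]
      simp only [Function.iterate_one, pow_one]
      have : ((4 * evz (-1) (pder q) : ℤ) : ℝ) = ((KL * g0 : ℤ) : ℝ) := by exact_mod_cast hq1
      push_cast at this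
      rw [this]; ring
  have hfcont : Continuous (f 0) :=
    continuous_iff_continuousAt.2 fun z => (hjf.d0 z).continuousAt
  have hfpos : ∀ z, 0 < f 0 z := by
    intro z
    rcases lt_or_ge z 0 with h0 | h0
    · simp only [hf]; rw [glue_lt _ _ h0]; unfold ex; positivity
    · rcases lt_or_ge z xn with h1 | h1
      · obtain ⟨p1, q1, y, e1, e2, e3, e4⟩ := hloc z h0 h1
        simp only [hf, hWf]
        rw [glue_ge _ _ h0, e4]
        exact (Pm_spec hQ hD e1 e2).2.2.2.2
      · simp only [hf, hWf]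
        rw [glue_ge _ _ h0, hge' z h1]; unfold ex; positivity
  obtain ⟨μx, -, hμ⟩ := isCompact_Icc.exists_isMinOn
    (⟨0, le_refl _, hxn0.le⟩ : (Icc (0 : ℝ) xn).Nonempty) hfcont.continuousOn
  have hμpos := hfpos μx
  obtain ⟨mn, hmn0, hmn1, hmn2, hmn3⟩ : ∃ mn : ℝ, 0 < mn ∧ mn ≤ f 0 μx ∧
      mn ≤ (g0 : ℝ) / Q ∧ mn ≤ (g : ℝ) / Q :=
    ⟨min (f 0 μx) (min ((g0 : ℝ) / Q) ((g : ℝ) / Q)),
      lt_min hμpos (lt_min (by positivity) (by positivity)), min_le_left _ _,
      (min_le_right _ _).trans (min_le_left _ _), (min_le_right _ _).trans (min_le_right _ _)⟩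
  refine ⟨S0, S1, S2, S3, f 0, f 1, f 2, hjet, surj_of_ge (by norm_num : (0 : ℝ) < 1 / 4)
    hjet.d0 hlow, fun z => lt_of_lt_of_le (by norm_num) (hlow z), ⟨c0, -1, hc0a, ?_⟩, hupp,
    ⟨xn, P * Real.exp (K * xn), K, xn - B + P / K, by positivity, ?_⟩, ?_, hjf.d0, hjf.d1,
    ⟨mn, max (KL : ℝ) (-k), hmn0, ?_, ?_⟩, ?_⟩
  · intro z hz
    have h0 : z < 0 := by linarith
    simp only [hS1]; rw [glue_lt _ _ h0]
  · intro z hz
    have h0 : 0 ≤ z := hxn0.le.trans hz
    constructor
    · simp only [hS1, hW]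
      rw [glue_ge _ _ h0, hge z hz, hT1, mul_assoc, ← Real.exp_add]
      have : K * xn + -(K * z) = -K * (z - xn) := by ring
      rw [this]; linarith
    · simp only [hS0, hW]
      rw [glue_ge _ _ h0, hge z hz]
      have := (hT0 z hz).2
      linarith
  · intro z
    rcases lt_or_ge z 0 with h0 | h0
    · simp only [hS0, hS1, hS2, hS3]
      rw [glue_lt _ _ h0, glue_lt _ _ h0, glue_lt _ _ h0, glue_lt _ _ h0]
      have h1 : (1 - c0) * (c0 - (1 - 2 * n)) < 0 :=
        mul_neg_of_pos_of_neg (by linarith) (by linarith)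
      simp only [mul_zero, add_zero, zero_sub]
      linarith
    · rcases lt_or_ge z xn with h1 | h1
      · obtain ⟨p1, q1, y, e1, e2, e3, e4⟩ := hloc z h0 h1
        simp only [hS0, hS1, hS2, hS3, hW]
        rw [glue_ge _ _ h0, glue_ge _ _ h0, glue_ge _ _ h0, glue_ge _ _ h0, e3, e3, e3, e3, ← ha]
        exact (Pm_spec hQ hD e1 e2).1
      · simp only [hS0, hS1, hS2, hS3, hW]
        rw [glue_ge _ _ h0, glue_ge _ _ h0, glue_ge _ _ h0, glue_ge _ _ h0, hge z h1, hge z h1,
          hge z h1, hge z h1, hT1, hT2, hT3]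
        have h2 := (hT0 z h1).1
        have h3 := hexp z h1
        set E := Real.exp (-K * (z - xn)) with hE
        have h4 : -(K ^ 2 * P * E) + T 0 z * (K * P * E) -
            (1 - (1 - P * E)) * (1 - P * E - (1 - 2 * n)) =
            P * E * (K * T 0 z - K ^ 2 - 2 * n + P * E) := by ring
        rw [h4]
        apply mul_pos (mul_pos hP0 h3.1)
        have h5 : K * B ≤ K * T 0 z := mul_le_mul_of_nonneg_left h2 hK0.le
        have h6 := mul_pos hP0 h3.1
        linarith
  · exact le_max_of_le_left hKLr0.le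
  · intro z
    have hm0 : 0 ≤ max (KL : ℝ) (-k) := le_max_of_le_left hKLr0.le
    rcases lt_or_ge z 0 with h0 | h0
    · simp only [hf]; rw [glue_lt _ _ h0]
      unfold ex
      rw [pow_zero, mul_one, sub_zero, abs_of_neg h0]
      apply mul_le_mul hmn2 _ (Real.exp_pos _).le (by positivity)
      apply Real.exp_le_exp.2
      have : (KL : ℝ) * (-z) ≤ max (KL : ℝ) (-k) * (-z) :=
        mul_le_mul_of_nonneg_right (le_max_left _ _) (by linarith)
      linarith
    · rcases lt_or_ge z xn with h1 | h1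
      · have h2 : f 0 μx ≤ f 0 z := hμ ⟨h0, h1.le⟩
        refine le_trans ?_ h2
        calc _ ≤ f 0 μx * 1 := by
              apply mul_le_mul hmn1 _ (Real.exp_pos _).le hμpos.le
              apply Real.exp_le_one_iff.2
              have := mul_nonneg hm0 (abs_nonneg z)
              linarith
          _ = _ := mul_one _
      · simp only [hf, hWf]
        rw [glue_ge _ _ h0, hge' z h1]
        unfold ex
        rw [pow_zero, mul_one, abs_of_nonneg h0]
        apply mul_le_mul hmn3 _ (Real.exp_pos _).le (by positivity)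
        apply Real.exp_le_exp.2
        have e1 : -k * z ≤ max (KL : ℝ) (-k) * z :=
          mul_le_mul_of_nonneg_right (le_max_right _ _) h0
        have e2 : 0 ≤ -k * xn := mul_nonneg (by linarith) hxn0.le
        nlinarith
  · intro z
    rcases lt_or_ge z 0 with h0 | h0
    · simp only [hS0, hf]
      rw [glue_lt _ _ h0, glue_lt _ _ h0, glue_lt _ _ h0, glue_lt _ _ h0]
      unfold ex
      have h1 : (g0 : ℝ) / Q * KL ^ 2 * Real.exp (KL * (z - 0)) +
          ((N0 : ℝ) / Q + c0 * (z - 0)) * ((g0 : ℝ) / Q * KL ^ 1 * Real.exp (KL * (z - 0))) +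
          2 * n * ((g0 : ℝ) / Q * KL ^ 0 * Real.exp (KL * (z - 0))) =
          ((g0 : ℝ) / Q * Real.exp (KL * (z - 0))) *
            (KL ^ 2 + KL * ((N0 : ℝ) / Q) + KL * (c0 * z) + 2 * n) := by ring
      rw [h1]
      apply mul_neg_of_pos_of_neg (by positivity)
      have h2 : KL * (c0 * z) ≤ 0 :=
        mul_nonpos_of_nonneg_of_nonpos hKLr0.le
          (mul_nonpos_of_nonneg_of_nonpos (by linarith) h0.le)
      linarith
    · rcases lt_or_ge z xn with h1 | h1
      · obtain ⟨p1, q1, y, e1, e2, e3, e4⟩ := hloc z h0 h1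
        simp only [hS0, hW, hf, hWf]
        rw [glue_ge _ _ h0, glue_ge _ _ h0, glue_ge _ _ h0, glue_ge _ _ h0, e3, e4, e4, e4, ← hl]
        exact (Pm_spec hQ hD e1 e2).2.1
      · simp only [hS0, hW, hf, hWf]
        rw [glue_ge _ _ h0, glue_ge _ _ h0, glue_ge _ _ h0, glue_ge _ _ h0, hge z h1, hge' z h1,
          hge' z h1, hge' z h1]
        have h2 := (hT0 z h1).1
        unfold ex
        have h3 : (g : ℝ) / Q * k ^ 2 * Real.exp (k * (z - xn)) +
            T 0 z * ((g : ℝ) / Q * k ^ 1 * Real.exp (k * (z - xn))) +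
            2 * n * ((g : ℝ) / Q * k ^ 0 * Real.exp (k * (z - xn))) =
            ((g : ℝ) / Q * Real.exp (k * (z - xn))) * (k ^ 2 + k * T 0 z + 2 * n) := by ring
        rw [h3]
        apply mul_neg_of_pos_of_neg (by positivity)
        have h4 : k * T 0 z ≤ k * B := mul_le_mul_of_nonpos_left h2 hk0.le
        linarith

end Crest.Agent.R146.Mk_109
private theorem rz_c77d977e9a : type_of% @_root_.Crest.Agent.R146.Mk_109.Tp.eq_1 := @_root_.Crest.Agent.R146.Mk_109.Tp.eq_1 -- L94
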