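import Crest.Agent.R141.HierM
import Crest.Agent.R146.SysA_52
import Crest.Agent.R146.U0_762
import Crest.Agent.R146.PLim_857
import Crest.Agent.R146.Sph2_409

-- ▼ part R146/NewcA_857
section

/-!
# Row 146 (helper857), node NEWC, part A: abstract lemmas on the hierarchical functional

* `A_half_le` : convexity of `A` at the midpoint;
* `A_collapse_step` : `A_k (A_{k0} U) = A_k U` for `k ≤ k0`;
* `cE_proj_equiv`, `A_proj_equiv` : projection along `Ω ≃ Ωc × Ωb` with product weights and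
  product partitions.
-/

set_option autoImplicit false

namespace Crest.Agent.R146.Newc857

open Finset Crest.Agent.R141

noncomputable section

variable {Ω : Type*} [Fintype Ω] {P : Ω → ℝ} {𝓕 : Filt Ω} {x : ℕ → ℝ}

theorem pm_half_le (hP : IsProb P) (r : Setoid Ω) {y : ℝ} (hy : 0 < y) (f g : Ω → ℝ) (ω : Ω) :
    pm P r y (fun a => (f a + g a) / 2) ω ≤ (pm P r y f ω + pm P r y g ω) / 2 := by
  have h1 := cE_mul_sq_le hP r (fun a => Real.exp (y * f a / 2)) (fun a => Real.exp (y * g a / 2)) ω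
  have e1 : ∀ u : Ω → ℝ, (fun a => Real.exp (y * u a / 2) ^ 2) = fun a => Real.exp (y * u a) := by
    intro u; funext a
    rw [← Real.exp_nat_mul]; congr 1; push_cast; ring
  have e2 : (fun a => Real.exp (y * f a / 2) * Real.exp (y * g a / 2)) =
      fun a => Real.exp (y * ((f a + g a) / 2)) := by
    funext a; rw [← Real.exp_add]; congr 1; ring
  rw [e1, e1, e2] at h1
  have p1 : 0 < cE P r (fun a => Real.exp (y * f a)) ω := cE_pos hP (fun _ => Real.exp_pos _) ω
  have p2 : 0 < cE P r (fun a => Real.exp (y * g a)) ω := cE_pos hP (fun _ => Real.exp_pos _) ω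
  have p3 : 0 < cE P r (fun a => Real.exp (y * ((f a + g a) / 2))) ω :=
    cE_pos hP (fun _ => Real.exp_pos _) ω
  have h2 := Real.log_le_log (by positivity) h1
  rw [Real.log_pow, Real.log_mul p1.ne' p2.ne'] at h2
  unfold pm
  push_cast at h2
  have hy' : 0 < 1 / y := by positivity
  nlinarith

/-- midpoint convexity -/
theorem A_half_le (hP : IsProb P) (hx : ∀ k, 0 < x k) (U V : Ω → ℝ) (k : ℕ) :
    ∀ ω, A P 𝓕 x (fun w => (U w + V w) / 2) k ω ≤ (A P 𝓕 x U k ω + A P 𝓕 x V k ω) / 2 := by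
  refine back_induction 𝓕 (Q := fun k => ∀ ω, A P 𝓕 x (fun w => (U w + V w) / 2) k ω ≤
    (A P 𝓕 x U k ω + A P 𝓕 x V k ω) / 2) ?_ ?_ k
  · intro k hk ω; rw [A_of_ge _ hk, A_of_ge _ hk, A_of_ge _ hk]
  · intro k ih ω
    rw [A_step hP hx _ k, A_step hP hx U k, A_step hP hx V k]
    exact (pm_mono hP (hx _) ω fun a _ => ih a).trans (pm_half_le hP _ (hx _) _ _ ω)

/-- the functional may be computed in two stages -/
theorem A_collapse_step (hP : IsProb P) (hx : ∀ k, 0 < x k) (U : Ω → ℝ) {k0 : ℕ} :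
    ∀ j k, k + j = k0 → A P 𝓕 x (A P 𝓕 x U k0) k = A P 𝓕 x U k := by
  intro j
  induction j with
  | zero =>
    intro k hk
    have : k = k0 := by omega
    subst this
    funext ω
    exact A_of_meas hP hx (A_meas hP hx U k) ω
  | succ j ih =>
    intro k hk
    rw [A_step hP hx _ k, A_step hP hx U k, ih (k + 1) (by omega)]

/-! ### projections along a product structure -/

section proj

variable {Ω1 Ωc Ωb : Type*} [Fintype Ω1] [Fintype Ωc] [Fintype Ωb]

open scoped Classical in
theorem sum_cls (e : Ω1 ≃ Ωc × Ωb) {P1 : Ω1 → ℝ} {Pc : Ωc → ℝ} {Pb : Ωb → ℝ}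
    (hP : ∀ ω, P1 ω = Pc (e ω).1 * Pb (e ω).2) {r1 : Setoid Ω1} {rc : Setoid Ωc} {rb : Setoid Ωb}
    (hr : ∀ ω ω', r1 ω ω' ↔ rc (e ω).1 (e ω').1 ∧ rb (e ω).2 (e ω').2) (f : Ωc → ℝ) (ω : Ω1) :
    ∑ ω' ∈ univ.filter (fun ω' => r1 ω ω'), P1 ω' * f (e ω').1 =
      (∑ c ∈ univ.filter (fun c => rc (e ω).1 c), Pc c * f c) *
        ∑ b ∈ univ.filter (fun b => rb (e ω).2 b), Pb b := by
  have h1 : (∑ c ∈ univ.filter (fun c => rc (e ω).1 c), Pc c * f c) *
        ∑ b ∈ univ.filter (fun b => rb (e ω).2 b), Pb b =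
      ∑ p : Ωc × Ωb, if rc (e ω).1 p.1 ∧ rb (e ω).2 p.2 then Pc p.1 * Pb p.2 * f p.1 else 0 := by
    rw [Finset.sum_mul_sum, Finset.sum_filter, Fintype.sum_prod_type]
    refine Finset.sum_congr rfl fun c _ => ?_
    split_ifs with hc
    · rw [Finset.sum_filter]
      refine Finset.sum_congr rfl fun b _ => ?_
      by_cases hb : rb (e ω).2 b
      · simp only [hb, hc, and_self, if_true]; ring
      · simp only [hb, hc, and_false, if_false]
    · symm
      refine Finset.sum_eq_zero fun b _ => ?_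
      simp only [hc, false_and, if_false]
  rw [h1, Finset.sum_filter, ← e.sum_comp]
  refine Finset.sum_congr rfl fun ω' _ => ?_
  by_cases h : r1 ω ω'
  · rw [if_pos h, if_pos ((hr ω ω').mp h), hP]
  · rw [if_neg h, if_neg (fun h2 => h ((hr ω ω').mpr h2))]

theorem cE_proj_equiv (e : Ω1 ≃ Ωc × Ωb) {P1 : Ω1 → ℝ} {Pc : Ωc → ℝ} {Pb : Ωb → ℝ}
    (hPb : IsProb Pb) (hP : ∀ ω, P1 ω = Pc (e ω).1 * Pb (e ω).2) {r1 : Setoid Ω1}
    {rc : Setoid Ωc} {rb : Setoid Ωb}
    (hr : ∀ ω ω', r1 ω ω' ↔ rc (e ω).1 (e ω').1 ∧ rb (e ω).2 (e ω').2) (f : Ωc → ℝ) (ω : Ω1) :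
    cE P1 r1 (fun w => f (e w).1) ω = cE Pc rc f (e ω).1 := by
  classical
  have hb : 0 < ∑ b ∈ univ.filter (fun b => rb (e ω).2 b), Pb b := cls_pos hPb rb _
  have h1 := sum_cls e hP hr f ω
  have h2 := sum_cls e hP hr (fun _ => 1) ω
  simp only [mul_one] at h2
  unfold cE
  rw [h1, h2, mul_div_mul_right _ _ hb.ne']

/-- projection of the functional along a product structure -/
theorem A_proj_equiv (e : Ω1 ≃ Ωc × Ωb) {P1 : Ω1 → ℝ} {Pc : Ωc → ℝ} {Pb : Ωb → ℝ}
    (hP1 : IsProb P1) (hPc : IsProb Pc) (hPb : IsProb Pb)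
    (hP : ∀ ω, P1 ω = Pc (e ω).1 * Pb (e ω).2) {𝓕1 : Filt Ω1} {𝓕c : Filt Ωc}
    (rb : ℕ → Setoid Ωb) (hx : ∀ k, 0 < x k)
    (hr : ∀ k ω ω', 𝓕1.F k ω ω' ↔ 𝓕c.F k (e ω).1 (e ω').1 ∧ rb k (e ω).2 (e ω').2)
    (U : Ωc → ℝ) (k : ℕ) (ω : Ω1) :
    A P1 𝓕1 x (fun w => U (e w).1) k ω = A Pc 𝓕c x U k (e ω).1 :=
  A_proj hP1 hPc hx (fun w => (e w).1)
    (fun k f ω' => cE_proj_equiv (rb := rb k) e hPb hP (hr k) f ω') U k ω

/-- invariance of the functional under an automorphism -/
theorem A_auto (e : Ω1 ≃ Ω1) {P1 : Ω1 → ℝ} (hP1 : IsProb P1) (hP : ∀ ω, P1 (e ω) = P1 ω)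
    {𝓕1 : Filt Ω1} (hx : ∀ k, 0 < x k) (hr : ∀ k ω ω', 𝓕1.F k (e ω) (e ω') ↔ 𝓕1.F k ω ω')
    (U : Ω1 → ℝ) (k : ℕ) (ω : Ω1) :
    A P1 𝓕1 x (fun w => U (e w)) k ω = A P1 𝓕1 x U k (e ω) := by
  have hb : IsProb (fun _ : Unit => (1 : ℝ)) := ⟨fun _ => one_pos, by simp⟩
  exact A_proj_equiv (e.trans (Equiv.prodPUnit Ω1).symm) (Pb := fun _ : Unit => (1 : ℝ)) hP1 hP1 hb
    (fun ω => by simp [hP]) (𝓕1 := 𝓕1) (𝓕c := 𝓕1) (fun _ => ⊤) hx
    (fun k ω ω' => by
      simp only [Equiv.trans_apply, Equiv.prodPUnit_symm_apply]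
      rw [hr]
      exact ⟨fun h => ⟨h, trivial⟩, fun h => h.1⟩) U k ω

end proj

end

end Crest.Agent.R146.Newc857
end

-- ▼ part R146/NewcB_857
section

/-!
# Row 146 (helper857), node NEWC, part B: the coin systems

* `cfil, cP` : filtration and law of the coins only;
* `A_coin` : `A_0` of the enriched system = `A_0` of the coin system applied to the inner
  log-partition function `LZ`;
* `coin_main` : removal of the coins of the last coordinate (flip symmetry + convexity).
-/

set_option autoImplicit false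

namespace Crest.Agent.R146.Newc857

open Finset Crest.Agent.R141
open Crest.Agent.R146.S6Def_988 Crest.Agent.R146.SysA_52

noncomputable section

variable (nc n N : ℕ)

/-- agreement of the coin rows revealed up to step `k` -/
def crel (k : ℕ) (c c' : Coins nc n N) : Prop :=
  ∀ (g : Fin nc) (t : Fin n), (g : ℕ) * n + t < k → c g t = c' g t

theorem row_lt (g : Fin nc) (t : Fin n) : (g : ℕ) * n + t < nc * n := by
  have h1 : (g : ℕ) * n + t < ((g : ℕ) + 1) * n := by
    have := t.2
    rw [add_mul, one_mul]; omega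
  have h2 : ((g : ℕ) + 1) * n ≤ nc * n := Nat.mul_le_mul_right n g.2
  omega

/-- the filtration of the coins -/
def cfil : Filt (Coins nc n N) where
  F k := ⟨crel nc n N k, ⟨fun _ _ _ _ => rfl, fun h g t hg => (h g t hg).symm,
    fun h h' g t hg => (h g t hg).trans (h' g t hg)⟩⟩
  anti k := fun _ _ h => fun g t hg => h g t (by omega)
  L := Lv nc n
  bot k hk := by
    ext c c'
    constructor
    · intro h
      have h : crel nc n N k c c' := h
      funext g t
      refine h g t ?_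
      have := row_lt nc n g t
      unfold Lv at hk
      omega
    · intro h
      have h : c = c' := h
      subst h
      intro g t _
      rfl

/-- the uniform law of the coins -/
def cP : Coins nc n N → ℝ := fun _ => (Fintype.card (Coins nc n N) : ℝ)⁻¹

theorem cP_isProb : IsProb (cP nc n N) where
  pos _ := inv_pos.mpr (card_coins_pos nc n N)
  sum := by
    unfold cP
    rw [Finset.sum_const, Finset.card_univ, nsmul_eq_mul]
    exact mul_inv_cancel₀ (card_coins_pos nc n N).ne'

variable {nc n N}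
variable (C : Cfg N)

/-- the inner log-partition function -/
def LZ (V : Om C nc n → ℝ) (c : Coins nc n N) : ℝ := Real.log (∑ y, C.q y * Real.exp (V (y, c)))

/-- functions of the coins only -/
theorem A_snd (W : Coins nc n N → ℝ) (k : ℕ) (ω : Om C nc n) :
    A (prior C nc n) (fil C nc n) (xs nc n) (fun w => W w.2) k ω =
      A (cP nc n N) (cfil nc n N) (xs nc n) W k ω.2 := by
  refine A_proj_equiv (Equiv.prodComm C.Y (Coins nc n N)) (prior_isProb C nc n) (cP_isProb nc n N)
    C.hq (fun ω => ?_) (fun k => ⟨fun y y' => Lv nc n ≤ k → y = y', ⟨fun _ _ => rfl,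
      fun h hk => (h hk).symm, fun h h' hk => (h hk).trans (h' hk)⟩⟩) (xs_pos nc n)
    (fun k ω ω' => ?_) W k ω
  · simp only [Crest.Agent.R146.S6Def_988.prior, cP, Equiv.prodComm_apply, Prod.snd_swap, Prod.fst_swap]
    ring
  · exact Iff.rfl

/-- **reduction to the coin system** -/
theorem A_coin (hn : 0 < n) (V : Om C nc n → ℝ) (ω : Om C nc n) :
    A (prior C nc n) (fil C nc n) (xs nc n) V 0 ω =
      A (cP nc n N) (cfil nc n N) (xs nc n) (LZ C V) 0 ω.2 := by
  have h1 := A_collapse_step (𝓕 := fil C nc n) (prior_isProb C nc n) (xs_pos nc n) V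
    (k0 := nc * n) (nc * n) 0 (by omega)
  rw [← h1]
  have h2 : A (prior C nc n) (fil C nc n) (xs nc n) V (nc * n) = fun w => LZ C V w.2 := by
    funext w
    exact U0_762.A_last C nc n hn V w
  rw [h2, A_snd]

/-! ### one more column -/

variable (nc n N)

/-- splitting of the last column -/
def rho : Coins nc n (N + 1) ≃ Coins nc n N × (Fin nc → Fin n → Bool) where
  toFun c := (fun g t i => c g t i.castSucc, fun g t => c g t (Fin.last N))
  invFun p := fun g t => Fin.snoc (α := fun _ => Bool) (p.1 g t) (p.2 g t)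
  left_inv c := by
    funext g t i
    refine Fin.lastCases ?_ (fun j => ?_) i
    · simp
    · simp
  right_inv p := by
    ext g t i <;> simp

theorem rho_fst (c : Coins nc n (N + 1)) (g : Fin nc) (t : Fin n) (i : Fin N) :
    (rho nc n N c).1 g t i = c g t i.castSucc := rfl

theorem rho_snd (c : Coins nc n (N + 1)) (g : Fin nc) (t : Fin n) :
    (rho nc n N c).2 g t = c g t (Fin.last N) := rfl

/-- functions of the old columns only -/
theorem A_rho (W : Coins nc n N → ℝ) (k : ℕ) (c1 : Coins nc n (N + 1)) :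
    A (cP nc n (N + 1)) (cfil nc n (N + 1)) (xs nc n) (fun c => W (rho nc n N c).1) k c1 =
      A (cP nc n N) (cfil nc n N) (xs nc n) W k (rho nc n N c1).1 := by
  have hcard : (Fintype.card (Coins nc n (N + 1)) : ℝ) =
      (Fintype.card (Coins nc n N) : ℝ) * (Fintype.card (Fin nc → Fin n → Bool) : ℝ) := by
    rw [← Nat.cast_mul, ← Fintype.card_prod]
    exact_mod_cast Fintype.card_congr (rho nc n N)
  have hbpos : (0 : ℝ) < (Fintype.card (Fin nc → Fin n → Bool) : ℝ) := by
    exact_mod_cast Fintype.card_pos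
  have hb : IsProb (fun _ : Fin nc → Fin n → Bool =>
      (Fintype.card (Fin nc → Fin n → Bool) : ℝ)⁻¹) :=
    ⟨fun _ => inv_pos.mpr hbpos, by
      rw [Finset.sum_const, Finset.card_univ, nsmul_eq_mul]
      exact mul_inv_cancel₀ hbpos.ne'⟩
  refine A_proj_equiv (rho nc n N) (cP_isProb nc n (N + 1)) (cP_isProb nc n N) hb
    (fun ω => ?_) (fun k => ⟨fun b b' => ∀ (g : Fin nc) (t : Fin n), (g : ℕ) * n + t < k →
      b g t = b' g t, ⟨fun _ _ _ _ => rfl, fun h g t hg => (h g t hg).symm,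
      fun h h' g t hg => (h g t hg).trans (h' g t hg)⟩⟩) (xs_pos nc n) (fun k ω ω' => ?_) W k c1
  · simp only [cP]
    rw [hcard, mul_inv]
  · constructor
    · intro h
      have h : crel nc n (N + 1) k ω ω' := h
      refine ⟨fun g t hg => ?_, fun g t hg => ?_⟩
      · funext i
        rw [rho_fst, rho_fst, h g t hg]
      · rw [rho_snd, rho_snd, h g t hg]
    · rintro ⟨h1, h2⟩ g t hg
      have h1 : crel nc n N k (rho nc n N ω).1 (rho nc n N ω').1 := h1
      funext i
      refine Fin.lastCases ?_ (fun j => ?_) i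
      · have := h2 g t hg
        rwa [rho_snd, rho_snd] at this
      · have := congrFun (h1 g t hg) j
        rwa [rho_fst, rho_fst] at this

/-- flip of the last column -/
def flp : Coins nc n (N + 1) ≃ Coins nc n (N + 1) where
  toFun c := fun g t i => if i = Fin.last N then !(c g t i) else c g t i
  invFun c := fun g t i => if i = Fin.last N then !(c g t i) else c g t i
  left_inv c := by
    funext g t i
    by_cases h : i = Fin.last N
    · simp [h]
    · simp [h]
  right_inv c := by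
    funext g t i
    by_cases h : i = Fin.last N
    · simp [h]
    · simp [h]

theorem flp_last (c : Coins nc n (N + 1)) (g : Fin nc) (t : Fin n) :
    flp nc n N c g t (Fin.last N) = !(c g t (Fin.last N)) := by simp [flp]

theorem flp_castSucc (c : Coins nc n (N + 1)) (g : Fin nc) (t : Fin n) (i : Fin N) :
    flp nc n N c g t i.castSucc = c g t i.castSucc := by
  have h : i.castSucc ≠ Fin.last N := (Fin.castSucc_lt_last i).ne
  simp [flp, h]

theorem rho_flp_fst (c : Coins nc n (N + 1)) :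
    (rho nc n N (flp nc n N c)).1 = (rho nc n N c).1 := by
  funext g t i
  rw [rho_fst, rho_fst, flp_castSucc]

theorem A_flp (W : Coins nc n (N + 1) → ℝ) (k : ℕ) (c1 : Coins nc n (N + 1)) :
    A (cP nc n (N + 1)) (cfil nc n (N + 1)) (xs nc n) (fun c => W (flp nc n N c)) k c1 =
      A (cP nc n (N + 1)) (cfil nc n (N + 1)) (xs nc n) W k (flp nc n N c1) := by
  refine A_auto (flp nc n N) (cP_isProb nc n (N + 1)) (fun _ => rfl) (xs_pos nc n)
    (fun k c c' => ?_) W k c1
  constructor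
  · intro h
    have h : crel nc n (N + 1) k (flp nc n N c) (flp nc n N c') := h
    intro g t hg
    funext i
    have := congrFun (h g t hg) i
    by_cases hi : i = Fin.last N
    · subst hi
      rw [flp_last, flp_last] at this
      exact Bool.not_inj this
    · simpa [flp, hi] using this
  · intro h
    have h : crel nc n (N + 1) k c c' := h
    intro g t hg
    funext i
    simp only [flp, Equiv.coe_fn_mk]
    rw [h g t hg]

theorem cfil_zero : (cfil nc n N).F 0 = ⊤ := by
  ext a b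
  constructor
  · intro _; trivial
  · intro _ g t h
    omega

theorem A_zero_const (W : Coins nc n N → ℝ) (c c' : Coins nc n N) :
    A (cP nc n N) (cfil nc n N) (xs nc n) W 0 c = A (cP nc n N) (cfil nc n N) (xs nc n) W 0 c' := by
  refine A_meas (cP_isProb nc n N) (xs_pos nc n) W 0 c c' ?_
  rw [cfil_zero]; trivial

/-- **removal of the last column** -/
theorem coin_main (W : Coins nc n N → ℝ) (W1 : Coins nc n (N + 1) → ℝ) (κ : ℝ)
    (h : ∀ c1, W (rho nc n N c1).1 + κ ≤ (W1 c1 + W1 (flp nc n N c1)) / 2)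
    (c : Coins nc n N) (c1 : Coins nc n (N + 1)) :
    A (cP nc n N) (cfil nc n N) (xs nc n) W 0 c + κ ≤
      A (cP nc n (N + 1)) (cfil nc n (N + 1)) (xs nc n) W1 0 c1 := by
  have hP := cP_isProb nc n (N + 1)
  have hx := xs_pos nc n
  have e1 : A (cP nc n (N + 1)) (cfil nc n (N + 1)) (xs nc n) W1 0 c1 =
      (A (cP nc n (N + 1)) (cfil nc n (N + 1)) (xs nc n) W1 0 c1 +
        A (cP nc n (N + 1)) (cfil nc n (N + 1)) (xs nc n) (fun c => W1 (flp nc n N c)) 0 c1) / 2 := by
    rw [A_flp, A_zero_const nc n (N + 1) W1 (flp nc n N c1) c1]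
    ring
  rw [e1]
  refine le_trans ?_ (A_half_le (𝓕 := cfil nc n (N + 1)) hP hx W1
    (fun c => W1 (flp nc n N c)) 0 c1)
  refine le_trans ?_ (A_mono (𝓕 := cfil nc n (N + 1)) hP hx h 0 c1)
  rw [A_add_const hP hx (fun c => W (rho nc n N c).1) κ 0 c1, A_rho,
    A_zero_const nc n N W c (rho nc n N c1).1]

end

end Crest.Agent.R146.Newc857
end

-- ▼ part R146/NearExp_857
section

/-!
# Row 146 (helper857): fine configuration spaces and exponentials of Lipschitz functions

`near_exp` : for `U` with `|U u - U v| ≤ Λ ∑ |u i - v i|` and `C` near the sphere,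
`(1 - ε) ∫ exp (U (√N y)) ≤ ∑ q exp (U x) ≤ (1 + ε) ∫ exp (U (√N y))`.
-/

set_option autoImplicit false
set_option linter.unusedSectionVars false
set_option linter.style.haveILetI false

namespace Crest.Agent.R146.NearExp857

open Finset MeasureTheory ProbabilityTheory
open Crest.Agent.R146.S6Def_988
open Crest.ProbabilityR.Perceptron
open Crest.Agent.R146.Sph857 Crest.Agent.R146.Disc857

theorem abs_coord_le {N : ℕ} {x : Fin N → ℝ} (hx : ∑ i, x i ^ 2 = N) (i : Fin N) :
    |x i| ≤ Real.sqrt N := by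
  rw [← Real.sqrt_sq_eq_abs]
  refine Real.sqrt_le_sqrt ?_
  rw [← hx]
  exact Finset.single_le_sum (f := fun j => x j ^ 2) (fun j _ => sq_nonneg _) (Finset.mem_univ i)

theorem sum_abs_coord_le {N : ℕ} {x : Fin N → ℝ} (hx : ∑ i, x i ^ 2 = N) :
    ∑ i, |x i| ≤ N * Real.sqrt N := by
  calc ∑ i, |x i| ≤ ∑ _i : Fin N, Real.sqrt N := Finset.sum_le_sum fun i _ => abs_coord_le hx i
    _ = N * Real.sqrt N := by simp

theorem sum_sq_scaled {N : ℕ} (w : UnitSphere N) : ∑ i, (Real.sqrt N * ys w i) ^ 2 = N := by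
  simp only [mul_pow, ← Finset.mul_sum, sum_ys_sq, mul_one]
  exact Real.sq_sqrt (Nat.cast_nonneg N)

theorem abs_max_min_sub_le (B a b : ℝ) :
    |max (-B) (min B a) - max (-B) (min B b)| ≤ |a - b| := by
  calc |max (-B) (min B a) - max (-B) (min B b)| ≤ |min B a - min B b| := by
        have := abs_max_sub_max_le_max (-B) (min B a) (-B) (min B b)
        simpa using this
    _ ≤ |a - b| := by
        have := abs_min_sub_min_le_max B a B b
        simpa using this

/-- multiplicative closeness -/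
theorem near_exp (N : ℕ) (hN : 0 < N) (Λ : ℝ) {ε : ℝ} (hε : 0 < ε) : ∃ δ : ℝ, 0 < δ ∧
    ∀ C : Cfg N, Near C δ → ∀ U : (Fin N → ℝ) → ℝ,
      (∀ u v, |U u - U v| ≤ Λ * ∑ i, |u i - v i|) →
      (1 - ε) * ∫ y, Real.exp (U fun i => Real.sqrt N * ys y i) ∂(sph N) ≤
          ∑ y, C.q y * Real.exp (U (C.x y)) ∧
      ∑ y, C.q y * Real.exp (U (C.x y)) ≤
          (1 + ε) * ∫ y, Real.exp (U fun i => Real.sqrt N * ys y i) ∂(sph N) := by
  haveI := isProbabilityMeasure_sph hN.ne'
  set Λ' : ℝ := max Λ 0 with hΛ'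
  have hΛ0 : 0 ≤ Λ' := le_max_right _ _
  set B : ℝ := Λ' * (N * Real.sqrt N) with hB
  have hB0 : 0 ≤ B := by positivity
  set A : ℝ := Real.exp B * Λ' + 1 with hA
  have hA0 : 0 < A := by positivity
  refine ⟨ε * Real.exp (-B) / A, by positivity, ?_⟩
  intro C hC U hU
  have hU' : ∀ u v, |U u - U v| ≤ Λ' * ∑ i, |u i - v i| := fun u v =>
    (hU u v).trans (mul_le_mul_of_nonneg_right (le_max_left _ _)
      (Finset.sum_nonneg fun i _ => abs_nonneg _))
  have hUb : ∀ x : Fin N → ℝ, ∑ i, x i ^ 2 = N → |U x - U 0| ≤ B := by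
    intro x hx
    refine (hU' x 0).trans ?_
    rw [hB]
    refine mul_le_mul_of_nonneg_left ?_ hΛ0
    simpa using sum_abs_coord_le hx
  set V : (Fin N → ℝ) → ℝ := fun x => max (-B) (min B (U x - U 0)) with hV
  have hVb : ∀ x, |V x| ≤ B := by
    intro x
    rw [hV, abs_le]
    exact ⟨le_max_left _ _, max_le (by linarith) (min_le_left _ _)⟩
  have hVeq : ∀ x : Fin N → ℝ, ∑ i, x i ^ 2 = N → V x = U x - U 0 := by
    intro x hx
    obtain ⟨h1, h2⟩ := abs_le.mp (hUb x hx)
    simp only [hV]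
    rw [min_eq_right h2, max_eq_right h1]
  have hVl : ∀ u v, |V u - V v| ≤ Λ' * ∑ i, |u i - v i| := by
    intro u v
    refine (abs_max_min_sub_le B _ _).trans ?_
    have : U u - U 0 - (U v - U 0) = U u - U v := by ring
    rw [this]; exact hU' u v
  have hlip : ∀ u v, |A⁻¹ * Real.exp (V u) - A⁻¹ * Real.exp (V v)| ≤ ∑ i, |u i - v i| := by
    intro u v
    have hs : 0 ≤ ∑ i, |u i - v i| := Finset.sum_nonneg fun i _ => abs_nonneg _
    rw [← mul_sub, abs_mul, abs_of_pos (inv_pos.mpr hA0), inv_mul_le_iff₀ hA0]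
    calc |Real.exp (V u) - Real.exp (V v)| ≤ Real.exp B * |V u - V v| :=
          abs_exp_sub_exp_le (hVb u) (hVb v)
      _ ≤ Real.exp B * (Λ' * ∑ i, |u i - v i|) := by gcongr; exact hVl u v
      _ ≤ A * ∑ i, |u i - v i| := by rw [hA]; nlinarith
  have hnear := hC (fun x => A⁻¹ * Real.exp (V x)) hlip
  -- rewrite both sides
  have e1 : ∑ y, C.q y * (A⁻¹ * Real.exp (V (C.x y))) =
      A⁻¹ * (Real.exp (-U 0) * ∑ y, C.q y * Real.exp (U (C.x y))) := by
    rw [Finset.mul_sum, Finset.mul_sum]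
    refine Finset.sum_congr rfl fun y _ => ?_
    rw [hVeq _ (C.hx y), sub_eq_add_neg, Real.exp_add]
    ring
  have e2 : ∫ y, A⁻¹ * Real.exp (V fun i => Real.sqrt N * (y : EuclideanSpace ℝ (Fin N)) i) ∂(sph N) =
      A⁻¹ * (Real.exp (-U 0) * ∫ y, Real.exp (U fun i => Real.sqrt N * ys y i) ∂(sph N)) := by
    rw [integral_const_mul, ← integral_const_mul (Real.exp (-U 0))]
    congr 1
    refine integral_congr_ae (Filter.Eventually.of_forall fun y => ?_)
    simp only
    have := hVeq _ (sum_sq_scaled y)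
    simp only [ys] at this
    rw [this, sub_eq_add_neg, Real.exp_add, mul_comm]
    rfl
  have hlow : Real.exp (-B) ≤ Real.exp (-U 0) *
      ∫ y, Real.exp (U fun i => Real.sqrt N * ys y i) ∂(sph N) := by
    have hcont : Continuous U := by
      have h0 : ∀ u v, |(Λ' + 1)⁻¹ * U u - (Λ' + 1)⁻¹ * U v| ≤ ∑ i, |u i - v i| := by
        intro u v
        have hs : 0 ≤ ∑ i, |u i - v i| := Finset.sum_nonneg fun i _ => abs_nonneg _
        have hp : (0 : ℝ) < Λ' + 1 := by linarith
        rw [← mul_sub, abs_mul, abs_of_pos (inv_pos.mpr hp), inv_mul_le_iff₀ hp]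
        calc |U u - U v| ≤ Λ' * ∑ i, |u i - v i| := hU' u v
          _ ≤ (Λ' + 1) * ∑ i, |u i - v i| := by nlinarith
      have h1 := continuous_of_l1 h0
      have h2 : U = fun x => (Λ' + 1) * ((Λ' + 1)⁻¹ * U x) := by
        funext x
        have hp : (0 : ℝ) < Λ' + 1 := by linarith
        field_simp
      rw [h2]
      exact continuous_const.mul h1
    have hci : Integrable (fun y : UnitSphere N => Real.exp (U fun i => Real.sqrt N * ys y i))
        (sph N) := by
      refine Continuous.integrable_of_hasCompactSupport ?_ (HasCompactSupport.of_compactSpace _)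
      exact Real.continuous_exp.comp (hcont.comp (continuous_pi fun i =>
        continuous_const.mul ((continuous_apply i).comp continuous_ys)))
    rw [← integral_const_mul]
    calc Real.exp (-B) = ∫ _y : UnitSphere N, Real.exp (-B) ∂(sph N) := by simp
      _ ≤ _ := by
        refine integral_mono (integrable_const _) (hci.const_mul _) fun y => ?_
        simp only
        rw [← Real.exp_add]
        refine Real.exp_le_exp.mpr ?_
        have := (abs_le.mp (hUb _ (sum_sq_scaled y))).1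
        linarith
  rw [e1, e2, ← mul_sub, abs_mul, abs_of_pos (inv_pos.mpr hA0), inv_mul_le_iff₀ hA0,
    ← mul_sub, abs_mul, abs_of_pos (Real.exp_pos _)] at hnear
  have hA' : A * (ε * Real.exp (-B) / A) = ε * Real.exp (-B) := by field_simp
  rw [hA'] at hnear
  have h3 : Real.exp (-U 0) * |∑ y, C.q y * Real.exp (U (C.x y)) -
      ∫ y, Real.exp (U fun i => Real.sqrt N * ys y i) ∂(sph N)| ≤
      Real.exp (-U 0) * (ε * ∫ y, Real.exp (U fun i => Real.sqrt N * ys y i) ∂(sph N)) := by
    refine hnear.trans ?_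
    calc ε * Real.exp (-B) ≤ ε * (Real.exp (-U 0) *
          ∫ y, Real.exp (U fun i => Real.sqrt N * ys y i) ∂(sph N)) := by gcongr
      _ = _ := by ring
  have h4 := le_of_mul_le_mul_left h3 (Real.exp_pos _)
  obtain ⟨h5, h6⟩ := abs_le.mp h4
  constructor <;> linarith

end Crest.Agent.R146.NearExp857
end

-- ▼ part R146/NewF_857

/-!
# Row 146 (helper857): one new coordinate, finite configuration spaces

`newc_fin` : for `C : Cfg N`, `C1 : Cfg (N+1)` fine, `U` Lipschitz on `ℝ^(N+1)`,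
`(1 - ε) ∫_{|s| ≤ K} ∑_y q_y exp (U (insertNth i s (√((N+1-s²)/N) x_y))) dγ(s) ≤ ∑ q1 exp (U x1)`.
-/

set_option autoImplicit false
set_option linter.unusedSectionVars false
set_option linter.style.haveILetI false

namespace Crest.Agent.R146.NewF857

open Finset MeasureTheory ProbabilityTheory
open Crest.Agent.R146.S6Def_988
open Crest.ProbabilityR.Perceptron
open Crest.Agent.R146.Sph857 Crest.Agent.R146.Disc857 Crest.Agent.R146.NearExp857
open scoped ENNReal

/-- the scale factor of the old coordinates -/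
noncomputable def sc (N : ℕ) (s : ℝ) : ℝ := Real.sqrt (((N : ℝ) + 1 - s ^ 2) / N)

/-- the new point: coordinate `i` is `s`, the old ones are scaled -/
noncomputable def npt {N : ℕ} (i : Fin (N + 1)) (x : Fin N → ℝ) (s : ℝ) : Fin (N + 1) → ℝ :=
  i.insertNth (α := fun _ => ℝ) s (fun j => sc N s * x j)

theorem sum_abs_npt {N : ℕ} (i : Fin (N + 1)) (x x' : Fin N → ℝ) (s : ℝ) :
    ∑ j, |npt i x s j - npt i x' s j| = sc N s * ∑ j, |x j - x' j| := by
  rw [Fin.sum_univ_succAbove _ i]
  simp only [npt, Fin.insertNth_apply_same, sub_self, abs_zero, Fin.insertNth_apply_succAbove,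
    zero_add, ← mul_sub, abs_mul]
  rw [← Finset.mul_sum, abs_of_nonneg (show 0 ≤ sc N s from Real.sqrt_nonneg _)]

theorem sc_le {N : ℕ} (hN : 0 < N) (s : ℝ) : sc N s ≤ 2 := by
  unfold sc
  rw [Real.sqrt_le_left (by norm_num)]
  have hN' : (1 : ℝ) ≤ N := by exact_mod_cast hN
  rw [div_le_iff₀ (by linarith)]
  nlinarith [sq_nonneg s]


/-- the finite form of one new coordinate -/
theorem newc_fin (K ε : ℝ) (hε : 0 < ε) (hε1 : ε < 1) : ∃ N0 : ℕ, ∀ N, N0 ≤ N → 0 < N ∧ ∀ Λ : ℝ,
    ∃ δ : ℝ, 0 < δ ∧ ∀ (C : Cfg N) (C1 : Cfg (N + 1)), Near C δ → Near C1 δ →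
    ∀ (i : Fin (N + 1)) (U : (Fin (N + 1) → ℝ) → ℝ), (∀ u v, |U u - U v| ≤ Λ * ∑ j, |u j - v j|) →
    (1 - ε) * ∫ s in Set.Icc (-K) K, (∑ y, C.q y * Real.exp (U (npt i (C.x y) s)))
      ∂(gaussianReal 0 1) ≤ ∑ y, C1.q y * Real.exp (U (C1.x y)) := by
  set ε' : ℝ := ε / 4 with hε'
  have hε'0 : 0 < ε' := by positivity
  obtain ⟨N0, hN0⟩ := Sph_409.new_coordinate K ε' hε'0
  refine ⟨N0 + ⌈K ^ 2⌉₊, fun N hN => ?_⟩
  obtain ⟨hN1, hNC⟩ := hN0 N (by omega)
  refine ⟨hN1, fun Λ => ?_⟩
  have hKN : K ^ 2 ≤ N := by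
    have h1 : (⌈K ^ 2⌉₊ : ℝ) ≤ N := by exact_mod_cast (by omega : ⌈K ^ 2⌉₊ ≤ N)
    exact (Nat.le_ceil _).trans h1
  obtain ⟨δ1, hδ1, h1⟩ := near_exp N hN1 (2 * max Λ 0) hε'0
  obtain ⟨δ2, hδ2, h2⟩ := near_exp (N + 1) (Nat.succ_pos N) Λ hε'0
  refine ⟨min δ1 δ2, lt_min hδ1 hδ2, ?_⟩
  intro C C1 hC hC1 i U hU
  haveI := isProbabilityMeasure_sph hN1.ne'
  haveI := isProbabilityMeasure_sph (Nat.succ_ne_zero N)
  have hC' : Near C δ1 := fun F hF => (hC F hF).trans (min_le_left _ _)
  have hC1' : Near C1 δ2 := fun F hF => (hC1 F hF).trans (min_le_right _ _)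
  have hΛ0 : 0 ≤ max Λ 0 := le_max_right _ _
  have hU' : ∀ u v, |U u - U v| ≤ max Λ 0 * ∑ j, |u j - v j| := fun u v =>
    (hU u v).trans (mul_le_mul_of_nonneg_right (le_max_left _ _)
      (Finset.sum_nonneg fun i _ => abs_nonneg _))
  -- continuity of U
  have hUc : Continuous U := by
    have hp : (0 : ℝ) < max Λ 0 + 1 := by linarith
    have h0 : ∀ u v, |(max Λ 0 + 1)⁻¹ * U u - (max Λ 0 + 1)⁻¹ * U v| ≤ ∑ i, |u i - v i| := by
      intro u v
      have hs : 0 ≤ ∑ i, |u i - v i| := Finset.sum_nonneg fun i _ => abs_nonneg _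
      rw [← mul_sub, abs_mul, abs_of_pos (inv_pos.mpr hp), inv_mul_le_iff₀ hp]
      calc |U u - U v| ≤ max Λ 0 * ∑ i, |u i - v i| := hU' u v
        _ ≤ (max Λ 0 + 1) * ∑ i, |u i - v i| := by nlinarith
    have h2 : U = fun x => (max Λ 0 + 1) * ((max Λ 0 + 1)⁻¹ * U x) := by
      funext x; field_simp
    rw [h2]
    exact continuous_const.mul (continuous_of_l1 h0)
  -- step 1: C against the sphere for every s
  have hstep1 : ∀ s : ℝ, ∑ y, C.q y * Real.exp (U (npt i (C.x y) s)) ≤
      (1 + ε') * ∫ y, Real.exp (U (npt i (fun j => Real.sqrt N * ys y j) s)) ∂(sph N) := by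
    intro s
    refine (h1 C hC' (fun x => U (npt i x s)) fun u v => ?_).2
    refine (hU' _ _).trans ?_
    rw [sum_abs_npt]
    have hS : 0 ≤ ∑ j, |u j - v j| := Finset.sum_nonneg fun i _ => abs_nonneg _
    have := mul_le_mul_of_nonneg_right (sc_le hN1 s) hS
    nlinarith
  -- step 2: the sphere in dimension N + 1
  have hstep2 := (h2 C1 hC1' U hU).1
  -- step 3: helper409's inequality
  set F : Sph_409.En (N + 1) → ℝ≥0∞ := fun w =>
    ENNReal.ofReal (Real.exp (U fun j => Real.sqrt ((N + 1 : ℕ) : ℝ) * w j)) with hF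
  have hofLp : Continuous (fun w : Sph_409.En (N + 1) =>
      (fun j => Real.sqrt ((N + 1 : ℕ) : ℝ) * w j : Fin (N + 1) → ℝ)) := by
    refine continuous_pi fun j => continuous_const.mul ?_
    exact (EuclideanSpace.proj j : Sph_409.En (N + 1) →L[ℝ] ℝ).continuous
  have hFm : Measurable F :=
    (Real.continuous_exp.comp (hUc.comp hofLp)).measurable.ennreal_ofReal
  have h3 := hNC i F hFm
  have hnptc : Continuous (fun p : ℝ × UnitSphere N =>
      npt i (fun j => Real.sqrt N * ys p.2 j) p.1) := by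
    refine continuous_pi fun j => ?_
    refine Fin.succAboveCases i ?_ (fun k => ?_) j
    · simp only [npt, Fin.insertNth_apply_same]
      exact continuous_fst
    · simp only [npt, Fin.insertNth_apply_succAbove]
      refine Continuous.mul ?_ (continuous_const.mul
        ((continuous_apply k).comp (continuous_ys.comp continuous_snd)))
      unfold sc
      fun_prop
  -- rewrite the left side of h3
  have hL : ∀ s ∈ Set.Icc (-K) K, ∀ y : UnitSphere N,
      F (Sph_409.ins i (s / Real.sqrt (N + 1)) (Real.sqrt (1 - (s / Real.sqrt (N + 1)) ^ 2) •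
        (y : Sph_409.En N))) =
      ENNReal.ofReal (Real.exp (U (npt i (fun j => Real.sqrt N * ys y j) s))) := by
    intro s hs y
    simp only [hF]
    congr 3
    funext j
    have hn1 : (0 : ℝ) < (N : ℝ) + 1 := by positivity
    have hs2 : s ^ 2 ≤ N := (sq_le_sq' hs.1 hs.2).trans hKN
    have hNp : (0 : ℝ) < N := by exact_mod_cast hN1
    refine Fin.succAboveCases i ?_ (fun k => ?_) j
    · rw [Sph_409.ins_same]
      simp only [npt, Fin.insertNth_apply_same]
      push_cast
      have : 0 < Real.sqrt ((N : ℝ) + 1) := Real.sqrt_pos.mpr hn1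
      field_simp
    · rw [Sph_409.ins_succAbove]
      simp only [npt, Fin.insertNth_apply_succAbove, PiLp.smul_apply, smul_eq_mul]
      push_cast
      rw [← mul_assoc, ← mul_assoc]
      congr 1
      rw [div_pow, Real.sq_sqrt hn1.le, ← Real.sqrt_mul hn1.le]
      unfold sc
      rw [← Real.sqrt_mul (by apply div_nonneg <;> linarith)]
      congr 1
      field_simp
  have hLint : ∫⁻ s in Set.Icc (-K) K, ∫⁻ y, F (Sph_409.ins i (s / Real.sqrt (N + 1))
      (Real.sqrt (1 - (s / Real.sqrt (N + 1)) ^ 2) • (y : Sph_409.En N))) ∂(Sph_409.uS N)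
      ∂(gaussianReal 0 1) =
      ∫⁻ s in Set.Icc (-K) K, ∫⁻ y, ENNReal.ofReal (Real.exp (U (npt i
        (fun j => Real.sqrt N * ys y j) s))) ∂(sph N) ∂(gaussianReal 0 1) := by
    refine setLIntegral_congr_fun measurableSet_Icc fun s hs => ?_
    exact lintegral_congr fun y => hL s hs y
  rw [hLint] at h3
  -- to real integrals
  set H : ℝ → ℝ := fun s => ∫ y, Real.exp (U (npt i (fun j => Real.sqrt N * ys y j) s)) ∂(sph N)
    with hH
  have hcontE : Continuous (fun p : ℝ × UnitSphere N =>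
      Real.exp (U (npt i (fun j => Real.sqrt N * ys p.2 j) p.1))) :=
    Real.continuous_exp.comp (hUc.comp hnptc)
  have hHc : Continuous H := by
    have hc := continuous_parametric_integral_of_continuous (μ := sph N)
      (f := fun (s : ℝ) (y : UnitSphere N) =>
        Real.exp (U (npt i (fun j => Real.sqrt N * ys y j) s))) hcontE isCompact_univ
    simpa only [Measure.restrict_univ] using hc
  have hHi : ∀ s, Integrable (fun y : UnitSphere N =>
      Real.exp (U (npt i (fun j => Real.sqrt N * ys y j) s))) (sph N) := fun s =>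
    (hcontE.comp (continuous_const.prodMk continuous_id)).integrable_of_hasCompactSupport
      (HasCompactSupport.of_compactSpace _)
  have e1 : ∀ s, ∫⁻ y, ENNReal.ofReal (Real.exp (U (npt i (fun j => Real.sqrt N * ys y j) s)))
      ∂(sph N) = ENNReal.ofReal (H s) := fun s =>
    (ofReal_integral_eq_lintegral_ofReal (hHi s)
      (Filter.Eventually.of_forall fun y => (Real.exp_pos _).le)).symm
  have hHnn : ∀ s, 0 ≤ H s := fun s => integral_nonneg fun y => (Real.exp_pos _).le
  have hHint : IntegrableOn H (Set.Icc (-K) K) (gaussianReal 0 1) :=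
    hHc.continuousOn.integrableOn_compact isCompact_Icc
  simp only [e1] at h3
  rw [← ofReal_integral_eq_lintegral_ofReal hHint (Filter.Eventually.of_forall hHnn)] at h3
  have e2 : ∫⁻ y, F (y : Sph_409.En (N + 1)) ∂(Sph_409.uS (N + 1)) =
      ENNReal.ofReal (∫ y, Real.exp (U fun j => Real.sqrt ((N + 1 : ℕ) : ℝ) * ys y j)
        ∂(sph (N + 1))) := by
    rw [ofReal_integral_eq_lintegral_ofReal]
    · rfl
    · refine Continuous.integrable_of_hasCompactSupport ?_ (HasCompactSupport.of_compactSpace _)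
      exact Real.continuous_exp.comp (hUc.comp (continuous_pi fun j =>
        continuous_const.mul ((continuous_apply j).comp continuous_ys)))
    · exact Filter.Eventually.of_forall fun y => (Real.exp_pos _).le
  rw [e2, ← ENNReal.ofReal_mul (by linarith), ENNReal.ofReal_le_ofReal_iff
    (integral_nonneg fun y => (Real.exp_pos _).le)] at h3
  -- assemble
  have hsumc : Continuous fun s : ℝ => ∑ y, C.q y * Real.exp (U (npt i (C.x y) s)) := by
    refine continuous_finsetSum _ fun y _ => continuous_const.mul (Real.continuous_exp.comp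
      (hUc.comp (continuous_pi fun j => ?_)))
    refine Fin.succAboveCases i ?_ (fun k => ?_) j
    · simp only [npt, Fin.insertNth_apply_same]
      exact continuous_id
    · simp only [npt, Fin.insertNth_apply_succAbove]
      unfold sc
      fun_prop
  have h4 : ∫ s in Set.Icc (-K) K, (∑ y, C.q y * Real.exp (U (npt i (C.x y) s)))
      ∂(gaussianReal 0 1) ≤ (1 + ε') * ∫ s in Set.Icc (-K) K, H s ∂(gaussianReal 0 1) := by
    rw [← integral_const_mul]
    exact integral_mono (hsumc.continuousOn.integrableOn_compact isCompact_Icc)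
      (hHint.const_mul _) hstep1
  have hI0 : 0 ≤ ∫ s in Set.Icc (-K) K, H s ∂(gaussianReal 0 1) :=
    integral_nonneg hHnn
  set I1 := ∫ s in Set.Icc (-K) K, H s ∂(gaussianReal 0 1) with hI1
  set S1 := ∑ y, C1.q y * Real.exp (U (C1.x y)) with hS1
  set Z1 := ∫ y, Real.exp (U fun j => Real.sqrt ((N + 1 : ℕ) : ℝ) * ys y j) ∂(sph (N + 1)) with hZ1
  calc (1 - ε) * ∫ s in Set.Icc (-K) K, (∑ y, C.q y * Real.exp (U (npt i (C.x y) s)))
        ∂(gaussianReal 0 1)
      ≤ (1 - ε) * ((1 + ε') * I1) := mul_le_mul_of_nonneg_left h4 (by linarith)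
    _ ≤ (1 - ε') * ((1 - ε') * I1) := by
        rw [← mul_assoc, ← mul_assoc]
        refine mul_le_mul_of_nonneg_right ?_ hI0
        rw [hε']; nlinarith
    _ ≤ (1 - ε') * Z1 := mul_le_mul_of_nonneg_left h3 (by linarith)
    _ ≤ S1 := hstep2

end Crest.Agent.R146.NewF857
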