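import Crest.Agent.R146.JamAsm_576
import Crest.Agent.R146.Lev2_576
import Crest.Agent.R146.HilbE1_12
import Crest.Agent.R146.P34_734
import Crest.Agent.R146.DualG2_256
import Crest.Agent.R146.HilbD_356

-- ▼ part R146/P5Out_576
section

/-!
Row 146, package P5: the structure `P5Out` (consumer side, helper576; producer side: helper12).

`P5Out M ξ αc η x D x0 D0 xJ DJ s`:
* `x α b`, `D α b` : force and profile at density `α`, inverse temperature `b`, in the SCALED form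
  (`lam = b • x`, profile `b D`), so that the damping is `1`;
* `x0 α`, `D0 α`   : zero temperature, damping `1`;
* `xJ`, `DJ`       : jamming, damping `0`, `DJ 1 = 0`;
* `s α • x0 α → xJ`.
The gap is `ξ + Dop D x` in all cases.
-/

set_option autoImplicit false

namespace Crest.Agent.R146.P5Out_576

open Set Filter Topology MeasureTheory ProbabilityTheory Crest.Agent.R146.Hilb
  Crest.Agent.R146.Lev_576 Crest.Agent.R146.Lev2_576 Crest.Agent.R146.Obs918
  Crest.Agent.R146.JamAsm_576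
open scoped RealInnerProductSpace NNReal ENNReal

variable {H : Type*} [NormedAddCommGroup H] [InnerProductSpace ℝ H] [CompleteSpace H] {R : Res H}
  {Ω : Type*} {mΩ : MeasurableSpace Ω} {P : Measure Ω} {B : ℝ≥0 → Ω → ℝ}
  {hBm : ∀ t, Measurable (B t)}

/-- **Output of package P5.** -/
structure P5Out (M : Model R P B hBm) (ξ : H) (αc η : ℝ) (x : ℝ → ℝ → H)
    (D : ℝ → ℝ → ℝ → ℝ) (x0 : ℝ → H) (D0 : ℝ → ℝ → ℝ) (xJ : H) (DJ : ℝ → ℝ) (s : ℝ → ℝ) :
    Prop where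
  /-- the data vector is `1 + B_1` -/
  xi : M.J ξ =ᵐ[P] fun ω => 1 + B 1 ω
  η_pos : 0 < η
  /-- finite temperature -/
  temp : ∀ α, αc < α → α < αc + η → ∀ b, 0 < b → LCP M ξ 1 (D α b) (x α b)
  /-- the cap of the profile (`D α b t ≤ b (1 - t)`, `D α b 1 = 0`) -/
  cap : ∀ α, αc < α → α < αc + η → ∀ b, 0 < b →
    ∃ L : ℝ, ∀ t ∈ Ico (0 : ℝ) 1, D α b t - D α b 1 ≤ L * (1 - t)
  /-- zero temperature -/
  zero : ∀ α, αc < α → α < αc + η → LCP M ξ 1 (D0 α) (x0 α)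
  /-- Lipschitz bound (LIP) at zero temperature -/
  lip : ∀ α, αc < α → α < αc + η →
    ∃ C : ℝ, ∀ t ∈ Ico (0 : ℝ) 1, ‖x0 α - R.P t (x0 α)‖ ^ 2 ≤ C * (1 - t)
  /-- jamming -/
  jam : LCP M ξ 0 DJ xJ
  jam_one : DJ 1 = 0
  /-- (4c) -/
  atomL : ∀ l : ℝ, 0 < l → P {ω | M.J xJ ω = l} = 0
  /-- (4d) -/
  compl : P {ω | M.J (ξ + R.Dop DJ xJ) ω = 0 ∧ M.J xJ ω = 0} = 0
  /-- node E -/
  limE : ∀ α, αc < α → α < αc + η →
    Tendsto (fun b => ξ + R.Dop (D α b) (x α b)) atTop (𝓝 (ξ + R.Dop (D0 α) (x0 α)))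
  s_pos : ∀ α, αc < α → α < αc + η → 0 < s α
  /-- node F, force -/
  limL : Tendsto (fun α => s α • x0 α) (𝓝[>] αc) (𝓝 xJ)
  /-- node F, gap -/
  limH : Tendsto (fun α => ξ + R.Dop (D0 α) (x0 α)) (𝓝[>] αc) (𝓝 (ξ + R.Dop DJ xJ))

/-- **Consumer side**: `P5Out` gives `JamData` with `X α b = J (ξ + Dop (D α b) (x α b))`. -/
theorem P5Out.jamData [IsProbabilityMeasure P] {M : Model R P B hBm}
    (hB : IsPreBrownianReal B P) {ξ : H} {αc η : ℝ} {x : ℝ → ℝ → H} {D : ℝ → ℝ → ℝ → ℝ}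
    {x0 : ℝ → H} {D0 : ℝ → ℝ → ℝ} {xJ : H} {DJ : ℝ → ℝ} {s : ℝ → ℝ}
    (O : P5Out M ξ αc η x D x0 D0 xJ DJ s) :
    JamData P αc η (fun α b => M.J (ξ + R.Dop (D α b) (x α b)))
      (fun α => M.J (ξ + R.Dop (D0 α) (x0 α))) (M.J (ξ + R.Dop DJ xJ)) (frc M xJ) s :=
  Crest.Agent.R146.JamAsm_576.jamData M hB O.xi O.η_pos (fun α h1 h2 b hb => ⟨O.temp α h1 h2 b hb, O.cap α h1 h2 b hb⟩)
    (fun α h1 h2 => ⟨O.zero α h1 h2, O.lip α h1 h2⟩) O.jam O.jam_one O.atomL O.compl O.limE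
    O.s_pos O.limL O.limH

/-- restriction to a smaller `η` -/
theorem P5Out.mono {M : Model R P B hBm} {ξ : H} {αc η η' : ℝ} {x : ℝ → ℝ → H}
    {D : ℝ → ℝ → ℝ → ℝ} {x0 : ℝ → H} {D0 : ℝ → ℝ → ℝ} {xJ : H} {DJ : ℝ → ℝ} {s : ℝ → ℝ}
    (O : P5Out M ξ αc η x D x0 D0 xJ DJ s) (h0 : 0 < η') (h : η' ≤ η) :
    P5Out M ξ αc η' x D x0 D0 xJ DJ s where
  xi := O.xi
  η_pos := h0
  temp α h1 h2 := O.temp α h1 (h2.trans_le (by linarith))
  cap α h1 h2 := O.cap α h1 (h2.trans_le (by linarith))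
  zero α h1 h2 := O.zero α h1 (h2.trans_le (by linarith))
  lip α h1 h2 := O.lip α h1 (h2.trans_le (by linarith))
  jam := O.jam
  jam_one := O.jam_one
  atomL := O.atomL
  compl := O.compl
  limE α h1 h2 := O.limE α h1 (h2.trans_le (by linarith))
  s_pos α h1 h2 := O.s_pos α h1 (h2.trans_le (by linarith))
  limL := O.limL
  limH := O.limH

end Crest.Agent.R146.P5Out_576
end

-- ▼ part R146/JamIface_776
section

/-!
Row 146, INTERFACE P5 <-> PT (helper776).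

`IsJam`     : jamming minimiser `(x, D)` of the one-homogeneous functional at `αc`
              (produced by node F of P5, helper491; consumed by PT for EVERY such pair).
`TipOut`    : what PT delivers at such a minimiser: `D 1 = 0`, charge, log-limit of `D`.
`TIP`       : the implication, on a Brownian model.
-/

set_option autoImplicit false

namespace Crest.Agent.R146.JamIface_776

open Set Filter Topology MeasureTheory ProbabilityTheory
open Crest.Agent.R146.Hilb Crest.Agent.R146.ProfB_540 Crest.Agent.R146.HilbE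
open Crest.Agent.R146.Lev2_576
open scoped RealInnerProductSpace NNReal

variable {H : Type*} [NormedAddCommGroup H] [InnerProductSpace ℝ H] [CompleteSpace H]

/-- `(x, D)` is a jamming minimiser: `J0 ≥ 0` on `K × Adm 0`, `J0 (x, D) = 0`, `x ≠ 0`.
`J0 (x, D) = αc ⟪x, ξ⟫ + (αc/2) Q D x + ½ ∫ 1/D`. -/
structure IsJam (R : Res H) (K : Set H) (ξ : H) (αc : ℝ) (x : H) (D : ℝ → ℝ) : Prop where
  xK : x ∈ K
  x0 : x ≠ 0
  adm : Adm 0 D
  zero : Je R αc 0 0 ξ x D = 0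
  min : ∀ y ∈ K, ∀ D' : ℝ → ℝ, Adm 0 D' → 0 ≤ Je R αc 0 0 ξ y D'

/-- output of the tip analysis, with `h = ξ + Dop D x`, `h_t = P_t h`. -/
structure TipOut (R : Res H) (ξ : H) (x : H) (D : ℝ → ℝ) (ν : ℝ) : Prop where
  D_one : D 1 = 0
  charge : ∃ c0 : ℝ, 0 < c0 ∧ ∃ t1 ∈ Ico (0 : ℝ) 1, ∀ t ∈ Ico t1 1,
    ⟪R.P t (ξ + R.Dop D x), x⟫ = c0 * (1 - t)
  log_D : Tendsto (fun t => Real.log (D t) / Real.log (1 - t)) (𝓝[<] 1) (𝓝 ν)
  ν_lo : 0.2936533 < ν
  ν_hi : ν < 0.2936535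


end Crest.Agent.R146.JamIface_776
end

-- ▼ part R146/P5A_12
section

/-!
Package P5, row 146 (helper12): scaling of the functional `Je` and the THRESHOLD LINK at Hilbert
level (885 (6b)): the ground state energy vanishes iff the jamming functional is nonnegative.

* `Je_smul`  : `Je α c e (s x, D/s) = s Je α (c s) (e/s) (x, D)`;
* `ZeroH`    : `∀ d > 0`, eventually in `b`: `-d ≤ Je α 1 (1/b)` on `K × Adm (1/b)`;
* `JamNN`    : `0 ≤ Je α 0 0` on `K × Adm 0`;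
* `zeroH_iff : ZeroH ↔ JamNN`, `JamNN.of_lt` (passage to the threshold), `exists_neg`, `ne_zero`.
-/

set_option autoImplicit false

open MeasureTheory Set Filter Topology
open scoped RealInnerProductSpace

namespace Crest.Agent.R146.P5A_12

open Crest.Agent.R146.Hilb Crest.Agent.R146.ProfB_540 Crest.Agent.R146.HilbE

section Profiles

lemma entF_scale {s : ℝ} (hs : s ≠ 0) (e : ℝ) (D : ℝ → ℝ) :
    entF e (fun t => D t / s) = fun t => s * entF (e / s) D t := by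
  funext t
  unfold entF
  rw [one_div_div, mul_sub, mul_one_div, ← mul_div_assoc, mul_div_cancel₀ _ hs]

lemma Ent_scale {s : ℝ} (hs : s ≠ 0) (e : ℝ) (D : ℝ → ℝ) :
    Ent e (fun t => D t / s) = s * Ent (e / s) D := by
  unfold Ent
  rw [entF_scale hs, intervalIntegral.integral_const_mul]

lemma adm_scale {e s : ℝ} (hs : 0 < s) {D : ℝ → ℝ} (h : Adm (e / s) D) :
    Adm e (fun t => D t / s) where
  prof := by
    have := h.prof.smul (c := s⁻¹) (by positivity)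
    refine ⟨?_, ?_, ?_, ?_, ?_⟩
    · have h1 := this.conc
      simpa only [div_eq_inv_mul] using h1
    · have h1 := this.anti
      simpa only [div_eq_inv_mul] using h1
    · have h1 := this.cont
      simpa only [div_eq_inv_mul] using h1
    · intro t ht
      have h1 := this.pos t ht
      simpa only [div_eq_inv_mul] using h1
    · have h1 := this.one
      simpa only [div_eq_inv_mul] using h1
  cap := fun t ht => by
    have := h.cap t ht
    have e1 : e * (D t / s) = e / s * D t := by ring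
    rw [e1]; exact this
  int := by
    rw [entF_scale hs.ne']
    exact h.int.const_mul s


lemma Ent_nonneg {e : ℝ} {D : ℝ → ℝ} (h : Adm e D) : 0 ≤ Ent e D := by
  unfold Ent
  rw [intervalIntegral.integral_of_le zero_le_one]
  refine integral_nonneg_of_ae ?_
  filter_upwards [ae_lt_one, ae_restrict_mem measurableSet_Ioc] with t h1 h2
  have h3 := h.prof.pos t ⟨h2.1.le, h1⟩
  have h4 := h.cap t ⟨h2.1.le, h1.le⟩
  have h5 : 0 < 1 - t := by linarith
  show 0 ≤ entF e D t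
  unfold entF
  rw [sub_nonneg, div_le_div_iff₀ h5 h3]
  linarith

end Profiles

variable {H : Type*} [NormedAddCommGroup H] [InnerProductSpace ℝ H] [CompleteSpace H] (R : Res H)

lemma Je_c (α c e : ℝ) (ξ x : H) (D : ℝ → ℝ) :
    Je R α c e ξ x D = Je R α 0 e ξ x D + α * c / 2 * ‖x‖ ^ 2 := by
  unfold Je; ring

lemma Je_smul {s : ℝ} (hs : 0 < s) (α c e : ℝ) (ξ x : H) {D : ℝ → ℝ}
    (hD : ContinuousOn D (Icc 0 1)) :
    Je R α c e ξ (s • x) (fun t => D t / s) = s * Je R α (c * s) (e / s) ξ x D := by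
  have h1 : R.Q (fun t => D t / s) (s • x) = s * R.Q D x := by
    have e1 : (fun t => D t / s) = fun t => s⁻¹ * D t := by funext t; rw [div_eq_inv_mul]
    rw [R.Q_smul_vec, e1, R.Q_smul hD]
    field_simp
  unfold Je
  rw [h1, Ent_scale hs.ne', real_inner_smul_left, norm_smul, Real.norm_of_nonneg hs.le]
  ring

/-- vanishing ground state energy, Hilbert form -/
def ZeroH (K : Set H) (ξ : H) (α : ℝ) : Prop :=
  ∀ d : ℝ, 0 < d → ∃ b0 : ℝ, 0 < b0 ∧ ∀ b : ℝ, b0 ≤ b → ∀ x ∈ K, ∀ D : ℝ → ℝ, Adm (1 / b) D →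
    -d ≤ Je R α 1 (1 / b) ξ x D

/-- nonnegativity of the jamming functional -/
def JamNN (K : Set H) (ξ : H) (α : ℝ) : Prop :=
  ∀ x ∈ K, ∀ D : ℝ → ℝ, Adm 0 D → 0 ≤ Je R α 0 0 ξ x D

/-- a negative value of the jamming functional gives a negative value at zero temperature -/
theorem exists_neg {K : Set H} (hK : ∀ s : ℝ, 0 < s → ∀ x ∈ K, s • x ∈ K) {ξ : H} {α : ℝ}
    (h : ¬ JamNN R K ξ α) : ∃ x ∈ K, ∃ D : ℝ → ℝ, Adm 0 D ∧ Je R α 1 0 ξ x D < 0 := by
  unfold JamNN at h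
  push Not at h
  obtain ⟨x, hx, D, hD, hneg⟩ := h
  -- scale by a small `s`
  have h1 : Tendsto (fun s : ℝ => Je R α 0 0 ξ x D + s * (α / 2 * ‖x‖ ^ 2)) (𝓝[>] 0)
      (𝓝 (Je R α 0 0 ξ x D + 0 * (α / 2 * ‖x‖ ^ 2))) :=
    ((by fun_prop : Continuous fun s : ℝ => Je R α 0 0 ξ x D + s * (α / 2 * ‖x‖ ^ 2)).tendsto
      0).mono_left nhdsWithin_le_nhds
  rw [zero_mul, add_zero] at h1
  have h2 := (tendsto_order.1 h1).2 0 hneg
  obtain ⟨s, hs, hs0⟩ := (h2.and self_mem_nhdsWithin).exists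
  have hs0 : 0 < s := hs0
  refine ⟨s • x, hK s hs0 x hx, fun t => D t / s, ?_, ?_⟩
  · refine adm_scale hs0 ?_
    rwa [zero_div]
  · rw [Je_smul R hs0 α 1 0 ξ x hD.prof.cont, zero_div, one_mul, Je_c]
    have : Je R α 0 0 ξ x D + α * s / 2 * ‖x‖ ^ 2 < 0 := by linarith
    exact mul_neg_of_pos_of_neg hs0 this

/-- **threshold link** -/
theorem zeroH_iff {K : Set H} (hK : ∀ s : ℝ, 0 < s → ∀ x ∈ K, s • x ∈ K) {ξ : H} {α : ℝ}
    (hα : 0 ≤ α) : ZeroH R K ξ α ↔ JamNN R K ξ α := by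
  constructor
  · intro h
    by_contra hcon
    obtain ⟨x, hx, D, hD, hneg⟩ := exists_neg R hK hcon
    obtain ⟨b0, hb0, hb⟩ := h (-Je R α 1 0 ξ x D / 2) (by linarith)
    have hb1 := hb b0 le_rfl x hx _ (adm_cap (by positivity) hD)
    have hb2 := Je_cap_le R (e := 1 / b0) hα (by positivity) 1 ξ x hD
    linarith
  · intro h d hd
    have h1 := errE_tendsto 0 0
    have h2 : ∀ᶠ b : ℝ in atTop, errE 0 0 (1 / b) < d := by
      have h3 : Tendsto (fun b : ℝ => 1 / b) atTop (𝓝[>] 0) := by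
        simpa using tendsto_inv_atTop_nhdsGT_zero (𝕜 := ℝ)
      exact (tendsto_order.1 (h1.comp h3)).2 d hd
    obtain ⟨b0, hb0⟩ := (h2.and (eventually_ge_atTop (1 : ℝ))).exists_forall_of_atTop
    refine ⟨max b0 1, by positivity, fun b hb x hx D hD => ?_⟩
    have hb1 : 1 ≤ b := (le_max_right _ _).trans hb
    have hbe := (hb0 b ((le_max_left _ _).trans hb)).1
    have hbp : 0 < b := by linarith
    have he : 0 < 1 / b := by positivity
    have he1 : 1 / b ≤ 1 := by rw [div_le_iff₀ hbp]; linarith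
    have h4 := Je_add_le R (α := α) he he1 1 ξ x hD
    have h5 := h x hx _ (adm_add he hD)
    rw [Je_c] at h4
    unfold errE at hbe
    have h6 : 1 / b * ‖x‖ ^ 2 ≤ 1 * ‖x‖ ^ 2 := mul_le_mul_of_nonneg_right he1 (sq_nonneg _)
    have h7 := mul_le_mul_of_nonneg_left h6 (by positivity : 0 ≤ α / 2)
    nlinarith


/-- passage to the threshold -/
theorem JamNN.of_lt {K : Set H} {ξ : H} {αc : ℝ} (hαc : 0 < αc)
    (h : ∀ α, 0 < α → α < αc → JamNN R K ξ α) : JamNN R K ξ αc := by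
  intro x hx D hD
  have h1 : Tendsto (fun α : ℝ => Je R α 0 0 ξ x D) (𝓝[<] αc) (𝓝 (Je R αc 0 0 ξ x D)) := by
    have : Continuous fun α : ℝ => Je R α 0 0 ξ x D := by unfold Je; fun_prop
    exact (this.tendsto αc).mono_left nhdsWithin_le_nhds
  refine ge_of_tendsto h1 ?_
  filter_upwards [Ioo_mem_nhdsLT hαc] with α hα
  exact h α hα.1 hα.2 x hx D hD

/-- monotonicity in the density: the jamming functional decreases when it is nonpositive -/
theorem JamNN.anti {K : Set H} {ξ : H} {α α' : ℝ} (hα : 0 < α) (hαα : α ≤ α')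
    (h : JamNN R K ξ α') : JamNN R K ξ α := by
  intro x hx D hD
  have h1 := h x hx D hD
  have h2 : 0 ≤ Ent 0 D := Ent_nonneg hD
  unfold Je at h1 ⊢
  simp only [mul_zero, zero_div, zero_mul, add_zero] at h1 ⊢
  by_contra hcon
  push Not at hcon
  have h3 : ⟪x, ξ⟫ + 1 / 2 * R.Q D x < 0 := by
    by_contra h4
    push Not at h4
    have := mul_nonneg hα.le h4
    nlinarith
  nlinarith

/-- a point with negative value has nonzero force -/
theorem ne_zero {α c e : ℝ} {ξ x : H} {D : ℝ → ℝ} (hD : Adm e D)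
    (h : Je R α c e ξ x D < 0) : x ≠ 0 := by
  rintro rfl
  have h1 := Ent_nonneg hD
  unfold Je at h
  simp only [inner_zero_left, mul_zero, norm_zero, ne_eq, OfNat.ofNat_ne_zero, not_false_eq_true,
    zero_pow, add_zero, Res.Q, map_zero, zero_add] at h
  linarith

end Crest.Agent.R146.P5A_12
end

-- ▼ part R146/P5Def_12

/-!
Row 146, package P5, PRODUCER SIDE (helper12): frozen Props at the literal Brownian instance.

For `W : BS`: Hilbert space `HW W` (node G), `RW W : Res`, `MW W : Model`, cone `KW W`,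
`ξ = xiW W` (`J ξ = 1 + B_1`).  `IsMinW W α c e x D` = minimiser of `Je R α c e ξ` on `K × Adm e`.

Nodes (each a `def NAME (W : BS) : Prop`):
* `MINB`, `MIN0` : existence of minimisers, `b < ∞` and `T = 0` (helper952);
* `ELIM` : node E, `b → ∞` (helper12);
* `FLIM` : node F, `α → αc+` (helper491);
* `LIPZ` : Lipschitz bound of the `T = 0` minimiser (helper861);
* `LEVC`, `LEVD` : (4c), (4d) for a jamming minimiser with `TipOut` (helper4);
* `LINKM` : minimiser ⟹ `OverlapProfile` attaining `Pv`, gap `= 1 + XP` (helper356);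
* `LINKZ` : `ZeroE α (-1) ↔ ZeroH` (helper12/356);
* `TIPW` : the tip theorem at this instance (PT).
-/

set_option autoImplicit false

namespace Crest.Agent.R146.P5Def_12

open Set Filter Topology MeasureTheory ProbabilityTheory Crest.ProbabilityR.Perceptron
open Crest.Agent.R146.Hilb Crest.Agent.R146.ProfB_540 Crest.Agent.R146.HilbE
open Crest.Agent.R146.Lev2_576 Crest.Agent.R146.P34_734 Crest.Agent.R146.DualG_256
open Crest.Agent.R146.DualL_256 Crest.Agent.R146.JamIface_776 Crest.Agent.R146.P5A_12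
open scoped RealInnerProductSpace NNReal

noncomputable section

/-- the Hilbert space of node G for `W` -/
abbrev HW (W : BS) : Submodule ℝ (Lp ℝ 2 W.P) := HH W.P W.B W.meas

abbrev RW (W : BS) : Res (HW W) := RB W.P W.B W.meas

abbrev MW (W : BS) : Model (RW W) W.P W.B W.meas := modelB W.P W.B W.meas

abbrev KW (W : BS) : Set (HW W) := KB W.P W.B W.meas

/-- `ξ = 1 + B_1` -/
def xiW (W : BS) : HW W := xi W.meas W.br 1

/-- minimiser of `Je R α c e ξ` on `K × Adm e` (helper356's `IsMin` at this instance) -/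
abbrev IsMinW (W : BS) (α c e : ℝ) (x : HW W) (D : ℝ → ℝ) : Prop :=
  HilbD.IsMin (RW W) α c e (xiW W) (KW W) x D

/-- (MINB) existence at finite temperature (scaled variables) -/
def MINB (W : BS) : Prop := ∀ α b : ℝ, 0 < α → 0 < b → ∃ x D, IsMinW W α 1 (1 / b) x D

/-- (MIN0) existence at zero temperature when the infimum is negative -/
def MIN0 (W : BS) : Prop := ∀ α : ℝ, 0 < α → ¬ JamNN (RW W) (KW W) (xiW W) α →
  ∃ x D, IsMinW W α 1 0 x D

/-- (ELIM) node E: `b → ∞` -/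
def ELIM (W : BS) : Prop := ∀ α : ℝ, 0 < α → ¬ JamNN (RW W) (KW W) (xiW W) α →
  ∀ (x : ℝ → HW W) (D : ℝ → ℝ → ℝ), (∀ b, 0 < b → IsMinW W α 1 (1 / b) (x b) (D b)) →
  ∀ (x0 : HW W) (D0 : ℝ → ℝ), IsMinW W α 1 0 x0 D0 →
    Tendsto (fun b => xiW W + (RW W).Dop (D b) (x b)) atTop (𝓝 (xiW W + (RW W).Dop D0 x0))

/-- (FLIM) node F: `α → αc+` -/
def FLIM (W : BS) : Prop := ∀ αc : ℝ, 0 < αc → JamNN (RW W) (KW W) (xiW W) αc →
  (∀ α, αc < α → ¬ JamNN (RW W) (KW W) (xiW W) α) →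
  ∀ (x0 : ℝ → HW W) (D0 : ℝ → ℝ → ℝ), (∀ α, αc < α → IsMinW W α 1 0 (x0 α) (D0 α)) →
  ∃ (s : ℝ → ℝ) (xJ : HW W) (DJ : ℝ → ℝ), (∀ α, αc < α → 0 < s α) ∧
    IsJam (RW W) (KW W) (xiW W) αc xJ DJ ∧
    Tendsto (fun α => s α • x0 α) (𝓝[>] αc) (𝓝 xJ) ∧
    Tendsto (fun α => xiW W + (RW W).Dop (D0 α) (x0 α)) (𝓝[>] αc)
      (𝓝 (xiW W + (RW W).Dop DJ xJ))

/-- (LIPZ) Lipschitz bound at zero temperature -/
def LIPZ (W : BS) : Prop := ∀ α : ℝ, 0 < α → ∀ (x : HW W) (D : ℝ → ℝ), IsMinW W α 1 0 x D →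
  ∃ C : ℝ, ∀ t ∈ Ico (0 : ℝ) 1, ‖x - (RW W).P t x‖ ^ 2 ≤ C * (1 - t)

/-- (TIPW) the tip theorem -/
def TIPW (W : BS) : Prop := ∀ αc : ℝ, 0 < αc → ∀ (x : HW W) (D : ℝ → ℝ),
  IsJam (RW W) (KW W) (xiW W) αc x D → ∃ ν : ℝ, TipOut (RW W) (xiW W) x D ν

/-- (LEVC) = (4c) -/
def LEVC (W : BS) : Prop := ∀ αc : ℝ, 0 < αc → ∀ (x : HW W) (D : ℝ → ℝ) (ν : ℝ),
  IsJam (RW W) (KW W) (xiW W) αc x D → TipOut (RW W) (xiW W) x D ν →
  ∀ l : ℝ, 0 < l → W.P {ω | (MW W).J x ω = l} = 0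

/-- (LEVD) = (4d) -/
def LEVD (W : BS) : Prop := ∀ αc : ℝ, 0 < αc → ∀ (x : HW W) (D : ℝ → ℝ) (ν : ℝ),
  IsJam (RW W) (KW W) (xiW W) αc x D → TipOut (RW W) (xiW W) x D ν →
  W.P {ω | (MW W).J (xiW W + (RW W).Dop D x) ω = 0 ∧ (MW W).J x ω = 0} = 0

/-- (LINKM) from the minimiser to the profile attaining `Pv` -/
def LINKM (W : BS) : Prop := ∀ (α b : ℝ), 0 < α → ∀ hb : 0 < b, ∀ (x : HW W) (D : ℝ → ℝ),
  IsMinW W α 1 (1 / b) x D → ∃ m : OverlapProfile, m.entropy ≠ ⊤ ∧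
    W.Pv α (fq b (-1)) = α * W.V (fq b (-1)) m + m.entropy.toReal ∧
    (MW W).J (xiW W + (RW W).Dop D x) =ᵐ[W.P]
      fun ω => 1 + (XP W.meas W.br m hb (-1) : W.Ω → ℝ) ω

/-- (LINKZ) vanishing ground state energy, literal and Hilbert forms -/
def LINKZ (W : BS) : Prop := ∀ α : ℝ, 0 < α →
  (W.ZeroE α (-1) ↔ ZeroH (RW W) (KW W) (xiW W) α)

end

end Crest.Agent.R146.P5Def_12
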