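import Crest.Prelude.Def_SphericalPressure
import Crest.Agent.R146.P34_734

-- ▼ part R146/Mono_930
section

/-!
Row 146, node (7) of post 308: the control value `V_f(m)` is monotone in the tail
`D_m(t) = ∫_t^1 m`, for EVERY overlap profile and every bounded `f`.

Proof by time change: the "remaining mass" `r = D(t)` is used as clock. A control `v` for the profile
`m₁` becomes the control `v'_t = v_{τ(t)} 1[D₂ t < D₁ 0]` for `m₂`, with
`τ(t) = inf {s ∈ [0,1] : D₁ s ≤ D₂ t} ≤ t`. The push-forward of `m₂ dt` (on `{D₂ < D₁ 0}`) under `τ` is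
`m₁ dt`, so the displacement `∫ m v` and the cost are the same pathwise.
-/

set_option autoImplicit false

namespace Crest.Agent.R146.Mono_930

open MeasureTheory Set Crest.ProbabilityR.Perceptron

/-! ### The mass measure of a profile -/

/-- The measure `m(t) dt` on `[0,1]`. -/
noncomputable def massMeasure (m : OverlapProfile) : Measure ℝ :=
  (volume.restrict (Icc (0 : ℝ) 1)).withDensity fun t => ENNReal.ofReal (m.toFun t)

theorem measurable_toFun (m : OverlapProfile) : Measurable m.toFun := m.mono.measurable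

theorem integrableOn_toFun (m : OverlapProfile) : IntegrableOn m.toFun (Icc (0 : ℝ) 1) := by
  refine Measure.integrableOn_of_bounded (M := 1) (by simp) (measurable_toFun m).aestronglyMeasurable ?_
  refine (ae_restrict_iff' measurableSet_Icc).2 (Filter.Eventually.of_forall fun t ht => ?_)
  rw [Real.norm_eq_abs, abs_of_nonneg (m.nonneg t ht)]
  exact m.le_one t ht

theorem intervalIntegrable_toFun (m : OverlapProfile) {a b : ℝ} (ha : 0 ≤ a) (hab : a ≤ b)
    (hb : b ≤ 1) : IntervalIntegrable m.toFun volume a b := by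
  rw [intervalIntegrable_iff_integrableOn_Ioc_of_le hab]
  exact (integrableOn_toFun m).mono_set fun t ht => ⟨ha.trans ht.1.le, ht.2.trans hb⟩

theorem tail_one (m : OverlapProfile) : m.tail 1 = 0 := by
  simp [OverlapProfile.tail]

theorem tail_sub (m : OverlapProfile) {s t : ℝ} (hs : 0 ≤ s) (hst : s ≤ t) (ht : t ≤ 1) :
    m.tail s - m.tail t = ∫ r in s..t, m.toFun r := by
  unfold OverlapProfile.tail
  rw [sub_eq_iff_eq_add]
  exact (intervalIntegral.integral_add_adjacent_intervals
    (intervalIntegrable_toFun m hs hst ht)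
    (intervalIntegrable_toFun m (hs.trans hst) ht le_rfl)).symm



theorem tail_lip (m : OverlapProfile) {s t : ℝ} (hs : 0 ≤ s) (hst : s ≤ t) (ht : t ≤ 1) :
    m.tail s - m.tail t ≤ t - s := by
  rw [tail_sub m hs hst ht]
  calc ∫ r in s..t, m.toFun r ≤ ∫ _r in s..t, (1 : ℝ) :=
        intervalIntegral.integral_mono_on hst (intervalIntegrable_toFun m hs hst ht)
          (by simp) fun r hr => m.le_one r ⟨hs.trans hr.1, hr.2.trans ht⟩
    _ = t - s := by simp


theorem massMeasure_apply (m : OverlapProfile) {S : Set ℝ} (hS : MeasurableSet S) :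
    massMeasure m S = ∫⁻ t in S ∩ Icc 0 1, ENNReal.ofReal (m.toFun t) := by
  unfold massMeasure
  rw [withDensity_apply _ hS, Measure.restrict_restrict hS]

theorem massMeasure_Ioc (m : OverlapProfile) {t : ℝ} (h0 : 0 ≤ t) (h1 : t ≤ 1) :
    massMeasure m (Ioc t 1) = ENNReal.ofReal (m.tail t) := by
  have hI : Ioc t 1 ∩ Icc (0 : ℝ) 1 = Ioc t 1 :=
    inter_eq_left.2 fun s hs => ⟨h0.trans hs.1.le, hs.2⟩
  rw [massMeasure_apply m measurableSet_Ioc, hI]
  unfold OverlapProfile.tail
  rw [intervalIntegral.integral_of_le h1]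
  rw [ofReal_integral_eq_lintegral_ofReal]
  · exact (integrableOn_toFun m).mono_set fun s hs => ⟨h0.trans hs.1.le, hs.2⟩
  · refine (ae_restrict_iff' measurableSet_Ioc).2 (Filter.Eventually.of_forall fun s hs => ?_)
    exact m.nonneg s ⟨h0.trans hs.1.le, hs.2⟩

instance (m : OverlapProfile) : IsFiniteMeasure (massMeasure m) := by
  refine ⟨?_⟩
  have h : massMeasure m univ ≤ ∫⁻ _t in Icc (0 : ℝ) 1, (1 : ENNReal) := by
    rw [massMeasure_apply m MeasurableSet.univ, univ_inter]
    refine setLIntegral_mono measurable_const fun t ht => ?_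
    exact ENNReal.ofReal_le_one.2 (m.le_one t ht)
  refine h.trans_lt ?_
  simp

theorem massMeasure_compl (m : OverlapProfile) : massMeasure m (Icc (0 : ℝ) 1)ᶜ = 0 := by
  rw [massMeasure_apply m measurableSet_Icc.compl]
  simp


/-! ### The time change -/

section TimeChange

variable (m₁ m₂ : OverlapProfile)


















end TimeChange

/-! ### The transported control -/

variable {Ω : Type*} [MeasurableSpace Ω]




/-- For a progressive `v` the path `s ↦ v_s(ω)`, cut at time `1`, is measurable. -/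
theorem measurable_path (F : Filtration NNReal ‹MeasurableSpace Ω›) {v : NNReal → Ω → ℝ}
    (hv : IsProgressive F v) (ω : Ω) :
    Measurable fun t : ℝ => v (Real.toNNReal (min t 1)) ω := by
  have h1 := hv 1
  have hfst : Measurable fun t : ℝ =>
      (⟨Real.toNNReal (min t 1), by
        simp only [mem_Iic]
        rw [← Real.toNNReal_one]
        exact Real.toNNReal_le_toNNReal (min_le_right _ _)⟩ : Iic (1 : NNReal)) := by
    refine Measurable.subtype_mk ?_
    exact measurable_real_toNNReal.comp (measurable_id.min measurable_const)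
  exact (h1.comp (measurable_prodMk_right (y := ω))).comp hfst

/-- Cost integrals against `dt` are integrals against the mass measure. -/
theorem lintegral_cost (m : OverlapProfile) (w : ℝ → ℝ) (hw : Measurable fun t => w (min t 1)) :
    ∫⁻ t in Icc (0 : ℝ) 1, ENNReal.ofReal (m.toFun t * w t ^ 2) =
      ∫⁻ t, ENNReal.ofReal (w (min t 1) ^ 2) ∂massMeasure m := by
  unfold massMeasure
  rw [lintegral_withDensity_eq_lintegral_mul _
    ((measurable_toFun m).ennreal_ofReal) ((hw.pow_const 2).ennreal_ofReal)]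
  refine setLIntegral_congr_fun measurableSet_Icc fun t ht => ?_
  simp only [Pi.mul_apply]
  rw [min_eq_left ht.2, ENNReal.ofReal_mul (m.nonneg t ht)]

theorem integral_displ (m : OverlapProfile) (w : ℝ → ℝ) :
    ∫ t in (0 : ℝ)..1, m.toFun t * w t = ∫ t, w (min t 1) ∂massMeasure m := by
  unfold massMeasure
  rw [integral_withDensity_eq_integral_toReal_smul ((measurable_toFun m).ennreal_ofReal)
    (Filter.Eventually.of_forall fun _ => ENNReal.ofReal_lt_top)]
  rw [intervalIntegral.integral_of_le zero_le_one, ← integral_Icc_eq_integral_Ioc]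
  refine setIntegral_congr_fun measurableSet_Icc fun t ht => ?_
  simp only [smul_eq_mul]
  rw [min_eq_left ht.2, ENNReal.toReal_ofReal (m.nonneg t ht)]






/-! ### Monotonicity of the control value -/

variable (P : Measure Ω) (B : NNReal → Ω → ℝ) (hB : ∀ t, Measurable (B t))




/-- The zero control is admissible. -/
theorem isAdmissible_zero (m : OverlapProfile) :
    IsAdmissibleControl P B hB m (fun _ _ => 0) := by
  refine ⟨isProgressive_const _ 0, ?_⟩
  simp [controlCost]

/-- Payoffs are bounded above when `f` is. -/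
theorem bddAbove_payoffs [IsProbabilityMeasure P] {f : ℝ → ℝ} {K : ℝ} (hf : ∀ x, f x ≤ K)
    (m : OverlapProfile) :
    BddAbove {x : ℝ | ∃ v : NNReal → Ω → ℝ, IsAdmissibleControl P B hB m v ∧
      x = controlPayoff P B f m v} := by
  refine ⟨max K 0, ?_⟩
  rintro x ⟨v, _, rfl⟩
  unfold controlPayoff
  have h2 : 0 ≤ (controlCost P m v).toReal / 2 := by positivity
  have h1 : ∫ ω, f (B 1 ω + ∫ t in (0 : ℝ)..1, m.toFun t * v (Real.toNNReal t) ω) ∂P ≤ max K 0 := by
    by_cases hi : Integrable
        (fun ω => f (B 1 ω + ∫ t in (0 : ℝ)..1, m.toFun t * v (Real.toNNReal t) ω)) P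
    · calc _ ≤ ∫ _ω, K ∂P := integral_mono hi (integrable_const K) fun ω => hf _
        _ = K := by simp
        _ ≤ max K 0 := le_max_left _ _
    · rw [integral_undef hi]; exact le_max_right _ _
  linarith



end Crest.Agent.R146.Mono_930
end

-- ▼ part R146/MonoShift_930
section

/-!
Row 146: quantitative form of node (7) of post 308. If `D_{m₁} ≤ D_{m₂} + δ` on `[0,1]` and `f` is
`L`-Lipschitz and bounded above then `V_f(m₁) ≤ V_f(m₂) + L² δ / 2`.

The control `v` for `m₁` is transported by the time change of the remaining mass shifted by `δ`; the last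
mass `δ` is lost, and `L |v| ≤ L²/2 + v²/2` on it.
-/

set_option autoImplicit false

namespace Crest.Agent.R146.MonoShift_930

open MeasureTheory Set Crest.ProbabilityR.Perceptron Crest.Agent.R146.Mono_930

section TimeChange

variable (m₁ m₂ : OverlapProfile) (δ : NNReal)


















theorem massMeasure_univ (m : OverlapProfile) : massMeasure m univ = ENNReal.ofReal (m.tail 0) := by
  have h1 : massMeasure m univ = massMeasure m (Icc (0 : ℝ) 1) := by
    rw [← measure_add_measure_compl (μ := massMeasure m) (measurableSet_Icc (a := (0 : ℝ)) (b := 1)),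
      massMeasure_compl, add_zero]
  have h2 : massMeasure m (Icc (0 : ℝ) 1) = massMeasure m (Ioc (0 : ℝ) 1) := by
    refine le_antisymm ?_ (measure_mono Ioc_subset_Icc_self)
    rw [← Ioc_union_left (zero_le_one' ℝ)]
    refine (measure_union_le _ _).trans ?_
    have : massMeasure m {0} = 0 := by
      rw [massMeasure_apply m (measurableSet_singleton 0)]
      refine le_antisymm ?_ zero_le
      refine (lintegral_mono_set inter_subset_left).trans ?_
      simp
    rw [this, add_zero]
  rw [h1, h2, massMeasure_Ioc m le_rfl zero_le_one]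





end TimeChange

/-! ### The transported control -/

variable {Ω : Type*} [MeasurableSpace Ω]






/-- The path of a process, cut at time `1`. -/
def path (v : NNReal → Ω → ℝ) (ω : Ω) (t : ℝ) : ℝ := v (Real.toNNReal (min t 1)) ω

theorem measurable_uncurry_path (F : Filtration NNReal ‹MeasurableSpace Ω›) {v : NNReal → Ω → ℝ}
    (hv : IsProgressive F v) : Measurable fun p : ℝ × Ω => path v p.2 p.1 := by
  have h1 := hv 1
  have hfst : Measurable fun t : ℝ =>
      (⟨Real.toNNReal (min t 1), by
        simp only [mem_Iic]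
        rw [← Real.toNNReal_one]
        exact Real.toNNReal_le_toNNReal (min_le_right _ _)⟩ : Iic (1 : NNReal)) := by
    refine Measurable.subtype_mk ?_
    exact measurable_real_toNNReal.comp (measurable_id.min measurable_const)
  have h2 : @Measurable (ℝ × Ω) (Iic (1 : NNReal) × Ω) _ (Subtype.instMeasurableSpace.prod (F 1))
      (fun p => (⟨Real.toNNReal (min p.1 1), by
        simp only [mem_Iic]
        rw [← Real.toNNReal_one]
        exact Real.toNNReal_le_toNNReal (min_le_right _ _)⟩, p.2)) := by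
    refine Measurable.prodMk (hfst.comp measurable_fst) ?_
    exact (measurable_id'' (F.le 1)).comp measurable_snd
  exact h1.comp h2



/-! ### The comparison -/

variable (P : Measure Ω) (B : NNReal → Ω → ℝ) (hB : ∀ t, Measurable (B t))

theorem controlCost_eq {m : OverlapProfile} {v : NNReal → Ω → ℝ}
    (hv : IsProgressive (brownianFiltration B hB) v) :
    controlCost P m v = ∫⁻ ω, ∫⁻ t, ENNReal.ofReal (path v ω t ^ 2) ∂massMeasure m ∂P := by
  unfold controlCost
  refine lintegral_congr fun ω => ?_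
  exact lintegral_cost m (fun t => v (Real.toNNReal t) ω) (measurable_path _ hv ω)





end Crest.Agent.R146.MonoShift_930
end

-- ▼ part R146/VTr_468

/-!
# R146 (helper468): the literal control value of potentials of quadratic growth

* `adm_ae`, `memLp_dsp`, `memLp_end`: for an admissible control the displacement `∫ m v` is square
  integrable, hence so is the end point `B₁ + ∫ m v`;
* `payoff_le_trunc`: replacing `v` by `max v (-c)` does not decrease the payoff if the potential
  loses at most `c d` under a shift by `d ≥ 0`;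
* `VTR`, `VMONO`, `VZERO`, `VUP`, `DTAIL` of `P34_734`.
-/

set_option autoImplicit false
set_option linter.unusedSectionVars false

open MeasureTheory ProbabilityTheory Set Crest.ProbabilityR.Perceptron

namespace Crest.Agent.R146.VTr_468

open Crest.Agent.R146.Mono_930 Crest.Agent.R146.MonoShift_930

variable {Ω : Type*} [MeasurableSpace Ω]

/-- the displacement of the control `v` -/
noncomputable def dsp (m : OverlapProfile) (v : NNReal → Ω → ℝ) (ω : Ω) : ℝ :=
  ∫ t, path v ω t ∂massMeasure m

/-- the energy of the control `v` along a path -/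
noncomputable def qq (m : OverlapProfile) (v : NNReal → Ω → ℝ) (ω : Ω) : ENNReal :=
  ∫⁻ t, ENNReal.ofReal (path v ω t ^ 2) ∂massMeasure m

lemma dsp_eq (m : OverlapProfile) (v : NNReal → Ω → ℝ) (ω : Ω) :
    ∫ t in (0 : ℝ)..1, m.toFun t * v (Real.toNNReal t) ω = dsp m v ω :=
  integral_displ m (fun t => v (Real.toNNReal t) ω)

lemma mass_le_one (m : OverlapProfile) : (massMeasure m).real univ ≤ 1 := by
  rw [Measure.real, massMeasure_univ]
  refine ENNReal.toReal_le_of_le_ofReal (by norm_num) ?_
  apply ENNReal.ofReal_le_ofReal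
  have := tail_lip m (s := 0) (t := 1) le_rfl (by norm_num) le_rfl
  rw [tail_one] at this
  linarith

section prog

variable {B : NNReal → Ω → ℝ} {hB : ∀ t, Measurable (B t)} {v : NNReal → Ω → ℝ}

lemma meas_path (F : Filtration NNReal ‹MeasurableSpace Ω›) (hv : IsProgressive F v) (ω : Ω) :
    Measurable (path v ω) :=
  (measurable_uncurry_path F hv).comp (measurable_prodMk_right (y := ω))

lemma meas_dsp (F : Filtration NNReal ‹MeasurableSpace Ω›) (m : OverlapProfile)
    (hv : IsProgressive F v) : Measurable (dsp m v) := by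
  have h : StronglyMeasurable fun p : Ω × ℝ => path v p.1 p.2 :=
    ((measurable_uncurry_path F hv).comp measurable_swap).stronglyMeasurable
  exact (h.integral_prod_right' (ν := massMeasure m)).measurable

lemma meas_qq (F : Filtration NNReal ‹MeasurableSpace Ω›) (m : OverlapProfile)
    (hv : IsProgressive F v) : Measurable (qq m v) := by
  have h : Measurable fun p : Ω × ℝ => ENNReal.ofReal (path v p.1 p.2 ^ 2) :=
    (((measurable_uncurry_path F hv).comp measurable_swap).pow_const 2).ennreal_ofReal
  exact Measurable.lintegral_prod_right' (ν := massMeasure m) h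

lemma int_sq_path (F : Filtration NNReal ‹MeasurableSpace Ω›) {m : OverlapProfile}
    (hv : IsProgressive F v) {ω : Ω} (hq : qq m v ω < ⊤) :
    Integrable (fun t => path v ω t ^ 2) (massMeasure m) := by
  refine ⟨((meas_path F hv ω).pow_const 2).aestronglyMeasurable, ?_⟩
  rw [hasFiniteIntegral_iff_ofReal (Filter.Eventually.of_forall fun t => sq_nonneg _)]
  exact hq

lemma int_path (F : Filtration NNReal ‹MeasurableSpace Ω›) {m : OverlapProfile}
    (hv : IsProgressive F v) {ω : Ω} (hq : qq m v ω < ⊤) :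
    Integrable (path v ω) (massMeasure m) := by
  have hg : Integrable (fun t => 1 / 2 + path v ω t ^ 2 / 2) (massMeasure m) :=
    (integrable_const _).add ((int_sq_path F hv hq).div_const 2)
  refine hg.mono' (meas_path F hv ω).aestronglyMeasurable (Filter.Eventually.of_forall fun t => ?_)
  rw [Real.norm_eq_abs]
  nlinarith [sq_nonneg (|path v ω t| - 1), sq_abs (path v ω t)]

lemma qq_toReal (F : Filtration NNReal ‹MeasurableSpace Ω›) {m : OverlapProfile}
    (hv : IsProgressive F v) {ω : Ω} :
    (qq m v ω).toReal = ∫ t, path v ω t ^ 2 ∂massMeasure m := by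
  rw [integral_eq_lintegral_of_nonneg_ae (Filter.Eventually.of_forall fun t => sq_nonneg _)
    ((meas_path F hv ω).pow_const 2).aestronglyMeasurable]
  rfl

/-- Cauchy-Schwarz: the displacement is bounded by the energy -/
lemma dsp_sq_le (F : Filtration NNReal ‹MeasurableSpace Ω›) {m : OverlapProfile}
    (hv : IsProgressive F v) {ω : Ω} (hq : qq m v ω < ⊤) :
    dsp m v ω ^ 2 ≤ (qq m v ω).toReal := by
  rw [qq_toReal F hv]
  set c := dsp m v ω with hc
  have h1 := int_path F hv hq
  have h2 := int_sq_path F hv hq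
  have h3 : 0 ≤ ∫ t, (path v ω t - c) ^ 2 ∂massMeasure m := integral_nonneg fun t => sq_nonneg _
  have h4 : ∫ t, (path v ω t - c) ^ 2 ∂massMeasure m =
      ∫ t, path v ω t ^ 2 ∂massMeasure m - 2 * c * c + c ^ 2 * (massMeasure m).real univ := by
    have e : (fun t => (path v ω t - c) ^ 2) =
        fun t => (path v ω t ^ 2 - (2 * c) * path v ω t) + c ^ 2 := by funext t; ring
    have h1c : Integrable (fun t => (2 * c) * path v ω t) (massMeasure m) := h1.const_mul _
    have h12 : Integrable (fun t => path v ω t ^ 2 - (2 * c) * path v ω t) (massMeasure m) :=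
      h2.sub h1c
    rw [e, integral_add h12 (integrable_const _), integral_sub h2 h1c, integral_const_mul,
      integral_const]
    have : ∫ t, path v ω t ∂massMeasure m = c := rfl
    rw [this, smul_eq_mul]
    ring
  have h5 := mass_le_one m
  have h6 : c ^ 2 * (massMeasure m).real univ ≤ c ^ 2 := by nlinarith [sq_nonneg c]
  nlinarith

variable {P : Measure Ω}

lemma cost_eq (hv : IsProgressive (brownianFiltration B hB) v) (m : OverlapProfile) :
    controlCost P m v = ∫⁻ ω, qq m v ω ∂P :=
  controlCost_eq P B hB hv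

lemma adm_ae {m : OverlapProfile} (hv : IsAdmissibleControl P B hB m v) :
    ∀ᵐ ω ∂P, qq m v ω < ⊤ := by
  have h := hv.2
  rw [cost_eq hv.1] at h
  exact ae_lt_top (meas_qq _ m hv.1) h.ne

lemma int_qq {m : OverlapProfile} (hv : IsAdmissibleControl P B hB m v) :
    Integrable (fun ω => (qq m v ω).toReal) P := by
  have h := hv.2
  rw [cost_eq hv.1] at h
  exact integrable_toReal_of_lintegral_ne_top (meas_qq _ m hv.1).aemeasurable h.ne

lemma cost_toReal {m : OverlapProfile} (hv : IsAdmissibleControl P B hB m v) :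
    (controlCost P m v).toReal = ∫ ω, (qq m v ω).toReal ∂P := by
  rw [cost_eq hv.1, integral_toReal (meas_qq _ m hv.1).aemeasurable (adm_ae hv)]

/-- the displacement of an admissible control is square integrable -/
theorem memLp_dsp {m : OverlapProfile} (hv : IsAdmissibleControl P B hB m v) :
    MemLp (dsp m v) 2 P := by
  have hm := meas_dsp _ m hv.1
  rw [memLp_two_iff_integrable_sq hm.aestronglyMeasurable]
  refine (int_qq hv).mono' (hm.pow_const 2).aestronglyMeasurable ?_
  filter_upwards [adm_ae hv] with ω hω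
  rw [Real.norm_eq_abs, abs_of_nonneg (sq_nonneg _)]
  exact dsp_sq_le _ hv.1 hω

/-- the end point of an admissible control is square integrable -/
theorem memLp_end {m : OverlapProfile} (hB2 : MemLp (B 1) 2 P)
    (hv : IsAdmissibleControl P B hB m v) : MemLp (fun ω => B 1 ω + dsp m v ω) 2 P :=
  hB2.add (memLp_dsp hv)

/-- quadratic growth -/
def QG (f : ℝ → ℝ) : Prop := Measurable f ∧ ∃ C : ℝ, ∀ x, |f x| ≤ C * (1 + x ^ 2)

lemma QG.integrable [IsFiniteMeasure P] {f : ℝ → ℝ} (hf : QG f) {X : Ω → ℝ} (hX : MemLp X 2 P) :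
    Integrable (fun ω => f (X ω)) P := by
  obtain ⟨hm, C, hC⟩ := hf
  have h1 : Integrable (fun ω => C * (1 + X ω ^ 2)) P :=
    ((integrable_const _).add hX.integrable_sq).const_mul _
  refine h1.mono' (hm.comp_aemeasurable hX.1.aemeasurable).aestronglyMeasurable
    (Filter.Eventually.of_forall fun ω => ?_)
  rw [Real.norm_eq_abs]
  exact hC _

lemma payoff_eq (f : ℝ → ℝ) (m : OverlapProfile) (v : NNReal → Ω → ℝ) :
    controlPayoff P B f m v = (∫ ω, f (B 1 ω + dsp m v ω) ∂P) - (controlCost P m v).toReal / 2 := by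
  unfold controlPayoff
  simp only [dsp_eq]

/-! ### truncation of the control from below -/

/-- the truncated control -/
def vt (c : ℝ) (v : NNReal → Ω → ℝ) : NNReal → Ω → ℝ := fun t ω => max (v t ω) (-c)

lemma vt_prog (F : Filtration NNReal ‹MeasurableSpace Ω›) (c : ℝ) (hv : IsProgressive F v) :
    IsProgressive F (vt c v) := fun i => (hv i).max measurable_const

lemma path_vt (c : ℝ) (v : NNReal → Ω → ℝ) (ω : Ω) (t : ℝ) :
    path (vt c v) ω t = max (path v ω t) (-c) := rfl

lemma sq_max_le (c x : ℝ) : (max x (-c)) ^ 2 ≤ x ^ 2 + c ^ 2 := by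
  rcases le_total x (-c) with h | h
  · rw [max_eq_right h]; nlinarith [sq_nonneg x]
  · rw [max_eq_left h]; nlinarith [sq_nonneg c]

lemma vt_adm {m : OverlapProfile} (c : ℝ) [IsFiniteMeasure P]
    (hv : IsAdmissibleControl P B hB m v) : IsAdmissibleControl P B hB m (vt c v) := by
  refine ⟨vt_prog _ c hv.1, ?_⟩
  rw [cost_eq (vt_prog _ c hv.1)]
  have h : ∀ ω, qq m (vt c v) ω ≤ qq m v ω + ENNReal.ofReal (c ^ 2) * massMeasure m univ := by
    intro ω
    unfold qq
    calc ∫⁻ t, ENNReal.ofReal (path (vt c v) ω t ^ 2) ∂massMeasure m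
        ≤ ∫⁻ t, (ENNReal.ofReal (path v ω t ^ 2) + ENNReal.ofReal (c ^ 2)) ∂massMeasure m := by
          refine lintegral_mono fun t => ?_
          rw [path_vt, ← ENNReal.ofReal_add (sq_nonneg _) (sq_nonneg _)]
          exact ENNReal.ofReal_le_ofReal (sq_max_le c _)
      _ = _ := by
          rw [lintegral_add_right _ measurable_const, lintegral_const]
  refine (lintegral_mono h).trans_lt ?_
  rw [lintegral_add_right _ measurable_const, lintegral_const, ← cost_eq hv.1]
  refine ENNReal.add_lt_top.2 ⟨hv.2, ?_⟩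
  exact ENNReal.mul_lt_top (ENNReal.mul_lt_top ENNReal.ofReal_lt_top (measure_lt_top _ _))
    (measure_lt_top _ _)

/-- replacing `v` by `max v (-c)` does not decrease the payoff -/
theorem payoff_le_trunc [IsFiniteMeasure P] (hB2 : MemLp (B 1) 2 P) {f : ℝ → ℝ} (hf : QG f)
    {c : ℝ} (hfc : ∀ x d, 0 ≤ d → f x - c * d ≤ f (x + d))
    {m : OverlapProfile} (hv : IsAdmissibleControl P B hB m v) :
    controlPayoff P B f m v ≤ controlPayoff P B f m (vt c v) := by
  have hv' := vt_adm (P := P) (hB := hB) (m := m) c hv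
  rw [payoff_eq, payoff_eq, cost_toReal hv, cost_toReal hv']
  have i1 := hf.integrable (memLp_end hB2 hv)
  have i2 := hf.integrable (memLp_end hB2 hv')
  have i3 := int_qq hv
  have i4 := int_qq hv'
  have key : ∫ ω, (f (B 1 ω + dsp m v ω) - (qq m v ω).toReal / 2) ∂P ≤
      ∫ ω, (f (B 1 ω + dsp m (vt c v) ω) - (qq m (vt c v) ω).toReal / 2) ∂P := by
    refine integral_mono_ae (i1.sub (i3.div_const 2)) (i2.sub (i4.div_const 2)) ?_
    filter_upwards [adm_ae hv, adm_ae hv'] with ω h1 h2
    have p1 := int_path _ hv.1 h1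
    have p2 := int_path _ hv'.1 h2
    have s1 := int_sq_path _ hv.1 h1
    have s2 := int_sq_path _ hv'.1 h2
    set d := dsp m (vt c v) ω - dsp m v ω with hd
    have hd' : d = ∫ t, (path (vt c v) ω t - path v ω t) ∂massMeasure m := by
      rw [integral_sub p2 p1]; rfl
    have hd0 : 0 ≤ d := by
      rw [hd']
      refine integral_nonneg fun t => ?_
      simp only [Pi.zero_apply, path_vt]
      have := le_max_left (path v ω t) (-c)
      linarith
    have hcost : (qq m (vt c v) ω).toReal + 2 * c * d ≤ (qq m v ω).toReal := by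
      have p21 : Integrable (fun t => 2 * c * (path (vt c v) ω t - path v ω t)) (massMeasure m) :=
        (p2.sub p1).const_mul _
      rw [qq_toReal _ hv.1, qq_toReal _ hv'.1, hd', ← integral_const_mul, ← integral_add s2 p21]
      refine integral_mono (s2.add p21) s1 fun t => ?_
      simp only [path_vt]
      rcases le_total (path v ω t) (-c) with h | h
      · rw [max_eq_right h]; nlinarith
      · rw [max_eq_left h]; nlinarith
    have hshift := hfc (B 1 ω + dsp m v ω) d hd0
    have e : B 1 ω + dsp m v ω + d = B 1 ω + dsp m (vt c v) ω := by rw [hd]; ring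
    rw [e] at hshift
    linarith
  rw [integral_sub i1 (i3.div_const 2), integral_sub i2 (i4.div_const 2), integral_div,
    integral_div] at key
  exact key

lemma dsp_vt_ge {m : OverlapProfile} {c : ℝ} (hc : 0 ≤ c) (hv : IsAdmissibleControl P B hB m v)
    {ω : Ω} (h : qq m (vt c v) ω < ⊤) : -c ≤ dsp m (vt c v) ω := by
  have p2 := int_path _ (vt_prog _ c hv.1) h
  have h1 : ∫ _t, (-c) ∂massMeasure m ≤ dsp m (vt c v) ω := by
    refine integral_mono (integrable_const _) p2 fun t => ?_
    rw [path_vt]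
    exact le_max_right _ _
  rw [integral_const, smul_eq_mul] at h1
  have h2 := mass_le_one m
  have h3 : 0 ≤ (massMeasure m).real univ := measureReal_nonneg
  nlinarith

/-! ### comparison of potentials -/

/-- comparison of two potentials of quadratic growth -/
theorem payoff_mono [IsFiniteMeasure P] (hB2 : MemLp (B 1) 2 P) {f g : ℝ → ℝ} (hf : QG f)
    (hg : QG g) (hfg : ∀ x, f x ≤ g x) {m : OverlapProfile}
    (hv : IsAdmissibleControl P B hB m v) :
    controlPayoff P B f m v ≤ controlPayoff P B g m v := by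
  rw [payoff_eq, payoff_eq]
  have := integral_mono (hf.integrable (memLp_end hB2 hv)) (hg.integrable (memLp_end hB2 hv))
    fun ω => hfg _
  linarith

theorem controlValue_mono [IsProbabilityMeasure P] (hB2 : MemLp (B 1) 2 P) {f g : ℝ → ℝ}
    (hf : QG f) (hg : QG g) (hfg : ∀ x, f x ≤ g x) {K : ℝ} (hK : ∀ x, g x ≤ K)
    (m : OverlapProfile) : controlValue P B hB f m ≤ controlValue P B hB g m := by
  unfold controlValue
  refine csSup_le ⟨_, _, isAdmissible_zero P B hB m, rfl⟩ ?_
  rintro x ⟨v, hv, rfl⟩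
  exact (payoff_mono hB2 hf hg hfg hv).trans
    (le_csSup (bddAbove_payoffs P B hB hK m) ⟨v, hv, rfl⟩)

end prog

/-! ### The Props of `P34_734` -/

section props

open Crest.Agent.R146.P34_734

lemma fq_nonpos {b k : ℝ} (hb : 0 < b) (x : ℝ) : fq b k x ≤ 0 := by
  unfold fq
  have := sq_nonneg (max (k - x) 0)
  nlinarith

lemma fq_mono {b k : ℝ} (hb : 0 < b) : Monotone (fq b k) := by
  intro x y hxy
  unfold fq
  have h1 : max (k - y) 0 ≤ max (k - x) 0 := max_le_max (by linarith) le_rfl
  have h0 : 0 ≤ max (k - y) 0 := le_max_right _ _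
  have h2 : max (k - y) 0 ^ 2 ≤ max (k - x) 0 ^ 2 := pow_le_pow_left₀ h0 h1 2
  nlinarith

lemma fq_cont (b k : ℝ) : Continuous (fq b k) := by
  unfold fq
  fun_prop

lemma abs_fq_le {b k : ℝ} (hb : 0 < b) (x : ℝ) : |fq b k x| ≤ b * (1 + k ^ 2) * (1 + x ^ 2) := by
  rw [abs_of_nonpos (fq_nonpos hb x)]
  unfold fq
  have h0 : 0 ≤ max (k - x) 0 := le_max_right _ _
  have h1 : max (k - x) 0 ^ 2 ≤ (k - x) ^ 2 := by
    rcases le_total (k - x) 0 with h | h
    · rw [max_eq_right h]; nlinarith [sq_nonneg (k - x)]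
    · rw [max_eq_left h]
  have h2 : (k - x) ^ 2 ≤ 2 * ((1 + k ^ 2) * (1 + x ^ 2)) := by
    nlinarith [sq_nonneg (k + x), sq_nonneg (k * x)]
  nlinarith

lemma qg_fq {b k : ℝ} (hb : 0 < b) : QG (fq b k) :=
  ⟨(fq_cont b k).measurable, b * (1 + k ^ 2), abs_fq_le hb⟩

lemma qg_fqL {b k : ℝ} (L : ℝ) (hb : 0 < b) : QG (fqL L b k) := by
  refine ⟨((fq_cont b k).max continuous_const).measurable, b * (1 + k ^ 2) + |L|, fun x => ?_⟩
  unfold fqL
  have h1 := abs_fq_le (k := k) hb x
  have h2 : |max (fq b k x) (-L)| ≤ |fq b k x| + |L| := by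
    rcases le_total (fq b k x) (-L) with h | h
    · rw [max_eq_right h, abs_neg]; linarith [abs_nonneg (fq b k x)]
    · rw [max_eq_left h]; linarith [abs_nonneg L]
  have h3 : |L| ≤ |L| * (1 + x ^ 2) := by nlinarith [abs_nonneg L, sq_nonneg x]
  nlinarith

lemma QG.add_bdd {f ψ : ℝ → ℝ} (hf : QG f) (hψ : Measurable ψ) {K : ℝ} (hK : ∀ x, |ψ x| ≤ K) :
    QG (fun x => f x + ψ x) := by
  obtain ⟨hm, C, hC⟩ := hf
  refine ⟨hm.add hψ, C + K, fun x => ?_⟩
  have h1 := hC x
  have h2 := hK x
  have h3 : 0 ≤ K := (abs_nonneg _).trans h2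
  refine (abs_add_le _ _).trans ?_
  nlinarith [sq_nonneg x]

lemma cont_of_lip {ψ : ℝ → ℝ} {c : ℝ} (hc : 0 ≤ c) (h : ∀ x y, |ψ x - ψ y| ≤ c * |x - y|) :
    Continuous ψ := by
  have : LipschitzWith (Real.toNNReal c) ψ := by
    refine LipschitzWith.of_dist_le_mul fun x y => ?_
    rw [Real.dist_eq, Real.dist_eq, Real.coe_toNNReal _ hc]
    exact h x y
  exact this.continuous

lemma memLp_B1 (W : BS) : MemLp (W.B 1) 2 W.P :=
  (W.br.toIsPreBrownianReal.isGaussianProcess.hasGaussianLaw_eval 1).memLp_two

lemma law_B1 (W : BS) : HasLaw (W.B 1) (gaussianReal 0 1) W.P :=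
  W.br.toIsPreBrownianReal.hasLaw_eval 1

/-- the truncation error is nonincreasing -/
lemma err_anti {b k L : ℝ} (hb : 0 < b) : Antitone (fun x => fqL L b k x - fq b k x) := by
  intro x y hxy
  have h := fq_mono (k := k) hb hxy
  simp only [fqL]
  rcases le_total (fq b k x) (-L) with h1 | h1 <;> rcases le_total (fq b k y) (-L) with h2 | h2
  · rw [max_eq_right h1, max_eq_right h2]; linarith
  · rw [max_eq_right h1, max_eq_left h2]; linarith
  · rw [max_eq_left h1, max_eq_right h2]; linarith
  · rw [max_eq_left h1, max_eq_left h2]; linarith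

theorem vmono (W : BS) : VMONO W := by
  rintro b k L hb ψ hψ ⟨K, hK⟩ m
  unfold BS.V
  refine controlValue_mono (memLp_B1 W) ((qg_fq hb).add_bdd hψ.measurable hK)
    ((qg_fqL L hb).add_bdd hψ.measurable hK) (fun x => ?_) (K := max 0 (-L) + K) (fun x => ?_) m
  · have : fq b k x ≤ fqL L b k x := le_max_left _ _
    linarith
  · have h1 : fqL L b k x ≤ max 0 (-L) := max_le_max (fq_nonpos hb x) le_rfl
    have h2 := (abs_le.1 (hK x)).2
    linarith

theorem vtr (W : BS) : VTR W := by
  rintro b k L c hb hL hc ψ ⟨K, hK⟩ hψl m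
  have hψ := cont_of_lip hc hψl
  have hB2 := memLp_B1 W
  have q1 : QG (fun x => fqL L b k x + ψ x) := (qg_fqL L hb).add_bdd hψ.measurable hK
  have q2 : QG (fun x => fq b k x + ψ x) := (qg_fq hb).add_bdd hψ.measurable hK
  have q3 : QG (fun x => fqL L b k x - fq b k x) := by
    obtain ⟨m1, C1, hC1⟩ := qg_fqL (k := k) L hb
    obtain ⟨m2, C2, hC2⟩ := qg_fq (k := k) hb
    refine ⟨m1.sub m2, C1 + C2, fun x => ?_⟩
    refine (abs_sub _ _).trans ?_
    rw [add_mul]
    exact add_le_add (hC1 x) (hC2 x)
  unfold BS.V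
  unfold controlValue
  refine csSup_le ⟨_, _, isAdmissible_zero W.P W.B W.meas m, rfl⟩ ?_
  rintro x ⟨v, hv, rfl⟩
  have hv' := vt_adm (P := W.P) (hB := W.meas) (m := m) c hv
  have h1 : controlPayoff W.P W.B (fun x => fqL L b k x + ψ x) m v ≤
      controlPayoff W.P W.B (fun x => fqL L b k x + ψ x) m (vt c v) := by
    refine payoff_le_trunc hB2 q1 (c := c) (fun x d hd => ?_) hv
    have e1 : fqL L b k x ≤ fqL L b k (x + d) :=
      max_le_max (fq_mono hb (by linarith)) le_rfl
    have e2 := hψl x (x + d)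
    have e3 : |x - (x + d)| = d := by
      rw [show x - (x + d) = -d by ring, abs_neg, abs_of_nonneg hd]
    rw [e3] at e2
    have e4 := (abs_le.1 e2).2
    linarith
  have i1 := q2.integrable (memLp_end hB2 hv')
  have i3 := q3.integrable (memLp_end hB2 hv')
  have hshift : MemLp (fun ω => W.B 1 ω + (-c)) 2 W.P := hB2.add (memLp_const _)
  have i4 := q3.integrable hshift
  have h2 : controlPayoff W.P W.B (fun x => fqL L b k x + ψ x) m (vt c v) =
      controlPayoff W.P W.B (fun x => fq b k x + ψ x) m (vt c v) +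
      ∫ ω, (fqL L b k (W.B 1 ω + dsp m (vt c v) ω) - fq b k (W.B 1 ω + dsp m (vt c v) ω)) ∂W.P := by
    rw [payoff_eq, payoff_eq]
    have e : ∫ ω, (fqL L b k (W.B 1 ω + dsp m (vt c v) ω) + ψ (W.B 1 ω + dsp m (vt c v) ω)) ∂W.P =
        ∫ ω, (fq b k (W.B 1 ω + dsp m (vt c v) ω) + ψ (W.B 1 ω + dsp m (vt c v) ω)) ∂W.P +
        ∫ ω, (fqL L b k (W.B 1 ω + dsp m (vt c v) ω) -
          fq b k (W.B 1 ω + dsp m (vt c v) ω)) ∂W.P := by
      rw [← integral_add i1 i3]
      congr 1
      funext ω
      ring
    rw [e]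
    ring
  have h3 : ∫ ω, (fqL L b k (W.B 1 ω + dsp m (vt c v) ω) -
      fq b k (W.B 1 ω + dsp m (vt c v) ω)) ∂W.P ≤
      ∫ ω, (fqL L b k (W.B 1 ω + (-c)) - fq b k (W.B 1 ω + (-c))) ∂W.P := by
    refine integral_mono_ae i3 i4 ?_
    filter_upwards [adm_ae hv'] with ω hω
    have := dsp_vt_ge hc hv hω
    exact err_anti (L := L) hb (show W.B 1 ω + (-c) ≤ W.B 1 ω + dsp m (vt c v) ω by linarith)
  have h4 : ∫ ω, (fqL L b k (W.B 1 ω + (-c)) - fq b k (W.B 1 ω + (-c))) ∂W.P =
      ∫ z, (fqL L b k (z - c) - fq b k (z - c)) ∂(gaussianReal 0 1) := by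
    have := (law_B1 W).integral_comp (f := fun z => fqL L b k (z - c) - fq b k (z - c))
      (q3.1.comp (measurable_id.sub_const c)).aestronglyMeasurable
    rw [← this]
    rfl
  have h5 : controlPayoff W.P W.B (fun x => fq b k x + ψ x) m (vt c v) ≤
      sSup {x : ℝ | ∃ v : NNReal → W.Ω → ℝ, IsAdmissibleControl W.P W.B W.meas m v ∧
        x = controlPayoff W.P W.B (fun x => fq b k x + ψ x) m v} :=
    le_csSup (bddAbove_payoffs W.P W.B W.meas (K := K) (fun x => by
      have a1 := fq_nonpos (k := k) hb x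
      have a2 := (abs_le.1 (hK x)).2
      linarith) m) ⟨_, hv', rfl⟩
  linarith

theorem vzero (W : BS) : VZERO W := by
  rintro b k hb ψ hψ ⟨K, hK⟩ m
  have q2 : QG (fun x => fq b k x + ψ x) := (qg_fq hb).add_bdd hψ.measurable hK
  have h0 := isAdmissible_zero W.P W.B W.meas m
  have h1 : controlPayoff W.P W.B (fun x => fq b k x + ψ x) m (fun _ _ => 0) =
      ∫ z, (fq b k z + ψ z) ∂(gaussianReal 0 1) := by
    unfold controlPayoff controlCost
    have := (law_B1 W).integral_comp (f := fun z => fq b k z + ψ z) q2.1.aestronglyMeasurable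
    rw [← this]
    simp
  rw [← h1]
  refine le_csSup (bddAbove_payoffs W.P W.B W.meas (K := K) (fun x => ?_) m) ⟨_, h0, rfl⟩
  have a1 := fq_nonpos (k := k) hb x
  have a2 := (abs_le.1 (hK x)).2
  linarith

theorem vup (W : BS) : VUP W := by
  rintro b k K hb ψ hψ hK m
  have q2 : QG (fun x => fq b k x + ψ x) := (qg_fq hb).add_bdd hψ hK
  unfold BS.V controlValue
  refine csSup_le ⟨_, _, isAdmissible_zero W.P W.B W.meas m, rfl⟩ ?_
  rintro x ⟨v, hv, rfl⟩
  rw [payoff_eq]
  have i1 := q2.integrable (memLp_end (memLp_B1 W) hv)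
  have h1 : ∫ ω, (fq b k (W.B 1 ω + dsp m v ω) + ψ (W.B 1 ω + dsp m v ω)) ∂W.P ≤
      ∫ _ω, K ∂W.P := by
    refine integral_mono i1 (integrable_const _) fun ω => ?_
    have a1 := fq_nonpos (k := k) hb (W.B 1 ω + dsp m v ω)
    have a2 := (abs_le.1 (hK (W.B 1 ω + dsp m v ω))).2
    simp only
    linarith
  have h2 : ∫ _ω, K ∂W.P = K := by simp
  have h3 : 0 ≤ (controlCost W.P m v).toReal := ENNReal.toReal_nonneg
  linarith

theorem dtail : DTAIL := by
  intro b k c hb
  have q : QG (fq b k) := qg_fq hb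
  have hz : MemLp (fun z : ℝ => z + (-c)) 2 (gaussianReal 0 1) :=
    (memLp_id_gaussianReal 2).add (memLp_const _)
  have hi : Integrable (fun z : ℝ => fq b k (z + (-c))) (gaussianReal 0 1) := q.integrable hz
  have hi' : Integrable (fun z : ℝ => |fq b k (z - c)|) (gaussianReal 0 1) := by
    simpa [sub_eq_add_neg] using hi.abs
  have hlim : ∀ z : ℝ, Filter.Tendsto (fun L : ℝ => fqL L b k (z - c) - fq b k (z - c))
      Filter.atTop (nhds 0) := by
    intro z
    refine tendsto_const_nhds.congr' ?_
    filter_upwards [Filter.eventually_ge_atTop (-fq b k (z - c))] with L hL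
    unfold fqL
    rw [max_eq_left (by linarith)]
    ring
  have := tendsto_integral_filter_of_dominated_convergence (μ := gaussianReal 0 1)
    (F := fun (L : ℝ) z => fqL L b k (z - c) - fq b k (z - c)) (f := fun _ => (0 : ℝ))
    (fun z => |fq b k (z - c)|) (l := Filter.atTop) ?_ ?_ hi'
    (Filter.Eventually.of_forall hlim)
  · simpa using this
  · refine Filter.Eventually.of_forall fun L => ?_
    have m1 := (qg_fqL (k := k) L hb).1.comp (measurable_id.sub_const c)
    have m2 := (qg_fq (k := k) hb).1.comp (measurable_id.sub_const c)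
    exact (m1.sub m2).aestronglyMeasurable
  · filter_upwards [Filter.eventually_ge_atTop (0 : ℝ)] with L hL
    refine Filter.Eventually.of_forall fun z => ?_
    rw [Real.norm_eq_abs]
    have h0 := fq_nonpos (k := k) hb (z - c)
    unfold fqL
    rcases le_total (fq b k (z - c)) (-L) with h | h
    · rw [max_eq_right h, abs_of_nonneg (by linarith), abs_of_nonpos h0]
      linarith
    · rw [max_eq_left h, sub_self, abs_zero]
      exact abs_nonneg _

end props

end Crest.Agent.R146.VTr_468
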