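import Crest.Agent.R146.Asm0204_734
import Crest.Agent.R146.P34Big_840
import Crest.Agent.R146.LindLB2_878
import Crest.Agent.R146.VTr_468
import Crest.Agent.R146.LocUb_393_Mg
import Crest.Agent.R146.P34a_323
import Crest.Agent.R146.HilbD_356
import Crest.Agent.R146.DualG2_256
import Crest.Agent.R146.P34_734
import Crest.Agent.R146.HilbE1_12
import Crest.Agent.R146.ProfC_540
import Crest.Agent.R146.ProfF_540
import Crest.Agent.R146.P5Def_12

-- ▼ part R146/Chk34_288
section

/-!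
Row 146 (helper288, PM-B): EDGE CHECK of package P3/P4.
S0203, S0204 (literal) and EPS on every Brownian space, from the nodes that are still open:
S6 (= S0206) and LOCUB (`..._open`), or S6 and LOCCORE (`..._core`).
The statements of this file are used by others and are not changed any more; new names are added.
-/

set_option autoImplicit false

namespace Crest.Agent.R146.Chk34_288

open MeasureTheory ProbabilityTheory Filter Crest.ProbabilityR.Perceptron
open Crest.Agent.R146.P34_734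
open scoped Topology

theorem lindlb (W : BS) (h6 : S6 W) : LINDLB W :=
  Crest.Agent.R146L878.LINDLB_of W h6 (VTr_468.vmono W) (VTr_468.vzero W)

theorem gub (W : BS) (h6 : S6 W) : GUB W := P34b_323.gub W h6





/-! ### the same from LOCCORE -/




end Crest.Agent.R146.Chk34_288
end

-- ▼ part R146/LinkB_356
section

/-!
# R146, package P5, node D6 / LINK (helper356), part B

`W.Pv α (fq b k)` is the infimum of `Je R α (1/b) 1 (xi (-k)) x D` over `KB × Adm 1`, it is attained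
at the `OverlapProfile` of a minimising `D`, and the terminal variable `XP` is the Hilbert gap.
The dictionary between `OverlapProfile` and `Adm 1` enters as the Prop `Dict`.
-/

set_option autoImplicit false

noncomputable section

open MeasureTheory Set Filter Topology ProbabilityTheory
open scoped RealInnerProductSpace NNReal ENNReal

namespace Crest.Agent.R146.LinkB_356

open Crest.ProbabilityR.Perceptron Crest.Agent.R146.Hilb Crest.Agent.R146.ProfB_540
  Crest.Agent.R146.HilbE Crest.Agent.R146.HilbD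

/-- dictionary between overlap profiles of finite entropy and admissible profiles with cap `1-t` -/
structure Dict : Prop where
  /-- from `Adm 1` to overlap profiles -/
  ofAdm : ∀ D : ℝ → ℝ, Adm 1 D → ∃ m : OverlapProfile, ∀ t ∈ Icc (0 : ℝ) 1, m.tail t = D t
  /-- from overlap profiles to `Adm 1` -/
  toAdm : ∀ m : OverlapProfile, m.entropy ≠ ⊤ → Adm 1 m.tail
  /-- the entropy -/
  ent : ∀ m : OverlapProfile, Adm 1 m.tail →
    m.entropy ≠ ⊤ ∧ m.entropy.toReal = Ent 1 m.tail / 2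

/-! ### congruence -/

lemma adm_congr {e : ℝ} {D E : ℝ → ℝ} (h : Adm e D) (heq : ∀ t ∈ Icc (0 : ℝ) 1, D t = E t) :
    Adm e E ∧ Ent e E = Ent e D := by
  have hI : ∀ t ∈ Ico (0 : ℝ) 1, D t = E t := fun t ht => heq t ⟨ht.1, ht.2.le⟩
  have hf : ∀ t ∈ Icc (0 : ℝ) 1, entF e D t = entF e E t := fun t ht => by
    unfold entF; rw [heq t ht]
  refine ⟨⟨⟨?_, ?_, ?_, ?_, ?_⟩, ?_, ?_⟩, ?_⟩
  · exact h.prof.conc.congr heq
  · exact h.prof.anti.congr heq
  · exact h.prof.cont.congr fun t ht => (heq t ht).symm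
  · intro t ht; rw [← hI t ht]; exact h.prof.pos t ht
  · rw [← heq 1 (by simp)]; exact h.prof.one
  · intro t ht; rw [← heq t ht]; exact h.cap t ht
  · refine h.int.congr fun t ht => ?_
    rw [uIoc_of_le zero_le_one] at ht
    exact hf t ⟨ht.1.le, ht.2⟩
  · unfold Ent
    refine intervalIntegral.integral_congr fun t ht => ?_
    rw [uIcc_of_le zero_le_one] at ht
    exact (hf t ht).symm

section Abs

variable {H : Type*} [NormedAddCommGroup H] [InnerProductSpace ℝ H] [CompleteSpace H] (R : Res H)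

lemma Je_congr {α c e : ℝ} (ξ x : H) {D E : ℝ → ℝ} (heq : ∀ t ∈ Icc (0 : ℝ) 1, D t = E t) :
    Je R α c e ξ x D = Je R α c e ξ x E := by
  have h1 : Ent e D = Ent e E := by
    unfold Ent
    refine intervalIntegral.integral_congr fun t ht => ?_
    rw [uIcc_of_le zero_le_one] at ht
    simp only [entF, heq t ht]
  unfold Je
  rw [h1, R.Q_congr heq]

theorem IsMin.congr {α c e : ℝ} {ξ : H} {K : Set H} {x : H} {D E : ℝ → ℝ}
    (h : IsMin R α c e ξ K x D) (heq : ∀ t ∈ Icc (0 : ℝ) 1, D t = E t) :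
    IsMin R α c e ξ K x E where
  mem := h.mem
  adm := (adm_congr h.adm heq).1
  le := fun y hy D' hD' => by
    rw [← Je_congr R ξ x heq]; exact h.le y hy D' hD'

/-- scaling `(y, D') ↦ (b • y, D'/b)` -/
theorem Je_scale (α c : ℝ) {b : ℝ} (hb : 0 < b) (ξ y : H) {D : ℝ → ℝ} (hD : Adm (1 / b) D) :
    Je R α (c / b) 1 ξ (b • y) (fun t => (1 / b) * D t) = b * Je R α c (1 / b) ξ y D := by
  have h1 := (ProfC_540.Adm.smul hD (c := 1 / b) (by positivity)).2
  have e1 : (1 / b) / (1 / b) = 1 := by field_simp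
  rw [e1] at h1
  unfold Je
  rw [h1, R.Q_smul hD.prof.cont, R.Q_smul_vec, real_inner_smul_left, norm_smul, mul_pow,
    Real.norm_eq_abs, sq_abs]
  field_simp

/-- unscaling -/
theorem adm_unscale {b : ℝ} (hb : 0 < b) {D : ℝ → ℝ} (hD : Adm 1 D) :
    Adm (1 / b) (fun t => b * D t) := by
  exact (ProfC_540.Adm.smul hD hb).1

theorem adm_rescale {b : ℝ} (hb : 0 < b) {D : ℝ → ℝ} (hD : Adm (1 / b) D) :
    Adm 1 (fun t => (1 / b) * D t) := by
  have h1 := (ProfC_540.Adm.smul hD (c := 1 / b) (by positivity)).1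
  have e1 : (1 / b) / (1 / b) = 1 := by field_simp
  rwa [e1] at h1

/-- a minimiser of the scaled problem gives a minimiser of the literal problem -/
theorem IsMin.scale {α c : ℝ} {b : ℝ} (hb : 0 < b) {ξ : H} {K : Set H} (hK : IsCone K) {y : H}
    {D : ℝ → ℝ} (h : IsMin R α c (1 / b) ξ K y D) :
    IsMin R α (c / b) 1 ξ K (b • y) (fun t => (1 / b) * D t) where
  mem := hK.smul b hb.le y h.mem
  adm := adm_rescale hb h.adm
  le := fun z hz E hE => by
    rw [Je_scale R α c hb ξ y h.adm]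
    have h1 := adm_unscale hb hE
    have h2 := h.le ((1 / b) • z) (hK.smul _ (by positivity) z hz) _ h1
    have h3 := Je_scale R α c hb ξ ((1 / b) • z) h1
    have e1 : b • (1 / b) • z = z := by rw [smul_smul, mul_one_div_cancel hb.ne', one_smul]
    have e2 : (fun t => (1 / b) * (b * E t)) = E := by
      funext t; rw [← mul_assoc, one_div_mul_cancel hb.ne', one_mul]
    rw [e1, e2] at h3
    rw [h3]
    exact mul_le_mul_of_nonneg_left h2 hb.le

/-- the gap is invariant under the scaling -/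
theorem Dop_scale {b : ℝ} (hb : 0 < b) (y : H) {D : ℝ → ℝ} (hD : ContinuousOn D (Icc 0 1)) :
    R.Dop (fun t => (1 / b) * D t) (b • y) = R.Dop D y := by
  rw [R.Dop_smul hD, smul_apply, map_smul, smul_smul, one_div_mul_cancel hb.ne', one_smul]

/-- two minimisers in `x` at the same `D` agree (`c > 0`) -/
theorem x_unique {K : Set H} (hK : IsCone K) {D : ℝ → ℝ} (hD : Prof D) {c : ℝ} (hc : 0 < c)
    {ξ x y : H} (hx : x ∈ K) (hy : y ∈ K) (hmin : ∀ z ∈ K, Fx R c ξ D x ≤ Fx R c ξ D z)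
    (hle : Fx R c ξ D y ≤ Fx R c ξ D x) : y = x := by
  obtain ⟨h1, h2⟩ := kkt_x R hK hD.cont c ξ x hx hmin
  have h3 := growth_x R hD.cont c ξ x h1 h2 hy
  have h4 := R.Q_nonneg hD.cont (fun t ht => hD.nonneg ht) (y - x)
  have h5 : c / 2 * ‖y - x‖ ^ 2 ≤ 0 := by linarith
  have h6 : ‖y - x‖ ^ 2 ≤ 0 := by
    by_contra h
    push Not at h
    have : 0 < c / 2 * ‖y - x‖ ^ 2 := by positivity
    linarith
  have h7 : ‖y - x‖ = 0 := by
    have := sq_nonneg ‖y - x‖
    exact pow_eq_zero_iff two_ne_zero |>.1 (le_antisymm h6 this)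
  exact sub_eq_zero.1 (norm_eq_zero.1 h7)

end Abs

section Lit

open Crest.Agent.R146.P34_734 Crest.Agent.R146.DualG_256 Crest.Agent.R146.DualL_256
  Crest.Agent.R146.DualV_256

theorem KB_cone {Ω : Type*} [MeasurableSpace Ω] {P : Measure Ω} [IsProbabilityMeasure P]
    {B : ℝ≥0 → Ω → ℝ} {hBm : ∀ t, Measurable (B t)} : IsCone (KB P B hBm) where
  zero := KB_zero hBm
  add := KB_add hBm
  smul := KB_smul hBm

variable (W : BS)

/-- the frame of `W` -/
abbrev RW : Res (HH W.P W.B W.meas) := RB W.P W.B W.meas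

/-- the cone of `W` -/
abbrev KW : Set (HH W.P W.B W.meas) := KB W.P W.B W.meas

/-- the data vector `-k + B_1` of `W` -/
abbrev xiW (k : ℝ) : HH W.P W.B W.meas := xi W.meas W.br (-k)

/-- the optimal dual variable of `W` at a profile -/
abbrev lamW (m : OverlapProfile) {b : ℝ} (hb : 0 < b) (k : ℝ) : HH W.P W.B W.meas :=
  lamH W.meas W.br m hb k

theorem V_le (m : OverlapProfile) {b : ℝ} (hb : 0 < b) (k : ℝ) {x : HH W.P W.B W.meas}
    (hx : x ∈ KW W) : W.V (fq b k) m ≤ Fx (RW W) (1 / b) (xiW W k) m.tail x := by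
  have h := value_le_H W.meas W.br m hb k hx
  have e : 1 / (2 * b) = 1 / b / 2 := by rw [div_div, mul_comm]
  rw [e] at h
  exact h

theorem V_eq (m : OverlapProfile) {b : ℝ} (hb : 0 < b) (k : ℝ) :
    W.V (fq b k) m = Fx (RW W) (1 / b) (xiW W k) m.tail (lamW W m hb k) := by
  have h := value_eq_H W.meas W.br m hb k
  have e : 1 / (2 * b) = 1 / b / 2 := by rw [div_div, mul_comm]
  rw [e] at h
  exact h

theorem V_lower (m : OverlapProfile) {b : ℝ} (hb : 0 < b) (k : ℝ) :
    -(b / 2 * ‖xiW W k‖ ^ 2) ≤ W.V (fq b k) m := by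
  rw [V_eq W m hb k]
  unfold Fx
  have hQ := (RW W).Q_nonneg (tail_cont m) (fun t ht => tail_nonneg m ht) (lamW W m hb k)
  have h1 := neg_le_of_abs_le (abs_real_inner_le_norm (lamW W m hb k) (xiW W k))
  set a := ‖lamW W m hb k‖
  set c := ‖xiW W k‖
  have h2 : 0 ≤ (a / b - c) ^ 2 * (b / 2) := by positivity
  have h3 : (a / b - c) ^ 2 * (b / 2) = 1 / b / 2 * a ^ 2 - a * c + b / 2 * c ^ 2 := by
    field_simp; ring
  linarith

theorem vals_bdd {α b : ℝ} (hα : 0 ≤ α) (hb : 0 < b) (k : ℝ) : BddBelow (W.vals α (fq b k)) := by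
  refine ⟨-(α * (b / 2 * ‖xiW W k‖ ^ 2)), ?_⟩
  rintro x ⟨m, _, rfl⟩
  have h1 := mul_le_mul_of_nonneg_left (V_lower W m hb k) hα
  have h2 : 0 ≤ m.entropy.toReal := ENNReal.toReal_nonneg
  linarith

theorem Pv_le (hd : Dict) {α b : ℝ} (hα : 0 ≤ α) (hb : 0 < b) (k : ℝ) {x : HH W.P W.B W.meas}
    (hx : x ∈ KW W) {D : ℝ → ℝ} (hD : Adm 1 D) :
    W.Pv α (fq b k) ≤ Je (RW W) α (1 / b) 1 (xiW W k) x D := by
  obtain ⟨m, hm⟩ := hd.ofAdm D hD
  have hDm : ∀ t ∈ Icc (0 : ℝ) 1, D t = m.tail t := fun t ht => (hm t ht).symm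
  have h1 := (adm_congr hD hDm).1
  obtain ⟨h2, h3⟩ := hd.ent m h1
  have h4 : W.Pv α (fq b k) ≤ α * W.V (fq b k) m + m.entropy.toReal :=
    csInf_le (vals_bdd W hα hb k) ⟨m, h2, rfl⟩
  have h5 := mul_le_mul_of_nonneg_left (V_le W m hb k hx) hα
  rw [Je_congr (RW W) (xiW W k) x hDm, Je_eq_Fx]
  rw [h3] at h4
  linarith

theorem le_Pv (hd : Dict) {α b : ℝ} (hb : 0 < b) (k : ℝ) {C : ℝ}
    (hC : ∀ x ∈ KW W, ∀ D, Adm 1 D → C ≤ Je (RW W) α (1 / b) 1 (xiW W k) x D) :
    C ≤ W.Pv α (fq b k) := by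
  refine le_csInf ?_ ?_
  · obtain ⟨h1, _⟩ := ProfC_540.Adm.lin (e := 1) one_pos
    obtain ⟨m, hm⟩ := hd.ofAdm _ h1
    have h2 := (adm_congr h1 fun t ht => (hm t ht).symm).1
    exact ⟨_, m, (hd.ent m h2).1, rfl⟩
  · rintro x ⟨m, hm, rfl⟩
    have h1 := hd.toAdm m hm
    have h2 := (hd.ent m h1).2
    have h3 := hC _ (lamH_mem W.meas W.br m hb k) _ h1
    rw [Je_eq_Fx, ← V_eq W m hb k] at h3
    rw [h2]
    linarith

/-- **LINK** (literal normalisation): from a minimiser `(x, D)` of the joint functional to a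
minimising overlap profile. -/
theorem link (hd : Dict) {α b : ℝ} (hα : 0 < α) (hb : 0 < b) (k : ℝ) {x : HH W.P W.B W.meas}
    {D : ℝ → ℝ} (h : IsMin (RW W) α (1 / b) 1 (xiW W k) (KW W) x D) :
    W.Pv α (fq b k) = Je (RW W) α (1 / b) 1 (xiW W k) x D ∧
    ∃ m : OverlapProfile, m.entropy ≠ ⊤ ∧ (∀ t ∈ Icc (0 : ℝ) 1, m.tail t = D t) ∧
      W.Pv α (fq b k) = α * W.V (fq b k) m + m.entropy.toReal ∧
      m.entropy.toReal = Ent 1 D / 2 ∧ lamW W m hb k = x ∧
      (modelB W.P W.B W.meas).J (xiW W k + (RW W).Dop D x) =ᵐ[W.P]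
        fun ω => XP W.meas W.br m hb k ω - k := by
  have hPv : W.Pv α (fq b k) = Je (RW W) α (1 / b) 1 (xiW W k) x D :=
    le_antisymm (Pv_le W hd hα.le hb k h.mem h.adm) (le_Pv W hd hb k h.le)
  refine ⟨hPv, ?_⟩
  obtain ⟨m, hm⟩ := hd.ofAdm D h.adm
  have hDm : ∀ t ∈ Icc (0 : ℝ) 1, D t = m.tail t := fun t ht => (hm t ht).symm
  have h' := IsMin.congr (RW W) h hDm
  obtain ⟨h2, h3⟩ := hd.ent m h'.adm
  have hE : Ent 1 m.tail = Ent 1 D := (adm_congr h.adm hDm).2
  have hmin : ∀ z ∈ KW W, Fx (RW W) (1 / b) (xiW W k) m.tail x ≤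
      Fx (RW W) (1 / b) (xiW W k) m.tail z := fun z hz => by
    have h4 := h'.le z hz _ h'.adm
    rw [Je_eq_Fx, Je_eq_Fx] at h4
    have h5 : α * Fx (RW W) (1 / b) (xiW W k) m.tail x ≤
      α * Fx (RW W) (1 / b) (xiW W k) m.tail z := by linarith
    exact le_of_mul_le_mul_left h5 hα
  have hle : Fx (RW W) (1 / b) (xiW W k) m.tail (lamW W m hb k) ≤
      Fx (RW W) (1 / b) (xiW W k) m.tail x := by
    rw [← V_eq]; exact V_le W m hb k h.mem
  have hlam : lamW W m hb k = x :=
    x_unique (RW W) KB_cone h'.adm.prof (by positivity) h.mem (lamH_mem W.meas W.br m hb k) hmin hle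
  refine ⟨m, h2, hm, ?_, ?_, hlam, ?_⟩
  · rw [hPv, Je_congr (RW W) (xiW W k) x hDm, Je_eq_Fx, h3, V_eq W m hb k, hlam]
    ring
  · rw [h3, hE]
  · have h6 := XP_eq W.meas W.br m hb k
    have h7 : (RW W).Dop m.tail (lamH W.meas W.br m hb k) = (RW W).Dop D x := by
      rw [(RW W).Dop_congr hm]
      exact congrArg _ hlam
    rw [← h7]
    exact h6

/-- **LINK** (scaled normalisation, `e = 1/b`, `c = 1`). -/
theorem link_scaled (hd : Dict) {α b : ℝ} (hα : 0 < α) (hb : 0 < b) (k : ℝ)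
    {y : HH W.P W.B W.meas} {D : ℝ → ℝ}
    (h : IsMin (RW W) α 1 (1 / b) (xiW W k) (KW W) y D) :
    W.Pv α (fq b k) = b * Je (RW W) α 1 (1 / b) (xiW W k) y D ∧
    ∃ m : OverlapProfile, m.entropy ≠ ⊤ ∧ (∀ t ∈ Icc (0 : ℝ) 1, m.tail t = (1 / b) * D t) ∧
      W.Pv α (fq b k) = α * W.V (fq b k) m + m.entropy.toReal ∧ lamW W m hb k = b • y ∧
      (modelB W.P W.B W.meas).J (xiW W k + (RW W).Dop D y) =ᵐ[W.P]
        fun ω => XP W.meas W.br m hb k ω - k := by
  have h1 := IsMin.scale (RW W) hb KB_cone h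
  obtain ⟨h2, m, h3, h4, h5, -, h6, h7⟩ := link W hd hα hb k h1
  rw [Je_scale (RW W) α 1 hb _ _ h.adm] at h2
  rw [Dop_scale (RW W) hb y h.adm.prof.cont] at h7
  exact ⟨h2, m, h3, h4, h5, h6, h7⟩


end Lit

end Crest.Agent.R146.LinkB_356
end
end

-- ▼ part R146/ZLink_43
section

/-!
Row 146, node ZLINK ((6)(b) of helper776's note 1; helper43): from the satisfiability hypotheses of
S0205 to the Hilbert frame of package P5.

* `Link`  : the literal control value of the quadratic potential is the minimum of the Hilbert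
            functional (node G, weak and strong duality of `DualL_256`);
* `Dict`  : overlap profiles of finite entropy = admissible profiles with cap `1 - t` (540, B6);
* `Pv_le`, `exists_lt` : `Pv α (fq b (-1)) = b · inf Je R α 1 (1/b) ξ`;
* `nonneg_of_zeroE`    : zero energy ⟹ `0 ≤ Je R α 1 0 ξ` on `K × Adm 0`;
* `exists_neg_of_not_zeroE` : positive energy ⟹ some value of `Je R α 1 0 ξ` is negative;
* `jam_nonneg`         : zero energy below `αc` ⟹ `0 ≤ Je R αc 0 0 ξ` (jamming functional);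
* `zeroE_of_low`, `not_zeroE_of_high` : the two satisfiability hypotheses.
-/

set_option autoImplicit false

open MeasureTheory ProbabilityTheory Filter Set Crest.ProbabilityR.Perceptron
open scoped Topology ENNReal RealInnerProductSpace

namespace Crest.Agent.R146.ZLink_43

open Crest.Agent.R146.P34_734 Crest.Agent.R146.Asm0204_734 Crest.Agent.R146.Hilb
  Crest.Agent.R146.HilbE Crest.Agent.R146.ProfB_540

section Frame

variable {H : Type*} [NormedAddCommGroup H] [InnerProductSpace ℝ H] [CompleteSpace H]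

/-- the literal control value of the quadratic potential (margin `-1`) is the minimum over the cone
`K` of `⟪x, ξ⟫ + ‖x‖²/(2b) + ½ Q(tail m) x` (`ξ = 1 + B_1`). -/
structure Link (W : BS) (R : Res H) (K : Set H) (ξ : H) : Prop where
  smul : ∀ c : ℝ, 0 < c → ∀ x ∈ K, c • x ∈ K
  low : ∀ b : ℝ, 0 < b → ∀ m : OverlapProfile, ∀ x ∈ K,
    W.V (fq b (-1)) m ≤ ⟪x, ξ⟫ + ‖x‖ ^ 2 / (2 * b) + 1 / 2 * R.Q m.tail x
  att : ∀ b : ℝ, 0 < b → ∀ m : OverlapProfile, ∃ x ∈ K,
    ⟪x, ξ⟫ + ‖x‖ ^ 2 / (2 * b) + 1 / 2 * R.Q m.tail x ≤ W.V (fq b (-1)) m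

/-- dictionary between overlap profiles of finite entropy and admissible profiles -/
structure Dict : Prop where
  adm : ∀ m : OverlapProfile, m.entropy ≠ ⊤ → Adm 1 m.tail
  ent : ∀ m : OverlapProfile, m.entropy ≠ ⊤ → m.entropy.toReal = 1 / 2 * Ent 1 m.tail
  prof : ∀ D : ℝ → ℝ, Adm 1 D → ∃ m : OverlapProfile, m.entropy ≠ ⊤ ∧
    ∀ t ∈ Icc (0 : ℝ) 1, m.tail t = D t

lemma Ent_congr {e : ℝ} {D E : ℝ → ℝ} (h : ∀ t ∈ Icc (0 : ℝ) 1, D t = E t) :
    Ent e D = Ent e E := by
  unfold Ent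
  refine ProfC_540.integral_congr_Ioo fun t ht => ?_
  unfold entF
  rw [h t ⟨ht.1.le, ht.2.le⟩]

variable {W : BS} {R : Res H} {K : Set H} {ξ : H}

/-- upper bound of the variational value by the Hilbert functional -/
theorem Pv_le (hL : Link W R K ξ) (hD : Dict) (hZ : VZERO W) {α b : ℝ} (hα : 0 ≤ α) (hb : 0 < b)
    {x : H} (hx : x ∈ K) {D : ℝ → ℝ} (h : Adm (1 / b) D) :
    W.Pv α (fq b (-1)) ≤ b * Je R α 1 (1 / b) ξ x D := by
  obtain ⟨h1, h2⟩ := ProfC_540.Adm.smul h (c := 1 / b) (by positivity)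
  have e1 : 1 / b / (1 / b) = 1 := div_self (by positivity)
  rw [e1] at h1 h2
  obtain ⟨m, hm, hmt⟩ := hD.prof _ h1
  have h3 : m.entropy.toReal = 1 / 2 * (b * Ent (1 / b) D) := by
    rw [hD.ent m hm, Ent_congr hmt, h2]
    congr 1
    field_simp
  have h4 := hL.low b hb m (b • x) (hL.smul b hb x hx)
  have h5 : R.Q m.tail (b • x) = b * R.Q D x := by
    rw [R.Q_congr hmt, R.Q_smul_vec, R.Q_smul h.prof.cont]
    field_simp
  rw [h5, real_inner_smul_left, norm_smul, Real.norm_eq_abs, abs_of_pos hb] at h4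
  refine (csInf_le (bddBelow_vals W hZ hα hb) ⟨m, hm, rfl⟩).trans ?_
  have h6 := mul_le_mul_of_nonneg_left h4 hα
  rw [h3]
  have h7 : (b * ‖x‖) ^ 2 / (2 * b) = b * (1 / 2 * ‖x‖ ^ 2) := by field_simp
  rw [h7] at h6
  unfold Je
  linarith

/-- every number above the variational value is above a value of the Hilbert functional -/
theorem exists_lt (hL : Link W R K ξ) (hD : Dict) {α b c : ℝ} (hα : 0 ≤ α) (hb : 0 < b)
    (hc : W.Pv α (fq b (-1)) < c) :
    ∃ x ∈ K, ∃ D, Adm (1 / b) D ∧ b * Je R α 1 (1 / b) ξ x D < c := by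
  obtain ⟨_, ⟨m, hm, rfl⟩, hv⟩ := exists_lt_of_csInf_lt (vals_nonempty W α _) hc
  obtain ⟨y, hy, hyle⟩ := hL.att b hb m
  have hA := hD.adm m hm
  obtain ⟨h1, h2⟩ := ProfC_540.Adm.smul hA hb
  refine ⟨(1 / b) • y, hL.smul _ (by positivity) y hy, _, h1, ?_⟩
  have h5 : R.Q (fun t => b * m.tail t) ((1 / b) • y) = 1 / b * R.Q m.tail y := by
    rw [R.Q_smul_vec, R.Q_smul hA.prof.cont]
    field_simp
  refine lt_of_le_of_lt ?_ hv
  unfold Je
  rw [h5, h2, real_inner_smul_left, norm_smul, Real.norm_eq_abs, abs_of_pos (by positivity),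
    hD.ent m hm]
  have h6 := mul_le_mul_of_nonneg_left hyle hα
  refine le_trans (le_of_eq ?_) (add_le_add_left h6 _)
  field_simp






end Frame

/-! ### The satisfiability hypotheses -/






end Crest.Agent.R146.ZLink_43
end

-- ▼ part R146/LinkC_356
section

/-!
# R146, package P5, LINK (helper356), part C: the instance of `ZLink_43.Link`, conversion of `Dict`.
-/

set_option autoImplicit false

noncomputable section

open MeasureTheory Set Filter Topology ProbabilityTheory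
open scoped RealInnerProductSpace NNReal ENNReal

namespace Crest.Agent.R146.LinkC_356

open Crest.ProbabilityR.Perceptron Crest.Agent.R146.Hilb Crest.Agent.R146.ProfB_540
  Crest.Agent.R146.HilbE Crest.Agent.R146.HilbD Crest.Agent.R146.LinkB_356
  Crest.Agent.R146.P34_734 Crest.Agent.R146.DualG_256

lemma xiW_neg_one (W : BS) : xiW W (-1) = xi W.meas W.br 1 := by
  unfold xiW; rw [neg_neg]



end Crest.Agent.R146.LinkC_356
end
end

-- ▼ part R146/ZLinkI_43
section

/-!
Row 146, node ZLINK (helper43), instances of the interfaces of `ZLink_43`: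
`dict : Dict` (from `ProfF_540`) and `link : Link W (RB ..) (KB ..) (xi .. 1)` (from `DualG2_256`),
and the unconditional forms of the theorems of `ZLink_43`.
-/

set_option autoImplicit false

open MeasureTheory ProbabilityTheory Filter Set Crest.ProbabilityR.Perceptron
open scoped Topology ENNReal RealInnerProductSpace

namespace Crest.Agent.R146.ZLink_43

open Crest.Agent.R146.P34_734 Crest.Agent.R146.Asm0204_734 Crest.Agent.R146.Hilb
  Crest.Agent.R146.HilbE Crest.Agent.R146.ProfB_540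

/-- the dictionary of profiles -/
theorem dict : Dict where
  adm := fun m h => ProfF_540.adm_tail m h
  ent := fun m h => by
    have hA := ProfF_540.adm_tail m h
    rw [ProfF_540.entropy_eq m hA, ENNReal.toReal_ofReal
      (by have := ProfC_540.Ent_nonneg hA; positivity)]
    ring
  prof := fun D h => by
    obtain ⟨m, h1, h2, h3, h4⟩ := ProfF_540.exists_overlapProfile h
    exact ⟨m, by rw [h4]; exact ENNReal.ofReal_ne_top, h1⟩

/-- the link between the literal control value and the Hilbert frame -/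
theorem link (W : BS) : Link W (DualG_256.RB W.P W.B W.meas) (DualG_256.KB W.P W.B W.meas)
    (DualG_256.xi W.meas W.br 1) where
  smul := fun c hc x hx => DualG_256.KB_smul W.meas c hc.le x hx
  low := fun b hb m x hx => by
    have h := DualG_256.value_le_H W.meas W.br m hb (-1) hx
    rw [neg_neg] at h
    refine le_trans (le_of_eq ?_) (h.trans (le_of_eq ?_))
    · rfl
    · ring
  att := fun b hb m => by
    have h := DualG_256.value_eq_H W.meas W.br m hb (-1)
    rw [neg_neg] at h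
    refine ⟨_, DualG_256.lamH_mem W.meas W.br m hb (-1), le_of_eq ?_⟩
    have h2 : W.V (fq b (-1)) m = controlValue W.P W.B W.meas (DualV_256.fbk b (-1)) m := rfl
    rw [h2, h]
    ring

/-! ### The theorems of `ZLink_43` in the concrete frame -/

/-- the Hilbert functional of a Brownian space (`c = 1`: soft; `c = 0`: jamming) -/
noncomputable def JW (W : BS) (α c e : ℝ) (x : DualG_256.HH W.P W.B W.meas) (D : ℝ → ℝ) : ℝ :=
  Je (DualG_256.RB W.P W.B W.meas) α c e (DualG_256.xi W.meas W.br 1) x D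

variable {W : BS}

theorem Pv_le_JW {α b : ℝ} (hα : 0 ≤ α) (hb : 0 < b) {x : DualG_256.HH W.P W.B W.meas}
    (hx : x ∈ DualG_256.KB W.P W.B W.meas) {D : ℝ → ℝ} (h : Adm (1 / b) D) :
    W.Pv α (fq b (-1)) ≤ b * JW W α 1 (1 / b) x D :=
  Pv_le (link W) dict (VTr_468.vzero W) hα hb hx h

theorem exists_JW_lt {α b c : ℝ} (hα : 0 ≤ α) (hb : 0 < b) (hc : W.Pv α (fq b (-1)) < c) :
    ∃ x ∈ DualG_256.KB W.P W.B W.meas, ∃ D, Adm (1 / b) D ∧ b * JW W α 1 (1 / b) x D < c :=
  exists_lt (link W) dict hα hb hc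




end Crest.Agent.R146.ZLink_43
end

-- ▼ part R146/P5Lk_288

/-!
Row 146, package P5 (helper288, glue only): the exact nodes `LINKM` and `LINKZ` of `P5Def_12` from
`LinkB_356` (helper356), `ZLinkI_43` (helper43) and the dictionary `ProfF_540` (helper540).
-/

set_option autoImplicit false

namespace Crest.Agent.R146.P5Lk_288

open Set Filter Topology MeasureTheory ProbabilityTheory Crest.ProbabilityR.Perceptron
open Crest.Agent.R146.ProfB_540 Crest.Agent.R146.P34_734 Crest.Agent.R146.P5Def_12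
open Crest.Agent.R146.P5A_12

theorem dict : LinkB_356.Dict where
  ofAdm _ h := by
    obtain ⟨m, h1, _⟩ := ProfF_540.exists_overlapProfile h
    exact ⟨m, h1⟩
  toAdm m h := (ProfF_540.entropy_ne_top_iff m).1 h
  ent m h := ⟨(ProfF_540.entropy_ne_top_iff m).2 h, by
    rw [ProfF_540.entropy_eq m h, ENNReal.toReal_ofReal]
    have := P5A_12.Ent_nonneg h
    linarith⟩

theorem linkm (W : BS) : LINKM W := by
  intro α b hα hb x D h
  have hxi := LinkC_356.xiW_neg_one W
  have h' : HilbD.IsMin (LinkB_356.RW W) α 1 (1 / b) (LinkB_356.xiW W (-1)) (LinkB_356.KW W) x D := by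
    rw [hxi]
    exact ⟨h.mem, h.adm, h.le⟩
  obtain ⟨-, m, h3, -, h5, -, h7⟩ := LinkB_356.link_scaled W dict hα hb (-1) h'
  refine ⟨m, h3, h5, ?_⟩
  rw [hxi] at h7
  filter_upwards [h7] with ω hω
  rw [show (MW W).J (xiW W + (RW W).Dop D x) ω = _ from hω]
  ring

theorem linkz (W : BS) : LINKZ W := by
  intro α hα
  constructor
  · intro hE d hd
    obtain ⟨b0, hb0, h⟩ := hE d hd
    refine ⟨b0, hb0, fun b hb x hx D hD => ?_⟩
    have hbp : 0 < b := hb0.trans_le hb
    have h1 := h b hb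
    have h2 : W.Pv α (fq b (-1)) ≤ b * ZLink_43.JW W α 1 (1 / b) x D :=
      ZLink_43.Pv_le_JW hα.le hbp hx hD
    have h3 : b * (-d) ≤ b * ZLink_43.JW W α 1 (1 / b) x D := by linarith
    exact le_of_mul_le_mul_left h3 hbp
  · intro hH d hd
    obtain ⟨b0, hb0, h⟩ := hH d hd
    refine ⟨b0, hb0, fun b hb => ?_⟩
    have hbp : 0 < b := hb0.trans_le hb
    by_contra hc
    obtain ⟨x, hx, D, hD, h1⟩ := ZLink_43.exists_JW_lt hα.le hbp (not_le.1 hc)
    have h2 : -d ≤ ZLink_43.JW W α 1 (1 / b) x D := h b hb x hx D hD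
    have h3 := mul_le_mul_of_nonneg_left h2 hbp.le
    linarith

end Crest.Agent.R146.P5Lk_288
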