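import Mathlib

/-!
Row 146 (S0205), tip of the jamming profile, real-variable part 1 (helper45).

A profile is `D t = d + ∫_t^1 m` with `m ≥ 0` monotone on `[0,1)`, `d ≥ 0`.
For `κ : ℝ` and `ρ` integrable, `ell κ ρ F = κ F(0) + ∫_0^1 F ρ`, `I s = κ + ∫_0^s ρ`,
`G r = ∫_r^1 I`.  The variational inequality `VI κ ρ P : ∀ P', ell P.D ≤ ell P'.D` gives
`G ≥ 0`, `G > 0` on `[a,b]` ⟹ `m a = m b`, `ell P.D = 0`, `I 1 ≥ 0` (`= 0` if `d > 0`), and the
dilation inequality `0 ≤ ∫ s m ρ`.
-/

set_option autoImplicit false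

namespace Crest.Agent.R146.PtScalA_45

open MeasureTheory Set Filter Topology intervalIntegral

/-- profile data on `[0,1)`. -/
structure Prof where
  m : ℝ → ℝ
  d : ℝ
  mono : MonotoneOn m (Ico 0 1)
  nonneg : ∀ t ∈ Ico (0:ℝ) 1, 0 ≤ m t
  int : IntervalIntegrable m volume 0 1
  d_nonneg : 0 ≤ d

/-- the profile function. -/
noncomputable def Prof.D (P : Prof) (t : ℝ) : ℝ := P.d + ∫ s in t..1, P.m s

/-- linear functional. -/
noncomputable def ell (κ : ℝ) (ρ F : ℝ → ℝ) : ℝ := κ * F 0 + ∫ t in (0:ℝ)..1, F t * ρ t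

/-- `I s = κ + ∫_0^s ρ`. -/
noncomputable def I (κ : ℝ) (ρ : ℝ → ℝ) (s : ℝ) : ℝ := κ + ∫ t in (0:ℝ)..s, ρ t

/-- `G r = ∫_r^1 I`. -/
noncomputable def G (κ : ℝ) (ρ : ℝ → ℝ) (r : ℝ) : ℝ := ∫ s in r..1, I κ ρ s

/-- variational inequality. -/
def VI (κ : ℝ) (ρ : ℝ → ℝ) (P : Prof) : Prop := ∀ P' : Prof, ell κ ρ P.D ≤ ell κ ρ P'.D

/-- integration by parts for primitives. -/
theorem ibp {a b : ℝ} {u v : ℝ → ℝ} (U0 V0 : ℝ) (hu : IntervalIntegrable u volume a b)
    (hv : IntervalIntegrable v volume a b) :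
    ∫ t in a..b, (u t * (V0 + ∫ s in a..t, v s) + (U0 + ∫ s in a..t, u s) * v t) =
      (U0 + ∫ s in a..b, u s) * (V0 + ∫ s in a..b, v s) - U0 * V0 := by
  have hU : AbsolutelyContinuousOnInterval (fun t => U0 + ∫ s in a..t, u s) a b := by
    have h1 := hu.absolutelyContinuousOnInterval_intervalIntegral (c := a) (by simp)
    have h2 : AbsolutelyContinuousOnInterval (fun _ : ℝ => U0) a b := by
      rw [absolutelyContinuousOnInterval_iff]
      intro ε hε
      exact ⟨1, one_pos, fun E _ _ => by simpa using hε⟩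
    exact h2.add h1
  have hV : AbsolutelyContinuousOnInterval (fun t => V0 + ∫ s in a..t, v s) a b := by
    have h1 := hv.absolutelyContinuousOnInterval_intervalIntegral (c := a) (by simp)
    have h2 : AbsolutelyContinuousOnInterval (fun _ : ℝ => V0) a b := by
      rw [absolutelyContinuousOnInterval_iff]
      intro ε hε
      exact ⟨1, one_pos, fun E _ _ => by simpa using hε⟩
    exact h2.add h1
  have h := hU.integral_deriv_mul_eq_sub hV
  simp only [intervalIntegral.integral_same, add_zero] at h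
  rw [← h]
  apply intervalIntegral.integral_congr_ae
  filter_upwards [hu.ae_hasDerivAt_integral, hv.ae_hasDerivAt_integral] with x h1 h2 hx
  have hx' : x ∈ uIcc a b := uIoc_subset_uIcc hx
  have e1 : deriv (fun t => U0 + ∫ s in a..t, u s) x = u x :=
    ((h1 hx' a (by simp)).const_add U0).deriv
  have e2 : deriv (fun t => V0 + ∫ s in a..t, v s) x = v x :=
    ((h2 hx' a (by simp)).const_add V0).deriv
  rw [e1, e2]

/-- subinterval integrability. -/
theorem sub_int {u : ℝ → ℝ} {a b : ℝ} (hu : IntervalIntegrable u volume 0 1) (ha : 0 ≤ a)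
    (ha1 : a ≤ 1) (hb : 0 ≤ b) (hb1 : b ≤ 1) : IntervalIntegrable u volume a b := by
  apply hu.mono_set
  rw [uIcc_of_le (zero_le_one' ℝ)]
  intro x hx
  rcases le_total a b with h | h
  · rw [uIcc_of_le h] at hx; exact ⟨ha.trans hx.1, hx.2.trans hb1⟩
  · rw [uIcc_of_ge h] at hx; exact ⟨hb.trans hx.1, hx.2.trans ha1⟩

theorem I_continuousOn {κ : ℝ} {ρ : ℝ → ℝ} (hρ : IntervalIntegrable ρ volume 0 1) :
    ContinuousOn (I κ ρ) (Icc 0 1) := by
  have h : ContinuousOn (fun s => ∫ t in (0:ℝ)..s, ρ t) (uIcc 0 1) :=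
    intervalIntegral.continuousOn_primitive_interval' hρ (by simp)
  rw [uIcc_of_le (zero_le_one' ℝ)] at h
  exact continuousOn_const.add h

theorem I_int {κ : ℝ} {ρ : ℝ → ℝ} (hρ : IntervalIntegrable ρ volume 0 1) :
    IntervalIntegrable (I κ ρ) volume 0 1 := by
  apply ContinuousOn.intervalIntegrable
  rw [uIcc_of_le (zero_le_one' ℝ)]
  exact I_continuousOn hρ

theorem I_sub {κ : ℝ} {ρ : ℝ → ℝ} (hρ : IntervalIntegrable ρ volume 0 1) {a b : ℝ} (ha : 0 ≤ a)
    (hab : a ≤ b) (hb : b ≤ 1) : I κ ρ b - I κ ρ a = ∫ t in a..b, ρ t := by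
  unfold I
  have := intervalIntegral.integral_add_adjacent_intervals
    (sub_int hρ le_rfl zero_le_one ha (hab.trans hb)) (sub_int hρ ha (hab.trans hb) (ha.trans hab) hb)
  linarith

theorem G_sub {κ : ℝ} {ρ : ℝ → ℝ} (hρ : IntervalIntegrable ρ volume 0 1) {a b : ℝ} (ha : 0 ≤ a)
    (hab : a ≤ b) (hb : b ≤ 1) : G κ ρ a - G κ ρ b = ∫ t in a..b, I κ ρ t := by
  unfold G
  have := intervalIntegral.integral_add_adjacent_intervals
    (sub_int (I_int (κ := κ) hρ) ha (hab.trans hb) (ha.trans hab) hb)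
    (sub_int (I_int (κ := κ) hρ) (ha.trans hab) hb zero_le_one le_rfl)
  linarith


/-- `ell` on primitives `F t = c + ∫_t^1 μ`. -/
theorem ell_prim {κ : ℝ} {ρ μ : ℝ → ℝ} (hρ : IntervalIntegrable ρ volume 0 1)
    (hμ : IntervalIntegrable μ volume 0 1) (c : ℝ) :
    ell κ ρ (fun t => c + ∫ s in t..1, μ s) = c * I κ ρ 1 + ∫ s in (0:ℝ)..1, μ s * I κ ρ s := by
  -- by parts with `u = ρ`, `U = I`, `v = -μ`, `V = (c + ∫_0^1 μ) - ∫_0^t μ`
  have hneg : IntervalIntegrable (fun s => -μ s) volume 0 1 := hμ.neg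
  have key := ibp (a := 0) (b := 1) (u := ρ) (v := fun s => -μ s) κ (c + ∫ s in (0:ℝ)..1, μ s)
    hρ hneg
  have hV : ∀ t ∈ Icc (0:ℝ) 1, (c + ∫ s in (0:ℝ)..1, μ s) + ∫ s in (0:ℝ)..t, -μ s =
      c + ∫ s in t..1, μ s := by
    intro t ht
    have := intervalIntegral.integral_add_adjacent_intervals
      (sub_int hμ le_rfl zero_le_one ht.1 ht.2) (sub_int hμ ht.1 ht.2 zero_le_one le_rfl)
    rw [intervalIntegral.integral_neg]
    linarith
  have hc : ContinuousOn (fun t => c + ∫ s in t..1, μ s) (uIcc 0 1) := by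
    have h1 : ContinuousOn (fun t => ∫ s in (0:ℝ)..t, -μ s) (uIcc 0 1) :=
      intervalIntegral.continuousOn_primitive_interval' hneg (by simp)
    have h2 := (continuousOn_const (c := c + ∫ s in (0:ℝ)..1, μ s)).add h1
    refine h2.congr ?_
    intro t ht
    rw [uIcc_of_le (zero_le_one' ℝ)] at ht
    exact (hV t ht).symm
  have e1 : (∫ t in (0:ℝ)..1, (ρ t * ((c + ∫ s in (0:ℝ)..1, μ s) + ∫ s in (0:ℝ)..t, -μ s) +
      (κ + ∫ s in (0:ℝ)..t, ρ s) * -μ t)) =
      (∫ t in (0:ℝ)..1, (c + ∫ s in t..1, μ s) * ρ t) - ∫ s in (0:ℝ)..1, μ s * I κ ρ s := by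
    rw [← intervalIntegral.integral_sub]
    · apply intervalIntegral.integral_congr
      intro t ht
      rw [uIcc_of_le (zero_le_one' ℝ)] at ht
      simp only
      rw [hV t ht]
      unfold I
      ring
    · exact hρ.continuousOn_mul hc
    · apply hμ.mul_continuousOn
      rw [uIcc_of_le (zero_le_one' ℝ)]
      exact I_continuousOn hρ
  rw [e1] at key
  have hV1 := hV 1 ⟨zero_le_one, le_rfl⟩
  simp only [intervalIntegral.integral_same, add_zero] at hV1
  rw [hV1] at key
  unfold ell
  unfold I at key ⊢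
  simp only at key ⊢
  linarith [key]

theorem D_eq (P : Prof) : P.D = fun t => P.d + ∫ s in t..1, P.m s := rfl

theorem ell_prof {κ : ℝ} {ρ : ℝ → ℝ} (hρ : IntervalIntegrable ρ volume 0 1) (P : Prof) :
    ell κ ρ P.D = P.d * I κ ρ 1 + ∫ s in (0:ℝ)..1, P.m s * I κ ρ s :=
  ell_prim hρ P.int P.d

/-- `VI` in terms of the slopes. -/
theorem VI.slope {κ : ℝ} {ρ : ℝ → ℝ} {P : Prof} (h : VI κ ρ P)
    (hρ : IntervalIntegrable ρ volume 0 1) (P' : Prof) :
    0 ≤ (P'.d - P.d) * I κ ρ 1 + ∫ s in (0:ℝ)..1, (P'.m s - P.m s) * I κ ρ s := by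
  have h1 := h P'
  rw [ell_prof hρ, ell_prof hρ] at h1
  have hIc : ContinuousOn (I κ ρ) (uIcc 0 1) := by
    rw [uIcc_of_le (zero_le_one' ℝ)]; exact I_continuousOn hρ
  have e : ∫ s in (0:ℝ)..1, (P'.m s - P.m s) * I κ ρ s =
      (∫ s in (0:ℝ)..1, P'.m s * I κ ρ s) - ∫ s in (0:ℝ)..1, P.m s * I κ ρ s := by
    rw [← intervalIntegral.integral_sub (P'.int.mul_continuousOn hIc)
      (P.int.mul_continuousOn hIc)]
    congr 1
    ext s
    ring
  rw [e]
  linarith

/-- hats: `G ≥ 0`. -/
theorem VI.G_nonneg {κ : ℝ} {ρ : ℝ → ℝ} {P : Prof} (h : VI κ ρ P)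
    (hρ : IntervalIntegrable ρ volume 0 1) {r : ℝ} (hr0 : 0 ≤ r) (hr1 : r ≤ 1) :
    0 ≤ G κ ρ r := by
  have hi : IntervalIntegrable (fun s => (Ioi r).indicator (fun _ => (1:ℝ)) s) volume 0 1 := by
    rw [intervalIntegrable_iff]
    exact (integrableOn_const (by simp)).indicator measurableSet_Ioi
  let P' : Prof :=
    { m := fun s => P.m s + (Ioi r).indicator (fun _ => (1:ℝ)) s
      d := P.d
      mono := by
        intro x hx y hy hxy
        have h1 := P.mono hx hy hxy
        by_cases hxr : r < x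
        · have hyr : r < y := lt_of_lt_of_le hxr hxy
          simp only [indicator_of_mem (mem_Ioi.2 hxr), indicator_of_mem (mem_Ioi.2 hyr)]
          linarith
        · have h2 : (Ioi r).indicator (fun _ => (1:ℝ)) x = 0 :=
            indicator_of_notMem (by simpa using hxr) _
          have h3 : 0 ≤ (Ioi r).indicator (fun _ => (1:ℝ)) y :=
            indicator_nonneg (fun _ _ => zero_le_one) _
          simp only
          linarith
      nonneg := by
        intro t ht
        have h3 : 0 ≤ (Ioi r).indicator (fun _ => (1:ℝ)) t :=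
          indicator_nonneg (fun _ _ => zero_le_one) _
        have := P.nonneg t ht
        linarith
      int := P.int.add hi
      d_nonneg := P.d_nonneg }
  have h1 := h.slope hρ P'
  have e : ∫ s in (0:ℝ)..1, (P'.m s - P.m s) * I κ ρ s = G κ ρ r := by
    unfold G
    have e1 : ∀ s, (P'.m s - P.m s) * I κ ρ s = (Ioi r).indicator (I κ ρ) s := by
      intro s
      by_cases hs : r < s
      · simp [P', indicator_of_mem (mem_Ioi.2 hs)]
      · have : s ∉ Ioi r := by simpa using hs
        simp [P', indicator_of_notMem this]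
    simp only [e1]
    rw [intervalIntegral.integral_of_le zero_le_one, intervalIntegral.integral_of_le hr1,
      setIntegral_indicator measurableSet_Ioi]
    congr 2
    ext x
    simp only [mem_inter_iff, mem_Ioc, mem_Ioi]
    constructor
    · rintro ⟨⟨_, h2⟩, h3⟩; exact ⟨h3, h2⟩
    · rintro ⟨h2, h3⟩; exact ⟨⟨lt_of_le_of_lt hr0 h2, h3⟩, h2⟩
  rw [e] at h1
  simpa [P'] using h1




/-- chaining small steps. -/
theorem chain_steps {a b h : ℝ} (hh : 0 < h) {F : ℝ → ℝ}
    (hF : ∀ s t, a ≤ s → s ≤ t → t ≤ b → t - s ≤ h → F s ≤ F t) :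
    ∀ s t, a ≤ s → s ≤ t → t ≤ b → F s ≤ F t := by
  have key : ∀ n : ℕ, ∀ s t, a ≤ s → s ≤ t → t ≤ b → t - s ≤ n * h → F s ≤ F t := by
    intro n
    induction n with
    | zero =>
      intro s t h1 h2 h3 h4
      simp only [Nat.cast_zero, zero_mul] at h4
      have : s = t := by linarith
      rw [this]
    | succ n ih =>
      intro s t h1 h2 h3 h4
      push_cast at h4
      have hn : (0:ℝ) ≤ n * h := mul_nonneg n.cast_nonneg hh.le
      have w1 : s ≤ max s (t - h) := le_max_left _ _
      have w2 : max s (t - h) ≤ t := max_le h2 (by linarith)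
      have w3 : max s (t - h) - s ≤ n * h := by
        rcases max_cases s (t - h) with ⟨h5, _⟩ | ⟨h5, _⟩ <;> rw [h5] <;> linarith
      have w4 : t - max s (t - h) ≤ h := by
        have := le_max_right s (t - h)
        linarith
      exact (ih s _ h1 w1 (w2.trans h3) w3).trans (hF _ t (h1.trans w1) w2 h3 w4)
  intro s t h1 h2 h3
  obtain ⟨n, hn⟩ := exists_nat_ge ((t - s) / h)
  exact key n s t h1 h2 h3 (by rwa [div_le_iff₀ hh] at hn)

theorem clamp_mem {a b s : ℝ} (hab : a ≤ b) : max a (min s b) ∈ Icc a b :=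
  ⟨le_max_left _ _, max_le hab (min_le_right _ _)⟩

theorem clamp_mono {a b s t : ℝ} (hst : s ≤ t) : max a (min s b) ≤ max a (min t b) :=
  max_le_max le_rfl (min_le_min hst le_rfl)

/-- KEY LEMMA: `G > 0` on `[a,b]` forces `m a = m b`. -/
theorem VI.m_eq {κ : ℝ} {ρ : ℝ → ℝ} {P : Prof} (h : VI κ ρ P)
    (hρ : IntervalIntegrable ρ volume 0 1) {a b : ℝ} (ha : 0 ≤ a) (hab : a ≤ b) (hb : b < 1)
    (hG : ∀ t ∈ Icc a b, 0 < G κ ρ t) : P.m a = P.m b := by
  have hsub : Icc a b ⊆ Ico 0 1 := fun x hx => ⟨ha.trans hx.1, lt_of_le_of_lt hx.2 hb⟩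
  have hmono : MonotoneOn P.m (Icc a b) := P.mono.mono hsub
  have hmab : P.m a ≤ P.m b := hmono ⟨le_rfl, hab⟩ ⟨hab, le_rfl⟩ hab
  -- the removed part
  set c : ℝ → ℝ := fun s => P.m (max a (min s b)) - P.m a with hc
  have hcm : Monotone c := by
    intro x y hxy
    have := hmono (clamp_mem (s := x) hab) (clamp_mem (s := y) hab) (clamp_mono hxy)
    simp only [hc]
    linarith
  have hci : IntervalIntegrable c volume 0 1 := hcm.intervalIntegrable
  have hca : ∀ s, s ≤ a → c s = 0 := by
    intro s hs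
    have : max a (min s b) = a := max_eq_left ((min_le_left _ _).trans hs)
    simp [hc, this]
  have hcb : ∀ s, b ≤ s → c s = P.m b - P.m a := by
    intro s hs
    have : max a (min s b) = b := by rw [min_eq_right hs]; exact max_eq_right hab
    simp [hc, this]
  have hcm' : ∀ s ∈ Icc a b, c s = P.m s - P.m a := by
    intro s hs
    have : max a (min s b) = s := by rw [min_eq_left hs.2]; exact max_eq_right hs.1
    simp [hc, this]
  let P' : Prof :=
    { m := fun s => P.m s - c s
      d := P.d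
      mono := by
        intro x hx y hy hxy
        have hxy' := P.mono hx hy hxy
        simp only
        rcases le_total y a with hya | hya
        · rw [hca y hya, hca x (hxy.trans hya)]; linarith
        · rcases le_total x a with hxa | hxa
          · rw [hca x hxa]
            rcases le_total y b with hyb | hyb
            · rw [hcm' y ⟨hya, hyb⟩]
              have := P.mono hx (hsub ⟨le_rfl, hab⟩) hxa
              linarith
            · rw [hcb y hyb]
              have h1 := P.mono hx (hsub ⟨le_rfl, hab⟩) hxa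
              have h2 := P.mono (hsub ⟨hab, le_rfl⟩) hy hyb
              linarith
          · rcases le_total x b with hxb | hxb
            · rw [hcm' x ⟨hxa, hxb⟩]
              rcases le_total y b with hyb | hyb
              · rw [hcm' y ⟨hya, hyb⟩]; linarith
              · rw [hcb y hyb]
                have h2 := P.mono (hsub ⟨hab, le_rfl⟩) hy hyb
                linarith
            · rw [hcb x hxb, hcb y (hxb.trans hxy)]; linarith
      nonneg := by
        intro t ht
        rcases le_total t a with hta | hta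
        · rw [hca t hta]; have := P.nonneg t ht; linarith
        · rcases le_total t b with htb | htb
          · rw [hcm' t ⟨hta, htb⟩]
            have := P.nonneg a (hsub ⟨le_rfl, hab⟩)
            linarith
          · rw [hcb t htb]
            have h1 := P.nonneg a (hsub ⟨le_rfl, hab⟩)
            have h2 := P.mono (hsub ⟨hab, le_rfl⟩) ht htb
            linarith
      int := P.int.sub hci
      d_nonneg := P.d_nonneg }
  have h1 := h.slope hρ P'
  have hIc : ContinuousOn (I κ ρ) (Icc 0 1) := I_continuousOn hρ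
  have hIc' : ContinuousOn (I κ ρ) (uIcc 0 1) := by rwa [uIcc_of_le (zero_le_one' ℝ)]
  have hcI : IntervalIntegrable (fun s => c s * I κ ρ s) volume 0 1 := hci.mul_continuousOn hIc'
  have h2 : ∫ s in (0:ℝ)..1, c s * I κ ρ s ≤ 0 := by
    have e : ∫ s in (0:ℝ)..1, (P'.m s - P.m s) * I κ ρ s = - ∫ s in (0:ℝ)..1, c s * I κ ρ s := by
      rw [← intervalIntegral.integral_neg]
      congr 1
      ext s
      simp only [P']
      ring
    rw [e] at h1
    simp only [P', sub_self, zero_mul, zero_add] at h1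
    linarith
  -- split
  have hb1 : b ≤ 1 := hb.le
  have ha1 : a ≤ 1 := hab.trans hb1
  have s1 := intervalIntegral.integral_add_adjacent_intervals
    (sub_int hcI le_rfl zero_le_one ha ha1) (sub_int hcI ha ha1 (ha.trans hab) hb1)
  have s2 := intervalIntegral.integral_add_adjacent_intervals
    (sub_int hcI le_rfl zero_le_one (ha.trans hab) hb1)
    (sub_int hcI (ha.trans hab) hb1 zero_le_one le_rfl)
  have e0 : ∫ s in (0:ℝ)..a, c s * I κ ρ s = 0 := by
    rw [intervalIntegral.integral_congr (g := fun _ => (0:ℝ))]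
    · simp
    · intro s hs
      rw [uIcc_of_le ha] at hs
      simp [hca s hs.2]
  have e1 : ∫ s in b..1, c s * I κ ρ s = (P.m b - P.m a) * G κ ρ b := by
    unfold G
    rw [← intervalIntegral.integral_const_mul]
    apply intervalIntegral.integral_congr
    intro s hs
    rw [uIcc_of_le hb1] at hs
    simp [hcb s hs.1]
  -- bounds
  obtain ⟨K, hK⟩ : ∃ K, ∀ s ∈ Icc (0:ℝ) 1, ‖I κ ρ s‖ ≤ K :=
    isCompact_Icc.exists_bound_of_continuousOn hIc
  have hK0 : 0 ≤ K := (norm_nonneg _).trans (hK 0 ⟨le_rfl, zero_le_one⟩)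
  have hGc : ContinuousOn (G κ ρ) (Icc a b) := by
    have h3 : ContinuousOn (fun x => ∫ s in x..1, I κ ρ s) (uIcc 0 1) := by
      have h4 : ContinuousOn (fun x => ∫ s in (1:ℝ)..x, I κ ρ s) (uIcc 0 1) :=
        intervalIntegral.continuousOn_primitive_interval' (I_int hρ) (by simp)
      refine h4.neg.congr ?_
      intro x _
      exact intervalIntegral.integral_symm _ _
    rw [uIcc_of_le (zero_le_one' ℝ)] at h3
    exact h3.mono fun x hx => ⟨ha.trans hx.1, hx.2.trans hb1⟩
  obtain ⟨x0, hx0, hmin⟩ := isCompact_Icc.exists_isMinOn (nonempty_Icc.2 hab) hGc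
  have hδ : 0 < G κ ρ x0 := hG x0 hx0
  set δ := G κ ρ x0 with hδdef
  have hGδ : ∀ t ∈ Icc a b, δ ≤ G κ ρ t := fun t ht => hmin ht
  by_contra hne
  have hlt : P.m a < P.m b := lt_of_le_of_ne hmab hne
  -- H
  have hh : 0 < δ / (2 * (K + 1)) := by positivity
  have hstep := chain_steps (a := a) (b := b) hh
    (F := fun t => c t * G κ ρ t + (∫ u in a..t, c u * I κ ρ u) - (δ / 2) * c t) (by
      intro s t has hst htb hsmall
      have hs0 : 0 ≤ s := ha.trans has
      have ht1 : t ≤ 1 := htb.trans hb1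
      have hcst : c s ≤ c t := hcm hst
      have hG1 := G_sub (κ := κ) hρ hs0 hst ht1
      have hint : (∫ u in a..t, c u * I κ ρ u) - ∫ u in a..s, c u * I κ ρ u =
          ∫ u in s..t, c u * I κ ρ u := by
        have := intervalIntegral.integral_add_adjacent_intervals
          (sub_int hcI ha ha1 hs0 (hst.trans ht1)) (sub_int hcI hs0 (hst.trans ht1)
            (hs0.trans hst) ht1)
        linarith
      -- `∫ (c t - c u) I u`
      have hI' : IntervalIntegrable (I κ ρ) volume s t :=
        sub_int (I_int hρ) hs0 (hst.trans ht1) (hs0.trans hst) ht1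
      have hcI' := sub_int hcI hs0 (hst.trans ht1) (hs0.trans hst) ht1
      have e3 : ∫ u in s..t, (c t - c u) * I κ ρ u =
          c t * (∫ u in s..t, I κ ρ u) - ∫ u in s..t, c u * I κ ρ u := by
        rw [← intervalIntegral.integral_const_mul, ← intervalIntegral.integral_sub
          (hI'.const_mul _) hcI']
        congr 1
        ext u
        ring
      have e4 : |∫ u in s..t, (c t - c u) * I κ ρ u| ≤ ((c t - c s) * K) * |t - s| := by
        rw [← Real.norm_eq_abs (∫ u in s..t, (c t - c u) * I κ ρ u)]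
        apply intervalIntegral.norm_integral_le_of_norm_le_const
        intro u hu
        rw [uIoc_of_le hst] at hu
        have h5 : c u ≤ c t := hcm hu.2
        have h6 : c s ≤ c u := hcm hu.1.le
        rw [norm_mul, Real.norm_eq_abs, abs_of_nonneg (by linarith)]
        have h7 := hK u ⟨hs0.trans hu.1.le, hu.2.trans ht1⟩
        exact mul_le_mul (by linarith) h7 (norm_nonneg _) (by linarith)
      rw [abs_of_nonneg (by linarith : 0 ≤ t - s)] at e4
      have e5 : (c t - c s) * K * (t - s) ≤ (c t - c s) * (δ / 2) := by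
        rw [mul_assoc]
        apply mul_le_mul_of_nonneg_left _ (by linarith)
        calc K * (t - s) ≤ (K + 1) * (δ / (2 * (K + 1))) :=
              mul_le_mul (by linarith) hsmall (by linarith) (by linarith)
          _ = δ / 2 := by field_simp
      have e6 := (abs_le.1 e4).2
      have e7 := hGδ s ⟨has, hst.trans htb⟩
      have e8 : (c t - c s) * δ ≤ (c t - c s) * G κ ρ s :=
        mul_le_mul_of_nonneg_left e7 (by linarith)
      have e9 : c t * G κ ρ t = c t * G κ ρ s - c t * ∫ u in s..t, I κ ρ u := by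
        rw [← hG1]; ring
      nlinarith [e3, e6, e8, e5, hint, e9])
  have hfin := hstep a b le_rfl hab le_rfl
  simp only [intervalIntegral.integral_same] at hfin
  rw [hca a le_rfl, hcb b le_rfl] at hfin
  have e10 : ∫ s in (0:ℝ)..1, c s * I κ ρ s =
      (∫ s in a..b, c s * I κ ρ s) + (P.m b - P.m a) * G κ ρ b := by
    rw [← s2, ← s1, e0, e1]; ring
  have : 0 < (P.m b - P.m a) * (δ / 2) := by
    apply mul_pos <;> linarith
  nlinarith

end Crest.Agent.R146.PtScalA_45
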