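import Mathlib
import Crest.Agent.R146.PtScalA_45
import Crest.Agent.R146.StepDef_791

-- ▼ part R146/PtS4_489
section

/-!
Row 146, package PT, task 73 (helper489), part S4: PASSAGE TO THE LIMIT for the scalar functions of
the step approximants.  Only equi-Lipschitz bounds of `T_n`, `χ_n` and pointwise convergence of
their integrals `M_n`, `C_n` are used.
-/

set_option autoImplicit false

namespace Crest.Agent.R146.PtS4_489

open Set MeasureTheory Filter Topology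

noncomputable section

/-- pointwise convergence of equi-Lipschitz functions is uniform on compact intervals -/
theorem unif_of_lip {p q L : ℝ} {T : ℕ → ℝ → ℝ} {T0 : ℝ → ℝ} (hL0 : 0 ≤ L)
    (hL : ∀ᶠ n in atTop, ∀ x ∈ Set.Icc p q, ∀ y ∈ Set.Icc p q, |T n x - T n y| ≤ L * |x - y|)
    (hpt : ∀ x ∈ Set.Icc p q, Tendsto (fun n => T n x) atTop (𝓝 (T0 x))) :
    (∀ x ∈ Set.Icc p q, ∀ y ∈ Set.Icc p q, |T0 x - T0 y| ≤ L * |x - y|) ∧
      TendstoUniformlyOn T T0 atTop (Set.Icc p q) := by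
  have h1 : ∀ x ∈ Set.Icc p q, ∀ y ∈ Set.Icc p q, |T0 x - T0 y| ≤ L * |x - y| := by
    intro x hx y hy
    refine le_of_tendsto ((hpt x hx).sub (hpt y hy)).abs ?_
    filter_upwards [hL] with n hn using hn x hx y hy
  refine ⟨h1, ?_⟩
  rw [Metric.tendstoUniformlyOn_iff]
  intro ε hε
  obtain ⟨t, hts, htf, hcov⟩ := isCompact_Icc.finite_cover_balls (s := Set.Icc p q)
    (e := ε / (4 * (L + 1))) (by positivity)
  have h2 : ∀ᶠ n in atTop, ∀ z ∈ t, |T0 z - T n z| < ε / 4 := by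
    rw [Filter.eventually_all_finite htf]
    intro z hz
    have := hpt z (hts hz)
    rw [Metric.tendsto_atTop] at this
    obtain ⟨N, hN⟩ := this (ε / 4) (by positivity)
    filter_upwards [eventually_ge_atTop N] with n hn
    have := hN n hn
    rwa [Real.dist_eq, abs_sub_comm] at this
  filter_upwards [h2, hL] with n hn hLn x hx
  obtain ⟨z, hz, hxz⟩ := Set.mem_iUnion₂.1 (hcov hx)
  rw [Metric.mem_ball, Real.dist_eq] at hxz
  have h3 := h1 x hx z (hts hz)
  have h4 := hLn z (hts hz) x hx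
  have h5 := hn z hz
  have h6 : L * |x - z| ≤ ε / 4 := by
    have h7 : L * |x - z| ≤ L * (ε / (4 * (L + 1))) := mul_le_mul_of_nonneg_left hxz.le hL0
    have h8 : L * (ε / (4 * (L + 1))) ≤ ε / 4 := by
      rw [← mul_div_assoc, div_le_div_iff₀ (by positivity) (by norm_num)]
      nlinarith
    exact h7.trans h8
  rw [abs_sub_comm z x] at h4
  rw [Real.dist_eq]
  have h7 : T0 x - T n x = (T0 x - T0 z) + (T0 z - T n z) + (T n z - T n x) := by ring
  rw [h7]
  refine (abs_add_three _ _ _).trans_lt ?_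
  linarith

/-- convergence of `T_n` from the convergence of `∫ w_n T_n`. -/
theorem lip_limit {p q L B : ℝ} (hpq : p < q) (hL0 : 0 ≤ L) {T W M : ℕ → ℝ → ℝ} {w M0 : ℝ → ℝ}
    (hL : ∀ᶠ n in atTop, ∀ x ∈ Set.Icc p q, ∀ y ∈ Set.Icc p q, |T n x - T n y| ≤ L * |x - y|)
    (hB : ∀ᶠ n in atTop, ∀ x ∈ Set.Icc p q, |T n x| ≤ B)
    (hw : ContinuousOn w (Set.Icc p q)) (hw0 : ∀ x ∈ Set.Icc p q, 0 < w x)
    (hWc : ∀ᶠ n in atTop, ContinuousOn (W n) (Set.Icc p q))
    (hW : TendstoUniformlyOn W w atTop (Set.Icc p q))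
    (hM : ∀ᶠ n in atTop, ∀ x ∈ Set.Icc p q, ∀ y ∈ Set.Icc p q, x ≤ y →
      M n y - M n x = ∫ z in x..y, W n z * T n z)
    (hMl : ∀ x ∈ Set.Icc p q, Tendsto (fun n => M n x) atTop (𝓝 (M0 x))) :
    ∃ T0 : ℝ → ℝ, (∀ x ∈ Set.Icc p q, ∀ y ∈ Set.Icc p q, |T0 x - T0 y| ≤ L * |x - y|) ∧
      TendstoUniformlyOn T T0 atTop (Set.Icc p q) := by
  have hB0 : 0 ≤ B := by
    obtain ⟨n, hn⟩ := hB.exists
    exact (abs_nonneg _).trans (hn p ⟨le_rfl, hpq.le⟩)
  have hTc : ∀ᶠ n in atTop, ContinuousOn (T n) (Set.Icc p q) := by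
    filter_upwards [hL] with n hn
    have : LipschitzOnWith ⟨L, hL0⟩ (T n) (Set.Icc p q) := by
      refine LipschitzOnWith.of_dist_le_mul fun x hx y hy => ?_
      rw [Real.dist_eq, Real.dist_eq]
      exact hn x hx y hy
    exact this.continuousOn
  -- the integrals against the fixed weight converge
  have hI : ∀ x ∈ Set.Icc p q, ∀ y ∈ Set.Icc p q, x ≤ y →
      Tendsto (fun n => ∫ z in x..y, w z * T n z) atTop (𝓝 (M0 y - M0 x)) := by
    intro x hx y hy hxy
    have hsub : Set.Icc x y ⊆ Set.Icc p q := Set.Icc_subset_Icc hx.1 hy.2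
    have h1 : Tendsto (fun n => (∫ z in x..y, w z * T n z) - (M n y - M n x)) atTop (𝓝 0) := by
      rw [Metric.tendsto_atTop']
      intro ε hε
      have h2 : ∀ᶠ n in atTop, ∀ z ∈ Set.Icc p q, dist (w z) (W n z) < ε / ((B + 1) * (q - p + 1)) :=
        (Metric.tendstoUniformlyOn_iff.1 hW) _ (by
          have : 0 < q - p := sub_pos.2 hpq
          positivity)
      have h3 : ∀ᶠ n in atTop, dist ((∫ z in x..y, w z * T n z) - (M n y - M n x)) 0 < ε := by
        filter_upwards [h2, hM, hB, hTc, hWc] with n h2 hM hB hTc hWc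
        rw [hM x hx y hy hxy, ← intervalIntegral.integral_sub]
        · rw [Real.dist_eq, sub_zero]
          have h4 : ∀ z ∈ Set.uIoc x y, ‖w z * T n z - W n z * T n z‖ ≤
              ε / ((B + 1) * (q - p + 1)) * B := by
            intro z hz
            rw [Set.uIoc_of_le hxy] at hz
            have hz' : z ∈ Set.Icc p q := hsub ⟨hz.1.le, hz.2⟩
            rw [← sub_mul, norm_mul]
            refine mul_le_mul ?_ (hB z hz') (norm_nonneg _) ?_
            · have := (h2 z hz').le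
              rwa [Real.dist_eq] at this
            · have : 0 < q - p := sub_pos.2 hpq
              positivity
          have h5 := intervalIntegral.norm_integral_le_of_norm_le_const h4
          rw [Real.norm_eq_abs] at h5
          refine h5.trans_lt ?_
          have hqp : 0 < q - p := sub_pos.2 hpq
          have h6 : |y - x| ≤ q - p := by
            rw [abs_of_nonneg (sub_nonneg.2 hxy)]; linarith [hx.1, hy.2]
          calc ε / ((B + 1) * (q - p + 1)) * B * |y - x| ≤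
                ε / ((B + 1) * (q - p + 1)) * B * (q - p) :=
                mul_le_mul_of_nonneg_left h6 (by positivity)
            _ = ε * (B / (B + 1)) * ((q - p) / (q - p + 1)) := by field_simp
            _ ≤ ε * 1 * ((q - p) / (q - p + 1)) := by
                refine mul_le_mul_of_nonneg_right (mul_le_mul_of_nonneg_left ?_ hε.le) (by positivity)
                rw [div_le_one (by linarith)]; linarith
            _ < ε * 1 * 1 := by
                refine mul_lt_mul_of_pos_left ?_ (by linarith)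
                rw [div_lt_one (by linarith)]; linarith
            _ = ε := by ring
        · exact (ContinuousOn.intervalIntegrable (by
            rw [Set.uIcc_of_le hxy]; exact (hw.mono hsub).mul (hTc.mono hsub)))
        · exact (ContinuousOn.intervalIntegrable (by
            rw [Set.uIcc_of_le hxy]; exact (hWc.mono hsub).mul (hTc.mono hsub)))
      obtain ⟨N, hN⟩ := eventually_atTop.1 h3
      exact ⟨N, fun n hn => hN n hn.le⟩
    have h2 := h1.add ((hMl y hy).sub (hMl x hx))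
    simpa using h2
  -- `T_n x` is a Cauchy sequence
  have hC : ∀ x ∈ Set.Icc p q, ∃ l, Tendsto (fun n => T n x) atTop (𝓝 l) := by
    intro x hx
    apply cauchySeq_tendsto_of_complete
    rw [Metric.cauchySeq_iff']
    intro ε hε
    -- a short interval `[u, v] ∋ x`
    obtain ⟨u, v, hu, hv, huv, hxu, hxv, hlen⟩ : ∃ u v, p ≤ u ∧ v ≤ q ∧ u < v ∧ u ≤ x ∧ x ≤ v ∧
        v - u ≤ ε / (4 * (L + 1)) := by
      have hc : 0 < ε / (4 * (L + 1)) := by positivity
      rcases lt_or_ge x q with h1 | h1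
      · refine ⟨x, min q (x + ε / (4 * (L + 1))), hx.1, min_le_left _ _, lt_min h1 (by linarith),
          le_rfl, le_min h1.le (by linarith), ?_⟩
        have := min_le_right q (x + ε / (4 * (L + 1)))
        linarith
      · have hxq : x = q := le_antisymm hx.2 h1
        refine ⟨max p (q - ε / (4 * (L + 1))), q, le_max_left _ _, le_rfl,
          max_lt hpq (by linarith), ?_, hx.2, ?_⟩
        · rw [hxq]; exact max_le hpq.le (by linarith)
        · have := le_max_right p (q - ε / (4 * (L + 1)))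
          linarith
    have huI : u ∈ Set.Icc p q := ⟨hu, huv.le.trans hv⟩
    have hvI : v ∈ Set.Icc p q := ⟨hu.trans huv.le, hv⟩
    have hsub : Set.Icc u v ⊆ Set.Icc p q := Set.Icc_subset_Icc hu hv
    have hwi : IntervalIntegrable w volume u v :=
      ContinuousOn.intervalIntegrable (by rw [Set.uIcc_of_le huv.le]; exact hw.mono hsub)
    set Z := ∫ z in u..v, w z with hZ
    have hZ0 : 0 < Z := by
      rw [hZ]
      exact intervalIntegral.intervalIntegral_pos_of_pos_on hwi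
        (fun z hz => hw0 z (hsub ⟨hz.1.le, hz.2.le⟩)) huv
    have hkey : ∀ᶠ n in atTop, |T n x * Z - ∫ z in u..v, w z * T n z| ≤ ε / 4 * Z := by
      filter_upwards [hL, hTc] with n hLn hTcn
      have e1 : T n x * Z - ∫ z in u..v, w z * T n z = ∫ z in u..v, w z * (T n x - T n z) := by
        rw [hZ, ← intervalIntegral.integral_const_mul, ← intervalIntegral.integral_sub]
        · refine intervalIntegral.integral_congr fun z _ => ?_
          ring
        · exact hwi.const_mul _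
        · exact ContinuousOn.intervalIntegrable (by
            rw [Set.uIcc_of_le huv.le]; exact (hw.mono hsub).mul (hTcn.mono hsub))
      rw [e1]
      have e2 : |∫ z in u..v, w z * (T n x - T n z)| ≤ ∫ z in u..v, w z * (ε / 4) := by
        rw [← Real.norm_eq_abs]
        refine intervalIntegral.norm_integral_le_of_norm_le huv.le ?_ (hwi.mul_const _)
        refine Eventually.of_forall fun z hz => ?_
        have hz' : z ∈ Set.Icc p q := hsub ⟨hz.1.le, hz.2⟩
        rw [norm_mul, Real.norm_eq_abs, abs_of_pos (hw0 z hz')]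
        refine mul_le_mul_of_nonneg_left ?_ (hw0 z hz').le
        rw [Real.norm_eq_abs]
        refine (hLn x hx z hz').trans ?_
        have h6 : |x - z| ≤ ε / (4 * (L + 1)) := by
          rw [abs_le]; constructor <;> linarith [hz.1, hz.2]
        have h7 : L * |x - z| ≤ L * (ε / (4 * (L + 1))) := mul_le_mul_of_nonneg_left h6 hL0
        have h8 : L * (ε / (4 * (L + 1))) ≤ ε / 4 := by
          rw [← mul_div_assoc, div_le_div_iff₀ (by positivity) (by norm_num)]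
          nlinarith
        exact h7.trans h8
      rw [intervalIntegral.integral_mul_const, ← hZ] at e2
      linarith
    have hI' := hI u huI v hvI huv.le
    rw [Metric.tendsto_atTop] at hI'
    obtain ⟨N1, hN1⟩ := hI' (ε / 8 * Z) (by positivity)
    obtain ⟨N2, hN2⟩ := eventually_atTop.1 hkey
    refine ⟨max N1 N2, fun n hn => ?_⟩
    have a1 := hN1 n ((le_max_left _ _).trans hn)
    have a2 := hN1 (max N1 N2) (le_max_left _ _)
    have a3 := hN2 n ((le_max_right _ _).trans hn)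
    have a4 := hN2 (max N1 N2) (le_max_right _ _)
    rw [Real.dist_eq] at a1 a2 ⊢
    have a5 : |(T n x - T (max N1 N2) x) * Z| < ε * Z := by
      have : (T n x - T (max N1 N2) x) * Z = (T n x * Z - ∫ z in u..v, w z * T n z) +
          ((∫ z in u..v, w z * T n z) - (M0 v - M0 u)) -
          ((T (max N1 N2) x * Z - ∫ z in u..v, w z * T (max N1 N2) z) +
          ((∫ z in u..v, w z * T (max N1 N2) z) - (M0 v - M0 u))) := by ring
      rw [this]
      refine (abs_sub _ _).trans_lt ?_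
      have b1 := abs_add_le (T n x * Z - ∫ z in u..v, w z * T n z)
        ((∫ z in u..v, w z * T n z) - (M0 v - M0 u))
      have b2 := abs_add_le (T (max N1 N2) x * Z - ∫ z in u..v, w z * T (max N1 N2) z)
        ((∫ z in u..v, w z * T (max N1 N2) z) - (M0 v - M0 u))
      nlinarith
    rw [abs_mul, abs_of_pos hZ0] at a5
    exact lt_of_mul_lt_mul_right a5 hZ0.le
  choose! T0 hT0 using hC
  exact ⟨T0, unif_of_lip hL0 hL hT0⟩

/-- a Lipschitz bound from a bound of the right derivative -/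
theorem lip_of_right {f f' : ℝ → ℝ} {p q L : ℝ} (hc : ContinuousOn f (Set.Icc p q))
    (hd : ∀ x ∈ Set.Ico p q, HasDerivWithinAt f (f' x) (Set.Ici x) x)
    (hb : ∀ x ∈ Set.Ico p q, |f' x| ≤ L) :
    ∀ x ∈ Set.Icc p q, ∀ y ∈ Set.Icc p q, |f x - f y| ≤ L * |x - y| := by
  have key : ∀ x ∈ Set.Icc p q, ∀ y ∈ Set.Icc p q, x ≤ y → |f x - f y| ≤ L * |x - y| := by
    intro x hx y hy hxy
    have h1 := norm_image_sub_le_of_norm_deriv_right_le_segment (f := f) (f' := f') (C := L)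
      (a := x) (b := y) (hc.mono (Set.Icc_subset_Icc hx.1 hy.2))
      (fun z hz => hd z ⟨hx.1.trans hz.1, hz.2.trans_le hy.2⟩)
      (fun z hz => hb z ⟨hx.1.trans hz.1, hz.2.trans_le hy.2⟩) y ⟨hxy, le_rfl⟩
    rw [Real.norm_eq_abs] at h1
    rw [abs_sub_comm, abs_sub_comm x y, abs_of_nonneg (sub_nonneg.2 hxy)]
    exact h1
  intro x hx y hy
  rcases le_total x y with h | h
  · exact key x hx y hy h
  · rw [abs_sub_comm, abs_sub_comm x y]
    exact key y hy x hx h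

/-- the scalar data of a sequence of approximants on `[0,1)`; `E_n' = b_n E_n`, `T_n' = K_n`,
`Q_n' = -b_n Q_n - K_n` (right derivatives), `L_n' = E_n² T_n`, `C_n' = -E_n Q_n`. -/
structure Seq (E b L0 C0 : ℝ → ℝ) (En bn Tn Qn Kn Ln Cn : ℕ → ℝ → ℝ) : Prop where
  bd : ∀ q ∈ Set.Ioo (0 : ℝ) 1, ∃ B : ℝ, ∀ᶠ n in atTop,
    ContinuousOn (En n) (Set.Icc 0 q) ∧ ContinuousOn (Tn n) (Set.Icc 0 q) ∧
    ContinuousOn (Qn n) (Set.Icc 0 q) ∧ ContinuousOn (Ln n) (Set.Icc 0 q) ∧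
    ContinuousOn (Cn n) (Set.Icc 0 q) ∧
    AEStronglyMeasurable (bn n) (volume.restrict (Set.Icc 0 q)) ∧
    (∀ t ∈ Set.Ico 0 q, |Kn n t| ≤ B ∧ |bn n t| ≤ B ∧
      HasDerivWithinAt (En n) (bn n t * En n t) (Set.Ici t) t ∧
      HasDerivWithinAt (Tn n) (Kn n t) (Set.Ici t) t ∧
      HasDerivWithinAt (Qn n) (-bn n t * Qn n t - Kn n t) (Set.Ici t) t ∧
      HasDerivWithinAt (Ln n) (En n t ^ 2 * Tn n t) (Set.Ici t) t ∧
      HasDerivWithinAt (Cn n) (-(En n t * Qn n t)) (Set.Ici t) t) ∧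
    (∀ t ∈ Set.Icc 0 q, |Tn n t| ≤ B ∧ |Qn n t| ≤ B ∧ |En n t| ≤ B)
  Ec : ContinuousOn E (Set.Ico 0 1)
  Epos : ∀ t ∈ Set.Ico (0 : ℝ) 1, 0 < E t
  EL : ∀ q ∈ Set.Ioo (0 : ℝ) 1, TendstoUniformlyOn En E atTop (Set.Icc 0 q)
  bL : ∀ᵐ t ∂volume, t ∈ Set.Ico (0 : ℝ) 1 → Tendsto (fun n => bn n t) atTop (𝓝 (b t))
  LL : ∀ t ∈ Set.Ico (0 : ℝ) 1, Tendsto (fun n => Ln n t) atTop (𝓝 (L0 t))
  CL : ∀ t ∈ Set.Ico (0 : ℝ) 1, Tendsto (fun n => Cn n t) atTop (𝓝 (C0 t))

/-- products of uniformly convergent bounded functions -/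
theorem unif_mul {s : Set ℝ} {F G : ℕ → ℝ → ℝ} {f g : ℝ → ℝ} {B : ℝ}
    (hF : TendstoUniformlyOn F f atTop s) (hG : TendstoUniformlyOn G g atTop s)
    (hFb : ∀ᶠ n in atTop, ∀ x ∈ s, |F n x| ≤ B) (hGb : ∀ x ∈ s, |g x| ≤ B) :
    TendstoUniformlyOn (fun n x => F n x * G n x) (fun x => f x * g x) atTop s := by
  rw [Metric.tendstoUniformlyOn_iff] at hF hG ⊢
  intro ε hε
  have hB : (0 : ℝ) < |B| + 1 := by positivity
  filter_upwards [hF (ε / (2 * (|B| + 1))) (by positivity),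
    hG (ε / (2 * (|B| + 1))) (by positivity), hFb] with n h1 h2 h3 x hx
  have a1 := h1 x hx
  have a2 := h2 x hx
  have a3 := (h3 x hx).trans (le_abs_self B)
  have a4 := (hGb x hx).trans (le_abs_self B)
  rw [Real.dist_eq] at a1 a2 ⊢
  have e1 : f x * g x - F n x * G n x = (f x - F n x) * g x + F n x * (g x - G n x) := by ring
  rw [e1]
  refine (abs_add_le _ _).trans_lt ?_
  rw [abs_mul, abs_mul]
  have b1 : |f x - F n x| * |g x| ≤ ε / (2 * (|B| + 1)) * |B| :=
    mul_le_mul a1.le a4 (abs_nonneg _) (by positivity)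
  have b2 : |F n x| * |g x - G n x| ≤ |B| * (ε / (2 * (|B| + 1))) :=
    mul_le_mul a3 a2.le (abs_nonneg _) (abs_nonneg _)
  have b3 : ε / (2 * (|B| + 1)) * |B| + |B| * (ε / (2 * (|B| + 1))) < ε := by
    have : ε / (2 * (|B| + 1)) * |B| + |B| * (ε / (2 * (|B| + 1))) = ε * (|B| / (|B| + 1)) := by
      field_simp; ring
    rw [this]
    have : |B| / (|B| + 1) < 1 := by rw [div_lt_one hB]; linarith
    nlinarith
  linarith

theorem cont_of_unif {q : ℝ} {F : ℕ → ℝ → ℝ} {f : ℝ → ℝ}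
    (hF : TendstoUniformlyOn F f atTop (Set.Icc 0 q))
    (hc : ∀ᶠ n in atTop, ContinuousOn (F n) (Set.Icc 0 q)) : ContinuousOn f (Set.Icc 0 q) :=
  hF.continuousOn hc.frequently

theorem continuousOn_Ico {f : ℝ → ℝ} (h : ∀ q ∈ Set.Ioo (0 : ℝ) 1, ContinuousOn f (Set.Icc 0 q)) :
    ContinuousOn f (Set.Ico 0 1) := by
  intro x hx
  have hq : (x + 1) / 2 ∈ Set.Ioo (0 : ℝ) 1 := ⟨by linarith [hx.1], by linarith [hx.2]⟩
  have h1 := h _ hq x ⟨hx.1, by linarith [hx.2]⟩
  refine h1.mono_of_mem_nhdsWithin ?_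
  rw [mem_nhdsWithin]
  refine ⟨Set.Iio ((x + 1) / 2), isOpen_Iio, by show x < (x + 1) / 2; linarith [hx.2], ?_⟩
  intro y hy
  exact ⟨hy.2.1, le_of_lt hy.1⟩

/-- the derivative identities integrated -/
theorem int_of_right {f f' : ℝ → ℝ} {q : ℝ} (hc : ContinuousOn f (Set.Icc 0 q))
    (hd : ∀ t ∈ Set.Ico 0 q, HasDerivWithinAt f (f' t) (Set.Ici t) t)
    (hi : ∀ x ∈ Set.Icc 0 q, ∀ y ∈ Set.Icc 0 q, IntervalIntegrable f' volume x y)
    {x y : ℝ} (hx : x ∈ Set.Icc 0 q) (hy : y ∈ Set.Icc 0 q) (hxy : x ≤ y) :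
    ∫ z in x..y, f' z = f y - f x :=
  intervalIntegral.integral_eq_sub_of_hasDeriv_right_of_le hxy
    (hc.mono (Set.Icc_subset_Icc hx.1 hy.2))
    (fun z hz => (hd z ⟨hx.1.trans hz.1.le, hz.2.trans_le hy.2⟩).mono Set.Ioi_subset_Ici_self)
    (hi x hx y hy)

theorem intervalIntegrable_of_cont {f : ℝ → ℝ} {q : ℝ} (hc : ContinuousOn f (Set.Icc 0 q)) :
    ∀ x ∈ Set.Icc 0 q, ∀ y ∈ Set.Icc 0 q, IntervalIntegrable f volume x y := by
  intro x hx y hy
  exact ContinuousOn.intervalIntegrable (hc.mono (Set.uIcc_subset_Icc hx hy))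

/-- bounded times continuous is integrable -/
theorem intervalIntegrable_of_bdd {f : ℝ → ℝ} {q B : ℝ}
    (hm : AEStronglyMeasurable f (volume.restrict (Set.Icc 0 q)))
    (hb : ∀ t ∈ Set.Ico 0 q, |f t| ≤ B) :
    ∀ x ∈ Set.Icc 0 q, ∀ y ∈ Set.Icc 0 q, IntervalIntegrable f volume x y := by
  intro x hx y hy
  rw [intervalIntegrable_iff]
  have hsub : Set.uIoc x y ⊆ Set.Icc 0 q := by
    intro z hz
    have := Set.uIoc_subset_uIcc hz
    exact Set.uIcc_subset_Icc hx hy this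
  have hm' : AEStronglyMeasurable f (volume.restrict (Set.uIoc x y)) := hm.mono_set hsub
  have : IsFiniteMeasure (volume.restrict (Set.uIoc x y)) :=
    ⟨by rw [Measure.restrict_apply_univ, Set.uIoc, Real.volume_Ioc]; exact ENNReal.ofReal_lt_top⟩
  refine Integrable.of_bound hm' B ?_
  · have hne : ∀ᵐ z ∂(volume : Measure ℝ), z ≠ q := by
      rw [ae_iff]; simp
    filter_upwards [ae_restrict_mem measurableSet_uIoc, ae_restrict_of_ae hne] with z hz hzq
    have hz' := hsub hz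
    exact hb z ⟨hz'.1, lt_of_le_of_ne hz'.2 hzq⟩

/-- dominated convergence on subintervals of `[0,q]` -/
theorem int_tendsto {q B : ℝ} {g : ℕ → ℝ → ℝ} {g0 : ℝ → ℝ}
    (hgb : ∀ᶠ n in atTop, ∀ t ∈ Set.Ico 0 q, |g n t| ≤ B)
    (hgm : ∀ᶠ n in atTop, AEStronglyMeasurable (g n) (volume.restrict (Set.Icc 0 q)))
    (hl : ∀ᵐ t ∂(volume : Measure ℝ), t ∈ Set.Icc 0 q → Tendsto (fun n => g n t) atTop (𝓝 (g0 t)))
    {x y : ℝ} (hx : x ∈ Set.Icc 0 q) (hy : y ∈ Set.Icc 0 q) :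
    Tendsto (fun n => ∫ z in x..y, g n z) atTop (𝓝 (∫ z in x..y, g0 z)) := by
  have hsub : Set.uIoc x y ⊆ Set.Icc 0 q := by
    intro z hz
    have := Set.uIoc_subset_uIcc hz
    exact Set.uIcc_subset_Icc hx hy this
  have hne : ∀ᵐ z ∂(volume : Measure ℝ), z ≠ q := by
    rw [ae_iff]; simp
  refine intervalIntegral.tendsto_integral_filter_of_dominated_convergence (fun _ => B) ?_ ?_
    intervalIntegrable_const ?_
  · filter_upwards [hgm] with n hn using hn.mono_set hsub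
  · filter_upwards [hgb] with n hn
    filter_upwards [hne] with z hz hzI
    have hz' := hsub hzI
    exact hn z ⟨hz'.1, lt_of_le_of_ne hz'.2 hz⟩
  · filter_upwards [hl] with z hz hzI using hz (hsub hzI)

namespace Seq

variable {E b L0 C0 : ℝ → ℝ} {En bn Tn Qn Kn Ln Cn : ℕ → ℝ → ℝ}

theorem E_bdd (h : Seq E b L0 C0 En bn Tn Qn Kn Ln Cn) {q : ℝ} (hq : q ∈ Set.Ioo (0 : ℝ) 1) :
    ∃ B, ∀ x ∈ Set.Icc 0 q, |E x| ≤ B := by
  have hc : ContinuousOn E (Set.Icc 0 q) :=
    h.Ec.mono fun x hx => ⟨hx.1, hx.2.trans_lt hq.2⟩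
  obtain ⟨B, hB⟩ := isCompact_Icc.exists_bound_of_continuousOn hc
  exact ⟨B, fun x hx => by simpa [Real.norm_eq_abs] using hB x hx⟩

/-- **Passage to the limit.** -/
theorem limit (h : Seq E b L0 C0 En bn Tn Qn Kn Ln Cn) :
    ∃ T Q : ℝ → ℝ, ContinuousOn T (Set.Ico 0 1) ∧ ContinuousOn Q (Set.Ico 0 1) ∧
      (∀ q ∈ Set.Ioo (0 : ℝ) 1, TendstoUniformlyOn Tn T atTop (Set.Icc 0 q)) ∧
      (∀ q ∈ Set.Ioo (0 : ℝ) 1, TendstoUniformlyOn Qn Q atTop (Set.Icc 0 q)) ∧
      (∀ x y : ℝ, 0 ≤ x → x ≤ y → y < 1 → L0 y - L0 x = ∫ z in x..y, E z ^ 2 * T z) ∧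
      (∀ x y : ℝ, 0 ≤ x → x ≤ y → y < 1 → C0 x - C0 y = ∫ z in x..y, E z * Q z) ∧
      (∀ x y : ℝ, 0 ≤ x → x ≤ y → y < 1 →
        E y * (T y + Q y) - E x * (T x + Q x) = ∫ z in x..y, b z * E z * T z) := by
  -- local limits
  have locT : ∀ q ∈ Set.Ioo (0 : ℝ) 1, ∃ T0 : ℝ → ℝ,
      TendstoUniformlyOn Tn T0 atTop (Set.Icc 0 q) := by
    intro q hq
    obtain ⟨B, hB⟩ := h.bd q hq
    obtain ⟨B', hB'⟩ := h.E_bdd hq
    have hEc : ContinuousOn E (Set.Icc 0 q) := h.Ec.mono fun x hx => ⟨hx.1, hx.2.trans_lt hq.2⟩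
    have hBB : 0 ≤ B := by
      obtain ⟨n, hn⟩ := hB.exists
      exact (abs_nonneg _).trans (hn.2.2.2.2.2.2.2 0 ⟨le_rfl, hq.1.le⟩).1
    obtain ⟨T0, _, hT0⟩ := lip_limit (p := 0) (q := q) (L := B) (B := B) hq.1 hBB
      (T := Tn) (W := fun n z => En n z ^ 2) (M := Ln) (w := fun z => E z ^ 2) (M0 := L0)
      (by
        filter_upwards [hB] with n hn
        exact lip_of_right hn.2.1 (fun t ht => (hn.2.2.2.2.2.2.1 t ht).2.2.2.1)
          fun t ht => (hn.2.2.2.2.2.2.1 t ht).1)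
      (by filter_upwards [hB] with n hn x hx using (hn.2.2.2.2.2.2.2 x hx).1)
      (hEc.pow 2) (fun x hx => pow_pos (h.Epos x ⟨hx.1, hx.2.trans_lt hq.2⟩) 2)
      (by filter_upwards [hB] with n hn using hn.1.pow 2)
      (by
        have := unif_mul (B := max B B') (h.EL q hq) (h.EL q hq)
          (by filter_upwards [hB] with n hn x hx using
                (hn.2.2.2.2.2.2.2 x hx).2.2.trans (le_max_left _ _))
          (fun x hx => (hB' x hx).trans (le_max_right _ _))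
        simpa [sq] using this)
      (by
        filter_upwards [hB] with n hn x hx y hy hxy
        rw [int_of_right hn.2.2.2.1 (fun t ht => (hn.2.2.2.2.2.2.1 t ht).2.2.2.2.2.1)
          (intervalIntegrable_of_cont ((hn.1.pow 2).mul hn.2.1)) hx hy hxy])
      (fun x hx => h.LL x ⟨hx.1, hx.2.trans_lt hq.2⟩)
    exact ⟨T0, hT0⟩
  have locQ : ∀ q ∈ Set.Ioo (0 : ℝ) 1, ∃ T0 : ℝ → ℝ,
      TendstoUniformlyOn Qn T0 atTop (Set.Icc 0 q) := by
    intro q hq
    obtain ⟨B, hB⟩ := h.bd q hq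
    have hEc : ContinuousOn E (Set.Icc 0 q) := h.Ec.mono fun x hx => ⟨hx.1, hx.2.trans_lt hq.2⟩
    have hBB : 0 ≤ B := by
      obtain ⟨n, hn⟩ := hB.exists
      exact (abs_nonneg _).trans (hn.2.2.2.2.2.2.2 0 ⟨le_rfl, hq.1.le⟩).1
    obtain ⟨T0, _, hT0⟩ := lip_limit (p := 0) (q := q) (L := B * B + B) (B := B) hq.1
      (by positivity)
      (T := Qn) (W := En) (M := fun n z => -Cn n z) (w := E) (M0 := fun z => -C0 z)
      (by
        filter_upwards [hB] with n hn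
        refine lip_of_right hn.2.2.1 (fun t ht => (hn.2.2.2.2.2.2.1 t ht).2.2.2.2.1)
          fun t ht => ?_
        have a1 := (hn.2.2.2.2.2.2.1 t ht).1
        have a2 := (hn.2.2.2.2.2.2.1 t ht).2.1
        have a3 := (hn.2.2.2.2.2.2.2 t ⟨ht.1, ht.2.le⟩).2.1
        have a4 : |bn n t| * |Qn n t| ≤ B * B := mul_le_mul a2 a3 (abs_nonneg _) hBB
        calc |-bn n t * Qn n t - Kn n t| ≤ |-bn n t * Qn n t| + |Kn n t| := abs_sub _ _
          _ ≤ B * B + B := by rw [abs_mul, abs_neg]; linarith)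
      (by filter_upwards [hB] with n hn x hx using (hn.2.2.2.2.2.2.2 x hx).2.1)
      hEc (fun x hx => h.Epos x ⟨hx.1, hx.2.trans_lt hq.2⟩)
      (by filter_upwards [hB] with n hn using hn.1)
      (h.EL q hq)
      (by
        filter_upwards [hB] with n hn x hx y hy hxy
        have e1 := int_of_right hn.2.2.2.2.1 (fun t ht => (hn.2.2.2.2.2.2.1 t ht).2.2.2.2.2.2)
          (intervalIntegrable_of_cont (hn.1.mul hn.2.2.1).neg) hx hy hxy
        rw [intervalIntegral.integral_neg] at e1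
        linarith)
      (fun x hx => (h.CL x ⟨hx.1, hx.2.trans_lt hq.2⟩).neg)
    exact ⟨T0, hT0⟩
  -- global limits
  have glob : ∀ F : ℕ → ℝ → ℝ, (∀ q ∈ Set.Ioo (0 : ℝ) 1, ∃ T0 : ℝ → ℝ,
      TendstoUniformlyOn F T0 atTop (Set.Icc 0 q)) → ∀ q ∈ Set.Ioo (0 : ℝ) 1,
      TendstoUniformlyOn F (fun x => limUnder atTop (fun n => F n x)) atTop (Set.Icc 0 q) := by
    intro F hF q hq
    obtain ⟨T0, hT0⟩ := hF q hq
    refine hT0.congr_right fun x hx => ?_
    exact (Tendsto.limUnder_eq (hT0.tendsto_at hx)).symm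
  set T : ℝ → ℝ := fun x => limUnder atTop (fun n => Tn n x) with hTdef
  set Q : ℝ → ℝ := fun x => limUnder atTop (fun n => Qn n x) with hQdef
  have hT := glob Tn locT
  have hQ := glob Qn locQ
  rw [← hTdef] at hT
  rw [← hQdef] at hQ
  have hTc : ∀ q ∈ Set.Ioo (0 : ℝ) 1, ContinuousOn T (Set.Icc 0 q) := by
    intro q hq
    obtain ⟨B, hB⟩ := h.bd q hq
    exact cont_of_unif (hT q hq) (hB.mono fun n hn => hn.2.1)
  have hQc : ∀ q ∈ Set.Ioo (0 : ℝ) 1, ContinuousOn Q (Set.Icc 0 q) := by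
    intro q hq
    obtain ⟨B, hB⟩ := h.bd q hq
    exact cont_of_unif (hQ q hq) (hB.mono fun n hn => hn.2.2.1)
  -- an interval containing `x, y`
  have hqq : ∀ y : ℝ, 0 ≤ y → y < 1 → (y + 1) / 2 ∈ Set.Ioo (0 : ℝ) 1 := fun y h0 h1 =>
    ⟨by linarith, by linarith⟩
  refine ⟨T, Q, continuousOn_Ico hTc, continuousOn_Ico hQc, hT, hQ, ?_, ?_, ?_⟩
  · intro x y hx hxy hy
    set q := (y + 1) / 2 with hqd
    have hq := hqq y (hx.trans hxy) hy
    rw [← hqd] at hq
    have hxq : x ∈ Set.Icc 0 q := ⟨hx, by rw [hqd]; linarith⟩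
    have hyq : y ∈ Set.Icc 0 q := ⟨hx.trans hxy, by rw [hqd]; linarith⟩
    obtain ⟨B, hB⟩ := h.bd q hq
    have hBB : 0 ≤ B := by
      obtain ⟨n, hn⟩ := hB.exists
      exact (abs_nonneg _).trans (hn.2.2.2.2.2.2.2 0 ⟨le_rfl, hq.1.le⟩).1
    have h1 : Tendsto (fun n => ∫ z in x..y, En n z ^ 2 * Tn n z) atTop
        (𝓝 (∫ z in x..y, E z ^ 2 * T z)) := by
      refine int_tendsto (q := q) (B := B ^ 2 * B) ?_ ?_ ?_ hxq hyq
      · filter_upwards [hB] with n hn t ht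
        have a := hn.2.2.2.2.2.2.2 t ⟨ht.1, ht.2.le⟩
        rw [abs_mul, abs_pow]
        exact mul_le_mul (pow_le_pow_left₀ (abs_nonneg _) a.2.2 2) a.1 (abs_nonneg _)
          (by positivity)
      · filter_upwards [hB] with n hn
        exact ((hn.1.pow 2).mul hn.2.1).aestronglyMeasurable measurableSet_Icc
      · refine Eventually.of_forall fun t ht => ?_
        exact (((h.EL q hq).tendsto_at ht).pow 2).mul ((hT q hq).tendsto_at ht)
    have h2 : Tendsto (fun n => Ln n y - Ln n x) atTop (𝓝 (L0 y - L0 x)) :=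
      (h.LL y ⟨hx.trans hxy, hy⟩).sub (h.LL x ⟨hx, hxy.trans_lt hy⟩)
    refine tendsto_nhds_unique h2 (h1.congr' ?_)
    filter_upwards [hB] with n hn
    exact int_of_right hn.2.2.2.1 (fun t ht => (hn.2.2.2.2.2.2.1 t ht).2.2.2.2.2.1)
      (intervalIntegrable_of_cont ((hn.1.pow 2).mul hn.2.1)) hxq hyq hxy
  · intro x y hx hxy hy
    set q := (y + 1) / 2 with hqd
    have hq := hqq y (hx.trans hxy) hy
    rw [← hqd] at hq
    have hxq : x ∈ Set.Icc 0 q := ⟨hx, by rw [hqd]; linarith⟩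
    have hyq : y ∈ Set.Icc 0 q := ⟨hx.trans hxy, by rw [hqd]; linarith⟩
    obtain ⟨B, hB⟩ := h.bd q hq
    have hBB : 0 ≤ B := by
      obtain ⟨n, hn⟩ := hB.exists
      exact (abs_nonneg _).trans (hn.2.2.2.2.2.2.2 0 ⟨le_rfl, hq.1.le⟩).1
    have h1 : Tendsto (fun n => ∫ z in x..y, En n z * Qn n z) atTop
        (𝓝 (∫ z in x..y, E z * Q z)) := by
      refine int_tendsto (q := q) (B := B * B) ?_ ?_ ?_ hxq hyq
      · filter_upwards [hB] with n hn t ht
        have a := hn.2.2.2.2.2.2.2 t ⟨ht.1, ht.2.le⟩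
        rw [abs_mul]
        exact mul_le_mul a.2.2 a.2.1 (abs_nonneg _) hBB
      · filter_upwards [hB] with n hn
        exact (hn.1.mul hn.2.2.1).aestronglyMeasurable measurableSet_Icc
      · refine Eventually.of_forall fun t ht => ?_
        exact ((h.EL q hq).tendsto_at ht).mul ((hQ q hq).tendsto_at ht)
    have h2 : Tendsto (fun n => Cn n x - Cn n y) atTop (𝓝 (C0 x - C0 y)) :=
      (h.CL x ⟨hx, hxy.trans_lt hy⟩).sub (h.CL y ⟨hx.trans hxy, hy⟩)
    refine tendsto_nhds_unique h2 (h1.congr' ?_)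
    filter_upwards [hB] with n hn
    have e1 := int_of_right hn.2.2.2.2.1 (fun t ht => (hn.2.2.2.2.2.2.1 t ht).2.2.2.2.2.2)
      (intervalIntegrable_of_cont (hn.1.mul hn.2.2.1).neg) hxq hyq hxy
    rw [intervalIntegral.integral_neg] at e1
    linarith
  · intro x y hx hxy hy
    set q := (y + 1) / 2 with hqd
    have hq := hqq y (hx.trans hxy) hy
    rw [← hqd] at hq
    have hxq : x ∈ Set.Icc 0 q := ⟨hx, by rw [hqd]; linarith⟩
    have hyq : y ∈ Set.Icc 0 q := ⟨hx.trans hxy, by rw [hqd]; linarith⟩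
    obtain ⟨B, hB⟩ := h.bd q hq
    have hBB : 0 ≤ B := by
      obtain ⟨n, hn⟩ := hB.exists
      exact (abs_nonneg _).trans (hn.2.2.2.2.2.2.2 0 ⟨le_rfl, hq.1.le⟩).1
    have hmeas : ∀ᶠ n in atTop, AEStronglyMeasurable (fun z => bn n z * En n z * Tn n z)
        (volume.restrict (Set.Icc 0 q)) := by
      filter_upwards [hB] with n hn
      exact (hn.2.2.2.2.2.1.mul (hn.1.aestronglyMeasurable measurableSet_Icc)).mul
        (hn.2.1.aestronglyMeasurable measurableSet_Icc)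
    have hbd : ∀ᶠ n in atTop, ∀ t ∈ Set.Ico 0 q, |bn n t * En n t * Tn n t| ≤ B * B * B := by
      filter_upwards [hB] with n hn t ht
      have a := hn.2.2.2.2.2.2.2 t ⟨ht.1, ht.2.le⟩
      have a' := (hn.2.2.2.2.2.2.1 t ht).2.1
      rw [abs_mul, abs_mul]
      exact mul_le_mul (mul_le_mul a' a.2.2 (abs_nonneg _) hBB) a.1 (abs_nonneg _) (by positivity)
    have h1 : Tendsto (fun n => ∫ z in x..y, bn n z * En n z * Tn n z) atTop
        (𝓝 (∫ z in x..y, b z * E z * T z)) := by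
      refine int_tendsto (q := q) (B := B * B * B) hbd hmeas ?_ hxq hyq
      filter_upwards [h.bL] with t hbt ht
      exact ((hbt ⟨ht.1, ht.2.trans_lt hq.2⟩).mul ((h.EL q hq).tendsto_at ht)).mul
        ((hT q hq).tendsto_at ht)
    have h2 : Tendsto (fun n => En n y * (Tn n y + Qn n y) - En n x * (Tn n x + Qn n x)) atTop
        (𝓝 (E y * (T y + Q y) - E x * (T x + Q x))) :=
      (((h.EL q hq).tendsto_at hyq).mul (((hT q hq).tendsto_at hyq).add
        ((hQ q hq).tendsto_at hyq))).sub (((h.EL q hq).tendsto_at hxq).mul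
        (((hT q hq).tendsto_at hxq).add ((hQ q hq).tendsto_at hxq)))
    refine tendsto_nhds_unique h2 (h1.congr' ?_)
    filter_upwards [hB, hmeas, hbd] with n hn hm hb
    refine int_of_right (f := fun z => En n z * (Tn n z + Qn n z))
      (hn.1.mul (hn.2.1.add hn.2.2.1)) (fun t ht => ?_) (intervalIntegrable_of_bdd hm hb)
      hxq hyq hxy
    have a := (hn.2.2.2.2.2.2.1 t ht).2.2
    have e1 := a.1.mul (a.2.1.add a.2.2.1)
    refine e1.congr_deriv ?_
    simp only [Pi.add_apply]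
    ring

end Seq

end

end Crest.Agent.R146.PtS4_489
end

-- ▼ part R146/PtS4b_489

/-!
Row 146, package PT, task 73 (helper489), part S4b: the limit of the scalar functions of a sequence
of step data `A n : SD` converging to a profile `P : Prof` (PtScalA_45), in the form consumed by
`PtScalB_45.tip_full`.
-/

set_option autoImplicit false

namespace Crest.Agent.R146.PtS4b_489

open Set MeasureTheory Filter Topology
open Crest.Agent.R146.PtS4_489 Crest.Agent.R146.PtScalA_45 Crest.Agent.R146.StepDef_791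

noncomputable section

theorem measurable_mrc : ∀ (T : ℝ) (cs : Cells), Measurable (mrc T cs)
  | T, [] => by
      have : mrc T [] = fun _ => (0 : ℝ) := by funext t; rfl
      rw [this]; exact measurable_const
  | T, c :: cs => by
      have : mrc T (c :: cs) = fun t => if c.1 ≤ t then (if t < T then c.2 else 0)
          else mrc c.1 cs t := by funext t; rfl
      rw [this]
      refine Measurable.ite (measurableSet_le measurable_const measurable_id) ?_
        (measurable_mrc c.1 cs)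
      exact Measurable.ite (measurableSet_lt measurable_id measurable_const) measurable_const
        measurable_const

theorem measurable_m (A : SD) : Measurable A.m := measurable_mrc A.T A.cs

theorem measurable_b (A : SD) (h : Clock A) : Measurable A.b :=
  (measurable_m A).div h.D_cont.measurable

theorem E_t {A : SD} (h : Clock A) {t : ℝ} (ht : t ∈ Ico 0 A.T) :
    HasDerivWithinAt A.E (A.b t * A.E t) (Ici t) t := by
  have h1 := (h.D_t t ht).inv (A.D_pos t).ne'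
  have h2 : A.E = A.D⁻¹ := by funext s; rfl
  rw [h2]
  refine h1.congr_deriv ?_
  simp only [SD.b, Pi.inv_apply, neg_neg]
  have := (A.D_pos t).ne'
  field_simp

theorem E_cont {A : SD} (h : Clock A) : Continuous A.E :=
  h.D_cont.inv₀ fun t => (A.D_pos t).ne'

/-- hypotheses on a sequence of step data with limit profile `P` -/
structure Appr (P : Prof) (A : ℕ → SD) (x0 : ℝ) (p : ℕ → ℝ → ℝ → ℝ) (L0 C0 : ℝ → ℝ) : Prop where
  clk : ∀ n, Clock (A n)
  scal : ∀ n, Scal (A n) x0 (p n)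
  T1 : ∀ q : ℝ, q < 1 → ∀ᶠ n in atTop, q < (A n).T
  /-- convergence of the profiles -/
  DL : ∀ q ∈ Ioo (0 : ℝ) 1, TendstoUniformlyOn (fun n => (A n).D) P.D atTop (Icc 0 q)
  /-- convergence of the weights -/
  mL : ∀ᵐ t ∂(volume : Measure ℝ), t ∈ Ico (0 : ℝ) 1 → Tendsto (fun n => (A n).m t) atTop (𝓝 (P.m t))
  mb : ∀ q ∈ Ioo (0 : ℝ) 1, ∃ B : ℝ, ∀ᶠ n in atTop, ∀ t ∈ Icc 0 q, (A n).m t ≤ B
  /-- bounds of the scalars -/
  Nb : ∀ q ∈ Ioo (0 : ℝ) 1, ∃ B : ℝ, ∀ᶠ n in atTop, ∀ t ∈ Icc 0 q, |Ns (A n) x0 (p n) t| ≤ B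
  Tb : ∀ n, ∀ t ∈ Icc 0 (A n).T, 0 ≤ Ts (A n) x0 (p n) t
  Qb : ∀ n, ∀ t ∈ Icc 0 (A n).T, 0 ≤ Qs (A n) x0 (p n) t
  TQb : ∀ n, ∀ t ∈ Icc 0 (A n).T, Ts (A n) x0 (p n) t + Qs (A n) x0 (p n) t ≤ 1
  Zb : ∀ n, ∀ t ∈ Icc 0 (A n).T, |Zs (A n) x0 (p n) t| ≤ 1
  /-- convergence of the two Hilbert scalars -/
  LL : ∀ t ∈ Ico (0 : ℝ) 1, Tendsto (fun n => Lams (A n) x0 (p n) t) atTop (𝓝 (L0 t))
  CL : ∀ t ∈ Ico (0 : ℝ) 1, Tendsto (fun n => Cs (A n) x0 (p n) t) atTop (𝓝 (C0 t))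

theorem D_contOn (P : Prof) : ContinuousOn P.D (Icc 0 1) := by
  have h1 : ContinuousOn (fun x => P.d + ∫ y in x..1, P.m y) (Icc 0 1) := by
    refine continuousOn_const.add ?_
    have h2 : ContinuousOn (fun x => ∫ y in (1 : ℝ)..x, P.m y) (uIcc 1 0) :=
      intervalIntegral.continuousOn_primitive_interval' P.int.symm (by simp)
    rw [uIcc_of_ge zero_le_one] at h2
    refine h2.neg.congr fun x _ => ?_
    show (∫ y in x..1, P.m y) = -∫ y in (1 : ℝ)..x, P.m y
    rw [intervalIntegral.integral_symm]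
  exact h1

/-- inverse of a uniformly convergent sequence with positive limit on a compact interval -/
theorem inv_unif {q : ℝ} {F : ℕ → ℝ → ℝ} {f : ℝ → ℝ}
    (hF : TendstoUniformlyOn F f atTop (Icc 0 q)) (hf : ContinuousOn f (Icc 0 q))
    (hpos : ∀ x ∈ Icc 0 q, 0 < f x) (hq : 0 ≤ q) (hFpos : ∀ n x, 0 < F n x) :
    TendstoUniformlyOn (fun n x => (F n x)⁻¹) (fun x => (f x)⁻¹) atTop (Icc 0 q) ∧
      ∃ B, ∀ᶠ n in atTop, ∀ x ∈ Icc 0 q, (F n x)⁻¹ ≤ B := by
  obtain ⟨x0, hx0, hmin⟩ := isCompact_Icc.exists_isMinOn ⟨0, le_rfl, hq⟩ hf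
  set c := f x0 with hc
  have hc0 : 0 < c := hpos x0 hx0
  have hcf : ∀ x ∈ Icc 0 q, c ≤ f x := fun x hx => hmin hx
  rw [Metric.tendstoUniformlyOn_iff] at hF
  have h1 : ∀ᶠ n in atTop, ∀ x ∈ Icc 0 q, c / 2 ≤ F n x := by
    filter_upwards [hF (c / 2) (by positivity)] with n hn x hx
    have := hn x hx
    rw [Real.dist_eq, abs_lt] at this
    linarith [hcf x hx]
  refine ⟨?_, 2 / c, ?_⟩
  · rw [Metric.tendstoUniformlyOn_iff]
    intro ε hε
    filter_upwards [hF (ε * (c * c / 2)) (by positivity), h1] with n hn h1n x hx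
    have a1 := hn x hx
    have a2 := h1n x hx
    have a3 := hcf x hx
    rw [Real.dist_eq] at a1 ⊢
    have hF0 := hFpos n x
    have hf0 := hpos x hx
    rw [inv_sub_inv hf0.ne' hF0.ne', abs_div, div_lt_iff₀ (by positivity), abs_sub_comm]
    have a4 : c * c / 2 ≤ |f x * F n x| := by
      rw [abs_of_pos (mul_pos hf0 hF0)]
      have : c * (c / 2) ≤ f x * F n x := mul_le_mul a3 a2 (by positivity) hf0.le
      linarith
    exact a1.trans_le (mul_le_mul_of_nonneg_left a4 hε.le)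
  · filter_upwards [h1] with n hn x hx
    have a2 := hn x hx
    rw [inv_le_comm₀ (hFpos n x) (by positivity)]
    calc (2 / c)⁻¹ = c / 2 := by rw [inv_div]
      _ ≤ F n x := a2

namespace Appr

variable {P : Prof} {A : ℕ → SD} {x0 : ℝ} {p : ℕ → ℝ → ℝ → ℝ} {L0 C0 : ℝ → ℝ}

theorem seq (h : Appr P A x0 p L0 C0) (hpos : ∀ t ∈ Ico (0 : ℝ) 1, 0 < P.D t) :
    Seq (fun t => (P.D t)⁻¹) (fun t => P.m t / P.D t) L0 C0 (fun n => (A n).E) (fun n => (A n).b)
      (fun n => Ts (A n) x0 (p n)) (fun n => Qs (A n) x0 (p n))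
      (fun n t => Ns (A n) x0 (p n) t - 2 * (A n).b t * Zs (A n) x0 (p n) t)
      (fun n => Lams (A n) x0 (p n)) (fun n => Cs (A n) x0 (p n)) := by
  have hDc : ContinuousOn P.D (Ico 0 1) := (D_contOn P).mono Ico_subset_Icc_self
  have hinv : ∀ q ∈ Ioo (0 : ℝ) 1, TendstoUniformlyOn (fun n => (A n).E)
      (fun t => (P.D t)⁻¹) atTop (Icc 0 q) ∧
      ∃ B, ∀ᶠ n in atTop, ∀ x ∈ Icc 0 q, (A n).E x ≤ B := by
    intro q hq
    exact inv_unif (h.DL q hq) (hDc.mono fun x hx => ⟨hx.1, hx.2.trans_lt hq.2⟩)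
      (fun x hx => hpos x ⟨hx.1, hx.2.trans_lt hq.2⟩) hq.1.le fun n x => (A n).D_pos x
  refine ⟨?_, ?_, ?_, fun q hq => (hinv q hq).1, ?_, h.LL, h.CL⟩
  · intro q hq
    obtain ⟨BE, hBE⟩ := (hinv q hq).2
    obtain ⟨Bm, hBm⟩ := h.mb q hq
    obtain ⟨BN, hBN⟩ := h.Nb q hq
    refine ⟨max (max BE 1) (max (|Bm| * |BE|) (|BN| + 2 * (|Bm| * |BE|))), ?_⟩
    filter_upwards [hBE, hBm, hBN, h.T1 q hq.2] with n hE hm hN hT
    have hsub : Icc 0 q ⊆ Icc 0 (A n).T := Icc_subset_Icc_right hT.le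
    have hsc := h.scal n
    have hb : ∀ t ∈ Ico 0 q, |(A n).b t| ≤ |Bm| * |BE| := by
      intro t ht
      have ht' : t ∈ Icc 0 q := ⟨ht.1, ht.2.le⟩
      have e1 : (A n).b t = (A n).m t * (A n).E t := by
        unfold SD.b SD.E; rw [div_eq_mul_inv]
      rw [e1, abs_mul]
      refine mul_le_mul ?_ ?_ (abs_nonneg _) (abs_nonneg _)
      · rw [abs_of_nonneg ((A n).m_nonneg t)]
        exact (hm t ht').trans (le_abs_self _)
      · rw [abs_of_pos ((A n).E_pos t)]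
        exact (hE t ht').trans (le_abs_self _)
    refine ⟨(E_cont (h.clk n)).continuousOn, hsc.cont.1.mono hsub, hsc.cont.2.1.mono hsub,
      fun t ht => (hsc.Lams_t t (hsub ht)).continuousWithinAt.mono hsub,
      fun t ht => (hsc.Cs_t t (hsub ht)).continuousWithinAt.mono hsub,
      (measurable_b (A n) (h.clk n)).aestronglyMeasurable, fun t ht => ?_, fun t ht => ?_⟩
    · have ht' : t ∈ Icc 0 q := ⟨ht.1, ht.2.le⟩
      have htT : t ∈ Ico 0 (A n).T := ⟨ht.1, ht.2.trans hT⟩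
      have hbt := hb t ht
      have hZ := h.Zb n t (hsub ht')
      refine ⟨?_, hbt.trans ((le_max_left _ _).trans (le_max_right _ _)), E_t (h.clk n) htT,
        hsc.Ts_t t htT, hsc.Qs_t t htT, ?_, ?_⟩
      · have e1 : |2 * (A n).b t * Zs (A n) x0 (p n) t| ≤ 2 * (|Bm| * |BE|) := by
          rw [abs_mul, abs_mul, abs_of_pos (two_pos (α := ℝ))]
          have : 2 * |(A n).b t| * |Zs (A n) x0 (p n) t| ≤ 2 * (|Bm| * |BE|) * 1 :=
            mul_le_mul (by linarith) hZ (abs_nonneg _) (by positivity)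
          linarith
        calc |Ns (A n) x0 (p n) t - 2 * (A n).b t * Zs (A n) x0 (p n) t| ≤
              |Ns (A n) x0 (p n) t| + |2 * (A n).b t * Zs (A n) x0 (p n) t| := abs_sub _ _
          _ ≤ |BN| + 2 * (|Bm| * |BE|) := add_le_add ((hN t ht').trans (le_abs_self _)) e1
          _ ≤ _ := (le_max_right _ _).trans (le_max_right _ _)
      · refine ((hsc.Lams_t t (hsub ht')).mono_of_mem_nhdsWithin ?_)
        rw [mem_nhdsWithin]
        exact ⟨Iio (A n).T, isOpen_Iio, htT.2, fun y hy => ⟨htT.1.trans hy.2, hy.1.le⟩⟩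
      · refine ((hsc.Cs_t t (hsub ht')).mono_of_mem_nhdsWithin ?_)
        rw [mem_nhdsWithin]
        exact ⟨Iio (A n).T, isOpen_Iio, htT.2, fun y hy => ⟨htT.1.trans hy.2, hy.1.le⟩⟩
    · have t1 := h.Tb n t (hsub ht)
      have t2 := h.Qb n t (hsub ht)
      have t3 := h.TQb n t (hsub ht)
      have hmax : (1 : ℝ) ≤ max (max BE 1) (max (|Bm| * |BE|) (|BN| + 2 * (|Bm| * |BE|))) :=
        (le_max_right _ _).trans (le_max_left _ _)
      refine ⟨?_, ?_, ?_⟩
      · rw [abs_of_nonneg t1]; linarith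
      · rw [abs_of_nonneg t2]; linarith
      · rw [abs_of_pos ((A n).E_pos t)]
        exact (hE t ht).trans ((le_max_left _ _).trans (le_max_left _ _))
  · exact hDc.inv₀ fun t ht => (hpos t ht).ne'
  · exact fun t ht => inv_pos.2 (hpos t ht)
  · filter_upwards [h.mL] with t ht ht'
    have hq : (t + 1) / 2 ∈ Ioo (0 : ℝ) 1 := ⟨by linarith [ht'.1], by linarith [ht'.2]⟩
    exact (ht ht').div ((h.DL _ hq).tendsto_at ⟨ht'.1, by linarith [ht'.2]⟩) (hpos t ht').ne'

/-- **The limit system** in the form of `PtScalB_45.tip_full`. -/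
theorem limit (h : Appr P A x0 p L0 C0) (hpos : ∀ t ∈ Ico (0 : ℝ) 1, 0 < P.D t) :
    ∃ T S : ℝ → ℝ, ContinuousOn T (Ico 0 1) ∧ ContinuousOn S (Ico 0 1) ∧
      (∀ q ∈ Ioo (0 : ℝ) 1, TendstoUniformlyOn (fun n => Ts (A n) x0 (p n)) T atTop (Icc 0 q)) ∧
      (∀ q ∈ Ioo (0 : ℝ) 1,
        TendstoUniformlyOn (fun n => Qs (A n) x0 (p n)) (fun t => S t - T t) atTop (Icc 0 q)) ∧
      (∀ t ∈ Ico (0 : ℝ) 1, 0 ≤ T t) ∧ (∀ t ∈ Ico (0 : ℝ) 1, T t ≤ S t) ∧
      (∀ t ∈ Ico (0 : ℝ) 1, S t ≤ 1) ∧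
      (∀ x y : ℝ, 0 ≤ x → x ≤ y → y < 1 → L0 y - L0 x = ∫ z in x..y, T z / (P.D z) ^ 2) ∧
      (∀ x y : ℝ, 0 ≤ x → x ≤ y → y < 1 → C0 x - C0 y = ∫ z in x..y, (S z - T z) / P.D z) ∧
      (∀ t ∈ Ico (0 : ℝ) 1,
        S t / P.D t = S 0 / P.D 0 + ∫ s in (0 : ℝ)..t, P.m s * T s / (P.D s) ^ 2) := by
  obtain ⟨T, Q, hTc, hQc, hT, hQ, hL, hC, hR⟩ := (h.seq hpos).limit
  have hev : ∀ t ∈ Ico (0 : ℝ) 1, ∀ᶠ n in atTop, t ∈ Icc 0 (A n).T := by
    intro t ht
    filter_upwards [h.T1 t ht.2] with n hn using ⟨ht.1, hn.le⟩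
  have hqq : ∀ t ∈ Ico (0 : ℝ) 1, (t + 1) / 2 ∈ Ioo (0 : ℝ) 1 ∧ t ∈ Icc 0 ((t + 1) / 2) :=
    fun t ht => ⟨⟨by linarith [ht.1], by linarith [ht.2]⟩, ⟨ht.1, by linarith [ht.2]⟩⟩
  have hTl : ∀ t ∈ Ico (0 : ℝ) 1, Tendsto (fun n => Ts (A n) x0 (p n) t) atTop (𝓝 (T t)) :=
    fun t ht => (hT _ (hqq t ht).1).tendsto_at (hqq t ht).2
  have hQl : ∀ t ∈ Ico (0 : ℝ) 1, Tendsto (fun n => Qs (A n) x0 (p n) t) atTop (𝓝 (Q t)) :=
    fun t ht => (hQ _ (hqq t ht).1).tendsto_at (hqq t ht).2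
  refine ⟨T, fun t => T t + Q t, hTc, hTc.add hQc, hT, ?_, ?_, ?_, ?_, ?_, ?_, ?_⟩
  · intro q hq
    refine (hQ q hq).congr_right fun t _ => ?_
    simp
  · intro t ht
    refine ge_of_tendsto (hTl t ht) ?_
    filter_upwards [hev t ht] with n hn using h.Tb n t hn
  · intro t ht
    have : 0 ≤ Q t := by
      refine ge_of_tendsto (hQl t ht) ?_
      filter_upwards [hev t ht] with n hn using h.Qb n t hn
    show T t ≤ T t + Q t
    linarith
  · intro t ht
    refine le_of_tendsto ((hTl t ht).add (hQl t ht)) ?_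
    filter_upwards [hev t ht] with n hn using h.TQb n t hn
  · intro x y hx hxy hy
    rw [hL x y hx hxy hy]
    refine intervalIntegral.integral_congr fun z _ => ?_
    simp only [div_eq_mul_inv]
    ring
  · intro x y hx hxy hy
    rw [hC x y hx hxy hy]
    refine intervalIntegral.integral_congr fun z _ => ?_
    simp only [div_eq_mul_inv, add_sub_cancel_left]
    ring
  · intro t ht
    have e1 := hR 0 t le_rfl ht.1 ht.2
    have e2 : ∫ z in (0 : ℝ)..t, P.m z / P.D z * (P.D z)⁻¹ * T z =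
        ∫ s in (0 : ℝ)..t, P.m s * T s / (P.D s) ^ 2 := by
      refine intervalIntegral.integral_congr fun z _ => ?_
      simp only [div_eq_mul_inv, inv_pow]
      ring
    rw [e2] at e1
    rw [← e1]
    simp only [div_eq_mul_inv]
    ring

end Appr

/-- the limit `T` is determined by `L0` -/
theorem T_unique {P : Prof} (hpos : ∀ t ∈ Ico (0 : ℝ) 1, 0 < P.D t) {L0 T T' : ℝ → ℝ}
    (hT : ContinuousOn T (Ico 0 1)) (hT' : ContinuousOn T' (Ico 0 1))
    (h : ∀ x y : ℝ, 0 ≤ x → x ≤ y → y < 1 → L0 y - L0 x = ∫ z in x..y, T z / (P.D z) ^ 2)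
    (h' : ∀ x y : ℝ, 0 ≤ x → x ≤ y → y < 1 → L0 y - L0 x = ∫ z in x..y, T' z / (P.D z) ^ 2) :
    ∀ t ∈ Ico (0 : ℝ) 1, T t = T' t := by
  have hDc : ContinuousOn P.D (Ico 0 1) := (D_contOn P).mono Ico_subset_Icc_self
  -- the difference has zero integrals
  set F : ℝ → ℝ := fun z => T z / (P.D z) ^ 2 - T' z / (P.D z) ^ 2 with hF
  have hFc : ContinuousOn F (Ico 0 1) := by
    have h2 : ∀ z ∈ Ico (0 : ℝ) 1, (P.D z) ^ 2 ≠ 0 := fun z hz => (pow_pos (hpos z hz) 2).ne'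
    exact (hT.div (hDc.pow 2) h2).sub (hT'.div (hDc.pow 2) h2)
  have hint : ∀ x y : ℝ, 0 ≤ x → x ≤ y → y < 1 → ∫ z in x..y, F z = 0 := by
    intro x y hx hxy hy
    have hsub : uIcc x y ⊆ Ico 0 1 := by
      rw [uIcc_of_le hxy]
      exact fun z hz => ⟨hx.trans hz.1, hz.2.trans_lt hy⟩
    have h2 : ∀ z ∈ Ico (0 : ℝ) 1, (P.D z) ^ 2 ≠ 0 := fun z hz => (pow_pos (hpos z hz) 2).ne'
    have i1 : IntervalIntegrable (fun z => T z / (P.D z) ^ 2) volume x y :=
      ((hT.div (hDc.pow 2) h2).mono hsub).intervalIntegrable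
    have i2 : IntervalIntegrable (fun z => T' z / (P.D z) ^ 2) volume x y :=
      ((hT'.div (hDc.pow 2) h2).mono hsub).intervalIntegrable
    have e3 : ∫ z in x..y, F z = (∫ z in x..y, T z / (P.D z) ^ 2) -
        ∫ z in x..y, T' z / (P.D z) ^ 2 := intervalIntegral.integral_sub i1 i2
    rw [e3, ← h x y hx hxy hy, ← h' x y hx hxy hy, sub_self]
  have hzero : ∀ t ∈ Ioo (0 : ℝ) 1, F t = 0 := by
    intro t ht
    have hd : HasDerivAt (fun y => ∫ z in (0 : ℝ)..y, F z) (F t) t := by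
      refine intervalIntegral.integral_hasDerivAt_right ?_ ?_ ?_
      · refine (hFc.mono ?_).intervalIntegrable
        rw [uIcc_of_le ht.1.le]
        exact fun z hz => ⟨hz.1, hz.2.trans_lt ht.2⟩
      · exact ContinuousOn.stronglyMeasurableAtFilter isOpen_Ioo
          (hFc.mono Ioo_subset_Ico_self) t ht
      · exact (hFc.mono Ioo_subset_Ico_self).continuousAt (isOpen_Ioo.mem_nhds ht)
    have hd0 : HasDerivAt (fun y => ∫ z in (0 : ℝ)..y, F z) 0 t := by
      refine (hasDerivAt_const t (0 : ℝ)).congr_of_eventuallyEq ?_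
      filter_upwards [isOpen_Ioo.mem_nhds ht] with y hy
      exact hint 0 y le_rfl hy.1.le hy.2
    exact hd.unique hd0
  have hTT : ∀ t ∈ Ioo (0 : ℝ) 1, T t = T' t := by
    intro t ht
    have h1 := hzero t ht
    rw [hF] at h1
    have h2 : (P.D t) ^ 2 ≠ 0 := (pow_pos (hpos t ⟨ht.1.le, ht.2⟩) 2).ne'
    have h3 : T t / (P.D t) ^ 2 = T' t / (P.D t) ^ 2 := sub_eq_zero.1 h1
    exact (div_left_inj' h2).1 h3
  intro t ht
  rcases eq_or_lt_of_le ht.1 with h0 | h0
  · -- by continuity at `0`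
    rw [← h0]
    have h1 : Tendsto T (𝓝[Ioo 0 1] 0) (𝓝 (T 0)) :=
      (hT 0 ⟨le_rfl, one_pos⟩).mono_left (nhdsWithin_mono _ Ioo_subset_Ico_self)
    have h2 : Tendsto T' (𝓝[Ioo 0 1] 0) (𝓝 (T' 0)) :=
      (hT' 0 ⟨le_rfl, one_pos⟩).mono_left (nhdsWithin_mono _ Ioo_subset_Ico_self)
    have hne : (𝓝[Ioo (0 : ℝ) 1] 0).NeBot := by
      rw [← mem_closure_iff_nhdsWithin_neBot, closure_Ioo zero_ne_one]
      exact ⟨le_rfl, zero_le_one⟩
    refine tendsto_nhds_unique h1 (h2.congr' ?_)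
    filter_upwards [self_mem_nhdsWithin] with y hy using (hTT y hy).symm
  · exact hTT t ⟨h0, ht.2⟩

/-- quasi-convexity of a function whose right derivative is `G / g` with `G` nondecreasing. -/
theorem qc_step {a b : ℝ} {T K g : ℝ → ℝ} (hc : ContinuousOn T (Icc a b))
    (hd : ∀ t ∈ Ico a b, HasDerivWithinAt T (K t) (Ici t) t) (hg : ∀ t ∈ Ico a b, 0 < g t)
    (hm : MonotoneOn (fun t => K t * g t) (Ico a b)) {x y z : ℝ} (hx : a ≤ x) (hxy : x ≤ y)
    (hyz : y ≤ z) (hz : z ≤ b) : T y ≤ max (T x) (T z) := by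
  rcases eq_or_lt_of_le hyz with h1 | h1
  · rw [h1]; exact le_max_right _ _
  have hyI : y ∈ Ico a b := ⟨hx.trans hxy, h1.trans_le hz⟩
  rcases le_or_gt (K y) 0 with h2 | h2
  · -- nonincreasing on `[x, y]`
    refine le_max_of_le_left ?_
    have h3 : ∀ t ∈ Ico x y, K t ≤ 0 := by
      intro t ht
      have htI : t ∈ Ico a b := ⟨hx.trans ht.1, ht.2.trans hyI.2⟩
      have h4 := hm htI hyI ht.2.le
      simp only at h4
      have h5 : K y * g y ≤ 0 := mul_nonpos_of_nonpos_of_nonneg h2 (hg y hyI).le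
      by_contra hcon
      push Not at hcon
      have := mul_pos hcon (hg t htI)
      linarith
    have h4 : ∀ s ∈ Icc x y, T s ≤ T x := by
      refine image_le_of_deriv_right_le_deriv_boundary (f := T) (f' := K) (B := fun _ => T x)
        (B' := fun _ => 0) (hc.mono (Icc_subset_Icc hx (hyI.2.le))) ?_ le_rfl
        continuousOn_const ?_ ?_
      · exact fun t ht => hd t ⟨hx.trans ht.1, ht.2.trans hyI.2⟩
      · exact fun t _ => hasDerivWithinAt_const _ _ _
      · exact fun t ht => h3 t ht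
    exact h4 y ⟨hxy, le_rfl⟩
  · refine le_max_of_le_right ?_
    have h3 : ∀ t ∈ Ico y z, 0 ≤ K t := by
      intro t ht
      have htI : t ∈ Ico a b := ⟨hyI.1.trans ht.1, ht.2.trans_le hz⟩
      have h4 := hm hyI htI ht.1
      simp only at h4
      have h5 : 0 < K y * g y := mul_pos h2 (hg y hyI)
      by_contra hcon
      push Not at hcon
      have := mul_neg_of_neg_of_pos hcon (hg t htI)
      linarith
    have h4 : ∀ s ∈ Icc y z, -T s ≤ -T y := by
      refine image_le_of_deriv_right_le_deriv_boundary (f := fun s => -T s) (f' := fun s => -K s)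
        (B := fun _ => -T y) (B' := fun _ => 0) (hc.mono (Icc_subset_Icc hyI.1 hz)).neg ?_ le_rfl
        continuousOn_const ?_ ?_
      · exact fun t ht => (hd t ⟨hyI.1.trans ht.1, ht.2.trans_le hz⟩).neg
      · exact fun t _ => hasDerivWithinAt_const _ _ _
      · intro t ht
        have := h3 t ht
        linarith
    have := h4 z ⟨h1.le, le_rfl⟩
    linarith

end

end Crest.Agent.R146.PtS4b_489
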