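import Mathlib

/-!
Row 146, package OBS, part 1 (abstract, helper918).

* `TP Q X c` : convergence in probability to the constant `c` along varying probability spaces,
  with its algebra (`TP.map₂`, `TP.add`, `TP.squeeze`, `TP.integral`).
* `joint μ σ w` : the law on `Ω × Y` of a disorder sample and of a Gibbs configuration with
  weight `w`; `integral_joint`, `lintegral_joint`, `joint_dev` (Chebyshev bound by the pressure).
-/

set_option linter.unusedSectionVars false

namespace Crest.Agent.R146.Obs918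

open MeasureTheory Filter Topology

/-! ### Convergence in probability to a constant -/

section TP

variable {Ω : ℕ → Type*} [∀ n, MeasurableSpace (Ω n)]

/-- Convergence in probability to a constant along varying spaces. -/
def TP (Q : ∀ n, Measure (Ω n)) (X : ∀ n, Ω n → ℝ) (c : ℝ) : Prop :=
  ∀ ε : ℝ, 0 < ε → Tendsto (fun n => Q n {ω | ε < |X n ω - c|}) atTop (𝓝 0)

variable {Q : ∀ n, Measure (Ω n)} {X Y Z : ∀ n, Ω n → ℝ} {a b c : ℝ}

lemma TP.const (Q : ∀ n, Measure (Ω n)) (c : ℝ) : TP Q (fun _ _ => c) c := by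
  intro ε hε
  have : (fun n => Q n {ω : Ω n | ε < |(fun _ _ => c : ∀ n, Ω n → ℝ) n ω - c|}) = fun _ => 0 := by
    funext n
    have : {ω : Ω n | ε < |(fun _ _ => c : ∀ n, Ω n → ℝ) n ω - c|} = ∅ := by
      ext ω
      simp [hε.le]
    rw [this, measure_empty]
  rw [this]
  exact tendsto_const_nhds

/-- Main tool: if for every `ε` the bad event is eventually contained in the union of two events
whose probabilities tend to zero, we have convergence in probability. -/
lemma TP.of_subset (h : ∀ ε : ℝ, 0 < ε → ∃ B : ∀ n, Set (Ω n),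
    Tendsto (fun n => Q n (B n)) atTop (𝓝 0) ∧
      ∀ᶠ n in atTop, {ω | ε < |X n ω - c|} ⊆ B n) : TP Q X c := by
  intro ε hε
  obtain ⟨B, hB, hs⟩ := h ε hε
  refine tendsto_of_tendsto_of_tendsto_of_le_of_le' tendsto_const_nhds hB
    (Eventually.of_forall fun n => zero_le) ?_
  filter_upwards [hs] with n hn
  exact measure_mono hn

lemma tendsto_union {B C : ∀ n, Set (Ω n)} (hB : Tendsto (fun n => Q n (B n)) atTop (𝓝 0))
    (hC : Tendsto (fun n => Q n (C n)) atTop (𝓝 0)) :
    Tendsto (fun n => Q n (B n ∪ C n)) atTop (𝓝 0) := by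
  have h : Tendsto (fun n => Q n (B n) + Q n (C n)) atTop (𝓝 (0 + 0)) := hB.add hC
  rw [add_zero] at h
  exact tendsto_of_tendsto_of_tendsto_of_le_of_le tendsto_const_nhds h
    (fun n => zero_le) fun n => measure_union_le _ _

lemma TP.map₂ (hX : TP Q X a) (hY : TP Q Y b) {f : ℝ × ℝ → ℝ} (hf : ContinuousAt f (a, b)) :
    TP Q (fun n ω => f (X n ω, Y n ω)) (f (a, b)) := by
  refine TP.of_subset fun ε hε => ?_
  obtain ⟨δ, hδ, h⟩ := Metric.continuousAt_iff.1 hf ε hε
  refine ⟨fun n => {ω | δ / 2 < |X n ω - a|} ∪ {ω | δ / 2 < |Y n ω - b|},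
    tendsto_union (hX _ (half_pos hδ)) (hY _ (half_pos hδ)), Eventually.of_forall fun n ω hω => ?_⟩
  by_contra hcon
  simp only [Set.mem_union, Set.mem_ofPred_eq, not_or, not_lt] at hcon
  have h1 : dist (X n ω, Y n ω) (a, b) < δ := by
    rw [Prod.dist_eq, Real.dist_eq, Real.dist_eq]
    exact max_lt (lt_of_le_of_lt hcon.1 (half_lt_self hδ)) (lt_of_le_of_lt hcon.2 (half_lt_self hδ))
  have h2 := h h1
  rw [Real.dist_eq] at h2
  exact absurd hω (not_lt.2 h2.le)

lemma TP.map (hX : TP Q X a) {f : ℝ → ℝ} (hf : ContinuousAt f a) :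
    TP Q (fun n ω => f (X n ω)) (f a) :=
  TP.map₂ (f := fun p => f p.1) hX hX (ContinuousAt.comp (f := Prod.fst) (x := (a, a)) hf
    continuousAt_fst)

lemma TP.add (hX : TP Q X a) (hY : TP Q Y b) : TP Q (fun n ω => X n ω + Y n ω) (a + b) :=
  TP.map₂ (f := fun p => p.1 + p.2) hX hY continuous_add.continuousAt

lemma TP.sub (hX : TP Q X a) (hY : TP Q Y b) : TP Q (fun n ω => X n ω - Y n ω) (a - b) :=
  TP.map₂ (f := fun p => p.1 - p.2) hX hY (continuous_fst.sub continuous_snd).continuousAt

lemma TP.div (hX : TP Q X a) (hY : TP Q Y b) (hb : b ≠ 0) :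
    TP Q (fun n ω => X n ω / Y n ω) (a / b) :=
  TP.map₂ (f := fun p => p.1 / p.2) hX hY (continuousAt_fst.div continuousAt_snd hb)

lemma TP.congr' (hX : TP Q X a) (h : ∀ᶠ n in atTop, ∀ ω, X n ω = Y n ω) : TP Q Y a := by
  refine TP.of_subset fun ε hε => ⟨fun n => {ω | ε < |X n ω - a|}, hX ε hε, ?_⟩
  filter_upwards [h] with n hn ω hω
  simpa [hn ω] using hω

/-- Sandwich with approximations: for every `η > 0` there are `L ≤ X ≤ U` outside an event of
vanishing probability, with `L → l`, `U → u`, `c - η ≤ l`, `u ≤ c + η`. -/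
lemma TP.sandwich (h : ∀ η : ℝ, 0 < η → ∃ (L U : ∀ n, Ω n → ℝ) (l u : ℝ) (B : ∀ n, Set (Ω n)),
    TP Q L l ∧ TP Q U u ∧ Tendsto (fun n => Q n (B n)) atTop (𝓝 0) ∧
      (∀ᶠ n in atTop, ∀ ω, ω ∉ B n → L n ω ≤ X n ω ∧ X n ω ≤ U n ω) ∧ c - η ≤ l ∧ u ≤ c + η) :
    TP Q X c := by
  refine TP.of_subset fun ε hε => ?_
  obtain ⟨L, U, l, u, B, hL, hU, hB, hs, hl, hu⟩ := h (ε / 2) (half_pos hε)
  refine ⟨fun n => ({ω | ε / 2 < |L n ω - l|} ∪ {ω | ε / 2 < |U n ω - u|}) ∪ B n,
    tendsto_union (tendsto_union (hL _ (half_pos hε)) (hU _ (half_pos hε))) hB, ?_⟩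
  filter_upwards [hs] with n hn ω hω
  by_contra hcon
  simp only [Set.mem_union, Set.mem_ofPred_eq, not_or, not_lt] at hcon
  obtain ⟨⟨h1, h2⟩, h3⟩ := hcon
  obtain ⟨h4, h5⟩ := hn ω h3
  have h6 := (abs_le.1 h1).1
  have h7 := (abs_le.1 h2).2
  have : |X n ω - c| ≤ ε := by
    rw [abs_le]
    constructor <;> linarith
  exact absurd hω (not_lt.2 this)

/-- Bounded random variables converging in probability converge in mean. -/
lemma TP.integral_abs [∀ n, IsProbabilityMeasure (Q n)] (hX : TP Q X c)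
    (hm : ∀ᶠ n in atTop, Measurable (X n)) {K : ℝ} (hK : ∀ᶠ n in atTop, ∀ ω, |X n ω| ≤ K) :
    Tendsto (fun n => ∫ ω, |X n ω - c| ∂Q n) atTop (𝓝 0) := by
  rw [Metric.tendsto_atTop]
  intro ε hε
  set K' := |K| + |c| + 1 with hK'
  have hK'0 : 0 < K' := by positivity
  have h1 := hX (ε / 3) (by positivity)
  have h2 : ∀ᶠ n in atTop, Q n {ω | ε / 3 < |X n ω - c|} < ENNReal.ofReal (ε / (3 * K')) :=
    (tendsto_order.1 h1).2 _ (ENNReal.ofReal_pos.2 (by positivity))
  obtain ⟨n0, hn0⟩ := eventually_atTop.1 (h2.and (hm.and hK))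
  refine ⟨n0, fun n hn => ?_⟩
  obtain ⟨h3, hmn, hKn⟩ := hn0 n hn
  have hmeas : MeasurableSet {ω | ε / 3 < |X n ω - c|} :=
    measurableSet_lt measurable_const ((hmn.sub measurable_const).norm)
  rw [Real.dist_eq, sub_zero, abs_of_nonneg (integral_nonneg fun ω => abs_nonneg _)]
  have hle : ∀ ω, |X n ω - c| ≤ ε / 3 + K' * ({ω | ε / 3 < |X n ω - c|} : Set (Ω n)).indicator
      (fun _ => (1 : ℝ)) ω := by
    intro ω
    by_cases hω : ω ∈ {ω | ε / 3 < |X n ω - c|}
    · rw [Set.indicator_of_mem hω, mul_one]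
      have h4 : |X n ω - c| ≤ |X n ω| + |c| := abs_sub _ _
      have h5 := hKn ω
      have h6 : K ≤ |K| := le_abs_self K
      have : |X n ω - c| ≤ K' := by rw [hK']; linarith
      linarith
    · rw [Set.indicator_of_notMem hω, mul_zero, add_zero]
      exact not_lt.1 hω
  have hint1 : Integrable (fun ω => |X n ω - c|) (Q n) := by
    refine Integrable.of_bound ((hmn.sub measurable_const).norm.aestronglyMeasurable) K'
      (Eventually.of_forall fun ω => ?_)
    have h4 : |X n ω - c| ≤ |X n ω| + |c| := abs_sub _ _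
    have h5 := hKn ω
    have h6 : K ≤ |K| := le_abs_self K
    simp only [Real.norm_eq_abs, abs_abs]
    rw [hK']; linarith
  have hint2 : Integrable (fun ω => ε / 3 + K' * ({ω | ε / 3 < |X n ω - c|} : Set (Ω n)).indicator
      (fun _ => (1 : ℝ)) ω) (Q n) :=
    (integrable_const _).add (((integrable_const (1:ℝ)).indicator hmeas).const_mul K')
  calc ∫ ω, |X n ω - c| ∂Q n
      ≤ ∫ ω, (ε / 3 + K' * ({ω | ε / 3 < |X n ω - c|} : Set (Ω n)).indicator
        (fun _ => (1 : ℝ)) ω) ∂Q n := integral_mono hint1 hint2 hle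
    _ = ε / 3 + K' * (Q n).real {ω | ε / 3 < |X n ω - c|} := by
        rw [integral_add (integrable_const _) (((integrable_const (1:ℝ)).indicator hmeas).const_mul
          K'), integral_const, integral_const_mul, integral_indicator_const _ hmeas]
        simp
    _ < ε := by
        have h7 : (Q n).real {ω | ε / 3 < |X n ω - c|} ≤ ε / (3 * K') := by
          rw [measureReal_def]
          exact ENNReal.toReal_le_of_le_ofReal (by positivity) h3.le
        have h8 : K' * (Q n).real {ω | ε / 3 < |X n ω - c|} ≤ K' * (ε / (3 * K')) :=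
          mul_le_mul_of_nonneg_left h7 hK'0.le
        have h9 : K' * (ε / (3 * K')) = ε / 3 := by field_simp
        linarith

lemma TP.integral [∀ n, IsProbabilityMeasure (Q n)] (hX : TP Q X c)
    (hm : ∀ᶠ n in atTop, Measurable (X n)) {K : ℝ} (hK : ∀ᶠ n in atTop, ∀ ω, |X n ω| ≤ K) :
    Tendsto (fun n => ∫ ω, X n ω ∂Q n) atTop (𝓝 c) := by
  have h := hX.integral_abs hm hK
  rw [tendsto_iff_norm_sub_tendsto_zero]
  refine squeeze_zero' (Eventually.of_forall fun n => norm_nonneg _) ?_ h
  filter_upwards [hm, hK] with n hmn hKn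
  have hint : Integrable (X n) (Q n) :=
    Integrable.of_bound hmn.aestronglyMeasurable K (Eventually.of_forall fun ω => hKn ω)
  have : ∫ ω, X n ω ∂Q n - c = ∫ ω, (X n ω - c) ∂Q n := by
    rw [integral_sub hint (integrable_const _), integral_const]
    simp
  rw [this]
  exact abs_integral_le_integral_abs


end TP

/-! ### The joint law of disorder and Gibbs configuration -/

section Joint

variable {Ω Y : Type*} [MeasurableSpace Ω] [MeasurableSpace Y]

/-- The joint law of the disorder `ω ~ μ` and of a configuration `y` with density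
`w ω y / ∫ w ω dσ` with respect to `σ`. -/
noncomputable def joint (μ : Measure Ω) (σ : Measure Y) (w : Ω → Y → ℝ) : Measure (Ω × Y) :=
  (μ.prod σ).withDensity fun p => ENNReal.ofReal (w p.1 p.2 / ∫ y, w p.1 y ∂σ)

variable {μ : Measure Ω} [IsProbabilityMeasure μ] {σ : Measure Y} [IsFiniteMeasure σ]
  {w : Ω → Y → ℝ}

/-- Standing assumptions on the weight. -/
structure GoodWeight (σ : Measure Y) (w : Ω → Y → ℝ) : Prop where
  meas : Measurable (Function.uncurry w)
  pos : ∀ ω y, 0 < w ω y
  bdd : ∀ ω, ∃ C : ℝ, ∀ y, w ω y ≤ C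
  ne : σ ≠ 0

lemma GoodWeight.meas_y (hw : GoodWeight σ w) (ω : Ω) : Measurable (w ω) :=
  hw.meas.comp measurable_prodMk_left

lemma GoodWeight.int (hw : GoodWeight σ w) (ω : Ω) : Integrable (w ω) σ := by
  obtain ⟨C, hC⟩ := hw.bdd ω
  refine Integrable.of_bound (hw.meas_y ω).aestronglyMeasurable C (Eventually.of_forall fun y => ?_)
  rw [Real.norm_eq_abs, abs_of_pos (hw.pos ω y)]
  exact hC y

lemma GoodWeight.int_mul (hw : GoodWeight σ w) (ω : Ω) {f : Y → ℝ} (hf : Measurable f) {K : ℝ}
    (hK : ∀ y, |f y| ≤ K) : Integrable (fun y => f y * w ω y) σ := by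
  refine (hw.int ω).bdd_mul (c := K) hf.aestronglyMeasurable (Eventually.of_forall fun y => ?_)
  rw [Real.norm_eq_abs]; exact hK y

lemma GoodWeight.Z_pos (hw : GoodWeight σ w) (ω : Ω) : 0 < ∫ y, w ω y ∂σ := by
  rw [integral_pos_iff_support_of_nonneg (fun y => (hw.pos ω y).le) (hw.int ω)]
  have : Function.support (w ω) = Set.univ := by
    ext y; simp [(hw.pos ω y).ne']
  rw [this]
  exact pos_iff_ne_zero.2 (by simpa [Measure.measure_univ_eq_zero] using hw.ne)

lemma GoodWeight.meas_Z (hw : GoodWeight σ w) : Measurable fun ω => ∫ y, w ω y ∂σ :=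
  (hw.meas.stronglyMeasurable.integral_prod_right' (ν := σ)).measurable

lemma GoodWeight.meas_dens (hw : GoodWeight σ w) :
    Measurable fun p : Ω × Y => ENNReal.ofReal (w p.1 p.2 / ∫ y, w p.1 y ∂σ) :=
  ENNReal.measurable_ofReal.comp (hw.meas.div (hw.meas_Z.comp measurable_fst))

lemma lintegral_joint (hw : GoodWeight σ w) {f : Ω × Y → ENNReal} (hf : Measurable f) :
    ∫⁻ p, f p ∂joint μ σ w
      = ∫⁻ ω, ∫⁻ y, f (ω, y) * ENNReal.ofReal (w ω y / ∫ y, w ω y ∂σ) ∂σ ∂μ := by
  rw [joint, lintegral_withDensity_eq_lintegral_mul _ hw.meas_dens hf,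
    lintegral_prod _ ((hw.meas_dens.mul hf).aemeasurable)]
  refine lintegral_congr fun ω => lintegral_congr fun y => ?_
  simp only [Pi.mul_apply]
  rw [mul_comm]

lemma lintegral_dens (hw : GoodWeight σ w) (ω : Ω) :
    ∫⁻ y, ENNReal.ofReal (w ω y / ∫ y, w ω y ∂σ) ∂σ = 1 := by
  rw [← ofReal_integral_eq_lintegral_ofReal ((hw.int ω).div_const _)
    (Eventually.of_forall fun y => div_nonneg (hw.pos ω y).le (hw.Z_pos ω).le)]
  rw [integral_div, div_self (hw.Z_pos ω).ne', ENNReal.ofReal_one]

lemma isProbabilityMeasure_joint (hw : GoodWeight σ w) : IsProbabilityMeasure (joint μ σ w) := by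
  constructor
  rw [← lintegral_one, lintegral_joint hw measurable_const]
  simp only [one_mul]
  rw [lintegral_congr fun ω => lintegral_dens hw ω]
  simp

lemma integral_joint (hw : GoodWeight σ w) {O : Ω × Y → ℝ} (hO : Measurable O) {K : ℝ}
    (hK : ∀ p, |O p| ≤ K) :
    ∫ p, O p ∂joint μ σ w = ∫ ω, (∫ y, O (ω, y) * w ω y ∂σ) / (∫ y, w ω y ∂σ) ∂μ := by
  have hdens : Measurable fun p : Ω × Y => (w p.1 p.2 / ∫ y, w p.1 y ∂σ) :=
    hw.meas.div (hw.meas_Z.comp measurable_fst)
  have h0 : ∀ p : Ω × Y, 0 ≤ w p.1 p.2 / ∫ y, w p.1 y ∂σ :=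
    fun p => div_nonneg (hw.pos _ _).le (hw.Z_pos _).le
  haveI := isProbabilityMeasure_joint (μ := μ) hw
  have h1 : ∫ p, O p ∂joint μ σ w = ∫ p, (w p.1 p.2 / ∫ y, w p.1 y ∂σ) * O p ∂(μ.prod σ) := by
    rw [joint, integral_withDensity_eq_integral_toReal_smul hw.meas_dens
      (Eventually.of_forall fun p => ENNReal.ofReal_lt_top)]
    refine integral_congr_ae (Eventually.of_forall fun p => ?_)
    simp only [smul_eq_mul]
    rw [ENNReal.toReal_ofReal (h0 p)]
  have h2 : Integrable (fun p : Ω × Y => (w p.1 p.2 / ∫ y, w p.1 y ∂σ) * O p) (μ.prod σ) := by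
    have hi : Integrable O (joint μ σ w) :=
      Integrable.of_bound hO.aestronglyMeasurable K (Eventually.of_forall fun p => hK p)
    rw [joint, integrable_withDensity_iff_integrable_smul' hw.meas_dens
      (Eventually.of_forall fun p => ENNReal.ofReal_lt_top)] at hi
    refine hi.congr (Eventually.of_forall fun p => ?_)
    simp only [smul_eq_mul]
    rw [ENNReal.toReal_ofReal (h0 p)]
  rw [h1, integral_prod _ h2]
  refine integral_congr_ae (Eventually.of_forall fun ω => ?_)
  simp only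
  rw [← integral_div]
  refine integral_congr_ae (Eventually.of_forall fun y => ?_)
  simp only
  ring

/-- Chebyshev bound for a configuration observable in terms of the tilted partition function. -/
lemma joint_dev (hw : GoodWeight σ w) {S : Ω × Y → ℝ} (hS : Measurable S)
    (hSb : ∀ ω, ∃ K : ℝ, ∀ y, |S (ω, y)| ≤ K) (a t r : ℝ) (ht : 0 ≤ t) :
    joint μ σ w {p | a < S p} ≤ ENNReal.ofReal (Real.exp (r - t * a)) +
      μ {ω | r < Real.log ((∫ y, Real.exp (t * S (ω, y)) * w ω y ∂σ) / ∫ y, w ω y ∂σ)} := by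
  have hmS : MeasurableSet {p : Ω × Y | a < S p} := measurableSet_lt measurable_const hS
  have hmE : Measurable fun p : Ω × Y => Real.exp (t * S p) * w p.1 p.2 :=
    (Real.measurable_exp.comp (measurable_const.mul hS)).mul hw.meas
  have hmZt : Measurable fun ω => ∫ y, Real.exp (t * S (ω, y)) * w ω y ∂σ :=
    (hmE.stronglyMeasurable.integral_prod_right' (ν := σ)).measurable
  set B : Set Ω := {ω | r < Real.log ((∫ y, Real.exp (t * S (ω, y)) * w ω y ∂σ) /
    ∫ y, w ω y ∂σ)} with hB
  have hmB : MeasurableSet B :=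
    measurableSet_lt measurable_const (Real.measurable_log.comp (hmZt.div hw.meas_Z))
  have h1 : joint μ σ w {p | a < S p} = ∫⁻ ω, ∫⁻ y, ({p : Ω × Y | a < S p}).indicator
      (fun _ => (1 : ENNReal)) (ω, y) * ENNReal.ofReal (w ω y / ∫ y, w ω y ∂σ) ∂σ ∂μ := by
    rw [← lintegral_joint hw (measurable_const.indicator hmS), lintegral_indicator hmS]
    simp
  rw [h1]
  have hkey : ∀ ω, ∫⁻ y, ({p : Ω × Y | a < S p}).indicator
      (fun _ => (1 : ENNReal)) (ω, y) * ENNReal.ofReal (w ω y / ∫ y, w ω y ∂σ) ∂σ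
      ≤ ENNReal.ofReal (Real.exp (r - t * a)) + B.indicator (fun _ => (1 : ENNReal)) ω := by
    intro ω
    by_cases hω : ω ∈ B
    · rw [Set.indicator_of_mem hω]
      calc ∫⁻ y, ({p : Ω × Y | a < S p}).indicator
            (fun _ => (1 : ENNReal)) (ω, y) * ENNReal.ofReal (w ω y / ∫ y, w ω y ∂σ) ∂σ
          ≤ ∫⁻ y, ENNReal.ofReal (w ω y / ∫ y, w ω y ∂σ) ∂σ := by
            refine lintegral_mono fun y => ?_
            calc _ ≤ 1 * ENNReal.ofReal (w ω y / ∫ y, w ω y ∂σ) := by
                  refine mul_le_mul_left ?_ _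
                  refine Set.indicator_le_self' (f := fun _ => (1 : ENNReal)) ?_ _
                  intro _ _; exact zero_le
              _ = _ := one_mul _
        _ = 1 := lintegral_dens hw ω
        _ ≤ _ := le_add_self
    · rw [Set.indicator_of_notMem hω, add_zero]
      have hlog : Real.log ((∫ y, Real.exp (t * S (ω, y)) * w ω y ∂σ) / ∫ y, w ω y ∂σ) ≤ r :=
        not_lt.1 hω
      obtain ⟨K, hK⟩ := hSb ω
      have hmSy : Measurable fun y => S (ω, y) := hS.comp measurable_prodMk_left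
      have hint : Integrable (fun y => Real.exp (t * S (ω, y)) * w ω y) σ := by
        refine hw.int_mul ω (f := fun y => Real.exp (t * S (ω, y)))
          (Real.measurable_exp.comp (measurable_const.mul hmSy)) (K := Real.exp (t * K)) fun y => ?_
        rw [abs_of_pos (Real.exp_pos _)]
        exact Real.exp_le_exp.2 (mul_le_mul_of_nonneg_left (le_trans (le_abs_self _) (hK y)) ht)
      have hZt : 0 < ∫ y, Real.exp (t * S (ω, y)) * w ω y ∂σ := by
        rw [integral_pos_iff_support_of_nonneg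
          (fun y => mul_nonneg (Real.exp_pos _).le (hw.pos ω y).le) hint]
        have : Function.support (fun y => Real.exp (t * S (ω, y)) * w ω y) = Set.univ := by
          ext y; simp [(hw.pos ω y).ne', (Real.exp_pos _).ne']
        rw [this]
        exact pos_iff_ne_zero.2 (by simpa [Measure.measure_univ_eq_zero] using hw.ne)
      have hratio : (∫ y, Real.exp (t * S (ω, y)) * w ω y ∂σ) / ∫ y, w ω y ∂σ ≤ Real.exp r := by
        rw [← Real.exp_log (div_pos hZt (hw.Z_pos ω))]
        exact Real.exp_le_exp.2 hlog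
      calc ∫⁻ y, ({p : Ω × Y | a < S p}).indicator
            (fun _ => (1 : ENNReal)) (ω, y) * ENNReal.ofReal (w ω y / ∫ y, w ω y ∂σ) ∂σ
          ≤ ∫⁻ y, ENNReal.ofReal (Real.exp (- t * a) *
              (Real.exp (t * S (ω, y)) * w ω y / ∫ y, w ω y ∂σ)) ∂σ := by
            refine lintegral_mono fun y => ?_
            by_cases hy : (ω, y) ∈ {p : Ω × Y | a < S p}
            · rw [Set.indicator_of_mem hy, one_mul]
              refine ENNReal.ofReal_le_ofReal ?_
              have h3 : 1 ≤ Real.exp (-t * a) * Real.exp (t * S (ω, y)) := by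
                rw [← Real.exp_add]
                refine Real.one_le_exp ?_
                have : a < S (ω, y) := hy
                nlinarith
              have h4 : 0 ≤ w ω y / ∫ y, w ω y ∂σ := div_nonneg (hw.pos _ _).le (hw.Z_pos _).le
              calc w ω y / ∫ y, w ω y ∂σ = 1 * (w ω y / ∫ y, w ω y ∂σ) := (one_mul _).symm
                _ ≤ (Real.exp (-t * a) * Real.exp (t * S (ω, y))) * (w ω y / ∫ y, w ω y ∂σ) :=
                    mul_le_mul_of_nonneg_right h3 h4
                _ = _ := by ring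
            · rw [Set.indicator_of_notMem hy, zero_mul]
              exact zero_le
        _ = ENNReal.ofReal (∫ y, Real.exp (- t * a) *
              (Real.exp (t * S (ω, y)) * w ω y / ∫ y, w ω y ∂σ) ∂σ) := by
            rw [ofReal_integral_eq_lintegral_ofReal ((hint.div_const _).const_mul _)]
            exact Eventually.of_forall fun y => mul_nonneg (Real.exp_pos _).le
              (div_nonneg (mul_nonneg (Real.exp_pos _).le (hw.pos _ _).le) (hw.Z_pos _).le)
        _ ≤ ENNReal.ofReal (Real.exp (r - t * a)) := by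
            refine ENNReal.ofReal_le_ofReal ?_
            rw [integral_const_mul, integral_div]
            calc _ ≤ Real.exp (-t * a) * Real.exp r :=
                  mul_le_mul_of_nonneg_left hratio (Real.exp_pos _).le
              _ = Real.exp (r - t * a) := by rw [← Real.exp_add]; ring_nf
  calc _ ≤ ∫⁻ ω, (ENNReal.ofReal (Real.exp (r - t * a)) + B.indicator (fun _ => (1 : ENNReal)) ω) ∂μ :=
        lintegral_mono hkey
    _ = _ := by
        rw [lintegral_add_left measurable_const, lintegral_indicator hmB]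
        simp

end Joint

end Crest.Agent.R146.Obs918
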