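import Mathlib
import Crest.Prelude.Def_Perceptron
import Crest.Agent.R146.Obs2_918

/-!
Row 146, package OBS, part 3 (helper918): from random variables on one probability space
(`X α β`, `X0 α`, `hJ`, `lJ`: gap at `(α,β)`, at zero temperature, gap and force at jamming)
to the literal `HasOrderedLimit` clauses of S0205.

* `ConvP P l X Y` convergence in probability (any filter), `ConvP.of_L1`, `ConvP.of_L2`;
* `lev_le`, `lev_Ioc` convergence of the probabilities of `X ≤ c`, `c₁ < X ≤ c₂`;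
* `fcdf P Z s` distribution function of `Z / E[Z | Z > 0]` given `Z > 0`; `fcdf_tendsto`;
* `JamData` the hypotheses, `JamData.gap_limit`, `JamData.force_limit`, `JamData.lawF`.
-/

set_option linter.unusedSectionVars false

namespace Crest.Agent.R146.Obs918

open MeasureTheory Filter Topology
open Crest.ProbabilityR.Perceptron

section Levels

variable {Ω : Type*} [MeasurableSpace Ω] {P : Measure Ω} [IsProbabilityMeasure P]
  {ι : Type*} {l : Filter ι} {X : ι → Ω → ℝ} {Y : Ω → ℝ}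

/-- Convergence in probability along a filter. -/
def ConvP (P : Measure Ω) (l : Filter ι) (X : ι → Ω → ℝ) (Y : Ω → ℝ) : Prop :=
  ∀ ε : ℝ, 0 < ε → Tendsto (fun i => P.real {ω | ε ≤ |X i ω - Y ω|}) l (𝓝 0)

lemma ConvP.of_L1 (hi : ∀ᶠ i in l, Integrable (fun ω => |X i ω - Y ω|) P)
    (h : Tendsto (fun i => ∫ ω, |X i ω - Y ω| ∂P) l (𝓝 0)) : ConvP P l X Y := by
  intro ε hε
  have h1 : Tendsto (fun i => (∫ ω, |X i ω - Y ω| ∂P) / ε) l (𝓝 0) := by
    simpa using h.div_const ε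
  refine tendsto_of_tendsto_of_tendsto_of_le_of_le' tendsto_const_nhds h1
    (Eventually.of_forall fun i => measureReal_nonneg) ?_
  filter_upwards [hi] with i hii
  rw [le_div_iff₀ hε, mul_comm]
  exact mul_meas_ge_le_integral_of_nonneg (Eventually.of_forall fun ω => abs_nonneg _) hii ε


/-- Convergence of the distribution function at a moving level. -/
lemma lev_le (h : ConvP P l X Y) (hY : AEMeasurable Y P) {c : ι → ℝ} {a : ℝ}
    (hc : Tendsto c l (𝓝 a)) (ha : P {ω | Y ω = a} = 0) :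
    Tendsto (fun i => P.real {ω | X i ω ≤ c i}) l (𝓝 (P.real {ω | Y ω ≤ a})) := by
  set ν := P.map Y with hν
  have : IsProbabilityMeasure ν := Measure.isProbabilityMeasure_map hY
  have hmap : ∀ b : ℝ, ν.real (Set.Iic b) = P.real {ω | Y ω ≤ b} := by
    intro b
    rw [measureReal_def, measureReal_def, hν, Measure.map_apply_of_aemeasurable hY measurableSet_Iic]
    rfl
  have hat : ν {a} = 0 := by
    rw [hν, Measure.map_apply_of_aemeasurable hY (measurableSet_singleton a)]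
    exact ha
  rw [← hmap, tendsto_order]
  constructor
  · intro b hb
    obtain ⟨η, hη, h1⟩ := cdf_left (ν := ν) a hat (e := (ν.real (Set.Iic a) - b) / 2)
      (by linarith)
    have h2 := h (η / 2) (half_pos hη)
    have h3 : ∀ᶠ i in l, P.real {ω | η / 2 ≤ |X i ω - Y ω|} < (ν.real (Set.Iic a) - b) / 2 :=
      (tendsto_order.1 h2).2 _ (by linarith)
    have h4 : ∀ᶠ i in l, a - η / 2 < c i := (tendsto_order.1 hc).1 _ (by linarith)
    filter_upwards [h3, h4] with i h5 h6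
    have h7 : {ω | Y ω ≤ a - η} ⊆ {ω | X i ω ≤ c i} ∪ {ω | η / 2 ≤ |X i ω - Y ω|} := by
      intro ω hω
      by_cases h8 : η / 2 ≤ |X i ω - Y ω|
      · exact Or.inr h8
      · left
        have h9 := (abs_lt.1 (not_le.1 h8)).2
        have h10 : Y ω ≤ a - η := hω
        show X i ω ≤ c i
        linarith
    have h8 : P.real {ω | Y ω ≤ a - η} ≤ P.real {ω | X i ω ≤ c i}
        + P.real {ω | η / 2 ≤ |X i ω - Y ω|} :=
      (measureReal_mono h7).trans (measureReal_union_le _ _)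
    rw [← hmap] at h8
    linarith
  · intro b hb
    obtain ⟨η, hη, h1⟩ := cdf_right (ν := ν) a (e := (b - ν.real (Set.Iic a)) / 2) (by linarith)
    have h2 := h (η / 2) (half_pos hη)
    have h3 : ∀ᶠ i in l, P.real {ω | η / 2 ≤ |X i ω - Y ω|} < (b - ν.real (Set.Iic a)) / 2 :=
      (tendsto_order.1 h2).2 _ (by linarith)
    have h4 : ∀ᶠ i in l, c i < a + η / 2 := (tendsto_order.1 hc).2 _ (by linarith)
    filter_upwards [h3, h4] with i h5 h6
    have h7 : {ω | X i ω ≤ c i} ⊆ {ω | Y ω ≤ a + η} ∪ {ω | η / 2 ≤ |X i ω - Y ω|} := by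
      intro ω hω
      by_cases h8 : η / 2 ≤ |X i ω - Y ω|
      · exact Or.inr h8
      · left
        have h9 := (abs_lt.1 (not_le.1 h8)).1
        have h10 : X i ω ≤ c i := hω
        show Y ω ≤ a + η
        linarith
    have h8 : P.real {ω | X i ω ≤ c i} ≤ P.real {ω | Y ω ≤ a + η}
        + P.real {ω | η / 2 ≤ |X i ω - Y ω|} :=
      (measureReal_mono h7).trans (measureReal_union_le _ _)
    rw [← hmap] at h8
    linarith

lemma real_Ioc_eq {Z : Ω → ℝ} (hZ : AEMeasurable Z P) {c₁ c₂ : ℝ} (hc : c₁ ≤ c₂) :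
    P.real {ω | c₁ < Z ω ∧ Z ω ≤ c₂} = P.real {ω | Z ω ≤ c₂} - P.real {ω | Z ω ≤ c₁} := by
  have h1 : {ω | c₁ < Z ω ∧ Z ω ≤ c₂} = {ω | Z ω ≤ c₂} \ {ω | Z ω ≤ c₁} := by
    ext ω
    simp only [Set.mem_ofPred_eq, Set.mem_sdiff, not_le]
    exact and_comm
  have h2 : {ω | Z ω ≤ c₁} ⊆ {ω | Z ω ≤ c₂} := fun ω hω => le_trans (show Z ω ≤ c₁ from hω) hc
  rw [h1, measureReal_def, measureReal_def, measureReal_def,
    measure_sdiff h2 (nullMeasurableSet_le hZ aemeasurable_const) (measure_ne_top _ _),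
    ENNReal.toReal_sub_of_le (measure_mono h2) (measure_ne_top _ _)]

lemma lev_Ioc (h : ConvP P l X Y) (hX : ∀ᶠ i in l, AEMeasurable (X i) P) (hY : AEMeasurable Y P)
    {a b : ℝ} (hab : a ≤ b) (ha : P {ω | Y ω = a} = 0) (hb : P {ω | Y ω = b} = 0) :
    Tendsto (fun i => P.real {ω | a < X i ω ∧ X i ω ≤ b}) l
      (𝓝 (P.real {ω | a < Y ω ∧ Y ω ≤ b})) := by
  have h1 := (lev_le h hY (tendsto_const_nhds (x := b)) hb).sub
    (lev_le h hY (tendsto_const_nhds (x := a)) ha)
  rw [← real_Ioc_eq hY hab] at h1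
  refine h1.congr' ?_
  filter_upwards [hX] with i hi
  rw [real_Ioc_eq hi hab]

/-- Distribution function of `Z / E[Z | Z > 0]` under `P( · | Z > 0)`. -/
noncomputable def fcdf (P : Measure Ω) (Z : Ω → ℝ) (s : ℝ) : ℝ :=
  P.real {ω | 0 < Z ω ∧ Z ω ≤ s * ((∫ ω, Z ω ∂P) / P.real {ω | 0 < Z ω})} / P.real {ω | 0 < Z ω}

lemma real_le_zero_eq {Z : Ω → ℝ} (hZ : AEMeasurable Z P) :
    P.real {ω | Z ω ≤ 0} = 1 - P.real {ω | 0 < Z ω} := by
  have h1 : {ω | Z ω ≤ 0} = {ω | 0 < Z ω}ᶜ := by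
    ext ω; simp
  rw [h1, probReal_compl_eq_one_sub₀ (nullMeasurableSet_lt aemeasurable_const hZ)]

lemma fcdf_mul {Z : Ω → ℝ} {c : ℝ} (hc : 0 < c) (s : ℝ) :
    fcdf P (fun ω => c * Z ω) s = fcdf P Z s := by
  unfold fcdf
  have h1 : {ω | 0 < c * Z ω} = {ω | 0 < Z ω} := by
    ext ω; simp [hc]
  rw [h1, integral_const_mul]
  congr 2
  ext ω
  simp only [Set.mem_ofPred_eq]
  have h2 : s * (c * (∫ ω, Z ω ∂P) / P.real {ω | 0 < Z ω})
      = c * (s * ((∫ ω, Z ω ∂P) / P.real {ω | 0 < Z ω})) := by ring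
  rw [h2, mul_le_mul_iff_right₀ hc, mul_pos_iff_of_pos_left hc]

lemma fcdf_tendsto {Z : ι → Ω → ℝ} {W : Ω → ℝ}
    (hZi : ∀ᶠ i in l, Integrable (Z i) P) (hWi : Integrable W P)
    (hZ0 : ∀ᶠ i in l, ∀ ω, 0 ≤ Z i ω) (hW0 : ∀ ω, 0 ≤ W ω)
    (hL : Tendsto (fun i => ∫ ω, |Z i ω - W ω| ∂P) l (𝓝 0))
    (hm : Tendsto (fun i => P.real {ω | 0 < Z i ω}) l (𝓝 (P.real {ω | 0 < W ω})))
    (hq : 0 < P.real {ω | 0 < W ω}) {s : ℝ} (hs : 0 ≤ s)
    (hat : P {ω | W ω = s * ((∫ ω, W ω ∂P) / P.real {ω | 0 < W ω})} = 0) :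
    Tendsto (fun i => fcdf P (Z i) s) l (𝓝 (fcdf P W s)) := by
  have hint : Tendsto (fun i => ∫ ω, Z i ω ∂P) l (𝓝 (∫ ω, W ω ∂P)) := by
    rw [tendsto_iff_norm_sub_tendsto_zero]
    refine squeeze_zero' (Eventually.of_forall fun i => norm_nonneg _) ?_ hL
    filter_upwards [hZi] with i hi
    rw [← integral_sub hi hWi]
    exact abs_integral_le_integral_abs
  have hr : Tendsto (fun i => s * ((∫ ω, Z i ω ∂P) / P.real {ω | 0 < Z i ω})) l
      (𝓝 (s * ((∫ ω, W ω ∂P) / P.real {ω | 0 < W ω}))) :=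
    (hint.div hm hq.ne').const_mul s
  have hconv : ConvP P l Z W := by
    refine ConvP.of_L1 ?_ hL
    filter_upwards [hZi] with i hi
    exact (hi.sub hWi).abs
  have h1 := lev_le hconv hWi.1.aemeasurable hr hat
  have h2 : Tendsto (fun i => P.real {ω | Z i ω ≤ s * ((∫ ω, Z i ω ∂P) / P.real {ω | 0 < Z i ω})}
      - (1 - P.real {ω | 0 < Z i ω})) l
      (𝓝 (P.real {ω | W ω ≤ s * ((∫ ω, W ω ∂P) / P.real {ω | 0 < W ω})}
      - (1 - P.real {ω | 0 < W ω}))) := h1.sub (hm.const_sub 1)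
  have h3 := h2.div hm hq.ne'
  have hform : ∀ V : Ω → ℝ, Integrable V P → (∀ ω, 0 ≤ V ω) →
      (P.real {ω | V ω ≤ s * ((∫ ω, V ω ∂P) / P.real {ω | 0 < V ω})}
      - (1 - P.real {ω | 0 < V ω})) / P.real {ω | 0 < V ω} = fcdf P V s := by
    intro V hV hV0
    unfold fcdf
    rw [real_Ioc_eq hV.1.aemeasurable, real_le_zero_eq hV.1.aemeasurable]
    exact mul_nonneg hs (div_nonneg (integral_nonneg hV0) measureReal_nonneg)
  rw [hform W hWi hW0] at h3
  refine h3.congr' ?_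
  filter_upwards [hZi, hZ0] with i hi hi0
  exact hform (Z i) hi hi0

end Levels

/-! ### The interface -/

/-- Output of the `N → ∞` stage for the forces at fixed `(α, β, ε)`: `ν` is the law of the gap. -/
def ForceLim (α β ε : ℝ) (ν : Measure ℝ) : Prop :=
  ∀ s : ℝ, 0 < s → ν {0} = 0 → 0 < ν.real (Set.Iio 0) →
    ν {-(s * ((∫ x, max (-x) 0 ∂ν) / ν.real (Set.Iio 0)))} = 0 →
    Tendsto (fun N : ℕ => forceMean N β α ε s) atTop
      (𝓝 (ν.real (Set.Ico (-(s * ((∫ x, max (-x) 0 ∂ν) / ν.real (Set.Iio 0)))) 0)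
        / ν.real (Set.Iio 0)))

/-- Output of package P5: gap variables `X α β` (finite temperature), `X0 α` (zero temperature)
for `α` in `(αc, αc + η)`, and the jamming pair `(hJ, lJ)`, all on one probability space. -/
structure JamData {Ω : Type*} [MeasurableSpace Ω] (P : Measure Ω) (αc η : ℝ)
    (X : ℝ → ℝ → Ω → ℝ) (X0 : ℝ → Ω → ℝ) (hJ lJ : Ω → ℝ) (c : ℝ → ℝ) : Prop where
  η_pos : 0 < η
  intX : ∀ α, αc < α → α < αc + η → ∀ β, 0 < β → Integrable (X α β) P
  intX0 : ∀ α, αc < α → α < αc + η → Integrable (X0 α) P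
  intH : Integrable hJ P
  intL : Integrable lJ P
  L_nonneg : ∀ ω, 0 ≤ lJ ω
  noatomX : ∀ α, αc < α → α < αc + η → ∀ β, 0 < β → ∀ a : ℝ, P {ω | X α β ω = a} = 0
  noatomX0 : ∀ α, αc < α → α < αc + η → ∀ a : ℝ, P {ω | X0 α ω = a} = 0
  noatomH : ∀ a : ℝ, 0 < a → P {ω | hJ ω = a} = 0
  noatomL : ∀ a : ℝ, 0 < a → P {ω | lJ ω = a} = 0
  posX : ∀ α, αc < α → α < αc + η → ∀ β, 0 < β → 0 < P.real {ω | X α β ω < 0}
  posX0 : ∀ α, αc < α → α < αc + η → 0 < P.real {ω | X0 α ω < 0}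
  posL : 0 < P.real {ω | 0 < lJ ω}
  convX : ∀ α, αc < α → α < αc + η →
    Tendsto (fun β => ∫ ω, |X α β ω - X0 α ω| ∂P) atTop (𝓝 0)
  convH : Tendsto (fun α => ∫ ω, |X0 α ω - hJ ω| ∂P) (𝓝[>] αc) (𝓝 0)
  c_pos : ∀ α, αc < α → α < αc + η → 0 < c α
  convL : Tendsto (fun α => ∫ ω, |c α * max (-X0 α ω) 0 - lJ ω| ∂P) (𝓝[>] αc) (𝓝 0)
  convM : Tendsto (fun α => P.real {ω | X0 α ω < 0}) (𝓝[>] αc) (𝓝 (P.real {ω | 0 < lJ ω}))

section Glue

variable {Ω : Type*} [MeasurableSpace Ω] {P : Measure Ω} [IsProbabilityMeasure P] {αc η : ℝ}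
  {X : ℝ → ℝ → Ω → ℝ} {X0 : ℝ → Ω → ℝ} {hJ lJ : Ω → ℝ} {c : ℝ → ℝ}

lemma eventually_right (αc : ℝ) {η : ℝ} (hη : 0 < η) :
    ∀ᶠ α in 𝓝[>] αc, αc < α ∧ α < αc + η := by
  have h1 : Set.Ioo αc (αc + η) ∈ 𝓝[>] αc := Ioo_mem_nhdsGT (by linarith)
  exact h1

theorem JamData.gap_limit (D : JamData P αc η X X0 hJ lJ c) {ε : ℝ}
    (hG : ∀ α, αc < α → α < αc + η → ∀ β, 0 < β → MeanEmp α β ε (P.map (X α β)))
    {δ u : ℝ} (hδ : 0 < δ) (hu : δ < u) :
    HasOrderedLimit (fun N β α => gapMean N β α ε δ u) αc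
      (P.real {ω | δ < hJ ω ∧ hJ ω ≤ u}) := by
  refine ⟨η, D.η_pos, fun α β => P.real {ω | δ < X α β ω ∧ X α β ω ≤ u},
    fun α => P.real {ω | δ < X0 α ω ∧ X0 α ω ≤ u}, ?_, ?_, ?_⟩
  · intro α h1 h2 β hβ
    have hXm : AEMeasurable (X α β) P := (D.intX α h1 h2 β hβ).1.aemeasurable
    have : IsProbabilityMeasure (P.map (X α β)) := Measure.isProbabilityMeasure_map hXm
    have hat : ∀ a : ℝ, (P.map (X α β)) {a} = 0 := by
      intro a
      rw [Measure.map_apply_of_aemeasurable hXm (measurableSet_singleton a)]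
      exact D.noatomX α h1 h2 β hβ a
    have h3 := gapMean_tendsto (hG α h1 h2 β hβ) hβ.le hu.le (hat δ) (hat u)
    have h4 : (P.map (X α β)).real (Set.Ioc δ u) = P.real {ω | δ < X α β ω ∧ X α β ω ≤ u} := by
      rw [measureReal_def, measureReal_def, Measure.map_apply_of_aemeasurable hXm
        measurableSet_Ioc]
      rfl
    rw [h4] at h3
    exact h3
  · intro α h1 h2
    have hev : ∀ᶠ β : ℝ in atTop, 0 < β := eventually_gt_atTop 0
    refine lev_Ioc (X := X α) (ConvP.of_L1 ?_ (D.convX α h1 h2)) ?_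
      (D.intX0 α h1 h2).1.aemeasurable hu.le (D.noatomX0 α h1 h2 _) (D.noatomX0 α h1 h2 _)
    · filter_upwards [hev] with β hβ
      exact ((D.intX α h1 h2 β hβ).sub (D.intX0 α h1 h2)).abs
    · filter_upwards [hev] with β hβ
      exact (D.intX α h1 h2 β hβ).1.aemeasurable
  · refine lev_Ioc (X := X0) (ConvP.of_L1 ?_ D.convH) ?_ D.intH.1.aemeasurable hu.le
      (D.noatomH _ hδ) (D.noatomH _ (hδ.trans hu))
    · filter_upwards [eventually_right αc D.η_pos] with α hα
      exact ((D.intX0 α hα.1 hα.2).sub D.intH).abs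
    · filter_upwards [eventually_right αc D.η_pos] with α hα
      exact (D.intX0 α hα.1 hα.2).1.aemeasurable

theorem tendsto_Ioc_zero (hH : AEMeasurable hJ P) (u : ℝ) :
    Tendsto (fun δ : ℝ => P.real {ω | δ < hJ ω ∧ hJ ω ≤ u}) (𝓝[>] 0)
      (𝓝 (P.real {ω | 0 < hJ ω ∧ hJ ω ≤ u})) := by
  set ν := P.map hJ with hν
  have : IsProbabilityMeasure ν := Measure.isProbabilityMeasure_map hH
  have hmap : ∀ a : ℝ, P.real {ω | a < hJ ω ∧ hJ ω ≤ u} = ν.real (Set.Ioc a u) := by
    intro a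
    rw [measureReal_def, measureReal_def, hν, Measure.map_apply_of_aemeasurable hH
      measurableSet_Ioc]
    rfl
  simp only [hmap]
  rw [tendsto_order]
  constructor
  · intro b hb
    obtain ⟨e, he, h1⟩ := cdf_right (ν := ν) 0 (e := (ν.real (Set.Ioc 0 u) - b) / 2)
      (by linarith)
    filter_upwards [Ioo_mem_nhdsGT (show (0:ℝ) < e from he)] with δ hδ
    have h2 : Set.Ioc 0 u ⊆ Set.Ioc δ u ∪ (Set.Iic (0 + e) \ Set.Iic 0) := by
      intro x hx
      by_cases hxδ : δ < x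
      · exact Or.inl ⟨hxδ, hx.2⟩
      · right
        refine ⟨?_, fun h => absurd hx.1 (not_lt.2 h)⟩
        have := hδ.2
        show x ≤ 0 + e
        linarith [not_lt.1 hxδ]
    have h3 : ν.real (Set.Ioc 0 u) ≤ ν.real (Set.Ioc δ u) + ν.real (Set.Iic (0 + e) \ Set.Iic 0) :=
      (measureReal_mono h2).trans (measureReal_union_le _ _)
    have h4 : ν.real (Set.Iic (0 + e) \ Set.Iic 0) = ν.real (Set.Iic (0 + e)) - ν.real (Set.Iic 0) :=
      measureReal_sdiff (Set.Iic_subset_Iic.2 (by linarith)) measurableSet_Iic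
    linarith
  · intro b hb
    filter_upwards [self_mem_nhdsWithin] with δ hδ
    refine lt_of_le_of_lt (measureReal_mono (Set.Ioc_subset_Ioc_left (le_of_lt hδ))) hb

lemma set_neg_part {Z : Ω → ℝ} : {ω | 0 < max (-Z ω) 0} = {ω | Z ω < 0} := by
  ext ω
  simp

/-- The literal limit of `forceMean` in terms of `fcdf` of the negative part. -/
lemma force_value {Z : Ω → ℝ} (hZ : AEMeasurable Z P) (s : ℝ) :
    (P.map Z).real (Set.Ico (-(s * ((∫ x, max (-x) 0 ∂(P.map Z)) / (P.map Z).real (Set.Iio 0)))) 0)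
        / (P.map Z).real (Set.Iio 0) = fcdf P (fun ω => max (-Z ω) 0) s := by
  have h1 : (P.map Z).real (Set.Iio 0) = P.real {ω | Z ω < 0} := by
    rw [measureReal_def, measureReal_def, Measure.map_apply_of_aemeasurable hZ measurableSet_Iio]
    rfl
  have h2 : ∫ x, max (-x) 0 ∂(P.map Z) = ∫ ω, max (-Z ω) 0 ∂P :=
    integral_map hZ (continuous_neg.max continuous_const).aestronglyMeasurable
  rw [h1, h2]
  unfold fcdf
  rw [set_neg_part]
  congr 1
  rw [measureReal_def, measureReal_def, Measure.map_apply_of_aemeasurable hZ measurableSet_Ico]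
  congr 2
  ext ω
  simp only [Set.mem_preimage, Set.mem_Ico, Set.mem_ofPred_eq]
  constructor
  · rintro ⟨h3, h4⟩
    rw [max_eq_left (by linarith)]
    exact ⟨by linarith, by linarith⟩
  · rintro ⟨h3, h4⟩
    have h5 : Z ω < 0 := by
      by_contra hcon
      rw [max_eq_right (by linarith [not_lt.1 hcon])] at h3
      exact lt_irrefl _ h3
    rw [max_eq_left (by linarith)] at h4
    exact ⟨by linarith, h5⟩

lemma abs_neg_part_sub (a b : ℝ) : |max (-a) 0 - max (-b) 0| ≤ |a - b| := by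
  have h := abs_max_sub_max_le_abs (-a) (-b) 0
  rw [neg_sub_neg, abs_sub_comm b a] at h
  exact h

/-- If `Z < 0` has positive probability, the normalised level is positive. -/
lemma level_pos {W : Ω → ℝ} (hWi : Integrable W P) (hW0 : ∀ ω, 0 ≤ W ω)
    (hq : 0 < P.real {ω | 0 < W ω}) {s : ℝ} (hs : 0 < s) :
    0 < s * ((∫ ω, W ω ∂P) / P.real {ω | 0 < W ω}) := by
  refine mul_pos hs (div_pos ?_ hq)
  rw [integral_pos_iff_support_of_nonneg hW0 hWi]
  have h1 : Function.support W = {ω | 0 < W ω} := by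
    ext ω
    simp only [Function.mem_support, Set.mem_ofPred_eq]
    exact ⟨fun h => lt_of_le_of_ne (hW0 ω) (Ne.symm h), fun h => h.ne'⟩
  rw [h1]
  exact (ENNReal.toReal_pos_iff.1 hq).1

theorem JamData.force_limit (D : JamData P αc η X X0 hJ lJ c) {ε : ℝ}
    (hF : ∀ α, αc < α → α < αc + η → ∀ β, 0 < β → ForceLim α β ε (P.map (X α β)))
    {s : ℝ} (hs : 0 < s) :
    HasOrderedLimit (fun N β α => forceMean N β α ε s) αc (fcdf P lJ s) := by
  refine ⟨η, D.η_pos, fun α β => fcdf P (fun ω => max (-X α β ω) 0) s,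
    fun α => fcdf P (fun ω => max (-X0 α ω) 0) s, ?_, ?_, ?_⟩
  · intro α h1 h2 β hβ
    have hXi := D.intX α h1 h2 β hβ
    have hXm : AEMeasurable (X α β) P := hXi.1.aemeasurable
    have hat : ∀ a : ℝ, (P.map (X α β)) {a} = 0 := by
      intro a
      rw [Measure.map_apply_of_aemeasurable hXm (measurableSet_singleton a)]
      exact D.noatomX α h1 h2 β hβ a
    have h4 : (P.map (X α β)).real (Set.Iio 0) = P.real {ω | X α β ω < 0} := by
      rw [measureReal_def, measureReal_def, Measure.map_apply_of_aemeasurable hXm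
        measurableSet_Iio]
      rfl
    have h3 := hF α h1 h2 β hβ s hs (hat 0) (by rw [h4]; exact D.posX α h1 h2 β hβ) (hat _)
    rw [force_value hXm] at h3
    exact h3
  · intro α h1 h2
    have hev : ∀ᶠ β : ℝ in atTop, 0 < β := eventually_gt_atTop 0
    have hq : 0 < P.real {ω | 0 < max (-X0 α ω) 0} := by
      rw [set_neg_part]; exact D.posX0 α h1 h2
    have hWi : Integrable (fun ω => max (-X0 α ω) 0) P := (D.intX0 α h1 h2).neg.pos_part
    have hW0 : ∀ ω, 0 ≤ max (-X0 α ω) 0 := fun ω => le_max_right _ _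
    have hconv : ConvP P atTop (X α) (X0 α) := by
      refine ConvP.of_L1 ?_ (D.convX α h1 h2)
      filter_upwards [hev] with β hβ
      exact ((D.intX α h1 h2 β hβ).sub (D.intX0 α h1 h2)).abs
    refine fcdf_tendsto (Z := fun β ω => max (-X α β ω) 0) ?_ hWi ?_ hW0 ?_ ?_ hq hs.le ?_
    · filter_upwards [hev] with β hβ
      exact (D.intX α h1 h2 β hβ).neg.pos_part
    · exact Eventually.of_forall fun β ω => le_max_right _ _
    · refine squeeze_zero' (Eventually.of_forall fun β => integral_nonneg fun ω => abs_nonneg _)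
        ?_ (D.convX α h1 h2)
      filter_upwards [hev] with β hβ
      refine integral_mono (((D.intX α h1 h2 β hβ).neg.pos_part.sub hWi).abs)
        (((D.intX α h1 h2 β hβ).sub (D.intX0 α h1 h2)).abs) fun ω => abs_neg_part_sub _ _
    · simp only [set_neg_part]
      -- P(X < 0) = P(X ≤ 0) by absence of atoms
      have h3 := lev_le hconv (D.intX0 α h1 h2).1.aemeasurable (tendsto_const_nhds (x := (0:ℝ)))
        (D.noatomX0 α h1 h2 0)
      have hlt : ∀ {Z : Ω → ℝ}, P {ω | Z ω = 0} = 0 → P.real {ω | Z ω ≤ 0} = P.real {ω | Z ω < 0} := by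
        intro Z hZ
        refine le_antisymm ?_ (measureReal_mono fun ω (h : Z ω < 0) => h.le)
        have h4 : {ω | Z ω ≤ 0} ⊆ {ω | Z ω < 0} ∪ {ω | Z ω = 0} := by
          intro ω hω
          rcases lt_or_eq_of_le (show Z ω ≤ 0 from hω) with h | h
          · exact Or.inl h
          · exact Or.inr h
        have h5 : P.real {ω | Z ω = 0} = 0 := by rw [measureReal_def, hZ, ENNReal.toReal_zero]
        calc _ ≤ P.real {ω | Z ω < 0} + P.real {ω | Z ω = 0} :=
              (measureReal_mono h4).trans (measureReal_union_le _ _)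
          _ = _ := by rw [h5, add_zero]
      rw [hlt (D.noatomX0 α h1 h2 0)] at h3
      refine h3.congr' ?_
      filter_upwards [hev] with β hβ
      exact hlt (D.noatomX α h1 h2 β hβ 0)
    · have hlev := level_pos hWi hW0 hq hs
      set a := s * ((∫ ω, max (-X0 α ω) 0 ∂P) / P.real {ω | 0 < max (-X0 α ω) 0}) with ha
      refine measure_mono_null (fun ω hω => ?_) (D.noatomX0 α h1 h2 (-a))
      have h5 : max (-X0 α ω) 0 = a := hω
      have h6 : 0 < -X0 α ω := by
        by_contra hcon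
        rw [max_eq_right (not_lt.1 hcon)] at h5
        linarith
      rw [max_eq_left h6.le] at h5
      show X0 α ω = -a
      linarith
  · have hev := eventually_right αc D.η_pos
    have hkey : Tendsto (fun α => fcdf P (fun ω => c α * max (-X0 α ω) 0) s) (𝓝[>] αc)
        (𝓝 (fcdf P lJ s)) := by
      refine fcdf_tendsto (Z := fun α ω => c α * max (-X0 α ω) 0) ?_ D.intL ?_ D.L_nonneg D.convL
        ?_ D.posL hs.le ?_
      · filter_upwards [hev] with α hα
        exact (D.intX0 α hα.1 hα.2).neg.pos_part.const_mul _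
      · filter_upwards [hev] with α hα ω
        exact mul_nonneg (D.c_pos α hα.1 hα.2).le (le_max_right _ _)
      · refine D.convM.congr' ?_
        filter_upwards [hev] with α hα
        congr 1
        ext ω
        simp [D.c_pos α hα.1 hα.2]
      · exact D.noatomL _ (level_pos D.intL D.L_nonneg D.posL hs)
    refine hkey.congr' ?_
    filter_upwards [hev] with α hα
    exact fcdf_mul (D.c_pos α hα.1 hα.2) s

/-- `F = fcdf P lJ` is the distribution function of a mean-one law on `(0, ∞)`. -/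
theorem lawF {W : Ω → ℝ} (hWm : Measurable W) (hWi : Integrable W P) (hW0 : ∀ ω, 0 ≤ W ω)
    (hq : 0 < P.real {ω | 0 < W ω}) :
    ∃ ρ : Measure ℝ, IsProbabilityMeasure ρ ∧ ρ (Set.Iic 0) = 0 ∧ ∫ x, x ∂ρ = 1 ∧
      ∀ s : ℝ, 0 < s → fcdf P W s = (ρ (Set.Iic s)).toReal := by
  set q := P.real {ω | 0 < W ω} with hqdef
  set r := (∫ ω, W ω ∂P) / q with hrdef
  have hr : 0 < r := by
    have := level_pos hWi hW0 hq one_pos
    simpa using this
  have hms : MeasurableSet {ω | 0 < W ω} := measurableSet_lt measurable_const hWm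
  have hP0 : P {ω | 0 < W ω} ≠ 0 := (ENNReal.toReal_pos_iff.1 hq).1.ne'
  have hprob : IsProbabilityMeasure (ProbabilityTheory.cond P {ω | 0 < W ω}) :=
    ProbabilityTheory.cond_isProbabilityMeasure hP0
  have hVm : Measurable fun ω => W ω / r := hWm.div_const r
  refine ⟨(ProbabilityTheory.cond P {ω | 0 < W ω}).map (fun ω => W ω / r), ?_, ?_, ?_, ?_⟩
  · exact Measure.isProbabilityMeasure_map hVm.aemeasurable
  · rw [Measure.map_apply hVm measurableSet_Iic, ProbabilityTheory.cond_apply hms]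
    have : {ω | 0 < W ω} ∩ (fun ω => W ω / r) ⁻¹' Set.Iic 0 = ∅ := by
      ext ω
      simp only [Set.mem_inter_iff, Set.mem_ofPred_eq, Set.mem_preimage, Set.mem_Iic,
        Set.mem_empty_iff_false, iff_false, not_and, not_le]
      intro h
      exact div_pos h hr
    rw [this, measure_empty, mul_zero]
  · rw [integral_map (f := fun x : ℝ => x) hVm.aemeasurable
      measurable_id.aestronglyMeasurable]
    rw [integral_div, ProbabilityTheory.cond, integral_smul_measure]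
    have h1 : ∫ ω in {ω | 0 < W ω}, W ω ∂P = ∫ ω, W ω ∂P := by
      rw [← integral_indicator hms]
      refine integral_congr_ae (Eventually.of_forall fun ω => ?_)
      by_cases h : 0 < W ω
      · simp [h]
      · have : W ω = 0 := le_antisymm (not_lt.1 h) (hW0 ω)
        simp [this]
    rw [h1, ENNReal.toReal_inv, ← measureReal_def, ← hqdef, smul_eq_mul, hrdef]
    have hI : 0 < ∫ ω, W ω ∂P := by
      have := mul_pos hr hq
      rwa [hrdef, div_mul_cancel₀ _ hq.ne'] at this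
    field_simp
  · intro s hs
    rw [Measure.map_apply hVm measurableSet_Iic, ProbabilityTheory.cond_apply hms,
      ENNReal.toReal_mul, ENNReal.toReal_inv]
    unfold fcdf
    rw [← hqdef, ← measureReal_def, ← measureReal_def, ← hqdef, div_eq_inv_mul]
    congr 2
    ext ω
    simp only [Set.mem_inter_iff, Set.mem_ofPred_eq, Set.mem_preimage, Set.mem_Iic]
    rw [div_le_iff₀ hr]

end Glue

end Crest.Agent.R146.Obs918
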