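import Mathlib
import Crest.Agent.R151.V1
import Crest.Agent.R146.Obs1_918
import Crest.Prelude.Def_SphericalPressure
import Crest.Agent.R141.UPi
import Crest.Agent.R146.RepairLaw_840
import Crest.Agent.R146.P34_734
import Crest.Agent.R146.Obs3_918
import Crest.Prelude.Def_Perceptron
import Crest.Agent.R146.Assoc3_323
import Crest.Agent.R146.DualL_256
import Crest.Agent.R146.Obs2_918
import Crest.Agent.R146.P5Fin_12

-- ▼ part R146/ObsA_548
section

/-!
# R146, node OBS (helper548), part A: abstract row systems and the Efron-Stein bound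

Rows `A : ι → X` are independent with law `G`; `t : X → Y → ℝ` is the field of a row at a
configuration; `σ` is a probability measure on configurations; `F` is a potential bounded above by
`K` whose second moment `∫ F (t x y)^2 dG(x)` is at most `C`.  The logarithm of the partition
function has `dvar` at most `4 (K^2 + C)` times the number of rows.
-/

set_option autoImplicit false
set_option linter.unusedSectionVars false

open MeasureTheory ProbabilityTheory
open scoped ENNReal

namespace Crest.Agent.R146.ObsA_548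

variable {ι X Y : Type*} [Fintype ι] [DecidableEq ι] [MeasurableSpace X] [MeasurableSpace Y]

/-- the exponent of a sample of rows at a configuration -/
noncomputable def V (F : ℝ → ℝ) (t : X → Y → ℝ) (A : ι → X) (y : Y) : ℝ := ∑ a, F (t (A a) y)

/-- the partition function -/
noncomputable def Z (σ : Measure Y) (F : ℝ → ℝ) (t : X → Y → ℝ) (A : ι → X) : ℝ :=
  ∫ y, Real.exp (V F t A y) ∂σ

/-- the exponent without the row `i` -/
noncomputable def Vr (F : ℝ → ℝ) (t : X → Y → ℝ) (i : ι) (A : ι → X) (y : Y) : ℝ :=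
  ∑ a ∈ Finset.univ.erase i, F (t (A a) y)

noncomputable def Zr (σ : Measure Y) (F : ℝ → ℝ) (t : X → Y → ℝ) (i : ι) (A : ι → X) : ℝ :=
  ∫ y, Real.exp (Vr F t i A y) ∂σ

section basic

variable {F : ℝ → ℝ} {t : X → Y → ℝ} {K C : ℝ}

omit [DecidableEq ι] in
lemma measurable_V (hF : Measurable F) (ht : Measurable (Function.uncurry t)) :
    Measurable (fun p : (ι → X) × Y => V F t p.1 p.2) := by
  unfold V
  refine Finset.measurable_sum _ fun a _ => ?_
  have h1 : Measurable fun p : (ι → X) × Y => (p.1 a, p.2) :=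
    ((measurable_pi_apply a).comp measurable_fst).prodMk measurable_snd
  exact hF.comp (ht.comp h1)

lemma measurable_Vr (hF : Measurable F) (ht : Measurable (Function.uncurry t)) (i : ι) :
    Measurable (fun p : (ι → X) × Y => Vr F t i p.1 p.2) := by
  unfold Vr
  refine Finset.measurable_sum _ fun a _ => ?_
  have h1 : Measurable fun p : (ι → X) × Y => (p.1 a, p.2) :=
    ((measurable_pi_apply a).comp measurable_fst).prodMk measurable_snd
  exact hF.comp (ht.comp h1)

omit [DecidableEq ι] in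
lemma measurable_V_right (hF : Measurable F) (ht : Measurable (Function.uncurry t)) (A : ι → X) :
    Measurable (fun y : Y => V F t A y) :=
  (measurable_V hF ht).comp (measurable_const.prodMk measurable_id)

lemma measurable_Vr_right (hF : Measurable F) (ht : Measurable (Function.uncurry t)) (i : ι)
    (A : ι → X) : Measurable (fun y : Y => Vr F t i A y) :=
  (measurable_Vr hF ht i).comp (measurable_const.prodMk measurable_id)

omit [DecidableEq ι] [MeasurableSpace X] [MeasurableSpace Y] in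
lemma V_le (hK : ∀ x, F x ≤ K) (A : ι → X) (y : Y) : V F t A y ≤ Fintype.card ι * K := by
  unfold V
  calc ∑ a, F (t (A a) y) ≤ ∑ _a : ι, K := Finset.sum_le_sum fun a _ => hK _
    _ = Fintype.card ι * K := by simp

omit [MeasurableSpace X] [MeasurableSpace Y] in
lemma Vr_le (hK0 : 0 ≤ K) (hK : ∀ x, F x ≤ K) (i : ι) (A : ι → X) (y : Y) :
    Vr F t i A y ≤ Fintype.card ι * K := by
  unfold Vr
  calc ∑ a ∈ Finset.univ.erase i, F (t (A a) y) ≤ ∑ _a ∈ Finset.univ.erase i, K :=
        Finset.sum_le_sum fun a _ => hK _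
    _ ≤ ∑ _a : ι, K := Finset.sum_le_sum_of_subset_of_nonneg (Finset.erase_subset _ _)
        fun _ _ _ => hK0
    _ = Fintype.card ι * K := by simp

omit [MeasurableSpace X] [MeasurableSpace Y] in
lemma V_eq (F : ℝ → ℝ) (t : X → Y → ℝ) (i : ι) (A : ι → X) (y : Y) :
    V F t A y = F (t (A i) y) + Vr F t i A y := by
  unfold V Vr
  rw [Finset.add_sum_erase _ (fun a => F (t (A a) y)) (Finset.mem_univ i)]

omit [MeasurableSpace X] [MeasurableSpace Y] in
lemma Vr_update (F : ℝ → ℝ) (t : X → Y → ℝ) (i : ι) (A : ι → X) (x : X) (y : Y) :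
    Vr F t i (Function.update A i x) y = Vr F t i A y := by
  unfold Vr
  refine Finset.sum_congr rfl fun a ha => ?_
  rw [Function.update_of_ne (Finset.ne_of_mem_erase ha)]

omit [MeasurableSpace X] in
lemma Zr_update (σ : Measure Y) (F : ℝ → ℝ) (t : X → Y → ℝ) (i : ι) (A : ι → X) (x : X) :
    Zr σ F t i (Function.update A i x) = Zr σ F t i A := by
  unfold Zr
  simp only [Vr_update]

lemma integrable_exp_of_le {σ : Measure Y} [IsFiniteMeasure σ] {g : Y → ℝ} (hg : Measurable g)
    {c : ℝ} (hc : ∀ y, g y ≤ c) : Integrable (fun y => Real.exp (g y)) σ := by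
  refine Integrable.of_bound (hg.exp.aestronglyMeasurable) (Real.exp c) ?_
  refine Filter.Eventually.of_forall fun y => ?_
  rw [Real.norm_eq_abs, Real.abs_exp]
  exact Real.exp_le_exp.2 (hc y)

lemma integral_exp_pos' {σ : Measure Y} [IsProbabilityMeasure σ] {g : Y → ℝ}
    (hi : Integrable (fun y => Real.exp (g y)) σ) : 0 < ∫ y, Real.exp (g y) ∂σ :=
  integral_exp_pos hi

lemma measurable_Z {σ : Measure Y} [SFinite σ] (hF : Measurable F)
    (ht : Measurable (Function.uncurry t)) :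
    Measurable (fun A : ι → X => Z σ F t A) := by
  have h := (measurable_V (ι := ι) hF ht).exp
  exact (h.stronglyMeasurable.integral_prod_right').measurable

lemma measurable_Zr {σ : Measure Y} [SFinite σ] (hF : Measurable F)
    (ht : Measurable (Function.uncurry t)) (i : ι) :
    Measurable (fun A : ι → X => Zr σ F t i A) := by
  have h := (measurable_Vr (ι := ι) hF ht i).exp
  exact (h.stronglyMeasurable.integral_prod_right').measurable

end basic

/-- the density of the Gibbs measure without the row `i` -/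
noncomputable def gr (σ : Measure Y) (F : ℝ → ℝ) (t : X → Y → ℝ) (i : ι) (A : ι → X) (y : Y) : ℝ :=
  Real.exp (Vr F t i A y) / Zr σ F t i A

section cavity

variable {F : ℝ → ℝ} {t : X → Y → ℝ} {K C : ℝ} {σ : Measure Y} [IsProbabilityMeasure σ]

lemma Zr_pos (hF : Measurable F) (ht : Measurable (Function.uncurry t)) (hK0 : 0 ≤ K)
    (hK : ∀ x, F x ≤ K) (i : ι) (A : ι → X) : 0 < Zr σ F t i A :=
  integral_exp_pos' (integrable_exp_of_le (measurable_Vr_right hF ht i A)
    fun y => Vr_le hK0 hK i A y)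

lemma Z_pos (hF : Measurable F) (ht : Measurable (Function.uncurry t))
    (hK : ∀ x, F x ≤ K) (A : ι → X) : 0 < Z σ F t A :=
  integral_exp_pos' (integrable_exp_of_le (measurable_V_right hF ht A) fun y => V_le hK A y)

lemma gr_nonneg (hF : Measurable F) (ht : Measurable (Function.uncurry t)) (hK0 : 0 ≤ K)
    (hK : ∀ x, F x ≤ K) (i : ι) (A : ι → X) (y : Y) : 0 ≤ gr σ F t i A y :=
  div_nonneg (Real.exp_nonneg _) (Zr_pos hF ht hK0 hK i A).le

lemma measurable_gr (hF : Measurable F) (ht : Measurable (Function.uncurry t)) (i : ι) :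
    Measurable (fun p : (ι → X) × Y => gr σ F t i p.1 p.2) :=
  ((measurable_Vr hF ht i).exp).div ((measurable_Zr hF ht i).comp measurable_fst)

lemma measurable_gr_right (hF : Measurable F) (ht : Measurable (Function.uncurry t)) (i : ι)
    (A : ι → X) : Measurable (fun y => gr σ F t i A y) :=
  (measurable_gr hF ht i).comp (measurable_const.prodMk measurable_id)

lemma gr_le (hF : Measurable F) (ht : Measurable (Function.uncurry t)) (hK0 : 0 ≤ K)
    (hK : ∀ x, F x ≤ K) (i : ι) (A : ι → X) (y : Y) :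
    gr σ F t i A y ≤ Real.exp (Fintype.card ι * K) / Zr σ F t i A :=
  div_le_div_of_nonneg_right (Real.exp_le_exp.2 (Vr_le hK0 hK i A y))
    (Zr_pos hF ht hK0 hK i A).le

lemma integral_gr (hF : Measurable F) (ht : Measurable (Function.uncurry t)) (hK0 : 0 ≤ K)
    (hK : ∀ x, F x ≤ K) (i : ι) (A : ι → X) : ∫ y, gr σ F t i A y ∂σ = 1 := by
  unfold gr
  rw [integral_div]
  exact div_self (Zr_pos hF ht hK0 hK i A).ne'

/-- the Gibbs measure without the row `i` -/
noncomputable def Gr (σ : Measure Y) (F : ℝ → ℝ) (t : X → Y → ℝ) (i : ι) (A : ι → X) : Measure Y :=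
  σ.withDensity fun y => ENNReal.ofReal (gr σ F t i A y)

lemma isProb_Gr (hF : Measurable F) (ht : Measurable (Function.uncurry t)) (hK0 : 0 ≤ K)
    (hK : ∀ x, F x ≤ K) (i : ι) (A : ι → X) : IsProbabilityMeasure (Gr σ F t i A) := by
  refine ⟨?_⟩
  unfold Gr
  rw [withDensity_apply _ MeasurableSet.univ, Measure.restrict_univ,
    ← ofReal_integral_eq_lintegral_ofReal]
  · rw [integral_gr hF ht hK0 hK, ENNReal.ofReal_one]
  · refine Integrable.of_bound (measurable_gr_right hF ht i A).aestronglyMeasurable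
      (Real.exp (Fintype.card ι * K) / Zr σ F t i A) (Filter.Eventually.of_forall fun y => ?_)
    rw [Real.norm_eq_abs, abs_of_nonneg (gr_nonneg hF ht hK0 hK i A y)]
    exact gr_le hF ht hK0 hK i A y
  · exact Filter.Eventually.of_forall fun y => gr_nonneg hF ht hK0 hK i A y

/-- the ratio of the partition functions is a Gibbs mean -/
lemma Z_div_Zr (hF : Measurable F) (ht : Measurable (Function.uncurry t)) (hK0 : 0 ≤ K)
    (hK : ∀ x, F x ≤ K) (i : ι) (A : ι → X) :
    Z σ F t A / Zr σ F t i A = ∫ y, Real.exp (F (t (A i) y)) ∂(Gr σ F t i A) := by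
  unfold Gr
  rw [integral_withDensity_eq_integral_toReal_smul]
  · unfold Z
    rw [← integral_div]
    refine integral_congr_ae (Filter.Eventually.of_forall fun y => ?_)
    simp only [smul_eq_mul]
    rw [ENNReal.toReal_ofReal (gr_nonneg hF ht hK0 hK i A y), V_eq F t i A y, Real.exp_add]
    unfold gr
    ring
  · exact (measurable_gr_right hF ht i A).ennreal_ofReal
  · exact Filter.Eventually.of_forall fun y => ENNReal.ofReal_lt_top

/-- squares of logarithms of exponential means of potentials bounded above -/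
lemma sq_log_exp_le {Q : Measure Y} [IsProbabilityMeasure Q] {g : Y → ℝ} (hg : Measurable g)
    (hK0 : 0 ≤ K) (hgK : ∀ y, g y ≤ K) :
    ENNReal.ofReal (Real.log (∫ y, Real.exp (g y) ∂Q) ^ 2) ≤
      ENNReal.ofReal (K ^ 2) + ∫⁻ y, ENNReal.ofReal (g y ^ 2) ∂Q := by
  have hint := integrable_exp_of_le (σ := Q) hg hgK
  have hpos : 0 < ∫ y, Real.exp (g y) ∂Q := integral_exp_pos' hint
  by_cases htop : ∫⁻ y, ENNReal.ofReal (g y ^ 2) ∂Q = ⊤
  · rw [htop]; simp
  have h2 : Integrable (fun y => g y ^ 2) Q := by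
    refine ⟨(hg.pow_const 2).aestronglyMeasurable, ?_⟩
    rw [hasFiniteIntegral_iff_ofReal (Filter.Eventually.of_forall fun y => sq_nonneg _)]
    exact lt_of_le_of_ne le_top htop
  have h1 : Integrable g Q := by
    have : MemLp g 2 Q := (memLp_two_iff_integrable_sq hg.aestronglyMeasurable).2 h2
    exact this.integrable (by norm_num)
  have hup : Real.log (∫ y, Real.exp (g y) ∂Q) ≤ K := by
    rw [Real.log_le_iff_le_exp hpos]
    calc ∫ y, Real.exp (g y) ∂Q ≤ ∫ _y, Real.exp K ∂Q :=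
          integral_mono hint (integrable_const _) fun y => Real.exp_le_exp.2 (hgK y)
      _ = Real.exp K := by simp
  have hlo : ∫ y, g y ∂Q ≤ Real.log (∫ y, Real.exp (g y) ∂Q) := by
    rw [Real.le_log_iff_exp_le hpos]
    exact convexOn_exp.map_integral_le Real.continuous_exp.continuousOn isClosed_univ
      (Filter.Eventually.of_forall fun _ => Set.mem_univ _) h1 hint
  have hcs : (∫ y, g y ∂Q) ^ 2 ≤ ∫ y, g y ^ 2 ∂Q :=
    (even_two.convexOn_pow (𝕜 := ℝ)).map_integral_le (by fun_prop) isClosed_univ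
      (Filter.Eventually.of_forall fun _ => Set.mem_univ _) h1 h2
  have hmain : Real.log (∫ y, Real.exp (g y) ∂Q) ^ 2 ≤ K ^ 2 + ∫ y, g y ^ 2 ∂Q := by
    have hnn : 0 ≤ ∫ y, g y ^ 2 ∂Q := integral_nonneg fun y => sq_nonneg _
    rcases le_total 0 (Real.log (∫ y, Real.exp (g y) ∂Q)) with h0 | h0
    · nlinarith
    · have : Real.log (∫ y, Real.exp (g y) ∂Q) ^ 2 ≤ (∫ y, g y ∂Q) ^ 2 := by nlinarith
      nlinarith
  rw [← ofReal_integral_eq_lintegral_ofReal h2 (Filter.Eventually.of_forall fun y => sq_nonneg _),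
    ← ENNReal.ofReal_add (sq_nonneg _) (integral_nonneg fun y => sq_nonneg _)]
  exact ENNReal.ofReal_le_ofReal hmain

end cavity

section efron

variable {F : ℝ → ℝ} {t : X → Y → ℝ} {K : ℝ} {σ : Measure Y} [IsProbabilityMeasure σ]

/-- resampling one coordinate preserves the product law -/
lemma mp_update (G : Measure X) [IsProbabilityMeasure G] (i : ι) :
    MeasurePreserving (fun p : (ι → X) × X => Function.update p.1 i p.2)
      ((Measure.pi fun _ : ι => G).prod G) (Measure.pi fun _ : ι => G) := by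
  refine ⟨measurable_update', ?_⟩
  refine (Measure.pi_eq fun s hs => ?_).symm
  rw [Measure.map_apply measurable_update' (MeasurableSet.univ_pi hs)]
  have hpre : (fun p : (ι → X) × X => Function.update p.1 i p.2) ⁻¹' (Set.univ.pi s) =
      (Set.univ.pi (Function.update s i Set.univ)) ×ˢ (s i) := by
    ext p
    simp only [Set.mem_preimage, Set.mem_pi, Set.mem_univ, true_implies, Set.mem_prod]
    constructor
    · intro h
      refine ⟨fun j => ?_, ?_⟩
      · by_cases hj : j = i
        · subst hj; simp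
        · have := h j
          rw [Function.update_of_ne hj] at this ⊢
          exact this
      · have := h i
        rwa [Function.update_self] at this
    · rintro ⟨h1, h2⟩ j
      by_cases hj : j = i
      · subst hj; rw [Function.update_self]; exact h2
      · have := h1 j
        rw [Function.update_of_ne hj] at this ⊢
        exact this
  rw [hpre, Measure.prod_prod, Measure.pi_pi]
  rw [← Finset.mul_prod_erase Finset.univ (fun j => G (Function.update s i Set.univ j))
    (Finset.mem_univ i), ← Finset.mul_prod_erase Finset.univ (fun j => G (s j))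
    (Finset.mem_univ i), Function.update_self, measure_univ, one_mul, mul_comm]
  congr 1
  refine Finset.prod_congr rfl fun j hj => ?_
  rw [Function.update_of_ne (Finset.ne_of_mem_erase hj)]

lemma lintegral_update (G : Measure X) [IsProbabilityMeasure G] (i : ι) {g : (ι → X) → ℝ≥0∞}
    (hg : Measurable g) :
    ∫⁻ A, ∫⁻ x, g (Function.update A i x) ∂G ∂(Measure.pi fun _ : ι => G) =
      ∫⁻ A, g A ∂(Measure.pi fun _ : ι => G) := by
  rw [← (mp_update G i).lintegral_comp hg]
  exact (lintegral_prod (μ := Measure.pi fun _ : ι => G) (ν := G)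
    (fun p : (ι → X) × X => g (Function.update p.1 i p.2))
    (hg.comp measurable_update').aemeasurable).symm

/-- the second moment of the change of `log Z` when a row is removed -/
lemma lintegral_row_le (hF : Measurable F) (ht : Measurable (Function.uncurry t)) (hK0 : 0 ≤ K)
    (hK : ∀ x, F x ≤ K) {C : ℝ≥0∞} (G : Measure X) [IsProbabilityMeasure G]
    (hC : ∀ y, ∫⁻ x, ENNReal.ofReal (F (t x y) ^ 2) ∂G ≤ C) (i : ι) :
    ∫⁻ A, ENNReal.ofReal ((Real.log (Z σ F t A) - Real.log (Zr σ F t i A)) ^ 2)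
      ∂(Measure.pi fun _ : ι => G) ≤ ENNReal.ofReal (K ^ 2) + C := by
  have hm : Measurable fun A : ι → X =>
      ENNReal.ofReal ((Real.log (Z σ F t A) - Real.log (Zr σ F t i A)) ^ 2) :=
    (((measurable_Z hF ht).log.sub (measurable_Zr hF ht i).log).pow_const 2).ennreal_ofReal
  rw [← lintegral_update G i hm]
  have hpt : ∀ A : ι → X, ∫⁻ x, ENNReal.ofReal ((Real.log (Z σ F t (Function.update A i x)) -
      Real.log (Zr σ F t i (Function.update A i x))) ^ 2) ∂G ≤ ENNReal.ofReal (K ^ 2) + C := by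
    intro A
    have := isProb_Gr (σ := σ) hF ht hK0 hK i A
    have h1 : ∀ x, ENNReal.ofReal ((Real.log (Z σ F t (Function.update A i x)) -
        Real.log (Zr σ F t i (Function.update A i x))) ^ 2) ≤
        ENNReal.ofReal (K ^ 2) + ∫⁻ y, ENNReal.ofReal (F (t x y) ^ 2) ∂(Gr σ F t i A) := by
      intro x
      rw [← Real.log_div (Z_pos hF ht hK _).ne' (Zr_pos hF ht hK0 hK _ _).ne',
        Z_div_Zr hF ht hK0 hK]
      have hGr : Gr σ F t i (Function.update A i x) = Gr σ F t i A := by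
        unfold Gr gr
        simp only [Vr_update, Zr_update]
      rw [hGr, Function.update_self]
      exact sq_log_exp_le (hF.comp (ht.comp (measurable_const.prodMk measurable_id))) hK0
        fun y => hK _
    calc ∫⁻ x, ENNReal.ofReal ((Real.log (Z σ F t (Function.update A i x)) -
          Real.log (Zr σ F t i (Function.update A i x))) ^ 2) ∂G
        ≤ ∫⁻ x, (ENNReal.ofReal (K ^ 2) +
            ∫⁻ y, ENNReal.ofReal (F (t x y) ^ 2) ∂(Gr σ F t i A)) ∂G := lintegral_mono h1
      _ = ENNReal.ofReal (K ^ 2) +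
            ∫⁻ x, ∫⁻ y, ENNReal.ofReal (F (t x y) ^ 2) ∂(Gr σ F t i A) ∂G := by
          rw [lintegral_add_left measurable_const]; simp
      _ = ENNReal.ofReal (K ^ 2) +
            ∫⁻ y, ∫⁻ x, ENNReal.ofReal (F (t x y) ^ 2) ∂G ∂(Gr σ F t i A) := by
          rw [lintegral_lintegral_swap]
          exact ((hF.comp ht).pow_const 2).ennreal_ofReal.aemeasurable
      _ ≤ ENNReal.ofReal (K ^ 2) + ∫⁻ _y, C ∂(Gr σ F t i A) := by
          gcongr with y
          exact hC y
      _ = ENNReal.ofReal (K ^ 2) + C := by simp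
  calc ∫⁻ A, ∫⁻ x, ENNReal.ofReal ((Real.log (Z σ F t (Function.update A i x)) -
      Real.log (Zr σ F t i (Function.update A i x))) ^ 2) ∂G ∂(Measure.pi fun _ : ι => G)
      ≤ ∫⁻ _A, (ENNReal.ofReal (K ^ 2) + C) ∂(Measure.pi fun _ : ι => G) := lintegral_mono hpt
    _ = ENNReal.ofReal (K ^ 2) + C := by simp

/-- **Efron-Stein for the logarithm of the partition function** -/
theorem dvar_log_Z_le (hF : Measurable F) (ht : Measurable (Function.uncurry t)) (hK0 : 0 ≤ K)
    (hK : ∀ x, F x ≤ K) {C : ℝ≥0∞} (G : Measure X) [IsProbabilityMeasure G]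
    (hC : ∀ y, ∫⁻ x, ENNReal.ofReal (F (t x y) ^ 2) ∂G ≤ C) :
    R151.V.dvar (Measure.pi fun _ : ι => G) (fun A => Real.log (Z σ F t A)) ≤
      Fintype.card ι * (4 * (ENNReal.ofReal (K ^ 2) + C)) := by
  have hm : Measurable fun A : ι → X => Real.log (Z σ F t A) := (measurable_Z hF ht).log
  refine (R151.V.dvar_pi_le G hm).trans ?_
  have hi : ∀ i : ι, R151.V.infl (Measure.pi fun _ : ι => G) G
      (fun A => Real.log (Z σ F t A)) i ≤ 4 * (ENNReal.ofReal (K ^ 2) + C) := by
    intro i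
    unfold R151.V.infl
    have hsq : ∀ a b c : ℝ, ENNReal.ofReal ((a - b) ^ 2) ≤
        2 * ENNReal.ofReal ((a - c) ^ 2) + 2 * ENNReal.ofReal ((b - c) ^ 2) := by
      intro a b c
      have : (2 : ℝ≥0∞) = ENNReal.ofReal 2 := by simp
      rw [this, ← ENNReal.ofReal_mul (by norm_num), ← ENNReal.ofReal_mul (by norm_num),
        ← ENNReal.ofReal_add (by positivity) (by positivity)]
      apply ENNReal.ofReal_le_ofReal
      nlinarith [sq_nonneg ((a - c) + (b - c))]
    have hg : Measurable fun A : ι → X =>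
        ENNReal.ofReal ((Real.log (Z σ F t A) - Real.log (Zr σ F t i A)) ^ 2) :=
      (((measurable_Z hF ht).log.sub (measurable_Zr hF ht i).log).pow_const 2).ennreal_ofReal
    have hrow := lintegral_row_le (σ := σ) hF ht hK0 hK G hC i
    calc ∫⁻ A, ∫⁻ x, ENNReal.ofReal ((Real.log (Z σ F t A) -
          Real.log (Z σ F t (Function.update A i x))) ^ 2) ∂G ∂(Measure.pi fun _ : ι => G)
        ≤ ∫⁻ A, ∫⁻ x, (2 * ENNReal.ofReal ((Real.log (Z σ F t A) -
            Real.log (Zr σ F t i A)) ^ 2) +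
            2 * ENNReal.ofReal ((Real.log (Z σ F t (Function.update A i x)) -
            Real.log (Zr σ F t i (Function.update A i x))) ^ 2)) ∂G
            ∂(Measure.pi fun _ : ι => G) := by
          refine lintegral_mono fun A => lintegral_mono fun x => ?_
          rw [Zr_update]
          exact hsq _ _ _
      _ = 2 * (∫⁻ A, ENNReal.ofReal ((Real.log (Z σ F t A) -
            Real.log (Zr σ F t i A)) ^ 2) ∂(Measure.pi fun _ : ι => G)) +
          2 * ∫⁻ A, ∫⁻ x, ENNReal.ofReal ((Real.log (Z σ F t (Function.update A i x)) -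
            Real.log (Zr σ F t i (Function.update A i x))) ^ 2) ∂G
            ∂(Measure.pi fun _ : ι => G) := by
          have h1 : ∀ A : ι → X, ∫⁻ x, (2 * ENNReal.ofReal ((Real.log (Z σ F t A) -
            Real.log (Zr σ F t i A)) ^ 2) +
            2 * ENNReal.ofReal ((Real.log (Z σ F t (Function.update A i x)) -
            Real.log (Zr σ F t i (Function.update A i x))) ^ 2)) ∂G =
            2 * ENNReal.ofReal ((Real.log (Z σ F t A) - Real.log (Zr σ F t i A)) ^ 2) +
            2 * ∫⁻ x, ENNReal.ofReal ((Real.log (Z σ F t (Function.update A i x)) -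
            Real.log (Zr σ F t i (Function.update A i x))) ^ 2) ∂G := by
            intro A
            have hgu : Measurable fun x : X =>
                ENNReal.ofReal ((Real.log (Z σ F t (Function.update A i x)) -
                Real.log (Zr σ F t i (Function.update A i x))) ^ 2) :=
              hg.comp (measurable_update A (a := i))
            rw [lintegral_add_left measurable_const, lintegral_const_mul 2 hgu]
            simp
          simp only [h1]
          rw [lintegral_add_left (hg.const_mul 2), lintegral_const_mul _ hg,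
            lintegral_const_mul]
          exact Measurable.lintegral_prod_right'
            (f := fun z : (ι → X) × X => ENNReal.ofReal ((Real.log (Z σ F t (Function.update z.1 i z.2)) -
            Real.log (Zr σ F t i (Function.update z.1 i z.2))) ^ 2)) (hg.comp measurable_update')
      _ ≤ 2 * (ENNReal.ofReal (K ^ 2) + C) + 2 * (ENNReal.ofReal (K ^ 2) + C) := by
          rw [lintegral_update G i hg]
          gcongr
      _ = 4 * (ENNReal.ofReal (K ^ 2) + C) := by ring
  calc ∑ i, R151.V.infl (Measure.pi fun _ : ι => G) G (fun A => Real.log (Z σ F t A)) i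
      ≤ ∑ _i : ι, 4 * (ENNReal.ofReal (K ^ 2) + C) := Finset.sum_le_sum fun i _ => hi i
    _ = Fintype.card ι * (4 * (ENNReal.ofReal (K ^ 2) + C)) := by
        simp

end efron

end Crest.Agent.R146.ObsA_548
end

-- ▼ part R146/ObsB_548
section

/-!
# R146, node OBS-1 (helper548), part B: from pressures and variance bounds to concentration of
an extensive observable under the joint law of disorder and configuration
-/

set_option autoImplicit false
set_option linter.unusedSectionVars false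

open MeasureTheory ProbabilityTheory Filter
open scoped ENNReal Topology

namespace Crest.Agent.R146.ObsB_548

open Crest.Agent.R146.Obs918

section cheb

variable {S : Type*} [MeasurableSpace S] {P : Measure S} [IsProbabilityMeasure P]

lemma memLp_of_dvar {f : S → ℝ} (hf : Measurable f) (h : R151.V.dvar P f ≠ ⊤) : MemLp f 2 P := by
  unfold R151.V.dvar at h
  have hm : Measurable fun x => ∫⁻ y, ENNReal.ofReal ((f x - f y) ^ 2) ∂P :=
    Measurable.lintegral_prod_right' (f := fun z : S × S => ENNReal.ofReal ((f z.1 - f z.2) ^ 2))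
      (R151.V.meas_sq hf measurable_fst measurable_snd)
  have hae := ae_lt_top hm h
  obtain ⟨x, hx⟩ := hae.exists
  have hfm : Measurable fun y => f x - f y := measurable_const.sub hf
  have h1 : MemLp (fun y => f x - f y) 2 P := by
    rw [memLp_two_iff_integrable_sq hfm.aestronglyMeasurable]
    refine ⟨((measurable_const.sub hf).pow_const 2).aestronglyMeasurable, ?_⟩
    rw [hasFiniteIntegral_iff_ofReal (Eventually.of_forall fun y => sq_nonneg _)]
    exact hx
  have h2 : MemLp (fun y => f x - (f x - f y)) 2 P := (memLp_const (f x)).sub h1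
  simpa using h2

lemma cheb_dvar {f : S → ℝ} (hf : Measurable f) {v : ℝ} (hv : 0 ≤ v)
    (h : R151.V.dvar P f ≤ ENNReal.ofReal v) {r : ℝ} (hr : 0 < r) :
    P {A | r ≤ |f A - ∫ A', f A' ∂P|} ≤ ENNReal.ofReal (v / r ^ 2) := by
  have hL : MemLp f 2 P := memLp_of_dvar hf (ne_top_of_le_ne_top ENNReal.ofReal_ne_top h)
  have h1 := meas_ge_le_variance_div_sq hL hr
  refine h1.trans (ENNReal.ofReal_le_ofReal ?_)
  have h2 := R151.V.dvar_eq hL
  rw [h2] at h
  have h3 : 2 * variance f P ≤ v := by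
    rwa [ENNReal.ofReal_le_ofReal_iff hv] at h
  have h4 : 0 ≤ variance f P := variance_nonneg _ _
  apply div_le_div_of_nonneg_right _ (by positivity)
  linarith

end cheb

section asym

variable {Ω Y : ℕ → Type*} [∀ n, MeasurableSpace (Ω n)] [∀ n, MeasurableSpace (Y n)]
  {μ : ∀ n, Measure (Ω n)} {σ : ∀ n, Measure (Y n)} {w : ∀ n, Ω n → Y n → ℝ}
  {S : ∀ n, Ω n × Y n → ℝ}

/-- the normalised logarithm of the tilted partition function -/
noncomputable def LT {Ω Y : Type*} [MeasurableSpace Ω] [MeasurableSpace Y] (σ : Measure Y)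
    (w : Ω → Y → ℝ) (S : Ω × Y → ℝ) (t : ℝ) (ω : Ω) : ℝ :=
  Real.log ((∫ y, Real.exp (t * S (ω, y)) * w ω y ∂σ) / σ.real Set.univ)

lemma tilt_int {Ω Y : Type*} [MeasurableSpace Ω] [MeasurableSpace Y] {σ : Measure Y}
    [IsFiniteMeasure σ] {w : Ω → Y → ℝ} (hw : GoodWeight σ w) {S : Ω × Y → ℝ}
    (hS : Measurable S) (hSb : ∃ K : ℝ, ∀ p, |S p| ≤ K) (t : ℝ) (ω : Ω) :
    Integrable (fun y => Real.exp (t * S (ω, y)) * w ω y) σ := by
  obtain ⟨K, hK⟩ := hSb
  have hmSy : Measurable fun y => S (ω, y) := hS.comp measurable_prodMk_left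
  refine hw.int_mul ω (f := fun y => Real.exp (t * S (ω, y)))
    (Real.measurable_exp.comp (measurable_const.mul hmSy)) (K := Real.exp (|t| * K)) fun y => ?_
  rw [abs_of_pos (Real.exp_pos _)]
  apply Real.exp_le_exp.2
  calc t * S (ω, y) ≤ |t * S (ω, y)| := le_abs_self _
    _ = |t| * |S (ω, y)| := abs_mul _ _
    _ ≤ |t| * K := mul_le_mul_of_nonneg_left (hK _) (abs_nonneg _)

lemma tilt_pos {Ω Y : Type*} [MeasurableSpace Ω] [MeasurableSpace Y] {σ : Measure Y}
    [IsFiniteMeasure σ] {w : Ω → Y → ℝ} (hw : GoodWeight σ w) {S : Ω × Y → ℝ}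
    (hS : Measurable S) (hSb : ∃ K : ℝ, ∀ p, |S p| ≤ K) (t : ℝ) (ω : Ω) :
    0 < ∫ y, Real.exp (t * S (ω, y)) * w ω y ∂σ := by
  rw [integral_pos_iff_support_of_nonneg
    (fun y => mul_nonneg (Real.exp_pos _).le (hw.pos ω y).le) (tilt_int hw hS hSb t ω)]
  have : Function.support (fun y => Real.exp (t * S (ω, y)) * w ω y) = Set.univ := by
    ext y; simp [(hw.pos ω y).ne', (Real.exp_pos _).ne']
  rw [this]
  exact pos_iff_ne_zero.2 (by simpa [Measure.measure_univ_eq_zero] using hw.ne)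

lemma measurable_LT {Ω Y : Type*} [MeasurableSpace Ω] [MeasurableSpace Y] {σ : Measure Y}
    [IsFiniteMeasure σ] {w : Ω → Y → ℝ} (hw : GoodWeight σ w) {S : Ω × Y → ℝ}
    (hS : Measurable S) (t : ℝ) : Measurable (LT σ w S t) := by
  have hmE : Measurable fun p : Ω × Y => Real.exp (t * S p) * w p.1 p.2 :=
    (Real.measurable_exp.comp (measurable_const.mul hS)).mul hw.meas
  have hmZt : Measurable fun ω => ∫ y, Real.exp (t * S (ω, y)) * w ω y ∂σ :=
    (hmE.stronglyMeasurable.integral_prod_right' (ν := σ)).measurable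
  exact Real.measurable_log.comp (hmZt.div_const _)

lemma LT_sub {Ω Y : Type*} [MeasurableSpace Ω] [MeasurableSpace Y] {σ : Measure Y}
    [IsFiniteMeasure σ] {w : Ω → Y → ℝ} (hw : GoodWeight σ w) {S : Ω × Y → ℝ}
    (hS : Measurable S) (hSb : ∃ K : ℝ, ∀ p, |S p| ≤ K) (t : ℝ) (ω : Ω) :
    Real.log ((∫ y, Real.exp (t * S (ω, y)) * w ω y ∂σ) / ∫ y, w ω y ∂σ) =
      LT σ w S t ω - LT σ w S 0 ω := by
  have h1 := tilt_pos hw hS hSb t ω
  have h2 := hw.Z_pos ω
  have h3 : 0 < σ.real Set.univ := by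
    rw [measureReal_def]
    exact ENNReal.toReal_pos (by simpa [Measure.measure_univ_eq_zero] using hw.ne)
      (measure_ne_top _ _)
  unfold LT
  simp only [zero_mul, Real.exp_zero, one_mul]
  rw [Real.log_div h1.ne' h2.ne', Real.log_div h1.ne' h3.ne', Real.log_div h2.ne' h3.ne']
  ring

/-- **upper tail, one-sided version** -/
theorem upper_tail (hμ : ∀ᶠ n in atTop, IsProbabilityMeasure (μ n))
    (hσ : ∀ n, IsFiniteMeasure (σ n))
    (hw : ∀ᶠ n in atTop, GoodWeight (σ n) (w n)) (hS : ∀ n, Measurable (S n))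
    (hSb : ∀ n, ∃ K : ℝ, ∀ p, |S n p| ≤ K) (v : ℝ)
    (hvar : ∀ s : ℝ, ∃ C : ℝ, 0 ≤ C ∧ ∀ᶠ n : ℕ in atTop,
      R151.V.dvar (μ n) (LT (σ n) (w n) (S n) s) ≤ ENNReal.ofReal (C * n))
    (hder : ∀ η : ℝ, 0 < η → ∃ s : ℝ, 0 < s ∧ ∀ᶠ n : ℕ in atTop,
      (∫ ω, LT (σ n) (w n) (S n) s ω ∂(μ n)) - (∫ ω, LT (σ n) (w n) (S n) 0 ω ∂(μ n))
        ≤ n * (s * (v + η)))
    (η : ℝ) (hη : 0 < η) :
    Tendsto (fun n : ℕ => joint (μ n) (σ n) (w n) {p | n * (v + η) < S n p}) atTop (𝓝 0) := by
  obtain ⟨s, hs, hd⟩ := hder (η / 2) (half_pos hη)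
  obtain ⟨C1, hC1, hv1⟩ := hvar s
  obtain ⟨C0, hC0, hv0⟩ := hvar 0
  have hbound : ∀ᶠ n : ℕ in atTop, joint (μ n) (σ n) (w n) {p | n * (v + η) < S n p} ≤
      ENNReal.ofReal (Real.exp (-(n * (s * η / 4)))) +
      (ENNReal.ofReal ((C1 + C0) / ((s * η / 8) ^ 2 * n))) := by
    filter_upwards [hd, hv1, hv0, hμ, hw, eventually_gt_atTop 0] with
      n hdn h1n h0n hμn hwn hn
    have hnR : (0 : ℝ) < n := by exact_mod_cast hn
    have hSb' : ∀ ω, ∃ K : ℝ, ∀ y, |S n (ω, y)| ≤ K := fun ω => by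
      obtain ⟨K, hK⟩ := hSb n
      exact ⟨K, fun y => hK _⟩
    refine (joint_dev (μ := μ n) (σ := σ n) hwn (hS n) hSb' (n * (v + η)) s
      (s * (n * (v + η)) - n * (s * η / 4)) hs.le).trans ?_
    refine add_le_add (le_of_eq ?_) ?_
    · congr 2
      ring
    set f1 : Ω n → ℝ := LT (σ n) (w n) (S n) s with hf1
    set f0 : Ω n → ℝ := LT (σ n) (w n) (S n) 0 with hf0
    have hf1m : Measurable f1 := measurable_LT hwn (hS n) s
    have hf0m : Measurable f0 := measurable_LT hwn (hS n) 0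
    have hr : (0 : ℝ) < n * (s * η / 8) := by positivity
    have hsub : {ω | s * (n * (v + η)) - n * (s * η / 4) <
        Real.log ((∫ y, Real.exp (s * S n (ω, y)) * w n ω y ∂(σ n)) / ∫ y, w n ω y ∂(σ n))} ⊆
        {A | n * (s * η / 8) ≤ |f1 A - ∫ A', f1 A' ∂(μ n)|} ∪
        {A | n * (s * η / 8) ≤ |f0 A - ∫ A', f0 A' ∂(μ n)|} := by
      intro A hA
      by_contra hcon
      simp only [Set.mem_union, Set.mem_ofPred_eq, not_or, not_le] at hcon
      obtain ⟨ha, hb⟩ := hcon
      have ha' := (abs_lt.1 ha).2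
      have hb' := (abs_lt.1 hb).1
      simp only [Set.mem_ofPred_eq] at hA
      rw [LT_sub hwn (hS n) (hSb n) s A] at hA
      change _ < f1 A - f0 A at hA
      have h3 : (n : ℝ) * (s * (v + η / 2)) = s * (n * (v + η)) - n * (s * η / 2) := by ring
      nlinarith
    calc μ n {ω | s * (n * (v + η)) - n * (s * η / 4) <
        Real.log ((∫ y, Real.exp (s * S n (ω, y)) * w n ω y ∂(σ n)) / ∫ y, w n ω y ∂(σ n))}
        ≤ μ n {A | n * (s * η / 8) ≤ |f1 A - ∫ A', f1 A' ∂(μ n)|} +
          μ n {A | n * (s * η / 8) ≤ |f0 A - ∫ A', f0 A' ∂(μ n)|} :=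
          (measure_mono hsub).trans (measure_union_le _ _)
      _ ≤ ENNReal.ofReal (C1 * n / (n * (s * η / 8)) ^ 2) +
          ENNReal.ofReal (C0 * n / (n * (s * η / 8)) ^ 2) :=
          add_le_add (cheb_dvar hf1m (by positivity) h1n hr)
            (cheb_dvar hf0m (by positivity) h0n hr)
      _ = ENNReal.ofReal ((C1 + C0) / ((s * η / 8) ^ 2 * n)) := by
          rw [← ENNReal.ofReal_add (by positivity) (by positivity)]
          congr 1
          field_simp
  have hlim : Tendsto (fun n : ℕ => ENNReal.ofReal (Real.exp (-(n * (s * η / 4)))) +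
      (ENNReal.ofReal ((C1 + C0) / ((s * η / 8) ^ 2 * n)))) atTop (𝓝 0) := by
    have hn : Tendsto (fun n : ℕ => (n : ℝ)) atTop atTop := tendsto_natCast_atTop_atTop
    have h1 : Tendsto (fun n : ℕ => Real.exp (-(n * (s * η / 4)))) atTop (𝓝 0) := by
      apply Real.tendsto_exp_neg_atTop_nhds_zero.comp
      exact hn.atTop_mul_const (by positivity)
    have h2 : Tendsto (fun n : ℕ => (C1 + C0) / ((s * η / 8) ^ 2 * n)) atTop (𝓝 0) := by
      apply Tendsto.div_atTop tendsto_const_nhds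
      exact hn.const_mul_atTop (by positivity)
    have h3 := (ENNReal.tendsto_ofReal h1).add (ENNReal.tendsto_ofReal h2)
    simpa using h3
  exact tendsto_of_tendsto_of_tendsto_of_le_of_le' tendsto_const_nhds hlim
    (Eventually.of_forall fun _ => zero_le) hbound

lemma LT_neg {Ω Y : Type*} [MeasurableSpace Ω] [MeasurableSpace Y] (σ : Measure Y)
    (w : Ω → Y → ℝ) (S : Ω × Y → ℝ) (t : ℝ) :
    LT σ w (fun p => - S p) t = LT σ w S (-t) := by
  funext ω
  unfold LT
  simp only [mul_neg, neg_mul]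


end asym

end Crest.Agent.R146.ObsB_548
end

-- ▼ part R146/ObsC_548
section

/-!
# R146, node OBS-1 (helper548), part C: the literal objects

`tp_row_observable`: if the perturbed pressures converge near `0` and the limit is differentiable
at `0` with derivative `α v`, then `M⁻¹ ∑ ψ(gap)` converges to `v` in probability under the joint
law of the disorder and of the Gibbs configuration.
-/

set_option autoImplicit false
set_option linter.unusedSectionVars false

open MeasureTheory ProbabilityTheory Filter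
open scoped ENNReal NNReal Topology
open Crest.ProbabilityR.Perceptron
open Crest.Agent.R146.Obs918 Crest.Agent.R146.ObsA_548 Crest.Agent.R146.ObsB_548
open Crest.Agent.R146.RepairLaw_840

namespace Crest.Agent.R146.ObsC_548

/-! ### fourth moments of a row field -/

lemma pow_four_le (x : ℝ) : x ^ 4 ≤ 24 * (Real.exp x + Real.exp (-x)) := by
  have h1 : |x| ^ 4 / (Nat.factorial 4 : ℝ) ≤ Real.exp |x| :=
    Real.pow_div_factorial_le_exp |x| (abs_nonneg x) 4
  have h2 : Real.exp |x| ≤ Real.exp x + Real.exp (-x) := by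
    rcases abs_cases x with ⟨h, _⟩ | ⟨h, _⟩
    · rw [h]; linarith [Real.exp_pos (-x)]
    · rw [h]; linarith [Real.exp_pos x]
  have h3 : |x| ^ 4 = x ^ 4 := by
    rw [show (4 : ℕ) = 2 * 2 by norm_num, pow_mul, sq_abs, ← pow_mul]
  rw [h3] at h1
  have h4 : (Nat.factorial 4 : ℝ) = 24 := by norm_num [Nat.factorial]
  rw [h4] at h1
  linarith

lemma lintegral_lin_four {κ : Type*} [Fintype κ] {ν : Measure ℝ} (h : Good ν) (l : κ → ℝ)
    (hl : ∑ a, l a ^ 2 ≤ 1) :
    ∫⁻ x, ENNReal.ofReal (lin l x ^ 4) ∂(Measure.pi fun _ : κ => ν) ≤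
      ENNReal.ofReal (48 * Real.exp 1) := by
  have hp := h.prob
  have hs := subG_lin h l hl
  have hi1 : Integrable (fun x => Real.exp (lin l x)) (Measure.pi fun _ : κ => ν) := by
    simpa using hs.integrable_exp_mul 1
  have hi2 : Integrable (fun x => Real.exp (-lin l x)) (Measure.pi fun _ : κ => ν) := by
    simpa using hs.integrable_exp_mul (-1)
  have hm1 : ∫ x, Real.exp (lin l x) ∂(Measure.pi fun _ : κ => ν) ≤ Real.exp 1 := by
    have := hs.mgf_le 1
    simpa [mgf] using this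
  have hm2 : ∫ x, Real.exp (-lin l x) ∂(Measure.pi fun _ : κ => ν) ≤ Real.exp 1 := by
    have := hs.mgf_le (-1)
    simpa [mgf] using this
  calc ∫⁻ x, ENNReal.ofReal (lin l x ^ 4) ∂(Measure.pi fun _ : κ => ν)
      ≤ ∫⁻ x, ENNReal.ofReal (24 * (Real.exp (lin l x) + Real.exp (-lin l x)))
          ∂(Measure.pi fun _ : κ => ν) :=
        lintegral_mono fun x => ENNReal.ofReal_le_ofReal (pow_four_le _)
    _ = ENNReal.ofReal (∫ x, 24 * (Real.exp (lin l x) + Real.exp (-lin l x))
          ∂(Measure.pi fun _ : κ => ν)) := by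
        have hi3 : Integrable (fun x => 24 * (Real.exp (lin l x) + Real.exp (-lin l x)))
            (Measure.pi fun _ : κ => ν) := (hi1.add hi2).const_mul 24
        rw [ofReal_integral_eq_lintegral_ofReal hi3]
        exact Eventually.of_forall fun x => by positivity
    _ ≤ ENNReal.ofReal (48 * Real.exp 1) := by
        apply ENNReal.ofReal_le_ofReal
        rw [integral_const_mul, integral_add hi1 hi2]
        linarith

/-! ### the potential of a row -/

/-- the potential of a row as a function of the gap -/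
noncomputable def Fp (β s : ℝ) (ψ : ℝ → ℝ) (g : ℝ) : ℝ := -β * (1 / 2 * max (-g) 0 ^ 2) + s * ψ g

lemma measurable_Fp (β s : ℝ) {ψ : ℝ → ℝ} (hψ : Measurable ψ) : Measurable (Fp β s ψ) := by
  unfold Fp
  fun_prop

lemma Fp_le {β : ℝ} (hβ : 0 ≤ β) (s : ℝ) {ψ : ℝ → ℝ} {K : ℝ} (hK : ∀ x, |ψ x| ≤ K) (g : ℝ) :
    Fp β s ψ g ≤ |s| * K := by
  unfold Fp
  have h1 : s * ψ g ≤ |s| * K := by
    calc s * ψ g ≤ |s * ψ g| := le_abs_self _
      _ = |s| * |ψ g| := abs_mul _ _
      _ ≤ |s| * K := mul_le_mul_of_nonneg_left (hK g) (abs_nonneg _)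
  have h2 : 0 ≤ β * (1 / 2 * max (-g) 0 ^ 2) := by positivity
  linarith

lemma Fp_sq_le (β s : ℝ) {ψ : ℝ → ℝ} {K : ℝ} (hK : ∀ x, |ψ x| ≤ K) (X : ℝ) :
    Fp β s ψ (1 + X) ^ 2 ≤ β ^ 2 / 2 * X ^ 4 + 2 * (s ^ 2 * K ^ 2) := by
  unfold Fp
  set m := max (-(1 + X)) 0 with hm
  have h0 : 0 ≤ m := le_max_right _ _
  have h1 : m ≤ |X| := by
    rw [hm]
    apply max_le
    · have := neg_le_abs X
      linarith
    · exact abs_nonneg X
  have h2 : m ^ 4 ≤ X ^ 4 := by
    have h3 : |X| ^ 4 = X ^ 4 := by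
      rw [show (4 : ℕ) = 2 * 2 by norm_num, pow_mul, sq_abs, ← pow_mul]
    rw [← h3]
    exact pow_le_pow_left₀ h0 h1 4
  have h4 : ψ (1 + X) ^ 2 ≤ K ^ 2 := by
    rw [← sq_abs (ψ (1 + X))]
    exact pow_le_pow_left₀ (abs_nonneg _) (hK _) 2
  have h5 : (-β * (1 / 2 * m ^ 2) + s * ψ (1 + X)) ^ 2 ≤
      2 * (β * (1 / 2 * m ^ 2)) ^ 2 + 2 * (s * ψ (1 + X)) ^ 2 := by
    nlinarith [sq_nonneg (β * (1 / 2 * m ^ 2) + s * ψ (1 + X))]
  have h6 : 2 * (β * (1 / 2 * m ^ 2)) ^ 2 = β ^ 2 / 2 * m ^ 4 := by ring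
  have h7 : 2 * (s * ψ (1 + X)) ^ 2 = 2 * (s ^ 2 * ψ (1 + X) ^ 2) := by ring
  rw [h6, h7] at h5
  have h8 : β ^ 2 / 2 * m ^ 4 ≤ β ^ 2 / 2 * X ^ 4 :=
    mul_le_mul_of_nonneg_left h2 (by positivity)
  have h9 : s ^ 2 * ψ (1 + X) ^ 2 ≤ s ^ 2 * K ^ 2 :=
    mul_le_mul_of_nonneg_left h4 (sq_nonneg s)
  linarith

/-! ### the sphere -/

/-- the field of a row at a configuration, as a gap -/
noncomputable def tg (N : ℕ) (x : Fin N → ℝ) (y : UnitSphere N) : ℝ :=
  1 + ∑ i, x i * (y : EuclideanSpace ℝ (Fin N)) i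

lemma measurable_tg (N : ℕ) : Measurable (Function.uncurry (tg N)) := by
  unfold tg Function.uncurry
  refine measurable_const.add (Finset.measurable_sum _ fun i _ => ?_)
  refine Measurable.mul ((measurable_pi_apply i).comp measurable_fst) ?_
  have h1 : Continuous fun y : UnitSphere N => (y : EuclideanSpace ℝ (Fin N)) i := by fun_prop
  exact h1.measurable.comp measurable_snd

lemma tg_eq (N : ℕ) (x : Fin N → ℝ) (y : UnitSphere N) :
    tg N x y = 1 + lin (fun i => (y : EuclideanSpace ℝ (Fin N)) i) x := by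
  unfold tg lin
  congr 1
  exact Finset.sum_congr rfl fun i _ => mul_comm _ _

lemma sum_coord_sq {N : ℕ} (y : UnitSphere N) :
    ∑ i, (y : EuclideanSpace ℝ (Fin N)) i ^ 2 = 1 := by
  have h : ‖(y : EuclideanSpace ℝ (Fin N))‖ = 1 := by simp
  have h2 := EuclideanSpace.norm_sq_eq (y : EuclideanSpace ℝ (Fin N))
  rw [h] at h2
  simp only [Real.norm_eq_abs, sq_abs, one_pow] at h2
  exact h2.symm

lemma finite_sphere (N : ℕ) : IsFiniteMeasure (sphereLaw N) := by
  unfold sphereLaw; infer_instance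

lemma sphere_univ_ne_zero {N : ℕ} (hN : 0 < N) : sphereLaw N Set.univ ≠ 0 := by
  have : Nonempty (Fin N) := ⟨⟨0, hN⟩⟩
  unfold sphereLaw
  rw [Measure.toSphere_apply_univ]
  have h1 : (Module.finrank ℝ (EuclideanSpace ℝ (Fin N)) : ℝ≥0∞) ≠ 0 := by
    simp [hN.ne']
  have h2 : (volume : Measure (EuclideanSpace ℝ (Fin N)))
      (Metric.ball (0 : EuclideanSpace ℝ (Fin N)) 1) ≠ 0 :=
    (Metric.measure_ball_pos _ _ one_pos).ne'
  exact mul_ne_zero h1 h2

/-- the normalised sphere law -/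
noncomputable def us (N : ℕ) : Measure (UnitSphere N) := (sphereLaw N Set.univ)⁻¹ • sphereLaw N

lemma isProb_us {N : ℕ} (hN : 0 < N) : IsProbabilityMeasure (us N) := by
  have := finite_sphere N
  refine ⟨?_⟩
  unfold us
  rw [Measure.smul_apply, smul_eq_mul]
  exact ENNReal.inv_mul_cancel (sphere_univ_ne_zero hN) (measure_ne_top _ _)

lemma integral_us (N : ℕ) (g : UnitSphere N → ℝ) :
    ∫ y, g y ∂(us N) = (∫ y, g y ∂(sphereLaw N)) / (sphereLaw N).real Set.univ := by
  unfold us
  rw [integral_smul_measure, ENNReal.toReal_inv, smul_eq_mul, measureReal_def]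
  field_simp

/-- the second moment of the potential of a row -/
lemma row_second_moment {ν : Measure ℝ} (h : Good ν) (N : ℕ) {β s K : ℝ} {ψ : ℝ → ℝ}
    (hK : ∀ x, |ψ x| ≤ K) (y : UnitSphere N) :
    ∫⁻ x, ENNReal.ofReal (Fp β s ψ (tg N x y) ^ 2) ∂(Measure.pi fun _ : Fin N => ν) ≤
      ENNReal.ofReal (β ^ 2 / 2 * (48 * Real.exp 1) + 2 * (s ^ 2 * K ^ 2)) := by
  have hp := h.prob
  set l : Fin N → ℝ := fun i => (y : EuclideanSpace ℝ (Fin N)) i with hl
  have h4 := lintegral_lin_four h l (sum_coord_sq y).le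
  have hm : Measurable fun x : Fin N → ℝ => ENNReal.ofReal (lin l x ^ 4) :=
    ((measurable_lin l).pow_const 4).ennreal_ofReal
  calc ∫⁻ x, ENNReal.ofReal (Fp β s ψ (tg N x y) ^ 2) ∂(Measure.pi fun _ : Fin N => ν)
      ≤ ∫⁻ x, (ENNReal.ofReal (β ^ 2 / 2) * ENNReal.ofReal (lin l x ^ 4) +
          ENNReal.ofReal (2 * (s ^ 2 * K ^ 2))) ∂(Measure.pi fun _ : Fin N => ν) := by
        refine lintegral_mono fun x => ?_
        rw [tg_eq, ← ENNReal.ofReal_mul (by positivity), ← ENNReal.ofReal_add (by positivity)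
          (by positivity)]
        exact ENNReal.ofReal_le_ofReal (Fp_sq_le β s hK _)
    _ = ENNReal.ofReal (β ^ 2 / 2) * ∫⁻ x, ENNReal.ofReal (lin l x ^ 4)
          ∂(Measure.pi fun _ : Fin N => ν) + ENNReal.ofReal (2 * (s ^ 2 * K ^ 2)) := by
        rw [lintegral_add_right _ measurable_const, lintegral_const_mul _ hm]
        simp
    _ ≤ ENNReal.ofReal (β ^ 2 / 2) * ENNReal.ofReal (48 * Real.exp 1) +
          ENNReal.ofReal (2 * (s ^ 2 * K ^ 2)) := by gcongr
    _ = _ := by
        rw [← ENNReal.ofReal_mul (by positivity), ← ENNReal.ofReal_add (by positivity)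
          (by positivity)]

/-! ### the literal system -/

/-- the Gibbs weight -/
noncomputable def wg (N : ℕ) (α β : ℝ) (A : Patterns N α) (y : UnitSphere N) : ℝ :=
  Real.exp (-β * penaltyEnergy A y)

/-- the row observable -/
noncomputable def So (N : ℕ) (α : ℝ) (ψ : ℝ → ℝ) (q : Patterns N α × UnitSphere N) : ℝ :=
  ∑ μ, ψ (gap q.1 q.2 μ)

lemma gap_eq {N : ℕ} {α : ℝ} (A : Patterns N α) (y : UnitSphere N) (μ : Fin (numPatterns N α)) :
    gap A y μ = tg N (fun i => A (μ, i)) y := rfl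

lemma measurable_gap (N : ℕ) (α : ℝ) (μ : Fin (numPatterns N α)) :
    Measurable fun q : Patterns N α × UnitSphere N => gap q.1 q.2 μ := by
  have h1 : Measurable fun q : Patterns N α × UnitSphere N => (fun i => q.1 (μ, i)) := by
    fun_prop
  exact (measurable_tg N).comp (h1.prodMk measurable_snd)

lemma measurable_So (N : ℕ) (α : ℝ) {ψ : ℝ → ℝ} (hψ : Measurable ψ) : Measurable (So N α ψ) := by
  unfold So
  exact Finset.measurable_sum _ fun μ _ => hψ.comp (measurable_gap N α μ)

lemma So_bdd (N : ℕ) (α : ℝ) {ψ : ℝ → ℝ} {K : ℝ} (hK : ∀ x, |ψ x| ≤ K)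
    (q : Patterns N α × UnitSphere N) : |So N α ψ q| ≤ numPatterns N α * K := by
  unfold So
  calc |∑ μ, ψ (gap q.1 q.2 μ)| ≤ ∑ μ, |ψ (gap q.1 q.2 μ)| := Finset.abs_sum_le_sum_abs _ _
    _ ≤ ∑ _μ : Fin (numPatterns N α), K := Finset.sum_le_sum fun μ _ => hK _
    _ = numPatterns N α * K := by simp

lemma measurable_penalty (N : ℕ) (α : ℝ) :
    Measurable fun q : Patterns N α × UnitSphere N => penaltyEnergy q.1 q.2 := by
  unfold penaltyEnergy
  refine Finset.measurable_sum _ fun μ _ => ?_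
  exact measurable_const.mul (((measurable_gap N α μ).neg.max measurable_const).pow_const 2)

lemma penalty_nonneg {N : ℕ} {α : ℝ} (A : Patterns N α) (y : UnitSphere N) :
    0 ≤ penaltyEnergy A y := by
  unfold penaltyEnergy
  exact Finset.sum_nonneg fun μ _ => by positivity

lemma goodWeight {N : ℕ} (hN : 0 < N) (α : ℝ) {β : ℝ} (hβ : 0 ≤ β) :
    GoodWeight (sphereLaw N) (wg N α β) := by
  refine ⟨?_, fun A y => Real.exp_pos _, fun A => ⟨1, fun y => ?_⟩, fun h => ?_⟩
  · have : Measurable fun q : Patterns N α × UnitSphere N =>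
        Real.exp (-β * penaltyEnergy q.1 q.2) :=
      Real.measurable_exp.comp (measurable_const.mul (measurable_penalty N α))
    exact this
  · unfold wg
    rw [Real.exp_le_one_iff]
    have := penalty_nonneg A y
    nlinarith
  · exact sphere_univ_ne_zero hN (by rw [h]; simp)

/-- the tilted partition function of the literal system is the abstract one -/
lemma tilt_eq (N : ℕ) (α β s : ℝ) (ψ : ℝ → ℝ) (A : Patterns N α) (y : UnitSphere N) :
    Real.exp (s * So N α ψ (A, y)) * wg N α β A y =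
      Real.exp (V (Fp β s ψ) (tg N) (fun μ i => A (μ, i)) y) := by
  unfold wg So V Fp penaltyEnergy
  rw [← Real.exp_add]
  congr 1
  rw [Finset.sum_add_distrib, Finset.mul_sum, Finset.mul_sum]
  simp only [gap_eq]
  ring

lemma LT_eq (N : ℕ) (α β s : ℝ) (ψ : ℝ → ℝ) (A : Patterns N α) :
    LT (sphereLaw N) (wg N α β) (So N α ψ) s A =
      Real.log (Z (us N) (Fp β s ψ) (tg N) (fun μ i => A (μ, i))) := by
  unfold ObsB_548.LT Z
  rw [integral_us]
  simp only [tilt_eq]

/-- the literal variance bound, for every good entry law -/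
theorem dvar_LT_le {ν : Measure ℝ} (h : Good ν) {N : ℕ} (hN : 0 < N) (α : ℝ) {β : ℝ}
    (hβ : 0 ≤ β) (s : ℝ) {ψ : ℝ → ℝ} (hψ : Measurable ψ) {K : ℝ} (hK0 : 0 ≤ K)
    (hK : ∀ x, |ψ x| ≤ K) :
    R151.V.dvar (Measure.pi fun _ : Fin (numPatterns N α) × Fin N => ν)
      (LT (sphereLaw N) (wg N α β) (So N α ψ) s) ≤
      ENNReal.ofReal ((4 * ((|s| * K) ^ 2 + (β ^ 2 / 2 * (48 * Real.exp 1) +
        2 * (s ^ 2 * K ^ 2)))) * numPatterns N α) := by
  have hp := h.prob
  have := isProb_us hN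
  have hFm := measurable_Fp β s hψ
  have h1 := dvar_log_Z_le (ι := Fin (numPatterns N α)) (σ := us N) (K := |s| * K) hFm
    (measurable_tg N) (by positivity) (Fp_le hβ s hK) (Measure.pi fun _ : Fin N => ν)
    (row_second_moment h N hK)
  have hm : Measurable fun A : Fin (numPatterns N α) → Fin N → ℝ =>
      Real.log (Z (us N) (Fp β s ψ) (tg N) A) := (measurable_Z hFm (measurable_tg N)).log
  have hmp := R141.U.measurePreserving_curry (ι := Fin (numPatterns N α)) (κ := Fin N) ν
  rw [R151.V.dvar_map hmp hm] at h1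
  have heq : (fun A : Fin (numPatterns N α) × Fin N → ℝ =>
      Real.log (Z (us N) (Fp β s ψ) (tg N) (MeasurableEquiv.curry _ _ _ A))) =
      LT (sphereLaw N) (wg N α β) (So N α ψ) s := by
    funext A
    rw [LT_eq]
    rfl
  rw [heq] at h1
  refine h1.trans (le_of_eq ?_)
  rw [← ENNReal.ofReal_add (by positivity) (by positivity),
    show (4 : ℝ≥0∞) = ENNReal.ofReal 4 by simp, ← ENNReal.ofReal_mul (by norm_num),
    Fintype.card_fin, show ((numPatterns N α : ℕ) : ℝ≥0∞) = ENNReal.ofReal (numPatterns N α) by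
      rw [ENNReal.ofReal_natCast], ← ENNReal.ofReal_mul (by positivity)]
  congr 1
  ring

/-- the literal perturbed pressure (row observable `ψ`, strength `h`) -/
noncomputable def pertPressure (N : ℕ) (α β : ℝ) (ψ : ℝ → ℝ) (h : ℝ) (A : Patterns N α) : ℝ :=
  Real.log ((∫ y, Real.exp (-β * penaltyEnergy A y + h * ∑ μ, ψ (gap A y μ)) ∂sphereLaw N) /
    (sphereLaw N).real Set.univ) / N

lemma pertPressure_eq (N : ℕ) (α β : ℝ) (ψ : ℝ → ℝ) (h : ℝ) (A : Patterns N α) :
    pertPressure N α β ψ h A = LT (sphereLaw N) (wg N α β) (So N α ψ) h A / N := by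
  unfold pertPressure ObsB_548.LT wg So
  have hfun : (fun y : UnitSphere N => Real.exp (-β * penaltyEnergy A y +
      h * ∑ μ, ψ (gap A y μ))) = fun y : UnitSphere N =>
      Real.exp (h * ∑ μ, ψ (gap A y μ)) * Real.exp (-β * penaltyEnergy A y) := by
    funext y
    rw [Real.exp_add, mul_comm]
  rw [hfun]


lemma tendsto_numPatterns_div (α : ℝ) (hα : 0 ≤ α) :
    Tendsto (fun N : ℕ => (numPatterns N α : ℝ) / N) atTop (𝓝 α) := by
  have h := (tendsto_nat_floor_mul_div_atTop hα).comp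
    (tendsto_natCast_atTop_atTop (R := ℝ))
  exact h

lemma tp_seq {Ω : ℕ → Type*} [∀ n, MeasurableSpace (Ω n)] (Q : ∀ n, Measure (Ω n)) {a : ℕ → ℝ}
    {c : ℝ} (ha : Tendsto a atTop (𝓝 c)) : TP Q (fun n _ => a n) c := by
  refine TP.of_subset fun η hη => ⟨fun _ => ∅, by simp, ?_⟩
  filter_upwards [(Metric.tendsto_nhds.1 ha) η hη] with n hn q hq
  rw [Real.dist_eq] at hn
  exact absurd hq (not_lt.2 hn.le)






end Crest.Agent.R146.ObsC_548
end

-- ▼ part R146/NLevA_918
section

/-!
Row 146, node NLEV, part A (helper918): from smooth test functions to bounded continuous ones.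

* `Test.*` closure properties of `P34_734.Test`;
* `exists_test_above` : one-sided approximation of a bounded continuous function by a test function
  in `L¹(ν)`;
* `tp_ext` : convergence in probability of the empirical averages of test functions implies the
  same for every bounded continuous function.
-/

set_option linter.unusedSectionVars false

namespace Crest.Agent.R146.NLev918

open MeasureTheory Filter Topology
open Crest.ProbabilityR.Perceptron
open Crest.Agent.R146.Obs918 (TP joint emp)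
open Crest.Agent.R146.P34_734 (Test)

/-! ### Test functions -/

lemma Test.measurable {ψ : ℝ → ℝ} (h : Test ψ) : Measurable ψ :=
  (h.smooth 0).continuous.measurable

lemma Test.continuous {ψ : ℝ → ℝ} (h : Test ψ) : Continuous ψ := (h.smooth 0).continuous

lemma Test.bdd {ψ : ℝ → ℝ} (h : Test ψ) : ∃ K, ∀ x, |ψ x| ≤ K := by
  simpa using h.bd 0

lemma Test.of_compact {f : ℝ → ℝ} (hf : ∀ n : ℕ, ContDiff ℝ n f) (hc : HasCompactSupport f) :
    Test f where
  smooth := hf
  bd := by
    intro n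
    have h1 : Continuous (iteratedFDeriv ℝ n f) := (hf n).continuous_iteratedFDeriv le_rfl
    obtain ⟨C, hC⟩ := h1.bounded_above_of_compact_support (hc.iteratedFDeriv n)
    refine ⟨C, fun x => ?_⟩
    rw [← Real.norm_eq_abs, ← norm_iteratedFDeriv_eq_norm_iteratedDeriv]
    exact hC x

lemma Test.add_const {f : ℝ → ℝ} (hf : Test f) (c : ℝ) : Test fun x => c + f x where
  smooth := fun n => contDiff_const.add (hf.smooth n)
  bd := by
    intro n
    obtain ⟨C, hC⟩ := hf.bd n
    rcases Nat.eq_zero_or_pos n with rfl | hn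
    · refine ⟨|c| + C, fun x => ?_⟩
      have := hC x
      rw [iteratedDeriv_zero] at this ⊢
      exact (abs_add_le _ _).trans (add_le_add le_rfl this)
    · refine ⟨C, fun x => ?_⟩
      have : iteratedDeriv n (fun x => c + f x) x = iteratedDeriv n f x :=
        iteratedDeriv_const_add hn c
      rw [this]
      exact hC x

lemma Test.neg {f : ℝ → ℝ} (hf : Test f) : Test fun x => -f x where
  smooth := fun n => (hf.smooth n).neg
  bd := by
    intro n
    obtain ⟨C, hC⟩ := hf.bd n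
    refine ⟨C, fun x => ?_⟩
    have h1 : iteratedDeriv n (fun x => -f x) x = -iteratedDeriv n f x := by
      have := iteratedDeriv_neg n f x
      exact this
    rw [h1, abs_neg]
    exact hC x

lemma Test.shift {f : ℝ → ℝ} (hf : Test f) (c : ℝ) : Test fun x => f (c + x) where
  smooth := fun n => (hf.smooth n).comp (contDiff_const.add contDiff_id)
  bd := by
    intro n
    obtain ⟨C, hC⟩ := hf.bd n
    refine ⟨C, fun x => ?_⟩
    have h1 := congrFun (iteratedDeriv_comp_const_add n f c) x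
    rw [h1]
    exact hC _

/-! ### Approximation from above -/

lemma exists_radius (ν : Measure ℝ) [IsProbabilityMeasure ν] {e : ℝ} (he : 0 < e) :
    ∃ R : ℝ, 0 < R ∧ ν.real {x : ℝ | R < |x|} ≤ e := by
  have h1 : Tendsto (fun n : ℕ => ν {x : ℝ | (n : ℝ) < |x|}) atTop
      (𝓝 (ν (⋂ n : ℕ, {x : ℝ | (n : ℝ) < |x|}))) := by
    refine tendsto_measure_iInter_atTop (fun n => ?_) ?_ ⟨0, measure_ne_top _ _⟩
    · exact (measurableSet_lt measurable_const measurable_norm).nullMeasurableSet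
    · intro n m hnm x hx
      have h2 : (n : ℝ) ≤ m := by exact_mod_cast hnm
      exact lt_of_le_of_lt h2 hx
  have h2 : (⋂ n : ℕ, {x : ℝ | (n : ℝ) < |x|}) = ∅ := by
    ext x
    simp only [Set.mem_iInter, Set.mem_ofPred_eq, Set.mem_empty_iff_false, iff_false, not_forall,
      not_lt]
    exact exists_nat_ge |x|
  rw [h2, measure_empty] at h1
  have h3 : Tendsto (fun n : ℕ => ν.real {x : ℝ | (n : ℝ) < |x|}) atTop (𝓝 0) := by
    have h4 := (ENNReal.tendsto_toReal ENNReal.zero_ne_top).comp h1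
    rw [ENNReal.toReal_zero] at h4
    exact h4
  obtain ⟨n, hn, hn1⟩ := (((tendsto_order.1 h3).2 e he).and (eventually_gt_atTop 0)).exists
  exact ⟨n, by exact_mod_cast hn1, hn.le⟩

lemma exists_test_above {ψ : ℝ → ℝ} (hψ : Continuous ψ) {K : ℝ} (hK : ∀ x, |ψ x| ≤ K)
    (ν : Measure ℝ) [IsProbabilityMeasure ν] {η : ℝ} (hη : 0 < η) :
    ∃ u : ℝ → ℝ, Test u ∧ (∀ x, ψ x ≤ u x) ∧ ∫ x, u x ∂ν ≤ ∫ x, ψ x ∂ν + η := by
  have hK0 : 0 ≤ K := (abs_nonneg _).trans (hK 0)
  obtain ⟨R, hR, hRν⟩ := exists_radius ν (e := η / (4 * (K + 1))) (by positivity)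
  obtain ⟨g, hg⟩ := exists_polynomial_near_of_continuousOn (-(R + 1)) (R + 1) ψ hψ.continuousOn
    (η / 8) (by positivity)
  let χ : ContDiffBump (0 : ℝ) := ⟨R, R + 1, hR, by linarith⟩
  have hχ0 : ∀ x, 0 ≤ χ x := fun x => χ.nonneg
  have hχ1 : ∀ x, χ x ≤ 1 := fun x => χ.le_one
  have hχin : ∀ x, |x| ≤ R → χ x = 1 := by
    intro x hx
    refine χ.one_of_mem_closedBall ?_
    rw [Metric.mem_closedBall, Real.dist_eq, sub_zero]
    exact hx
  have hχout : ∀ x, R + 1 < |x| → χ x = 0 := by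
    intro x hx
    refine χ.zero_of_le_dist ?_
    rw [Real.dist_eq, sub_zero]
    exact hx.le
  set f : ℝ → ℝ := fun x => (g.eval x - K) * χ x with hf
  have hfc : HasCompactSupport f := χ.hasCompactSupport.mul_left
  have hfs : ∀ n : ℕ, ContDiff ℝ n f := by
    intro n
    refine ContDiff.mul (ContDiff.sub ?_ contDiff_const) χ.contDiff
    have := Polynomial.contDiff_aeval (R := ℝ) (𝕜 := ℝ) g n
    simpa [Polynomial.aeval_def, Polynomial.eval₂_eq_eval_map] using this
  have hT : Test fun x => (K + η / 8) + f x := Test.add_const (Test.of_compact hfs hfc) _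
  refine ⟨_, hT, ?_, ?_⟩
  · intro x
    have hx := abs_le.1 (hK x)
    by_cases h : |x| ≤ R + 1
    · have h1 := hg x (abs_le.1 h)
      have h2 := abs_lt.1 h1
      have h3 : 0 ≤ (1 - χ x) * (K - ψ x) := mul_nonneg (by linarith [hχ1 x]) (by linarith)
      have h4 : -(η / 8) ≤ χ x * (g.eval x - ψ x) := by
        nlinarith [hχ0 x, hχ1 x]
      simp only [hf]
      nlinarith
    · simp only [hf, hχout x (not_le.1 h)]
      linarith
  · have hup : ∀ x, (K + η / 8) + f x ≤ ψ x + (η / 4 + 2 * K *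
        ({x : ℝ | R < |x|} : Set ℝ).indicator (fun _ => (1 : ℝ)) x) := by
      intro x
      have hx := abs_le.1 (hK x)
      by_cases h : |x| ≤ R
      · have h0 : x ∉ {x : ℝ | R < |x|} := not_lt.2 h
        have h1 := hg x (abs_le.1 (h.trans (by linarith)))
        have h2 := abs_lt.1 h1
        rw [Set.indicator_of_notMem h0]
        simp only [hf, hχin x h]
        linarith
      · have h0 : x ∈ {x : ℝ | R < |x|} := not_le.1 h
        rw [Set.indicator_of_mem h0]
        by_cases h' : |x| ≤ R + 1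
        · have h1 := hg x (abs_le.1 h')
          have h2 := abs_lt.1 h1
          have h3 : (g.eval x - K) * χ x ≤ η / 8 := by
            nlinarith [hχ0 x, hχ1 x]
          simp only [hf]
          linarith
        · simp only [hf, hχout x (not_le.1 h')]
          linarith
    have hms : MeasurableSet {x : ℝ | R < |x|} := measurableSet_lt measurable_const measurable_norm
    have hi1 : Integrable (fun x => (K + η / 8) + f x) ν := by
      obtain ⟨C, hC⟩ := Test.bdd hT
      exact Integrable.of_bound (Test.measurable hT).aestronglyMeasurable C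
        (Eventually.of_forall fun x => hC x)
    have hi2 : Integrable ψ ν := Integrable.of_bound hψ.measurable.aestronglyMeasurable K
      (Eventually.of_forall fun x => hK x)
    have hi3 : Integrable (fun x => 2 * K *
        ({x : ℝ | R < |x|} : Set ℝ).indicator (fun _ => (1 : ℝ)) x) ν :=
      ((integrable_const (1 : ℝ)).indicator hms).const_mul _
    calc ∫ x, ((K + η / 8) + f x) ∂ν ≤ ∫ x, (ψ x + (η / 4 + 2 * K *
          ({x : ℝ | R < |x|} : Set ℝ).indicator (fun _ => (1 : ℝ)) x)) ∂ν :=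
          integral_mono hi1 (hi2.add ((integrable_const _).add hi3)) hup
      _ = ∫ x, ψ x ∂ν + (η / 4 + 2 * K * ν.real {x : ℝ | R < |x|}) := by
          have e1 : ∫ x, (ψ x + (η / 4 + 2 * K *
              ({x : ℝ | R < |x|} : Set ℝ).indicator (fun _ => (1 : ℝ)) x)) ∂ν
              = ∫ x, ψ x ∂ν + ∫ x, (η / 4 + 2 * K *
              ({x : ℝ | R < |x|} : Set ℝ).indicator (fun _ => (1 : ℝ)) x) ∂ν :=
            integral_add hi2 ((integrable_const _).add hi3)
          rw [e1, integral_add (integrable_const _) hi3, integral_const, integral_const_mul,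
            integral_indicator_const _ hms]
          simp
      _ ≤ ∫ x, ψ x ∂ν + η := by
          have h1 : 2 * K * ν.real {x : ℝ | R < |x|} ≤ 2 * K * (η / (4 * (K + 1))) :=
            mul_le_mul_of_nonneg_left hRν (by positivity)
          have h2 : 2 * K * (η / (4 * (K + 1))) ≤ η / 2 := by
            rw [mul_div_assoc', div_le_iff₀ (by positivity)]
            nlinarith
          linarith

/-! ### Extension at the level of convergence in probability -/

variable {α : ℝ}


end Crest.Agent.R146.NLev918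
end

-- ▼ part R146/EmpA_788
section

/-!
# Row 146, package OBS-2 (helper788), part A: the literal Gibbs averages as a probability law

* `QN α β ε N` : the law of (pattern sample, Gibbs configuration), built on `Obs918.joint`;
* `gapMean_eq`, `forceMean_eq` : the literal means are integrals against `QN`;
* joint measurability of all observables; `rowAvg`;
* `second_moment_QN` : uniform bound of the mean square violation under `QN`.
-/

set_option autoImplicit false

open MeasureTheory ProbabilityTheory Filter Topology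
open Crest.ProbabilityR.Perceptron

namespace Crest.Agent.R146.Emp_788

variable {N : ℕ} {α : ℝ}

/-! ## Measures -/

lemma sphereLaw_ne_zero (N : ℕ) [NeZero N] : sphereLaw N ≠ 0 := by
  have h1 : Nontrivial (EuclideanSpace ℝ (Fin N)) := by
    have h0 : 0 < N := Nat.pos_of_ne_zero (NeZero.ne N)
    have : Nonempty (Fin N) := ⟨⟨0, h0⟩⟩
    infer_instance
  exact Measure.toSphere_ne_zero _

instance isFinite_sphereLaw (N : ℕ) : IsFiniteMeasure (sphereLaw N) := by
  unfold sphereLaw
  infer_instance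

lemma isProb_mixtureLaw (ε : ℝ) : IsProbabilityMeasure (mixtureLaw ε) := by
  constructor
  unfold mixtureLaw
  rw [Measure.add_apply, Measure.smul_apply, Measure.smul_apply, measure_univ, measure_univ]
  simp only [ENNReal.smul_def, smul_eq_mul, mul_one]
  rw [← ENNReal.coe_add]
  norm_num

instance isProb_patternLawMix (N : ℕ) (α ε : ℝ) : IsProbabilityMeasure (patternLawMix N α ε) := by
  have := isProb_mixtureLaw ε
  unfold patternLawMix
  infer_instance

/-! ## Measurability -/

lemma continuous_gap (μ : Fin (numPatterns N α)) :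
    Continuous (fun z : Patterns N α × UnitSphere N => gap z.1 z.2 μ) := by
  unfold gap
  refine continuous_const.add (continuous_finsetSum _ fun i _ => ?_)
  refine Continuous.mul ?_ ?_
  · exact (continuous_apply (μ, i)).comp continuous_fst
  · have h1 : Continuous (fun z : Patterns N α × UnitSphere N =>
        ((z.2 : EuclideanSpace ℝ (Fin N)))) := continuous_subtype_val.comp continuous_snd
    exact (EuclideanSpace.proj i).continuous.comp h1

lemma measurable_gap (μ : Fin (numPatterns N α)) :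
    Measurable (fun z : Patterns N α × UnitSphere N => gap z.1 z.2 μ) :=
  (continuous_gap μ).measurable

lemma measurable_energy :
    Measurable (fun z : Patterns N α × UnitSphere N => penaltyEnergy z.1 z.2) := by
  unfold penaltyEnergy
  refine Finset.measurable_sum _ fun μ _ => ?_
  exact measurable_const.mul ((((measurable_gap μ).neg).max measurable_const).pow_const 2)

lemma energy_nonneg (A : Patterns N α) (y : UnitSphere N) : 0 ≤ penaltyEnergy A y := by
  unfold penaltyEnergy
  exact Finset.sum_nonneg fun μ _ => by positivity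

/-- the Boltzmann weight -/
noncomputable def ww (β : ℝ) (A : Patterns N α) (y : UnitSphere N) : ℝ :=
  Real.exp (-β * penaltyEnergy A y)

lemma goodWeight_ww [NeZero N] {β : ℝ} (hβ : 0 ≤ β) :
    Obs918.GoodWeight (sphereLaw N) (ww β : Patterns N α → UnitSphere N → ℝ) where
  meas := by
    have h : Measurable (fun z : Patterns N α × UnitSphere N =>
        Real.exp (-β * penaltyEnergy z.1 z.2)) :=
      Real.measurable_exp.comp (measurable_const.mul measurable_energy)
    exact h
  pos := fun A y => Real.exp_pos _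
  bdd := fun A => ⟨1, fun y => by
    unfold ww
    rw [Real.exp_le_one_iff]
    have := energy_nonneg A y
    nlinarith⟩
  ne := sphereLaw_ne_zero N

/-- the law of (pattern sample, Gibbs configuration) -/
noncomputable def QN (α β ε : ℝ) (N : ℕ) : Measure (Patterns N α × UnitSphere N) :=
  Obs918.joint (patternLawMix N α ε) (sphereLaw N) (ww β)

lemma isProb_QN [NeZero N] {β : ℝ} (hβ : 0 ≤ β) (ε : ℝ) : IsProbabilityMeasure (QN α β ε N) :=
  Obs918.isProbabilityMeasure_joint (goodWeight_ww hβ)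

lemma integral_QN [NeZero N] {β : ℝ} (hβ : 0 ≤ β) (ε : ℝ)
    {O : Patterns N α × UnitSphere N → ℝ} (hO : Measurable O) {K : ℝ} (hK : ∀ p, |O p| ≤ K) :
    ∫ p, O p ∂QN α β ε N =
      ∫ A, gibbsAverage β A (fun y => O (A, y)) ∂patternLawMix N α ε := by
  unfold QN
  rw [Obs918.integral_joint (goodWeight_ww hβ) hO hK]
  rfl

/-! ## Observables -/

/-- the average over the patterns of a function of the gap -/
noncomputable def rowAvg (ψ : ℝ → ℝ) (p : Patterns N α × UnitSphere N) : ℝ :=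
  (∑ μ, ψ (gap p.1 p.2 μ)) / numPatterns N α

lemma measurable_rowAvg {ψ : ℝ → ℝ} (hψ : Measurable ψ) :
    Measurable (rowAvg ψ : Patterns N α × UnitSphere N → ℝ) := by
  unfold rowAvg
  exact (Finset.measurable_sum _ fun μ _ => hψ.comp (measurable_gap μ)).div_const _

lemma abs_rowAvg_le {ψ : ℝ → ℝ} {K : ℝ} (hK0 : 0 ≤ K) (hK : ∀ x, |ψ x| ≤ K)
    (p : Patterns N α × UnitSphere N) : |rowAvg ψ p| ≤ K := by
  unfold rowAvg
  rw [abs_div, Nat.abs_cast]
  refine div_le_of_le_mul₀ (Nat.cast_nonneg _) hK0 ?_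
  calc |∑ μ, ψ (gap p.1 p.2 μ)| ≤ ∑ μ, |ψ (gap p.1 p.2 μ)| := Finset.abs_sum_le_sum_abs _ _
    _ ≤ ∑ _μ : Fin (numPatterns N α), K := Finset.sum_le_sum fun μ _ => hK _
    _ = K * numPatterns N α := by simp [mul_comm]

lemma rowAvg_mono {ψ χ : ℝ → ℝ} (h : ∀ x, ψ x ≤ χ x) (p : Patterns N α × UnitSphere N) :
    rowAvg ψ p ≤ rowAvg χ p := by
  unfold rowAvg
  exact div_le_div_of_nonneg_right (Finset.sum_le_sum fun μ _ => h _) (Nat.cast_nonneg _)

lemma rowAvg_nonneg {ψ : ℝ → ℝ} (h : ∀ x, 0 ≤ ψ x) (p : Patterns N α × UnitSphere N) :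
    0 ≤ rowAvg ψ p := by
  unfold rowAvg
  exact div_nonneg (Finset.sum_nonneg fun μ _ => h _) (Nat.cast_nonneg _)

lemma rowAvg_sub (ψ χ : ℝ → ℝ) (p : Patterns N α × UnitSphere N) :
    rowAvg (fun x => ψ x - χ x) p = rowAvg ψ p - rowAvg χ p := by
  unfold rowAvg
  rw [Finset.sum_sub_distrib, sub_div]

lemma rowAvg_const_mul (c : ℝ) (χ : ℝ → ℝ) (p : Patterns N α × UnitSphere N) :
    rowAvg (fun x => c * χ x) p = c * rowAvg χ p := by
  unfold rowAvg
  rw [← Finset.mul_sum, mul_div_assoc]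

/-! ### Gap fraction -/





/-! ### Force fraction -/

/-- negative part of the gap -/
def npart (x : ℝ) : ℝ := max (-x) 0

lemma npart_nonneg (x : ℝ) : 0 ≤ npart x := le_max_right _ _

lemma continuous_npart : Continuous npart := by
  unfold npart; fun_prop

/-- indicator of `x < a` -/
noncomputable def ilt (a x : ℝ) : ℝ := if x < a then 1 else 0

lemma measurable_ilt (a : ℝ) : Measurable (ilt a) :=
  Measurable.ite (measurableSet_Iio (a := a)) measurable_const measurable_const

lemma ilt_nonneg (a x : ℝ) : 0 ≤ ilt a x := by unfold ilt; split_ifs <;> simp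

lemma ilt_le_one (a x : ℝ) : ilt a x ≤ 1 := by unfold ilt; split_ifs <;> simp

lemma ilt_mono {a b : ℝ} (h : a ≤ b) (x : ℝ) : ilt a x ≤ ilt b x := by
  unfold ilt
  split_ifs with h1 h2
  · exact le_rfl
  · exact absurd (h1.trans_le h) h2
  · exact zero_le_one
  · exact le_rfl

lemma card_violated (A : Patterns N α) (y : UnitSphere N) :
    ((violated A y).card : ℝ) = ∑ μ, ilt 0 (gap A y μ) := by
  unfold violated ilt
  rw [Finset.sum_boole]

lemma sum_violated (A : Patterns N α) (y : UnitSphere N) :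
    ∑ μ ∈ violated A y, -gap A y μ = ∑ μ, npart (gap A y μ) := by
  unfold violated
  rw [Finset.sum_filter]
  refine Finset.sum_congr rfl fun μ _ => ?_
  unfold npart
  split_ifs with h
  · rw [max_eq_left]; linarith
  · rw [max_eq_right]; linarith

/-- the mean violation as a ratio of row averages -/
lemma meanViolation_eq (hM : numPatterns N α ≠ 0) (p : Patterns N α × UnitSphere N) :
    meanViolation p.1 p.2 = rowAvg npart p / rowAvg (ilt 0) p := by
  unfold meanViolation rowAvg
  rw [sum_violated, card_violated]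
  have h : (numPatterns N α : ℝ) ≠ 0 := Nat.cast_ne_zero.mpr hM
  rw [div_div_div_cancel_right₀ h]

/-- the force fraction as a function of row averages -/
lemma forceFraction_eq (hM : numPatterns N α ≠ 0) {s : ℝ} (hs : 0 < s)
    (p : Patterns N α × UnitSphere N) :
    forceFraction s p.1 p.2 =
      (rowAvg (ilt 0) p - rowAvg (ilt (-(s * (rowAvg npart p / rowAvg (ilt 0) p)))) p) /
        rowAvg (ilt 0) p := by
  set m := rowAvg npart p / rowAvg (ilt 0) p with hm
  have h : (numPatterns N α : ℝ) ≠ 0 := Nat.cast_ne_zero.mpr hM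
  have hmv : meanViolation p.1 p.2 = m := meanViolation_eq hM p
  by_cases hv : violated p.1 p.2 = ∅
  · have h0 : rowAvg (ilt 0) p = 0 := by
      unfold rowAvg
      rw [← card_violated, hv]
      simp
    rw [h0, div_zero]
    unfold forceFraction
    rw [hv]
    simp
  · -- positive mean violation
    obtain ⟨μ₀, hμ₀⟩ := Finset.nonempty_iff_ne_empty.mpr hv
    have hcard : (0 : ℝ) < (violated p.1 p.2).card := by
      exact_mod_cast Finset.card_pos.mpr ⟨μ₀, hμ₀⟩
    have hmem : ∀ μ ∈ violated p.1 p.2, 0 < -gap p.1 p.2 μ := by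
      intro μ hμ
      have := (Finset.mem_filter.mp hμ).2
      linarith
    have hmpos : 0 < m := by
      rw [← hmv]
      unfold meanViolation
      exact div_pos (Finset.sum_pos hmem ⟨μ₀, hμ₀⟩) hcard
    have hsm : 0 < s * m := mul_pos hs hmpos
    have e1 : ((((violated p.1 p.2).filter
        fun μ => -gap p.1 p.2 μ / meanViolation p.1 p.2 ≤ s).card : ℝ)) =
        ∑ μ, (ilt 0 (gap p.1 p.2 μ) - ilt (-(s * m)) (gap p.1 p.2 μ)) := by
      rw [hmv]
      unfold violated
      rw [Finset.filter_filter, ← Finset.sum_boole]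
      refine Finset.sum_congr rfl fun μ _ => ?_
      have e2 : (-gap p.1 p.2 μ / m ≤ s) ↔ -(s * m) ≤ gap p.1 p.2 μ := by
        rw [div_le_iff₀ hmpos]
        constructor <;> intro h' <;> linarith
      unfold ilt
      by_cases hg : gap p.1 p.2 μ < 0
      · by_cases hg2 : gap p.1 p.2 μ < -(s * m)
        · have : ¬ (-gap p.1 p.2 μ / m ≤ s) := by rw [e2]; linarith
          simp [hg, hg2, this]
        · have : (-gap p.1 p.2 μ / m ≤ s) := by rw [e2]; linarith
          simp [hg, hg2, this]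
      · have hg2 : ¬ (gap p.1 p.2 μ < -(s * m)) := by linarith
        simp [hg, hg2]
    unfold forceFraction
    rw [e1, card_violated]
    unfold rowAvg
    rw [← sub_div, div_div_div_cancel_right₀ h, Finset.sum_sub_distrib]

lemma measurable_meanViolation :
    Measurable (fun z : Patterns N α × UnitSphere N => meanViolation z.1 z.2) := by
  unfold meanViolation
  simp_rw [sum_violated, card_violated]
  refine Measurable.div (Finset.measurable_sum _ fun μ _ => ?_)
    (Finset.measurable_sum _ fun μ _ => ?_)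
  · exact continuous_npart.measurable.comp (measurable_gap μ)
  · exact (measurable_ilt 0).comp (measurable_gap μ)

lemma measurable_forceFraction (s : ℝ) :
    Measurable (fun z : Patterns N α × UnitSphere N => forceFraction s z.1 z.2) := by
  unfold forceFraction
  have e1 : ∀ z : Patterns N α × UnitSphere N, ((((violated z.1 z.2).filter
        fun μ => -gap z.1 z.2 μ / meanViolation z.1 z.2 ≤ s).card : ℝ)) =
        ∑ μ, (if gap z.1 z.2 μ < 0 ∧ -gap z.1 z.2 μ / meanViolation z.1 z.2 ≤ s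
          then (1 : ℝ) else 0) := by
    intro z
    unfold violated
    rw [Finset.filter_filter, ← Finset.sum_boole]
  simp_rw [e1, card_violated]
  refine Measurable.div (Finset.measurable_sum _ fun μ _ => ?_)
    (Finset.measurable_sum _ fun μ _ => (measurable_ilt 0).comp (measurable_gap μ))
  refine Measurable.ite ?_ measurable_const measurable_const
  exact (measurableSet_lt (measurable_gap μ) measurable_const).inter
    (measurableSet_le ((measurable_gap μ).neg.div measurable_meanViolation) measurable_const)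

lemma abs_forceFraction_le (s : ℝ) (p : Patterns N α × UnitSphere N) :
    |forceFraction s p.1 p.2| ≤ 1 := by
  have h0 : 0 ≤ forceFraction s p.1 p.2 := by unfold forceFraction; positivity
  rw [abs_of_nonneg h0]
  unfold forceFraction
  refine div_le_one_of_le₀ ?_ (Nat.cast_nonneg _)
  exact_mod_cast Finset.card_filter_le _ _

/-- the literal mean force fraction is an integral against `QN` -/
theorem forceMean_eq [NeZero N] {β : ℝ} (hβ : 0 ≤ β) (ε s : ℝ) :
    forceMean N β α ε s = ∫ p, forceFraction s p.1 p.2 ∂QN α β ε N := by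
  rw [integral_QN hβ ε (measurable_forceFraction s) (abs_forceFraction_le s)]
  rfl

end Crest.Agent.R146.Emp_788
end

-- ▼ part R146/EmpB_788
section

/-!
# Row 146, package OBS-2 (helper788), part B: uniform second moment of the violations

`lintegral_rowAvg_sq_le` : under `QN` the mean over the patterns of the squared violation has
expectation at most `2 e^4`, uniformly in `N`, `β ≥ 0`, `α` and `0 ≤ ε ≤ 1` (association).
-/

set_option autoImplicit false

open MeasureTheory ProbabilityTheory Filter Topology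
open Crest.ProbabilityR.Perceptron

namespace Crest.Agent.R146.Emp_788

open Crest.Agent.R146.Assoc_323 (fld wt Zf PL QG qp abs_qp_le monotone_qp
  lintegral_gav_le lintegral_exp_fld_le sum_crd_sq_le)
open Crest.Agent.R146.PressC_663 (crd measurable_crd)

variable {N : ℕ} {α : ℝ}

lemma gap_eq_fld (A : Patterns N α) (y : UnitSphere N) (μ : Fin (numPatterns N α)) :
    gap A y μ = 1 + fld (crd N) A μ y := rfl

lemma ww_eq_wt (β : ℝ) (A : Patterns N α) (y : UnitSphere N) :
    ww β A y = wt (crd N) (fun _ => qp β (-1)) A y := by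
  unfold ww wt penaltyEnergy qp
  congr 1
  rw [Finset.mul_sum]
  refine Finset.sum_congr rfl fun μ _ => ?_
  rw [gap_eq_fld]
  have : -(1 + fld (crd N) A μ y) = -1 - fld (crd N) A μ y := by ring
  rw [this]
  ring

lemma gibbsAverage_eq_gav (β : ℝ) (A : Patterns N α) (O : UnitSphere N → ℝ) :
    gibbsAverage β A O =
      Assoc_323.gav (sphereLaw N) (crd N) (fun _ => qp β (-1)) A O := by
  unfold gibbsAverage Assoc_323.gav Zf
  have h : ∀ y, Real.exp (-β * penaltyEnergy A y) = wt (crd N) (fun _ => qp β (-1)) A y :=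
    fun y => ww_eq_wt β A y
  simp_rw [h]

lemma npart_sq_le (x : ℝ) :
    npart (1 + x) ^ 2 ≤ 1 * (Real.exp (2 * x) + Real.exp (-(2 * x))) := by
  have h1 : npart (1 + x) ≤ Real.exp (-x) := by
    unfold npart
    refine max_le ?_ (Real.exp_pos _).le
    have := Real.add_one_le_exp (-x)
    linarith
  have h2 : npart (1 + x) ^ 2 ≤ Real.exp (-x) ^ 2 := pow_le_pow_left₀ (npart_nonneg _) h1 2
  have h3 : Real.exp (-x) ^ 2 = Real.exp (-(2 * x)) := by
    rw [← Real.exp_nat_mul]; congr 1; push_cast; ring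
  have := Real.exp_pos (2 * x)
  linarith

theorem lintegral_gibbs_sq_le [NeZero N] {β ε : ℝ} (hβ : 0 ≤ β) (h0 : 0 ≤ ε) (h1 : ε ≤ 1)
    (μ : Fin (numPatterns N α)) :
    ∫⁻ A, ENNReal.ofReal (gibbsAverage β A (fun y => npart (gap A y μ) ^ 2))
      ∂patternLawMix N α ε ≤ ENNReal.ofReal (2 * Real.exp 4) := by
  have hgood := RepairLaw_840.good_mixtureLaw ε h0 h1
  have := isProb_mixtureLaw ε
  have hχ : Antitone (fun x : ℝ => npart (1 + x) ^ 2) := by
    intro x y hxy
    refine pow_le_pow_left₀ (npart_nonneg _) ?_ 2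
    unfold npart
    exact max_le_max (by linarith) le_rfl
  have key := lintegral_gav_le (ρ := mixtureLaw ε) (μ := sphereLaw N) (sphereLaw_ne_zero N)
    (measurable_crd N) (fun u => sum_crd_sq_le u)
    (C := β * (1 + (-1) ^ 2)) (by positivity)
    (ψ := fun _ : Fin (numPatterns N α) => qp β (-1))
    (fun _ => (Assoc_323.continuous_qp β (-1)).measurable)
    (fun _ x => abs_qp_le hβ (-1) x) μ (f := qp β (-1)) (T := 0) (monotone_qp hβ (-1))
    (fun x => by simp) hχ (fun x => sq_nonneg _)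
    (c := ENNReal.ofReal (1 * (2 * Real.exp 4)))
    (fun ω => lintegral_exp_fld_le hgood (fun u => sum_crd_sq_le u) μ ω zero_le_one npart_sq_le)
  simp only [mul_zero, Real.exp_zero, ENNReal.ofReal_one, one_mul] at key
  simp_rw [gibbsAverage_eq_gav, gap_eq_fld]
  exact key

/-- for a fixed sample the gaps are bounded on the sphere -/
lemma exists_bound_gap (A : Patterns N α) (μ : Fin (numPatterns N α)) :
    ∃ C : ℝ, ∀ y : UnitSphere N, |gap A y μ| ≤ C := by
  refine ⟨1 + Real.sqrt (Assoc_323.rsq A μ), fun y => ?_⟩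
  rw [gap_eq_fld]
  calc |1 + fld (crd N) A μ y| ≤ |(1 : ℝ)| + |fld (crd N) A μ y| := abs_add_le _ _
    _ ≤ 1 + Real.sqrt (Assoc_323.rsq A μ) := by
        rw [abs_one]
        have := Assoc_323.abs_fld_le (fun u => sum_crd_sq_le (N := N) u) A μ y
        linarith

theorem lintegral_QN_sq_le [NeZero N] {β ε : ℝ} (hβ : 0 ≤ β) (h0 : 0 ≤ ε) (h1 : ε ≤ 1)
    (μ : Fin (numPatterns N α)) :
    ∫⁻ p, ENNReal.ofReal (npart (gap p.1 p.2 μ) ^ 2) ∂QN α β ε N ≤
      ENNReal.ofReal (2 * Real.exp 4) := by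
  have hw : Obs918.GoodWeight (sphereLaw N) (ww β : Patterns N α → UnitSphere N → ℝ) :=
    goodWeight_ww hβ
  have hm : Measurable (fun p : Patterns N α × UnitSphere N =>
      ENNReal.ofReal (npart (gap p.1 p.2 μ) ^ 2)) :=
    ((continuous_npart.measurable.comp (measurable_gap μ)).pow_const 2).ennreal_ofReal
  unfold QN
  rw [Obs918.lintegral_joint hw hm]
  refine le_trans (le_of_eq ?_) (lintegral_gibbs_sq_le (N := N) (α := α) hβ h0 h1 μ)
  refine lintegral_congr fun A => ?_
  have hi : Integrable (fun y => npart (gap A y μ) ^ 2 * ww β A y) (sphereLaw N) := by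
    obtain ⟨C, hC⟩ := exists_bound_gap A μ
    refine hw.int_mul A (K := C ^ 2) ?_ ?_
    · exact ((continuous_npart.measurable.comp (measurable_gap μ)).pow_const 2).comp
        measurable_prodMk_left
    · intro y
      have hC0 : 0 ≤ C := (abs_nonneg _).trans (hC y)
      rw [abs_of_nonneg (sq_nonneg _)]
      refine pow_le_pow_left₀ (npart_nonneg _) ?_ 2
      unfold npart
      exact max_le ((neg_le_abs _).trans (hC y)) hC0
  have hZ := hw.Z_pos A
  calc ∫⁻ y, ENNReal.ofReal (npart (gap A y μ) ^ 2) *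
        ENNReal.ofReal (ww β A y / ∫ y, ww β A y ∂sphereLaw N) ∂sphereLaw N
      = ∫⁻ y, ENNReal.ofReal ((npart (gap A y μ) ^ 2 * ww β A y) /
          ∫ y, ww β A y ∂sphereLaw N) ∂sphereLaw N := by
        refine lintegral_congr fun y => ?_
        rw [← ENNReal.ofReal_mul (sq_nonneg _), mul_div_assoc]
    _ = ENNReal.ofReal (∫ y, (npart (gap A y μ) ^ 2 * ww β A y) /
          (∫ y, ww β A y ∂sphereLaw N) ∂sphereLaw N) := by
        rw [ofReal_integral_eq_lintegral_ofReal (hi.div_const _)]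
        exact Eventually.of_forall fun y =>
          div_nonneg (mul_nonneg (sq_nonneg _) (hw.pos A y).le) hZ.le
    _ = ENNReal.ofReal (gibbsAverage β A (fun y => npart (gap A y μ) ^ 2)) := by
        rw [integral_div]
        rfl

theorem lintegral_rowAvg_sq_le [NeZero N] {β ε : ℝ} (hβ : 0 ≤ β) (h0 : 0 ≤ ε) (h1 : ε ≤ 1) :
    ∫⁻ p, ENNReal.ofReal (rowAvg (fun x => npart x ^ 2) p) ∂QN α β ε N ≤
      ENNReal.ofReal (2 * Real.exp 4) := by
  by_cases hM : numPatterns N α = 0
  · have : ∀ p : Patterns N α × UnitSphere N, rowAvg (fun x => npart x ^ 2) p = 0 := by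
      intro p
      unfold rowAvg
      have h : (numPatterns N α : ℝ) = 0 := by exact_mod_cast hM
      rw [h, div_zero]
    simp_rw [this]
    simp
  · have hM' : (0 : ℝ) < numPatterns N α := by exact_mod_cast Nat.pos_of_ne_zero hM
    have e1 : ∀ p : Patterns N α × UnitSphere N,
        ENNReal.ofReal (rowAvg (fun x => npart x ^ 2) p) =
          (∑ μ, ENNReal.ofReal (npart (gap p.1 p.2 μ) ^ 2)) *
            (ENNReal.ofReal (numPatterns N α))⁻¹ := by
      intro p
      unfold rowAvg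
      rw [ENNReal.ofReal_div_of_pos hM', div_eq_mul_inv,
        ENNReal.ofReal_sum_of_nonneg (fun μ _ => sq_nonneg _)]
    simp_rw [e1]
    rw [lintegral_mul_const'' _ ?_, lintegral_finsetSum _ ?_]
    · have h2 : ∑ μ : Fin (numPatterns N α),
          ∫⁻ p, ENNReal.ofReal (npart (gap p.1 p.2 μ) ^ 2) ∂QN α β ε N ≤
          ENNReal.ofReal (numPatterns N α) * ENNReal.ofReal (2 * Real.exp 4) := by
        refine (Finset.sum_le_sum fun μ _ => lintegral_QN_sq_le hβ h0 h1 μ).trans ?_
        simp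
      calc _ ≤ ENNReal.ofReal (numPatterns N α) * ENNReal.ofReal (2 * Real.exp 4) *
              (ENNReal.ofReal (numPatterns N α))⁻¹ := mul_le_mul_left h2 _
        _ = ENNReal.ofReal (2 * Real.exp 4) := by
            rw [mul_comm (ENNReal.ofReal (numPatterns N α : ℝ)), mul_assoc,
              ENNReal.mul_inv_cancel (ENNReal.ofReal_pos.mpr hM').ne' ENNReal.ofReal_ne_top,
              mul_one]
    · intro μ _
      exact ((continuous_npart.measurable.comp (measurable_gap μ)).pow_const 2).ennreal_ofReal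
    · refine (Finset.measurable_sum _ fun μ _ => ?_).aemeasurable
      exact ((continuous_npart.measurable.comp (measurable_gap μ)).pow_const 2).ennreal_ofReal

/-- truncated second moment -/
theorem integral_rowAvg_min_sq_le [NeZero N] {β ε : ℝ} (hβ : 0 ≤ β) (h0 : 0 ≤ ε) (h1 : ε ≤ 1)
    {K : ℝ} (hK : 0 ≤ K) :
    ∫ p, rowAvg (fun x => min (npart x) K ^ 2) p ∂QN α β ε N ≤ 2 * Real.exp 4 := by
  have := isProb_QN (N := N) (α := α) hβ ε
  have hn : ∀ p : Patterns N α × UnitSphere N, 0 ≤ rowAvg (fun x => min (npart x) K ^ 2) p :=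
    fun p => rowAvg_nonneg (fun x => sq_nonneg _) p
  have hm : Measurable (rowAvg (fun x => min (npart x) K ^ 2) :
      Patterns N α × UnitSphere N → ℝ) :=
    measurable_rowAvg ((continuous_npart.measurable.min measurable_const).pow_const 2)
  rw [integral_eq_lintegral_of_nonneg_ae (Eventually.of_forall hn) hm.aestronglyMeasurable]
  refine ENNReal.toReal_le_of_le_ofReal (by positivity) ?_
  refine le_trans (lintegral_mono fun p => ENNReal.ofReal_le_ofReal ?_)
    (lintegral_rowAvg_sq_le (N := N) (α := α) hβ h0 h1)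
  refine rowAvg_mono (fun x => ?_) p
  exact pow_le_pow_left₀ (le_min (npart_nonneg _) hK) (min_le_left _ _) 2

/-- tail of the mean violation -/
theorem QN_tail_le [NeZero N] {β ε : ℝ} (hβ : 0 ≤ β) (h0 : 0 ≤ ε) (h1 : ε ≤ 1)
    {K η : ℝ} (hK : 0 < K) (hη : 0 < η) :
    QN α β ε N {p | η < rowAvg npart p - rowAvg (fun x => min (npart x) K) p} ≤
      ENNReal.ofReal (2 * Real.exp 4 / (K * η)) := by
  have hm : Measurable (fun p : Patterns N α × UnitSphere N =>
      ENNReal.ofReal (rowAvg (fun x => npart x ^ 2) p)) :=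
    (measurable_rowAvg (continuous_npart.measurable.pow_const 2)).ennreal_ofReal
  have hsub : {p : Patterns N α × UnitSphere N |
      η < rowAvg npart p - rowAvg (fun x => min (npart x) K) p} ⊆
      {p | ENNReal.ofReal (K * η) ≤ ENNReal.ofReal (rowAvg (fun x => npart x ^ 2) p)} := by
    intro p hp
    simp only [Set.mem_ofPred_eq] at hp ⊢
    refine ENNReal.ofReal_le_ofReal ?_
    rw [← rowAvg_sub] at hp
    have h2 : rowAvg (fun x => K * (npart x - min (npart x) K)) p ≤
        rowAvg (fun x => npart x ^ 2) p := by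
      refine rowAvg_mono (fun x => ?_) p
      have hx := npart_nonneg x
      rcases le_total (npart x) K with h | h
      · rw [min_eq_left h]; nlinarith
      · rw [min_eq_right h]; nlinarith
    rw [rowAvg_const_mul] at h2
    nlinarith
  refine (measure_mono hsub).trans ?_
  have hpos : 0 < K * η := mul_pos hK hη
  have h3 := mul_meas_ge_le_lintegral (μ := QN α β ε N) hm (ENNReal.ofReal (K * η))
  have h4 := h3.trans (lintegral_rowAvg_sq_le (N := N) (α := α) hβ h0 h1)
  rw [ENNReal.ofReal_div_of_pos hpos, ENNReal.le_div_iff_mul_le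
    (Or.inl (ENNReal.ofReal_pos.mpr hpos).ne') (Or.inl ENNReal.ofReal_ne_top), mul_comm]
  exact h4

end Crest.Agent.R146.Emp_788
end

-- ▼ part R146/EmpC_788
section

/-!
# Row 146, package OBS-2 (helper788), part C: the limit of the mean force fraction

Input `GapLaw α β ε ν`: the empirical law of the gaps converges to `ν` in `QN`-probability
(tested on bounded Lipschitz functions). Output `tendsto_forceMean`.
-/

set_option autoImplicit false

open MeasureTheory ProbabilityTheory Filter Topology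
open Crest.ProbabilityR.Perceptron

namespace Crest.Agent.R146.Emp_788

open Crest.Agent.R146.Obs918 (TP)

/-- The empirical law of the gaps converges to `ν` in probability (disorder and Gibbs). -/
def GapLaw (α β ε : ℝ) (ν : Measure ℝ) : Prop :=
  ∀ ψ : ℝ → ℝ, (∃ K : ℝ, ∀ x, |ψ x| ≤ K) → (∃ L : NNReal, LipschitzWith L ψ) →
    TP (fun n => QN α β ε (n + 1)) (fun _ p => rowAvg ψ p) (∫ x, ψ x ∂ν)

lemma tendsto_numPatterns {α : ℝ} (hα : 0 < α) :
    Tendsto (fun N : ℕ => numPatterns N α) atTop atTop := by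
  unfold numPatterns
  refine tendsto_nat_floor_atTop.comp ?_
  exact tendsto_natCast_atTop_atTop.const_mul_atTop hα

lemma eventually_numPatterns_ne {α : ℝ} (hα : 0 < α) :
    ∀ᶠ n : ℕ in atTop, numPatterns (n + 1) α ≠ 0 := by
  have h := (tendsto_numPatterns hα).comp (tendsto_add_atTop_nat 1)
  filter_upwards [h.eventually_gt_atTop 0] with n hn
  exact hn.ne'

/-! ### truncations of the negative part -/

/-- truncated negative part -/
noncomputable def tpart (K x : ℝ) : ℝ := min (npart x) K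

lemma tpart_nonneg {K : ℝ} (hK : 0 ≤ K) (x : ℝ) : 0 ≤ tpart K x := le_min (npart_nonneg _) hK

lemma abs_tpart_le {K : ℝ} (hK : 0 ≤ K) (x : ℝ) : |tpart K x| ≤ K := by
  rw [abs_of_nonneg (tpart_nonneg hK x)]
  exact min_le_right _ _

lemma lipschitz_npart : LipschitzWith 1 npart := by
  have h1 : LipschitzWith 1 (fun x : ℝ => -x) := LipschitzWith.id.neg
  exact h1.max_const 0

lemma lipschitz_tpart (K : ℝ) : LipschitzWith 1 (tpart K) := by
  unfold tpart
  exact lipschitz_npart.min_const K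

lemma lipschitz_tpart_sq {K : ℝ} (hK : 0 ≤ K) :
    LipschitzWith (Real.toNNReal (2 * K)) (fun x => tpart K x ^ 2) := by
  refine LipschitzWith.of_dist_le_mul fun x y => ?_
  rw [Real.coe_toNNReal _ (by positivity), Real.dist_eq]
  have h1 := (lipschitz_tpart K).dist_le_mul x y
  rw [NNReal.coe_one, one_mul, Real.dist_eq] at h1
  have h2 : tpart K x ^ 2 - tpart K y ^ 2 = (tpart K x + tpart K y) * (tpart K x - tpart K y) := by
    ring
  rw [h2, abs_mul]
  refine mul_le_mul ?_ h1 (abs_nonneg _) (by positivity)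
  calc |tpart K x + tpart K y| ≤ |tpart K x| + |tpart K y| := abs_add_le _ _
    _ ≤ K + K := add_le_add (abs_tpart_le hK x) (abs_tpart_le hK y)
    _ = 2 * K := by ring

section Moments

variable {α β ε : ℝ} {ν : Measure ℝ}

lemma integral_tpart_sq_le (hβ : 0 ≤ β) (h0 : 0 ≤ ε) (h1 : ε ≤ 1)
    (H : GapLaw α β ε ν) {K : ℝ} (hK : 0 ≤ K) :
    ∫ x, tpart K x ^ 2 ∂ν ≤ 2 * Real.exp 4 := by
  have hprob : ∀ n, IsProbabilityMeasure (QN α β ε (n + 1)) := fun n => isProb_QN hβ ε
  have hb : ∀ x, |tpart K x ^ 2| ≤ K ^ 2 := fun x => by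
    rw [abs_of_nonneg (sq_nonneg _)]
    exact pow_le_pow_left₀ (tpart_nonneg hK x) (min_le_right _ _) 2
  have hm : Measurable (fun x => tpart K x ^ 2) :=
    (lipschitz_tpart_sq hK).continuous.measurable
  have hTP := H (fun x => tpart K x ^ 2) ⟨K ^ 2, hb⟩ ⟨_, lipschitz_tpart_sq hK⟩
  have hlim := hTP.integral (Eventually.of_forall fun n => measurable_rowAvg hm) (K := K ^ 2)
    (Eventually.of_forall fun n p => abs_rowAvg_le (sq_nonneg K) hb p)
  refine le_of_tendsto hlim (Eventually.of_forall fun n => ?_)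
  exact integral_rowAvg_min_sq_le hβ h0 h1 hK

lemma lintegral_npart_sq_le [IsProbabilityMeasure ν] (hβ : 0 ≤ β) (h0 : 0 ≤ ε) (h1 : ε ≤ 1)
    (H : GapLaw α β ε ν) :
    ∫⁻ x, ENNReal.ofReal (npart x ^ 2) ∂ν ≤ ENNReal.ofReal (2 * Real.exp 4) := by
  have hmono : ∀ x, Monotone (fun n : ℕ => ENNReal.ofReal (tpart n x ^ 2)) := by
    intro x m n hmn
    refine ENNReal.ofReal_le_ofReal (pow_le_pow_left₀ (tpart_nonneg (Nat.cast_nonneg _) x) ?_ 2)
    exact min_le_min le_rfl (Nat.cast_le.mpr hmn)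
  have hm : ∀ n : ℕ, AEMeasurable (fun x => ENNReal.ofReal (tpart n x ^ 2)) ν := fun n =>
    ((lipschitz_tpart_sq (Nat.cast_nonneg n)).continuous.measurable.ennreal_ofReal).aemeasurable
  have hlim : ∀ x, Tendsto (fun n : ℕ => ENNReal.ofReal (tpart n x ^ 2)) atTop
      (𝓝 (ENNReal.ofReal (npart x ^ 2))) := by
    intro x
    refine tendsto_const_nhds.congr' ?_
    obtain ⟨n0, hn0⟩ := exists_nat_ge (npart x)
    filter_upwards [eventually_ge_atTop n0] with n hn
    have : tpart n x = npart x := min_eq_left (hn0.trans (Nat.cast_le.mpr hn))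
    rw [this]
  have h2 := lintegral_tendsto_of_tendsto_of_monotone hm (Eventually.of_forall hmono)
    (Eventually.of_forall hlim)
  refine le_of_tendsto h2 (Eventually.of_forall fun n => ?_)
  have h3 := integral_tpart_sq_le (K := n) hβ h0 h1 H (Nat.cast_nonneg n)
  have hi : Integrable (fun x => tpart n x ^ 2) ν := by
    refine Integrable.of_bound
      (lipschitz_tpart_sq (Nat.cast_nonneg n)).continuous.aestronglyMeasurable ((n : ℝ) ^ 2)
      (Eventually.of_forall fun x => ?_)
    rw [Real.norm_eq_abs, abs_of_nonneg (sq_nonneg _)]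
    exact pow_le_pow_left₀ (tpart_nonneg (Nat.cast_nonneg n) x) (min_le_right _ _) 2
  rw [← ofReal_integral_eq_lintegral_ofReal hi (Eventually.of_forall fun x => sq_nonneg _)]
  exact ENNReal.ofReal_le_ofReal h3

lemma integrable_npart_sq [IsProbabilityMeasure ν] (hβ : 0 ≤ β) (h0 : 0 ≤ ε) (h1 : ε ≤ 1)
    (H : GapLaw α β ε ν) : Integrable (fun x => npart x ^ 2) ν := by
  refine ⟨(continuous_npart.pow 2).aestronglyMeasurable, ?_⟩
  have h := lintegral_npart_sq_le hβ h0 h1 H
  unfold HasFiniteIntegral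
  refine lt_of_le_of_lt (le_of_eq ?_) (h.trans_lt ENNReal.ofReal_lt_top)
  refine lintegral_congr fun x => ?_
  rw [Real.enorm_eq_ofReal (sq_nonneg _)]

lemma integrable_npart [IsProbabilityMeasure ν] (hβ : 0 ≤ β) (h0 : 0 ≤ ε) (h1 : ε ≤ 1)
    (H : GapLaw α β ε ν) : Integrable npart ν := by
  refine ((integrable_npart_sq hβ h0 h1 H).add (integrable_const (1 : ℝ))).mono'
    continuous_npart.aestronglyMeasurable (Eventually.of_forall fun x => ?_)
  rw [Real.norm_eq_abs, abs_of_nonneg (npart_nonneg x)]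
  simp only [Pi.add_apply]
  nlinarith [sq_nonneg (npart x - 1)]

lemma integral_npart_sub_le [IsProbabilityMeasure ν] (hβ : 0 ≤ β) (h0 : 0 ≤ ε) (h1 : ε ≤ 1)
    (H : GapLaw α β ε ν) {K : ℝ} (hK : 0 < K) :
    ∫ x, npart x ∂ν - ∫ x, tpart K x ∂ν ≤ 2 * Real.exp 4 / K := by
  have hi1 := integrable_npart hβ h0 h1 H
  have hi2 : Integrable (tpart K) ν := Integrable.of_bound
    (lipschitz_tpart K).continuous.aestronglyMeasurable K (Eventually.of_forall fun x => by
      rw [Real.norm_eq_abs]; exact abs_tpart_le hK.le x)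
  have hi3 := integrable_npart_sq hβ h0 h1 H
  rw [← integral_sub hi1 hi2, le_div_iff₀ hK, mul_comm, ← integral_const_mul]
  have h3 : ∫ x, K * (npart x - tpart K x) ∂ν ≤ ∫ x, npart x ^ 2 ∂ν := by
    refine integral_mono ((hi1.sub hi2).const_mul K) hi3 fun x => ?_
    have hx := npart_nonneg x
    simp only
    unfold tpart
    rcases le_total (npart x) K with h | h
    · rw [min_eq_left h]; nlinarith
    · rw [min_eq_right h]; nlinarith
  refine h3.trans ?_
  have h4 := lintegral_npart_sq_le hβ h0 h1 H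
  rw [← ofReal_integral_eq_lintegral_ofReal hi3 (Eventually.of_forall fun x => sq_nonneg _)] at h4
  exact (ENNReal.ofReal_le_ofReal_iff (by positivity)).mp h4

lemma integral_tpart_le [IsProbabilityMeasure ν] (hβ : 0 ≤ β) (h0 : 0 ≤ ε) (h1 : ε ≤ 1)
    (H : GapLaw α β ε ν) {K : ℝ} (hK : 0 < K) :
    ∫ x, tpart K x ∂ν ≤ ∫ x, npart x ∂ν := by
  have hi1 := integrable_npart hβ h0 h1 H
  have hi2 : Integrable (tpart K) ν := Integrable.of_bound
    (lipschitz_tpart K).continuous.aestronglyMeasurable K (Eventually.of_forall fun x => by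
      rw [Real.norm_eq_abs]; exact abs_tpart_le hK.le x)
  exact integral_mono hi2 hi1 fun x => min_le_left _ _

/-- the mean violation per pattern converges -/
theorem TP_npart [IsProbabilityMeasure ν] (hβ : 0 ≤ β) (h0 : 0 ≤ ε) (h1 : ε ≤ 1)
    (H : GapLaw α β ε ν) :
    TP (fun n => QN α β ε (n + 1)) (fun _ p => rowAvg npart p) (∫ x, npart x ∂ν) := by
  intro η hη
  rw [ENNReal.tendsto_nhds_zero]
  intro δ hδ
  set C : ℝ := 2 * Real.exp 4 with hC
  have hCpos : 0 < C := by positivity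
  -- choose K
  obtain ⟨δ', hδ'0, hδ'⟩ : ∃ δ' : ℝ, 0 < δ' ∧ ENNReal.ofReal δ' ≤ δ / 2 := by
    by_cases ht : δ = ⊤
    · exact ⟨1, one_pos, by rw [ht, ENNReal.top_div_of_ne_top (by norm_num)]; exact le_top⟩
    · refine ⟨(δ / 2).toReal, ENNReal.toReal_pos (ENNReal.half_pos hδ.ne').ne' ?_, ?_⟩
      · exact (ENNReal.div_lt_top ht (by norm_num)).ne
      · rw [ENNReal.ofReal_toReal (ENNReal.div_lt_top ht (by norm_num)).ne]
  set K : ℝ := max (3 * C / η) (3 * C / (η * δ')) with hKdef
  have hKpos : 0 < K := lt_max_of_lt_left (by positivity)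
  have hK1 : C / K ≤ η / 3 := by
    rw [div_le_iff₀ hKpos]
    have : 3 * C / η ≤ K := le_max_left _ _
    rw [div_le_iff₀ hη] at this
    linarith
  have hK2 : C / (K * (η / 3)) ≤ δ' := by
    rw [div_le_iff₀ (by positivity)]
    have : 3 * C / (η * δ') ≤ K := le_max_right _ _
    rw [div_le_iff₀ (by positivity)] at this
    linarith
  have hTP := H (tpart K) ⟨K, abs_tpart_le hKpos.le⟩ ⟨1, lipschitz_tpart K⟩ (η / 3) (by positivity)
  rw [ENNReal.tendsto_nhds_zero] at hTP
  filter_upwards [hTP (δ / 2) (ENNReal.half_pos hδ.ne')] with n hn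
  have hsub : {p : Patterns (n + 1) α × UnitSphere (n + 1) |
      η < |rowAvg npart p - ∫ x, npart x ∂ν|} ⊆
      {p | η / 3 < |rowAvg (tpart K) p - ∫ x, tpart K x ∂ν|} ∪
      {p | η / 3 < rowAvg npart p - rowAvg (fun x => min (npart x) K) p} := by
    intro p hp
    by_contra hcon
    simp only [Set.mem_union, Set.mem_ofPred_eq, not_or, not_lt] at hcon hp
    obtain ⟨hc1, hc2⟩ := hcon
    have e1 : rowAvg (fun x => min (npart x) K) p = rowAvg (tpart K) p := rfl
    rw [e1] at hc2
    have hge : rowAvg (tpart K) p ≤ rowAvg npart p := rowAvg_mono (fun x => min_le_left _ _) p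
    have h5 := integral_npart_sub_le hβ h0 h1 H hKpos
    have h6 := integral_tpart_le hβ h0 h1 H hKpos
    have h7 := abs_le.mp hc1
    have : |rowAvg npart p - ∫ x, npart x ∂ν| ≤ η := by
      rw [abs_le]
      constructor <;> linarith [h7.1, h7.2]
    linarith
  calc QN α β ε (n + 1) {p | η < |rowAvg npart p - ∫ x, npart x ∂ν|}
      ≤ _ := measure_mono hsub
    _ ≤ _ := measure_union_le _ _
    _ ≤ δ / 2 + δ / 2 := by
        refine add_le_add hn ?_
        refine (QN_tail_le hβ h0 h1 hKpos (by positivity)).trans ?_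
        refine le_trans (ENNReal.ofReal_le_ofReal hK2) hδ'
    _ = δ := ENNReal.add_halves δ

end Moments

/-! ### ramps and half lines -/

/-- continuous approximation of the indicator of `x < a`: `1` for `x ≤ a`, `0` for `a + η ≤ x` -/
noncomputable def ramp (a η x : ℝ) : ℝ := min 1 (max 0 ((a + η - x) / η))

lemma ramp_nonneg (a η x : ℝ) : 0 ≤ ramp a η x := le_min zero_le_one (le_max_left _ _)

lemma ramp_le_one (a η x : ℝ) : ramp a η x ≤ 1 := min_le_left _ _

lemma abs_ramp_le (a η x : ℝ) : |ramp a η x| ≤ 1 := by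
  rw [abs_of_nonneg (ramp_nonneg a η x)]; exact ramp_le_one a η x

lemma ilt_le_ramp {a η : ℝ} (hη : 0 < η) (x : ℝ) : ilt a x ≤ ramp a η x := by
  unfold ilt
  split_ifs with h
  · unfold ramp
    refine le_min le_rfl (le_max_of_le_right ?_)
    rw [one_le_div hη]
    linarith
  · exact ramp_nonneg _ _ _

lemma ramp_le_ilt {a η : ℝ} (hη : 0 < η) (x : ℝ) : ramp a η x ≤ ilt (a + η) x := by
  unfold ilt
  split_ifs with h
  · exact ramp_le_one _ _ _
  · unfold ramp
    refine min_le_of_right_le (max_le le_rfl ?_)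
    exact div_nonpos_of_nonpos_of_nonneg (by linarith) hη.le

lemma lipschitz_ramp {a η : ℝ} (hη : 0 < η) :
    LipschitzWith (Real.toNNReal (1 / η)) (ramp a η) := by
  unfold ramp
  have h1 : LipschitzWith (Real.toNNReal (1 / η)) (fun x : ℝ => (a + η - x) / η) := by
    refine LipschitzWith.of_dist_le_mul fun x y => ?_
    rw [Real.coe_toNNReal _ (by positivity), Real.dist_eq, Real.dist_eq]
    have : (a + η - x) / η - (a + η - y) / η = (1 / η) * (y - x) := by field_simp; ring
    rw [this, abs_mul, abs_of_pos (by positivity : (0:ℝ) < 1 / η), abs_sub_comm]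
  exact (h1.const_max 0).const_min 1

lemma integral_ilt (ν : Measure ℝ) (a : ℝ) : ∫ x, ilt a x ∂ν = ν.real (Set.Iio a) := by
  have : ∀ x, ilt a x = (Set.Iio a).indicator (fun _ => (1 : ℝ)) x := by
    intro x
    unfold ilt Set.indicator
    simp only [Set.mem_Iio]
  simp_rw [this]
  rw [integral_indicator_const _ measurableSet_Iio]
  simp

lemma integrable_ilt (ν : Measure ℝ) [IsProbabilityMeasure ν] (a : ℝ) : Integrable (ilt a) ν :=
  Integrable.of_bound (measurable_ilt a).aestronglyMeasurable 1 (Eventually.of_forall fun x => by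
    rw [Real.norm_eq_abs, abs_of_nonneg (ilt_nonneg a x)]; exact ilt_le_one a x)

lemma integrable_ramp (ν : Measure ℝ) [IsProbabilityMeasure ν] {a η : ℝ} (hη : 0 < η) :
    Integrable (ramp a η) ν :=
  Integrable.of_bound (lipschitz_ramp hη).continuous.aestronglyMeasurable 1
    (Eventually.of_forall fun x => by rw [Real.norm_eq_abs]; exact abs_ramp_le a η x)

lemma integral_ramp_le (ν : Measure ℝ) [IsProbabilityMeasure ν] {a η : ℝ} (hη : 0 < η) :
    ∫ x, ramp a η x ∂ν ≤ ν.real (Set.Iio (a + η)) := by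
  rw [← integral_ilt]
  exact integral_mono (integrable_ramp ν hη) (integrable_ilt ν _) fun x => ramp_le_ilt hη x

lemma le_integral_ramp (ν : Measure ℝ) [IsProbabilityMeasure ν] {a η : ℝ} (hη : 0 < η) :
    ν.real (Set.Iio a) ≤ ∫ x, ramp a η x ∂ν := by
  rw [← integral_ilt]
  exact integral_mono (integrable_ilt ν _) (integrable_ramp ν hη) fun x => ilt_le_ramp hη x

/-- continuity of the distribution function at a point without atom -/
lemma exists_small_window (ν : Measure ℝ) [IsProbabilityMeasure ν] {c : ℝ} (hc : ν {c} = 0)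
    {δ : ℝ} (hδ : 0 < δ) : ∃ η : ℝ, 0 < η ∧
      ν.real (Set.Iio (c + 2 * η)) ≤ ν.real (Set.Iio c) + δ ∧
      ν.real (Set.Iio c) - δ ≤ ν.real (Set.Iio (c - 2 * η)) := by
  have h := tendsto_measure_Icc_nhdsWithin_right' ν c
  rw [hc] at h
  have h2 : ∀ᶠ t in 𝓝[>] (0:ℝ), ν (Set.Icc (c - t) (c + t)) < ENNReal.ofReal δ :=
    (tendsto_order.mp h).2 _ (ENNReal.ofReal_pos.mpr hδ)
  have h3 : ∀ᶠ t in 𝓝[>] (0:ℝ), 0 < t := self_mem_nhdsWithin
  obtain ⟨t, ht1, ht2⟩ := (h2.and h3).exists
  have ht3 : ν.real (Set.Icc (c - t) (c + t)) ≤ δ := by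
    rw [measureReal_def]
    exact ENNReal.toReal_le_of_le_ofReal hδ.le ht1.le
  refine ⟨t / 2, half_pos ht2, ?_, ?_⟩
  · have e : c + 2 * (t / 2) = c + t := by ring
    rw [e]
    have hs : Set.Iio (c + t) ⊆ Set.Iio c ∪ Set.Icc (c - t) (c + t) := by
      intro x hx
      simp only [Set.mem_Iio, Set.mem_union, Set.mem_Icc] at hx ⊢
      by_cases hxc : x < c
      · exact Or.inl hxc
      · exact Or.inr ⟨by linarith, hx.le⟩
    calc ν.real (Set.Iio (c + t)) ≤ ν.real (Set.Iio c ∪ Set.Icc (c - t) (c + t)) :=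
          measureReal_mono hs
      _ ≤ _ := measureReal_union_le _ _
      _ ≤ _ := by linarith
  · have e : c - 2 * (t / 2) = c - t := by ring
    rw [e]
    have hs : Set.Iio c ⊆ Set.Iio (c - t) ∪ Set.Icc (c - t) (c + t) := by
      intro x hx
      simp only [Set.mem_Iio, Set.mem_union, Set.mem_Icc] at hx ⊢
      by_cases hxc : x < c - t
      · exact Or.inl hxc
      · exact Or.inr ⟨by linarith, by linarith⟩
    have : ν.real (Set.Iio c) ≤ ν.real (Set.Iio (c - t)) + ν.real (Set.Icc (c - t) (c + t)) :=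
      (measureReal_mono hs).trans (measureReal_union_le _ _)
    linarith

section HalfLines

variable {α β ε : ℝ} {ν : Measure ℝ}

/-- fraction of gaps below a random threshold converging to a point without atom -/
theorem TP_ilt [IsProbabilityMeasure ν] (H : GapLaw α β ε ν) {c : ℝ} (hc : ν {c} = 0)
    {T : ∀ n : ℕ, Patterns (n + 1) α × UnitSphere (n + 1) → ℝ}
    (hT : TP (fun n => QN α β ε (n + 1)) T c) :
    TP (fun n => QN α β ε (n + 1)) (fun n p => rowAvg (ilt (T n p)) p) (ν.real (Set.Iio c)) := by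
  refine Obs918.TP.sandwich fun δ hδ => ?_
  obtain ⟨η, hη, hup, hlow⟩ := exists_small_window ν hc hδ
  refine ⟨fun _ p => rowAvg (ramp (c - 2 * η) η) p, fun _ p => rowAvg (ramp (c + η) η) p,
    ∫ x, ramp (c - 2 * η) η x ∂ν, ∫ x, ramp (c + η) η x ∂ν,
    fun n => {p | η < |T n p - c|}, ?_, ?_, hT η hη, ?_, ?_, ?_⟩
  · exact H _ ⟨1, abs_ramp_le _ _⟩ ⟨_, lipschitz_ramp hη⟩
  · exact H _ ⟨1, abs_ramp_le _ _⟩ ⟨_, lipschitz_ramp hη⟩
  · refine Eventually.of_forall fun n p hp => ?_
    simp only [Set.mem_ofPred_eq, not_lt] at hp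
    obtain ⟨h1, h2⟩ := abs_le.mp hp
    constructor
    · refine rowAvg_mono (fun x => ?_) p
      refine (ramp_le_ilt hη x).trans (ilt_mono ?_ x)
      linarith
    · refine rowAvg_mono (fun x => ?_) p
      refine le_trans (ilt_mono ?_ x) (ilt_le_ramp hη x)
      linarith
  · exact hlow.trans (le_integral_ramp ν hη)
  · refine (integral_ramp_le ν hη).trans ?_
    have : c + η + η = c + 2 * η := by ring
    rw [this]
    exact hup

end HalfLines

/-! ### the force fraction -/

/-- mean violation of the law `ν` of the gap -/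
noncomputable def rbar (ν : Measure ℝ) : ℝ := (∫ x, npart x ∂ν) / ν.real (Set.Iio 0)

section Force

variable {α β ε : ℝ} {ν : Measure ℝ}

theorem TP_forceFraction [IsProbabilityMeasure ν] (hα : 0 < α) (hβ : 0 ≤ β) (h0 : 0 ≤ ε)
    (h1 : ε ≤ 1) (H : GapLaw α β ε ν) (hz : ν {0} = 0) (hneg : ν (Set.Iio 0) ≠ 0)
    {s : ℝ} (hs : 0 < s) (hat : ν {-(s * rbar ν)} = 0) :
    TP (fun n => QN α β ε (n + 1)) (fun _ p => forceFraction s p.1 p.2)
      ((ν.real (Set.Iio 0) - ν.real (Set.Iio (-(s * rbar ν)))) / ν.real (Set.Iio 0)) := by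
  have hq : ν.real (Set.Iio 0) ≠ 0 := by
    rw [measureReal_def]
    exact ENNReal.toReal_ne_zero.mpr ⟨hneg, measure_ne_top _ _⟩
  have hV : TP (fun n => QN α β ε (n + 1)) (fun _ p => rowAvg (ilt 0) p)
      (ν.real (Set.Iio 0)) := TP_ilt H hz (Obs918.TP.const _ 0)
  have hS := TP_npart hβ h0 h1 H
  have hm : TP (fun n => QN α β ε (n + 1))
      (fun _ p => rowAvg npart p / rowAvg (ilt 0) p) (rbar ν) := hS.div hV hq
  have hT : TP (fun n => QN α β ε (n + 1))
      (fun _ p => -(s * (rowAvg npart p / rowAvg (ilt 0) p))) (-(s * rbar ν)) :=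
    hm.map (f := fun x => -(s * x)) (by fun_prop)
  have hI := TP_ilt H hat hT
  refine ((hV.sub hI).div hV hq).congr' ?_
  filter_upwards [eventually_numPatterns_ne hα] with n hn p
  exact (forceFraction_eq hn hs p).symm

/-- **The limit of the mean force fraction** at fixed `(α, β)`. -/
theorem tendsto_forceMean [IsProbabilityMeasure ν] (hα : 0 < α) (hβ : 0 ≤ β) (h0 : 0 ≤ ε)
    (h1 : ε ≤ 1) (H : GapLaw α β ε ν) (hz : ν {0} = 0) (hneg : ν (Set.Iio 0) ≠ 0)
    {s : ℝ} (hs : 0 < s) (hat : ν {-(s * rbar ν)} = 0) :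
    Tendsto (fun N : ℕ => forceMean N β α ε s) atTop
      (𝓝 (ν.real (Set.Ico (-(s * rbar ν)) 0) / ν.real (Set.Iio 0))) := by
  have hprob : ∀ n, IsProbabilityMeasure (QN α β ε (n + 1)) := fun n => isProb_QN hβ ε
  have h := (TP_forceFraction hα hβ h0 h1 H hz hneg hs hat).integral
    (Eventually.of_forall fun n => measurable_forceFraction s) (K := 1)
    (Eventually.of_forall fun n p => abs_forceFraction_le s p)
  have hr : 0 ≤ rbar ν := div_nonneg (integral_nonneg fun x => npart_nonneg x) measureReal_nonneg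
  have e1 : ν.real (Set.Iio 0) - ν.real (Set.Iio (-(s * rbar ν))) =
      ν.real (Set.Ico (-(s * rbar ν)) 0) := by
    have hsub : Set.Iio (-(s * rbar ν)) ⊆ Set.Iio 0 := Set.Iio_subset_Iio (by
      have := mul_nonneg hs.le hr; linarith)
    rw [← measureReal_sdiff hsub measurableSet_Iio]
    congr 1
    ext x
    simp only [Set.mem_sdiff, Set.mem_Iio, Set.mem_Ico, not_lt]
    tauto
  rw [← e1]
  rw [← tendsto_add_atTop_iff_nat 1]
  refine h.congr fun n => ?_
  rw [forceMean_eq hβ]

end Force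

end Crest.Agent.R146.Emp_788
end

-- ▼ part R146/EmpD_788
section

/-!
# Row 146, package OBS (helper788), part D: glue

From the convergence of the perturbed pressures (literal `pertPressure` of `ObsC_548`) and the
differentiability of the limit at `0`, the two inputs `MeanEmp` and `ForceLim` of
`Obs918.S0205_of_inputs`.
-/

set_option autoImplicit false

open MeasureTheory ProbabilityTheory Filter Topology
open Crest.ProbabilityR.Perceptron

namespace Crest.Agent.R146.Emp_788

open Crest.Agent.R146.Obs918 (TP ForceLim MeanEmp emp joint)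
open Crest.Agent.R146.ObsC_548 (pertPressure wg)

variable {α β ε : ℝ} {ν : Measure ℝ}

theorem forceLim_of_gapLaw [IsProbabilityMeasure ν] (hα : 0 < α) (hβ : 0 ≤ β) (h0 : 0 ≤ ε)
    (h1 : ε ≤ 1) (H : GapLaw α β ε ν) : ForceLim α β ε ν := by
  intro s hs hz hneg hat
  have hn : ν (Set.Iio 0) ≠ 0 := by
    intro h
    rw [measureReal_def, h] at hneg
    simp at hneg
  exact tendsto_forceMean hα hβ h0 h1 H hz hn hs hat

theorem meanEmp_of_gapLaw (hβ : 0 ≤ β) (H : GapLaw α β ε ν) : MeanEmp α β ε ν := by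
  intro ψ K L hK hL
  have hprob : ∀ n, IsProbabilityMeasure (QN α β ε (n + 1)) := fun n => isProb_QN hβ ε
  have hm : Measurable ψ := hL.continuous.measurable
  have hK0 : 0 ≤ K := (abs_nonneg _).trans (hK 0)
  have h := (H ψ ⟨K, hK⟩ ⟨L, hL⟩).integral
    (Eventually.of_forall fun n => measurable_rowAvg hm) (K := K)
    (Eventually.of_forall fun n p => abs_rowAvg_le hK0 hK p)
  rw [← tendsto_add_atTop_iff_nat 1]
  refine h.congr fun n => ?_
  rw [integral_QN hβ ε (measurable_rowAvg hm) (abs_rowAvg_le hK0 hK)]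
  rfl




end Crest.Agent.R146.Emp_788
end

-- ▼ part R146/NLevB_918
section

/-!
Row 146, node NLEV, part B (helper918): N-level assembly for the penalty Gibbs measure.

* `PertLimT` : convergence of the perturbed pressures for smooth test functions, with
  differentiable limit;
* `inputs_of_pertLimT` : `PertLimT` implies the two inputs `MeanEmp` and `ForceLim` of
  `Obs918.S0205_of_inputs`;
* `pertPressure_mean` : the averaged perturbed pressure is `P34_734.pM` of a perturbed quadratic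
  potential;
* `pertLimT_of_EPS` : `P34_734.EPS` and the derivative of the variational value give `PertLimT`.
-/

set_option linter.unusedSectionVars false

namespace Crest.Agent.R146.NLev918

open MeasureTheory Filter Topology
open Crest.ProbabilityR.Perceptron
open Crest.Agent.R146.Obs918 (TP joint emp MeanEmp ForceLim)
open Crest.Agent.R146.P34_734
open Crest.Agent.R146.ObsC_548 (pertPressure)
open Crest.Agent.R146.Emp_788 (QN rowAvg GapLaw)

/-! ### From test functions to bounded Lipschitz functions -/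

/-- From test functions to bounded continuous functions, spaces indexed from `1`. -/
theorem tp_ext' {α : ℝ} {Q : ∀ n : ℕ, Measure (Patterns (n + 1) α × UnitSphere (n + 1))}
    {ν : Measure ℝ} [IsProbabilityMeasure ν]
    (h : ∀ ψ : ℝ → ℝ, Test ψ → TP Q (fun _ q => rowAvg ψ q) (∫ x, ψ x ∂ν))
    {ψ : ℝ → ℝ} (hψ : Continuous ψ) {K : ℝ} (hK : ∀ x, |ψ x| ≤ K) :
    TP Q (fun _ q => rowAvg ψ q) (∫ x, ψ x ∂ν) := by
  refine TP.sandwich fun η hη => ?_
  obtain ⟨u, hu, hu1, hu2⟩ := exists_test_above hψ hK ν hη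
  obtain ⟨v, hv, hv1, hv2⟩ := exists_test_above (ψ := fun x => -ψ x) hψ.neg (K := K)
    (fun x => by rw [abs_neg]; exact hK x) ν hη
  refine ⟨fun _ q => rowAvg (fun x => -v x) q,
    fun _ q => rowAvg u q, ∫ x, -v x ∂ν, ∫ x, u x ∂ν, fun _ => ∅,
    h _ (Test.neg hv), h _ hu, by simp, Eventually.of_forall fun n q _ => ⟨?_, ?_⟩, ?_, hu2⟩
  · exact Emp_788.rowAvg_mono (fun x => by linarith [hv1 x]) q
  · exact Emp_788.rowAvg_mono hu1 q
  · rw [integral_neg] at hv2 ⊢
    linarith




/-! ### The averaged perturbed pressure -/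

/-- The perturbed pressure is the pressure of the perturbed quadratic potential at margin `-1`. -/
lemma pertPressure_eq_fq (N : ℕ) (α b : ℝ) (ψ : ℝ → ℝ) (h : ℝ) (A : Patterns N α) :
    pertPressure N α b ψ h A =
      spherePressure N α 1 (fun x => fq b (-1) x + h * ψ (1 + x)) A := by
  unfold pertPressure spherePressure potentialSum penaltyEnergy fq
  have hfun : (fun y : UnitSphere N => Real.exp (-b * ∑ μ, (1 / 2 : ℝ) * max (-gap A y μ) 0 ^ 2 +
      h * ∑ μ, ψ (gap A y μ))) = fun y : UnitSphere N => Real.exp (1 * ∑ a,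
      (-(b / 2) * max (-1 - ∑ i, A (a, i) * (y : EuclideanSpace ℝ (Fin N)) i) 0 ^ 2 +
      h * ψ (1 + ∑ i, A (a, i) * (y : EuclideanSpace ℝ (Fin N)) i))) := by
    funext y
    congr 1
    rw [one_mul, Finset.mul_sum, Finset.mul_sum, ← Finset.sum_add_distrib]
    refine Finset.sum_congr rfl fun μ _ => ?_
    have e : -gap A y μ = -1 - ∑ i, A (μ, i) * (y : EuclideanSpace ℝ (Fin N)) i := by
      unfold gap
      ring
    rw [e]
    unfold gap
    ring
  rw [hfun]

lemma pertPressure_mean (N : ℕ) (α ε b : ℝ) (ψ : ℝ → ℝ) (h : ℝ) :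
    ∫ A, pertPressure N α b ψ h A ∂(patternLawMix N α ε) =
      pM N α ε (fun x => fq b (-1) x + h * ψ (1 + x)) := by
  unfold pM
  exact integral_congr_ae (Eventually.of_forall fun A => pertPressure_eq_fq N α b ψ h A)

/-- Convergence of the perturbed averaged pressures near `h = 0` for test functions of the field. -/
def EpsAt (W : BS) (α b ε : ℝ) : Prop := ∀ ψ : ℝ → ℝ, Test ψ → ∃ h0 : ℝ, 0 < h0 ∧
  ∀ h : ℝ, |h| ≤ h0 → Tendsto (fun N : ℕ => pM N α ε fun x => fq b (-1) x + h * ψ x) atTop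
    (𝓝 (W.Pv α fun x => fq b (-1) x + h * ψ x))




end Crest.Agent.R146.NLev918
end

-- ▼ part R146/ObsD_548
section

/-!
# R146, node OBS-4 (helper548), part 1: the variational value as a function of the strength of a
row observable, and concentration of the row observable from ONE-SIDED bounds on the limit pressure

* `tp_of_key` : as `ObsB_548.tp_of_pressure`, but only upper bounds for the limit near `0`;
* `row_observable_key` : literal row observable;
* `Pv_pert_le` : `Pv(f + h psi) <= alpha V_f(m) + S(m) + alpha h E psi(X*_m) + error`, all `m`.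
-/

set_option autoImplicit false
set_option linter.unusedSectionVars false

open MeasureTheory ProbabilityTheory Filter
open scoped ENNReal NNReal Topology
open Crest.ProbabilityR.Perceptron
open Crest.Agent.R146.Obs918 Crest.Agent.R146.ObsA_548 Crest.Agent.R146.ObsB_548
open Crest.Agent.R146.ObsC_548
open Crest.Agent.R146.RepairLaw_840 Crest.Agent.R146.P34_734

namespace Crest.Agent.R146.ObsD_548

section asym

variable {Ω Y : ℕ → Type*} [∀ n, MeasurableSpace (Ω n)] [∀ n, MeasurableSpace (Y n)]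
  {μ : ∀ n, Measure (Ω n)} {σ : ∀ n, Measure (Y n)} {w : ∀ n, Ω n → Y n → ℝ}
  {S : ∀ n, Ω n × Y n → ℝ}

/-- one-sided version of `tp_of_pressure` -/
theorem tp_of_key (hμ : ∀ᶠ n in atTop, IsProbabilityMeasure (μ n))
    (hσ : ∀ n, IsFiniteMeasure (σ n))
    (hw : ∀ᶠ n in atTop, GoodWeight (σ n) (w n)) (hS : ∀ n, Measurable (S n))
    (hSb : ∀ n, ∃ K : ℝ, ∀ p, |S n p| ≤ K) (v : ℝ)
    (hvar : ∀ s : ℝ, ∃ C : ℝ, 0 ≤ C ∧ ∀ᶠ n : ℕ in atTop,
      R151.V.dvar (μ n) (LT (σ n) (w n) (S n) s) ≤ ENNReal.ofReal (C * n))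
    {h0 : ℝ} (hh0 : 0 < h0) {p : ℝ → ℝ}
    (key : ∀ η : ℝ, 0 < η → ∃ s : ℝ, 0 < s ∧ s < h0 ∧ p s - p 0 ≤ s * (v + η) ∧
      p (-s) - p 0 ≤ s * (-v + η))
    (hlim : ∀ h : ℝ, |h| < h0 → Tendsto (fun n : ℕ =>
      (∫ ω, LT (σ n) (w n) (S n) h ω ∂(μ n)) / n) atTop (𝓝 (p h))) :
    TP (fun n => joint (μ n) (σ n) (w n)) (fun n q => S n q / n) v := by
  have hL0 := hlim 0 (by simpa using hh0)
  have hup : ∀ η : ℝ, 0 < η → Tendsto (fun n : ℕ =>
      joint (μ n) (σ n) (w n) {q | n * (v + η) < S n q}) atTop (𝓝 0) := by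
    refine upper_tail hμ hσ hw hS hSb v hvar ?_
    intro η hη
    obtain ⟨s, hs, hs0, h1, -⟩ := key (η / 2) (half_pos hη)
    refine ⟨s, hs, ?_⟩
    have hLs := hlim s (by rw [abs_of_pos hs]; exact hs0)
    have hd := hLs.sub hL0
    have hlt : p s - p 0 < s * (v + η) := by nlinarith
    filter_upwards [hd.eventually_lt_const hlt, eventually_gt_atTop 0] with n hn hn0
    have hnR : (0 : ℝ) < n := by exact_mod_cast hn0
    rw [← sub_div, div_lt_iff₀ hnR] at hn
    linarith
  have hdn : ∀ η : ℝ, 0 < η → Tendsto (fun n : ℕ =>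
      joint (μ n) (σ n) (w n) {q | n * (-v + η) < -S n q}) atTop (𝓝 0) := by
    have hvar' : ∀ s : ℝ, ∃ C : ℝ, 0 ≤ C ∧ ∀ᶠ n : ℕ in atTop,
        R151.V.dvar (μ n) (LT (σ n) (w n) (fun p => - S n p) s) ≤ ENNReal.ofReal (C * n) := by
      intro s
      obtain ⟨C, hC, h⟩ := hvar (-s)
      refine ⟨C, hC, ?_⟩
      filter_upwards [h] with n hn
      rw [LT_neg]
      exact hn
    refine upper_tail (S := fun n p => - S n p) hμ hσ hw (fun n => (hS n).neg)
      (fun n => ?_) (-v) hvar' ?_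
    · obtain ⟨K, hK⟩ := hSb n
      exact ⟨K, fun p => by rw [abs_neg]; exact hK p⟩
    intro η hη
    obtain ⟨s, hs, hs0, -, h1⟩ := key (η / 2) (half_pos hη)
    refine ⟨s, hs, ?_⟩
    have hLs := hlim (-s) (by rw [abs_neg, abs_of_pos hs]; exact hs0)
    have hd := hLs.sub hL0
    have hlt : p (-s) - p 0 < s * (-v + η) := by nlinarith
    filter_upwards [hd.eventually_lt_const hlt, eventually_gt_atTop 0] with n hn hn0
    have hnR : (0 : ℝ) < n := by exact_mod_cast hn0
    simp only [LT_neg, neg_zero]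
    rw [← sub_div, div_lt_iff₀ hnR] at hn
    linarith
  refine TP.of_subset fun η hη => ⟨fun n => {q | n * (v + η) < S n q} ∪
    {q | n * (-v + η) < -S n q}, tendsto_union (hup η hη) (hdn η hη), ?_⟩
  filter_upwards [eventually_gt_atTop 0] with n hn q hq
  have hnR : (0 : ℝ) < n := by exact_mod_cast hn
  simp only [Set.mem_ofPred_eq] at hq
  rcases lt_abs.1 hq with h | h
  · left
    have h2 : v + η < S n q / n := by linarith
    rw [lt_div_iff₀ hnR] at h2
    show n * (v + η) < S n q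
    linarith
  · right
    have h2 : S n q / n < v - η := by linarith
    rw [div_lt_iff₀ hnR] at h2
    show n * (-v + η) < -S n q
    linarith

end asym

/-- concentration of a bounded row observable from one-sided bounds of the limit pressure -/
theorem row_observable_key {ν : Measure ℝ} (hν : Good ν) {α β : ℝ} (hα : 0 < α) (hβ : 0 ≤ β)
    {ψ : ℝ → ℝ} (hψ : Measurable ψ) {K : ℝ} (hK : ∀ x, |ψ x| ≤ K) {h0 : ℝ} (hh0 : 0 < h0)
    {p : ℝ → ℝ} {v : ℝ}
    (key : ∀ η : ℝ, 0 < η → ∃ s : ℝ, 0 < s ∧ s < h0 ∧ p s - p 0 ≤ s * (α * v + η) ∧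
      p (-s) - p 0 ≤ s * (-(α * v) + η))
    (hlim : ∀ h : ℝ, |h| < h0 → Tendsto (fun N : ℕ => ∫ A, pertPressure N α β ψ h A
      ∂(Measure.pi fun _ : Fin (numPatterns N α) × Fin N => ν)) atTop (𝓝 (p h))) :
    TP (fun N => joint (Measure.pi fun _ : Fin (numPatterns N α) × Fin N => ν) (sphereLaw N)
      (wg N α β)) (fun N q => (∑ μ, ψ (gap q.1 q.2 μ)) / numPatterns N α) v := by
  have hprob := hν.prob
  have hK0 : 0 ≤ K := (abs_nonneg _).trans (hK 0)
  have h1 := tp_of_key
    (μ := fun N => (Measure.pi fun _ : Fin (numPatterns N α) × Fin N => ν : Measure (Patterns N α)))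
    (σ := fun N => sphereLaw N) (w := fun N => wg N α β) (S := fun N => So N α ψ)
    (Eventually.of_forall fun N => inferInstance) (fun N => finite_sphere N)
    (by
      filter_upwards [eventually_gt_atTop 0] with N hN
      exact goodWeight hN α hβ)
    (fun N => measurable_So N α hψ) (fun N => ⟨_, So_bdd N α hK⟩) (α * v)
    (by
      intro s
      set c := 4 * ((|s| * K) ^ 2 + (β ^ 2 / 2 * (48 * Real.exp 1) + 2 * (s ^ 2 * K ^ 2))) with hc
      have hc0 : 0 ≤ c := by positivity
      refine ⟨c * (α + 1), by positivity, ?_⟩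
      have h2 := (tendsto_numPatterns_div α hα.le).eventually_lt_const (lt_add_one α)
      filter_upwards [h2, eventually_gt_atTop 0] with N hN2 hN
      have hNR : (0 : ℝ) < N := by exact_mod_cast hN
      refine (dvar_LT_le hν hN α hβ s hψ hK0 hK).trans (ENNReal.ofReal_le_ofReal ?_)
      rw [div_lt_iff₀ hNR] at hN2
      have h3 := mul_le_mul_of_nonneg_left hN2.le hc0
      calc _ = c * numPatterns N α := by rw [hc]
        _ ≤ c * ((α + 1) * N) := h3
        _ = _ := by ring)
    hh0 key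
    (by
      intro h hh
      refine (hlim h hh).congr fun N => ?_
      simp only [pertPressure_eq]
      rw [integral_div])
  have h2 := TP.div h1 (tp_seq _ (tendsto_numPatterns_div α hα.le)) hα.ne'
  rw [mul_div_cancel_left₀ _ hα.ne'] at h2
  refine h2.congr' ?_
  filter_upwards [eventually_gt_atTop 0] with N hN q
  have hNR : (0 : ℝ) < N := by exact_mod_cast hN
  unfold So
  rw [div_div_div_cancel_right₀ hNR.ne']


/-! ### The variational side -/

section Pv

open Crest.Agent.R146.DualQ_256 Crest.Agent.R146.DualC1_256 Crest.Agent.R146.DualV_256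
  Crest.Agent.R146.DualL_256

variable (W : BS)

/-- lower bound for the control value, uniform in the profile -/
lemma valP_ge {b : ℝ} (hb : 0 < b) (k : ℝ) (m : OverlapProfile) :
    -(b / 2 * ‖ZB W.br - cst W.P k‖ ^ 2) ≤ valP W.meas W.br m hb k := by
  unfold valP
  rw [QQ_def]
  set x := lamP W.meas W.br m hb k
  have h1 := (fam (brownianFiltration W.B W.meas) W.P).bil_self_nonneg (wt_profile m).nonneg x
  have h2 := abs_real_inner_le_norm (ZB W.br - cst W.P k) x
  have h3 := (abs_le.1 h2).1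
  set A := ‖ZB W.br - cst W.P k‖
  set X := ‖x‖
  have h4 : -(b / 2 * A ^ 2) ≤ -(A * X) + 1 / b / 2 * X ^ 2 := by
    have : 0 ≤ (b * A - X) ^ 2 / (2 * b) := by positivity
    have h5 : (b * A - X) ^ 2 / (2 * b) = b / 2 * A ^ 2 - A * X + 1 / b / 2 * X ^ 2 := by
      field_simp
      ring
    linarith
  linarith

lemma abs_mul_int_le {psi : ℝ → ℝ} {C : ℝ} (hC : ∀ x, |psi x| ≤ C) (h : ℝ) (Y : W.Ω → ℝ) :
    |h * ∫ ω, psi (Y ω) ∂W.P| ≤ |h| * C := by
  rw [abs_mul]
  exact mul_le_mul_of_nonneg_left (abs_integral_psi_le hC _) (abs_nonneg h)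

/-- the perturbed values are bounded below -/
lemma bddBelow_vals {α : ℝ} (hα : 0 ≤ α) {b : ℝ} (hb : 0 < b) (k h : ℝ) {psi : ℝ → ℝ}
    (hpsi : Continuous psi) {C : ℝ} (hC : ∀ x, |psi x| ≤ C) :
    BddBelow (W.vals α fun x => fq b k x + h * psi x) := by
  refine ⟨α * (-(b / 2 * ‖ZB W.br - cst W.P k‖ ^ 2) - |h| * C), ?_⟩
  rintro _ ⟨m, -, rfl⟩
  have h1 := value_pert_ge W.meas W.br m hb k h hpsi hC
  have h2 := valP_ge W hb k m
  have h3 := (abs_le.1 (abs_mul_int_le W hC h (XP W.meas W.br m hb k))).1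
  have h4 : (0 : ℝ) ≤ m.entropy.toReal := ENNReal.toReal_nonneg
  have h5 : -(b / 2 * ‖ZB W.br - cst W.P k‖ ^ 2) - |h| * C ≤
      W.V (fun x => fq b k x + h * psi x) m := by
    have : W.V (fun x => fq b k x + h * psi x) m =
      controlValue W.P W.B W.meas (fun x => fbk b k x + h * psi x) m := rfl
    rw [this]
    linarith
  have h6 := mul_le_mul_of_nonneg_left h5 hα
  linarith

/-- **upper bound for the perturbed variational value by any profile of finite entropy** -/
theorem Pv_pert_le {α : ℝ} (hα : 0 ≤ α) {b : ℝ} (hb : 0 < b) (k h : ℝ) {psi : ℝ → ℝ}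
    {l : ℝ} (hl : ∀ x y, |psi x - psi y| ≤ l * |x - y|) {C : ℝ} (hC : ∀ x, |psi x| ≤ C)
    (m : OverlapProfile) (hm : m.entropy ≠ ⊤) :
    W.Pv α (fun x => fq b k x + h * psi x) ≤
      (α * W.V (fq b k) m + m.entropy.toReal) +
        α * (h * (∫ ω, psi (XP W.meas W.br m hb k ω) ∂W.P) +
        |h| * (l * Real.sqrt (4 * |h| * C))) := by
  have hl0 : 0 ≤ l := by
    have := (abs_nonneg _).trans (hl 1 0)
    simpa using this
  have hcont : Continuous psi := by
    refine LipschitzWith.continuous (K := l.toNNReal) (LipschitzWith.of_dist_le_mul fun x y => ?_)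
    rw [Real.dist_eq, Real.dist_eq, Real.coe_toNNReal l hl0]; exact hl x y
  have h1 := value_pert_le_lip W.meas W.br m hb k h hl hC
  have h2 : W.V (fq b k) m = valP W.meas W.br m hb k := value_fbk W.meas W.br m hb k
  have h3 : W.V (fun x => fq b k x + h * psi x) m =
      controlValue W.P W.B W.meas (fun x => fbk b k x + h * psi x) m := rfl
  have h4 : W.Pv α (fun x => fq b k x + h * psi x) ≤
      α * W.V (fun x => fq b k x + h * psi x) m + m.entropy.toReal :=
    csInf_le (bddBelow_vals W hα hb k h hcont hC) ⟨m, hm, rfl⟩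
  refine h4.trans ?_
  rw [h3, h2]
  have h5 := mul_le_mul_of_nonneg_left h1 hα
  linarith

/-- `mu` is a limit law of the optimal terminal points of a minimising sequence of profiles -/
def NearLaw (α b : ℝ) (hb : 0 < b) (k : ℝ) (mu : Measure ℝ) : Prop :=
  ∃ ms : ℕ → OverlapProfile, (∀ n, (ms n).entropy ≠ ⊤) ∧
    Tendsto (fun n => α * W.V (fq b k) (ms n) + (ms n).entropy.toReal) atTop
      (𝓝 (W.Pv α (fq b k))) ∧
    ∀ (psi : ℝ → ℝ), Continuous psi → (∃ C, ∀ x, |psi x| ≤ C) →
      Tendsto (fun n => ∫ ω, psi (XP W.meas W.br (ms n) hb k ω) ∂W.P) atTop (𝓝 (∫ x, psi x ∂mu))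

/-- a minimising profile -/
def IsMinP (α b k : ℝ) (m : OverlapProfile) : Prop :=
  m.entropy ≠ ⊤ ∧ W.Pv α (fq b k) = α * W.V (fq b k) m + m.entropy.toReal

variable {W}

theorem IsMinP.nearLaw {α b k : ℝ} {m : OverlapProfile} (h : IsMinP W α b k m) (hb : 0 < b) :
    NearLaw W α b hb k (W.P.map (XP W.meas W.br m hb k)) := by
  refine ⟨fun _ => m, fun _ => h.1, ?_, fun psi hpsi hC => ?_⟩
  · rw [h.2]; exact tendsto_const_nhds
  · rw [integral_map (Lp.aestronglyMeasurable _).aemeasurable hpsi.aestronglyMeasurable]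
    exact tendsto_const_nhds

variable (W)

/-- **touching**: one-sided expansion of the variational value -/
theorem Pv_le_of_nearLaw {α : ℝ} (hα : 0 ≤ α) {b : ℝ} (hb : 0 < b) (k : ℝ) {mu : Measure ℝ}
    (hmu : NearLaw W α b hb k mu) (h : ℝ) {psi : ℝ → ℝ}
    {l : ℝ} (hl : ∀ x y, |psi x - psi y| ≤ l * |x - y|) {C : ℝ} (hC : ∀ x, |psi x| ≤ C) :
    W.Pv α (fun x => fq b k x + h * psi x) ≤ W.Pv α (fq b k) +
        α * (h * (∫ x, psi x ∂mu) + |h| * (l * Real.sqrt (4 * |h| * C))) := by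
  obtain ⟨ms, h1, h2, h3⟩ := hmu
  have hl0 : 0 ≤ l := by
    have := (abs_nonneg _).trans (hl 1 0)
    simpa using this
  have hcont : Continuous psi := by
    refine LipschitzWith.continuous (K := l.toNNReal) (LipschitzWith.of_dist_le_mul fun x y => ?_)
    rw [Real.dist_eq, Real.dist_eq, Real.coe_toNNReal l hl0]; exact hl x y
  have h4 := h2.add ((((h3 psi hcont ⟨C, hC⟩).const_mul h).add_const
    (|h| * (l * Real.sqrt (4 * |h| * C)))).const_mul α)
  exact ge_of_tendsto' h4 fun n => Pv_pert_le W hα hb k h hl hC (ms n) (h1 n)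

/-- the `key` hypothesis of `row_observable_key` -/
theorem key_of_nearLaw {α : ℝ} (hα : 0 ≤ α) {b : ℝ} (hb : 0 < b) (k : ℝ) {mu : Measure ℝ}
    (hmu : NearLaw W α b hb k mu) {psi : ℝ → ℝ}
    {l : ℝ} (hl : ∀ x y, |psi x - psi y| ≤ l * |x - y|) {C : ℝ} (hC : ∀ x, |psi x| ≤ C)
    {h0 : ℝ} (hh0 : 0 < h0) (η : ℝ) (hη : 0 < η) :
    ∃ s : ℝ, 0 < s ∧ s < h0 ∧
      W.Pv α (fun x => fq b k x + s * psi x) - W.Pv α (fun x => fq b k x + 0 * psi x) ≤
        s * (α * (∫ x, psi x ∂mu) + η) ∧
      W.Pv α (fun x => fq b k x + -s * psi x) - W.Pv α (fun x => fq b k x + 0 * psi x) ≤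
        s * (-(α * (∫ x, psi x ∂mu)) + η) := by
  have hcont : Continuous fun s : ℝ => α * (l * Real.sqrt (4 * s * C)) := by fun_prop
  have h1 : Tendsto (fun s : ℝ => α * (l * Real.sqrt (4 * s * C))) (𝓝 0) (𝓝 0) := by
    have := hcont.tendsto 0
    simpa using this
  have h2 : ∀ᶠ s : ℝ in 𝓝[>] 0, α * (l * Real.sqrt (4 * s * C)) < η :=
    (h1.eventually_lt_const hη).filter_mono nhdsWithin_le_nhds
  have h3 : ∀ᶠ s : ℝ in 𝓝[>] 0, s < h0 := by
    have : Set.Iio h0 ∈ 𝓝 (0 : ℝ) := Iio_mem_nhds hh0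
    exact mem_nhdsWithin_of_mem_nhds this
  obtain ⟨s, ⟨hs2, hs3⟩, hs⟩ := ((h2.and h3).and self_mem_nhdsWithin).exists
  have hs0 : 0 < s := hs
  have h00 : (fun x => fq b k x + 0 * psi x) = fq b k := by funext x; ring
  refine ⟨s, hs0, hs3, ?_, ?_⟩
  · have h4 := Pv_le_of_nearLaw W hα hb k hmu s hl hC
    rw [abs_of_pos hs0] at h4
    rw [h00]
    have h5 := mul_le_mul_of_nonneg_left hs2.le hs0.le
    nlinarith
  · have h4 := Pv_le_of_nearLaw W hα hb k hmu (-s) hl hC
    rw [abs_neg, abs_of_pos hs0] at h4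
    rw [h00]
    have h5 := mul_le_mul_of_nonneg_left hs2.le hs0.le
    nlinarith

end Pv

end Crest.Agent.R146.ObsD_548
end

-- ▼ part R146/NLevD_918
section

/-!
Row 146, node NLEV, part D (helper918): the two inputs `MeanEmp` and `ForceLim` of
`Obs918.S0205_of_inputs` from `P34_734.EPS` and helper548's `NearLaw` / `IsMinP`.
-/

set_option linter.unusedSectionVars false

namespace Crest.Agent.R146.NLev918

open MeasureTheory Filter Topology
open Crest.ProbabilityR.Perceptron
open Crest.Agent.R146.Obs918 (TP joint emp MeanEmp ForceLim)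
open Crest.Agent.R146.P34_734
open Crest.Agent.R146.ObsC_548 (pertPressure)
open Crest.Agent.R146.ObsD_548 (NearLaw IsMinP)
open Crest.Agent.R146.Emp_788 (QN rowAvg GapLaw)

lemma Test.lip {ψ : ℝ → ℝ} (h : Test ψ) : ∃ l : ℝ, ∀ x y, |ψ x - ψ y| ≤ l * |x - y| := by
  obtain ⟨C, hC⟩ := h.bd 1
  have hd : Differentiable ℝ ψ := (h.smooth 1).differentiable (by norm_num)
  refine ⟨C, fun x y => ?_⟩
  have h1 := Convex.norm_image_sub_le_of_norm_deriv_le (f := ψ) (s := Set.univ) (C := C)
    (fun z _ => hd z) (fun z _ => by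
      have := hC z
      rw [iteratedDeriv_one] at this
      rwa [Real.norm_eq_abs]) convex_univ (Set.mem_univ y) (Set.mem_univ x)
  simpa [Real.norm_eq_abs] using h1

/-- Convergence of the empirical law of the gaps in `QN`-probability, at fixed `(α, b, ε)`. -/
theorem gapLaw_of_nearLaw {W : BS} {α b ε : ℝ} (hα : 0 < α) (hb : 0 < b) (h0 : 0 ≤ ε)
    (h1 : ε ≤ 1) {μ : Measure ℝ} [IsProbabilityMeasure μ] (hE : EpsAt W α b ε)
    (hμ : NearLaw W α b hb (-1) μ) : GapLaw α b ε (μ.map fun x => 1 + x) := by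
  have := Measure.isProbabilityMeasure_map (μ := μ) (measurable_const_add (1 : ℝ)).aemeasurable
  rintro ψ ⟨K, hK⟩ ⟨L, hL⟩
  refine tp_ext' (fun χ hχ => ?_) hL.continuous hK
  have hχ' : Test fun x => χ (1 + x) := Test.shift hχ 1
  obtain ⟨C, hC⟩ := Test.bdd hχ
  obtain ⟨l, hl⟩ := Test.lip hχ'
  obtain ⟨s0, hs0, hlim⟩ := hE _ hχ'
  have h := ObsD_548.row_observable_key (RepairLaw_840.good_mixtureLaw ε h0 h1) hα hb.le
    (Test.measurable hχ) hC hs0
    (p := fun h => W.Pv α fun x => fq b (-1) x + h * χ (1 + x)) (v := ∫ x, χ (1 + x) ∂μ)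
    (fun η hη => ObsD_548.key_of_nearLaw W hα.le hb (-1) hμ hl (fun x => hC _) hs0 η hη)
    (fun h hh => by
      refine (hlim h hh.le).congr fun N => ?_
      rw [← pertPressure_mean]
      rfl)
  have h2 : ∫ x, χ x ∂(μ.map fun x => 1 + x) = ∫ x, χ (1 + x) ∂μ := by
    rw [integral_map (measurable_const_add 1).aemeasurable
      (Test.measurable hχ).aestronglyMeasurable]
  rw [h2]
  intro η hη
  have h3 := (h η hη).comp (tendsto_add_atTop_nat 1)
  exact h3

/-- The inputs of S0205 at fixed `(α, b, ε)`. -/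
theorem inputs_of_nearLaw {W : BS} {α b ε : ℝ} (hα : 0 < α) (hb : 0 < b) (h0 : 0 ≤ ε)
    (h1 : ε ≤ 1) {μ : Measure ℝ} [IsProbabilityMeasure μ] (hE : EpsAt W α b ε)
    (hμ : NearLaw W α b hb (-1) μ) :
    MeanEmp α b ε (μ.map fun x => 1 + x) ∧ ForceLim α b ε (μ.map fun x => 1 + x) := by
  have := Measure.isProbabilityMeasure_map (μ := μ) (measurable_const_add (1 : ℝ)).aemeasurable
  have H := gapLaw_of_nearLaw hα hb h0 h1 hE hμ
  exact ⟨Emp_788.meanEmp_of_gapLaw hb.le H, Emp_788.forceLim_of_gapLaw hα hb.le h0 h1 H⟩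

/-- **NLEV**: both inputs of S0205 from `EPS`, for every limit law of near-optimal terminal
points. -/
theorem inputs_of_eps {W : BS} (hE : EPS W) {αc : ℝ} (hαc : 0 < αc)
    (hsat : ∀ α : ℝ, 0 < α → α < αc → Tendsto (fun N : ℕ => satProb N α) atTop (𝓝 1)) :
    ∃ ε0 : ℝ, 0 < ε0 ∧ ε0 < 1 ∧ ∃ η : ℝ, 0 < η ∧ ∀ ε : ℝ, 0 ≤ ε → ε < ε0 →
      ∀ α : ℝ, αc < α → α < αc + η → ∀ (b : ℝ) (hb : 0 < b) (μ : Measure ℝ),
        IsProbabilityMeasure μ → NearLaw W α b hb (-1) μ →
          MeanEmp α b ε (μ.map fun x => 1 + x) ∧ ForceLim α b ε (μ.map fun x => 1 + x) := by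
  obtain ⟨ε0, h1, h2, η, h3, h4⟩ := hE αc hαc hsat
  refine ⟨ε0, h1, h2, η, h3, fun ε he0 he1 α ha1 ha2 b hb μ hμ hN => ?_⟩
  exact inputs_of_nearLaw (hαc.trans ha1) hb he0 (he1.le.trans h2.le)
    (h4 ε he0 he1 α ha1 ha2 b hb) hN

/-- **NLEV** for a minimising profile; `X` is any random variable with `X = 1 + X*` a.e. -/
theorem inputs_of_isMinP {W : BS} (hE : EPS W) {αc : ℝ} (hαc : 0 < αc)
    (hsat : ∀ α : ℝ, 0 < α → α < αc → Tendsto (fun N : ℕ => satProb N α) atTop (𝓝 1)) :
    ∃ ε0 : ℝ, 0 < ε0 ∧ ε0 < 1 ∧ ∃ η : ℝ, 0 < η ∧ ∀ ε : ℝ, 0 ≤ ε → ε < ε0 →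
      ∀ α : ℝ, αc < α → α < αc + η → ∀ (b : ℝ) (hb : 0 < b) (m : OverlapProfile),
        IsMinP W α b (-1) m → ∀ X : W.Ω → ℝ,
          X =ᵐ[W.P] (fun ω => 1 + DualL_256.XP W.meas W.br m hb (-1) ω) →
          MeanEmp α b ε (W.P.map X) ∧ ForceLim α b ε (W.P.map X) := by
  obtain ⟨ε0, h1, h2, η, h3, h4⟩ := inputs_of_eps hE hαc hsat
  refine ⟨ε0, h1, h2, η, h3, fun ε he0 he1 α ha1 ha2 b hb m hm X hX => ?_⟩
  have hXm := (Lp.aestronglyMeasurable (DualL_256.XP W.meas W.br m hb (-1))).aemeasurable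
  have h5 := h4 ε he0 he1 α ha1 ha2 b hb _ (Measure.isProbabilityMeasure_map hXm)
    (hm.nearLaw hb)
  rw [AEMeasurable.map_map_of_aemeasurable (by fun_prop) hXm] at h5
  rw [Measure.map_congr hX]
  exact h5

end Crest.Agent.R146.NLev918
end

-- ▼ part R146/ObsAsm_918
section

/-!
Row 146, package OBS, part 4 (helper918): the literal conclusion of S0205 from
* `JamData` (package P5),
* `MeanEmp`, `ForceLim` for every `ε < ε₀`, `α ∈ (αc, αc + η)`, `β > 0` (tasks OBS-1/2 + LOC),
* the two logarithmic limits (package P5 (7) + TIP) and the numerical window of `ν` (package NUM).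
-/

set_option linter.unusedSectionVars false

namespace Crest.Agent.R146.Obs918

open MeasureTheory Filter Topology
open Crest.ProbabilityR.Perceptron

section Asm

variable {Ω : Type*} [MeasurableSpace Ω] {P : Measure Ω} [IsProbabilityMeasure P] {αc η : ℝ}
  {X : ℝ → ℝ → Ω → ℝ} {X0 : ℝ → Ω → ℝ} {hJ lJ : Ω → ℝ} {c : ℝ → ℝ}

/-- Change of scale inside a logarithmic exponent. -/
lemma log_ratio_scale {f : ℝ → ℝ} {r q κ : ℝ} (hr : 0 < r) (hq : 0 < q)
    (hf : ∀ᶠ s in 𝓝[>] (0:ℝ), 0 < f s)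
    (h : Tendsto (fun s => Real.log (f s) / Real.log s) (𝓝[>] 0) (𝓝 κ)) :
    Tendsto (fun s => Real.log (f (s * r) / q) / Real.log s) (𝓝[>] 0) (𝓝 κ) := by
  have hscale : Tendsto (fun s : ℝ => s * r) (𝓝[>] 0) (𝓝[>] 0) := by
    refine tendsto_nhdsWithin_iff.2 ⟨?_, ?_⟩
    · have : Tendsto (fun s : ℝ => s * r) (𝓝 0) (𝓝 (0 * r)) :=
        (continuous_id.mul continuous_const).tendsto 0
      rw [zero_mul] at this
      exact this.mono_left nhdsWithin_le_nhds
    · filter_upwards [self_mem_nhdsWithin] with s hs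
      exact mul_pos hs hr
  have hlog : Tendsto Real.log (𝓝[>] 0) atBot := Real.tendsto_log_nhdsGT_zero
  have h1 : Tendsto (fun s => Real.log (f (s * r)) / Real.log (s * r)) (𝓝[>] 0) (𝓝 κ) :=
    h.comp hscale
  have hinv : Tendsto (fun s => (Real.log s)⁻¹) (𝓝[>] (0:ℝ)) (𝓝 0) :=
    tendsto_inv_atBot_zero.comp hlog
  have h2 : Tendsto (fun s => 1 + Real.log r * (Real.log s)⁻¹) (𝓝[>] (0:ℝ)) (𝓝 1) := by
    have := (hinv.const_mul (Real.log r)).const_add 1
    simpa using this
  have h3 : Tendsto (fun s => Real.log q * (Real.log s)⁻¹) (𝓝[>] (0:ℝ)) (𝓝 0) := by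
    have := hinv.const_mul (Real.log q)
    simpa using this
  have h4 := (h1.mul h2).sub h3
  rw [mul_one, sub_zero] at h4
  refine h4.congr' ?_
  have hneg : ∀ᶠ s in 𝓝[>] (0:ℝ), Real.log s < 0 := hlog.eventually (eventually_lt_atBot 0)
  have hneg' : ∀ᶠ s in 𝓝[>] (0:ℝ), Real.log (s * r) < 0 := hscale.eventually hneg
  have hf' : ∀ᶠ s in 𝓝[>] (0:ℝ), 0 < f (s * r) := hscale.eventually hf
  filter_upwards [hneg, hneg', hf', self_mem_nhdsWithin] with s h5 h6 h7 h8
  have h8' : (0:ℝ) < s := h8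
  rw [Real.log_div h7.ne' hq.ne']
  have h9 : Real.log (s * r) = Real.log s + Real.log r := Real.log_mul h8'.ne' hr.ne'
  have h10 : 1 + Real.log r * (Real.log s)⁻¹ = Real.log (s * r) / Real.log s := by
    rw [h9, add_div, div_self h5.ne, div_eq_mul_inv]
  rw [h10, div_mul_div_cancel₀ h6.ne, ← div_eq_mul_inv, ← sub_div]

/-- **Assembly of S0205.** -/
theorem S0205_of_inputs (D : JamData P αc η X X0 hJ lJ c) (hLm : Measurable lJ)
    {ε₀ : ℝ} (hε₀ : 0 < ε₀) (hε₁ : ε₀ < 1)
    (hG : ∀ ε : ℝ, 0 ≤ ε → ε < ε₀ → ∀ α, αc < α → α < αc + η → ∀ β, 0 < β →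
      MeanEmp α β ε (P.map (X α β)))
    (hF : ∀ ε : ℝ, 0 ≤ ε → ε < ε₀ → ∀ α, αc < α → α < αc + η → ∀ β, 0 < β →
      ForceLim α β ε (P.map (X α β)))
    {ν : ℝ} (hν1 : 0.2936533 < ν) (hν2 : ν < 0.2936535)
    (hexpG : Tendsto (fun u : ℝ => Real.log (P.real {ω | 0 < hJ ω ∧ hJ ω ≤ u}) / Real.log u)
      (𝓝[>] 0) (𝓝 (2 * ν)))
    (hexpF : Tendsto (fun s : ℝ => Real.log (P.real {ω | 0 < lJ ω ∧ lJ ω ≤ s}) / Real.log s)
      (𝓝[>] 0) (𝓝 (2 * ν / (1 - 2 * ν)))) :
    ∃ ε₀ : ℝ, 0 < ε₀ ∧ ε₀ < 1 ∧ ∃ G F : ℝ → ℝ,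
      (∀ ε : ℝ, 0 ≤ ε → ε < ε₀ →
        (∀ u : ℝ, 0 < u → ∃ g : ℝ → ℝ,
          (∀ δ : ℝ, 0 < δ → δ < u →
            HasOrderedLimit (fun N β α => gapMean N β α ε δ u) αc (g δ)) ∧
          Filter.Tendsto g (nhdsWithin 0 (Set.Ioi 0)) (nhds (G u))) ∧
        (∀ s : ℝ, 0 < s → HasOrderedLimit (fun N β α => forceMean N β α ε s) αc (F s))) ∧
      (∃ P : MeasureTheory.Measure ℝ, MeasureTheory.IsProbabilityMeasure P ∧
        P (Set.Iic 0) = 0 ∧ ∫ x, x ∂P = 1 ∧
        ∀ s : ℝ, 0 < s → F s = (P (Set.Iic s)).toReal) ∧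
      ∃ γ θ : ℝ, γ = 1 / (2 + θ) ∧ 0.4126930 < γ ∧ γ < 0.4126934 ∧
        0.4231063 < θ ∧ θ < 0.4231088 ∧
        Filter.Tendsto (fun u : ℝ => Real.log (G u) / Real.log u)
          (nhdsWithin 0 (Set.Ioi 0)) (nhds (1 - γ)) ∧
        Filter.Tendsto (fun s : ℝ => Real.log (F s) / Real.log s)
          (nhdsWithin 0 (Set.Ioi 0)) (nhds (1 + θ)) := by
  refine ⟨ε₀, hε₀, hε₁, fun u => P.real {ω | 0 < hJ ω ∧ hJ ω ≤ u}, fcdf P lJ, ?_, ?_, ?_⟩
  · intro ε h0 h1
    refine ⟨fun u hu => ⟨fun δ => P.real {ω | δ < hJ ω ∧ hJ ω ≤ u}, ?_, ?_⟩, ?_⟩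
    · intro δ hδ hδu
      exact D.gap_limit (hG ε h0 h1) hδ hδu
    · exact tendsto_Ioc_zero D.intH.1.aemeasurable u
    · intro s hs
      exact D.force_limit (hF ε h0 h1) hs
  · exact lawF hLm D.intL D.L_nonneg D.posL
  · have hγ0 : (0:ℝ) < 1 - 2 * ν := by linarith
    refine ⟨1 - 2 * ν, 1 / (1 - 2 * ν) - 2, ?_, by linarith, by linarith, ?_, ?_, ?_, ?_⟩
    · field_simp
      ring
    · have : (2.4231063 : ℝ) < 1 / (1 - 2 * ν) := by
        rw [lt_div_iff₀ hγ0]; nlinarith
      linarith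
    · have : 1 / (1 - 2 * ν) < (2.4231088 : ℝ) := by
        rw [div_lt_iff₀ hγ0]; nlinarith
      linarith
    · have : 1 - (1 - 2 * ν) = 2 * ν := by ring
      rw [this]; exact hexpG
    · have h1 : 1 + (1 / (1 - 2 * ν) - 2) = 2 * ν / (1 - 2 * ν) := by
        field_simp; ring
      rw [h1]
      -- `P(0 < lJ ≤ s) > 0` for small `s`, otherwise the exponent would be `0`
      have hpos : ∀ᶠ s in 𝓝[>] (0:ℝ), 0 < P.real {ω | 0 < lJ ω ∧ lJ ω ≤ s} := by
        by_contra hcon
        have hfreq : ∃ᶠ s in 𝓝[>] (0:ℝ), P.real {ω | 0 < lJ ω ∧ lJ ω ≤ s} = 0 := by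
          have h2 : ∃ᶠ s in 𝓝[>] (0:ℝ), ¬ 0 < P.real {ω | 0 < lJ ω ∧ lJ ω ≤ s} :=
            not_eventually.1 hcon
          exact h2.mono fun s hs => le_antisymm (not_lt.1 hs) measureReal_nonneg
        have h3 : (0:ℝ) < 2 * ν / (1 - 2 * ν) := div_pos (by linarith) hγ0
        have h4 := (tendsto_order.1 hexpF).1 0 h3
        obtain ⟨s, hs1, hs2⟩ := (hfreq.and_eventually h4).exists
        rw [hs1, Real.log_zero, zero_div] at hs2
        exact lt_irrefl _ hs2
      have hr : 0 < (∫ ω, lJ ω ∂P) / P.real {ω | 0 < lJ ω} := by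
        have := level_pos D.intL D.L_nonneg D.posL one_pos
        rwa [one_mul] at this
      have h5 := log_ratio_scale (f := fun s => P.real {ω | 0 < lJ ω ∧ lJ ω ≤ s}) hr D.posL
        hpos hexpF
      exact h5

end Asm


end Crest.Agent.R146.Obs918
end

-- ▼ part R146/S0205Asm_12

/-!
Row 146: the literal conclusion of S0205 from the frozen nodes (helper12).

`s0205_of W` : the nodes of `P34_734` (S0203/S0204/EPS), the nodes of `P5Def_12` (limit nodes, TIPW)
and `EXPO` (exponents at a jamming minimiser, helper778) ⟹ S0205.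
-/

set_option autoImplicit false

namespace Crest.Agent.R146.S0205Asm_12

open Set Filter Topology MeasureTheory ProbabilityTheory Crest.ProbabilityR.Perceptron
open Crest.Agent.R146.Hilb Crest.Agent.R146.ProfB_540 Crest.Agent.R146.HilbE
open Crest.Agent.R146.Lev2_576 Crest.Agent.R146.P34_734 Crest.Agent.R146.DualG_256
open Crest.Agent.R146.DualL_256 Crest.Agent.R146.JamIface_776 Crest.Agent.R146.P5A_12
open Crest.Agent.R146.P5Def_12 Crest.Agent.R146.P5Out_576 Crest.Agent.R146.JamAsm_576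
open Crest.Agent.R146.Obs918 Crest.Agent.R146.P5Fin_12
open scoped RealInnerProductSpace NNReal

noncomputable section

/-- (EXPO) the exponents of the gap and force laws at a jamming minimiser -/
def EXPO (W : BS) : Prop := ∀ αc : ℝ, 0 < αc → ∀ (x : HW W) (D : ℝ → ℝ) (ν : ℝ),
  IsJam (RW W) (KW W) (xiW W) αc x D → TipOut (RW W) (xiW W) x D ν →
  Tendsto (fun u : ℝ => Real.log (W.P.real {ω | 0 < (MW W).J (xiW W + (RW W).Dop D x) ω ∧
    (MW W).J (xiW W + (RW W).Dop D x) ω ≤ u}) / Real.log u) (𝓝[>] 0) (𝓝 (2 * ν)) ∧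
  Tendsto (fun s : ℝ => Real.log (W.P.real {ω | 0 < (MW W).J x ω ∧ (MW W).J x ω ≤ s}) /
    Real.log s) (𝓝[>] 0) (𝓝 (2 * ν / (1 - 2 * ν)))

/-- the nodes of P5 and PT -/
structure Nodes (W : BS) : Prop where
  minb : MINB W
  min0 : MIN0 W
  elim : ELIM W
  flim : FLIM W
  lipz : LIPZ W
  tipw : TIPW W
  levc : LEVC W
  levd : LEVD W
  linkm : LINKM W
  linkz : LINKZ W
  expo : EXPO W

/-- S0205 from `EPS`, the two threshold facts and the nodes of P5/PT -/
theorem s0205_of_eps {W : BS} (hN : Nodes W) (hE : EPS W) {αc : ℝ} (hαc : 0 < αc)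
    (hlow : ∀ α : ℝ, 0 < α → α < αc → Tendsto (fun N : ℕ => satProb N α) atTop (𝓝 1))
    (hZ : ∀ α, 0 < α → α < αc → W.ZeroE α (-1)) (hNZ : ∀ α, αc < α → ¬ W.ZeroE α (-1)) :
    ∃ ε₀ : ℝ, 0 < ε₀ ∧ ε₀ < 1 ∧ ∃ G F : ℝ → ℝ,
      (∀ ε : ℝ, 0 ≤ ε → ε < ε₀ →
        (∀ u : ℝ, 0 < u → ∃ g : ℝ → ℝ,
          (∀ δ : ℝ, 0 < δ → δ < u →
            HasOrderedLimit (fun N β α => gapMean N β α ε δ u) αc (g δ)) ∧
          Filter.Tendsto g (nhdsWithin 0 (Set.Ioi 0)) (nhds (G u))) ∧
        (∀ s : ℝ, 0 < s → HasOrderedLimit (fun N β α => forceMean N β α ε s) αc (F s))) ∧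
      (∃ P : MeasureTheory.Measure ℝ, MeasureTheory.IsProbabilityMeasure P ∧
        P (Set.Iic 0) = 0 ∧ ∫ x, x ∂P = 1 ∧
        ∀ s : ℝ, 0 < s → F s = (P (Set.Iic s)).toReal) ∧
      ∃ γ θ : ℝ, γ = 1 / (2 + θ) ∧ 0.4126930 < γ ∧ γ < 0.4126934 ∧
        0.4231063 < θ ∧ θ < 0.4231088 ∧
        Filter.Tendsto (fun u : ℝ => Real.log (G u) / Real.log u)
          (nhdsWithin 0 (Set.Ioi 0)) (nhds (1 - γ)) ∧
        Filter.Tendsto (fun s : ℝ => Real.log (F s) / Real.log s)
          (nhdsWithin 0 (Set.Ioi 0)) (nhds (1 + θ)) := by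
  obtain ⟨ε0, he0, he1, η, hη, hin⟩ := NLev918.inputs_of_isMinP hE hαc hlow
  obtain ⟨ν, m, x, D, x0, D0, xJ, DJ, s, F⟩ := p5fin W hN.minb hN.min0 hN.elim hN.flim hN.lipz
    hN.tipw hN.levc hN.levd hN.linkm hN.linkz hαc hZ hNZ hη
  have hJD := F.out.jamData W.br.toIsPreBrownianReal
  have hboth : ∀ ε : ℝ, 0 ≤ ε → ε < ε0 → ∀ α, αc < α → α < αc + η → ∀ β, 0 < β →
      MeanEmp α β ε (W.P.map ((MW W).J (xiW W + (RW W).Dop (D α β) (x α β)))) ∧
      ForceLim α β ε (W.P.map ((MW W).J (xiW W + (RW W).Dop (D α β) (x α β)))) := by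
    intro ε h0 h1 α h2 h3 β hβ
    obtain ⟨g1, g2, g3⟩ := F.prof α h2 β hβ
    exact hin ε h0 h1 α h2 h3 β hβ (m α β) ⟨g1, g2⟩ _ g3
  obtain ⟨e1, e2⟩ := hN.expo αc hαc xJ DJ ν F.jam F.tip
  have hfx := frc_ae (MW W) (x := xJ) F.out.jam.x_nonneg
  have e3 : ∀ u : ℝ, W.P.real {ω | 0 < frc (MW W) xJ ω ∧ frc (MW W) xJ ω ≤ u} =
      W.P.real {ω | 0 < (MW W).J xJ ω ∧ (MW W).J xJ ω ≤ u} := by
    intro u
    rw [measureReal_def, measureReal_def]
    congr 1
    apply measure_congr
    filter_upwards [hfx] with ω h1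
    apply propext
    change (0 < frc (MW W) xJ ω ∧ frc (MW W) xJ ω ≤ u) ↔
      (0 < (MW W).J xJ ω ∧ (MW W).J xJ ω ≤ u)
    rw [h1]
  exact S0205_of_inputs hJD (frc_measurable (MW W) xJ) he0 he1
    (fun ε h0 h1 α h2 h3 β hβ => (hboth ε h0 h1 α h2 h3 β hβ).1)
    (fun ε h0 h1 α h2 h3 β hβ => (hboth ε h0 h1 α h2 h3 β hβ).2)
    F.tip.ν_lo F.tip.ν_hi e1 (by simp only [e3]; exact e2)

/-- **S0205** from the frozen nodes of P3/P4, P5 and PT -/
theorem s0205_of {W : BS} (hN : Nodes W) (hC : VCONC W) (hZ : VZERO W) (hG : GUB W)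
    (hLB : LINDLB W) (hLOC : LOCUB W) (hcap : CAP) (hcon : CONCM) (hM : MARKOV) (hK : KERN)
    (hMix : MIX0) (hInt : PINT) (αc : ℝ) (hαc : 0 < αc)
    (hlow : ∀ α : ℝ, 0 < α → α < αc → Tendsto (fun N : ℕ => satProb N α) atTop (𝓝 1))
    (hhigh : ∀ α : ℝ, αc < α → Tendsto (fun N : ℕ => satProb N α) atTop (𝓝 0)) :
    ∃ ε₀ : ℝ, 0 < ε₀ ∧ ε₀ < 1 ∧ ∃ G F : ℝ → ℝ,
      (∀ ε : ℝ, 0 ≤ ε → ε < ε₀ →
        (∀ u : ℝ, 0 < u → ∃ g : ℝ → ℝ,
          (∀ δ : ℝ, 0 < δ → δ < u →
            HasOrderedLimit (fun N β α => gapMean N β α ε δ u) αc (g δ)) ∧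
          Filter.Tendsto g (nhdsWithin 0 (Set.Ioi 0)) (nhds (G u))) ∧
        (∀ s : ℝ, 0 < s → HasOrderedLimit (fun N β α => forceMean N β α ε s) αc (F s))) ∧
      (∃ P : MeasureTheory.Measure ℝ, MeasureTheory.IsProbabilityMeasure P ∧
        P (Set.Iic 0) = 0 ∧ ∫ x, x ∂P = 1 ∧
        ∀ s : ℝ, 0 < s → F s = (P (Set.Iic s)).toReal) ∧
      ∃ γ θ : ℝ, γ = 1 / (2 + θ) ∧ 0.4126930 < γ ∧ γ < 0.4126934 ∧
        0.4231063 < θ ∧ θ < 0.4231088 ∧
        Filter.Tendsto (fun u : ℝ => Real.log (G u) / Real.log u)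
          (nhdsWithin 0 (Set.Ioi 0)) (nhds (1 - γ)) ∧
        Filter.Tendsto (fun s : ℝ => Real.log (F s) / Real.log s)
          (nhdsWithin 0 (Set.Ioi 0)) (nhds (1 + θ)) :=
  s0205_of_eps hN (Asm0204_734.eps_of W hG hLB hLOC hcap hcon hMix hInt) hαc hlow
    (Asm0204_734.zeroE_below W hG hcap hcon hMix hlow)
    (not_zeroE_above W hC hZ hG hLB hcap hcon hM hK hMix hαc hhigh)

end

end Crest.Agent.R146.S0205Asm_12
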