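import Mathlib

/-!
Row 146, package PT, task 73 (helper489), part S1: STEP APPROXIMANTS OF A PROFILE.

`IsProf D m`: `D x = D 1 + ∫_x^1 m`, `m ≥ 0` nondecreasing on `[0,1)`, integrable, `0 ≤ D 1`.
For a grid `0 = t 0 < ... < t K = 1` the chord slopes are `mu D t i` and
`Dst e K t μ x = e + Σ_{i<K} μ i * |[x,1] ∩ [t i, t (i+1)]|`.
`exists_step`: step approximants with all the bounds needed for the window argument.
-/

set_option autoImplicit false

namespace Crest.Agent.R146.PtS1_489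

open Set MeasureTheory Finset

noncomputable section

/-- `m` is the (right) slope of the concave antitone profile `D` on `[0,1]`. -/
structure IsProf (D m : ℝ → ℝ) : Prop where
  mono : MonotoneOn m (Set.Ico (0 : ℝ) 1)
  nonneg : ∀ x ∈ Set.Ico (0 : ℝ) 1, 0 ≤ m x
  int : IntervalIntegrable m volume 0 1
  eq : ∀ x ∈ Set.Icc (0 : ℝ) 1, D x = D 1 + ∫ y in x..1, m y
  end_nonneg : 0 ≤ D 1

/-- chord slope of the cell `i` -/
def mu (D : ℝ → ℝ) (t : ℕ → ℝ) (i : ℕ) : ℝ := (D (t i) - D (t (i + 1))) / (t (i + 1) - t i)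

/-- the piecewise affine function with slope `-μ i` on `[t i, t (i+1)]` and value `e` at `t K`. -/
def Dst (e : ℝ) (K : ℕ) (t μ : ℕ → ℝ) (x : ℝ) : ℝ :=
  e + ∑ i ∈ range K, μ i * max 0 (t (i + 1) - max x (t i))

/-- a grid of `[0,1]` -/
structure IsGrid (K : ℕ) (t : ℕ → ℝ) : Prop where
  pos : 0 < K
  zero : t 0 = 0
  one : t K = 1
  lt : ∀ i < K, t i < t (i + 1)

namespace IsGrid

variable {K : ℕ} {t : ℕ → ℝ} (h : IsGrid K t)
include h

theorem mono {i j : ℕ} (hij : i ≤ j) (hj : j ≤ K) : t i ≤ t j := by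
  induction j, hij using Nat.le_induction with
  | base => exact le_rfl
  | succ j hij ih => exact (ih (by omega)).trans (h.lt j (by omega)).le

theorem nonneg {i : ℕ} (hi : i ≤ K) : 0 ≤ t i := by
  rw [← h.zero]; exact h.mono (Nat.zero_le i) hi

theorem le_one {i : ℕ} (hi : i ≤ K) : t i ≤ 1 := by
  rw [← h.one]; exact h.mono hi le_rfl

theorem lt_one {i : ℕ} (hi : i < K) : t i < 1 :=
  (h.lt i hi).trans_le (h.le_one hi)

/-- every point of `[0,1)` lies in a cell. -/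
theorem exists_cell {x : ℝ} (hx : x ∈ Set.Ico (0 : ℝ) 1) : ∃ i < K, t i ≤ x ∧ x < t (i + 1) := by
  classical
  have hex : ∃ j, x < t (j + 1) ∨ K ≤ j + 1 := ⟨K, Or.inr (by omega)⟩
  refine ⟨Nat.find hex, ?_, ?_, ?_⟩
  · by_contra hcon
    push Not at hcon
    have hm : K - 1 < Nat.find hex := by have := h.pos; omega
    have := Nat.find_min hex hm
    push Not at this
    have := h.pos
    omega
  · by_cases h0 : Nat.find hex = 0
    · rw [h0, h.zero]; exact hx.1
    · have := Nat.find_min hex (Nat.sub_lt (Nat.pos_of_ne_zero h0) one_pos)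
      push Not at this
      have h2 : Nat.find hex - 1 + 1 = Nat.find hex := by omega
      rw [h2] at this
      exact this.1
  · rcases Nat.find_spec hex with h1 | h1
    · exact h1
    · have hlt : Nat.find hex < K := by
        by_contra hcon
        push Not at hcon
        have hm : K - 1 < Nat.find hex := by have := h.pos; omega
        have := Nat.find_min hex hm
        push Not at this
        have := h.pos
        omega
      have h2 : Nat.find hex + 1 = K := by omega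
      rw [h2, h.one]; exact hx.2

end IsGrid

namespace IsProf

variable {D m : ℝ → ℝ} (h : IsProf D m)
include h

theorem int' {x y : ℝ} (hx : x ∈ Set.Icc (0 : ℝ) 1) (hy : y ∈ Set.Icc (0 : ℝ) 1) :
    IntervalIntegrable m volume x y := by
  refine h.int.mono_set ?_
  rw [Set.uIcc_of_le zero_le_one]
  exact Set.uIcc_subset_Icc hx hy

theorem sub_eq {x y : ℝ} (hx : x ∈ Set.Icc (0 : ℝ) 1) (hy : y ∈ Set.Icc (0 : ℝ) 1) :
    D x - D y = ∫ z in x..y, m z := by
  rw [h.eq x hx, h.eq y hy]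
  have h1 : (∫ z in x..y, m z) + ∫ z in y..1, m z = ∫ z in x..1, m z :=
    intervalIntegral.integral_add_adjacent_intervals (h.int' hx hy)
      (h.int' hy ⟨zero_le_one, le_rfl⟩)
  linarith

/-- lower bound of the chord by any lower bound of the slope -/
theorem le_sub {x y c : ℝ} (hx : 0 ≤ x) (hxy : x ≤ y) (hy : y ≤ 1)
    (hc : ∀ z ∈ Set.Ico x y, c ≤ m z) : c * (y - x) ≤ D x - D y := by
  rw [h.sub_eq ⟨hx, hxy.trans hy⟩ ⟨hx.trans hxy, hy⟩]
  have h1 : ∫ _ in x..y, c = c * (y - x) := by simp [mul_comm]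
  rw [← h1]
  refine intervalIntegral.integral_mono_on_of_le_Ioo hxy intervalIntegrable_const
    (h.int' ⟨hx, hxy.trans hy⟩ ⟨hx.trans hxy, hy⟩) fun z hz => hc z ⟨hz.1.le, hz.2⟩

theorem sub_le {x y c : ℝ} (hx : 0 ≤ x) (hxy : x ≤ y) (hy : y ≤ 1)
    (hc : ∀ z ∈ Set.Ico x y, m z ≤ c) : D x - D y ≤ c * (y - x) := by
  rw [h.sub_eq ⟨hx, hxy.trans hy⟩ ⟨hx.trans hxy, hy⟩]
  have h1 : ∫ _ in x..y, c = c * (y - x) := by simp [mul_comm]
  rw [← h1]
  refine intervalIntegral.integral_mono_on_of_le_Ioo hxy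
    (h.int' ⟨hx, hxy.trans hy⟩ ⟨hx.trans hxy, hy⟩) intervalIntegrable_const
    fun z hz => hc z ⟨hz.1.le, hz.2⟩

theorem anti : AntitoneOn D (Set.Icc 0 1) := by
  intro x hx y hy hxy
  have := h.le_sub (c := 0) hx.1 hxy hy.2 fun z hz => h.nonneg z ⟨hx.1.trans hz.1, hz.2.trans_le hy.2⟩
  linarith

theorem continuousOn : ContinuousOn D (Set.Icc 0 1) := by
  have h1 : ContinuousOn (fun x => D 1 + ∫ y in x..1, m y) (Set.Icc 0 1) := by
    refine continuousOn_const.add ?_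
    have h2 : ContinuousOn (fun x => ∫ y in (1 : ℝ)..x, m y) (Set.uIcc 1 0) :=
      intervalIntegral.continuousOn_primitive_interval' h.int.symm (by simp)
    rw [Set.uIcc_of_ge zero_le_one] at h2
    refine h2.neg.congr fun x _ => ?_
    show (∫ y in x..1, m y) = -∫ y in (1 : ℝ)..x, m y
    rw [intervalIntegral.integral_symm]
  exact h1.congr fun x hx => h.eq x hx

theorem one_le {x : ℝ} (hx : x ∈ Set.Icc (0 : ℝ) 1) : D 1 ≤ D x :=
  h.anti hx ⟨zero_le_one, le_rfl⟩ hx.2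

theorem nonneg' {x : ℝ} (hx : x ∈ Set.Icc (0 : ℝ) 1) : 0 ≤ D x := h.end_nonneg.trans (h.one_le hx)

end IsProf

section mu

variable {D m : ℝ → ℝ} (h : IsProf D m) {K : ℕ} {t : ℕ → ℝ} (hg : IsGrid K t)
include h hg

theorem mu_nonneg {i : ℕ} (hi : i < K) : 0 ≤ mu D t i := by
  unfold mu
  refine div_nonneg ?_ (sub_nonneg.2 (hg.lt i hi).le)
  have := h.anti ⟨hg.nonneg hi.le, hg.le_one hi.le⟩ ⟨hg.nonneg (i := i + 1) hi, hg.le_one (i := i + 1) hi⟩
    (hg.lt i hi).le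
  linarith

theorem mu_le_of {i : ℕ} (hi : i < K) {c : ℝ} (hc : ∀ z ∈ Set.Ico (t i) (t (i + 1)), m z ≤ c) :
    mu D t i ≤ c := by
  unfold mu
  rw [div_le_iff₀ (sub_pos.2 (hg.lt i hi))]
  exact h.sub_le (hg.nonneg hi.le) (hg.lt i hi).le (hg.le_one (i := i + 1) hi) hc

theorem le_mu_of {i : ℕ} (hi : i < K) {c : ℝ} (hc : ∀ z ∈ Set.Ico (t i) (t (i + 1)), c ≤ m z) :
    c ≤ mu D t i := by
  unfold mu
  rw [le_div_iff₀ (sub_pos.2 (hg.lt i hi))]
  exact h.le_sub (hg.nonneg hi.le) (hg.lt i hi).le (hg.le_one (i := i + 1) hi) hc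

theorem mu_succ {i : ℕ} (hi : i + 1 < K) : mu D t i ≤ mu D t (i + 1) := by
  have h1 : t (i + 1) ∈ Set.Ico (0 : ℝ) 1 := ⟨hg.nonneg hi.le, hg.lt_one hi⟩
  refine (mu_le_of h hg (by omega) (c := m (t (i + 1))) fun z hz => ?_).trans
    (le_mu_of h hg hi fun z hz => ?_)
  · exact h.mono ⟨(hg.nonneg (by omega)).trans hz.1, hz.2.trans h1.2⟩ h1 hz.2.le
  · exact h.mono h1 ⟨h1.1.trans hz.1, hz.2.trans_le (hg.le_one (by omega))⟩ hz.1

theorem mu_mono {i j : ℕ} (hij : i ≤ j) (hj : j < K) : mu D t i ≤ mu D t j := by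
  induction j, hij using Nat.le_induction with
  | base => exact le_rfl
  | succ j hij ih => exact (ih (by omega)).trans (mu_succ h hg hj)

end mu

section Dst

variable {e : ℝ} {K : ℕ} {t μ : ℕ → ℝ}

/-- the value on a cell -/
theorem Dst_cell (hg : IsGrid K t) {i : ℕ} (hi : i < K) {x : ℝ} (hx : x ∈ Set.Icc (t i) (t (i + 1))) :
    Dst e K t μ x = e + μ i * (t (i + 1) - x) +
      ∑ j ∈ Finset.Ico (i + 1) K, μ j * (t (j + 1) - t j) := by
  unfold Dst
  rw [Finset.range_eq_Ico, ← Finset.sum_Ico_consecutive _ (Nat.zero_le i) hi.le,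
    Finset.sum_eq_sum_Ico_succ_bot hi]
  have h1 : ∑ j ∈ Finset.Ico 0 i, μ j * max 0 (t (j + 1) - max x (t j)) = 0 := by
    refine Finset.sum_eq_zero fun j hj => ?_
    rw [Finset.mem_Ico] at hj
    have h2 : t (j + 1) ≤ t i := hg.mono (by omega) hi.le
    have h3 : x ≤ max x (t j) := le_max_left _ _
    rw [max_eq_left (by linarith [hx.1]), mul_zero]
  have h4 : max 0 (t (i + 1) - max x (t i)) = t (i + 1) - x := by
    rw [max_eq_left hx.1, max_eq_right (by linarith [hx.2])]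
  have h5 : ∑ j ∈ Finset.Ico (i + 1) K, μ j * max 0 (t (j + 1) - max x (t j)) =
      ∑ j ∈ Finset.Ico (i + 1) K, μ j * (t (j + 1) - t j) := by
    refine Finset.sum_congr rfl fun j hj => ?_
    rw [Finset.mem_Ico] at hj
    have h6 : t (i + 1) ≤ t j := hg.mono hj.1 hj.2.le
    have h7 := hg.lt j hj.2
    rw [max_eq_right (a := x) (by linarith [hx.2]), max_eq_right (by linarith)]
  rw [h1, h4, h5]
  ring

theorem tel (f : ℕ → ℝ) {i K : ℕ} (h : i ≤ K) :
    ∑ j ∈ Finset.Ico i K, (f j - f (j + 1)) = f i - f K := by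
  induction K, h using Nat.le_induction with
  | base => simp
  | succ k hk ih => rw [Finset.sum_Ico_succ_top hk, ih]; ring

theorem sum_mu (D : ℝ → ℝ) (hg : IsGrid K t) {i : ℕ} (hi : i ≤ K) :
    ∑ j ∈ Finset.Ico i K, mu D t j * (t (j + 1) - t j) = D (t i) - D 1 := by
  have h1 : ∀ j ∈ Finset.Ico i K, mu D t j * (t (j + 1) - t j) =
      (fun j => D (t j)) j - (fun j => D (t j)) (j + 1) := by
    intro j hj
    rw [Finset.mem_Ico] at hj
    have := hg.lt j hj.2
    unfold mu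
    rw [div_mul_cancel₀ _ (sub_ne_zero.2 this.ne')]
  rw [Finset.sum_congr rfl h1, tel _ hi]
  simp only [hg.one]

/-- value of the interpolation on a cell -/
theorem Dst_mu (D : ℝ → ℝ) (hg : IsGrid K t) {i : ℕ} (hi : i < K) {x : ℝ}
    (hx : x ∈ Set.Icc (t i) (t (i + 1))) :
    Dst (D 1 + e) K t (mu D t) x = e + D (t (i + 1)) + mu D t i * (t (i + 1) - x) := by
  rw [Dst_cell hg hi hx, sum_mu D hg (Nat.succ_le_of_lt hi)]
  ring






end Dst

section main

variable {D m : ℝ → ℝ} (h : IsProf D m) {K : ℕ} {t : ℕ → ℝ} (hg : IsGrid K t)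
include h hg

omit h in
theorem node_mem {i : ℕ} (hi : i ≤ K) : t i ∈ Set.Icc (0 : ℝ) 1 := ⟨hg.nonneg hi, hg.le_one hi⟩

/-- chords lie below `D`, and the defect is at most the drop of the cell. -/
theorem chord_le {i : ℕ} (hi : i < K) {x : ℝ} (hx : x ∈ Set.Icc (t i) (t (i + 1))) :
    D (t (i + 1)) + mu D t i * (t (i + 1) - x) ≤ D x := by
  -- slope on `[t i, x]` is at most the slope on `[x, t (i+1)]`
  have h0 := hg.nonneg hi.le
  have h1 := hg.le_one (i := i + 1) hi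
  rcases eq_or_lt_of_le hx.2 with h2 | h2
  · rw [h2]; simp
  have hxI : x ∈ Set.Ico (0 : ℝ) 1 := ⟨h0.trans hx.1, h2.trans_le h1⟩
  have ha : D (t i) - D x ≤ m x * (x - t i) := h.sub_le h0 hx.1 hxI.2.le fun z hz =>
    h.mono ⟨h0.trans hz.1, hz.2.trans hxI.2⟩ hxI hz.2.le
  have hb : m x * (t (i + 1) - x) ≤ D x - D (t (i + 1)) := h.le_sub hxI.1 h2.le h1 fun z hz =>
    h.mono hxI ⟨hxI.1.trans hz.1, hz.2.trans_le h1⟩ hz.1
  have hlt := hg.lt i hi
  have hmu : mu D t i * (t (i + 1) - t i) = D (t i) - D (t (i + 1)) := by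
    unfold mu
    rw [div_mul_cancel₀ _ (sub_ne_zero.2 hlt.ne')]
  -- multiply by the positive length
  have hL : 0 < t (i + 1) - t i := sub_pos.2 hlt
  have key : (D (t (i + 1)) + mu D t i * (t (i + 1) - x)) * (t (i + 1) - t i) ≤
      D x * (t (i + 1) - t i) := by
    have e1 : (D (t (i + 1)) + mu D t i * (t (i + 1) - x)) * (t (i + 1) - t i) =
        D (t (i + 1)) * (t (i + 1) - t i) + (D (t i) - D (t (i + 1))) * (t (i + 1) - x) := by
      rw [← hmu]; ring
    rw [e1]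
    have hxi : 0 ≤ x - t i := sub_nonneg.2 hx.1
    have hxj : 0 ≤ t (i + 1) - x := sub_nonneg.2 h2.le
    nlinarith [mul_le_mul_of_nonneg_right ha hxj, mul_le_mul_of_nonneg_right hb hxi]
  exact le_of_mul_le_mul_right key hL



/-- `(1 - x) * slope ≤ value`. -/
theorem tau_mu_le {e : ℝ} (he : 0 ≤ e) {i : ℕ} (hi : i < K) {x : ℝ}
    (hx : x ∈ Set.Icc (t i) (t (i + 1))) :
    (1 - x) * mu D t i ≤ Dst (D 1 + e) K t (mu D t) x := by
  rw [Dst_mu D hg hi hx]
  have h1 : mu D t i * (1 - t (i + 1)) ≤ D (t (i + 1)) - D 1 := by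
    rcases eq_or_lt_of_le (hg.le_one (i := i + 1) hi) with h2 | h2
    · rw [h2]; simp
    · refine h.le_sub (hg.nonneg hi) h2.le le_rfl fun z hz => ?_
      refine mu_le_of h hg hi fun w hw => ?_
      exact h.mono ⟨(hg.nonneg hi.le).trans hw.1, hw.2.trans h2⟩
        ⟨(hg.nonneg (i := i + 1) hi).trans hz.1, hz.2⟩ (hw.2.le.trans hz.1)
  have := h.end_nonneg
  nlinarith

end main

/-- a finite set of points of `[0,1]` containing `0` and `1` as a grid -/
theorem exists_grid (S : Finset ℝ) (h0 : (0 : ℝ) ∈ S) (h1 : (1 : ℝ) ∈ S)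
    (hS : ∀ x ∈ S, x ∈ Set.Icc (0 : ℝ) 1) :
    ∃ (K : ℕ) (t : ℕ → ℝ), IsGrid K t ∧ (∀ x ∈ S, ∃ i ≤ K, t i = x) ∧ (∀ i ≤ K, t i ∈ S) ∧
      (∀ i < K, ∀ x ∈ S, t i < x → t (i + 1) ≤ x) := by
  classical
  set n := S.card with hn
  have hn0 : 1 < n := by
    rw [hn, Finset.one_lt_card]
    exact ⟨0, h0, 1, h1, zero_ne_one⟩
  let f := S.orderEmbOfFin hn.symm
  have hf : ∀ i, f i ∈ S := fun i => S.orderEmbOfFin_mem hn.symm i
  have hsurj : ∀ x ∈ S, ∃ i, f i = x := by
    intro x hx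
    have : x ∈ Set.range f := by
      rw [show Set.range f = (S : Set ℝ) from S.range_orderEmbOfFin hn.symm]
      exact hx
    exact this
  let t : ℕ → ℝ := fun i => if hi : i < n then f ⟨i, hi⟩ else 1
  have ht : ∀ (i : ℕ) (hi : i < n), t i = f ⟨i, hi⟩ := fun i hi => dif_pos hi
  refine ⟨n - 1, t, ⟨by omega, ?_, ?_, ?_⟩, ?_, fun i hi => ?_, ?_⟩
  · obtain ⟨i, hi⟩ := hsurj 0 h0
    rw [ht 0 (by omega)]
    refine le_antisymm ?_ (hS _ (hf _)).1
    rw [← hi]
    exact f.monotone (Fin.mk_le_of_le_val (Nat.zero_le _))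
  · obtain ⟨i, hi⟩ := hsurj 1 h1
    rw [ht (n - 1) (by omega)]
    refine le_antisymm (hS _ (hf _)).2 ?_
    rw [← hi]
    refine f.monotone ?_
    rw [Fin.le_def]
    have := i.2
    simp only
    omega
  · intro i hi
    rw [ht i (by omega), ht (i + 1) (by omega)]
    exact f.strictMono (by rw [Fin.lt_def]; simp)
  · intro x hx
    obtain ⟨i, hi⟩ := hsurj x hx
    exact ⟨i, by have := i.2; omega, by rw [ht i i.2]; exact hi⟩
  · rw [ht i (by omega)]; exact hf _
  · intro i hi x hx hlt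
    obtain ⟨j, hj⟩ := hsurj x hx
    rw [ht i (by omega)] at hlt
    rw [ht (i + 1) (by omega), ← hj]
    rw [← hj] at hlt
    refine f.monotone ?_
    have := f.lt_iff_lt.1 hlt
    rw [Fin.lt_def] at this
    rw [Fin.le_def]
    simp only at this ⊢
    omega








end

end Crest.Agent.R146.PtS1_489
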