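import Crest.Agent.R146.StepDef_791
import Crest.Agent.R146.PtS4b_489
import Crest.Agent.R146.StepApx_856
import Crest.Agent.R146.StepClk_900

-- ▼ part R146/StepTest_168
section

/-!
Row 146, package PT-STEP: the library of TEST FUNCTIONS for the step system (helper168).

* `ex` calculus: `Law.integrable`, `ex_add`, `ex_sub`, `ex_neg`, `ex_const_mul`, `ex_const`, `ex_mono`,
  `ex_nonneg`, `ex_pos`, `abs_ex_le`, `ex_sum`;
* right/left continuity and boundedness of the weights `m, ml, b, bl`;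
* `TF A`: bundled test functions (`F, Fr, Fl, Fx, Fxx` and the proof of `Test`), with
  `const, tfun, add, sub, neg, smul, mul, pow`, and the instances `tx, tu, tw, tV, tR, tP, tE`;
* generators `gr` (right), `gl` (left): product rule `mul_gr`, `mul_gl`, and
  `gr_u = -b u`, `gr_w = 0`, `gr_V = b V (1-V)`, `gr_P = b (2-3V) P`, `gr_E = b E`, ...
* `TF.ex_r`, `TF.ex_l`, `TF.ex_cont`: the expectation identities of `Law` in this form.
-/

set_option autoImplicit false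
set_option linter.unusedVariables false

namespace Crest.Agent.R146.StepTest_168

open MeasureTheory ProbabilityTheory Set Filter Topology
open Crest.Agent.R146.StepDef_791
open Crest.Agent.R146.Hg_534 Crest.Agent.R146.PB_534
open Crest.Agent.R146.MaxPCmp_371 (BSys)

noncomputable section

/-! ### `ex` calculus -/

section exx

variable {A : SD} {x0 : ℝ} {p Y Yx Yxx : ℝ → ℝ → ℝ}

theorem ex_of_le {t : ℝ} (ht : t ≤ 0) (f : ℝ → ℝ) : ex x0 p t f = f x0 := by
  unfold ex; rw [if_pos ht]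

theorem ex_of_pos {t : ℝ} (ht : 0 < t) (f : ℝ → ℝ) : ex x0 p t f = ∫ x, p t x * f x := by
  unfold ex; rw [if_neg (not_le.2 ht)]

theorem ex_congr (t : ℝ) {f g : ℝ → ℝ} (h : ∀ x, f x = g x) : ex x0 p t f = ex x0 p t g := by
  rw [show f = g from funext h]

theorem law_p_continuous (hL : Law A x0 p Y Yx Yxx) {t : ℝ} (ht : t ∈ Ioc 0 A.T) :
    Continuous (p t) :=
  continuous_iff_continuousAt.2 fun x => (hL.p_x t ht x).continuousAt

/-- integrability of functions of polynomial growth against the law -/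
theorem law_integrable (hL : Law A x0 p Y Yx Yxx) {t : ℝ} (ht : t ∈ Ioc 0 A.T) {f : ℝ → ℝ}
    (hf : PG f) : Integrable (fun x => p t x * f x) := by
  obtain ⟨C, n, hC, hb⟩ := hf.bd
  obtain ⟨C', hC'⟩ := hL.mom n
  have h1 := ((hC' t ht).1).const_mul C
  refine h1.mono' (((law_p_continuous hL ht).mul hf.cont).aestronglyMeasurable) ?_
  refine Eventually.of_forall fun x => ?_
  have hp := (hL.p_pos t ht x).le
  rw [Real.norm_eq_abs, abs_mul, abs_of_nonneg hp]
  calc p t x * |f x| ≤ p t x * (C * (1 + |x|) ^ n) := mul_le_mul_of_nonneg_left (hb x) hp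
    _ = C * (p t x * (1 + |x|) ^ n) := by ring

theorem ex_add (hL : Law A x0 p Y Yx Yxx) {t : ℝ} (ht : t ≤ A.T) {f g : ℝ → ℝ}
    (hf : PG f) (hg : PG g) :
    ex x0 p t (fun x => f x + g x) = ex x0 p t f + ex x0 p t g := by
  rcases le_or_gt t 0 with h | h
  · simp only [ex_of_le h]
  · simp only [ex_of_pos h]
    rw [← integral_add (law_integrable hL ⟨h, ht⟩ hf) (law_integrable hL ⟨h, ht⟩ hg)]
    congr 1; funext x; ring

theorem ex_const_mul (t c : ℝ) (f : ℝ → ℝ) :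
    ex x0 p t (fun x => c * f x) = c * ex x0 p t f := by
  rcases le_or_gt t 0 with h | h
  · simp only [ex_of_le h]
  · simp only [ex_of_pos h]
    rw [← integral_const_mul]
    congr 1; funext x; ring



theorem ex_neg (t : ℝ) (f : ℝ → ℝ) : ex x0 p t (fun x => -f x) = -ex x0 p t f := by
  have := ex_const_mul (x0 := x0) (p := p) t (-1) f
  simpa using this

theorem ex_sub (hL : Law A x0 p Y Yx Yxx) {t : ℝ} (ht : t ≤ A.T) {f g : ℝ → ℝ}
    (hf : PG f) (hg : PG g) :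
    ex x0 p t (fun x => f x - g x) = ex x0 p t f - ex x0 p t g := by
  have h1 := ex_add hL ht hf hg.neg
  rw [ex_neg] at h1
  simpa [sub_eq_add_neg] using h1

theorem ex_const (hL : Law A x0 p Y Yx Yxx) {t : ℝ} (ht : t ≤ A.T) (c : ℝ) :
    ex x0 p t (fun _ => c) = c := by
  rcases le_or_gt t 0 with h | h
  · simp only [ex_of_le h]
  · simp only [ex_of_pos h]
    rw [integral_mul_const, hL.mass t ⟨h, ht⟩, one_mul]


theorem ex_nonneg (hL : Law A x0 p Y Yx Yxx) {t : ℝ} (ht : t ≤ A.T) {f : ℝ → ℝ}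
    (hf : ∀ x, 0 ≤ f x) : 0 ≤ ex x0 p t f := by
  rcases le_or_gt t 0 with h | h
  · rw [ex_of_le h]; exact hf _
  · rw [ex_of_pos h]
    exact integral_nonneg fun x => mul_nonneg (hL.p_pos t ⟨h, ht⟩ x).le (hf x)

theorem ex_mono (hL : Law A x0 p Y Yx Yxx) {t : ℝ} (ht : t ≤ A.T) {f g : ℝ → ℝ}
    (hf : PG f) (hg : PG g) (hfg : ∀ x, f x ≤ g x) : ex x0 p t f ≤ ex x0 p t g := by
  have h1 := ex_nonneg hL ht (f := fun x => g x - f x) fun x => sub_nonneg.2 (hfg x)
  rw [ex_sub hL ht hg hf] at h1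
  linarith


theorem abs_ex_le (hL : Law A x0 p Y Yx Yxx) {t : ℝ} (ht : t ≤ A.T) {f : ℝ → ℝ} (hf : PG f) :
    |ex x0 p t f| ≤ ex x0 p t (fun x => |f x|) := by
  rw [abs_le]
  constructor
  · rw [← ex_neg]
    exact ex_mono hL ht hf.abs.neg hf fun x => neg_abs_le _
  · exact ex_mono hL ht hf hf.abs fun x => le_abs_self _

theorem ex_abs_le_of (hL : Law A x0 p Y Yx Yxx) {t : ℝ} (ht : t ≤ A.T) {f g : ℝ → ℝ} (hf : PG f)
    (hg : PG g) (h : ∀ x, |f x| ≤ g x) : |ex x0 p t f| ≤ ex x0 p t g :=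
  (abs_ex_le hL ht hf).trans (ex_mono hL ht hf.abs hg h)

theorem ex_le_const (hL : Law A x0 p Y Yx Yxx) {t : ℝ} (ht : t ≤ A.T) {f : ℝ → ℝ} (hf : PG f)
    {c : ℝ} (h : ∀ x, f x ≤ c) : ex x0 p t f ≤ c := by
  have := ex_mono hL ht hf (PG.const c) h
  rwa [ex_const hL ht] at this





end exx

/-! ### The weights: one-sided continuity and bounds -/

section weights

theorem mrc_le : ∀ (cs : Cells) (T : ℝ), Valid T cs → ∃ M : ℝ, 0 ≤ M ∧ ∀ t, mrc T cs t ≤ M
  | [], _, _ => ⟨0, le_rfl, fun _ => le_rfl⟩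
  | c :: cs, T, h => by
      obtain ⟨M, hM0, hM⟩ := mrc_le cs c.1 h.2.2
      refine ⟨max M c.2, hM0.trans (le_max_left _ _), fun t => ?_⟩
      unfold mrc
      split_ifs with h1 h2
      · exact le_max_right _ _
      · exact hM0.trans (le_max_left _ _)
      · exact (hM t).trans (le_max_left _ _)

theorem mlc_le : ∀ (cs : Cells) (T : ℝ), Valid T cs → ∃ M : ℝ, 0 ≤ M ∧ ∀ t, mlc T cs t ≤ M
  | [], _, _ => ⟨0, le_rfl, fun _ => le_rfl⟩
  | c :: cs, T, h => by
      obtain ⟨M, hM0, hM⟩ := mlc_le cs c.1 h.2.2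
      refine ⟨max M c.2, hM0.trans (le_max_left _ _), fun t => ?_⟩
      unfold mlc
      split_ifs with h1 h2
      · exact le_max_right _ _
      · exact hM0.trans (le_max_left _ _)
      · exact (hM t).trans (le_max_left _ _)

/-- the weight is locally constant to the right -/
theorem mrc_ev : ∀ (cs : Cells) (T t : ℝ), ∀ᶠ s in 𝓝[≥] t, mrc T cs s = mrc T cs t
  | [], _, _ => Eventually.of_forall fun _ => rfl
  | c :: cs, T, t => by
      rcases le_or_gt c.1 t with h | h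
      · rcases lt_or_ge t T with h2 | h2
        · have e1 : ∀ᶠ s in 𝓝[≥] t, s < T := (eventually_lt_nhds h2).filter_mono nhdsWithin_le_nhds
          filter_upwards [e1, self_mem_nhdsWithin] with s hs hst
          unfold mrc
          rw [if_pos (h.trans hst), if_pos h, if_pos hs, if_pos h2]
        · filter_upwards [self_mem_nhdsWithin] with s hst
          unfold mrc
          rw [if_pos (h.trans hst), if_pos h, if_neg (not_lt.2 (h2.trans hst)), if_neg (not_lt.2 h2)]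
      · have e1 : ∀ᶠ s in 𝓝[≥] t, s < c.1 := (eventually_lt_nhds h).filter_mono nhdsWithin_le_nhds
        filter_upwards [e1, mrc_ev cs c.1 t] with s hs hs2
        unfold mrc
        rw [if_neg (not_le.2 hs), if_neg (not_le.2 h)]
        exact hs2

/-- the weight is locally constant to the left -/
theorem mlc_ev : ∀ (cs : Cells) (T t : ℝ), ∀ᶠ s in 𝓝[≤] t, mlc T cs s = mlc T cs t
  | [], _, _ => Eventually.of_forall fun _ => rfl
  | c :: cs, T, t => by
      rcases lt_or_ge c.1 t with h | h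
      · have e0 : ∀ᶠ s in 𝓝[≤] t, c.1 < s := (eventually_gt_nhds h).filter_mono nhdsWithin_le_nhds
        rcases le_or_gt t T with h2 | h2
        · filter_upwards [e0, self_mem_nhdsWithin] with s hs hst
          unfold mlc
          rw [if_pos hs, if_pos h, if_pos (le_trans hst h2), if_pos h2]
        · have e1 : ∀ᶠ s in 𝓝[≤] t, T < s := (eventually_gt_nhds h2).filter_mono nhdsWithin_le_nhds
          filter_upwards [e0, e1] with s hs hst
          unfold mlc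
          rw [if_pos hs, if_pos h, if_neg (not_le.2 hst), if_neg (not_le.2 h2)]
      · filter_upwards [self_mem_nhdsWithin, mlc_ev cs c.1 t] with s hs hs2
        unfold mlc
        rw [if_neg (not_lt.2 (le_trans hs h)), if_neg (not_lt.2 h)]
        exact hs2

variable (A : SD)

theorem m_ev (t : ℝ) : ∀ᶠ s in 𝓝[≥] t, A.m s = A.m t := mrc_ev A.cs A.T t
theorem ml_ev (t : ℝ) : ∀ᶠ s in 𝓝[≤] t, A.ml s = A.ml t := mlc_ev A.cs A.T t

theorem m_cont_right (t : ℝ) : ContinuousWithinAt A.m (Ici t) t :=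
  (tendsto_const_nhds (x := A.m t)).congr' ((m_ev A t).mono fun _ h => h.symm)

theorem ml_cont_left (t : ℝ) : ContinuousWithinAt A.ml (Iic t) t :=
  (tendsto_const_nhds (x := A.ml t)).congr' ((ml_ev A t).mono fun _ h => h.symm)

theorem b_cont_right (hD : Continuous A.D) (t : ℝ) : ContinuousWithinAt A.b (Ici t) t :=
  (m_cont_right A t).div hD.continuousWithinAt (A.D_pos t).ne'

theorem bl_cont_left (hD : Continuous A.D) (t : ℝ) : ContinuousWithinAt A.bl (Iic t) t :=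
  (ml_cont_left A t).div hD.continuousWithinAt (A.D_pos t).ne'

/-- one bound for all weights -/
theorem weights_le : ∃ M : ℝ, 0 ≤ M ∧ ∀ t, A.m t ≤ M ∧ A.ml t ≤ M ∧ A.b t ≤ M ∧ A.bl t ≤ M := by
  obtain ⟨M1, h10, h1⟩ := mrc_le A.cs A.T A.hv
  obtain ⟨M2, h20, h2⟩ := mlc_le A.cs A.T A.hv
  have hd := A.hd
  refine ⟨max (max M1 M2) (max M1 M2 / A.d), ?_, fun t => ?_⟩
  · exact h10.trans ((le_max_left _ _).trans (le_max_left _ _))
  · have hM0 : 0 ≤ max M1 M2 := h10.trans (le_max_left _ _)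
    have e1 : A.m t ≤ max M1 M2 := (h1 t).trans (le_max_left _ _)
    have e2 : A.ml t ≤ max M1 M2 := (h2 t).trans (le_max_right _ _)
    refine ⟨e1.trans (le_max_left _ _), e2.trans (le_max_left _ _), ?_, ?_⟩
    · refine le_trans ?_ (le_max_right _ _)
      exact div_le_div₀ hM0 e1 hd (A.d_le_D t)
    · refine le_trans ?_ (le_max_right _ _)
      exact div_le_div₀ hM0 e2 hd (A.d_le_D t)

end weights

/-! ### Bundled test functions -/

/-- right neighbourhoods in the strip -/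
theorem cwa_right {T t x : ℝ} {f : ℝ × ℝ → ℝ} (ht : t ∈ Ico 0 T)
    (h : ContinuousOn f (Icc 0 T ×ˢ univ)) : ContinuousWithinAt f (Ici t ×ˢ univ) (t, x) := by
  have h1 : ContinuousWithinAt f (Icc 0 T ×ˢ univ) (t, x) := h (t, x) ⟨⟨ht.1, ht.2.le⟩, mem_univ _⟩
  refine h1.mono_of_mem_nhdsWithin ?_
  rw [nhdsWithin_prod_eq]
  refine prod_mem_prod ?_ univ_mem
  have e1 : ∀ᶠ s in 𝓝[≥] t, s < T := (eventually_lt_nhds ht.2).filter_mono nhdsWithin_le_nhds
  filter_upwards [e1, self_mem_nhdsWithin] with s hs hst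
  exact ⟨ht.1.trans hst, hs.le⟩

/-- left neighbourhoods in the strip -/
theorem cwa_left {T t x : ℝ} {f : ℝ × ℝ → ℝ} (ht : t ∈ Ioc 0 T)
    (h : ContinuousOn f (Icc 0 T ×ˢ univ)) : ContinuousWithinAt f (Iic t ×ˢ univ) (t, x) := by
  have h1 : ContinuousWithinAt f (Icc 0 T ×ˢ univ) (t, x) := h (t, x) ⟨⟨ht.1.le, ht.2⟩, mem_univ _⟩
  refine h1.mono_of_mem_nhdsWithin ?_
  rw [nhdsWithin_prod_eq]
  refine prod_mem_prod ?_ univ_mem
  have e1 : ∀ᶠ s in 𝓝[≤] t, 0 < s := (eventually_gt_nhds ht.1).filter_mono nhdsWithin_le_nhds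
  filter_upwards [e1, self_mem_nhdsWithin] with s hs hst
  exact ⟨hs.le, le_trans hst ht.2⟩

theorem cwa_fst_right {t x : ℝ} {f : ℝ → ℝ} (h : ContinuousWithinAt f (Ici t) t) :
    ContinuousWithinAt (fun q : ℝ × ℝ => f q.1) (Ici t ×ˢ univ) (t, x) :=
  ContinuousWithinAt.comp (t := Ici t) (g := f) (f := Prod.fst) h
    continuous_fst.continuousWithinAt fun _ hq => hq.1

theorem cwa_fst_left {t x : ℝ} {f : ℝ → ℝ} (h : ContinuousWithinAt f (Iic t) t) :
    ContinuousWithinAt (fun q : ℝ × ℝ => f q.1) (Iic t ×ˢ univ) (t, x) :=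
  ContinuousWithinAt.comp (t := Iic t) (g := f) (f := Prod.fst) h
    continuous_fst.continuousWithinAt fun _ hq => hq.1

/-- growth on the strip -/
def GR (A : SD) (F : ℝ → ℝ → ℝ) : Prop :=
  ∃ C : ℝ, ∃ n : ℕ, 0 ≤ C ∧ ∀ t ∈ Icc 0 A.T, ∀ x, |F t x| ≤ C * (1 + |x|) ^ n

section gr
variable {A : SD} {F G : ℝ → ℝ → ℝ}

theorem GR.const (c : ℝ) : GR A fun _ _ => c :=
  ⟨|c|, 0, abs_nonneg c, fun t _ x => by simp⟩

theorem GR.idx : GR A fun _ x => x :=
  ⟨1, 1, zero_le_one, fun t _ x => by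
    have := abs_nonneg x
    rw [pow_one, one_mul]; linarith⟩

theorem GR.of_le (h : ∃ C : ℝ, ∃ n : ℕ, ∀ t ∈ Icc 0 A.T, ∀ x, |F t x| ≤ C * (1 + |x|) ^ n) :
    GR A F := by
  obtain ⟨C, n, h⟩ := h
  refine ⟨|C|, n, abs_nonneg C, fun t ht x => (h t ht x).trans ?_⟩
  have := one_le_base x
  exact mul_le_mul_of_nonneg_right (le_abs_self C) (by positivity)

theorem GR.tbdd {g : ℝ → ℝ} {C : ℝ} (h : ∀ t ∈ Icc 0 A.T, |g t| ≤ C) : GR A fun t _ => g t :=
  GR.of_le ⟨C, 0, fun t ht x => by simpa using h t ht⟩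

theorem GR.bdd {C : ℝ} (h : ∀ t ∈ Icc 0 A.T, ∀ x, |F t x| ≤ C) : GR A F :=
  GR.of_le ⟨C, 0, fun t ht x => by simpa using h t ht x⟩

theorem GR.add (hF : GR A F) (hG : GR A G) : GR A fun t x => F t x + G t x := by
  obtain ⟨C, n, hC, h⟩ := hF
  obtain ⟨C', n', hC', h'⟩ := hG
  refine ⟨C + C', max n n', by positivity, fun t ht x => ?_⟩
  have h1 : (1 + |x|) ^ n ≤ (1 + |x|) ^ max n n' :=
    pow_le_pow_right₀ (one_le_base x) (le_max_left _ _)
  have h2 : (1 + |x|) ^ n' ≤ (1 + |x|) ^ max n n' :=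
    pow_le_pow_right₀ (one_le_base x) (le_max_right _ _)
  calc |F t x + G t x| ≤ |F t x| + |G t x| := abs_add_le _ _
    _ ≤ C * (1 + |x|) ^ n + C' * (1 + |x|) ^ n' := add_le_add (h t ht x) (h' t ht x)
    _ ≤ C * (1 + |x|) ^ max n n' + C' * (1 + |x|) ^ max n n' :=
        add_le_add (mul_le_mul_of_nonneg_left h1 hC) (mul_le_mul_of_nonneg_left h2 hC')
    _ = _ := by ring

theorem GR.mul (hF : GR A F) (hG : GR A G) : GR A fun t x => F t x * G t x := by
  obtain ⟨C, n, hC, h⟩ := hF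
  obtain ⟨C', n', hC', h'⟩ := hG
  refine ⟨C * C', n + n', by positivity, fun t ht x => ?_⟩
  have hx := one_le_base x
  calc |F t x * G t x| = |F t x| * |G t x| := abs_mul _ _
    _ ≤ (C * (1 + |x|) ^ n) * (C' * (1 + |x|) ^ n') :=
        mul_le_mul (h t ht x) (h' t ht x) (abs_nonneg _) (by positivity)
    _ = _ := by rw [pow_add]; ring

theorem GR.const_mul (hF : GR A F) (c : ℝ) : GR A fun t x => c * F t x := (GR.const c).mul hF

theorem GR.neg (hF : GR A F) : GR A fun t x => -F t x := by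
  have := hF.const_mul (-1)
  simpa using this

theorem GR.sub (hF : GR A F) (hG : GR A G) : GR A fun t x => F t x - G t x := by
  have := hF.add hG.neg
  simpa [sub_eq_add_neg] using this

/-- assembling the growth field of `Test` -/
theorem growth_of {Fr Fl Fx Fxx : ℝ → ℝ → ℝ} (h1 : GR A F) (h2 : GR A Fr) (h3 : GR A Fl)
    (h4 : GR A Fx) (h5 : GR A Fxx) :
    ∃ C : ℝ, ∃ n : ℕ, 0 ≤ C ∧ ∀ t ∈ Icc 0 A.T, ∀ x, |F t x| ≤ C * (1 + |x|) ^ n ∧
    |Fr t x| ≤ C * (1 + |x|) ^ n ∧ |Fl t x| ≤ C * (1 + |x|) ^ n ∧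
    |Fx t x| ≤ C * (1 + |x|) ^ n ∧ |Fxx t x| ≤ C * (1 + |x|) ^ n := by
  obtain ⟨C1, n1, hC1, k1⟩ := h1
  obtain ⟨C2, n2, hC2, k2⟩ := h2
  obtain ⟨C3, n3, hC3, k3⟩ := h3
  obtain ⟨C4, n4, hC4, k4⟩ := h4
  obtain ⟨C5, n5, hC5, k5⟩ := h5
  set C := C1 + C2 + C3 + C4 + C5 with hC
  set n := n1 + n2 + n3 + n4 + n5 with hn
  have key : ∀ (x C' : ℝ) (n' : ℕ), 0 ≤ C' → C' ≤ C → n' ≤ n →
      C' * (1 + |x|) ^ n' ≤ C * (1 + |x|) ^ n := by
    intro x C' n' h0 h1 h2
    have hx := one_le_base x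
    have h3 : (1 + |x|) ^ n' ≤ (1 + |x|) ^ n := pow_le_pow_right₀ hx h2
    exact mul_le_mul h1 h3 (by positivity) (h0.trans h1)
  refine ⟨C, n, by positivity, fun t ht x => ⟨?_, ?_, ?_, ?_, ?_⟩⟩
  · exact (k1 t ht x).trans (key x C1 n1 hC1 (by rw [hC]; linarith) (by omega))
  · exact (k2 t ht x).trans (key x C2 n2 hC2 (by rw [hC]; linarith) (by omega))
  · exact (k3 t ht x).trans (key x C3 n3 hC3 (by rw [hC]; linarith) (by omega))
  · exact (k4 t ht x).trans (key x C4 n4 hC4 (by rw [hC]; linarith) (by omega))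
  · exact (k5 t ht x).trans (key x C5 n5 hC5 (by rw [hC]; linarith) (by omega))

end gr

section testGR
variable {A : SD} {F Fr Fl Fx Fxx : ℝ → ℝ → ℝ}

theorem test_grF (h : Test A F Fr Fl Fx Fxx) : GR A F := by
  obtain ⟨C, n, hC, k⟩ := h.growth; exact ⟨C, n, hC, fun t ht x => (k t ht x).1⟩
theorem test_grFr (h : Test A F Fr Fl Fx Fxx) : GR A Fr := by
  obtain ⟨C, n, hC, k⟩ := h.growth; exact ⟨C, n, hC, fun t ht x => (k t ht x).2.1⟩
theorem test_grFl (h : Test A F Fr Fl Fx Fxx) : GR A Fl := by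
  obtain ⟨C, n, hC, k⟩ := h.growth; exact ⟨C, n, hC, fun t ht x => (k t ht x).2.2.1⟩
theorem test_grFx (h : Test A F Fr Fl Fx Fxx) : GR A Fx := by
  obtain ⟨C, n, hC, k⟩ := h.growth; exact ⟨C, n, hC, fun t ht x => (k t ht x).2.2.2.1⟩
theorem test_grFxx (h : Test A F Fr Fl Fx Fxx) : GR A Fxx := by
  obtain ⟨C, n, hC, k⟩ := h.growth; exact ⟨C, n, hC, fun t ht x => (k t ht x).2.2.2.2⟩

end testGR

/-- bundled test functions -/
structure TF (A : SD) where
  F : ℝ → ℝ → ℝ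
  Fr : ℝ → ℝ → ℝ
  Fl : ℝ → ℝ → ℝ
  Fx : ℝ → ℝ → ℝ
  Fxx : ℝ → ℝ → ℝ
  test : Test A F Fr Fl Fx Fxx

namespace TF

variable {A : SD}

/-- generator, right: `F_t + F_xx/2 + b u F_x` -/
def gr (f : TF A) (t x : ℝ) : ℝ := f.Fr t x + f.Fxx t x / 2 + A.b t * A.u t x * f.Fx t x

/-- generator, left -/
def gl (f : TF A) (t x : ℝ) : ℝ := f.Fl t x + f.Fxx t x / 2 + A.bl t * A.u t x * f.Fx t x

/-- functions of time only -/
def tfun (g gR gL : ℝ → ℝ) (hc : ContinuousOn g (Icc 0 A.T))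
    (hr : ∀ t ∈ Ico 0 A.T, HasDerivWithinAt g (gR t) (Ici t) t)
    (hl : ∀ t ∈ Ioc 0 A.T, HasDerivWithinAt g (gL t) (Iic t) t)
    (cr : ∀ t ∈ Ico 0 A.T, ContinuousWithinAt gR (Ici t) t)
    (cl : ∀ t ∈ Ioc 0 A.T, ContinuousWithinAt gL (Iic t) t)
    (hb : ∃ C : ℝ, ∀ t ∈ Icc 0 A.T, |gR t| ≤ C ∧ |gL t| ≤ C) : TF A where
  F t _ := g t
  Fr t _ := gR t
  Fl t _ := gL t
  Fx _ _ := 0
  Fxx _ _ := 0
  test := by
    obtain ⟨C, hC⟩ := hb
    obtain ⟨C', hC'⟩ := isCompact_Icc.exists_bound_of_continuousOn hc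
    exact {
      cF := hc.comp continuousOn_fst fun q hq => hq.1
      hx := fun t _ x => hasDerivAt_const x (g t)
      hxx := fun t _ x => hasDerivAt_const x 0
      hr := fun t ht x => hr t ht
      hl := fun t ht x => hl t ht
      cr := fun t ht x => cwa_fst_right (cr t ht)
      cl := fun t ht x => cwa_fst_left (cl t ht)
      cx := continuousOn_const
      cxx := continuousOn_const
      growth := growth_of (GR.tbdd (C := C') fun t ht => hC' t ht)
        (GR.tbdd fun t ht => (hC t ht).1) (GR.tbdd fun t ht => (hC t ht).2)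
        (GR.const 0) (GR.const 0) }

/-- constants -/
def const (c : ℝ) : TF A where
  F _ _ := c
  Fr _ _ := 0
  Fl _ _ := 0
  Fx _ _ := 0
  Fxx _ _ := 0
  test := {
    cF := continuousOn_const
    hx := fun t _ x => hasDerivAt_const x c
    hxx := fun t _ x => hasDerivAt_const x 0
    hr := fun t _ x => hasDerivWithinAt_const t (Ici t) c
    hl := fun t _ x => hasDerivWithinAt_const t (Iic t) c
    cr := fun t ht x => continuousWithinAt_const
    cl := fun t ht x => continuousWithinAt_const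
    cx := continuousOn_const
    cxx := continuousOn_const
    growth := growth_of (GR.const c) (GR.const 0) (GR.const 0) (GR.const 0) (GR.const 0) }

/-- the coordinate `x` -/
def tx : TF A where
  F _ x := x
  Fr _ _ := 0
  Fl _ _ := 0
  Fx _ _ := 1
  Fxx _ _ := 0
  test := {
    cF := continuousOn_snd
    hx := fun t _ x => hasDerivAt_id x
    hxx := fun t _ x => hasDerivAt_const x 1
    hr := fun t _ x => hasDerivWithinAt_const t (Ici t) x
    hl := fun t _ x => hasDerivWithinAt_const t (Iic t) x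
    cr := fun t ht x => continuousWithinAt_const
    cl := fun t ht x => continuousWithinAt_const
    cx := continuousOn_const
    cxx := continuousOn_const
    growth := growth_of GR.idx (GR.const 0) (GR.const 0) (GR.const 1) (GR.const 0) }

/-- sums -/
def add (f g : TF A) : TF A where
  F t x := f.F t x + g.F t x
  Fr t x := f.Fr t x + g.Fr t x
  Fl t x := f.Fl t x + g.Fl t x
  Fx t x := f.Fx t x + g.Fx t x
  Fxx t x := f.Fxx t x + g.Fxx t x
  test := {
    cF := f.test.cF.add g.test.cF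
    hx := fun t ht x => (f.test.hx t ht x).add (g.test.hx t ht x)
    hxx := fun t ht x => (f.test.hxx t ht x).add (g.test.hxx t ht x)
    hr := fun t ht x => (f.test.hr t ht x).add (g.test.hr t ht x)
    hl := fun t ht x => (f.test.hl t ht x).add (g.test.hl t ht x)
    cr := fun t ht x => (f.test.cr t ht x).add (g.test.cr t ht x)
    cl := fun t ht x => (f.test.cl t ht x).add (g.test.cl t ht x)
    cx := f.test.cx.add g.test.cx
    cxx := f.test.cxx.add g.test.cxx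
    growth := growth_of ((test_grF f.test).add (test_grF g.test))
      ((test_grFr f.test).add (test_grFr g.test)) ((test_grFl f.test).add (test_grFl g.test))
      ((test_grFx f.test).add (test_grFx g.test)) ((test_grFxx f.test).add (test_grFxx g.test)) }

/-- products -/
def mul (f g : TF A) : TF A where
  F t x := f.F t x * g.F t x
  Fr t x := f.Fr t x * g.F t x + f.F t x * g.Fr t x
  Fl t x := f.Fl t x * g.F t x + f.F t x * g.Fl t x
  Fx t x := f.Fx t x * g.F t x + f.F t x * g.Fx t x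
  Fxx t x := f.Fxx t x * g.F t x + 2 * (f.Fx t x * g.Fx t x) + f.F t x * g.Fxx t x
  test := {
    cF := f.test.cF.mul g.test.cF
    hx := fun t ht x => (f.test.hx t ht x).mul (g.test.hx t ht x)
    hxx := fun t ht x => by
      have h := ((f.test.hxx t ht x).mul (g.test.hx t ht x)).add
        ((f.test.hx t ht x).mul (g.test.hxx t ht x))
      exact h.congr_deriv (by ring)
    hr := fun t ht x => (f.test.hr t ht x).mul (g.test.hr t ht x)
    hl := fun t ht x => (f.test.hl t ht x).mul (g.test.hl t ht x)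
    cr := fun t ht x => ((f.test.cr t ht x).mul (cwa_right ht g.test.cF)).add
      ((cwa_right ht f.test.cF).mul (g.test.cr t ht x))
    cl := fun t ht x => ((f.test.cl t ht x).mul (cwa_left ht g.test.cF)).add
      ((cwa_left ht f.test.cF).mul (g.test.cl t ht x))
    cx := (f.test.cx.mul g.test.cF).add (f.test.cF.mul g.test.cx)
    cxx := ((f.test.cxx.mul g.test.cF).add
      (continuousOn_const.mul (f.test.cx.mul g.test.cx))).add (f.test.cF.mul g.test.cxx)
    growth := growth_of ((test_grF f.test).mul (test_grF g.test))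
      (((test_grFr f.test).mul (test_grF g.test)).add ((test_grF f.test).mul (test_grFr g.test)))
      (((test_grFl f.test).mul (test_grF g.test)).add ((test_grF f.test).mul (test_grFl g.test)))
      (((test_grFx f.test).mul (test_grF g.test)).add ((test_grF f.test).mul (test_grFx g.test)))
      ((((test_grFxx f.test).mul (test_grF g.test)).add
        (((test_grFx f.test).mul (test_grFx g.test)).const_mul 2)).add
        ((test_grF f.test).mul (test_grFxx g.test))) }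

/-- scalar multiples -/
def smul (c : ℝ) (f : TF A) : TF A := (const c).mul f

/-- negation -/
def neg (f : TF A) : TF A := smul (-1) f

/-- differences -/
def sub (f g : TF A) : TF A := f.add g.neg

/-- squares -/
def sq (f : TF A) : TF A := f.mul f

/-- powers -/
def pow (f : TF A) : ℕ → TF A
  | 0 => const 1
  | n + 1 => (pow f n).mul f

@[simp] theorem const_F (c t x : ℝ) : (const c : TF A).F t x = c := rfl
@[simp] theorem const_Fx (c t x : ℝ) : (const c : TF A).Fx t x = 0 := rfl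
@[simp] theorem const_Fxx (c t x : ℝ) : (const c : TF A).Fxx t x = 0 := rfl
@[simp] theorem const_gr (c t x : ℝ) : (const c : TF A).gr t x = 0 := by simp [gr, const]
@[simp] theorem const_gl (c t x : ℝ) : (const c : TF A).gl t x = 0 := by simp [gl, const]
@[simp] theorem tx_F (t x : ℝ) : (tx : TF A).F t x = x := rfl
@[simp] theorem tx_Fx (t x : ℝ) : (tx : TF A).Fx t x = 1 := rfl
@[simp] theorem tx_Fxx (t x : ℝ) : (tx : TF A).Fxx t x = 0 := rfl
@[simp] theorem tx_gr (t x : ℝ) : (tx : TF A).gr t x = A.b t * A.u t x := by simp [gr, tx]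
@[simp] theorem tx_gl (t x : ℝ) : (tx : TF A).gl t x = A.bl t * A.u t x := by simp [gl, tx]
@[simp] theorem add_F (f g : TF A) (t x : ℝ) : (f.add g).F t x = f.F t x + g.F t x := rfl
@[simp] theorem add_Fx (f g : TF A) (t x : ℝ) : (f.add g).Fx t x = f.Fx t x + g.Fx t x := rfl
@[simp] theorem add_Fxx (f g : TF A) (t x : ℝ) : (f.add g).Fxx t x = f.Fxx t x + g.Fxx t x := rfl
@[simp] theorem add_gr (f g : TF A) (t x : ℝ) : (f.add g).gr t x = f.gr t x + g.gr t x := by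
  simp only [gr, add]; ring
@[simp] theorem add_gl (f g : TF A) (t x : ℝ) : (f.add g).gl t x = f.gl t x + g.gl t x := by
  simp only [gl, add]; ring
@[simp] theorem mul_F (f g : TF A) (t x : ℝ) : (f.mul g).F t x = f.F t x * g.F t x := rfl
@[simp] theorem mul_Fx (f g : TF A) (t x : ℝ) :
    (f.mul g).Fx t x = f.Fx t x * g.F t x + f.F t x * g.Fx t x := rfl
@[simp] theorem mul_Fxx (f g : TF A) (t x : ℝ) :
    (f.mul g).Fxx t x = f.Fxx t x * g.F t x + 2 * (f.Fx t x * g.Fx t x) + f.F t x * g.Fxx t x := rfl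
/-- product rule for the generator -/
@[simp] theorem mul_gr (f g : TF A) (t x : ℝ) :
    (f.mul g).gr t x = f.gr t x * g.F t x + f.F t x * g.gr t x + f.Fx t x * g.Fx t x := by
  simp only [gr, mul]; ring
@[simp] theorem mul_gl (f g : TF A) (t x : ℝ) :
    (f.mul g).gl t x = f.gl t x * g.F t x + f.F t x * g.gl t x + f.Fx t x * g.Fx t x := by
  simp only [gl, mul]; ring
@[simp] theorem smul_F (c : ℝ) (f : TF A) (t x : ℝ) : (smul c f).F t x = c * f.F t x := rfl
@[simp] theorem smul_Fx (c : ℝ) (f : TF A) (t x : ℝ) : (smul c f).Fx t x = c * f.Fx t x := by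
  simp [smul]
@[simp] theorem smul_Fxx (c : ℝ) (f : TF A) (t x : ℝ) : (smul c f).Fxx t x = c * f.Fxx t x := by
  simp [smul]
@[simp] theorem smul_gr (c : ℝ) (f : TF A) (t x : ℝ) : (smul c f).gr t x = c * f.gr t x := by
  simp [smul]
@[simp] theorem smul_gl (c : ℝ) (f : TF A) (t x : ℝ) : (smul c f).gl t x = c * f.gl t x := by
  simp [smul]
@[simp] theorem neg_F (f : TF A) (t x : ℝ) : f.neg.F t x = -f.F t x := by simp [neg]
@[simp] theorem neg_Fx (f : TF A) (t x : ℝ) : f.neg.Fx t x = -f.Fx t x := by simp [neg]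
@[simp] theorem neg_Fxx (f : TF A) (t x : ℝ) : f.neg.Fxx t x = -f.Fxx t x := by simp [neg]
@[simp] theorem neg_gr (f : TF A) (t x : ℝ) : f.neg.gr t x = -f.gr t x := by simp [neg]
@[simp] theorem neg_gl (f : TF A) (t x : ℝ) : f.neg.gl t x = -f.gl t x := by simp [neg]
@[simp] theorem sub_F (f g : TF A) (t x : ℝ) : (f.sub g).F t x = f.F t x - g.F t x := by
  simp [sub, sub_eq_add_neg]
@[simp] theorem sub_Fx (f g : TF A) (t x : ℝ) : (f.sub g).Fx t x = f.Fx t x - g.Fx t x := by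
  simp [sub, sub_eq_add_neg]
@[simp] theorem sub_Fxx (f g : TF A) (t x : ℝ) : (f.sub g).Fxx t x = f.Fxx t x - g.Fxx t x := by
  simp [sub, sub_eq_add_neg]
@[simp] theorem sub_gr (f g : TF A) (t x : ℝ) : (f.sub g).gr t x = f.gr t x - g.gr t x := by
  simp [sub, sub_eq_add_neg]
@[simp] theorem sub_gl (f g : TF A) (t x : ℝ) : (f.sub g).gl t x = f.gl t x - g.gl t x := by
  simp [sub, sub_eq_add_neg]
@[simp] theorem sq_F (f : TF A) (t x : ℝ) : f.sq.F t x = f.F t x ^ 2 := by simp [sq]; ring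
@[simp] theorem sq_Fx (f : TF A) (t x : ℝ) : f.sq.Fx t x = 2 * (f.F t x * f.Fx t x) := by
  simp [sq]; ring
@[simp] theorem sq_gr (f : TF A) (t x : ℝ) :
    f.sq.gr t x = 2 * (f.F t x * f.gr t x) + f.Fx t x ^ 2 := by simp [sq]; ring
@[simp] theorem sq_gl (f : TF A) (t x : ℝ) :
    f.sq.gl t x = 2 * (f.F t x * f.gl t x) + f.Fx t x ^ 2 := by simp [sq]; ring
@[simp] theorem tfun_F (g gR gL : ℝ → ℝ) (hc hr hl cr cl hb) (t x : ℝ) :
    (tfun (A := A) g gR gL hc hr hl cr cl hb).F t x = g t := rfl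
@[simp] theorem tfun_Fx (g gR gL : ℝ → ℝ) (hc hr hl cr cl hb) (t x : ℝ) :
    (tfun (A := A) g gR gL hc hr hl cr cl hb).Fx t x = 0 := rfl
@[simp] theorem tfun_gr (g gR gL : ℝ → ℝ) (hc hr hl cr cl hb) (t x : ℝ) :
    (tfun (A := A) g gR gL hc hr hl cr cl hb).gr t x = gR t := by simp [gr, tfun]
@[simp] theorem tfun_gl (g gR gL : ℝ → ℝ) (hc hr hl cr cl hb) (t x : ℝ) :
    (tfun (A := A) g gR gL hc hr hl cr cl hb).gl t x = gL t := by simp [gl, tfun]

section law

variable {x0 : ℝ} {p Y Yx Yxx : ℝ → ℝ → ℝ}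







end law

section pg

/-- joint continuity gives continuity in `x` -/
theorem cont_of_strip {G : ℝ → ℝ → ℝ} {T : ℝ}
    (h : ContinuousOn (fun q : ℝ × ℝ => G q.1 q.2) (Icc 0 T ×ˢ univ)) {t : ℝ} (ht : t ∈ Icc 0 T) :
    Continuous (G t) := by
  have h1 : Continuous fun x : ℝ => ((t, x) : ℝ × ℝ) := Continuous.prodMk_right t
  have h2 := h.comp_continuous h1 fun x => ⟨ht, mem_univ _⟩
  exact h2

theorem pg_of {G : ℝ → ℝ → ℝ} (hG : GR A G) {t : ℝ} (ht : t ∈ Icc 0 A.T) (hc : Continuous (G t)) :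
    PG (G t) := by
  obtain ⟨C, n, hC, h⟩ := hG
  exact ⟨hc, C, n, hC, fun x => h t ht x⟩








end pg

end TF

/-! ### Instances -/

section inst

variable {A : SD}

theorem gr_b : GR A fun t _ => A.b t := by
  obtain ⟨M, _, h⟩ := weights_le A
  exact GR.tbdd fun t _ => by rw [abs_of_nonneg (A.b_nonneg t)]; exact (h t).2.2.1

theorem gr_bl : GR A fun t _ => A.bl t := by
  obtain ⟨M, _, h⟩ := weights_le A
  exact GR.tbdd fun t _ => by rw [abs_of_nonneg (A.bl_nonneg t)]; exact (h t).2.2.2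




theorem gr_u (hB : Back A) : GR A A.u := by
  obtain ⟨M, h⟩ := hB.bsys
  exact GR.of_le ⟨M, 1, fun t ht x => by
    rw [abs_of_nonneg (h.u_nonneg t ht x), pow_one]; exact h.u_le t ht x⟩

theorem gr_V (hB : Back A) : GR A A.V := by
  obtain ⟨M, h⟩ := hB.bsys
  exact GR.bdd (C := 1) fun t ht x => by
    rw [abs_of_pos (h.V_pos t ht x)]; exact (h.V_lt t ht x).le

theorem gr_P (hB : Back A) : GR A A.P := by
  obtain ⟨M, h⟩ := hB.bsys
  exact GR.bdd (C := M) fun t ht x => by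
    rw [abs_of_nonneg (h.P_nonneg t ht x)]; exact h.P_le t ht x

theorem gr_Px (hB : Back A) : GR A A.Px := by
  obtain ⟨C, n, hC, h⟩ := hB.growth
  exact ⟨C, n, hC, fun t ht x => (h t ht x).2.1⟩

theorem gr_Pxx (hB : Back A) : GR A A.Pxx := by
  obtain ⟨C, n, hC, h⟩ := hB.growth
  exact ⟨C, n, hC, fun t ht x => (h t ht x).2.2⟩


theorem cont_u (hB : Back A) : ContinuousOn (fun q : ℝ × ℝ => A.u q.1 q.2) (Icc 0 A.T ×ˢ univ) := by
  obtain ⟨M, h⟩ := hB.bsys; exact h.cu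
theorem cont_V (hB : Back A) : ContinuousOn (fun q : ℝ × ℝ => A.V q.1 q.2) (Icc 0 A.T ×ˢ univ) := by
  obtain ⟨M, h⟩ := hB.bsys; exact h.cV
theorem cont_P (hB : Back A) : ContinuousOn (fun q : ℝ × ℝ => A.P q.1 q.2) (Icc 0 A.T ×ˢ univ) := by
  obtain ⟨M, h⟩ := hB.bsys; exact h.cP

theorem pg_V (hB : Back A) {t : ℝ} (ht : t ∈ Icc 0 A.T) : PG (A.V t) :=
  TF.pg_of (gr_V hB) ht (TF.cont_of_strip (cont_V hB) ht)
theorem pg_P (hB : Back A) {t : ℝ} (ht : t ∈ Icc 0 A.T) : PG (A.P t) :=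
  TF.pg_of (gr_P hB) ht (TF.cont_of_strip (cont_P hB) ht)

theorem E_cont (hC : Clock A) : Continuous A.E := hC.D_cont.inv₀ fun t => (A.D_pos t).ne'

theorem K0_contOn (hC : Clock A) : ContinuousOn A.K0 (Icc 0 A.T) :=
  fun t ht => (hC.K0_t t ht).continuousAt.continuousWithinAt

theorem E_r (hC : Clock A) {t : ℝ} (ht : t ∈ Ico 0 A.T) :
    HasDerivWithinAt A.E (A.b t * A.E t) (Ici t) t := by
  have h := (hC.D_t t ht).inv (A.D_pos t).ne'
  refine h.congr_deriv ?_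
  have := (A.D_pos t).ne'
  unfold SD.b SD.E; field_simp

theorem E_l (hC : Clock A) {t : ℝ} (ht : t ∈ Ioc 0 A.T) :
    HasDerivWithinAt A.E (A.bl t * A.E t) (Iic t) t := by
  have h := (hC.D_tl t ht).inv (A.D_pos t).ne'
  refine h.congr_deriv ?_
  have := (A.D_pos t).ne'
  unfold SD.bl SD.E; field_simp

theorem E_le (t : ℝ) : A.E t ≤ A.d⁻¹ := inv_anti₀ A.hd (A.d_le_D t)

namespace TF

/-- `u` -/
def tu (hB : Back A) (hC : Clock A) : TF A where
  F := A.u
  Fr t x := -(A.P t x / 2 + A.b t * A.u t x * A.V t x)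
  Fl t x := -(A.P t x / 2 + A.bl t * A.u t x * A.V t x)
  Fx t x := A.V t x - 1
  Fxx := A.P
  test := {
    cF := cont_u hB
    hx := hB.u_x
    hxx := fun t ht x => by simpa using (hB.V_x t ht x).sub_const 1
    hr := fun t ht x => by obtain ⟨M, h⟩ := hB.bsys; exact h.hut t ht x
    hl := hB.u_tl
    cr := fun t ht x => (((cwa_right ht (cont_P hB)).div_const 2).add
      (((cwa_fst_right (b_cont_right A hC.D_cont t)).mul (cwa_right ht (cont_u hB))).mul
        (cwa_right ht (cont_V hB)))).neg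
    cl := fun t ht x => (((cwa_left ht (cont_P hB)).div_const 2).add
      (((cwa_fst_left (bl_cont_left A hC.D_cont t)).mul (cwa_left ht (cont_u hB))).mul
        (cwa_left ht (cont_V hB)))).neg
    cx := (cont_V hB).sub continuousOn_const
    cxx := cont_P hB
    growth := growth_of (gr_u hB)
      (by
        have h := (((gr_P hB).mul (GR.const (2⁻¹))).add ((gr_b.mul (gr_u hB)).mul (gr_V hB))).neg
        simpa only [div_eq_mul_inv] using h)
      (by
        have h := (((gr_P hB).mul (GR.const (2⁻¹))).add ((gr_bl.mul (gr_u hB)).mul (gr_V hB))).neg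
        simpa only [div_eq_mul_inv] using h)
      ((gr_V hB).sub (GR.const 1)) (gr_P hB) }

/-- `V` -/
def tV (hB : Back A) (hC : Clock A) : TF A where
  F := A.V
  Fr t x := -(A.Px t x / 2 + A.b t * A.u t x * A.P t x) + A.b t * A.V t x * (1 - A.V t x)
  Fl t x := -(A.Px t x / 2 + A.bl t * A.u t x * A.P t x) + A.bl t * A.V t x * (1 - A.V t x)
  Fx := A.P
  Fxx := A.Px
  test := {
    cF := cont_V hB
    hx := hB.V_x
    hxx := hB.P_x
    hr := fun t ht x => by obtain ⟨M, h⟩ := hB.bsys; exact h.hVt t ht x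
    hl := hB.V_tl
    cr := fun t ht x => ((((cwa_right ht hB.Px_cont).div_const 2).add
      (((cwa_fst_right (b_cont_right A hC.D_cont t)).mul (cwa_right ht (cont_u hB))).mul
        (cwa_right ht (cont_P hB)))).neg).add
      (((cwa_fst_right (b_cont_right A hC.D_cont t)).mul (cwa_right ht (cont_V hB))).mul
        (continuousWithinAt_const.sub (cwa_right ht (cont_V hB))))
    cl := fun t ht x => ((((cwa_left ht hB.Px_cont).div_const 2).add
      (((cwa_fst_left (bl_cont_left A hC.D_cont t)).mul (cwa_left ht (cont_u hB))).mul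
        (cwa_left ht (cont_P hB)))).neg).add
      (((cwa_fst_left (bl_cont_left A hC.D_cont t)).mul (cwa_left ht (cont_V hB))).mul
        (continuousWithinAt_const.sub (cwa_left ht (cont_V hB))))
    cx := cont_P hB
    cxx := hB.Px_cont
    growth := growth_of (gr_V hB)
      (by
        have h := (((gr_Px hB).mul (GR.const (2⁻¹))).add ((gr_b.mul (gr_u hB)).mul (gr_P hB))).neg.add
          ((gr_b.mul (gr_V hB)).mul ((GR.const 1).sub (gr_V hB)))
        simpa only [div_eq_mul_inv] using h)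
      (by
        have h := (((gr_Px hB).mul (GR.const (2⁻¹))).add ((gr_bl.mul (gr_u hB)).mul (gr_P hB))).neg.add
          ((gr_bl.mul (gr_V hB)).mul ((GR.const 1).sub (gr_V hB)))
        simpa only [div_eq_mul_inv] using h)
      (gr_P hB) (gr_Px hB) }

/-- `P` -/
def tP (hB : Back A) (hC : Clock A) : TF A where
  F := A.P
  Fr t x := -(A.Pxx t x / 2 + A.b t * A.u t x * A.Px t x) + A.b t * (2 - 3 * A.V t x) * A.P t x
  Fl t x := -(A.Pxx t x / 2 + A.bl t * A.u t x * A.Px t x) + A.bl t * (2 - 3 * A.V t x) * A.P t x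
  Fx := A.Px
  Fxx := A.Pxx
  test := {
    cF := cont_P hB
    hx := hB.P_x
    hxx := hB.Px_x
    hr := fun t ht x => by obtain ⟨M, h⟩ := hB.bsys; exact h.hPt t ht x
    hl := hB.P_tl
    cr := fun t ht x => ((((cwa_right ht hB.Pxx_cont).div_const 2).add
      (((cwa_fst_right (b_cont_right A hC.D_cont t)).mul (cwa_right ht (cont_u hB))).mul
        (cwa_right ht hB.Px_cont))).neg).add
      (((cwa_fst_right (b_cont_right A hC.D_cont t)).mul
        (continuousWithinAt_const.sub (continuousWithinAt_const.mul (cwa_right ht (cont_V hB))))).mul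
        (cwa_right ht (cont_P hB)))
    cl := fun t ht x => ((((cwa_left ht hB.Pxx_cont).div_const 2).add
      (((cwa_fst_left (bl_cont_left A hC.D_cont t)).mul (cwa_left ht (cont_u hB))).mul
        (cwa_left ht hB.Px_cont))).neg).add
      (((cwa_fst_left (bl_cont_left A hC.D_cont t)).mul
        (continuousWithinAt_const.sub (continuousWithinAt_const.mul (cwa_left ht (cont_V hB))))).mul
        (cwa_left ht (cont_P hB)))
    cx := hB.Px_cont
    cxx := hB.Pxx_cont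
    growth := growth_of (gr_P hB)
      (by
        have h := (((gr_Pxx hB).mul (GR.const (2⁻¹))).add ((gr_b.mul (gr_u hB)).mul (gr_Px hB))).neg.add
          ((gr_b.mul ((GR.const 2).sub ((gr_V hB).const_mul 3))).mul (gr_P hB))
        simpa only [div_eq_mul_inv] using h)
      (by
        have h := (((gr_Pxx hB).mul (GR.const (2⁻¹))).add ((gr_bl.mul (gr_u hB)).mul (gr_Px hB))).neg.add
          ((gr_bl.mul ((GR.const 2).sub ((gr_V hB).const_mul 3))).mul (gr_P hB))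
        simpa only [div_eq_mul_inv] using h)
      (gr_Px hB) (gr_Pxx hB) }

/-- `w = x + u` -/
def tw (hB : Back A) (hC : Clock A) : TF A := tx.add (tu hB hC)

/-- `R = 1 - V` -/
def tR (hB : Back A) (hC : Clock A) : TF A := (const 1).sub (tV hB hC)

/-- `E = 1/D` -/
def tE (hC : Clock A) : TF A :=
  tfun A.E (fun t => A.b t * A.E t) (fun t => A.bl t * A.E t) (E_cont hC).continuousOn
    (fun t ht => E_r hC ht) (fun t ht => E_l hC ht)
    (fun t ht => (b_cont_right A hC.D_cont t).mul (E_cont hC).continuousWithinAt)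
    (fun t ht => (bl_cont_left A hC.D_cont t).mul (E_cont hC).continuousWithinAt)
    (by
      obtain ⟨M, hM0, h⟩ := weights_le A
      refine ⟨M * A.d⁻¹, fun t _ => ?_⟩
      constructor
      · rw [abs_of_nonneg (mul_nonneg (A.b_nonneg t) (A.E_pos t).le)]
        exact mul_le_mul (h t).2.2.1 (E_le t) (A.E_pos t).le hM0
      · rw [abs_of_nonneg (mul_nonneg (A.bl_nonneg t) (A.E_pos t).le)]
        exact mul_le_mul (h t).2.2.2 (E_le t) (A.E_pos t).le hM0)

/-- `D` -/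
def tD (hC : Clock A) : TF A :=
  tfun A.D (fun t => -A.m t) (fun t => -A.ml t) hC.D_cont.continuousOn hC.D_t hC.D_tl
    (fun t _ => (m_cont_right A t).neg) (fun t _ => (ml_cont_left A t).neg)
    (by
      obtain ⟨M, hM0, h⟩ := weights_le A
      refine ⟨M, fun t _ => ?_⟩
      rw [abs_neg, abs_neg, abs_of_nonneg (A.m_nonneg t), abs_of_nonneg (A.ml_nonneg t)]
      exact ⟨(h t).1, (h t).2.1⟩)

/-- `K0` -/
def tK0 (hC : Clock A) : TF A :=
  tfun A.K0 (fun t => -A.E t) (fun t => -A.E t) (K0_contOn hC)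
    (fun t ht => (hC.K0_t t ⟨ht.1, ht.2.le⟩).hasDerivWithinAt)
    (fun t ht => (hC.K0_t t ⟨ht.1.le, ht.2⟩).hasDerivWithinAt)
    (fun t _ => (E_cont hC).continuousWithinAt.neg)
    (fun t _ => (E_cont hC).continuousWithinAt.neg)
    (by
      refine ⟨A.d⁻¹, fun t _ => ?_⟩
      rw [abs_neg, abs_of_pos (A.E_pos t)]
      exact ⟨E_le t, E_le t⟩)

/-- `chi = D K0` -/
def tchi (hC : Clock A) : TF A := (tD hC).mul (tK0 hC)

@[simp] theorem tu_F (hB : Back A) (hC : Clock A) (t x : ℝ) : (tu hB hC).F t x = A.u t x := rfl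
@[simp] theorem tu_Fx (hB : Back A) (hC : Clock A) (t x : ℝ) :
    (tu hB hC).Fx t x = A.V t x - 1 := rfl
@[simp] theorem tu_Fxx (hB : Back A) (hC : Clock A) (t x : ℝ) : (tu hB hC).Fxx t x = A.P t x := rfl
@[simp] theorem tu_gr (hB : Back A) (hC : Clock A) (t x : ℝ) :
    (tu hB hC).gr t x = -(A.b t * A.u t x) := by simp only [gr, tu]; ring
@[simp] theorem tu_gl (hB : Back A) (hC : Clock A) (t x : ℝ) :
    (tu hB hC).gl t x = -(A.bl t * A.u t x) := by simp only [gl, tu]; ring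
@[simp] theorem tV_F (hB : Back A) (hC : Clock A) (t x : ℝ) : (tV hB hC).F t x = A.V t x := rfl
@[simp] theorem tV_Fx (hB : Back A) (hC : Clock A) (t x : ℝ) : (tV hB hC).Fx t x = A.P t x := rfl
@[simp] theorem tV_Fxx (hB : Back A) (hC : Clock A) (t x : ℝ) :
    (tV hB hC).Fxx t x = A.Px t x := rfl
@[simp] theorem tV_gr (hB : Back A) (hC : Clock A) (t x : ℝ) :
    (tV hB hC).gr t x = A.b t * A.V t x * (1 - A.V t x) := by simp only [gr, tV]; ring
@[simp] theorem tV_gl (hB : Back A) (hC : Clock A) (t x : ℝ) :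
    (tV hB hC).gl t x = A.bl t * A.V t x * (1 - A.V t x) := by simp only [gl, tV]; ring
@[simp] theorem tP_F (hB : Back A) (hC : Clock A) (t x : ℝ) : (tP hB hC).F t x = A.P t x := rfl
@[simp] theorem tP_Fx (hB : Back A) (hC : Clock A) (t x : ℝ) : (tP hB hC).Fx t x = A.Px t x := rfl
@[simp] theorem tP_Fxx (hB : Back A) (hC : Clock A) (t x : ℝ) :
    (tP hB hC).Fxx t x = A.Pxx t x := rfl
@[simp] theorem tP_gr (hB : Back A) (hC : Clock A) (t x : ℝ) :
    (tP hB hC).gr t x = A.b t * (2 - 3 * A.V t x) * A.P t x := by simp only [gr, tP]; ring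
@[simp] theorem tP_gl (hB : Back A) (hC : Clock A) (t x : ℝ) :
    (tP hB hC).gl t x = A.bl t * (2 - 3 * A.V t x) * A.P t x := by simp only [gl, tP]; ring
@[simp] theorem tw_F (hB : Back A) (hC : Clock A) (t x : ℝ) : (tw hB hC).F t x = A.w t x := rfl
@[simp] theorem tw_Fx (hB : Back A) (hC : Clock A) (t x : ℝ) :
    (tw hB hC).Fx t x = A.V t x := by simp [tw]
@[simp] theorem tw_gr (hB : Back A) (hC : Clock A) (t x : ℝ) : (tw hB hC).gr t x = 0 := by
  simp [tw]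
@[simp] theorem tw_gl (hB : Back A) (hC : Clock A) (t x : ℝ) : (tw hB hC).gl t x = 0 := by
  simp [tw]
@[simp] theorem tR_F (hB : Back A) (hC : Clock A) (t x : ℝ) :
    (tR hB hC).F t x = 1 - A.V t x := by simp [tR]
@[simp] theorem tR_Fx (hB : Back A) (hC : Clock A) (t x : ℝ) :
    (tR hB hC).Fx t x = -A.P t x := by simp [tR]
@[simp] theorem tR_gr (hB : Back A) (hC : Clock A) (t x : ℝ) :
    (tR hB hC).gr t x = -(A.b t * A.V t x * (1 - A.V t x)) := by simp [tR]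
@[simp] theorem tR_gl (hB : Back A) (hC : Clock A) (t x : ℝ) :
    (tR hB hC).gl t x = -(A.bl t * A.V t x * (1 - A.V t x)) := by simp [tR]
@[simp] theorem tE_F (hC : Clock A) (t x : ℝ) : (tE hC).F t x = A.E t := rfl
@[simp] theorem tE_Fx (hC : Clock A) (t x : ℝ) : (tE hC).Fx t x = 0 := rfl
@[simp] theorem tE_gr (hC : Clock A) (t x : ℝ) : (tE hC).gr t x = A.b t * A.E t := by
  unfold tE; rw [tfun_gr]
@[simp] theorem tE_gl (hC : Clock A) (t x : ℝ) : (tE hC).gl t x = A.bl t * A.E t := by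
  unfold tE; rw [tfun_gl]
@[simp] theorem tD_F (hC : Clock A) (t x : ℝ) : (tD hC).F t x = A.D t := rfl
@[simp] theorem tD_Fx (hC : Clock A) (t x : ℝ) : (tD hC).Fx t x = 0 := rfl
@[simp] theorem tD_gr (hC : Clock A) (t x : ℝ) : (tD hC).gr t x = -A.m t := by
  unfold tD; rw [tfun_gr]
@[simp] theorem tD_gl (hC : Clock A) (t x : ℝ) : (tD hC).gl t x = -A.ml t := by
  unfold tD; rw [tfun_gl]
@[simp] theorem tK0_F (hC : Clock A) (t x : ℝ) : (tK0 hC).F t x = A.K0 t := rfl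
@[simp] theorem tK0_Fx (hC : Clock A) (t x : ℝ) : (tK0 hC).Fx t x = 0 := rfl
@[simp] theorem tK0_gr (hC : Clock A) (t x : ℝ) : (tK0 hC).gr t x = -A.E t := by
  unfold tK0; rw [tfun_gr]
@[simp] theorem tK0_gl (hC : Clock A) (t x : ℝ) : (tK0 hC).gl t x = -A.E t := by
  unfold tK0; rw [tfun_gl]
@[simp] theorem tchi_F (hC : Clock A) (t x : ℝ) : (tchi hC).F t x = A.chi t := rfl
@[simp] theorem tchi_Fx (hC : Clock A) (t x : ℝ) : (tchi hC).Fx t x = 0 := by simp [tchi]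
@[simp] theorem tchi_gr (hC : Clock A) (t x : ℝ) :
    (tchi hC).gr t x = -(1 + A.m t * A.K0 t) := by
  have h : A.D t * A.E t = 1 := mul_inv_cancel₀ (A.D_pos t).ne'
  simp [tchi]; linarith
@[simp] theorem tchi_gl (hC : Clock A) (t x : ℝ) :
    (tchi hC).gl t x = -(1 + A.ml t * A.K0 t) := by
  have h : A.D t * A.E t = 1 := mul_inv_cancel₀ (A.D_pos t).ne'
  simp [tchi]; linarith

end TF

end inst

end

end Crest.Agent.R146.StepTest_168
private theorem rz_b12226ce69 : type_of% @_root_.Crest.Agent.R146.StepTest_168.TF.pow.eq_def := @_root_.Crest.Agent.R146.StepTest_168.TF.pow.eq_def -- L589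
private theorem rz_4888795a60 : type_of% @_root_.Crest.Agent.R146.StepTest_168.TF.pow.eq_1 := @_root_.Crest.Agent.R146.StepTest_168.TF.pow.eq_1 -- L589
end

-- ▼ part R146/StepScal_774
section

/-!
Row 146, task 118 (STEP-SCAL, helper774): scalar identities of the step system, from
`Back`, `Clock`, `Law` of `StepDef_791`.

Library:
* `mrc_right`, `mlc_left`, `mlc_bdd`      : local constancy / boundedness of the weights;
* `Fac A`                                 : collected facts (continuity, growth) on the fields;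
* `Test.const/add/neg/sub/mul/...`        : closure of `Test`;
* `tX, tU, tW, tV, tR, tP, tE`            : the basic tests;
* `Law.integrable`, `ex_add`, `ex_smul`   : linearity of `ex` on `PG` functions;
* `Ts_t, Qs_t, Lams_t, Cs_t, mean_lam, mean_h, cont`, `scal`.
-/

set_option autoImplicit false

namespace Crest.Agent.R146.StepScal_774

open MeasureTheory ProbabilityTheory Set Filter Topology
open Crest.Agent.R146.StepDef_791 Crest.Agent.R146.PB_534
open Crest.Agent.R146.MaxPCmp_371 (BSys strip)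

noncomputable section

/-! ### local constancy of the weights -/

theorem mrc_right : ∀ (cs : Cells) (T t : ℝ),
    ∃ η : ℝ, 0 < η ∧ ∀ s ∈ Ico t (t + η), mrc T cs s = mrc T cs t
  | [], _, _ => ⟨1, one_pos, fun _ _ => rfl⟩
  | c :: cs, T, t => by
      by_cases h1 : c.1 ≤ t
      · by_cases h2 : t < T
        · refine ⟨T - t, sub_pos.2 h2, fun s hs => ?_⟩
          have h3 : s < T := by linarith [hs.2]
          have h4 : c.1 ≤ s := h1.trans hs.1
          simp only [mrc, if_pos h1, if_pos h2, if_pos h3, if_pos h4]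
        · refine ⟨1, one_pos, fun s hs => ?_⟩
          have h3 : ¬ s < T := by
            intro h; exact h2 (hs.1.trans_lt h)
          have h4 : c.1 ≤ s := h1.trans hs.1
          simp only [mrc, if_pos h1, if_neg h2, if_neg h3, if_pos h4]
      · obtain ⟨η, hη, h⟩ := mrc_right cs c.1 t
        refine ⟨min η (c.1 - t), lt_min hη (sub_pos.2 (not_le.1 h1)), fun s hs => ?_⟩
        have h5 := min_le_right η (c.1 - t)
        have h6 := min_le_left η (c.1 - t)
        have h3 : ¬ c.1 ≤ s := by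
          have := hs.2
          rw [not_le]; linarith
        simp only [mrc, if_neg h1, if_neg h3]
        exact h s ⟨hs.1, by have := hs.2; linarith⟩

theorem mlc_left : ∀ (cs : Cells) (T t : ℝ),
    ∃ η : ℝ, 0 < η ∧ ∀ s ∈ Ioc (t - η) t, mlc T cs s = mlc T cs t
  | [], _, _ => ⟨1, one_pos, fun _ _ => rfl⟩
  | c :: cs, T, t => by
      by_cases h1 : c.1 < t
      · by_cases h2 : t ≤ T
        · refine ⟨t - c.1, sub_pos.2 h1, fun s hs => ?_⟩
          have h3 : s ≤ T := hs.2.trans h2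
          have h4 : c.1 < s := by linarith [hs.1]
          simp only [mlc, if_pos h1, if_pos h2, if_pos h3, if_pos h4]
        · have h2' := not_le.1 h2
          refine ⟨min (t - c.1) (t - T), lt_min (sub_pos.2 h1) (sub_pos.2 h2'), fun s hs => ?_⟩
          have h5 := min_le_right (t - c.1) (t - T)
          have h6 := min_le_left (t - c.1) (t - T)
          have h3 : ¬ s ≤ T := by
            have := hs.1
            rw [not_le]; linarith
          have h4 : c.1 < s := by linarith [hs.1]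
          simp only [mlc, if_pos h1, if_neg h2, if_neg h3, if_pos h4]
      · obtain ⟨η, hη, h⟩ := mlc_left cs c.1 t
        refine ⟨η, hη, fun s hs => ?_⟩
        have h3 : ¬ c.1 < s := by
          rw [not_lt] at h1 ⊢
          exact hs.2.trans h1
        simp only [mlc, if_neg h1, if_neg h3]
        exact h s hs

theorem mlc_bdd : ∀ (cs : Cells), ∃ M : ℝ, 0 ≤ M ∧ ∀ T t : ℝ, mlc T cs t ≤ M
  | [] => ⟨0, le_rfl, fun _ _ => le_rfl⟩
  | c :: cs => by
      obtain ⟨M, hM, h⟩ := mlc_bdd cs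
      refine ⟨M + |c.2|, by positivity, fun T t => ?_⟩
      unfold mlc
      split_ifs with h1 h2
      · have := le_abs_self c.2
        linarith
      · positivity
      · have := h c.1 t
        have := abs_nonneg c.2
        linarith

theorem m_cont (A : SD) (t : ℝ) : ContinuousWithinAt A.m (Ici t) t := by
  obtain ⟨η, hη, h⟩ := mrc_right A.cs A.T t
  have h1 : A.m =ᶠ[𝓝[Ici t] t] fun _ => A.m t := by
    have h2 : Ico t (t + η) ∈ 𝓝[Ici t] t := Ico_mem_nhdsGE (by linarith)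
    filter_upwards [h2] with s hs
    exact h s hs
  exact (continuousWithinAt_const.congr_of_eventuallyEq h1 rfl)

theorem ml_cont (A : SD) (t : ℝ) : ContinuousWithinAt A.ml (Iic t) t := by
  obtain ⟨η, hη, h⟩ := mlc_left A.cs A.T t
  have h1 : A.ml =ᶠ[𝓝[Iic t] t] fun _ => A.ml t := by
    have h2 : Ioc (t - η) t ∈ 𝓝[Iic t] t := Ioc_mem_nhdsLE (by linarith)
    filter_upwards [h2] with s hs
    exact h s hs
  exact (continuousWithinAt_const.congr_of_eventuallyEq h1 rfl)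

theorem E_cont {A : SD} (hC : Clock A) : Continuous A.E :=
  hC.D_cont.inv₀ fun t => (A.D_pos t).ne'

theorem b_cont {A : SD} (hC : Clock A) (t : ℝ) : ContinuousWithinAt A.b (Ici t) t :=
  (m_cont A t).div hC.D_cont.continuousWithinAt (A.D_pos t).ne'

theorem bl_cont {A : SD} (hC : Clock A) (t : ℝ) : ContinuousWithinAt A.bl (Iic t) t :=
  (ml_cont A t).div hC.D_cont.continuousWithinAt (A.D_pos t).ne'

theorem bl_bdd (A : SD) : ∃ M : ℝ, 0 ≤ M ∧ ∀ t, |A.bl t| ≤ M := by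
  obtain ⟨M, hM, h⟩ := mlc_bdd A.cs
  refine ⟨M / A.d, div_nonneg hM A.hd.le, fun t => ?_⟩
  rw [abs_of_nonneg (A.bl_nonneg t)]
  unfold SD.bl
  exact div_le_div₀ hM (h A.T t) A.hd (A.d_le_D t)

theorem E_le (A : SD) (t : ℝ) : |A.E t| ≤ 1 / A.d := by
  rw [abs_of_pos (A.E_pos t), one_div]
  exact inv_anti₀ A.hd (A.d_le_D t)

theorem E_r {A : SD} (hC : Clock A) {t : ℝ} (ht : t ∈ Ico 0 A.T) :
    HasDerivWithinAt A.E (A.b t * A.E t) (Ici t) t := by
  have h := (hC.D_t t ht).fun_inv (A.D_pos t).ne'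
  have e : A.b t * A.E t = - -A.m t / A.D t ^ 2 := by
    have := (A.D_pos t).ne'
    simp only [SD.b, SD.E]
    field_simp
  rw [e]
  exact h

theorem E_l {A : SD} (hC : Clock A) {t : ℝ} (ht : t ∈ Ioc 0 A.T) :
    HasDerivWithinAt A.E (A.bl t * A.E t) (Iic t) t := by
  have h := (hC.D_tl t ht).fun_inv (A.D_pos t).ne'
  have e : A.bl t * A.E t = - -A.ml t / A.D t ^ 2 := by
    have := (A.D_pos t).ne'
    simp only [SD.bl, SD.E]
    field_simp
  rw [e]
  exact h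

/-! ### polynomial growth, uniformly on `[0,T]` -/

/-- growth of one field -/
def Gr (A : SD) (F : ℝ → ℝ → ℝ) : Prop :=
  ∃ C : ℝ, ∃ n : ℕ, 0 ≤ C ∧ ∀ t ∈ Icc 0 A.T, ∀ x, |F t x| ≤ C * (1 + |x|) ^ n

theorem Gr.const (A : SD) (c : ℝ) : Gr A (fun _ _ => c) :=
  ⟨|c|, 0, abs_nonneg c, fun t _ x => by simp⟩

theorem Gr.of_t {A : SD} {f : ℝ → ℝ} {M : ℝ} (h : ∀ t ∈ Icc 0 A.T, |f t| ≤ M) :
    Gr A (fun t _ => f t) := by
  refine ⟨|M|, 0, abs_nonneg M, fun t ht x => ?_⟩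
  simpa using (h t ht).trans (le_abs_self M)

theorem Gr.id (A : SD) : Gr A (fun _ x => x) := by
  refine ⟨1, 1, zero_le_one, fun t _ x => ?_⟩
  have := abs_nonneg x
  rw [pow_one, one_mul]
  linarith

theorem Gr.add {A : SD} {F G : ℝ → ℝ → ℝ} (hF : Gr A F) (hG : Gr A G) :
    Gr A (fun t x => F t x + G t x) := by
  obtain ⟨C, n, hC, h⟩ := hF
  obtain ⟨C', n', hC', h'⟩ := hG
  refine ⟨C + C', max n n', by positivity, fun t ht x => ?_⟩
  have h1 : (1 + |x|) ^ n ≤ (1 + |x|) ^ max n n' :=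
    pow_le_pow_right₀ (one_le_base x) (le_max_left _ _)
  have h2 : (1 + |x|) ^ n' ≤ (1 + |x|) ^ max n n' :=
    pow_le_pow_right₀ (one_le_base x) (le_max_right _ _)
  calc |F t x + G t x| ≤ |F t x| + |G t x| := abs_add_le _ _
    _ ≤ C * (1 + |x|) ^ n + C' * (1 + |x|) ^ n' := add_le_add (h t ht x) (h' t ht x)
    _ ≤ C * (1 + |x|) ^ max n n' + C' * (1 + |x|) ^ max n n' :=
        add_le_add (mul_le_mul_of_nonneg_left h1 hC) (mul_le_mul_of_nonneg_left h2 hC')
    _ = _ := by ring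

theorem Gr.mul {A : SD} {F G : ℝ → ℝ → ℝ} (hF : Gr A F) (hG : Gr A G) :
    Gr A (fun t x => F t x * G t x) := by
  obtain ⟨C, n, hC, h⟩ := hF
  obtain ⟨C', n', hC', h'⟩ := hG
  refine ⟨C * C', n + n', by positivity, fun t ht x => ?_⟩
  have hx := one_le_base x
  calc |F t x * G t x| = |F t x| * |G t x| := abs_mul _ _
    _ ≤ (C * (1 + |x|) ^ n) * (C' * (1 + |x|) ^ n') :=
        mul_le_mul (h t ht x) (h' t ht x) (abs_nonneg _) (by positivity)
    _ = _ := by rw [pow_add]; ring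

theorem Gr.neg {A : SD} {F : ℝ → ℝ → ℝ} (hF : Gr A F) : Gr A (fun t x => -F t x) := by
  obtain ⟨C, n, hC, h⟩ := hF
  exact ⟨C, n, hC, fun t ht x => by rw [abs_neg]; exact h t ht x⟩

theorem Gr.sub {A : SD} {F G : ℝ → ℝ → ℝ} (hF : Gr A F) (hG : Gr A G) :
    Gr A (fun t x => F t x - G t x) := by
  simpa [sub_eq_add_neg] using hF.add hG.neg

theorem Gr.const_mul {A : SD} {F : ℝ → ℝ → ℝ} (hF : Gr A F) (c : ℝ) :
    Gr A (fun t x => c * F t x) := (Gr.const A c).mul hF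

theorem Gr.div_two {A : SD} {F : ℝ → ℝ → ℝ} (hF : Gr A F) : Gr A (fun t x => F t x / 2) := by
  have := hF.const_mul (1 / 2)
  refine (by simpa [div_eq_inv_mul] using this)

theorem Gr.pow {A : SD} {F : ℝ → ℝ → ℝ} (hF : Gr A F) (n : ℕ) : Gr A (fun t x => F t x ^ n) := by
  induction n with
  | zero => simpa using Gr.const A 1
  | succ n ih => simpa [pow_succ] using ih.mul hF

theorem Gr.congr {A : SD} {F G : ℝ → ℝ → ℝ} (hF : Gr A F) (h : ∀ t x, F t x = G t x) : Gr A G := by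
  have : F = G := by funext t x; exact h t x
  exact this ▸ hF

/-- five growth bounds at once -/
theorem Gr.five {A : SD} {F1 F2 F3 F4 F5 : ℝ → ℝ → ℝ} (h1 : Gr A F1) (h2 : Gr A F2) (h3 : Gr A F3)
    (h4 : Gr A F4) (h5 : Gr A F5) :
    ∃ C : ℝ, ∃ n : ℕ, 0 ≤ C ∧ ∀ t ∈ Icc 0 A.T, ∀ x, |F1 t x| ≤ C * (1 + |x|) ^ n ∧
    |F2 t x| ≤ C * (1 + |x|) ^ n ∧ |F3 t x| ≤ C * (1 + |x|) ^ n ∧
    |F4 t x| ≤ C * (1 + |x|) ^ n ∧ |F5 t x| ≤ C * (1 + |x|) ^ n := by
  obtain ⟨C1, n1, hC1, h1⟩ := h1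
  obtain ⟨C2, n2, hC2, h2⟩ := h2
  obtain ⟨C3, n3, hC3, h3⟩ := h3
  obtain ⟨C4, n4, hC4, h4⟩ := h4
  obtain ⟨C5, n5, hC5, h5⟩ := h5
  have key : ∀ (x C : ℝ) (n : ℕ), 0 ≤ C → C ≤ C1 + C2 + C3 + C4 + C5 → n ≤ n1 + n2 + n3 + n4 + n5 →
      C * (1 + |x|) ^ n ≤ (C1 + C2 + C3 + C4 + C5) * (1 + |x|) ^ (n1 + n2 + n3 + n4 + n5) := by
    intro x C n hC hle hn
    have h6 : (1 + |x|) ^ n ≤ (1 + |x|) ^ (n1 + n2 + n3 + n4 + n5) :=
      pow_le_pow_right₀ (one_le_base x) hn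
    have h7 : 0 ≤ (1 + |x|) ^ (n1 + n2 + n3 + n4 + n5) := by positivity
    exact (mul_le_mul_of_nonneg_left h6 hC).trans (mul_le_mul_of_nonneg_right hle h7)
  refine ⟨C1 + C2 + C3 + C4 + C5, n1 + n2 + n3 + n4 + n5, by positivity, fun t ht x =>
    ⟨(h1 t ht x).trans (key x C1 n1 hC1 (by linarith) (by omega)),
     (h2 t ht x).trans (key x C2 n2 hC2 (by linarith) (by omega)),
     (h3 t ht x).trans (key x C3 n3 hC3 (by linarith) (by omega)),
     (h4 t ht x).trans (key x C4 n4 hC4 (by linarith) (by omega)),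
     (h5 t ht x).trans (key x C5 n5 hC5 (by linarith) (by omega))⟩⟩

section growth
variable {A : SD} {F Fr Fl Fx Fxx : ℝ → ℝ → ℝ} (h : Test A F Fr Fl Fx Fxx)
include h

theorem gF : Gr A F := by
  obtain ⟨C, n, hC, hh⟩ := h.growth; exact ⟨C, n, hC, fun t ht x => (hh t ht x).1⟩
theorem gFr : Gr A Fr := by
  obtain ⟨C, n, hC, hh⟩ := h.growth; exact ⟨C, n, hC, fun t ht x => (hh t ht x).2.1⟩
theorem gFl : Gr A Fl := by
  obtain ⟨C, n, hC, hh⟩ := h.growth; exact ⟨C, n, hC, fun t ht x => (hh t ht x).2.2.1⟩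
theorem gFx : Gr A Fx := by
  obtain ⟨C, n, hC, hh⟩ := h.growth; exact ⟨C, n, hC, fun t ht x => (hh t ht x).2.2.2.1⟩
theorem gFxx : Gr A Fxx := by
  obtain ⟨C, n, hC, hh⟩ := h.growth; exact ⟨C, n, hC, fun t ht x => (hh t ht x).2.2.2.2⟩

end growth

/-! ### continuity within half strips -/

theorem cw_r {A : SD} {G : ℝ → ℝ → ℝ}
    (h : ContinuousOn (fun q : ℝ × ℝ => G q.1 q.2) (Icc 0 A.T ×ˢ univ)) {t : ℝ}
    (ht : t ∈ Ico 0 A.T) (x : ℝ) :
    ContinuousWithinAt (fun q : ℝ × ℝ => G q.1 q.2) (Ici t ×ˢ univ) (t, x) := by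
  have h1 := h (t, x) ⟨⟨ht.1, ht.2.le⟩, mem_univ _⟩
  refine h1.mono_of_mem_nhdsWithin ?_
  rw [nhdsWithin_prod_eq]
  refine prod_mem_prod ?_ univ_mem
  have h2 : Ico t A.T ∈ 𝓝[Ici t] t := Ico_mem_nhdsGE ht.2
  filter_upwards [h2] with s hs
  exact ⟨ht.1.trans hs.1, hs.2.le⟩

theorem cw_l {A : SD} {G : ℝ → ℝ → ℝ}
    (h : ContinuousOn (fun q : ℝ × ℝ => G q.1 q.2) (Icc 0 A.T ×ˢ univ)) {t : ℝ}
    (ht : t ∈ Ioc 0 A.T) (x : ℝ) :
    ContinuousWithinAt (fun q : ℝ × ℝ => G q.1 q.2) (Iic t ×ˢ univ) (t, x) := by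
  have h1 := h (t, x) ⟨⟨ht.1.le, ht.2⟩, mem_univ _⟩
  refine h1.mono_of_mem_nhdsWithin ?_
  rw [nhdsWithin_prod_eq]
  refine prod_mem_prod ?_ univ_mem
  have h2 : Ioc 0 t ∈ 𝓝[Iic t] t := Ioc_mem_nhdsLE ht.1
  filter_upwards [h2] with s hs
  exact ⟨hs.1.le, hs.2.trans ht.2⟩

theorem ct_r {f : ℝ → ℝ} {t : ℝ} (h : ContinuousWithinAt f (Ici t) t) (x : ℝ) :
    ContinuousWithinAt (fun q : ℝ × ℝ => f q.1) (Ici t ×ˢ (univ : Set ℝ)) (t, x) :=
  ContinuousWithinAt.comp (t := Ici t) (f := fun q : ℝ × ℝ => q.1) (x := (t, x)) h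
    continuousWithinAt_fst (fun _ hq => hq.1)

theorem ct_l {f : ℝ → ℝ} {t : ℝ} (h : ContinuousWithinAt f (Iic t) t) (x : ℝ) :
    ContinuousWithinAt (fun q : ℝ × ℝ => f q.1) (Iic t ×ˢ (univ : Set ℝ)) (t, x) :=
  ContinuousWithinAt.comp (t := Iic t) (f := fun q : ℝ × ℝ => q.1) (x := (t, x)) h
    continuousWithinAt_fst (fun _ hq => hq.1)

/-! ### closure of `Test` -/

theorem tConst (A : SD) (c : ℝ) : Test A (fun _ _ => c) (fun _ _ => 0) (fun _ _ => 0)
    (fun _ _ => 0) (fun _ _ => 0) where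
  cF := continuousOn_const
  hx := fun _ _ x => hasDerivAt_const x c
  hxx := fun _ _ x => hasDerivAt_const x 0
  hr := fun t _ _ => hasDerivWithinAt_const t _ c
  hl := fun t _ _ => hasDerivWithinAt_const t _ c
  cr := fun _ _ _ => continuousWithinAt_const
  cl := fun _ _ _ => continuousWithinAt_const
  cx := continuousOn_const
  cxx := continuousOn_const
  growth := Gr.five (Gr.const A c) (Gr.const A 0) (Gr.const A 0) (Gr.const A 0) (Gr.const A 0)

theorem tX (A : SD) : Test A (fun _ x => x) (fun _ _ => 0) (fun _ _ => 0)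
    (fun _ _ => 1) (fun _ _ => 0) where
  cF := continuousOn_snd
  hx := fun _ _ x => hasDerivAt_id x
  hxx := fun _ _ x => hasDerivAt_const x 1
  hr := fun t _ x => hasDerivWithinAt_const t _ x
  hl := fun t _ x => hasDerivWithinAt_const t _ x
  cr := fun _ _ _ => continuousWithinAt_const
  cl := fun _ _ _ => continuousWithinAt_const
  cx := continuousOn_const
  cxx := continuousOn_const
  growth := Gr.five (Gr.id A) (Gr.const A 0) (Gr.const A 0) (Gr.const A 1) (Gr.const A 0)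

theorem tAdd {A : SD} {F Fr Fl Fx Fxx G Gr' Gl Gx Gxx : ℝ → ℝ → ℝ} (h : Test A F Fr Fl Fx Fxx)
    (k : Test A G Gr' Gl Gx Gxx) : Test A (fun t x => F t x + G t x) (fun t x => Fr t x + Gr' t x)
    (fun t x => Fl t x + Gl t x) (fun t x => Fx t x + Gx t x) (fun t x => Fxx t x + Gxx t x) where
  cF := h.cF.add k.cF
  hx := fun t ht x => (h.hx t ht x).add (k.hx t ht x)
  hxx := fun t ht x => (h.hxx t ht x).add (k.hxx t ht x)
  hr := fun t ht x => (h.hr t ht x).add (k.hr t ht x)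
  hl := fun t ht x => (h.hl t ht x).add (k.hl t ht x)
  cr := fun t ht x => (h.cr t ht x).add (k.cr t ht x)
  cl := fun t ht x => (h.cl t ht x).add (k.cl t ht x)
  cx := h.cx.add k.cx
  cxx := h.cxx.add k.cxx
  growth := Gr.five ((gF h).add (gF k)) ((gFr h).add (gFr k)) ((gFl h).add (gFl k))
    ((gFx h).add (gFx k)) ((gFxx h).add (gFxx k))

theorem tMul {A : SD} {F Fr Fl Fx Fxx G Gr' Gl Gx Gxx : ℝ → ℝ → ℝ} (h : Test A F Fr Fl Fx Fxx)
    (k : Test A G Gr' Gl Gx Gxx) : Test A (fun t x => F t x * G t x)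
    (fun t x => Fr t x * G t x + F t x * Gr' t x) (fun t x => Fl t x * G t x + F t x * Gl t x)
    (fun t x => Fx t x * G t x + F t x * Gx t x)
    (fun t x => Fxx t x * G t x + 2 * (Fx t x * Gx t x) + F t x * Gxx t x) where
  cF := h.cF.mul k.cF
  hx := fun t ht x => (h.hx t ht x).mul (k.hx t ht x)
  hxx := fun t ht x => by
    have h1 := ((h.hxx t ht x).mul (k.hx t ht x)).add ((h.hx t ht x).mul (k.hxx t ht x))
    have e : Fxx t x * G t x + 2 * (Fx t x * Gx t x) + F t x * Gxx t x =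
        Fxx t x * G t x + Fx t x * Gx t x + (Fx t x * Gx t x + F t x * Gxx t x) := by ring
    rw [e]
    exact h1
  hr := fun t ht x => (h.hr t ht x).mul (k.hr t ht x)
  hl := fun t ht x => (h.hl t ht x).mul (k.hl t ht x)
  cr := fun t ht x => ((h.cr t ht x).mul (cw_r k.cF ht x)).add ((cw_r h.cF ht x).mul (k.cr t ht x))
  cl := fun t ht x => ((h.cl t ht x).mul (cw_l k.cF ht x)).add ((cw_l h.cF ht x).mul (k.cl t ht x))
  cx := (h.cx.mul k.cF).add (h.cF.mul k.cx)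
  cxx := ((h.cxx.mul k.cF).add (continuousOn_const.mul (h.cx.mul k.cx))).add (h.cF.mul k.cxx)
  growth := Gr.five ((gF h).mul (gF k))
    (((gFr h).mul (gF k)).add ((gF h).mul (gFr k)))
    (((gFl h).mul (gF k)).add ((gF h).mul (gFl k)))
    (((gFx h).mul (gF k)).add ((gF h).mul (gFx k)))
    ((((gFxx h).mul (gF k)).add (((gFx h).mul (gFx k)).const_mul 2)).add ((gF h).mul (gFxx k)))

/-- change of the representatives -/
theorem tCongr {A : SD} {F Fr Fl Fx Fxx G Gr' Gl Gx Gxx : ℝ → ℝ → ℝ} (h : Test A F Fr Fl Fx Fxx)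
    (e : ∀ t x, F t x = G t x) (er : ∀ t x, Fr t x = Gr' t x) (el : ∀ t x, Fl t x = Gl t x)
    (ex : ∀ t x, Fx t x = Gx t x) (exx : ∀ t x, Fxx t x = Gxx t x) : Test A G Gr' Gl Gx Gxx := by
  have e1 : F = G := by funext t x; exact e t x
  have e2 : Fr = Gr' := by funext t x; exact er t x
  have e3 : Fl = Gl := by funext t x; exact el t x
  have e4 : Fx = Gx := by funext t x; exact ex t x
  have e5 : Fxx = Gxx := by funext t x; exact exx t x
  subst e1 e2 e3 e4 e5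
  exact h

theorem tSmul {A : SD} {F Fr Fl Fx Fxx : ℝ → ℝ → ℝ} (c : ℝ) (h : Test A F Fr Fl Fx Fxx) :
    Test A (fun t x => c * F t x) (fun t x => c * Fr t x) (fun t x => c * Fl t x)
    (fun t x => c * Fx t x) (fun t x => c * Fxx t x) :=
  tCongr (tMul (tConst A c) h) (fun _ _ => rfl) (fun _ _ => by ring) (fun _ _ => by ring)
    (fun _ _ => by ring) (fun _ _ => by ring)

theorem tNeg {A : SD} {F Fr Fl Fx Fxx : ℝ → ℝ → ℝ} (h : Test A F Fr Fl Fx Fxx) :
    Test A (fun t x => -F t x) (fun t x => -Fr t x) (fun t x => -Fl t x)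
    (fun t x => -Fx t x) (fun t x => -Fxx t x) :=
  tCongr (tSmul (-1) h) (fun _ _ => by ring) (fun _ _ => by ring) (fun _ _ => by ring)
    (fun _ _ => by ring) (fun _ _ => by ring)

theorem tSub {A : SD} {F Fr Fl Fx Fxx G Gr' Gl Gx Gxx : ℝ → ℝ → ℝ} (h : Test A F Fr Fl Fx Fxx)
    (k : Test A G Gr' Gl Gx Gxx) : Test A (fun t x => F t x - G t x) (fun t x => Fr t x - Gr' t x)
    (fun t x => Fl t x - Gl t x) (fun t x => Fx t x - Gx t x) (fun t x => Fxx t x - Gxx t x) :=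
  tCongr (tAdd h (tNeg k)) (fun _ _ => by ring) (fun _ _ => by ring) (fun _ _ => by ring)
    (fun _ _ => by ring) (fun _ _ => by ring)

/-- a function of time only -/
theorem tTime {A : SD} {f fr fl : ℝ → ℝ} {M : ℝ} (hc : ContinuousOn f (Icc 0 A.T))
    (hr : ∀ t ∈ Ico 0 A.T, HasDerivWithinAt f (fr t) (Ici t) t)
    (hl : ∀ t ∈ Ioc 0 A.T, HasDerivWithinAt f (fl t) (Iic t) t)
    (cr : ∀ t ∈ Ico 0 A.T, ContinuousWithinAt fr (Ici t) t)
    (cl : ∀ t ∈ Ioc 0 A.T, ContinuousWithinAt fl (Iic t) t)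
    (hM : ∀ t ∈ Icc 0 A.T, |f t| ≤ M ∧ |fr t| ≤ M ∧ |fl t| ≤ M) :
    Test A (fun t _ => f t) (fun t _ => fr t) (fun t _ => fl t) (fun _ _ => 0) (fun _ _ => 0) where
  cF := hc.comp continuousOn_fst (fun _ hq => hq.1)
  hx := fun _ _ x => hasDerivAt_const x _
  hxx := fun _ _ x => hasDerivAt_const x _
  hr := fun t ht _ => hr t ht
  hl := fun t ht _ => hl t ht
  cr := fun t ht x => ct_r (cr t ht) x
  cl := fun t ht x => ct_l (cl t ht) x
  cx := continuousOn_const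
  cxx := continuousOn_const
  growth := Gr.five (Gr.of_t fun t ht => (hM t ht).1) (Gr.of_t fun t ht => (hM t ht).2.1)
    (Gr.of_t fun t ht => (hM t ht).2.2) (Gr.const A 0) (Gr.const A 0)

/-! ### growth and continuity of the fields -/

section fields
variable {A : SD} (hB : Back A) (hC : Clock A)

include hB in
theorem gU : Gr A A.u := by
  obtain ⟨M, hM⟩ := hB.bsys
  refine ⟨|M|, 1, abs_nonneg M, fun t ht x => ?_⟩
  rw [abs_of_nonneg (hM.u_nonneg t ht x), pow_one]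
  exact (hM.u_le t ht x).trans (mul_le_mul_of_nonneg_right (le_abs_self M) (by positivity))

include hB in
theorem gV : Gr A A.V := by
  obtain ⟨M, hM⟩ := hB.bsys
  refine ⟨1, 0, zero_le_one, fun t ht x => ?_⟩
  rw [abs_of_pos (hM.V_pos t ht x)]
  simpa using (hM.V_lt t ht x).le

include hB in
theorem gP : Gr A A.P := by
  obtain ⟨M, hM⟩ := hB.bsys
  refine ⟨|M|, 0, abs_nonneg M, fun t ht x => ?_⟩
  rw [abs_of_nonneg (hM.P_nonneg t ht x)]
  simpa using (hM.P_le t ht x).trans (le_abs_self M)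

include hB in
theorem gPx : Gr A A.Px := by
  obtain ⟨C, n, hC, h⟩ := hB.growth
  exact ⟨C, n, hC, fun t ht x => (h t ht x).2.1⟩

include hB in
theorem gPxx : Gr A A.Pxx := by
  obtain ⟨C, n, hC, h⟩ := hB.growth
  exact ⟨C, n, hC, fun t ht x => (h t ht x).2.2⟩

include hB in
theorem gb : Gr A (fun t _ => A.b t) := by
  obtain ⟨M, hM⟩ := hB.bsys
  refine Gr.of_t (M := M) fun t ht => ?_
  rw [abs_of_nonneg (hM.b_nonneg t ht)]
  exact hM.b_le t ht

theorem gbl : Gr A (fun t _ => A.bl t) := by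
  obtain ⟨M, _, hM⟩ := bl_bdd A
  exact Gr.of_t (M := M) fun t _ => hM t


include hB in
theorem cU : ContinuousOn (fun q : ℝ × ℝ => A.u q.1 q.2) (Icc 0 A.T ×ˢ univ) := by
  obtain ⟨M, hM⟩ := hB.bsys; exact hM.cu
include hB in
theorem cV : ContinuousOn (fun q : ℝ × ℝ => A.V q.1 q.2) (Icc 0 A.T ×ˢ univ) := by
  obtain ⟨M, hM⟩ := hB.bsys; exact hM.cV
include hB in
theorem cP : ContinuousOn (fun q : ℝ × ℝ => A.P q.1 q.2) (Icc 0 A.T ×ˢ univ) := by
  obtain ⟨M, hM⟩ := hB.bsys; exact hM.cP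

include hC in
theorem cb {t : ℝ} (x : ℝ) :
    ContinuousWithinAt (fun q : ℝ × ℝ => A.b q.1) (Ici t ×ˢ (univ : Set ℝ)) (t, x) :=
  ct_r (b_cont hC t) x
include hC in
theorem cbl {t : ℝ} (x : ℝ) :
    ContinuousWithinAt (fun q : ℝ × ℝ => A.bl q.1) (Iic t ×ˢ (univ : Set ℝ)) (t, x) :=
  ct_l (bl_cont hC t) x

/-! ### the basic tests -/

include hB hC in
theorem tU : Test A A.u (fun t x => -(A.P t x / 2 + A.b t * A.u t x * A.V t x))
    (fun t x => -(A.P t x / 2 + A.bl t * A.u t x * A.V t x)) (fun t x => A.V t x - 1) A.P where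
  cF := cU hB
  hx := hB.u_x
  hxx := fun t ht x => (hB.V_x t ht x).sub_const 1
  hr := by obtain ⟨M, hM⟩ := hB.bsys; exact hM.hut
  hl := hB.u_tl
  cr := fun t ht x => (((cw_r (cP hB) ht x).div_const 2).add
    (((cb hC x).mul (cw_r (cU hB) ht x)).mul (cw_r (cV hB) ht x))).neg
  cl := fun t ht x => (((cw_l (cP hB) ht x).div_const 2).add
    (((cbl hC x).mul (cw_l (cU hB) ht x)).mul (cw_l (cV hB) ht x))).neg
  cx := (cV hB).sub continuousOn_const
  cxx := cP hB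
  growth := Gr.five (gU hB) ((gP hB).div_two.add (((gb hB).mul (gU hB)).mul (gV hB))).neg
    ((gP hB).div_two.add ((gbl.mul (gU hB)).mul (gV hB))).neg ((gV hB).sub (Gr.const A 1)) (gP hB)

include hB hC in
theorem tV : Test A A.V
    (fun t x => -(A.Px t x / 2 + A.b t * A.u t x * A.P t x) + A.b t * A.V t x * (1 - A.V t x))
    (fun t x => -(A.Px t x / 2 + A.bl t * A.u t x * A.P t x) + A.bl t * A.V t x * (1 - A.V t x))
    A.P A.Px where
  cF := cV hB
  hx := hB.V_x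
  hxx := hB.P_x
  hr := by obtain ⟨M, hM⟩ := hB.bsys; exact hM.hVt
  hl := hB.V_tl
  cr := fun t ht x => ((((cw_r hB.Px_cont ht x).div_const 2).add
    (((cb hC x).mul (cw_r (cU hB) ht x)).mul (cw_r (cP hB) ht x))).neg).add
    (((cb hC x).mul (cw_r (cV hB) ht x)).mul (continuousWithinAt_const.sub (cw_r (cV hB) ht x)))
  cl := fun t ht x => ((((cw_l hB.Px_cont ht x).div_const 2).add
    (((cbl hC x).mul (cw_l (cU hB) ht x)).mul (cw_l (cP hB) ht x))).neg).add
    (((cbl hC x).mul (cw_l (cV hB) ht x)).mul (continuousWithinAt_const.sub (cw_l (cV hB) ht x)))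
  cx := cP hB
  cxx := hB.Px_cont
  growth := Gr.five (gV hB)
    (((gPx hB).div_two.add (((gb hB).mul (gU hB)).mul (gP hB))).neg.add
      (((gb hB).mul (gV hB)).mul ((Gr.const A 1).sub (gV hB))))
    (((gPx hB).div_two.add ((gbl.mul (gU hB)).mul (gP hB))).neg.add
      ((gbl.mul (gV hB)).mul ((Gr.const A 1).sub (gV hB)))) (gP hB) (gPx hB)

include hB hC in
theorem tP : Test A A.P
    (fun t x => -(A.Pxx t x / 2 + A.b t * A.u t x * A.Px t x) +
      A.b t * (2 - 3 * A.V t x) * A.P t x)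
    (fun t x => -(A.Pxx t x / 2 + A.bl t * A.u t x * A.Px t x) +
      A.bl t * (2 - 3 * A.V t x) * A.P t x)
    A.Px A.Pxx where
  cF := cP hB
  hx := hB.P_x
  hxx := hB.Px_x
  hr := by obtain ⟨M, hM⟩ := hB.bsys; exact hM.hPt
  hl := hB.P_tl
  cr := fun t ht x => ((((cw_r hB.Pxx_cont ht x).div_const 2).add
    (((cb hC x).mul (cw_r (cU hB) ht x)).mul (cw_r hB.Px_cont ht x))).neg).add
    (((cb hC x).mul (continuousWithinAt_const.sub
      (continuousWithinAt_const.mul (cw_r (cV hB) ht x)))).mul (cw_r (cP hB) ht x))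
  cl := fun t ht x => ((((cw_l hB.Pxx_cont ht x).div_const 2).add
    (((cbl hC x).mul (cw_l (cU hB) ht x)).mul (cw_l hB.Px_cont ht x))).neg).add
    (((cbl hC x).mul (continuousWithinAt_const.sub
      (continuousWithinAt_const.mul (cw_l (cV hB) ht x)))).mul (cw_l (cP hB) ht x))
  cx := hB.Px_cont
  cxx := hB.Pxx_cont
  growth := Gr.five (gP hB)
    (((gPxx hB).div_two.add (((gb hB).mul (gU hB)).mul (gPx hB))).neg.add
      (((gb hB).mul ((Gr.const A 2).sub ((gV hB).const_mul 3))).mul (gP hB)))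
    (((gPxx hB).div_two.add ((gbl.mul (gU hB)).mul (gPx hB))).neg.add
      ((gbl.mul ((Gr.const A 2).sub ((gV hB).const_mul 3))).mul (gP hB))) (gPx hB) (gPxx hB)

include hB hC in
theorem tE : Test A (fun t _ => A.E t) (fun t _ => A.b t * A.E t) (fun t _ => A.bl t * A.E t)
    (fun _ _ => 0) (fun _ _ => 0) := by
  obtain ⟨C1, n1, hC1, h1⟩ := gb hB
  obtain ⟨M, hM0, hM⟩ := bl_bdd A
  have hd : 0 < 1 / A.d := one_div_pos.2 A.hd
  refine tTime (M := 1 / A.d + C1 * (1 / A.d) + M * (1 / A.d)) (E_cont hC).continuousOn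
    (fun t ht => E_r hC ht) (fun t ht => E_l hC ht)
    (fun t _ => (b_cont hC t).mul (E_cont hC).continuousWithinAt)
    (fun t _ => (bl_cont hC t).mul (E_cont hC).continuousWithinAt) (fun t ht => ?_)
  have h2 : |A.b t| ≤ C1 := by simpa using h1 t ht 0
  have h3 := hM t
  have h4 := E_le A t
  have h5 : |A.b t * A.E t| ≤ C1 * (1 / A.d) := by
    rw [abs_mul]; exact mul_le_mul h2 h4 (abs_nonneg _) hC1
  have h6 : |A.bl t * A.E t| ≤ M * (1 / A.d) := by
    rw [abs_mul]; exact mul_le_mul h3 h4 (abs_nonneg _) hM0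
  have h7 : 0 ≤ C1 * (1 / A.d) := mul_nonneg hC1 hd.le
  have h8 : 0 ≤ M * (1 / A.d) := mul_nonneg hM0 hd.le
  exact ⟨by linarith, by linarith, by linarith⟩

/-- `w = x + u` -/
theorem tW (hB : Back A) (hC : Clock A) : Test A A.w
    (fun t x => -(A.P t x / 2 + A.b t * A.u t x * A.V t x))
    (fun t x => -(A.P t x / 2 + A.bl t * A.u t x * A.V t x)) A.V A.P :=
  tCongr (tAdd (tX A) (tU hB hC)) (fun _ _ => rfl) (fun _ _ => by ring) (fun _ _ => by ring)
    (fun _ _ => by ring) (fun _ _ => by ring)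

/-- `R = 1 - V` -/
theorem tR (hB : Back A) (hC : Clock A) : Test A (fun t x => 1 - A.V t x)
    (fun t x => (A.Px t x / 2 + A.b t * A.u t x * A.P t x) - A.b t * A.V t x * (1 - A.V t x))
    (fun t x => (A.Px t x / 2 + A.bl t * A.u t x * A.P t x) - A.bl t * A.V t x * (1 - A.V t x))
    (fun t x => -A.P t x) (fun t x => -A.Px t x) :=
  tCongr (tSub (tConst A 1) (tV hB hC)) (fun _ _ => rfl) (fun _ _ => by ring)
    (fun _ _ => by ring) (fun _ _ => by ring) (fun _ _ => by ring)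

/-! ### `PG` of the slices -/


theorem pgV (hB : Back A) {t : ℝ} (ht : t ∈ Icc 0 A.T) : PG (A.V t) := by
  obtain ⟨C, n, hC, h⟩ := gV hB
  exact ⟨continuous_iff_continuousAt.2 fun x => (hB.V_x t ht x).continuousAt, C, n, hC, h t ht⟩

theorem pgP (hB : Back A) {t : ℝ} (ht : t ∈ Icc 0 A.T) : PG (A.P t) := by
  obtain ⟨C, n, hC, h⟩ := gP hB
  exact ⟨continuous_iff_continuousAt.2 fun x => (hB.P_x t ht x).continuousAt, C, n, hC, h t ht⟩



theorem pgR (hB : Back A) {t : ℝ} (ht : t ∈ Icc 0 A.T) : PG (fun x => 1 - A.V t x) :=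
  (PG.const 1).sub (pgV hB ht)


end fields

/-! ### linearity of `ex` -/

section linear
variable {A : SD} {x0 : ℝ} {p Y Yx Yxx : ℝ → ℝ → ℝ}

theorem integrable_of_pg (hL : Law A x0 p Y Yx Yxx) {t : ℝ} (ht : t ∈ Ioc 0 A.T) {f : ℝ → ℝ}
    (hf : PG f) : Integrable (fun x => p t x * f x) := by
  obtain ⟨C, n, hC, h⟩ := hf.bd
  obtain ⟨_, h1⟩ := hL.mom n
  have h2 := ((h1 t ht).1).const_mul C
  have hp : Continuous (p t) := continuous_iff_continuousAt.2 fun x => (hL.p_x t ht x).continuousAt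
  refine h2.mono' (hp.mul hf.cont).aestronglyMeasurable (Eventually.of_forall fun x => ?_)
  have h3 := hL.p_pos t ht x
  rw [Real.norm_eq_abs, abs_mul, abs_of_pos h3]
  calc p t x * |f x| ≤ p t x * (C * (1 + |x|) ^ n) := mul_le_mul_of_nonneg_left (h x) h3.le
    _ = C * (p t x * (1 + |x|) ^ n) := by ring

theorem ex_add (hL : Law A x0 p Y Yx Yxx) {t : ℝ} (ht : t ∈ Icc 0 A.T) {f g : ℝ → ℝ}
    (hf : PG f) (hg : PG g) :
    ex x0 p t (fun x => f x + g x) = ex x0 p t f + ex x0 p t g := by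
  unfold ex
  split_ifs with h
  · rfl
  · have ht' : t ∈ Ioc 0 A.T := ⟨not_le.1 h, ht.2⟩
    rw [← integral_add (integrable_of_pg hL ht' hf) (integrable_of_pg hL ht' hg)]
    congr 1
    funext x
    ring

theorem ex_smul (x0 : ℝ) (p : ℝ → ℝ → ℝ) (t c : ℝ) (f : ℝ → ℝ) :
    ex x0 p t (fun x => c * f x) = c * ex x0 p t f := by
  unfold ex
  split_ifs with h
  · rfl
  · rw [← integral_const_mul]
    congr 1
    funext x
    ring

theorem ex_congr {x0 : ℝ} {p : ℝ → ℝ → ℝ} {t : ℝ} {f g : ℝ → ℝ} (h : ∀ x, f x = g x) :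
    ex x0 p t f = ex x0 p t g := by
  have : f = g := funext h
  rw [this]

theorem ex_sub (hL : Law A x0 p Y Yx Yxx) {t : ℝ} (ht : t ∈ Icc 0 A.T) {f g : ℝ → ℝ}
    (hf : PG f) (hg : PG g) :
    ex x0 p t (fun x => f x - g x) = ex x0 p t f - ex x0 p t g := by
  have h1 := ex_add hL ht hf (hg.const_mul (-1))
  rw [ex_smul] at h1
  rw [sub_eq_add_neg, ← neg_one_mul, ← h1]
  exact ex_congr fun x => by ring

theorem ex_zero_time (x0 : ℝ) (p : ℝ → ℝ → ℝ) (f : ℝ → ℝ) : ex x0 p 0 f = f x0 := by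
  simp [ex]

theorem ex_const (hL : Law A x0 p Y Yx Yxx) {t : ℝ} (ht : t ∈ Icc 0 A.T) (c : ℝ) :
    ex x0 p t (fun _ => c) = c := by
  unfold ex
  split_ifs with h
  · rfl
  · have ht' : t ∈ Ioc 0 A.T := ⟨not_le.1 h, ht.2⟩
    rw [integral_mul_const, hL.mass t ht', one_mul]

/-- two one-sided derivatives -/
theorem two_sided {T : ℝ} {f f' : ℝ → ℝ} (hr : ∀ t ∈ Ico 0 T, HasDerivWithinAt f (f' t) (Ici t) t)
    (hl : ∀ t ∈ Ioc 0 T, HasDerivWithinAt f (f' t) (Iic t) t) (hT : 0 < T) :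
    ∀ t ∈ Icc 0 T, HasDerivWithinAt f (f' t) (Icc 0 T) t := by
  intro t ht
  rcases eq_or_lt_of_le ht.1 with h0 | h0
  · subst h0
    exact (hr 0 ⟨le_rfl, hT⟩).mono (fun s hs => hs.1)
  · rcases eq_or_lt_of_le ht.2 with h1 | h1
    · have h2 := hl t ⟨h0, ht.2⟩
      exact h2.mono (fun s hs => by rw [mem_Iic, h1]; exact hs.2)
    · have h2 := (hl t ⟨h0, ht.2⟩).union (hr t ⟨ht.1, h1⟩)
      rw [Iic_union_Ici] at h2
      exact h2.mono (subset_univ _)

end linear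

/-! ### the scalar identities -/

section scal
variable {A : SD} {x0 : ℝ} {p Y Yx Yxx : ℝ → ℝ → ℝ}
  (hB : Back A) (hC : Clock A) (hL : Law A x0 p Y Yx Yxx)

theorem Ico_sub {T t : ℝ} (ht : t ∈ Ico 0 T) : t ∈ Icc 0 T := ⟨ht.1, ht.2.le⟩

include hB hC hL

theorem Ts_t : ∀ t ∈ Ico 0 A.T,
    HasDerivWithinAt (Ts A x0 p) (Ns A x0 p t - 2 * A.b t * Zs A x0 p t) (Ici t) t := by
  intro t ht
  have ht' := Ico_sub ht
  have h := hL.ex_r _ _ _ _ _ (tMul (tR hB hC) (tR hB hC)) t ht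
  have e1 : (fun s => ex x0 p s (fun x => (1 - A.V s x) * (1 - A.V s x))) = Ts A x0 p := by
    funext s
    exact ex_congr fun x => by ring
  have h1 := ex_sub hL ht' ((pgP hB ht').pow 2)
    ((((pgR hB ht').pow 2).mul (pgV hB ht')).const_mul (2 * A.b t))
  rw [ex_smul] at h1
  rw [e1] at h
  refine h.congr_deriv ?_
  rw [show Ns A x0 p t - 2 * A.b t * Zs A x0 p t = _ from h1.symm]
  exact ex_congr fun x => by ring

theorem Qs_t : ∀ t ∈ Ico 0 A.T, HasDerivWithinAt (Qs A x0 p)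
    (-A.b t * Qs A x0 p t - (Ns A x0 p t - 2 * A.b t * Zs A x0 p t)) (Ici t) t := by
  intro t ht
  have ht' := Ico_sub ht
  have h := hL.ex_r _ _ _ _ _ (tMul (tR hB hC) (tV hB hC)) t ht
  have e1 : (fun s => ex x0 p s (fun x => (1 - A.V s x) * A.V s x)) = Qs A x0 p := rfl
  have h1 := ex_sub hL ht' ((pgP hB ht').pow 2)
    ((((pgR hB ht').pow 2).mul (pgV hB ht')).const_mul (2 * A.b t))
  have h2 := ex_sub hL ht' (((pgR hB ht').mul (pgV hB ht')).const_mul (-A.b t))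
    (((pgP hB ht').pow 2).sub
      ((((pgR hB ht').pow 2).mul (pgV hB ht')).const_mul (2 * A.b t)))
  rw [ex_smul] at h1 h2
  rw [h1] at h2
  rw [e1] at h
  refine h.congr_deriv ?_
  rw [show -A.b t * Qs A x0 p t - (Ns A x0 p t - 2 * A.b t * Zs A x0 p t) = _ from h2.symm]
  exact ex_congr fun x => by ring

theorem Lams_t : ∀ t ∈ Icc 0 A.T,
    HasDerivWithinAt (Lams A x0 p) (A.E t ^ 2 * Ts A x0 p t) (Icc 0 A.T) t := by
  have hT := tMul (tMul (tE hB hC) (tE hB hC)) (tMul (tU hB hC) (tU hB hC))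
  have e1 : (fun s => ex x0 p s (fun x => A.E s * A.E s * (A.u s x * A.u s x))) =
      Lams A x0 p := by
    funext s
    rw [show Lams A x0 p s = _ from (ex_smul x0 p s (A.E s ^ 2) _).symm]
    exact ex_congr fun x => by ring
  refine two_sided (fun t ht => ?_) (fun t ht => ?_) A.hT0
  · have h := hL.ex_r _ _ _ _ _ hT t ht
    rw [e1] at h
    refine h.congr_deriv ?_
    rw [show A.E t ^ 2 * Ts A x0 p t = _ from (ex_smul x0 p t (A.E t ^ 2) _).symm]
    exact ex_congr fun x => by ring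
  · have h := hL.ex_l _ _ _ _ _ hT t ht
    rw [e1] at h
    refine h.congr_deriv ?_
    rw [show A.E t ^ 2 * Ts A x0 p t = _ from (ex_smul x0 p t (A.E t ^ 2) _).symm]
    exact ex_congr fun x => by ring

theorem Cs_t : ∀ t ∈ Icc 0 A.T,
    HasDerivWithinAt (Cs A x0 p) (-(A.E t * Qs A x0 p t)) (Icc 0 A.T) t := by
  have hT := tMul (tE hB hC) (tMul (tW hB hC) (tU hB hC))
  have e1 : (fun s => ex x0 p s (fun x => A.E s * (A.w s x * A.u s x))) = Cs A x0 p := by
    funext s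
    exact ex_smul x0 p s (A.E s) _
  refine two_sided (fun t ht => ?_) (fun t ht => ?_) A.hT0
  · have h := hL.ex_r _ _ _ _ _ hT t ht
    rw [e1] at h
    refine h.congr_deriv ?_
    rw [← neg_mul, show -A.E t * Qs A x0 p t = _ from (ex_smul x0 p t (-A.E t) _).symm]
    exact ex_congr fun x => by simp only [SD.w]; ring
  · have h := hL.ex_l _ _ _ _ _ hT t ht
    rw [e1] at h
    refine h.congr_deriv ?_
    rw [← neg_mul, show -A.E t * Qs A x0 p t = _ from (ex_smul x0 p t (-A.E t) _).symm]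
    exact ex_congr fun x => by simp only [SD.w]; ring

theorem mean_lam : ∀ t ∈ Icc 0 A.T, A.E t * ex x0 p t (A.u t) = A.E 0 * A.u 0 x0 := by
  have hT := tMul (tE hB hC) (tU hB hC)
  have e1 : ∀ s, ex x0 p s (fun x => A.E s * A.u s x) = A.E s * ex x0 p s (A.u s) := fun s =>
    ex_smul x0 p s (A.E s) _
  have hc := hL.ex_cont _ _ _ _ _ hT
  have key := constant_of_has_deriv_right_zero hc (fun t ht => by
    have h := hL.ex_r _ _ _ _ _ hT t ht
    refine h.congr_deriv (Eq.trans (ex_congr (g := fun _ => (0 : ℝ)) fun x => ?_)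
      (ex_const hL (Ico_sub ht) 0))
    ring)
  intro t ht
  have h1 := key t ht
  simp only [e1] at h1
  rw [h1, ex_zero_time]

theorem mean_h : ∀ t ∈ Icc 0 A.T, ex x0 p t (A.w t) = A.w 0 x0 := by
  have hT := tW hB hC
  have hc := hL.ex_cont _ _ _ _ _ hT
  have key := constant_of_has_deriv_right_zero hc (fun t ht => by
    have h := hL.ex_r _ _ _ _ _ hT t ht
    refine h.congr_deriv (Eq.trans (ex_congr (g := fun _ => (0 : ℝ)) fun x => ?_)
      (ex_const hL (Ico_sub ht) 0))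
    ring)
  intro t ht
  have h1 := key t ht
  rw [h1, ex_zero_time]

theorem cont : ContinuousOn (Ts A x0 p) (Icc 0 A.T) ∧ ContinuousOn (Qs A x0 p) (Icc 0 A.T) ∧
    ContinuousOn (Ns A x0 p) (Icc 0 A.T) ∧ ContinuousOn (Zs A x0 p) (Icc 0 A.T) := by
  refine ⟨?_, ?_, ?_, ?_⟩
  · refine (hL.ex_cont _ _ _ _ _ (tMul (tR hB hC) (tR hB hC))).congr fun t _ => ?_
    exact ex_congr fun x => by ring
  · exact hL.ex_cont _ _ _ _ _ (tMul (tR hB hC) (tV hB hC))
  · refine (hL.ex_cont _ _ _ _ _ (tMul (tP hB hC) (tP hB hC))).congr fun t _ => ?_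
    exact ex_congr fun x => by ring
  · refine (hL.ex_cont _ _ _ _ _
      (tMul (tMul (tR hB hC) (tR hB hC)) (tV hB hC))).congr fun t _ => ?_
    exact ex_congr fun x => by ring

end scal

/-- all fields of `Scal` except `K_t` (task 119) -/
theorem scal (A : SD) (x0 : ℝ) (p Y Yx Yxx : ℝ → ℝ → ℝ) (hB : Back A) (hC : Clock A)
    (hL : Law A x0 p Y Yx Yxx)
    (hK : ∀ t ∈ Ico 0 A.T, HasDerivWithinAt (fun s => Ns A x0 p s - 2 * A.b s * Zs A x0 p s)
      (2 * A.b t * (Ns A x0 p t - 2 * A.b t * Zs A x0 p t) + Ls A x0 p t) (Ici t) t) :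
    Scal A x0 p where
  Ts_t := Ts_t hB hC hL
  Qs_t := Qs_t hB hC hL
  Lams_t := Lams_t hB hC hL
  Cs_t := Cs_t hB hC hL
  mean_lam := mean_lam hB hC hL
  mean_h := mean_h hB hC hL
  cont := cont hB hC hL
  K_t := hK

end

end Crest.Agent.R146.StepScal_774
end

-- ▼ part R146/StepTest_692
section

/-!
Row 146, package PT-STEP: small calculus of test functions for the step system (helper692).

* `mrc_right`, `mlc_left`, `m_right`, `ml_left`, `b_right`, `bl_left`, `b_t`: the weights are locally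
  constant from the right / left, `b' = b²` (right derivative).
* `PG`: polynomial growth on `[0,T] × ℝ` and its algebra.
* `Test.const`, `Test.time`, `Test.add`, `Test.cmul`, `Test.mul`, `Test.pow_two`: algebra of `Test`.
* `test_V`, `test_u`, `test_P`, `test_x`: instances from `Back` and `Clock`.
* `Adm`, `Adm.integrable`, `ex_add`, `ex_sub`, `ex_cmul`, `ex_congr`: linearity of `ex`.
-/

set_option autoImplicit false

namespace Crest.Agent.R146.StepTest_692

open MeasureTheory ProbabilityTheory Set Filter Topology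
open Crest.Agent.R146.StepDef_791
open Crest.Agent.R146.MaxPCmp_371 (BSys)

/-! ### weights are locally constant -/

theorem mrc_right : ∀ {cs : Cells} {T t : ℝ}, Valid T cs → 0 ≤ t → t < T →
    ∃ t', t < t' ∧ t' ≤ T ∧ ∀ s ∈ Ico t t', mrc T cs s = mrc T cs t
  | [], T, t, h, h0, h1 => by
      exfalso
      have h2 : T = 0 := h
      linarith
  | c :: cs, T, t, h, h0, h1 => by
      by_cases hc : c.1 ≤ t
      · refine ⟨T, h1, le_rfl, fun s hs => ?_⟩
        simp only [mrc]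
        rw [if_pos (hc.trans hs.1), if_pos hs.2, if_pos hc, if_pos h1]
      · obtain ⟨t', h2, h3, h4⟩ := mrc_right h.2.2 h0 (not_le.1 hc)
        refine ⟨t', h2, h3.trans h.1.le, fun s hs => ?_⟩
        simp only [mrc]
        rw [if_neg (not_le.2 (hs.2.trans_le h3)), if_neg hc]
        exact h4 s hs

theorem mlc_left : ∀ {cs : Cells} {T t : ℝ}, Valid T cs → 0 < t → t ≤ T →
    ∃ t', t' < t ∧ 0 ≤ t' ∧ ∀ s ∈ Ioc t' t, mlc T cs s = mlc T cs t
  | [], T, t, h, h0, h1 => by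
      exfalso
      have h2 : T = 0 := h
      linarith
  | c :: cs, T, t, h, h0, h1 => by
      by_cases hc : c.1 < t
      · refine ⟨c.1, hc, h.2.2.nonneg, fun s hs => ?_⟩
        simp only [mlc]
        rw [if_pos hs.1, if_pos (hs.2.trans h1), if_pos hc, if_pos h1]
      · obtain ⟨t', h2, h3, h4⟩ := mlc_left h.2.2 h0 (not_lt.1 hc)
        refine ⟨t', h2, h3, fun s hs => ?_⟩
        simp only [mlc]
        rw [if_neg (not_lt.2 (hs.2.trans (not_lt.1 hc))), if_neg hc]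
        exact h4 s hs


theorem mc_le : ∀ (cs : Cells), ∃ M : ℝ, 0 ≤ M ∧ ∀ T t, mrc T cs t ≤ M ∧ mlc T cs t ≤ M
  | [] => ⟨0, le_rfl, fun _ _ => ⟨le_rfl, le_rfl⟩⟩
  | c :: cs => by
      obtain ⟨M, hM, h⟩ := mc_le cs
      refine ⟨M + |c.2|, by positivity, fun T t => ⟨?_, ?_⟩⟩
      · simp only [mrc]
        split_ifs
        · linarith [le_abs_self c.2]
        · positivity
        · linarith [(h c.1 t).1, abs_nonneg c.2]
      · simp only [mlc]
        split_ifs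
        · linarith [le_abs_self c.2]
        · positivity
        · linarith [(h c.1 t).2, abs_nonneg c.2]

variable {A : SD}

theorem m_right {t : ℝ} (ht : t ∈ Ico 0 A.T) :
    ∃ t', t < t' ∧ t' ≤ A.T ∧ ∀ s ∈ Ico t t', A.m s = A.m t := mrc_right A.hv ht.1 ht.2

theorem ml_left {t : ℝ} (ht : t ∈ Ioc 0 A.T) :
    ∃ t', t' < t ∧ 0 ≤ t' ∧ ∀ s ∈ Ioc t' t, A.ml s = A.ml t := mlc_left A.hv ht.1 ht.2


theorem m_bdd (A : SD) : ∃ M : ℝ, 0 ≤ M ∧ ∀ t, A.m t ≤ M ∧ A.ml t ≤ M := by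
  obtain ⟨M, hM, h⟩ := mc_le A.cs
  exact ⟨M, hM, fun t => h A.T t⟩

theorem b_bdd (A : SD) : ∃ M : ℝ, 0 ≤ M ∧ ∀ t, A.b t ≤ M ∧ A.bl t ≤ M := by
  obtain ⟨M, hM, h⟩ := m_bdd A
  refine ⟨M / A.d, div_nonneg hM A.hd.le, fun t => ⟨?_, ?_⟩⟩
  · exact div_le_div₀ hM (h t).1 A.hd (A.d_le_D t)
  · exact div_le_div₀ hM (h t).2 A.hd (A.d_le_D t)

theorem m_right_ev {t : ℝ} (ht : t ∈ Ico 0 A.T) : ∀ᶠ s in 𝓝[≥] t, A.m s = A.m t := by
  obtain ⟨t', h1, _, h3⟩ := m_right ht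
  filter_upwards [Ico_mem_nhdsGE h1] with s hs
  exact h3 s hs

theorem ml_left_ev {t : ℝ} (ht : t ∈ Ioc 0 A.T) : ∀ᶠ s in 𝓝[≤] t, A.ml s = A.ml t := by
  obtain ⟨t', h1, _, h3⟩ := ml_left ht
  filter_upwards [Ioc_mem_nhdsLE h1] with s hs
  exact h3 s hs

/-- `b' = b²` (right derivative) -/
theorem b_t (hC : Clock A) {t : ℝ} (ht : t ∈ Ico 0 A.T) :
    HasDerivWithinAt A.b (A.b t ^ 2) (Ici t) t := by
  have h1 : HasDerivWithinAt (fun s => A.m t / A.D s) (A.b t ^ 2) (Ici t) t := by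
    have h2 := ((hC.D_t t ht).inv (A.D_pos t).ne').const_mul (A.m t)
    have h3 : A.m t * (-(-A.m t) / A.D t ^ 2) = A.b t ^ 2 := by
      unfold SD.b
      have := (A.D_pos t).ne'
      field_simp
    rw [h3] at h2
    simpa only [div_eq_mul_inv, Pi.inv_apply] using h2
  refine h1.congr_of_eventuallyEq ?_ rfl
  filter_upwards [m_right_ev ht] with s hs
  unfold SD.b
  rw [hs]

theorem b_right (hC : Clock A) {t : ℝ} (ht : t ∈ Ico 0 A.T) : ContinuousWithinAt A.b (Ici t) t :=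
  (b_t hC ht).continuousWithinAt

theorem bl_left (hC : Clock A) {t : ℝ} (ht : t ∈ Ioc 0 A.T) :
    ContinuousWithinAt A.bl (Iic t) t := by
  have h1 : ContinuousWithinAt (fun s => A.ml t / A.D s) (Iic t) t :=
    (continuous_const.div hC.D_cont fun s => (A.D_pos s).ne').continuousWithinAt
  refine h1.congr_of_eventuallyEq ?_ rfl
  filter_upwards [ml_left_ev ht] with s hs
  unfold SD.bl
  rw [hs]

/-! ### joint one-sided continuity -/

theorem cwr {f : ℝ × ℝ → ℝ} (hf : ContinuousOn f (Icc 0 A.T ×ˢ univ)) {t : ℝ} (ht : t ∈ Ico 0 A.T)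
    (x : ℝ) : ContinuousWithinAt f (Ici t ×ˢ univ) (t, x) := by
  have h1 : ContinuousWithinAt f (Icc 0 A.T ×ˢ univ) (t, x) := hf (t, x) ⟨⟨ht.1, ht.2.le⟩, mem_univ _⟩
  refine h1.mono_of_mem_nhdsWithin ?_
  rw [nhdsWithin_prod_eq]
  exact prod_mem_prod (mem_of_superset (Icc_mem_nhdsGE ht.2) (Icc_subset_Icc_left ht.1)) (by simp)

theorem cwl {f : ℝ × ℝ → ℝ} (hf : ContinuousOn f (Icc 0 A.T ×ˢ univ)) {t : ℝ} (ht : t ∈ Ioc 0 A.T)
    (x : ℝ) : ContinuousWithinAt f (Iic t ×ˢ univ) (t, x) := by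
  have h1 : ContinuousWithinAt f (Icc 0 A.T ×ˢ univ) (t, x) := hf (t, x) ⟨⟨ht.1.le, ht.2⟩, mem_univ _⟩
  refine h1.mono_of_mem_nhdsWithin ?_
  rw [nhdsWithin_prod_eq]
  exact prod_mem_prod (mem_of_superset (Icc_mem_nhdsLE ht.1) (Icc_subset_Icc_right ht.2)) (by simp)

theorem ctr {g : ℝ → ℝ} {t : ℝ} (hg : ContinuousWithinAt g (Ici t) t) (x : ℝ) :
    ContinuousWithinAt (fun q : ℝ × ℝ => g q.1) (Ici t ×ˢ univ) (t, x) :=
  ContinuousWithinAt.comp (t := Ici t) (f := Prod.fst) (x := (t, x)) hg continuousWithinAt_fst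
    (fun _ hq => hq.1)

theorem ctl {g : ℝ → ℝ} {t : ℝ} (hg : ContinuousWithinAt g (Iic t) t) (x : ℝ) :
    ContinuousWithinAt (fun q : ℝ × ℝ => g q.1) (Iic t ×ˢ univ) (t, x) :=
  ContinuousWithinAt.comp (t := Iic t) (f := Prod.fst) (x := (t, x)) hg continuousWithinAt_fst
    (fun _ hq => hq.1)

/-! ### polynomial growth -/

/-- polynomial growth, uniformly for `t ∈ [0,T]` -/
def PG (A : SD) (F : ℝ → ℝ → ℝ) : Prop :=
  ∃ C : ℝ, ∃ n : ℕ, 0 ≤ C ∧ ∀ t ∈ Icc 0 A.T, ∀ x, |F t x| ≤ C * (1 + |x|) ^ n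

theorem one_le_w (x : ℝ) : 1 ≤ 1 + |x| := by linarith [abs_nonneg x]

theorem PG.of_le {F G : ℝ → ℝ → ℝ} (hG : PG A G) (h : ∀ t ∈ Icc 0 A.T, ∀ x, |F t x| ≤ |G t x|) :
    PG A F := by
  obtain ⟨C, n, hC, h1⟩ := hG
  exact ⟨C, n, hC, fun t ht x => (h t ht x).trans (h1 t ht x)⟩

theorem PG.add {F G : ℝ → ℝ → ℝ} (hF : PG A F) (hG : PG A G) : PG A (fun t x => F t x + G t x) := by
  obtain ⟨C, n, hC, h1⟩ := hF
  obtain ⟨C', n', hC', h2⟩ := hG
  refine ⟨C + C', max n n', add_nonneg hC hC', fun t ht x => (abs_add_le _ _).trans ?_⟩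
  have h3 := pow_le_pow_right₀ (one_le_w x) (le_max_left n n')
  have h4 := pow_le_pow_right₀ (one_le_w x) (le_max_right n n')
  calc |F t x| + |G t x| ≤ C * (1 + |x|) ^ n + C' * (1 + |x|) ^ n' := add_le_add (h1 t ht x) (h2 t ht x)
    _ ≤ C * (1 + |x|) ^ max n n' + C' * (1 + |x|) ^ max n n' :=
        add_le_add (mul_le_mul_of_nonneg_left h3 hC) (mul_le_mul_of_nonneg_left h4 hC')
    _ = _ := by ring

theorem PG.mul {F G : ℝ → ℝ → ℝ} (hF : PG A F) (hG : PG A G) : PG A (fun t x => F t x * G t x) := by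
  obtain ⟨C, n, hC, h1⟩ := hF
  obtain ⟨C', n', hC', h2⟩ := hG
  refine ⟨C * C', n + n', mul_nonneg hC hC', fun t ht x => ?_⟩
  rw [abs_mul]
  calc |F t x| * |G t x| ≤ (C * (1 + |x|) ^ n) * (C' * (1 + |x|) ^ n') :=
        mul_le_mul (h1 t ht x) (h2 t ht x) (abs_nonneg _) (by positivity)
    _ = _ := by rw [pow_add]; ring

theorem PG.neg {F : ℝ → ℝ → ℝ} (hF : PG A F) : PG A (fun t x => -F t x) :=
  hF.of_le fun t _ x => by rw [abs_neg]

theorem PG.sub {F G : ℝ → ℝ → ℝ} (hF : PG A F) (hG : PG A G) : PG A (fun t x => F t x - G t x) := by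
  simpa only [sub_eq_add_neg] using hF.add hG.neg

theorem PG.const (c : ℝ) : PG A (fun _ _ => c) :=
  ⟨|c|, 0, abs_nonneg _, fun _ _ _ => by simp⟩

theorem PG.cmul {F : ℝ → ℝ → ℝ} (c : ℝ) (hF : PG A F) : PG A (fun t x => c * F t x) :=
  (PG.const c).mul hF

theorem PG.time {g : ℝ → ℝ} {M : ℝ} (hM : ∀ t ∈ Icc 0 A.T, |g t| ≤ M) : PG A (fun t _ => g t) :=
  ⟨|M|, 0, abs_nonneg _, fun t ht _ => by simpa using (hM t ht).trans (le_abs_self M)⟩

theorem PG.id : PG A (fun _ x => x) :=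
  ⟨1, 1, zero_le_one, fun _ _ x => by simp⟩

/-- the growth field of `Test` from five `PG`s -/
theorem growth5 {F Fr Fl Fx Fxx : ℝ → ℝ → ℝ} (h1 : PG A F) (h2 : PG A Fr) (h3 : PG A Fl)
    (h4 : PG A Fx) (h5 : PG A Fxx) : ∃ C : ℝ, ∃ n : ℕ, 0 ≤ C ∧ ∀ t ∈ Icc 0 A.T, ∀ x,
    |F t x| ≤ C * (1 + |x|) ^ n ∧
    |Fr t x| ≤ C * (1 + |x|) ^ n ∧ |Fl t x| ≤ C * (1 + |x|) ^ n ∧
    |Fx t x| ≤ C * (1 + |x|) ^ n ∧ |Fxx t x| ≤ C * (1 + |x|) ^ n := by
  have key : ∀ {G : ℝ → ℝ → ℝ}, PG A G → ∀ {G' : ℝ → ℝ → ℝ}, PG A G' →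
      PG A (fun t x => |G t x| + |G' t x|) := by
    intro G hG G' hG'
    exact (hG.of_le (F := fun t x => |G t x|) fun t _ x => by rw [abs_abs]).add
      (hG'.of_le (F := fun t x => |G' t x|) fun t _ x => by rw [abs_abs])
  obtain ⟨C, n, hC, h⟩ := key h1 (key h2 (key h3 (key h4 h5)))
  refine ⟨C, n, hC, fun t ht x => ?_⟩
  have h6 : |(|F t x| + |(|Fr t x| + |(|Fl t x| + |(|Fx t x| + |Fxx t x|)|)|)|)| ≤
      C * (1 + |x|) ^ n := h t ht x
  have a1 := abs_nonneg (F t x)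
  have a2 := abs_nonneg (Fr t x)
  have a3 := abs_nonneg (Fl t x)
  have a4 := abs_nonneg (Fx t x)
  have a5 := abs_nonneg (Fxx t x)
  have e5 : |(|Fx t x| + |Fxx t x|)| = |Fx t x| + |Fxx t x| := abs_of_nonneg (by positivity)
  have e4 : |(|Fl t x| + |(|Fx t x| + |Fxx t x|)|)| = |Fl t x| + (|Fx t x| + |Fxx t x|) := by
    rw [e5, abs_of_nonneg (by positivity)]
  have e3 : |(|Fr t x| + |(|Fl t x| + |(|Fx t x| + |Fxx t x|)|)|)| =
      |Fr t x| + (|Fl t x| + (|Fx t x| + |Fxx t x|)) := by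
    rw [e4, abs_of_nonneg (by positivity)]
  rw [e3, abs_of_nonneg (by positivity)] at h6
  refine ⟨?_, ?_, ?_, ?_, ?_⟩ <;> linarith

theorem Test.pg {F Fr Fl Fx Fxx : ℝ → ℝ → ℝ} (h : Test A F Fr Fl Fx Fxx) :
    PG A F ∧ PG A Fr ∧ PG A Fl ∧ PG A Fx ∧ PG A Fxx := by
  obtain ⟨C, n, hC, h1⟩ := h.growth
  exact ⟨⟨C, n, hC, fun t ht x => (h1 t ht x).1⟩, ⟨C, n, hC, fun t ht x => (h1 t ht x).2.1⟩,
    ⟨C, n, hC, fun t ht x => (h1 t ht x).2.2.1⟩, ⟨C, n, hC, fun t ht x => (h1 t ht x).2.2.2.1⟩,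
    ⟨C, n, hC, fun t ht x => (h1 t ht x).2.2.2.2⟩⟩

/-! ### algebra of test functions -/

section algebra

variable {F Fr Fl Fx Fxx G Gr Gl Gx Gxx : ℝ → ℝ → ℝ}

theorem Test.mul (h : Test A F Fr Fl Fx Fxx) (k : Test A G Gr Gl Gx Gxx) :
    Test A (fun t x => F t x * G t x) (fun t x => Fr t x * G t x + F t x * Gr t x)
      (fun t x => Fl t x * G t x + F t x * Gl t x) (fun t x => Fx t x * G t x + F t x * Gx t x)
      (fun t x => (Fxx t x * G t x + Fx t x * Gx t x) + (Fx t x * Gx t x + F t x * Gxx t x)) where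
  cF := h.cF.mul k.cF
  hx := fun t ht x => (h.hx t ht x).mul (k.hx t ht x)
  hxx := fun t ht x => ((h.hxx t ht x).mul (k.hx t ht x)).add ((h.hx t ht x).mul (k.hxx t ht x))
  hr := fun t ht x => (h.hr t ht x).mul (k.hr t ht x)
  hl := fun t ht x => (h.hl t ht x).mul (k.hl t ht x)
  cr := fun t ht x => ((h.cr t ht x).mul (cwr k.cF ht x)).add ((cwr h.cF ht x).mul (k.cr t ht x))
  cl := fun t ht x => ((h.cl t ht x).mul (cwl k.cF ht x)).add ((cwl h.cF ht x).mul (k.cl t ht x))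
  cx := (h.cx.mul k.cF).add (h.cF.mul k.cx)
  cxx := ((h.cxx.mul k.cF).add (h.cx.mul k.cx)).add ((h.cx.mul k.cx).add (h.cF.mul k.cxx))
  growth := by
    obtain ⟨p1, p2, p3, p4, p5⟩ := Test.pg h
    obtain ⟨q1, q2, q3, q4, q5⟩ := Test.pg k
    exact growth5 (p1.mul q1) ((p2.mul q1).add (p1.mul q2)) ((p3.mul q1).add (p1.mul q3))
      ((p4.mul q1).add (p1.mul q4)) (((p5.mul q1).add (p4.mul q4)).add ((p4.mul q4).add (p1.mul q5)))

theorem Test.add (h : Test A F Fr Fl Fx Fxx) (k : Test A G Gr Gl Gx Gxx) :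
    Test A (fun t x => F t x + G t x) (fun t x => Fr t x + Gr t x)
      (fun t x => Fl t x + Gl t x) (fun t x => Fx t x + Gx t x)
      (fun t x => Fxx t x + Gxx t x) where
  cF := h.cF.add k.cF
  hx := fun t ht x => (h.hx t ht x).add (k.hx t ht x)
  hxx := fun t ht x => (h.hxx t ht x).add (k.hxx t ht x)
  hr := fun t ht x => (h.hr t ht x).add (k.hr t ht x)
  hl := fun t ht x => (h.hl t ht x).add (k.hl t ht x)
  cr := fun t ht x => (h.cr t ht x).add (k.cr t ht x)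
  cl := fun t ht x => (h.cl t ht x).add (k.cl t ht x)
  cx := h.cx.add k.cx
  cxx := h.cxx.add k.cxx
  growth := by
    obtain ⟨p1, p2, p3, p4, p5⟩ := Test.pg h
    obtain ⟨q1, q2, q3, q4, q5⟩ := Test.pg k
    exact growth5 (p1.add q1) (p2.add q2) (p3.add q3) (p4.add q4) (p5.add q5)

/-- a function of time, as a test function -/
theorem Test.time {g gr gl : ℝ → ℝ} (hg : ContinuousOn g (Icc 0 A.T))
    (hr : ∀ t ∈ Ico 0 A.T, HasDerivWithinAt g (gr t) (Ici t) t)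
    (hl : ∀ t ∈ Ioc 0 A.T, HasDerivWithinAt g (gl t) (Iic t) t)
    (cr : ∀ t ∈ Ico 0 A.T, ContinuousWithinAt gr (Ici t) t)
    (cl : ∀ t ∈ Ioc 0 A.T, ContinuousWithinAt gl (Iic t) t)
    {M : ℝ} (hM : ∀ t ∈ Icc 0 A.T, |g t| ≤ M ∧ |gr t| ≤ M ∧ |gl t| ≤ M) :
    Test A (fun t _ => g t) (fun t _ => gr t) (fun t _ => gl t) (fun _ _ => 0) (fun _ _ => 0) where
  cF := hg.comp continuousOn_fst fun _ hq => hq.1
  hx := fun t _ x => hasDerivAt_const x (g t)
  hxx := fun _ _ x => hasDerivAt_const x 0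
  hr := fun t ht _ => hr t ht
  hl := fun t ht _ => hl t ht
  cr := fun t ht x => ctr (cr t ht) x
  cl := fun t ht x => ctl (cl t ht) x
  cx := continuousOn_const
  cxx := continuousOn_const
  growth := growth5 (PG.time fun t ht => (hM t ht).1) (PG.time fun t ht => (hM t ht).2.1)
    (PG.time fun t ht => (hM t ht).2.2) (PG.const 0) (PG.const 0)

theorem Test.const (A : SD) (c : ℝ) : Test A (fun _ _ => c) (fun _ _ => 0) (fun _ _ => 0)
    (fun _ _ => 0) (fun _ _ => 0) :=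
  Test.time (g := fun _ => c) (gr := fun _ => 0) (gl := fun _ => 0) continuousOn_const
    (fun t _ => hasDerivWithinAt_const t _ c) (fun t _ => hasDerivWithinAt_const t _ c)
    (fun _ _ => continuousWithinAt_const) (fun _ _ => continuousWithinAt_const) (M := |c|)
    (fun _ _ => ⟨le_rfl, by simp, by simp⟩)

theorem Test.cmul (c : ℝ) (h : Test A F Fr Fl Fx Fxx) :
    Test A (fun t x => c * F t x) (fun t x => c * Fr t x) (fun t x => c * Fl t x)
      (fun t x => c * Fx t x) (fun t x => c * Fxx t x) where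
  cF := continuousOn_const.mul h.cF
  hx := fun t ht x => (h.hx t ht x).const_mul c
  hxx := fun t ht x => (h.hxx t ht x).const_mul c
  hr := fun t ht x => (h.hr t ht x).const_mul c
  hl := fun t ht x => (h.hl t ht x).const_mul c
  cr := fun t ht x => continuousWithinAt_const.mul (h.cr t ht x)
  cl := fun t ht x => continuousWithinAt_const.mul (h.cl t ht x)
  cx := continuousOn_const.mul h.cx
  cxx := continuousOn_const.mul h.cxx
  growth := by
    obtain ⟨p1, p2, p3, p4, p5⟩ := Test.pg h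
    exact growth5 (p1.cmul c) (p2.cmul c) (p3.cmul c) (p4.cmul c) (p5.cmul c)

/-- replace the five functions by equal ones on `[0,T]` -/
theorem Test.congr {F' Fr' Fl' Fx' Fxx' : ℝ → ℝ → ℝ} (h : Test A F Fr Fl Fx Fxx)
    (e1 : F' = F) (e2 : Fr' = Fr) (e3 : Fl' = Fl) (e4 : Fx' = Fx) (e5 : Fxx' = Fxx) :
    Test A F' Fr' Fl' Fx' Fxx' := by
  subst e1; subst e2; subst e3; subst e4; subst e5; exact h

end algebra

/-! ### instances -/


theorem b_pg (A : SD) : PG A (fun t _ => A.b t) := by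
  obtain ⟨M, _, h⟩ := b_bdd A
  exact PG.time (M := M) fun t _ => by rw [abs_of_nonneg (A.b_nonneg t)]; exact (h t).1

theorem bl_pg (A : SD) : PG A (fun t _ => A.bl t) := by
  obtain ⟨M, _, h⟩ := b_bdd A
  exact PG.time (M := M) fun t _ => by rw [abs_of_nonneg (A.bl_nonneg t)]; exact (h t).2

theorem u_pg (hB : Back A) : PG A A.u := by
  obtain ⟨M, h⟩ := hB.bsys
  refine ⟨|M|, 1, abs_nonneg _, fun t ht x => ?_⟩
  rw [abs_of_nonneg (h.u_nonneg t ht x), pow_one]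
  exact (h.u_le t ht x).trans (mul_le_mul_of_nonneg_right (le_abs_self M) (by positivity))

theorem V_pg (hB : Back A) : PG A A.V := by
  obtain ⟨M, h⟩ := hB.bsys
  refine ⟨1, 0, zero_le_one, fun t ht x => ?_⟩
  rw [abs_of_nonneg (h.V_pos t ht x).le]
  simpa using (h.V_lt t ht x).le

theorem P_pg (hB : Back A) : PG A A.P := by
  obtain ⟨M, h⟩ := hB.bsys
  refine ⟨|M|, 0, abs_nonneg _, fun t ht x => ?_⟩
  rw [abs_of_nonneg (h.P_nonneg t ht x)]
  simpa using (h.P_le t ht x).trans (le_abs_self M)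

theorem Px_pg (hB : Back A) : PG A A.Px := by
  obtain ⟨C, n, hC, h⟩ := hB.growth
  exact ⟨C, n, hC, fun t ht x => (h t ht x).2.1⟩

theorem Pxx_pg (hB : Back A) : PG A A.Pxx := by
  obtain ⟨C, n, hC, h⟩ := hB.growth
  exact ⟨C, n, hC, fun t ht x => (h t ht x).2.2⟩

theorem u_cont (hB : Back A) : ContinuousOn (fun q : ℝ × ℝ => A.u q.1 q.2) (Icc 0 A.T ×ˢ univ) := by
  obtain ⟨M, h⟩ := hB.bsys
  exact h.cu

theorem V_cont (hB : Back A) : ContinuousOn (fun q : ℝ × ℝ => A.V q.1 q.2) (Icc 0 A.T ×ˢ univ) := by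
  obtain ⟨M, h⟩ := hB.bsys
  exact h.cV

theorem P_cont (hB : Back A) : ContinuousOn (fun q : ℝ × ℝ => A.P q.1 q.2) (Icc 0 A.T ×ˢ univ) := by
  obtain ⟨M, h⟩ := hB.bsys
  exact h.cP



theorem test_V (hB : Back A) (hC : Clock A) : Test A A.V
    (fun t x => -(A.Px t x / 2 + A.b t * A.u t x * A.P t x) + A.b t * A.V t x * (1 - A.V t x))
    (fun t x => -(A.Px t x / 2 + A.bl t * A.u t x * A.P t x) + A.bl t * A.V t x * (1 - A.V t x))
    A.P A.Px where
  cF := V_cont hB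
  hx := hB.V_x
  hxx := hB.P_x
  hr := by obtain ⟨M, h⟩ := hB.bsys; exact h.hVt
  hl := hB.V_tl
  cr := fun t ht x => ((((cwr hB.Px_cont ht x).div_const 2).add
    (((ctr (b_right hC ht) x).mul (cwr (u_cont hB) ht x)).mul (cwr (P_cont hB) ht x))).neg).add
    (((ctr (b_right hC ht) x).mul (cwr (V_cont hB) ht x)).mul
      (continuousWithinAt_const.sub (cwr (V_cont hB) ht x)))
  cl := fun t ht x => ((((cwl hB.Px_cont ht x).div_const 2).add
    (((ctl (bl_left hC ht) x).mul (cwl (u_cont hB) ht x)).mul (cwl (P_cont hB) ht x))).neg).add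
    (((ctl (bl_left hC ht) x).mul (cwl (V_cont hB) ht x)).mul
      (continuousWithinAt_const.sub (cwl (V_cont hB) ht x)))
  cx := P_cont hB
  cxx := hB.Px_cont
  growth := by
    have h2 : PG A (fun t x => A.Px t x / 2) := by
      simpa only [div_eq_mul_inv] using (Px_pg hB).mul (PG.const (2 : ℝ)⁻¹)
    exact growth5 (V_pg hB)
      ((h2.add (((b_pg A).mul (u_pg hB)).mul (P_pg hB))).neg.add
        (((b_pg A).mul (V_pg hB)).mul ((PG.const 1).sub (V_pg hB))))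
      ((h2.add (((bl_pg A).mul (u_pg hB)).mul (P_pg hB))).neg.add
        (((bl_pg A).mul (V_pg hB)).mul ((PG.const 1).sub (V_pg hB)))) (P_pg hB) (Px_pg hB)

theorem test_P (hB : Back A) (hC : Clock A) : Test A A.P
    (fun t x => -(A.Pxx t x / 2 + A.b t * A.u t x * A.Px t x) +
      A.b t * (2 - 3 * A.V t x) * A.P t x)
    (fun t x => -(A.Pxx t x / 2 + A.bl t * A.u t x * A.Px t x) +
      A.bl t * (2 - 3 * A.V t x) * A.P t x)
    A.Px A.Pxx where
  cF := P_cont hB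
  hx := hB.P_x
  hxx := hB.Px_x
  hr := by obtain ⟨M, h⟩ := hB.bsys; exact h.hPt
  hl := hB.P_tl
  cr := fun t ht x => ((((cwr hB.Pxx_cont ht x).div_const 2).add
    (((ctr (b_right hC ht) x).mul (cwr (u_cont hB) ht x)).mul (cwr hB.Px_cont ht x))).neg).add
    (((ctr (b_right hC ht) x).mul
      (continuousWithinAt_const.sub (continuousWithinAt_const.mul (cwr (V_cont hB) ht x)))).mul
      (cwr (P_cont hB) ht x))
  cl := fun t ht x => ((((cwl hB.Pxx_cont ht x).div_const 2).add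
    (((ctl (bl_left hC ht) x).mul (cwl (u_cont hB) ht x)).mul (cwl hB.Px_cont ht x))).neg).add
    (((ctl (bl_left hC ht) x).mul
      (continuousWithinAt_const.sub (continuousWithinAt_const.mul (cwl (V_cont hB) ht x)))).mul
      (cwl (P_cont hB) ht x))
  cx := hB.Px_cont
  cxx := hB.Pxx_cont
  growth := by
    have h2 : PG A (fun t x => A.Pxx t x / 2) := by
      simpa only [div_eq_mul_inv] using (Pxx_pg hB).mul (PG.const (2 : ℝ)⁻¹)
    exact growth5 (P_pg hB)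
      ((h2.add (((b_pg A).mul (u_pg hB)).mul (Px_pg hB))).neg.add
        (((b_pg A).mul ((PG.const 2).sub ((V_pg hB).cmul 3))).mul (P_pg hB)))
      ((h2.add (((bl_pg A).mul (u_pg hB)).mul (Px_pg hB))).neg.add
        (((bl_pg A).mul ((PG.const 2).sub ((V_pg hB).cmul 3))).mul (P_pg hB))) (Px_pg hB) (Pxx_pg hB)

/-! ### linearity of `ex` -/

/-- continuous with polynomial growth -/
def Adm (f : ℝ → ℝ) : Prop := Continuous f ∧ ∃ C : ℝ, ∃ n : ℕ, 0 ≤ C ∧ ∀ x, |f x| ≤ C * (1 + |x|) ^ n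

theorem adm_of {F : ℝ → ℝ → ℝ} (hc : ContinuousOn (fun q : ℝ × ℝ => F q.1 q.2) (Icc 0 A.T ×ˢ univ))
    (hg : PG A F) {t : ℝ} (ht : t ∈ Icc 0 A.T) : Adm (F t) := by
  refine ⟨?_, ?_⟩
  · rw [← continuousOn_univ]
    exact hc.comp (f := fun x => (t, x)) (by fun_prop) fun x _ => ⟨ht, mem_univ _⟩
  · obtain ⟨C, n, hC, h⟩ := hg
    exact ⟨C, n, hC, fun x => h t ht x⟩

theorem Adm.add {f g : ℝ → ℝ} (hf : Adm f) (hg : Adm g) : Adm (fun x => f x + g x) := by
  refine ⟨hf.1.add hg.1, ?_⟩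
  obtain ⟨C, n, hC, h1⟩ := hf.2
  obtain ⟨C', n', hC', h2⟩ := hg.2
  refine ⟨C + C', max n n', add_nonneg hC hC', fun x => (abs_add_le _ _).trans ?_⟩
  have h3 := pow_le_pow_right₀ (one_le_w x) (le_max_left n n')
  have h4 := pow_le_pow_right₀ (one_le_w x) (le_max_right n n')
  calc |f x| + |g x| ≤ C * (1 + |x|) ^ n + C' * (1 + |x|) ^ n' := add_le_add (h1 x) (h2 x)
    _ ≤ C * (1 + |x|) ^ max n n' + C' * (1 + |x|) ^ max n n' :=
        add_le_add (mul_le_mul_of_nonneg_left h3 hC) (mul_le_mul_of_nonneg_left h4 hC')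
    _ = _ := by ring

theorem Adm.mul {f g : ℝ → ℝ} (hf : Adm f) (hg : Adm g) : Adm (fun x => f x * g x) := by
  refine ⟨hf.1.mul hg.1, ?_⟩
  obtain ⟨C, n, hC, h1⟩ := hf.2
  obtain ⟨C', n', hC', h2⟩ := hg.2
  refine ⟨C * C', n + n', mul_nonneg hC hC', fun x => ?_⟩
  rw [abs_mul]
  calc |f x| * |g x| ≤ (C * (1 + |x|) ^ n) * (C' * (1 + |x|) ^ n') :=
        mul_le_mul (h1 x) (h2 x) (abs_nonneg _) (by positivity)
    _ = _ := by rw [pow_add]; ring

theorem Adm.const (c : ℝ) : Adm (fun _ => c) :=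
  ⟨continuous_const, |c|, 0, abs_nonneg _, fun _ => by simp⟩

theorem Adm.cmul {f : ℝ → ℝ} (c : ℝ) (hf : Adm f) : Adm (fun x => c * f x) := (Adm.const c).mul hf

theorem Adm.neg {f : ℝ → ℝ} (hf : Adm f) : Adm (fun x => -f x) := by
  simpa using hf.cmul (-1)

theorem Adm.sub {f g : ℝ → ℝ} (hf : Adm f) (hg : Adm g) : Adm (fun x => f x - g x) := by
  simpa only [sub_eq_add_neg] using hf.add hg.neg

theorem Adm.pow {f : ℝ → ℝ} (hf : Adm f) : ∀ n : ℕ, Adm (fun x => f x ^ n)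
  | 0 => by simpa using Adm.const 1
  | n + 1 => by simpa only [pow_succ] using (hf.pow n).mul hf

section expect

variable {x0 : ℝ} {p Y Yx Yxx : ℝ → ℝ → ℝ}

theorem p_cont_x (hL : Law A x0 p Y Yx Yxx) {t : ℝ} (ht : t ∈ Ioc 0 A.T) : Continuous (p t) := by
  rw [← continuousOn_univ]
  exact hL.p_cont.comp (f := fun x => (t, x)) (by fun_prop) fun x _ => ⟨ht, mem_univ _⟩

theorem Adm.integrable (hL : Law A x0 p Y Yx Yxx) {t : ℝ} (ht : t ∈ Ioc 0 A.T) {f : ℝ → ℝ}
    (hf : Adm f) : Integrable (fun x => p t x * f x) := by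
  obtain ⟨C, n, hC, h⟩ := hf.2
  obtain ⟨C', h'⟩ := hL.mom n
  refine ((h' t ht).1.const_mul C).mono' ((p_cont_x hL ht).mul hf.1).aestronglyMeasurable
    (Eventually.of_forall fun x => ?_)
  rw [Real.norm_eq_abs, abs_mul, abs_of_pos (hL.p_pos t ht x)]
  calc p t x * |f x| ≤ p t x * (C * (1 + |x|) ^ n) :=
        mul_le_mul_of_nonneg_left (h x) (hL.p_pos t ht x).le
    _ = _ := by ring

theorem ex_add (hL : Law A x0 p Y Yx Yxx) {t : ℝ} (ht : t ∈ Icc 0 A.T) {f g : ℝ → ℝ} (hf : Adm f)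
    (hg : Adm g) : ex x0 p t (fun x => f x + g x) = ex x0 p t f + ex x0 p t g := by
  unfold ex
  split_ifs with h
  · rfl
  · have ht' : t ∈ Ioc 0 A.T := ⟨not_le.1 h, ht.2⟩
    rw [← integral_add (hf.integrable hL ht') (hg.integrable hL ht')]
    exact integral_congr_ae (Eventually.of_forall fun x => by ring)

theorem ex_cmul (t c : ℝ) (f : ℝ → ℝ) : ex x0 p t (fun x => c * f x) = c * ex x0 p t f := by
  unfold ex
  split_ifs with h
  · rfl
  · rw [← integral_const_mul]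
    exact integral_congr_ae (Eventually.of_forall fun x => by ring)

theorem ex_neg (t : ℝ) (f : ℝ → ℝ) : ex x0 p t (fun x => -f x) = -ex x0 p t f := by
  have := ex_cmul (x0 := x0) (p := p) t (-1) f
  simpa using this

theorem ex_sub (hL : Law A x0 p Y Yx Yxx) {t : ℝ} (ht : t ∈ Icc 0 A.T) {f g : ℝ → ℝ} (hf : Adm f)
    (hg : Adm g) : ex x0 p t (fun x => f x - g x) = ex x0 p t f - ex x0 p t g := by
  rw [sub_eq_add_neg, ← ex_neg, ← ex_add hL ht hf hg.neg]
  rfl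

theorem ex_congr (t : ℝ) {f g : ℝ → ℝ} (h : ∀ x, f x = g x) : ex x0 p t f = ex x0 p t g := by
  have : f = g := funext h
  rw [this]



end expect

end Crest.Agent.R146.StepTest_692
end

-- ▼ part R146/StepK_692
section

/-!
Row 146, package PT-STEP, task 119 (helper692): the identity `K_t` of `Scal`.

With `N = E[P²]`, `Z = E[(1-V)²V]`, `K = N - 2bZ`, `L = E[Px² + 6b(1-2V)P² + 6b²V²(1-V)²]`:

* `Ns_t`, `Zs_t` : `N' = E[Px² + 2b(2-3V)P²]`, `Z' = E[bV(1-V)²(1-3V) + (3V-2)P²]`, right and left;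
* `K_t` : `K' = 2bK + L` (right derivative, weight `b`), `K_tl` : the left version (weight `bl`);
* `KD_t`, `KD_tl` : `(K D²)' = D² L`.
-/

set_option autoImplicit false

namespace Crest.Agent.R146.StepK_692

open MeasureTheory ProbabilityTheory Set Filter Topology
open Crest.Agent.R146.StepDef_791
open Crest.Agent.R146.StepTest_692
open Crest.Agent.R146.MaxPCmp_371 (BSys)

variable {A : SD} {x0 : ℝ} {p Y Yx Yxx : ℝ → ℝ → ℝ}

/-! ### linear combinations -/

theorem ex_lin3 (hL : Law A x0 p Y Yx Yxx) {t : ℝ} (ht : t ∈ Icc 0 A.T) {f1 f2 f3 : ℝ → ℝ}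
    (h1 : Adm f1) (h2 : Adm f2) (h3 : Adm f3) (a b c : ℝ) :
    ex x0 p t (fun x => a * f1 x + b * f2 x + c * f3 x) =
      a * ex x0 p t f1 + b * ex x0 p t f2 + c * ex x0 p t f3 := by
  rw [ex_add hL ht ((h1.cmul a).add (h2.cmul b)) (h3.cmul c),
    ex_add hL ht (h1.cmul a) (h2.cmul b), ex_cmul, ex_cmul, ex_cmul]

theorem ex_lin4 (hL : Law A x0 p Y Yx Yxx) {t : ℝ} (ht : t ∈ Icc 0 A.T) {f1 f2 f3 f4 : ℝ → ℝ}
    (h1 : Adm f1) (h2 : Adm f2) (h3 : Adm f3) (h4 : Adm f4) (a b c d : ℝ) :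
    ex x0 p t (fun x => a * f1 x + b * f2 x + c * f3 x + d * f4 x) =
      a * ex x0 p t f1 + b * ex x0 p t f2 + c * ex x0 p t f3 + d * ex x0 p t f4 := by
  rw [ex_add hL ht (((h1.cmul a).add (h2.cmul b)).add (h3.cmul c)) (h4.cmul d),
    ex_lin3 hL ht h1 h2 h3, ex_cmul]

theorem adm_V (hB : Back A) {t : ℝ} (ht : t ∈ Icc 0 A.T) : Adm (A.V t) :=
  adm_of (V_cont hB) (V_pg hB) ht

theorem adm_P (hB : Back A) {t : ℝ} (ht : t ∈ Icc 0 A.T) : Adm (A.P t) :=
  adm_of (P_cont hB) (P_pg hB) ht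

theorem adm_Px (hB : Back A) {t : ℝ} (ht : t ∈ Icc 0 A.T) : Adm (A.Px t) :=
  adm_of hB.Px_cont (Px_pg hB) ht


/-! ### the integrands -/

/-- integrand of `N'` with weight `c` -/
noncomputable def gN (A : SD) (c t x : ℝ) : ℝ :=
  A.Px t x ^ 2 + 2 * c * (2 - 3 * A.V t x) * A.P t x ^ 2

/-- integrand of `Z'` with weight `c` -/
noncomputable def gZ (A : SD) (c t x : ℝ) : ℝ :=
  c * A.V t x * (1 - A.V t x) ^ 2 * (1 - 3 * A.V t x) + (3 * A.V t x - 2) * A.P t x ^ 2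

/-- integrand of `L` with weight `c` -/
noncomputable def gL (A : SD) (c t x : ℝ) : ℝ :=
  A.Px t x ^ 2 + 6 * c * (1 - 2 * A.V t x) * A.P t x ^ 2 +
    6 * c ^ 2 * A.V t x ^ 2 * (1 - A.V t x) ^ 2

/-- `L` with weight `c` -/
noncomputable def Lc (A : SD) (x0 : ℝ) (p : ℝ → ℝ → ℝ) (c t : ℝ) : ℝ := ex x0 p t (gL A c t)

theorem Ls_eq (t : ℝ) : Ls A x0 p t = Lc A x0 p (A.b t) t := rfl

theorem ex_gN (hB : Back A) (hL : Law A x0 p Y Yx Yxx) {t : ℝ} (ht : t ∈ Icc 0 A.T) (c : ℝ) :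
    ex x0 p t (gN A c t) = ex x0 p t (fun x => A.Px t x ^ 2) +
      4 * c * ex x0 p t (fun x => A.P t x ^ 2) -
      6 * c * ex x0 p t (fun x => A.V t x * A.P t x ^ 2) := by
  have h1 := (adm_Px hB ht).pow 2
  have h2 := (adm_P hB ht).pow 2
  have h3 := (adm_V hB ht).mul h2
  rw [ex_congr t (g := fun x => 1 * A.Px t x ^ 2 + 4 * c * A.P t x ^ 2 +
    (-6 * c) * (A.V t x * A.P t x ^ 2)) fun x => by unfold gN; ring, ex_lin3 hL ht h1 h2 h3]
  ring

theorem ex_gZ (hB : Back A) (hL : Law A x0 p Y Yx Yxx) {t : ℝ} (ht : t ∈ Icc 0 A.T) (c : ℝ) :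
    ex x0 p t (gZ A c t) = c * Zs A x0 p t -
      3 * c * ex x0 p t (fun x => A.V t x ^ 2 * (1 - A.V t x) ^ 2) +
      3 * ex x0 p t (fun x => A.V t x * A.P t x ^ 2) -
      2 * ex x0 p t (fun x => A.P t x ^ 2) := by
  have hV := adm_V hB ht
  have hR : Adm (fun x => (1 - A.V t x) ^ 2) := ((Adm.const 1).sub hV).pow 2
  have h1 : Adm (fun x => (1 - A.V t x) ^ 2 * A.V t x) := hR.mul hV
  have h2 : Adm (fun x => A.V t x ^ 2 * (1 - A.V t x) ^ 2) := (hV.pow 2).mul hR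
  have h4 := (adm_P hB ht).pow 2
  have h3 := hV.mul h4
  rw [ex_congr t (g := fun x => c * ((1 - A.V t x) ^ 2 * A.V t x) +
    (-3 * c) * (A.V t x ^ 2 * (1 - A.V t x) ^ 2) + 3 * (A.V t x * A.P t x ^ 2) +
    (-2) * A.P t x ^ 2) fun x => by unfold gZ; ring, ex_lin4 hL ht h1 h2 h3 h4]
  unfold Zs
  ring

theorem Lc_eq (hB : Back A) (hL : Law A x0 p Y Yx Yxx) {t : ℝ} (ht : t ∈ Icc 0 A.T) (c : ℝ) :
    Lc A x0 p c t = ex x0 p t (fun x => A.Px t x ^ 2) +
      6 * c * ex x0 p t (fun x => A.P t x ^ 2) -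
      12 * c * ex x0 p t (fun x => A.V t x * A.P t x ^ 2) +
      6 * c ^ 2 * ex x0 p t (fun x => A.V t x ^ 2 * (1 - A.V t x) ^ 2) := by
  have hV := adm_V hB ht
  have hR : Adm (fun x => (1 - A.V t x) ^ 2) := ((Adm.const 1).sub hV).pow 2
  have h1 := (adm_Px hB ht).pow 2
  have h2 := (adm_P hB ht).pow 2
  have h3 := hV.mul h2
  have h4 : Adm (fun x => A.V t x ^ 2 * (1 - A.V t x) ^ 2) := (hV.pow 2).mul hR
  unfold Lc
  rw [ex_congr t (g := fun x => 1 * A.Px t x ^ 2 + 6 * c * A.P t x ^ 2 +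
    (-12 * c) * (A.V t x * A.P t x ^ 2) + 6 * c ^ 2 * (A.V t x ^ 2 * (1 - A.V t x) ^ 2))
    fun x => by unfold gL; ring, ex_lin4 hL ht h1 h2 h3 h4]
  ring

/-! ### derivatives of `N` and `Z` -/

theorem Ns_t (hB : Back A) (hC : Clock A) (hL : Law A x0 p Y Yx Yxx) {t : ℝ} (ht : t ∈ Ico 0 A.T) :
    HasDerivWithinAt (Ns A x0 p) (ex x0 p t (gN A (A.b t) t)) (Ici t) t := by
  have h := hL.ex_r _ _ _ _ _ (Test.mul (test_P hB hC) (test_P hB hC)) t ht
  have e1 : Ns A x0 p = fun s => ex x0 p s (fun x => A.P s x * A.P s x) := by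
    funext s; unfold Ns; exact ex_congr s fun x => by ring
  rw [e1]
  convert h using 1
  exact ex_congr t fun x => by unfold gN; ring


theorem Zs_t (hB : Back A) (hC : Clock A) (hL : Law A x0 p Y Yx Yxx) {t : ℝ} (ht : t ∈ Ico 0 A.T) :
    HasDerivWithinAt (Zs A x0 p) (ex x0 p t (gZ A (A.b t) t)) (Ici t) t := by
  have hR := Test.add (Test.const A 1) (Test.cmul (-1) (test_V hB hC))
  have h := hL.ex_r _ _ _ _ _ (Test.mul (Test.mul hR hR) (test_V hB hC)) t ht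
  have e1 : Zs A x0 p = fun s => ex x0 p s (fun x => ((1 + -1 * A.V s x) * (1 + -1 * A.V s x)) *
      A.V s x) := by
    funext s; unfold Zs; exact ex_congr s fun x => by ring
  rw [e1]
  convert h using 1
  exact ex_congr t fun x => by unfold gZ; ring


/-- algebra of the identity -/
theorem K_alg (hB : Back A) (hL : Law A x0 p Y Yx Yxx) {t : ℝ} (ht : t ∈ Icc 0 A.T) (c : ℝ) :
    ex x0 p t (gN A c t) - (2 * c ^ 2 * Zs A x0 p t + 2 * c * ex x0 p t (gZ A c t)) =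
      2 * c * (Ns A x0 p t - 2 * c * Zs A x0 p t) + Lc A x0 p c t := by
  rw [ex_gN hB hL ht, ex_gZ hB hL ht, Lc_eq hB hL ht]
  unfold Ns
  ring

/-- **K_t**: field `K_t` of `Scal` -/
theorem K_t (hB : Back A) (hC : Clock A) (hL : Law A x0 p Y Yx Yxx) : ∀ t ∈ Ico 0 A.T,
    HasDerivWithinAt (fun s => Ns A x0 p s - 2 * A.b s * Zs A x0 p s)
      (2 * A.b t * (Ns A x0 p t - 2 * A.b t * Zs A x0 p t) + Ls A x0 p t) (Ici t) t := by
  intro t ht
  have h := (Ns_t hB hC hL ht).sub (((b_t hC ht).const_mul 2).mul (Zs_t hB hC hL ht))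
  have e : (2 * A.b t * (Ns A x0 p t - 2 * A.b t * Zs A x0 p t) + Ls A x0 p t) =
      ex x0 p t (gN A (A.b t) t) -
        (2 * A.b t ^ 2 * Zs A x0 p t + 2 * A.b t * ex x0 p t (gZ A (A.b t) t)) := by
    rw [Ls_eq, K_alg hB hL ⟨ht.1, ht.2.le⟩]
  rw [e]
  exact h



theorem b_mul_D (A : SD) (t : ℝ) : A.b t * A.D t = A.m t := by
  unfold SD.b
  exact div_mul_cancel₀ _ (A.D_pos t).ne'


/-- `(K D²)' = D² L`, right derivative -/
theorem KD_t (hB : Back A) (hC : Clock A) (hL : Law A x0 p Y Yx Yxx) : ∀ t ∈ Ico 0 A.T,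
    HasDerivWithinAt (fun s => (Ns A x0 p s - 2 * A.b s * Zs A x0 p s) * A.D s ^ 2)
      (A.D t ^ 2 * Ls A x0 p t) (Ici t) t := by
  intro t ht
  have h : HasDerivWithinAt (fun s => (Ns A x0 p s - 2 * A.b s * Zs A x0 p s) * A.D s ^ 2)
    ((2 * A.b t * (Ns A x0 p t - 2 * A.b t * Zs A x0 p t) + Ls A x0 p t) * A.D t ^ 2 +
      (Ns A x0 p t - 2 * A.b t * Zs A x0 p t) * (((2 : ℕ) : ℝ) * A.D t ^ (2 - 1) * -A.m t))
    (Ici t) t := (K_t hB hC hL t ht).mul ((hC.D_t t ht).pow 2)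
  have e : ((2 * A.b t * (Ns A x0 p t - 2 * A.b t * Zs A x0 p t) + Ls A x0 p t) * A.D t ^ 2 +
      (Ns A x0 p t - 2 * A.b t * Zs A x0 p t) * (((2 : ℕ) : ℝ) * A.D t ^ (2 - 1) * -A.m t)) =
      A.D t ^ 2 * Ls A x0 p t := by
    rw [← b_mul_D A t]
    push_cast
    ring
  rw [← e]
  exact h


/-! ### integrated forms -/









end Crest.Agent.R146.StepK_692
end

-- ▼ part R146/StepAppr_522

/-!
Row 146, package PT-STEP, (L2) STEP-APPR (helper522): the approximating step data of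
`StepApx_856` satisfy `PtS4b_489.Appr`.

* `isProf` : a `PtScalA_45.Prof` is a `PtS1_489.IsProf`;
* `scal_full` : all fields of `Scal` from `Back` and `Law`;
* `Ts_nonneg, Qs_nonneg, TQ_le, Zs_abs, Ns_le` : bounds of the scalars;
* `appr_of` : `Appr P A x0 p L0 C0`.
-/

set_option autoImplicit false

namespace Crest.Agent.R146.StepAppr_522

open Set MeasureTheory Filter Topology
open Crest.Agent.R146.StepDef_791 Crest.Agent.R146.PB_534
open Crest.Agent.R146.StepTest_168 (pg_V pg_P ex_nonneg ex_le_const ex_abs_le_of ex_add ex_congr)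
open Crest.Agent.R146.PtScalA_45 (Prof)
open Crest.Agent.R146.PtS1_489 (IsProf)
open Crest.Agent.R146.StepApx_856 (Apx)
open Crest.Agent.R146.PtS4b_489 (Appr)

noncomputable section

/-! ### profiles -/

theorem isProf (P : Prof) : IsProf P.D P.m where
  mono := P.mono
  nonneg := P.nonneg
  int := P.int
  eq := fun x _ => by simp [Prof.D]
  end_nonneg := by simpa [Prof.D] using P.d_nonneg

/-! ### scalars of one step datum -/

section one

variable {A : SD} {x0 : ℝ} {p Y Yx Yxx : ℝ → ℝ → ℝ}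

/-- all fields of `Scal` -/
theorem scal_full (hB : Back A) (hL : Law A x0 p Y Yx Yxx) : Scal A x0 p :=
  StepScal_774.scal A x0 p Y Yx Yxx hB (StepClk_900.clock A) hL
    (StepK_692.K_t hB (StepClk_900.clock A) hL)

theorem V_bd (hB : Back A) {t : ℝ} (ht : t ∈ Icc 0 A.T) (x : ℝ) : 0 < A.V t x ∧ A.V t x < 1 := by
  obtain ⟨M, hM⟩ := hB.bsys
  exact ⟨hM.V_pos t ht x, hM.V_lt t ht x⟩

theorem pg_R (hB : Back A) {t : ℝ} (ht : t ∈ Icc 0 A.T) : PG (fun x => 1 - A.V t x) :=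
  (PG.const 1).sub (pg_V hB ht)

theorem Ts_nonneg (hL : Law A x0 p Y Yx Yxx) {t : ℝ} (ht : t ∈ Icc 0 A.T) :
    0 ≤ Ts A x0 p t := ex_nonneg hL ht.2 fun _ => sq_nonneg _

theorem Qs_nonneg (hB : Back A) (hL : Law A x0 p Y Yx Yxx) {t : ℝ} (ht : t ∈ Icc 0 A.T) :
    0 ≤ Qs A x0 p t := by
  refine ex_nonneg hL ht.2 fun x => ?_
  have := V_bd hB ht x
  exact mul_nonneg (by linarith) this.1.le

theorem TQ_eq (hB : Back A) (hL : Law A x0 p Y Yx Yxx) {t : ℝ} (ht : t ∈ Icc 0 A.T) :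
    Ts A x0 p t + Qs A x0 p t = ex x0 p t (fun x => 1 - A.V t x) := by
  unfold Ts Qs
  rw [← ex_add hL ht.2 ((pg_R hB ht).pow 2) ((pg_R hB ht).mul (pg_V hB ht))]
  exact ex_congr t fun x => by ring

theorem TQ_le (hB : Back A) (hL : Law A x0 p Y Yx Yxx) {t : ℝ} (ht : t ∈ Icc 0 A.T) :
    Ts A x0 p t + Qs A x0 p t ≤ 1 := by
  rw [TQ_eq hB hL ht]
  exact ex_le_const hL ht.2 (pg_R hB ht) fun x => by linarith [(V_bd hB ht x).1]

theorem Zs_nonneg (hB : Back A) (hL : Law A x0 p Y Yx Yxx) {t : ℝ} (ht : t ∈ Icc 0 A.T) :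
    0 ≤ Zs A x0 p t :=
  ex_nonneg hL ht.2 fun x => mul_nonneg (sq_nonneg _) (V_bd hB ht x).1.le

theorem Zs_abs (hB : Back A) (hL : Law A x0 p Y Yx Yxx) {t : ℝ} (ht : t ∈ Icc 0 A.T) :
    |Zs A x0 p t| ≤ 1 := by
  rw [abs_of_nonneg (Zs_nonneg hB hL ht)]
  refine ex_le_const hL ht.2 (((pg_R hB ht).pow 2).mul (pg_V hB ht)) fun x => ?_
  have h := V_bd hB ht x
  have h1 : (1 - A.V t x) ^ 2 ≤ 1 := by nlinarith
  have h2 : 0 ≤ (1 - A.V t x) ^ 2 := sq_nonneg _
  nlinarith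

theorem Ns_nonneg (hL : Law A x0 p Y Yx Yxx) {t : ℝ} (ht : t ∈ Icc 0 A.T) :
    0 ≤ Ns A x0 p t := ex_nonneg hL ht.2 fun _ => sq_nonneg _

theorem Ns_le (hB : Back A) (hL : Law A x0 p Y Yx Yxx) {t : ℝ} (ht : t ∈ Icc 0 A.T)
    (hP : ∀ x, (1 - t) * A.P t x ^ 2 ≤ 2 * A.V t x * (1 - A.V t x)) :
    Ns A x0 p t ≤ 1 / (2 * (1 - t)) := by
  have ht1 : 0 < 1 - t := by linarith [ht.2, A.hT1]
  refine ex_le_const hL ht.2 ((pg_P hB ht).pow 2) fun x => ?_
  have h := V_bd hB ht x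
  rw [le_div_iff₀ (by linarith)]
  have h1 := hP x
  nlinarith [sq_nonneg (A.V t x - 1 / 2)]

end one

/-! ### the sequence -/

theorem mono_cont_ae (P : Prof) :
    ∀ᵐ t ∂(volume : Measure ℝ), t ∈ Ico (0 : ℝ) 1 → t ∈ Ioo (0 : ℝ) 1 ∧ ContinuousAt P.m t := by
  have h1 : ({x ∈ Ico (0:ℝ) 1 | ¬ ContinuousWithinAt P.m (Ico 0 1) x}).Countable :=
    P.mono.countable_not_continuousWithinAt
  have h2 : ∀ᵐ t ∂(volume : Measure ℝ), t ∉ {x ∈ Ico (0:ℝ) 1 | ¬ ContinuousWithinAt P.m (Ico 0 1) x} :=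
    h1.ae_notMem _
  have h3 : ∀ᵐ t ∂(volume : Measure ℝ), t ∉ ({0} : Set ℝ) := (countable_singleton 0).ae_notMem _
  filter_upwards [h2, h3] with t ht2 ht3 ht
  have h0 : 0 < t := lt_of_le_of_ne ht.1 fun h => ht3 h.symm
  refine ⟨⟨h0, ht.2⟩, ?_⟩
  have h4 : ContinuousWithinAt P.m (Ico 0 1) t := by
    by_contra hcon
    exact ht2 ⟨ht, hcon⟩
  exact h4.continuousAt (mem_of_superset (Ioo_mem_nhds h0 ht.2) Ioo_subset_Ico_self)

theorem appr_of {P : Prof} {ε : ℕ → ℝ} {F : ℕ → Finset ℝ} {A : ℕ → SD} {K : ℕ → ℕ}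
    {g : ℕ → ℕ → ℝ} {e : ℕ → ℝ}
    (hA : ∀ n, Apx P.D P.m (ε n) (F n) (A n) (K n) (g n) (e n)) (hε : Tendsto ε atTop (𝓝 0))
    {x0 : ℝ} {p Y Yx Yxx : ℕ → ℝ → ℝ → ℝ} (hB : ∀ n, Back (A n))
    (hL : ∀ n, Law (A n) x0 (p n) (Y n) (Yx n) (Yxx n))
    (hP : ∀ n, ∀ t ∈ Icc 0 (A n).T, ∀ x,
      (1 - t) * (A n).P t x ^ 2 ≤ 2 * (A n).V t x * (1 - (A n).V t x))
    {L0 C0 : ℝ → ℝ}
    (hLL : ∀ t ∈ Ico (0 : ℝ) 1, Tendsto (fun n => Lams (A n) x0 (p n) t) atTop (𝓝 (L0 t)))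
    (hCL : ∀ t ∈ Ico (0 : ℝ) 1, Tendsto (fun n => Cs (A n) x0 (p n) t) atTop (𝓝 (C0 t))) :
    Appr P A x0 p L0 C0 where
  clk n := StepClk_900.clock (A n)
  scal n := scal_full (hB n) (hL n)
  T1 q hq := (StepApx_856.tendsto_T hA hε).eventually (lt_mem_nhds hq)
  DL q hq := by
    rw [Metric.tendstoUniformlyOn_iff]
    intro δ hδ
    filter_upwards [hε.eventually (gt_mem_nhds hδ)] with n hn x hx
    have hx1 : x ∈ Icc (0:ℝ) 1 := ⟨hx.1, hx.2.trans hq.2.le⟩
    have h1 := (hA n).D_le x hx1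
    have h2 := (hA n).le_D x hx1
    rw [Real.dist_eq, abs_lt]
    constructor <;> linarith
  mL := by
    filter_upwards [mono_cont_ae P] with t ht ht0
    exact StepApx_856.tendsto_m hA hε (isProf P) (ht ht0).1 (ht ht0).2
  mb q hq := by
    refine ⟨P.m ((1 + q) / 2) + 1, ?_⟩
    have hq2 : 0 < (1 - q) / 2 := by linarith [hq.2]
    filter_upwards [hε.eventually (gt_mem_nhds hq2), hε.eventually (gt_mem_nhds one_pos),
      (StepApx_856.tendsto_T hA hε).eventually (lt_mem_nhds hq.2)] with n h1 h2 h3 t ht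
    have h4 := (hA n).m_le_of (isProf P) (x := t) (y := (1 + q) / 2) ⟨ht.1, ht.2.trans_lt h3⟩
      (by linarith [hq.2]) (by linarith [ht.2])
    linarith
  Nb q hq := by
    refine ⟨1 / (2 * (1 - q)), ?_⟩
    filter_upwards [(StepApx_856.tendsto_T hA hε).eventually (lt_mem_nhds hq.2)] with n h3 t ht
    have ht' : t ∈ Icc 0 (A n).T := ⟨ht.1, ht.2.trans h3.le⟩
    rw [abs_of_nonneg (Ns_nonneg (hL n) ht')]
    refine (Ns_le (hB n) (hL n) ht' (hP n t ht')).trans ?_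
    have h5 : 0 < 1 - q := by linarith [hq.2]
    exact one_div_le_one_div_of_le (by linarith) (by linarith [ht.2])
  Tb n t ht := Ts_nonneg (hL n) ht
  Qb n t ht := Qs_nonneg (hB n) (hL n) ht
  TQb n t ht := TQ_le (hB n) (hL n) ht
  Zb n t ht := Zs_abs (hB n) (hL n) ht
  LL := hLL
  CL := hCL

end

end Crest.Agent.R146.StepAppr_522
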