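import Crest.Agent.R146.LimMin_952
import Crest.Agent.R146.HilbE1_12
import Crest.Agent.R146.ProfC_540
import Crest.Agent.R146.P5Def_12
import Crest.Agent.R146.P5Fin_12
import Crest.Agent.R146.P5Lk_288_Mg
import Crest.Agent.R146.S0205Asm_12
import Crest.Agent.R146.Emg_288
import Crest.Agent.R146.StepDef_791
import Crest.Agent.R146.TipSeq_791
import Crest.Agent.R146.StepAppr_522
import Crest.Agent.R146.PtS4b_489
import Crest.Agent.R146.Apri_384
import Crest.Agent.R146.StepStart_483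
import Crest.Agent.R146.SlopeV_371
import Crest.Agent.R146.FlatStep_384

-- ▼ part R146/MinC_952
section

/-!
Package P5 (row 146), node C of the split 624, in the official frame
(`Hilb.Res` of helper356, `ProfB_540.Adm`, `HilbE.Je` of helper12):
reduced functional, optimal profiles, minimising pairs, stability.
-/

set_option autoImplicit false

namespace Crest.Agent.R146.MinC_952

open Filter Topology Set MeasureTheory
open scoped RealInnerProductSpace
open Crest.Agent.R146.Hilb Crest.Agent.R146.ProfB_540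
open Crest.Agent.R146.LimFrame_952 (Frame IsAnti pt)
open Crest.Agent.R146.LimProf_952 (PD)

variable {H : Type*} [NormedAddCommGroup H] [InnerProductSpace ℝ H]

/-- the frame of a resolution -/
def fr (R : Res H) : Frame H where
  E := R.P
  symm := R.symm
  comp_le := R.mul
  tendsto_one := R.left

lemma isAnti_of {D : ℝ → ℝ} (ha : AntitoneOn D (Icc 0 1)) (h1 : 0 ≤ D 1) : IsAnti D where
  anti := ha.mono Ico_subset_Icc_self
  nonneg := fun t ht => h1.trans (ha ⟨ht.1, ht.2.le⟩ (by simp) ht.2.le)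

lemma pt_eq_dy (n i : ℕ) : pt n i = Res.dy n i := rfl

/-- the two quadratic forms agree -/
lemma Q_eq [CompleteSpace H] (R : Res H) {D : ℝ → ℝ} (hc : ContinuousOn D (Icc 0 1))
    (ha : AntitoneOn D (Icc 0 1)) (h1 : 0 ≤ D 1) (x : H) :
    R.Q D x = LimFrame_952.Q (fr R) D x := by
  have hA := isAnti_of ha h1
  refine tendsto_nhds_unique ?_ (LimFrame_952.tendsto_Q (fr R) hA x)
  have hlast : Tendsto (fun n : ℕ => D 1 * ‖x - R.P (pt n (2 ^ n - 1)) x‖ ^ 2) atTop (𝓝 0) := by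
    have h2 := (R.left x).comp LimFrame_952.tendsto_pt_last
    have h3 : Tendsto (fun n : ℕ => x - R.P (pt n (2 ^ n - 1)) x) atTop (𝓝 (x - x)) :=
      tendsto_const_nhds.sub h2
    have h4 := (h3.norm.pow 2).const_mul (D 1)
    simpa using h4
  have hQ := R.Q_tendsto hc x
  have := hQ.sub hlast
  rw [sub_zero] at this
  refine this.congr fun n => ?_
  unfold LimFrame_952.Qs
  have hN : 2 ^ n = (2 ^ n - 1) + 1 := by
    have : 1 ≤ 2 ^ n := Nat.one_le_two_pow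
    omega
  have e1 : ∑ i ∈ Finset.range (2 ^ n), D (Res.dy n (i + 1)) *
      ‖R.inc (Res.dy n i) (Res.dy n (i + 1)) x‖ ^ 2 =
      ∑ i ∈ Finset.range (2 ^ n - 1), D (Res.dy n (i + 1)) *
      ‖R.inc (Res.dy n i) (Res.dy n (i + 1)) x‖ ^ 2 +
      D 1 * ‖x - R.P (pt n (2 ^ n - 1)) x‖ ^ 2 := by
    conv_lhs => rw [hN]
    rw [Finset.sum_range_succ]
    congr 1
    have : Res.dy n (2 ^ n - 1 + 1) = 1 := by rw [← hN]; exact Res.dy_end n
    rw [this, Res.inc_apply, R.one]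
    rfl
  rw [e1]
  have e2 : (fr R).E = R.P := rfl
  rw [e2]
  simp only [pt_eq_dy, Res.inc_apply]
  ring

lemma Q_eq_adm [CompleteSpace H] (R : Res H) {e : ℝ} {D : ℝ → ℝ} (h : Adm e D) (x : H) :
    R.Q D x = LimFrame_952.Q (fr R) D x := Q_eq R h.prof.cont h.prof.anti h.prof.one x

/-! ### profiles -/

lemma pd_of_adm {e : ℝ} {D : ℝ → ℝ} (h : Adm e D) : PD e D where
  conc := h.prof.conc.subset Ico_subset_Icc_self (convex_Ico 0 1)
  anti := h.prof.anti.mono Ico_subset_Icc_self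
  pos := h.prof.pos
  cap := fun t ht => h.cap t ⟨ht.1, ht.2.le⟩

lemma entF_eq (e : ℝ) (D : ℝ → ℝ) : entF e D = LimProf_952.dens e D := rfl

lemma integrableOn_of_adm {e : ℝ} {D : ℝ → ℝ} (h : Adm e D) :
    IntegrableOn (LimProf_952.dens e D) (Ico 0 1) := by
  have := (intervalIntegrable_iff_integrableOn_Ico_of_le zero_le_one).1 h.int
  rwa [entF_eq] at this

lemma ent_ne_top {e : ℝ} {D : ℝ → ℝ} (h : Adm e D) : LimProf_952.Ent e D ≠ ⊤ :=
  (pd_of_adm h).Ent_ne_top_of_integrable (integrableOn_of_adm h)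

lemma ad_of_adm {e : ℝ} {D : ℝ → ℝ} (h : Adm e D) : LimMin_952.Ad e D :=
  ⟨pd_of_adm h, ent_ne_top h⟩

lemma ent_eq {e : ℝ} {D : ℝ → ℝ} (h : Adm e D) :
    (LimProf_952.Ent e D).toReal = Ent e D := by
  rw [(pd_of_adm h).Ent_eq (ent_ne_top h)]
  unfold Ent
  rw [intervalIntegral.integral_of_le zero_le_one, ← integral_Ico_eq_integral_Ioc]
  rfl

/-- extension of a profile on `[0,1)` by its limit at `1` -/
noncomputable def ext1 (D : ℝ → ℝ) (t : ℝ) : ℝ := if t < 1 then D t else sInf (D '' Ico (0 : ℝ) 1)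

lemma ext1_of_lt (D : ℝ → ℝ) {t : ℝ} (ht : t < 1) : ext1 D t = D t := if_pos ht

lemma ext1_of_mem (D : ℝ → ℝ) {t : ℝ} (ht : t ∈ Ico (0 : ℝ) 1) : ext1 D t = D t :=
  if_pos ht.2

lemma ext1_one (D : ℝ → ℝ) : ext1 D 1 = sInf (D '' Ico (0 : ℝ) 1) := if_neg (lt_irrefl _)

section ext

variable {e : ℝ} {D : ℝ → ℝ} (h : PD e D)

include h

lemma bddBelow_image : BddBelow (D '' Ico (0 : ℝ) 1) :=
  ⟨0, by rintro _ ⟨t, ht, rfl⟩; exact (h.pos t ht).le⟩

lemma ext1_one_nonneg : 0 ≤ ext1 D 1 := by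
  rw [ext1_one]
  refine le_csInf ⟨_, 0, ⟨le_rfl, one_pos⟩, rfl⟩ ?_
  rintro _ ⟨t, ht, rfl⟩
  exact (h.pos t ht).le

lemma ext1_one_le {t : ℝ} (ht : t ∈ Ico (0 : ℝ) 1) : ext1 D 1 ≤ D t := by
  rw [ext1_one]
  exact csInf_le (bddBelow_image h) ⟨t, ht, rfl⟩

lemma ext1_tendsto : Tendsto (ext1 D) (𝓝[Icc 0 1] 1) (𝓝 (ext1 D 1)) := by
  rw [Metric.tendsto_nhds]
  intro ε hε
  obtain ⟨_, ⟨s, hs, rfl⟩, hlt⟩ := exists_lt_of_csInf_lt
    (s := D '' Ico (0 : ℝ) 1) ⟨_, 0, ⟨le_rfl, one_pos⟩, rfl⟩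
    (show sInf (D '' Ico (0 : ℝ) 1) < ext1 D 1 + ε by rw [ext1_one]; linarith)
  have hmem : Ioi s ∈ 𝓝[Icc 0 1] (1 : ℝ) := mem_nhdsWithin_of_mem_nhds (Ioi_mem_nhds hs.2)
  filter_upwards [hmem, self_mem_nhdsWithin] with t ht ht'
  have hst : s < t := ht
  rcases eq_or_lt_of_le ht'.2 with h1 | h1
  · rw [h1, dist_self]; exact hε
  · have htm : t ∈ Ico (0 : ℝ) 1 := ⟨ht'.1, h1⟩
    rw [ext1_of_mem D htm, Real.dist_eq, abs_of_nonneg (sub_nonneg.2 (ext1_one_le h htm))]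
    have := h.anti hs htm hst.le
    linarith

lemma ext1_prof : Prof (ext1 D) where
  anti := by
    intro x hx y hy hxy
    rcases eq_or_lt_of_le hy.2 with h1 | h1
    · rcases eq_or_lt_of_le hx.2 with h2 | h2
      · rw [h1, h2]
      · rw [h1, ext1_of_lt D h2]
        exact ext1_one_le h ⟨hx.1, h2⟩
    · have h2 := lt_of_le_of_lt hxy h1
      rw [ext1_of_lt D h1, ext1_of_lt D h2]
      exact h.anti ⟨hx.1, h2⟩ ⟨hy.1, h1⟩ hxy
  cont := by
    intro t ht
    rcases eq_or_lt_of_le ht.2 with h1 | h1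
    · rw [h1]; exact ext1_tendsto h
    · have h2 := h.continuousOn t ⟨ht.1, h1⟩
      have h3 : ContinuousWithinAt D (Icc 0 1) t := by
        refine h2.mono_of_mem_nhdsWithin ?_
        have : Iio (1 : ℝ) ∈ 𝓝[Icc 0 1] t := mem_nhdsWithin_of_mem_nhds (Iio_mem_nhds h1)
        filter_upwards [this, self_mem_nhdsWithin] with s hs hs'
        exact ⟨hs'.1, hs⟩
      refine h3.congr_of_eventuallyEq ?_ (ext1_of_lt D h1)
      have : Iio (1 : ℝ) ∈ 𝓝[Icc 0 1] t := mem_nhdsWithin_of_mem_nhds (Iio_mem_nhds h1)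
      filter_upwards [this] with s hs
      exact ext1_of_lt D hs
  pos := fun t ht => by rw [ext1_of_mem D ht]; exact h.pos t ht
  one := ext1_one_nonneg h
  conc := by
    -- continuity on `Icc` and concavity on `Ico`
    have hcont : ContinuousOn (ext1 D) (Icc 0 1) := by
      intro t ht
      rcases eq_or_lt_of_le ht.2 with h1 | h1
      · rw [h1]; exact ext1_tendsto h
      · have h2 := h.continuousOn t ⟨ht.1, h1⟩
        have h3 : ContinuousWithinAt D (Icc 0 1) t := by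
          refine h2.mono_of_mem_nhdsWithin ?_
          have : Iio (1 : ℝ) ∈ 𝓝[Icc 0 1] t := mem_nhdsWithin_of_mem_nhds (Iio_mem_nhds h1)
          filter_upwards [this, self_mem_nhdsWithin] with s hs hs'
          exact ⟨hs'.1, hs⟩
        refine h3.congr_of_eventuallyEq ?_ (ext1_of_lt D h1)
        have : Iio (1 : ℝ) ∈ 𝓝[Icc 0 1] t := mem_nhdsWithin_of_mem_nhds (Iio_mem_nhds h1)
        filter_upwards [this] with s hs
        exact ext1_of_lt D hs
    refine ⟨convex_Icc 0 1, ?_⟩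
    intro x hx y hy a b ha hb hab
    have hz : a • x + b • y ∈ Icc (0 : ℝ) 1 := convex_Icc 0 1 hx hy ha hb hab
    -- approximate by `r x, r y`, `r ↑ 1`
    have hr : ∀ r ∈ Ioo (0 : ℝ) 1, a • ext1 D (r * x) + b • ext1 D (r * y) ≤
        ext1 D (r * (a • x + b • y)) := by
      intro r hr
      have m : ∀ w ∈ Icc (0 : ℝ) 1, r * w ∈ Ico (0 : ℝ) 1 := fun w hw =>
        ⟨mul_nonneg hr.1.le hw.1, by nlinarith [hw.1, hw.2, hr.1, hr.2]⟩
      rw [ext1_of_mem D (m x hx), ext1_of_mem D (m y hy), ext1_of_mem D (m _ hz)]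
      have := h.conc.2 (m x hx) (m y hy) ha hb hab
      have e1 : r * (a • x + b • y) = a • (r * x) + b • (r * y) := by
        simp only [smul_eq_mul]; ring
      rw [e1]
      exact this
    have lim : ∀ w ∈ Icc (0 : ℝ) 1, Tendsto (fun r => ext1 D (r * w)) (𝓝[<] 1)
        (𝓝 (ext1 D w)) := by
      intro w hw
      refine (hcont w hw).tendsto.comp (tendsto_nhdsWithin_iff.2 ⟨?_, ?_⟩)
      · have : Continuous fun r : ℝ => r * w := by fun_prop
        have h2 := (this.tendsto 1).mono_left (nhdsWithin_le_nhds (s := Iio (1 : ℝ)))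
        simpa using h2
      · have hpos : Ioi (0 : ℝ) ∈ 𝓝[<] (1 : ℝ) :=
          mem_nhdsWithin_of_mem_nhds (Ioi_mem_nhds one_pos)
        filter_upwards [hpos, self_mem_nhdsWithin] with r h0 h1
        have h0' : (0 : ℝ) < r := h0
        have h1' : r < 1 := h1
        exact ⟨mul_nonneg h0'.le hw.1, by nlinarith [hw.1, hw.2]⟩
    refine le_of_tendsto_of_tendsto (((lim x hx).const_smul a).add ((lim y hy).const_smul b))
      (lim _ hz) ?_
    have hpos : Ioi (0 : ℝ) ∈ 𝓝[<] (1 : ℝ) :=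
      mem_nhdsWithin_of_mem_nhds (Ioi_mem_nhds one_pos)
    filter_upwards [hpos, self_mem_nhdsWithin] with r h0 h1
    exact hr r ⟨h0, h1⟩

lemma ext1_adm (hE : LimProf_952.Ent e D ≠ ⊤) (he : 0 ≤ e) : Adm e (ext1 D) where
  prof := ext1_prof h
  cap := by
    intro t ht
    rcases eq_or_lt_of_le ht.2 with h1 | h1
    · rw [h1]
      have h2 : ∀ᶠ s in 𝓝[<] (1 : ℝ), e * ext1 D 1 ≤ 1 - s := by
        have hpos : Ioi (0 : ℝ) ∈ 𝓝[<] (1 : ℝ) :=
          mem_nhdsWithin_of_mem_nhds (Ioi_mem_nhds one_pos)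
        filter_upwards [hpos, self_mem_nhdsWithin] with s h0 h1
        have hsm : s ∈ Ico (0 : ℝ) 1 := ⟨(show (0 : ℝ) < s from h0).le, h1⟩
        exact (mul_le_mul_of_nonneg_left (ext1_one_le h hsm) he).trans (h.cap s hsm)
      have h3 : Tendsto (fun s : ℝ => 1 - s) (𝓝[<] 1) (𝓝 (1 - 1)) := by
        have : Continuous fun s : ℝ => 1 - s := by fun_prop
        exact (this.tendsto 1).mono_left nhdsWithin_le_nhds
      exact ge_of_tendsto h3 h2
    · rw [ext1_of_lt D h1]; exact h.cap t ⟨ht.1, h1⟩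
  int := by
    rw [intervalIntegrable_iff_integrableOn_Ico_of_le zero_le_one]
    refine IntegrableOn.congr_fun (h.integrable_dens hE) (fun t ht => ?_) measurableSet_Ico
    unfold LimProf_952.dens entF
    rw [ext1_of_mem D ht]

end ext

/-! ### the reduced functional in the official frame -/

variable [CompleteSpace H]

/-- `Phi R e x = inf_D (1/2)(Q D x + Ent e D)` over admissible profiles -/
noncomputable def Phi (R : Res H) (e : ℝ) (x : H) : ℝ :=
  sInf {r : ℝ | ∃ D, Adm e D ∧ r = (R.Q D x + Ent e D) / 2}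

lemma G_eq (R : Res H) {e : ℝ} {D : ℝ → ℝ} (h : Adm e D) (x : H) :
    LimMin_952.G (fr R) e x D = (R.Q D x + Ent e D) / 2 := by
  unfold LimMin_952.G
  rw [ent_eq h, Q_eq_adm R h]

lemma G_ext (R : Res H) {e : ℝ} (he : 0 ≤ e) {D : ℝ → ℝ} (h : LimMin_952.Ad e D) (x : H) :
    LimMin_952.G (fr R) e x D = (R.Q (ext1 D) x + Ent e (ext1 D)) / 2 := by
  rw [← G_eq R (ext1_adm h.1 h.2 he)]
  unfold LimMin_952.G
  rw [LimFrame_952.Q_congr (fr R) (fun t ht => (ext1_of_mem D ht).symm),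
    LimProf_952.Ent_congr (fun t ht => (ext1_of_mem D ht).symm)]

lemma Phi_eq (R : Res H) {e : ℝ} (he : 0 ≤ e) (x : H) :
    Phi R e x = LimMin_952.Phi (fr R) e x := by
  unfold Phi LimMin_952.Phi
  congr 1
  ext r
  constructor
  · rintro ⟨D, hD, rfl⟩
    exact ⟨D, ad_of_adm hD, (G_eq R hD x).symm⟩
  · rintro ⟨D, hD, rfl⟩
    exact ⟨ext1 D, ext1_adm hD.1 hD.2 he, G_ext R he hD x⟩

lemma Phi_le (R : Res H) {e : ℝ} (he : 0 ≤ e) {D : ℝ → ℝ} (h : Adm e D) (x : H) :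
    Phi R e x ≤ (R.Q D x + Ent e D) / 2 := by
  rw [Phi_eq R he, ← G_eq R h]
  exact LimMin_952.Phi_le (fr R) x (ad_of_adm h)

lemma Phi_nonneg (R : Res H) {e : ℝ} (he : 0 ≤ e) (x : H) : 0 ≤ Phi R e x := by
  rw [Phi_eq R he]; exact LimMin_952.Phi_nonneg (fr R) he x

lemma Phi_le_norm (R : Res H) {e : ℝ} (he : 0 ≤ e) (x : H) : Phi R e x ≤ ‖x‖ := by
  rw [Phi_eq R he]; exact LimMin_952.Phi_le_norm (fr R) he x






lemma Phi_zero (R : Res H) {e : ℝ} (he : 0 ≤ e) : Phi R e 0 = 0 := by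
  refine le_antisymm ?_ (Phi_nonneg R he 0)
  have := Phi_le_norm R he (0 : H)
  simpa using this




/-! ### optimal profiles at fixed `x` -/

/-- `D` is the optimal profile at `x` -/
def IsOpt (R : Res H) (e : ℝ) (x : H) (D : ℝ → ℝ) : Prop :=
  Adm e D ∧ (R.Q D x + Ent e D) / 2 = Phi R e x

theorem exists_opt (R : Res H) {e : ℝ} (he : 0 ≤ e) {x : H} (hne : e = 0 → x ≠ 0) :
    ∃ D, IsOpt R e x D := by
  obtain ⟨D, hD, hG⟩ := LimMin_952.exists_profile (fr R) he hne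
  refine ⟨ext1 D, ext1_adm hD.1 hD.2 he, ?_⟩
  rw [← G_ext R he hD, hG, Phi_eq R he]





/-! ### the joint problem -/

open Crest.Agent.R146.HilbE (Je)

lemma J_eq (R : Res H) {α c e : ℝ} (ξ x : H) {D : ℝ → ℝ} (h : Adm e D) :
    LimMin_952.J (fr R) ξ α c e x D = Je R α c e ξ x D := by
  unfold LimMin_952.J Je
  rw [ent_eq h, Q_eq_adm R h]
  ring

/-- minimising pairs -/
def IsMinPair (R : Res H) (α c e : ℝ) (ξ : H) (K : Set H) (x₀ : H) (D₀ : ℝ → ℝ) : Prop :=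
  x₀ ∈ K ∧ Adm e D₀ ∧ ∀ y ∈ K, ∀ D, Adm e D → Je R α c e ξ x₀ D₀ ≤ Je R α c e ξ y D

lemma J_ext (R : Res H) {α c e : ℝ} (he : 0 ≤ e) (ξ x : H) {D : ℝ → ℝ}
    (h : LimMin_952.Ad e D) :
    LimMin_952.J (fr R) ξ α c e x D = Je R α c e ξ x (ext1 D) := by
  rw [← J_eq R ξ x (ext1_adm h.1 h.2 he)]
  unfold LimMin_952.J
  rw [LimFrame_952.Q_congr (fr R) (fun t ht => (ext1_of_mem D ht).symm),
    LimProf_952.Ent_congr (fun t ht => (ext1_of_mem D ht).symm)]

lemma IsMinPair.toFrame {R : Res H} {α c e : ℝ} (he : 0 ≤ e) {ξ : H} {K : Set H} {x₀ : H}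
    {D₀ : ℝ → ℝ} (h : IsMinPair R α c e ξ K x₀ D₀) :
    LimMin_952.IsMinPair (fr R) ξ α c e K x₀ D₀ := by
  refine ⟨h.1, ad_of_adm h.2.1, fun y hy D hD => ?_⟩
  rw [J_eq R ξ x₀ h.2.1, J_ext R he ξ y hD]
  exact h.2.2 y hy _ (ext1_adm hD.1 hD.2 he)

/-- reduced form of the functional: `Je x D = α⟪x,ξ⟫ + αc/2‖x‖² + (1/2)(Q D (√α x) + Ent)` -/
lemma Je_reduced (R : Res H) {α c e : ℝ} (hα : 0 ≤ α) (ξ x : H) {D : ℝ → ℝ} (_h : Adm e D) :
    Je R α c e ξ x D = α * ⟪x, ξ⟫ + α * c / 2 * ‖x‖ ^ 2 +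
      (R.Q D (Real.sqrt α • x) + Ent e D) / 2 := by
  unfold Je
  rw [R.Q_smul_vec, Real.sq_sqrt hα]
  ring

/-- reduced functional of `x` -/
noncomputable def Jr (R : Res H) (α c e : ℝ) (ξ x : H) : ℝ :=
  α * ⟪x, ξ⟫ + α * c / 2 * ‖x‖ ^ 2 + Phi R e (Real.sqrt α • x)

lemma Jr_eq (R : Res H) {α c e : ℝ} (he : 0 ≤ e) (ξ x : H) :
    Jr R α c e ξ x = LimMin_952.Jr (fr R) ξ α c e x := by
  unfold Jr LimMin_952.Jr
  rw [Phi_eq R he]

lemma Jr_le_Je (R : Res H) {α c e : ℝ} (hα : 0 ≤ α) (he : 0 ≤ e) (ξ x : H) {D : ℝ → ℝ}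
    (h : Adm e D) : Jr R α c e ξ x ≤ Je R α c e ξ x D := by
  rw [Je_reduced R hα ξ x h]
  unfold Jr
  have := Phi_le R he h (Real.sqrt α • x)
  linarith

lemma Je_opt (R : Res H) {α c e : ℝ} (hα : 0 ≤ α) (ξ x : H) {D : ℝ → ℝ}
    (h : IsOpt R e (Real.sqrt α • x) D) : Je R α c e ξ x D = Jr R α c e ξ x := by
  rw [Je_reduced R hα ξ x h.1, h.2]
  rfl

/-- existence of the minimiser in `x` of the reduced functional -/
theorem exists_x (R : Res H) {α c e : ℝ} (hα : 0 < α) (hc : 0 < c) (he : 0 ≤ e) (ξ : H)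
    {K : Set H} (hK : Convex ℝ K) (hKc : IsClosed K) (hKn : K.Nonempty) :
    ∃ x ∈ K, ∀ y ∈ K, Jr R α c e ξ x ≤ Jr R α c e ξ y := by
  obtain ⟨x, hx, hm⟩ := LimMin_952.exists_x (fr R) ξ hα hc he hK hKc hKn
  exact ⟨x, hx, fun y hy => by rw [Jr_eq R he, Jr_eq R he]; exact hm y hy⟩

/-- from a minimiser of the reduced functional to a minimising pair -/
theorem minPair_of_x (R : Res H) {α c e : ℝ} (hα : 0 < α) (he : 0 ≤ e) (ξ : H)
    {K : Set H} {x₀ : H} (hx₀ : x₀ ∈ K) (hmin : ∀ y ∈ K, Jr R α c e ξ x₀ ≤ Jr R α c e ξ y)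
    (hne : e = 0 → x₀ ≠ 0) : ∃ D₀, IsMinPair R α c e ξ K x₀ D₀ := by
  obtain ⟨D₀, h₀⟩ := exists_opt R he (x := Real.sqrt α • x₀) fun h =>
    smul_ne_zero (Real.sqrt_pos.2 hα).ne' (hne h)
  refine ⟨D₀, hx₀, h₀.1, fun y hy D hD => ?_⟩
  rw [Je_opt R hα.le ξ x₀ h₀]
  exact (hmin y hy).trans (Jr_le_Je R hα.le he ξ y hD)

/-- (C3) existence for `e > 0` -/
theorem exists_minPair_pos (R : Res H) {α c e : ℝ} (hα : 0 < α) (hc : 0 < c) (he : 0 < e)
    (ξ : H) {K : Set H} (hK : Convex ℝ K) (hKc : IsClosed K) (hKn : K.Nonempty) :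
    ∃ x₀ D₀, IsMinPair R α c e ξ K x₀ D₀ := by
  obtain ⟨x, hx, hm⟩ := exists_x R hα hc he.le ξ hK hKc hKn
  obtain ⟨D, hD⟩ := minPair_of_x R hα he.le ξ hx hm fun h => absurd h he.ne'
  exact ⟨x, D, hD⟩

/-- (C3) existence for `e = 0` when the infimum is negative -/
theorem exists_minPair_zero (R : Res H) {α c : ℝ} (hα : 0 < α) (hc : 0 < c) (ξ : H)
    {K : Set H} (hK : Convex ℝ K) (hKc : IsClosed K)
    (hneg : ∃ y ∈ K, ∃ D, Adm 0 D ∧ Je R α c 0 ξ y D < 0) :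
    ∃ x₀ D₀, x₀ ≠ 0 ∧ IsMinPair R α c 0 ξ K x₀ D₀ := by
  obtain ⟨y, hy, D, hD, hlt⟩ := hneg
  obtain ⟨x, hx, hm⟩ := exists_x R hα hc le_rfl ξ hK hKc ⟨y, hy⟩
  have hx0 : x ≠ 0 := by
    intro h0
    have h1 := (hm y hy).trans (Jr_le_Je R hα.le le_rfl ξ y hD)
    rw [h0] at h1
    have h2 : Jr R α c 0 ξ (0 : H) = 0 := by
      unfold Jr
      rw [smul_zero, Phi_zero R le_rfl]
      simp
    rw [h2] at h1
    linarith
  obtain ⟨D₀, hD₀⟩ := minPair_of_x R hα le_rfl ξ hx hm fun _ => hx0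
  exact ⟨x, D₀, hx0, hD₀⟩




/-- (C3) near-minimising families converge to the minimising pair -/
theorem tendsto_minPair (R : Res H) {α c e : ℝ} (hα : 0 < α) (hc : 0 < c) (he : 0 ≤ e) (ξ : H)
    {K : Set H} (hK : Convex ℝ K) {x₀ : H} {D₀ : ℝ → ℝ} (h₀ : IsMinPair R α c e ξ K x₀ D₀)
    (hne : e = 0 → x₀ ≠ 0) {ι : Type*} {l : Filter ι} {x : ι → H} {D : ι → ℝ → ℝ}
    (hx : ∀ᶠ i in l, x i ∈ K) (hD : ∀ᶠ i in l, Adm e (D i)) {g : ι → ℝ}
    (hg : Tendsto g l (𝓝 (Je R α c e ξ x₀ D₀)))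
    (hJ : ∀ᶠ i in l, Je R α c e ξ (x i) (D i) ≤ g i) :
    Tendsto x l (𝓝 x₀) ∧ ∀ t ∈ Ico (0 : ℝ) 1, Tendsto (fun i => D i t) l (𝓝 (D₀ t)) := by
  rw [← J_eq R ξ x₀ h₀.2.1] at hg
  refine LimMin_952.tendsto_minPair (fr R) ξ hα hc he hK (h₀.toFrame he) hne hx
    (hD.mono fun i hi => ad_of_adm hi) hg ?_
  filter_upwards [hD, hJ] with i h1 h2
  rw [J_eq R ξ (x i) h1]; exact h2

/-- the operators converge strongly along pointwise convergent admissible profiles -/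
theorem Dop_tendsto_of (R : Res H) {e : ℝ} {ι : Type*} {l : Filter ι} {x : ι → H} {x₀ : H}
    (hx : Tendsto x l (𝓝 x₀)) {D : ι → ℝ → ℝ} (hD : ∀ᶠ i in l, Adm e (D i)) {D₀ : ℝ → ℝ}
    (h₀ : Prof D₀) (hlim : ∀ t ∈ Ico (0 : ℝ) 1, Tendsto (fun i => D i t) l (𝓝 (D₀ t))) :
    Tendsto (fun i => R.Dop (D i) (x i)) l (𝓝 (R.Dop D₀ x₀)) := by
  have hA₀ := isAnti_of h₀.anti h₀.one
  have hTD : ∀ {D : ℝ → ℝ}, ContinuousOn D (Icc 0 1) → AntitoneOn D (Icc 0 1) → 0 ≤ D 1 →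
      ∀ y, LimForm_952.T (fr R) D y = R.Dop D y := by
    intro D hc ha h1 y
    symm
    refine LimForm_952.T_unique (fr R) (isAnti_of ha h1) fun z => ?_
    unfold LimFrame_952.B
    rw [← Q_eq R hc ha h1, ← Q_eq R hc ha h1, R.Q_add_vec hc]
    have e1 : R.Q D (y - z) = R.Q D y - 2 * ⟪z, R.Dop D y⟫ + R.Q D z := by
      rw [sub_eq_add_neg, ← neg_one_smul ℝ z, R.Q_add_vec hc, R.Q_smul_vec,
        real_inner_smul_left]
      ring
    rw [e1, real_inner_comm]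
    ring
  have := LimForm_952.tendsto_T (fr R) hlim
    (hD.mono fun i hi => isAnti_of hi.prof.anti hi.prof.one) hA₀
    (h₀.cont.mono Ico_subset_Icc_self) hx
  rw [hTD h₀.cont h₀.anti h₀.one] at this
  refine this.congr' ?_
  filter_upwards [hD] with i hi
  exact hTD hi.prof.cont hi.prof.anti hi.prof.one _

end Crest.Agent.R146.MinC_952
end

-- ▼ part R146/MinW_952
section

/-!
Package P5 (row 146): the nodes `MINB` and `MIN0` of `P5Def_12`, from node C (`MinC_952`).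
-/

set_option autoImplicit false

namespace Crest.Agent.R146.MinW_952

open Set
open Crest.Agent.R146.Hilb Crest.Agent.R146.ProfB_540 Crest.Agent.R146.HilbE
open Crest.Agent.R146.P34_734 Crest.Agent.R146.DualG_256
open Crest.Agent.R146.P5A_12 Crest.Agent.R146.P5Def_12 Crest.Agent.R146.MinC_952

lemma convex_KW (W : BS) : Convex ℝ (KW W) := by
  intro x hx y hy a b ha hb _
  exact KB_add W.meas _ (KB_smul W.meas a ha x hx) _ (KB_smul W.meas b hb y hy)

lemma isMinW_iff (W : BS) {α c e : ℝ} {x : HW W} {D : ℝ → ℝ} :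
    IsMinW W α c e x D ↔ IsMinPair (RW W) α c e (xiW W) (KW W) x D :=
  ⟨fun h => ⟨h.mem, h.adm, h.le⟩, fun h => ⟨h.1, h.2.1, h.2.2⟩⟩

theorem minB (W : BS) : MINB W := by
  intro α b hα hb
  obtain ⟨x, D, h⟩ := exists_minPair_pos (RW W) hα (c := 1) one_pos (e := 1 / b) (by positivity)
    (xiW W) (convex_KW W) (KB_closed W.P W.B W.meas) ⟨0, KB_zero W.meas⟩
  exact ⟨x, D, (isMinW_iff W).2 h⟩

/-- at zero temperature the minimiser exists and is nonzero -/
theorem min0_ne (W : BS) (α : ℝ) (hα : 0 < α) (h : ¬ JamNN (RW W) (KW W) (xiW W) α) :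
    ∃ x D, x ≠ 0 ∧ IsMinW W α 1 0 x D := by
  obtain ⟨x, D, hx, h⟩ := exists_minPair_zero (RW W) hα (c := 1) one_pos (xiW W) (convex_KW W)
    (KB_closed W.P W.B W.meas)
    (exists_neg (RW W) (fun s hs x hx => KB_smul W.meas s hs.le x hx) h)
  exact ⟨x, D, hx, (isMinW_iff W).2 h⟩

theorem min0 (W : BS) : MIN0 W := by
  intro α hα h
  obtain ⟨x, D, -, h⟩ := min0_ne W α hα h
  exact ⟨x, D, h⟩

end Crest.Agent.R146.MinW_952
end

-- ▼ part R146/ELim_12
section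

/-!
Package P5 (row 146), node E complete (helper12): `elim : ELIM W`.

`elim_H` (abstract frame): minimisers at `b` (scaled) converge to the zero temperature minimiser:
`x b → x0`, `D b + 1/b → D0` pointwise on `[0,1)`, `Dop (D b) (x b) → Dop D0 x0`.
-/

set_option autoImplicit false

namespace Crest.Agent.R146.ELim_12

open Set Filter Topology
open Crest.Agent.R146.Hilb Crest.Agent.R146.ProfB_540 Crest.Agent.R146.HilbE
open Crest.Agent.R146.P34_734 Crest.Agent.R146.DualG_256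
open Crest.Agent.R146.P5A_12 Crest.Agent.R146.P5Def_12 Crest.Agent.R146.MinC_952
open scoped RealInnerProductSpace

section Abstract

variable {H : Type*} [NormedAddCommGroup H] [InnerProductSpace ℝ H] [CompleteSpace H]

/-- **Node E** -/
theorem elim_H (R : Res H) {α : ℝ} (hα : 0 < α) (ξ : H) {K : Set H} (hK : Convex ℝ K)
    (h0K : (0 : H) ∈ K) {x0 : H} {D0 : ℝ → ℝ} (h0 : IsMinPair R α 1 0 ξ K x0 D0) (hne : x0 ≠ 0)
    {x : ℝ → H} {D : ℝ → ℝ → ℝ} (hx : ∀ b, 0 < b → IsMinPair R α 1 (1 / b) ξ K (x b) (D b)) :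
    Tendsto x atTop (𝓝 x0) ∧
      (∀ t ∈ Ico (0 : ℝ) 1, Tendsto (fun b => D b t + 1 / b) atTop (𝓝 (D0 t))) ∧
      Tendsto (fun b => R.Dop (D b) (x b)) atTop (𝓝 (R.Dop D0 x0)) := by
  have hev : ∀ᶠ b : ℝ in atTop, 1 ≤ b := eventually_ge_atTop 1
  have hinv : Tendsto (fun b : ℝ => 1 / b) atTop (𝓝[>] 0) := by
    simpa using tendsto_inv_atTop_nhdsGT_zero (𝕜 := ℝ)
  have hnear : ∀ b : ℝ, 1 ≤ b → Adm 0 (fun t => D b t + 1 / b) ∧
      Je R α 1 0 ξ (x b) (fun t => D b t + 1 / b) ≤ Je R α 1 0 ξ x0 D0 + errE α ‖ξ‖ (1 / b) := by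
    intro b hb
    have hb0 : 0 < b := by linarith
    have hmin := hx b hb0
    obtain ⟨-, h1, h2⟩ := near_min R hα (e := 1 / b) (by positivity)
      (by rw [div_le_iff₀ hb0]; linarith) h0K ξ (x b) hmin.2.1 hmin.2.2
    exact ⟨h1, h2 x0 h0.1 D0 h0.2.1⟩
  have hadm : ∀ᶠ b : ℝ in atTop, Adm 0 (fun t => D b t + 1 / b) :=
    hev.mono fun b hb => (hnear b hb).1
  have hg : Tendsto (fun b : ℝ => Je R α 1 0 ξ x0 D0 + errE α ‖ξ‖ (1 / b)) atTop
      (𝓝 (Je R α 1 0 ξ x0 D0)) := by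
    have := ((errE_tendsto α ‖ξ‖).comp hinv).const_add (Je R α 1 0 ξ x0 D0)
    simpa using this
  obtain ⟨h1, h2⟩ := tendsto_minPair R hα one_pos le_rfl ξ hK h0 (fun _ => hne)
    (x := x) (D := fun b t => D b t + 1 / b)
    (hev.mono fun b hb => (hx b (by linarith)).1) hadm hg (hev.mono fun b hb => (hnear b hb).2)
  refine ⟨h1, h2, ?_⟩
  have h3 := Dop_tendsto_of R (e := 0) h1 hadm h0.2.1.prof h2
  have h4 : Tendsto (fun b : ℝ => (1 / b) • x b) atTop (𝓝 ((0 : ℝ) • x0)) :=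
    (hinv.mono_right nhdsWithin_le_nhds).smul h1
  rw [zero_smul] at h4
  have h5 := h3.sub h4
  rw [sub_zero] at h5
  refine h5.congr' ?_
  filter_upwards [hev] with b hb
  have hc := (hx b (by linarith)).2.1.prof.cont
  have e1 : R.Dop (fun t => D b t + 1 / b) (x b) =
      R.Dop (D b) (x b) + R.Dop (fun _ => 1 / b) (x b) := by
    rw [R.Dop_add hc continuousOn_const]; rfl
  rw [e1, R.Dop_const]
  simp

end Abstract

/-- **(ELIM)** -/
theorem elim (W : BS) : ELIM W := by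
  intro α hα hn x D hx x0 D0 h0
  have hne : x0 ≠ 0 := P5Fin_12.min_ne_zero W hα le_rfl hn h0
  have h := (elim_H (RW W) hα (xiW W) (MinW_952.convex_KW W) (KB_zero W.meas)
    ((MinW_952.isMinW_iff W).1 h0) hne
    (fun b hb => (MinW_952.isMinW_iff W).1 (hx b hb))).2.2
  exact h.const_add (xiW W)

end Crest.Agent.R146.ELim_12
end

-- ▼ part R146/Chk05_288
section

/-!
Row 146 (helper288, PM-B): EDGE CHECK of S0205: the literal statement from the nodes that are still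
open: S6 (= S0206), LOCCORE, EML0 + EMW + LIPZ (all three from `LipC_861`), EXPO, TIPW.
-/

set_option autoImplicit false

namespace Crest.Agent.R146.Chk05_288

open MeasureTheory ProbabilityTheory Filter Crest.ProbabilityR.Perceptron
open Crest.Agent.R146.P34_734 Crest.Agent.R146.P5Def_12 Crest.Agent.R146.S0205Asm_12
open scoped Topology

theorem nodes (W : BS) (hEML0 : FLim_491.EML0 W) (hEMW : LevF_4.EMW W) (hLIPZ : LIPZ W)
    (hTIP : TIPW W) (hEXPO : EXPO W) : Nodes W where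
  minb := MinW_952.minB W
  min0 := MinW_952.min0 W
  elim := ELim_12.elim W
  flim := FLim_491.flim W hEML0
  lipz := hLIPZ
  tipw := hTIP
  levc := LevF_4.levc hEMW
  levd := LevF_4.levd hEMW
  linkm := P5Lk_288.linkm W
  linkz := P5Lk_288.linkz W
  expo := hEXPO

theorem s0205_open (W : BS) (h6 : S6 W) (hCore : LocCore_508.LOCCORE) (hEML0 : FLim_491.EML0 W)
    (hEMW : LevF_4.EMW W) (hLIPZ : LIPZ W) (hTIP : TIPW W) (hEXPO : EXPO W)
    (αc : ℝ) (hαc : 0 < αc)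
    (hlow : ∀ α : ℝ, 0 < α → α < αc →
      Filter.Tendsto (fun N : ℕ => satProb N α) Filter.atTop (nhds 1))
    (hhigh : ∀ α : ℝ, αc < α →
      Filter.Tendsto (fun N : ℕ => satProb N α) Filter.atTop (nhds 0)) :
    ∃ ε₀ : ℝ, 0 < ε₀ ∧ ε₀ < 1 ∧ ∃ G F : ℝ → ℝ,
      (∀ ε : ℝ, 0 ≤ ε → ε < ε₀ →
        (∀ u : ℝ, 0 < u → ∃ g : ℝ → ℝ,
          (∀ δ : ℝ, 0 < δ → δ < u →
            HasOrderedLimit (fun N β α => gapMean N β α ε δ u) αc (g δ)) ∧
          Filter.Tendsto g (nhdsWithin 0 (Set.Ioi 0)) (nhds (G u))) ∧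
        (∀ s : ℝ, 0 < s → HasOrderedLimit (fun N β α => forceMean N β α ε s) αc (F s))) ∧
      (∃ P : MeasureTheory.Measure ℝ, MeasureTheory.IsProbabilityMeasure P ∧
        P (Set.Iic 0) = 0 ∧ ∫ x, x ∂P = 1 ∧
        ∀ s : ℝ, 0 < s → F s = (P (Set.Iic s)).toReal) ∧
      ∃ γ θ : ℝ, γ = 1 / (2 + θ) ∧ 0.4126930 < γ ∧ γ < 0.4126934 ∧
        0.4231063 < θ ∧ θ < 0.4231088 ∧
        Filter.Tendsto (fun u : ℝ => Real.log (G u) / Real.log u)
          (nhdsWithin 0 (Set.Ioi 0)) (nhds (1 - γ)) ∧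
        Filter.Tendsto (fun s : ℝ => Real.log (F s) / Real.log s)
          (nhdsWithin 0 (Set.Ioi 0)) (nhds (1 + θ)) :=
  s0205_of (nodes W hEML0 hEMW hLIPZ hTIP hEXPO) (VCc_468.vconc W) (VTr_468.vzero W)
    (Chk34_288.gub W h6) (Chk34_288.lindlb W h6) (LocUb_393.locub_of hCore W) P34a_323.cap P34a_323.concm P34a_323.markov
    P34Big_840.kern P34Big_840.mix0 P34a_323.pint αc hαc hlow hhigh

/-- the same with node LIP discharged: open are S6, LOCCORE, TIPW, EXPO. -/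
theorem s0205_open4 (W : BS) (h6 : S6 W) (hCore : LocCore_508.LOCCORE) (hTIP : TIPW W)
    (hEXPO : EXPO W) (αc : ℝ) (hαc : 0 < αc)
    (hlow : ∀ α : ℝ, 0 < α → α < αc →
      Filter.Tendsto (fun N : ℕ => satProb N α) Filter.atTop (nhds 1))
    (hhigh : ∀ α : ℝ, αc < α →
      Filter.Tendsto (fun N : ℕ => satProb N α) Filter.atTop (nhds 0)) :
    ∃ ε₀ : ℝ, 0 < ε₀ ∧ ε₀ < 1 ∧ ∃ G F : ℝ → ℝ,
      (∀ ε : ℝ, 0 ≤ ε → ε < ε₀ →
        (∀ u : ℝ, 0 < u → ∃ g : ℝ → ℝ,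
          (∀ δ : ℝ, 0 < δ → δ < u →
            HasOrderedLimit (fun N β α => gapMean N β α ε δ u) αc (g δ)) ∧
          Filter.Tendsto g (nhdsWithin 0 (Set.Ioi 0)) (nhds (G u))) ∧
        (∀ s : ℝ, 0 < s → HasOrderedLimit (fun N β α => forceMean N β α ε s) αc (F s))) ∧
      (∃ P : MeasureTheory.Measure ℝ, MeasureTheory.IsProbabilityMeasure P ∧
        P (Set.Iic 0) = 0 ∧ ∫ x, x ∂P = 1 ∧
        ∀ s : ℝ, 0 < s → F s = (P (Set.Iic s)).toReal) ∧
      ∃ γ θ : ℝ, γ = 1 / (2 + θ) ∧ 0.4126930 < γ ∧ γ < 0.4126934 ∧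
        0.4231063 < θ ∧ θ < 0.4231088 ∧
        Filter.Tendsto (fun u : ℝ => Real.log (G u) / Real.log u)
          (nhdsWithin 0 (Set.Ioi 0)) (nhds (1 - γ)) ∧
        Filter.Tendsto (fun s : ℝ => Real.log (F s) / Real.log s)
          (nhdsWithin 0 (Set.Ioi 0)) (nhds (1 + θ)) :=
  s0205_open W h6 hCore (Emg_288.eml0 W) (Emg_288.emw W) (LipG_861.lipz W) hTIP hEXPO αc hαc
    hlow hhigh

end Crest.Agent.R146.Chk05_288
end

-- ▼ part R146/NoGapX_649
section

/-!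
Row 146, PT, no-gap lemma (helper649): the `x`-space layer of the Hamilton-Jacobi certificate.

At a fixed time, `I = P_x² + 6b(1-2V)P² + 6b²V²(1-V)²` and, for a Hamilton-Jacobi subsolution
`G(v,k)`: `G_v + G_k²/(4k) ≤ (6-12v)k + 6(v(1-v))²/k`, the function `g = b^{3/2} G(V, P/√b)` satisfies
`g' ≤ I` along `x`.  Consequence for a law `p` with `p' = -Yp`:
`∫ p I ≥ q(x2) φ - p(x0) η - 6b(1-e^{-d}) ∫_{x0}^{x2} p P² - 6b ∫_{x > x2} p P²`.
-/

set_option autoImplicit false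

namespace Crest.Agent.R146.NoGapX_649

open MeasureTheory Set
open scoped Interval

noncomputable section

/-! ### The Hamilton-Jacobi step -/

/-- the integrand of the no-gap functional -/
def II (b : ℝ) (V P Px : ℝ → ℝ) (x : ℝ) : ℝ :=
  Px x ^ 2 + 6 * b * (1 - 2 * V x) * P x ^ 2 + 6 * b ^ 2 * V x ^ 2 * (1 - V x) ^ 2

theorem II_continuous {b : ℝ} {V P Px : ℝ → ℝ} (hV : Continuous V) (hP : Continuous P)
    (hPx : Continuous Px) : Continuous (II b V P Px) := by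
  unfold II
  fun_prop

theorem II_nonneg {b : ℝ} {V P Px : ℝ → ℝ} (hb : 0 ≤ b) {x : ℝ} (h : V x ≤ 1 / 2) :
    0 ≤ II b V P Px x := by
  unfold II
  have h1 : 0 ≤ 1 - 2 * V x := by linarith
  positivity

theorem neg_le_II {b : ℝ} {V P Px : ℝ → ℝ} (hb : 0 ≤ b) {x : ℝ} (h : V x ≤ 1) :
    -(6 * b * P x ^ 2) ≤ II b V P Px x := by
  unfold II
  have h1 : 0 ≤ 6 * b * (2 - 2 * V x) * P x ^ 2 := by
    have : 0 ≤ 2 - 2 * V x := by linarith
    positivity
  have h2 : 0 ≤ 6 * b ^ 2 * V x ^ 2 * (1 - V x) ^ 2 := by positivity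
  nlinarith [sq_nonneg (Px x)]








/-! ### From the partial integrals to the law -/

section law

variable {I p Y : ℝ → ℝ}

/-- negative part of `Y` -/
def Yn (Y : ℝ → ℝ) (x : ℝ) : ℝ := max (-Y x) 0

theorem Yn_continuous (hY : Continuous Y) : Continuous (Yn Y) := by
  unfold Yn
  fun_prop

theorem Yn_nonneg (x : ℝ) : 0 ≤ Yn Y x := le_max_right _ _

/-- the nonincreasing modification of `p` on `[x0, ∞)` -/
def ph (p Y : ℝ → ℝ) (x0 x : ℝ) : ℝ := p x * Real.exp (-∫ z in x0..x, Yn Y z)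

theorem ph_deriv (hY : Continuous Y) (hp : ∀ x, HasDerivAt p (-Y x * p x) x) (x0 x : ℝ) :
    HasDerivAt (ph p Y x0) (-(max (Y x) 0 * ph p Y x0 x)) x := by
  have h1 : HasDerivAt (fun y => ∫ z in x0..y, Yn Y z) (Yn Y x) x :=
    intervalIntegral.integral_hasDerivAt_right ((Yn_continuous hY).intervalIntegrable _ _)
      ((Yn_continuous hY).stronglyMeasurableAtFilter _ _) (Yn_continuous hY).continuousAt
  have h2 : HasDerivAt (ph p Y x0) (-Y x * p x * Real.exp (-∫ z in x0..x, Yn Y z) +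
      p x * (Real.exp (-∫ z in x0..x, Yn Y z) * -Yn Y x)) x := (hp x).mul (h1.neg.exp)
  refine h2.congr_deriv ?_
  unfold ph
  have h3 : max (Y x) 0 = Y x + Yn Y x := by
    unfold Yn
    rcases le_total (Y x) 0 with h | h
    · rw [max_eq_right h, max_eq_left (by linarith)]; ring
    · rw [max_eq_left h, max_eq_right (by linarith)]; ring
  rw [h3]
  ring

theorem ph_pos (hpp : ∀ x, 0 < p x) (x0 x : ℝ) : 0 < ph p Y x0 x :=
  mul_pos (hpp x) (Real.exp_pos _)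

theorem ph_self (x0 : ℝ) : ph p Y x0 x0 = p x0 := by
  unfold ph
  simp

theorem ph_le (hpp : ∀ x, 0 < p x) {x0 x : ℝ} (h : x0 ≤ x) :
    ph p Y x0 x ≤ p x := by
  unfold ph
  have h1 : 0 ≤ ∫ z in x0..x, Yn Y z := intervalIntegral.integral_nonneg h fun z _ => Yn_nonneg z
  have h2 : Real.exp (-∫ z in x0..x, Yn Y z) ≤ 1 := Real.exp_le_one_iff.2 (by linarith)
  have := mul_le_mul_of_nonneg_left h2 (hpp x).le
  linarith

theorem le_ph (hY : Continuous Y) (hpp : ∀ x, 0 < p x) {x0 x x2 d : ℝ} (h' : x ≤ x2)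
    (hd : ∫ z in x0..x2, Yn Y z ≤ d) : p x * Real.exp (-d) ≤ ph p Y x0 x := by
  unfold ph
  refine mul_le_mul_of_nonneg_left (Real.exp_le_exp.2 ?_) (hpp x).le
  have h1 : ∫ z in x0..x, Yn Y z ≤ ∫ z in x0..x2, Yn Y z := by
    rw [← intervalIntegral.integral_add_adjacent_intervals
      ((Yn_continuous hY).intervalIntegrable x0 x) ((Yn_continuous hY).intervalIntegrable x x2)]
    have : 0 ≤ ∫ z in x..x2, Yn Y z :=
      intervalIntegral.integral_nonneg h' fun z _ => Yn_nonneg (Y := Y) z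
    linarith
  linarith

/-- summation by parts against the nonincreasing modification. -/
theorem by_parts (hI : Continuous I) (hY : Continuous Y)
    (hp : ∀ x, HasDerivAt p (-Y x * p x) x) (hpp : ∀ x, 0 < p x) {x0 x2 η φ : ℝ} (h02 : x0 ≤ x2)
    (h1 : ∀ x ∈ Icc x0 x2, -η ≤ ∫ z in x0..x, I z) (h2 : φ - η ≤ ∫ z in x0..x2, I z) :
    ph p Y x0 x2 * φ - p x0 * η ≤ ∫ x in x0..x2, ph p Y x0 x * I x := by
  set F : ℝ → ℝ := fun x => ∫ z in x0..x, I z with hF
  have hFd : ∀ x, HasDerivAt F (I x) x := fun x =>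
    intervalIntegral.integral_hasDerivAt_right (hI.intervalIntegrable _ _)
      (hI.stronglyMeasurableAtFilter _ _) hI.continuousAt
  have hFc : Continuous F := continuous_iff_continuousAt.2 fun x => (hFd x).continuousAt
  have hqd := ph_deriv hY hp x0
  have hqc : Continuous (ph p Y x0) := continuous_iff_continuousAt.2 fun x => (hqd x).continuousAt
  have hqc' : Continuous fun x => -(max (Y x) 0 * ph p Y x0 x) := by fun_prop
  have e1 := intervalIntegral.integral_mul_deriv_eq_deriv_mul (a := x0) (b := x2)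
    (fun x _ => hqd x) (fun x _ => hFd x) (hqc'.intervalIntegrable _ _)
    (hI.intervalIntegrable _ _)
  have hF0 : F x0 = 0 := by simp [hF]
  rw [hF0, mul_zero, sub_zero] at e1
  rw [e1]
  have h3 : ∫ x in x0..x2, -(max (Y x) 0 * ph p Y x0 x) * F x ≤
      ∫ x in x0..x2, (max (Y x) 0 * ph p Y x0 x) * η := by
    refine intervalIntegral.integral_mono_on h02 ((hqc'.mul hFc).intervalIntegrable _ _) ?_ ?_
    · exact Continuous.intervalIntegrable (by fun_prop) _ _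
    · intro x hx
      have h4 : 0 ≤ max (Y x) 0 * ph p Y x0 x :=
        mul_nonneg (le_max_right _ _) (ph_pos hpp x0 x).le
      have h5 := mul_le_mul_of_nonneg_left (h1 x hx) h4
      have h6 : ∫ z in x0..x, I z = F x := rfl
      rw [h6] at h5
      linarith
  have h4 : ∫ x in x0..x2, (max (Y x) 0 * ph p Y x0 x) * η =
      (p x0 - ph p Y x0 x2) * η := by
    rw [intervalIntegral.integral_mul_const]
    congr 1
    have h5 := intervalIntegral.integral_eq_sub_of_hasDerivAt (a := x0) (b := x2)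
      (fun x _ => hqd x) (hqc'.intervalIntegrable _ _)
    rw [intervalIntegral.integral_neg, ph_self] at h5
    linarith
  have h7 : ph p Y x0 x2 * (φ - η) ≤ ph p Y x0 x2 * F x2 :=
    mul_le_mul_of_nonneg_left h2 (ph_pos hpp x0 x2).le
  rw [h4] at h3
  nlinarith [h3, h7]

/-- **(iii)** lower bound of the weighted integral of `I`. -/
theorem int_ge (hI : Continuous I) (hY : Continuous Y)
    (hp : ∀ x, HasDerivAt p (-Y x * p x) x) (hpp : ∀ x, 0 < p x) {x0 x2 η φ d : ℝ}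
    (h02 : x0 ≤ x2) (h1 : ∀ x ∈ Icc x0 x2, -η ≤ ∫ z in x0..x, I z)
    (h2 : φ - η ≤ ∫ z in x0..x2, I z) (hφ : 0 ≤ φ) {Nf : ℝ → ℝ} (hNc : Continuous Nf)
    (hN0 : ∀ x, 0 ≤ Nf x) (hN : ∀ x, -Nf x ≤ I x) (hI0 : ∀ x ≤ x0, 0 ≤ I x)
    (hd : ∫ z in x0..x2, Yn Y z ≤ d)
    (hpI : Integrable fun x => p x * I x) (hpN : Integrable fun x => p x * Nf x) :
    p x2 * Real.exp (-d) * φ - p x0 * η - (1 - Real.exp (-d)) * (∫ x in x0..x2, p x * Nf x) -
      (∫ x in Ioi x2, p x * Nf x) ≤ ∫ x, p x * I x := by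
  have hpc : Continuous p := continuous_iff_continuousAt.2 fun x => (hp x).continuousAt
  have hqc : Continuous (ph p Y x0) :=
    continuous_iff_continuousAt.2 fun x => (ph_deriv hY hp x0 x).continuousAt
  -- splitting
  have s1 : ∫ x, p x * I x = (∫ x in Iic x0, p x * I x) + ∫ x in Ioi x0, p x * I x :=
    (intervalIntegral.integral_Iic_add_Ioi hpI.integrableOn hpI.integrableOn).symm
  have s2 : ∫ x in Ioi x0, p x * I x = (∫ x in x0..x2, p x * I x) + ∫ x in Ioi x2, p x * I x := by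
    rw [intervalIntegral.integral_of_le h02, ← setIntegral_union (Ioc_disjoint_Ioi le_rfl)
      measurableSet_Ioi hpI.integrableOn hpI.integrableOn, Ioc_union_Ioi_eq_Ioi h02]
  have s3 : 0 ≤ ∫ x in Iic x0, p x * I x :=
    setIntegral_nonneg measurableSet_Iic fun x hx => mul_nonneg (hpp x).le (hI0 x hx)
  have s4 : -∫ x in Ioi x2, p x * Nf x ≤ ∫ x in Ioi x2, p x * I x := by
    rw [← integral_neg]
    refine setIntegral_mono_on hpN.neg.integrableOn hpI.integrableOn measurableSet_Ioi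
      fun x _ => ?_
    have := mul_le_mul_of_nonneg_left (hN x) (hpp x).le
    linarith
  have s5 := by_parts hI hY hp hpp h02 h1 h2
  have s6 : (∫ x in x0..x2, ph p Y x0 x * I x) - (1 - Real.exp (-d)) * ∫ x in x0..x2, p x * Nf x ≤
      ∫ x in x0..x2, p x * I x := by
    have c1 : Continuous fun x => ph p Y x0 x * I x := hqc.mul hI
    have c2 : Continuous fun x => (1 - Real.exp (-d)) * (p x * Nf x) :=
      continuous_const.mul (hpc.mul hNc)
    have c3 : Continuous fun x => p x * I x := hpc.mul hI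
    rw [← intervalIntegral.integral_const_mul, ← intervalIntegral.integral_sub
      (c1.intervalIntegrable _ _) (c2.intervalIntegrable _ _)]
    refine intervalIntegral.integral_mono_on h02 ((c1.sub c2).intervalIntegrable _ _)
      (c3.intervalIntegrable _ _) fun x hx => ?_
    have t1 := le_ph hY hpp hx.2 hd
    have t2 := ph_le (Y := Y) hpp hx.1
    have t3 := mul_le_mul_of_nonneg_left (hN x) (sub_nonneg.2 t2)
    have t4 : (p x - ph p Y x0 x) * Nf x ≤ (p x * (1 - Real.exp (-d))) * Nf x :=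
      mul_le_mul_of_nonneg_right (by linarith) (hN0 x)
    nlinarith [t3, t4]
  have s7 : p x2 * Real.exp (-d) * φ ≤ ph p Y x0 x2 * φ :=
    mul_le_mul_of_nonneg_right (le_ph hY hpp le_rfl hd) hφ
  rw [s1, s2]
  linarith

end law

/-! ### The step system -/

open Crest.Agent.R146.StepDef_791 Crest.Agent.R146.MaxPCmp_371 Crest.Agent.R146.MaxPCmp2_371

section step

variable {A : SD} {x0 : ℝ} {p Y Yx Yxx : ℝ → ℝ → ℝ}

theorem Ls_eq {t : ℝ} (ht : 0 < t) :
    Ls A x0 p t = ∫ x, p t x * II (A.b t) (A.V t) (A.P t) (A.Px t) x := by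
  unfold Ls ex
  rw [if_neg (not_le.2 ht)]
  rfl

/-- continuity in `x` and the standard facts at a fixed time -/
theorem facts (hB : Back A) {t : ℝ} (ht : t ∈ Icc 0 A.T) :
    Continuous (A.V t) ∧ Continuous (A.P t) ∧ Continuous (A.Px t) := by
  refine ⟨continuous_iff_continuousAt.2 fun x => (hB.V_x t ht x).continuousAt,
    continuous_iff_continuousAt.2 fun x => (hB.P_x t ht x).continuousAt,
    continuous_iff_continuousAt.2 fun x => (hB.Px_x t ht x).continuousAt⟩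

theorem Y_continuous (hL : Law A x0 p Y Yx Yxx) {t : ℝ} (ht : t ∈ Ioc 0 A.T) :
    Continuous (Y t) := by
  obtain ⟨M, hM⟩ := hL.ysys (t / 2) ⟨by linarith [ht.1], by linarith [ht.1, ht.2]⟩
  exact continuous_iff_continuousAt.2 fun x =>
    (hM.hYx t ⟨by linarith [ht.1], ht.2⟩ x).continuousAt

theorem integrable_p (hL : Law A x0 p Y Yx Yxx) {t : ℝ} (ht : t ∈ Ioc 0 A.T) {f : ℝ → ℝ}
    (hf : Continuous f) {C : ℝ} {n : ℕ} (hb : ∀ x, |f x| ≤ C * (1 + |x|) ^ n) :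
    Integrable fun x => p t x * f x := by
  obtain ⟨C', hC'⟩ := hL.mom n
  have h1 := (hC' t ht).1
  have hpc : Continuous (p t) :=
    continuous_iff_continuousAt.2 fun x => (hL.p_x t ht x).continuousAt
  refine (h1.const_mul C).mono' (hpc.mul hf).aestronglyMeasurable (ae_of_all _ fun x => ?_)
  rw [Real.norm_eq_abs, abs_mul, abs_of_pos (hL.p_pos t ht x)]
  have := mul_le_mul_of_nonneg_left (hb x) (hL.p_pos t ht x).le
  linarith

theorem II_growth (hB : Back A) : ∃ C : ℝ, ∃ n : ℕ, 0 ≤ C ∧ ∀ t ∈ Icc 0 A.T, ∀ x,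
    |II (A.b t) (A.V t) (A.P t) (A.Px t) x| ≤ C * (1 + |x|) ^ n ∧
      6 * A.b t * A.P t x ^ 2 ≤ C * (1 + |x|) ^ n := by
  obtain ⟨M, hM⟩ := hB.bsys
  obtain ⟨C, n, hC, hg⟩ := hB.growth
  set M1 := max M 0 with hM1
  have hM10 : 0 ≤ M1 := le_max_right _ _
  refine ⟨C ^ 2 + 6 * M1 * M1 ^ 2 + 6 * M1 ^ 2, 2 * n, by positivity, fun t ht x => ?_⟩
  have hb0 := hM.b_nonneg t ht
  have hb1 : A.b t ≤ M1 := (hM.b_le t ht).trans (le_max_left _ _)
  have hV0 := (hM.V_pos t ht x).le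
  have hV1 := (hM.V_lt t ht x).le
  have hP0 := hM.P_nonneg t ht x
  have hP1 : A.P t x ≤ M1 := (hM.P_le t ht x).trans (le_max_left _ _)
  have hx1 : (1 : ℝ) ≤ (1 + |x|) ^ (2 * n) := one_le_pow₀ (by linarith [abs_nonneg x])
  have hPx : A.Px t x ^ 2 ≤ C ^ 2 * (1 + |x|) ^ (2 * n) := by
    rw [pow_mul', ← mul_pow, ← sq_abs]
    exact pow_le_pow_left₀ (abs_nonneg _) (hg t ht x).2.1 2
  have hbP : A.b t * A.P t x ^ 2 ≤ M1 * M1 ^ 2 :=
    mul_le_mul hb1 (pow_le_pow_left₀ hP0 hP1 2) (sq_nonneg _) hM10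
  have hb2 : A.b t ^ 2 ≤ M1 ^ 2 := pow_le_pow_left₀ hb0 hb1 2
  have hVV : A.V t x ^ 2 * (1 - A.V t x) ^ 2 ≤ 1 := by
    have h1 : A.V t x ^ 2 ≤ 1 := pow_le_one₀ hV0 hV1
    have h2 : (1 - A.V t x) ^ 2 ≤ 1 := pow_le_one₀ (by linarith) (by linarith)
    exact mul_le_one₀ h1 (sq_nonneg _) h2
  have hT : A.b t ^ 2 * (A.V t x ^ 2 * (1 - A.V t x) ^ 2) ≤ M1 ^ 2 * 1 :=
    mul_le_mul hb2 hVV (by positivity) (by positivity)
  have hM13 : 0 ≤ M1 * M1 ^ 2 := by positivity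
  have hM12 : 0 ≤ M1 ^ 2 := by positivity
  have k1 : (6 * M1 * M1 ^ 2 + 6 * M1 ^ 2) ≤
      (6 * M1 * M1 ^ 2 + 6 * M1 ^ 2) * (1 + |x|) ^ (2 * n) :=
    le_mul_of_one_le_right (by positivity) hx1
  have k2 : 0 ≤ C ^ 2 * (1 + |x|) ^ (2 * n) := by positivity
  constructor
  · unfold II
    rw [abs_le]
    have hbP0 : 0 ≤ A.b t * A.P t x ^ 2 := by positivity
    have hmid1 : 6 * A.b t * (1 - 2 * A.V t x) * A.P t x ^ 2 ≤ 6 * (M1 * M1 ^ 2) := by
      have : (1 - 2 * A.V t x) * (A.b t * A.P t x ^ 2) ≤ 1 * (A.b t * A.P t x ^ 2) :=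
        mul_le_mul_of_nonneg_right (by linarith) hbP0
      nlinarith
    have hmid2 : -(6 * (M1 * M1 ^ 2)) ≤ 6 * A.b t * (1 - 2 * A.V t x) * A.P t x ^ 2 := by
      have : (-1) * (A.b t * A.P t x ^ 2) ≤ (1 - 2 * A.V t x) * (A.b t * A.P t x ^ 2) :=
        mul_le_mul_of_nonneg_right (by linarith) hbP0
      nlinarith
    have hlast : 0 ≤ A.b t ^ 2 * (A.V t x ^ 2 * (1 - A.V t x) ^ 2) := by positivity
    constructor
    · nlinarith [sq_nonneg (A.Px t x)]
    · nlinarith [hPx]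
  · nlinarith



end step

end

end Crest.Agent.R146.NoGapX_649
namespace Crest.Agent.R146.NoGapX_649.Chain
end Crest.Agent.R146.NoGapX_649.Chain
end

-- ▼ part R146/NoGapL_546
section

/-!
Row 146, PT, no-gap lemma (helper546), node N3: from the partial integrals of the no-gap integrand to
the positivity of `Ls`, without any Harnack inequality.

`q = p exp(-∫_{xa} Y⁻)` is nonincreasing; if `A(x) = ∫_{xa}^x I` is `≥ 0` up to `xh` and `≥ c` beyond,
then `∫ p I ≥ q(xh) (c - ∫_{xh}^∞ (e^{∫_{xa} Y⁻} - 1) N)`, `N ≥ I⁻`.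
-/

set_option autoImplicit false

namespace Crest.Agent.R146.NoGapL_546

open MeasureTheory Set Filter Topology
open scoped Interval
open Crest.Agent.R146.NoGapX_649

noncomputable section

section law

variable {I p Y N : ℝ → ℝ}

theorem by_parts2 (hI : Continuous I) (hY : Continuous Y)
    (hp : ∀ x, HasDerivAt p (-Y x * p x) x) (hpp : ∀ x, 0 < p x) {xa xh R c : ℝ}
    (hah : xa ≤ xh) (hR : xh ≤ R) (hI0 : ∀ x ∈ Icc xa xh, 0 ≤ I x)
    (hA : ∀ x ∈ Icc xh R, c ≤ ∫ z in xa..x, I z) :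
    ph p Y xa xh * c ≤ ∫ x in xa..R, ph p Y xa x * I x := by
  set F : ℝ → ℝ := fun x => ∫ z in xa..x, I z with hF
  have hFd : ∀ x, HasDerivAt F (I x) x := fun x =>
    intervalIntegral.integral_hasDerivAt_right (hI.intervalIntegrable _ _)
      (hI.stronglyMeasurableAtFilter _ _) hI.continuousAt
  have hFc : Continuous F := continuous_iff_continuousAt.2 fun x => (hFd x).continuousAt
  have hqd := ph_deriv hY hp xa
  have hqc : Continuous (ph p Y xa) := continuous_iff_continuousAt.2 fun x => (hqd x).continuousAt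
  have hqc' : Continuous fun x => max (Y x) 0 * ph p Y xa x := by fun_prop
  have hqc'' : Continuous fun x => -(max (Y x) 0 * ph p Y xa x) := hqc'.neg
  have e1 := intervalIntegral.integral_mul_deriv_eq_deriv_mul (a := xa) (b := R)
    (fun x _ => hqd x) (fun x _ => hFd x) (hqc''.intervalIntegrable _ _)
    (hI.intervalIntegrable _ _)
  have hF0 : F xa = 0 := by simp [hF]
  rw [hF0, mul_zero, sub_zero] at e1
  rw [e1]
  have e2 : ∫ x in xa..R, -(max (Y x) 0 * ph p Y xa x) * F x =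
      -∫ x in xa..R, (max (Y x) 0 * ph p Y xa x) * F x := by
    rw [← intervalIntegral.integral_neg]
    refine intervalIntegral.integral_congr fun x _ => ?_
    ring
  rw [e2, sub_neg_eq_add]
  have cF : Continuous fun x => (max (Y x) 0 * ph p Y xa x) * F x := hqc'.mul hFc
  rw [← intervalIntegral.integral_add_adjacent_intervals (cF.intervalIntegrable xa xh)
    (cF.intervalIntegrable xh R)]
  have h1 : 0 ≤ ∫ x in xa..xh, (max (Y x) 0 * ph p Y xa x) * F x := by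
    refine intervalIntegral.integral_nonneg hah fun x hx => ?_
    have h2 : 0 ≤ F x := intervalIntegral.integral_nonneg hx.1 fun z hz =>
      hI0 z ⟨hz.1, hz.2.trans hx.2⟩
    exact mul_nonneg (mul_nonneg (le_max_right _ _) (ph_pos hpp xa x).le) h2
  have h2 : (ph p Y xa xh - ph p Y xa R) * c ≤
      ∫ x in xh..R, (max (Y x) 0 * ph p Y xa x) * F x := by
    have h3 := intervalIntegral.integral_eq_sub_of_hasDerivAt (a := xh) (b := R)
      (fun x _ => hqd x) (hqc''.intervalIntegrable _ _)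
    rw [intervalIntegral.integral_neg] at h3
    have h4 : (ph p Y xa xh - ph p Y xa R) * c =
        ∫ x in xh..R, (max (Y x) 0 * ph p Y xa x) * c := by
      rw [intervalIntegral.integral_mul_const]
      congr 1
      linarith
    rw [h4]
    refine intervalIntegral.integral_mono_on hR ((hqc'.mul continuous_const).intervalIntegrable _ _)
      (cF.intervalIntegrable _ _) fun x hx => ?_
    exact mul_le_mul_of_nonneg_left (hA x hx)
      (mul_nonneg (le_max_right _ _) (ph_pos hpp xa x).le)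
  have h5 : ph p Y xa R * c ≤ ph p Y xa R * F R :=
    mul_le_mul_of_nonneg_left (hA R ⟨hR, le_rfl⟩) (ph_pos hpp xa R).le
  nlinarith [h1, h2, h5]

/-- `q` is nonincreasing -/
theorem ph_anti (hY : Continuous Y) (hp : ∀ x, HasDerivAt p (-Y x * p x) x) (hpp : ∀ x, 0 < p x)
    (xa : ℝ) : Antitone (ph p Y xa) := by
  refine antitone_of_hasDerivAt_nonpos (fun x => ph_deriv hY hp xa x) fun x => ?_
  have := mul_nonneg (le_max_right (Y x) 0) (ph_pos (Y := Y) hpp xa x).le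
  simp only [Pi.zero_apply]
  linarith

/-- **N3**, abstract form -/
theorem int_nonneg (hI : Continuous I) (hY : Continuous Y)
    (hp : ∀ x, HasDerivAt p (-Y x * p x) x) (hpp : ∀ x, 0 < p x) {xa xh c : ℝ}
    (hah : xa ≤ xh) (hI0 : ∀ x ≤ xh, 0 ≤ I x)
    (hA : ∀ x, xh ≤ x → c ≤ ∫ z in xa..x, I z)
    (hNc : Continuous N) (hN0 : ∀ x, 0 ≤ N x) (hN : ∀ x, -N x ≤ I x)
    (hE : ∀ R, xh ≤ R → ∫ x in xh..R, (Real.exp (∫ z in xa..x, Yn Y z) - 1) * N x ≤ c)
    (hpI : Integrable fun x => p x * I x) : 0 ≤ ∫ x, p x * I x := by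
  have hpc : Continuous p := continuous_iff_continuousAt.2 fun x => (hp x).continuousAt
  have hqc : Continuous (ph p Y xa) :=
    continuous_iff_continuousAt.2 fun x => (ph_deriv hY hp xa x).continuousAt
  have hYn := Yn_continuous hY
  have hwc : Continuous fun x => Real.exp (∫ z in xa..x, Yn Y z) :=
    Real.continuous_exp.comp (intervalIntegral.continuous_primitive
      (fun a b => hYn.intervalIntegrable a b) xa)
  -- `p = q ω`
  have hpq : ∀ x, p x = ph p Y xa x * Real.exp (∫ z in xa..x, Yn Y z) := fun x => by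
    unfold ph
    rw [mul_assoc, ← Real.exp_add]
    simp
  have hω : ∀ x, xa ≤ x → 1 ≤ Real.exp (∫ z in xa..x, Yn Y z) := fun x hx =>
    Real.one_le_exp (intervalIntegral.integral_nonneg hx fun z _ => Yn_nonneg z)
  have c1 : Continuous fun x => p x * I x := hpc.mul hI
  have c2 : Continuous fun x => ph p Y xa x * I x := hqc.mul hI
  have c3 : Continuous fun x => (Real.exp (∫ z in xa..x, Yn Y z) - 1) * N x :=
    (hwc.sub continuous_const).mul hNc
  have c4 : Continuous fun x => ph p Y xa xh *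
      ((Real.exp (∫ z in xa..x, Yn Y z) - 1) * N x) := continuous_const.mul c3
  have key : ∀ R, xh ≤ R → 0 ≤ ∫ x in xa..R, p x * I x := by
    intro R hR
    have h1 := by_parts2 hI hY hp hpp hah hR (fun x hx => hI0 x hx.2) (fun x hx => hA x hx.1)
    -- comparison of `p I` and `q I`
    have h2 : ∫ x in xa..xh, ph p Y xa x * I x ≤ ∫ x in xa..xh, p x * I x := by
      refine intervalIntegral.integral_mono_on hah (c2.intervalIntegrable _ _)
        (c1.intervalIntegrable _ _) fun x hx => ?_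
      exact mul_le_mul_of_nonneg_right (ph_le hpp hx.1) (hI0 x hx.2)
    have h3 : (∫ x in xh..R, ph p Y xa x * I x) -
        (∫ x in xh..R, ph p Y xa xh * ((Real.exp (∫ z in xa..x, Yn Y z) - 1) * N x)) ≤
        ∫ x in xh..R, p x * I x := by
      rw [← intervalIntegral.integral_sub (c2.intervalIntegrable _ _)
        (c4.intervalIntegrable _ _)]
      refine intervalIntegral.integral_mono_on hR
        ((c2.sub c4).intervalIntegrable _ _)
        (c1.intervalIntegrable _ _) fun x hx => ?_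
      have hxa : xa ≤ x := hah.trans hx.1
      have e1 := hω x hxa
      set ω := Real.exp (∫ z in xa..x, Yn Y z) with hωd
      have e2 : ph p Y xa x ≤ ph p Y xa xh := ph_anti hY hp hpp xa hx.1
      have e3 := (ph_pos (Y := Y) hpp xa x).le
      have e4 := hN x
      have e5 := hN0 x
      have e6 : ph p Y xa x * ((ω - 1) * N x) ≤ ph p Y xa xh * ((ω - 1) * N x) :=
        mul_le_mul_of_nonneg_right e2 (mul_nonneg (by linarith) e5)
      have e7 : 0 ≤ ph p Y xa x * (ω - 1) * (N x + I x) :=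
        mul_nonneg (mul_nonneg e3 (by linarith)) (by linarith)
      rw [hpq x, ← hωd]
      nlinarith [e6, e7]
    have h4 : ∫ x in xh..R, ph p Y xa xh * ((Real.exp (∫ z in xa..x, Yn Y z) - 1) * N x) ≤
        ph p Y xa xh * c := by
      rw [intervalIntegral.integral_const_mul]
      exact mul_le_mul_of_nonneg_left (hE R hR) (ph_pos hpp xa xh).le
    have h5 := intervalIntegral.integral_add_adjacent_intervals (c1.intervalIntegrable (μ := volume) xa xh)
      (c1.intervalIntegrable xh R)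
    have h6 := intervalIntegral.integral_add_adjacent_intervals (c2.intervalIntegrable (μ := volume) xa xh)
      (c2.intervalIntegrable xh R)
    linarith
  have s1 : ∫ x, p x * I x = (∫ x in Iic xa, p x * I x) + ∫ x in Ioi xa, p x * I x :=
    (intervalIntegral.integral_Iic_add_Ioi hpI.integrableOn hpI.integrableOn).symm
  have s2 : 0 ≤ ∫ x in Iic xa, p x * I x :=
    setIntegral_nonneg measurableSet_Iic fun x hx =>
      mul_nonneg (hpp x).le (hI0 x (le_trans hx hah))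
  have s3 : Tendsto (fun R => ∫ x in xa..R, p x * I x) atTop (𝓝 (∫ x in Ioi xa, p x * I x)) :=
    intervalIntegral_tendsto_integral_Ioi xa hpI.integrableOn tendsto_id
  have s4 : 0 ≤ ∫ x in Ioi xa, p x * I x :=
    ge_of_tendsto s3 (by filter_upwards [eventually_ge_atTop xh] with R hR using key R hR)
  linarith

end law

/-! ### The step system -/

open Crest.Agent.R146.StepDef_791 Crest.Agent.R146.MaxPCmp_371 Crest.Agent.R146.MaxPCmp2_371

section step

variable {A : SD} {x0 : ℝ} {p Y Yx Yxx : ℝ → ℝ → ℝ}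

/-- the elementary bound of the error weight -/
theorem wt_le {η y : ℝ} (hη : 0 ≤ η) (hη1 : η ≤ 1 / 1002) (hy : 0 ≤ y) :
    Real.exp (η * (y + 1002)) - 1 ≤ 3006 * η * Real.exp (y / 5) := by
  have h1 : Real.exp (η * (y + 1002)) - 1 ≤
      η * (y + 1002) * Real.exp (η * (y + 1002)) := by
    have h2 := Real.add_one_le_exp (-(η * (y + 1002)))
    have h3 := Real.exp_pos (η * (y + 1002))
    have h4 : Real.exp (η * (y + 1002)) * Real.exp (-(η * (y + 1002))) = 1 := by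
      rw [← Real.exp_add]; simp
    nlinarith [mul_le_mul_of_nonneg_left h2 h3.le]
  have h2 : y + 1002 ≤ 1002 * Real.exp (y / 10) := by
    have := Real.add_one_le_exp (y / 10)
    nlinarith
  have h3 : Real.exp (η * (y + 1002)) ≤ 3 * Real.exp (y / 10) := by
    have h4 : η * (y + 1002) ≤ y / 10 + 1 := by nlinarith
    calc Real.exp (η * (y + 1002)) ≤ Real.exp (y / 10 + 1) := Real.exp_le_exp.2 h4
      _ = Real.exp 1 * Real.exp (y / 10) := by rw [Real.exp_add, mul_comm]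
      _ ≤ 3 * Real.exp (y / 10) := by
        have := Real.exp_one_lt_d9
        exact mul_le_mul_of_nonneg_right (by linarith) (Real.exp_pos _).le
  have h5 : Real.exp (y / 5) = Real.exp (y / 10) * Real.exp (y / 10) := by
    rw [← Real.exp_add]; congr 1; ring
  have h6 := Real.exp_pos (y / 10)
  calc Real.exp (η * (y + 1002)) - 1 ≤ η * (y + 1002) * Real.exp (η * (y + 1002)) := h1
    _ ≤ η * (1002 * Real.exp (y / 10)) * (3 * Real.exp (y / 10)) := by
      refine mul_le_mul (mul_le_mul_of_nonneg_left h2 hη) h3 (Real.exp_pos _).le (by positivity)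
    _ = 3006 * η * Real.exp (y / 5) := by rw [h5]; ring

/-- **N3**: positivity of the no-gap functional at a fixed time -/
theorem Ls_nonneg_of (hB : Back A) (hL : Law A x0 p Y Yx Yxx) {t : ℝ} (ht : t ∈ Ioc 0 A.T)
    {s : ℝ} (hs : 0 < s) (hbs : A.b t ≤ s ^ 2)
    (hPu : ∀ x, A.P t x ^ 2 ≤ 2 * s ^ 2 * (1 - A.V t x))
    (hPl : ∀ x, 1 / 2 ≤ A.V t x → 2 / 5 * s * (1 - A.V t x) ≤ A.P t x)
    (hcert : ∀ xa x, A.V t xa ≤ 1 / 1000 → xa ≤ x → 1 / 2 ≤ A.V t x →
      s ^ 3 / 20000 ≤ ∫ z in xa..x, II (A.b t) (A.V t) (A.P t) (A.Px t) z)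
    (hu : A.u t 0 ≤ 1 / s)
    (hY : ∀ x, -(1000 / s) ≤ x → -(s / 10 ^ 10) ≤ Y t x) : 0 ≤ Ls A x0 p t := by
  have htI : t ∈ Icc 0 A.T := ⟨ht.1.le, ht.2⟩
  obtain ⟨M, hM⟩ := hB.bsys
  obtain ⟨hVc, hPc, hPxc⟩ := facts hB htI
  have hb0 := hM.b_nonneg t htI
  have hVmono : Monotone (A.V t) := by
    apply monotone_of_deriv_nonneg
    · intro x; exact (hB.V_x t htI x).differentiableAt
    · intro x; rw [(hB.V_x t htI x).deriv]; exact (hB.P_pos t htI x).le
  -- mean value inequalities for `u`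
  have hud : ∀ x, HasDerivAt (A.u t) (A.V t x - 1) x := hB.u_x t htI
  have huc : Continuous (A.u t) := continuous_iff_continuousAt.2 fun x => (hud x).continuousAt
  have hmv : ∀ x y, x ≤ y → (y - x) * (1 - A.V t y) ≤ A.u t x - A.u t y := by
    intro x y hxy
    have h := (convex_Icc x y).image_sub_le_mul_sub_of_deriv_le (f := A.u t)
      (C := A.V t y - 1) huc.continuousOn
      (fun z _ => (hud z).differentiableAt.differentiableWithinAt)
      (fun z hz => by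
        rw [(hud z).deriv]
        have hz' := interior_subset hz
        linarith [hVmono hz'.2]) x (left_mem_Icc.2 hxy) y (right_mem_Icc.2 hxy) hxy
    nlinarith
  have hmv2 : ∀ x y, x ≤ y → A.u t x - A.u t y ≤ (y - x) * (1 - A.V t x) := by
    intro x y hxy
    have h := (convex_Icc x y).mul_sub_le_image_sub_of_le_deriv (f := A.u t)
      (C := A.V t x - 1) huc.continuousOn
      (fun z _ => (hud z).differentiableAt.differentiableWithinAt)
      (fun z hz => by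
        rw [(hud z).deriv]
        have hz' := interior_subset hz
        linarith [hVmono hz'.1]) x (left_mem_Icc.2 hxy) y (right_mem_Icc.2 hxy) hxy
    nlinarith
  -- the left point
  set xa : ℝ := -(1000 / s) with hxa
  have hs1 : 0 < 1 / s := by positivity
  have hxa0 : xa < 0 := by rw [hxa]; have : 0 < 1000 / s := by positivity
                           linarith
  have hVa : A.V t xa ≤ 1 / 1000 := by
    have h1 := hmv2 xa 0 hxa0.le
    have h2 := hB.w_pos t htI xa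
    unfold SD.w at h2
    have h3 : (1000 / s) * A.V t xa ≤ 1 / s := by
      have h4 : A.u t xa ≤ A.u t 0 + (1000 / s) * (1 - A.V t xa) := by
        have : (0 : ℝ) - xa = 1000 / s := by rw [hxa]; ring
        rw [this] at h1; linarith
      have h5 : 0 < -(1000 / s) + A.u t xa := h2
      nlinarith
    have h6 : (1000 / s) * A.V t xa = (1 / s) * (1000 * A.V t xa) := by ring
    rw [h6] at h3
    have h7 : 1000 * A.V t xa ≤ 1 := by
      by_contra h
      push Not at h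
      have := mul_lt_mul_of_pos_left h hs1
      linarith
    linarith
  have hVr : 1 / 2 ≤ A.V t (2 / s) := by
    have h1 := hmv 0 (2 / s) (by positivity)
    have h2 := hB.u_pos t htI (2 / s)
    have h3 : (2 / s) * (1 - A.V t (2 / s)) ≤ 1 / s := by
      rw [sub_zero] at h1; linarith
    have h4 : (2 / s) * (1 - A.V t (2 / s)) = (1 / s) * (2 * (1 - A.V t (2 / s))) := by ring
    rw [h4] at h3
    have h5 : 2 * (1 - A.V t (2 / s)) ≤ 1 := by
      by_contra h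
      push Not at h
      have := mul_lt_mul_of_pos_left h hs1
      linarith
    linarith
  have hle : xa ≤ 2 / s := hxa0.le.trans (by positivity)
  obtain ⟨xh, hxh, hVh⟩ : ∃ xh ∈ Icc xa (2 / s), A.V t xh = 1 / 2 :=
    intermediate_value_Icc hle hVc.continuousOn ⟨by linarith, hVr⟩
  -- exponential decay of `1 - V`
  have hdec : ∀ x, xh ≤ x → 1 - A.V t x ≤ 1 / 2 * Real.exp (-(2 / 5 * s * (x - xh))) := by
    intro x hx
    have hanti : AntitoneOn (fun x => (1 - A.V t x) * Real.exp (2 / 5 * s * (x - xh))) (Ici xh) := by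
      refine antitoneOn_of_deriv_nonpos (convex_Ici xh) ?_ ?_ ?_
      · fun_prop
      · intro z _
        have h1 : HasDerivAt (fun x => (1 - A.V t x) * Real.exp (2 / 5 * s * (x - xh)))
            (-A.P t z * Real.exp (2 / 5 * s * (z - xh)) +
              (1 - A.V t z) * (Real.exp (2 / 5 * s * (z - xh)) * (2 / 5 * s * 1))) z :=
          ((hB.V_x t htI z).const_sub 1).mul
            ((((hasDerivAt_id z).sub_const xh).const_mul (2 / 5 * s)).exp)
        exact h1.differentiableAt.differentiableWithinAt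
      · intro z hz
        rw [interior_Ici] at hz
        have h1 : HasDerivAt (fun x => (1 - A.V t x) * Real.exp (2 / 5 * s * (x - xh)))
            (-A.P t z * Real.exp (2 / 5 * s * (z - xh)) +
              (1 - A.V t z) * (Real.exp (2 / 5 * s * (z - xh)) * (2 / 5 * s * 1))) z :=
          ((hB.V_x t htI z).const_sub 1).mul
            ((((hasDerivAt_id z).sub_const xh).const_mul (2 / 5 * s)).exp)
        rw [h1.deriv]
        have h2 : 1 / 2 ≤ A.V t z := by rw [← hVh]; exact hVmono (le_of_lt hz)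
        have h3 := hPl z h2
        have h4 := Real.exp_pos (2 / 5 * s * (z - xh))
        nlinarith [mul_le_mul_of_nonneg_right h3 h4.le]
    have h1 := hanti (mem_Ici.2 le_rfl) (mem_Ici.2 hx) hx
    simp only [sub_self, mul_zero, Real.exp_zero, mul_one, hVh] at h1
    have h2 := Real.exp_pos (2 / 5 * s * (x - xh))
    rw [Real.exp_neg]
    rw [← div_eq_mul_inv, le_div_iff₀ h2]
    linarith
  -- the error weight
  have hYc := Y_continuous hL ht
  have hYnc := Yn_continuous hYc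
  have hw : ∀ x, xh ≤ x → Real.exp (∫ z in xa..x, Yn (Y t) z) - 1 ≤
      3006 * (1 / 10 ^ 10) * Real.exp (s * (x - xh) / 5) := by
    intro x hx
    have h1 : ∫ z in xa..x, Yn (Y t) z ≤ ∫ _ in xa..x, s / 10 ^ 10 := by
      refine intervalIntegral.integral_mono_on (hxh.1.trans hx) (hYnc.intervalIntegrable _ _)
        (continuous_const.intervalIntegrable _ _) fun z hz => ?_
      have h2 := hY z hz.1
      unfold Yn
      refine max_le (by linarith) (by positivity)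
    rw [intervalIntegral.integral_const, smul_eq_mul] at h1
    have h3 : (x - xa) * (s / 10 ^ 10) ≤ 1 / 10 ^ 10 * (s * (x - xh) + 1002) := by
      have h4 : xh - xa ≤ 1002 / s := by
        have : xh ≤ 2 / s := hxh.2
        have e : (1002 : ℝ) / s = 2 / s + 1000 / s := by ring
        rw [e, hxa]; linarith
      have h5 : s * (xh - xa) ≤ 1002 := by
        have := mul_le_mul_of_nonneg_left h4 hs.le
        have e : s * (1002 / s) = 1002 := by field_simp
        linarith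
      nlinarith
    have h6 := wt_le (η := 1 / 10 ^ 10) (y := s * (x - xh)) (by positivity) (by norm_num)
      (mul_nonneg hs.le (sub_nonneg.2 hx))
    refine le_trans ?_ h6
    have h7 := Real.exp_le_exp.2 (h1.trans h3)
    linarith
  have hNc : Continuous fun x => 6 * A.b t * A.P t x ^ 2 := by fun_prop
  have hN0 : ∀ x, 0 ≤ 6 * A.b t * A.P t x ^ 2 := fun x => by positivity
  have hNle : ∀ x, xh ≤ x → 6 * A.b t * A.P t x ^ 2 ≤
      6 * s ^ 4 * Real.exp (-(2 / 5 * s * (x - xh))) := by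
    intro x hx
    have h1 := hPu x
    have h2 := hdec x hx
    have h3 : A.b t * A.P t x ^ 2 ≤ s ^ 2 * (2 * s ^ 2 * (1 - A.V t x)) :=
      mul_le_mul hbs h1 (sq_nonneg _) (by positivity)
    have h4 := mul_le_mul_of_nonneg_left h2 (show 0 ≤ 12 * s ^ 4 by positivity)
    nlinarith
  have hE : ∀ R, xh ≤ R → ∫ x in xh..R, (Real.exp (∫ z in xa..x, Yn (Y t) z) - 1) *
      (6 * A.b t * A.P t x ^ 2) ≤ s ^ 3 / 20000 := by
    intro R hR
    have hwc : Continuous fun x => Real.exp (∫ z in xa..x, Yn (Y t) z) :=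
      Real.continuous_exp.comp (intervalIntegral.continuous_primitive
        (fun a b => hYnc.intervalIntegrable a b) xa)
    have h1 : ∫ x in xh..R, (Real.exp (∫ z in xa..x, Yn (Y t) z) - 1) *
        (6 * A.b t * A.P t x ^ 2) ≤
        ∫ x in xh..R, (18036 / 10 ^ 10 * s ^ 4) * Real.exp (-(1 / 5 * s * (x - xh))) := by
      refine intervalIntegral.integral_mono_on hR
        (((hwc.sub continuous_const).mul hNc).intervalIntegrable _ _)
        (Continuous.intervalIntegrable (by fun_prop) _ _) fun x hx => ?_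
      have e1 : Real.exp (-(1 / 5 * s * (x - xh))) =
          Real.exp (s * (x - xh) / 5) * Real.exp (-(2 / 5 * s * (x - xh))) := by
        rw [← Real.exp_add]; congr 1; ring
      rw [e1]
      have e2 := mul_le_mul (hw x hx.1) (hNle x hx.1) (hN0 x) (by positivity)
      refine e2.trans (le_of_eq ?_)
      ring
    refine h1.trans ?_
    have h2 : ∀ x, HasDerivAt (fun x => -(18036 / 10 ^ 10 * s ^ 4) * (5 / s) *
        Real.exp (-(1 / 5 * s * (x - xh))))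
        ((18036 / 10 ^ 10 * s ^ 4) * Real.exp (-(1 / 5 * s * (x - xh)))) x := by
      intro x
      have h3 : HasDerivAt (fun x => -(1 / 5 * s * (x - xh))) (-(1 / 5 * s * 1)) x :=
        (((hasDerivAt_id x).sub_const xh).const_mul (1 / 5 * s)).neg
      refine (h3.exp.const_mul (-(18036 / 10 ^ 10 * s ^ 4) * (5 / s))).congr_deriv ?_
      field_simp
    rw [intervalIntegral.integral_eq_sub_of_hasDerivAt (fun x _ => h2 x)
      (Continuous.intervalIntegrable (by fun_prop) _ _)]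
    simp only [sub_self, mul_zero, neg_zero, Real.exp_zero, mul_one]
    have h4 := Real.exp_pos (-(1 / 5 * s * (R - xh)))
    have h5 : 0 < (18036 / 10 ^ 10 * s ^ 4) * (5 / s) := by positivity
    have h6 : (18036 / 10 ^ 10 * s ^ 4) * (5 / s) = 90180 / 10 ^ 10 * s ^ 3 := by
      field_simp; ring
    have h7 : 0 < s ^ 3 := by positivity
    nlinarith [mul_pos h5 h4]
  obtain ⟨C, n, hC, hgr⟩ := II_growth hB
  rw [Ls_eq ht.1]
  refine int_nonneg (xa := xa) (xh := xh) (c := s ^ 3 / 20000)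
    (N := fun x => 6 * A.b t * A.P t x ^ 2) (II_continuous hVc hPc hPxc) hYc
    (fun x => hL.p_x t ht x) (hL.p_pos t ht) hxh.1 ?_ ?_ hNc hN0
    (fun x => neg_le_II hb0 (hM.V_lt t htI x).le) hE ?_
  · exact fun x hx => II_nonneg hb0 ((hVmono hx).trans hVh.le)
  · exact fun x hx => hcert xa x hVa (hxh.1.trans hx) (by rw [← hVh]; exact hVmono hx)
  · exact integrable_p hL ht (II_continuous hVc hPc hPxc) fun x => (hgr t htI x).1

end step

end

end Crest.Agent.R146.NoGapL_546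
end

-- ▼ part R146/NoGapQc_489
section

/-!
Row 146, package PT-APRI, no-gap lemma, nodes N5 and N0 (helper489).

* `qc_of`    : on an interval `[a,b]` where the weight of the limit profile is constant, if
  `Ls (A n) ≥ 0` on `[a,b)` for large `n` then the limit `T` is quasi-convex on `[a,b]`;
* `qc_all`, `nogap_of` : `Ls ≥ 0` near the tip (with `t0` independent of the
  sequence, for sequences with any extra property `G`) implies `NOGAP`;
* `eps_lim`  : `(1-t)/D(t)² → 0`.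
-/

set_option autoImplicit false

namespace Crest.Agent.R146.NoGapQc_489

open Set MeasureTheory Filter Topology
open Crest.Agent.R146.StepDef_791 Crest.Agent.R146.StepApx_856 Crest.Agent.R146.TipSeq_791
open Crest.Agent.R146.PtScalA_45 Crest.Agent.R146.PtS4b_489

noncomputable section

/-- nonnegative right derivative implies monotone -/
theorem mono_of_right {f f' : ℝ → ℝ} {a b : ℝ} (hc : ContinuousOn f (Ico a b))
    (hd : ∀ t ∈ Ico a b, HasDerivWithinAt f (f' t) (Ici t) t) (h0 : ∀ t ∈ Ico a b, 0 ≤ f' t) :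
    MonotoneOn f (Ico a b) := by
  intro x hx y hy hxy
  have hsub : Icc x y ⊆ Ico a b := fun t ht => ⟨hx.1.trans ht.1, ht.2.trans_lt hy.2⟩
  have h := image_le_of_deriv_right_le_deriv_boundary (f := fun _ => f x) (f' := fun _ => 0)
    (a := x) (b := y) continuousOn_const (fun t _ => hasDerivWithinAt_const _ _ _)
    (B := f) (B' := f') le_rfl (hc.mono hsub)
    (fun t ht => hd t (hsub ⟨ht.1, ht.2.le⟩)) (fun t ht => h0 t (hsub ⟨ht.1, ht.2.le⟩))
  exact h ⟨hxy, le_rfl⟩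

variable {P : Prof} {T S : ℝ → ℝ}

/-- one step datum with constant weight on `[a,b)` -/
theorem qc_one {A : SD} {p Y Yx Yxx : ℝ → ℝ → ℝ} {x0 : ℝ} (hB : Back A) (hC : Clock A)
    (hL : Law A x0 p Y Yx Yxx) (hS : Scal A x0 p) {a b z : ℝ} (ha : 0 ≤ a) (hb : b ≤ A.T)
    (hm : ∀ t ∈ Ico a b, A.m t = z) (hpos : ∀ t ∈ Ico a b, 0 ≤ Ls A x0 p t) {x y w : ℝ}
    (hx : a ≤ x) (hxy : x ≤ y) (hyw : y ≤ w) (hw : w ≤ b) :
    Ts A x0 p y ≤ max (Ts A x0 p x) (Ts A x0 p w) := by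
  have hsub : Icc a b ⊆ Icc 0 A.T := fun t ht => ⟨ha.trans ht.1, ht.2.trans hb⟩
  have hsub' : Ico a b ⊆ Ico 0 A.T := fun t ht => ⟨ha.trans ht.1, ht.2.trans_le hb⟩
  refine qc_step (a := a) (b := b) (K := fun t => Ns A x0 p t - 2 * A.b t * Zs A x0 p t)
    (g := fun t => A.D t ^ 2) (hS.cont.1.mono hsub) (fun t ht => hS.Ts_t t (hsub' ht))
    (fun t _ => by have := A.D_pos t; positivity) ?_ hx hxy hyw hw
  refine mono_of_right ?_ (fun t ht => StepK_692.KD_t hB hC hL t (hsub' ht)) fun t ht =>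
    mul_nonneg (sq_nonneg _) (hpos t ht)
  have hbc : ContinuousOn A.b (Ico a b) := by
    have h1 : ContinuousOn (fun t => z / A.D t) (Ico a b) :=
      continuousOn_const.div hC.D_cont.continuousOn fun t _ => (A.D_pos t).ne'
    refine h1.congr fun t ht => ?_
    show A.m t / A.D t = z / A.D t
    rw [hm t ht]
  have hsub2 : Ico a b ⊆ Icc 0 A.T := fun t ht => ⟨ha.trans ht.1, ht.2.le.trans hb⟩
  exact ((hS.cont.2.2.1.mono hsub2).sub ((continuousOn_const.mul hbc).mul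
    (hS.cont.2.2.2.mono hsub2))).mul (hC.D_cont.continuousOn.pow 2)

/-- **N5**, one sequence -/
theorem qc_of (Q : PreSeq P T S) {a b : ℝ} (ha0 : 0 ≤ a) (hab : a < b) (hb : b < 1)
    (haF : ∀ n, a ∈ Q.F n) (hbF : ∀ n, b ∈ Q.F n) (hm : ∀ t ∈ Icc a b, P.m t = P.m a)
    (hL : ∀ᶠ n in atTop, ∀ t ∈ Ico a b, 0 ≤ Ls (Q.A n) 1 (Q.p n) t) {x y z : ℝ}
    (hx : a ≤ x) (hxy : x ≤ y) (hyz : y ≤ z) (hz : z ≤ b) : T y ≤ max (T x) (T z) := by
  have hP := StepAppr_522.isProf P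
  have hb0 : 0 < b := ha0.trans_lt hab
  have haf := affine_of_const hP ha0 hb.le (z := P.m a) fun t ht => hm t ⟨ht.1, ht.2.le⟩
  have key : ∀ᶠ n in atTop, Ts (Q.A n) 1 (Q.p n) y ≤
      max (Ts (Q.A n) 1 (Q.p n) x) (Ts (Q.A n) 1 (Q.p n) z) := by
    filter_upwards [hL] with n hn
    have hbT : b ≤ (Q.A n).T := by
      obtain ⟨l, hl, hlt⟩ := (Q.apx n).grid0 ⟨hb0.le, hb⟩ (Or.inr (hbF n))
      rw [← hlt]
      exact (Q.apx n).t_le hl
    exact qc_one (Q.back n) (Q.clock n) (Q.law n) (Q.scal n) ha0 hbT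
      (fun t ht => (Q.apx n).m_affine ⟨ha0, hab.trans hb⟩ (Or.inr (haF n)) ⟨hb0.le, hb⟩ (hbF n)
        haf ht) hn hx hxy hyz hz
  obtain ⟨q, hq1, hq2⟩ := exists_between hb
  have hlim : ∀ s ∈ Icc a b, Tendsto (fun n => Ts (Q.A n) 1 (Q.p n) s) atTop (𝓝 (T s)) :=
    fun s hs => (Q.T_lim q ⟨hb0.trans hq1, hq2⟩).tendsto_at ⟨ha0.trans hs.1, (hs.2.trans hq1.le)⟩
  exact le_of_tendsto_of_tendsto (hlim y ⟨hx.trans hxy, hyz.trans hz⟩)
    ((hlim x ⟨hx, (hxy.trans hyz).trans hz⟩).max (hlim z ⟨(hx.trans hxy).trans hyz, hz⟩)) key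

/-- **N5**, assembly with an arbitrary restriction `G` on the sequences (e.g. a universal bound of the
law slope): `Ls ≥ 0` near the tip, with `t0` independent of the sequence. -/
theorem qc_all {G : PreSeq P T S → Prop}
    (hQ : ∀ F0 : Finset ℝ, (∀ x ∈ F0, x ∈ Icc (0 : ℝ) 1) →
      ∃ Q : PreSeq P T S, (∀ n, F0 ⊆ Q.F n) ∧ G Q)
    (H : ∃ t0 : ℝ, t0 < 1 ∧ ∀ Q : PreSeq P T S, G Q → ∀ b : ℝ, b < 1 → ∀ᶠ n in atTop,
      ∀ t ∈ Icc t0 b, 0 ≤ t → 0 ≤ Ls (Q.A n) 1 (Q.p n) t) :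
    ∃ t0 : ℝ, t0 < 1 ∧ ∀ a b, t0 ≤ a → 0 ≤ a → a < b → b < 1 → (∀ t ∈ Icc a b, P.m t = P.m a) →
      ∀ x y z, a ≤ x → x ≤ y → y ≤ z → z ≤ b → T y ≤ max (T x) (T z) := by
  obtain ⟨t0, ht0, h⟩ := H
  refine ⟨t0, ht0, fun a b hta ha0 hab hb hm x y z hx hxy hyz hz => ?_⟩
  obtain ⟨Q, hF, hG⟩ := hQ {a, b} (by
    intro x hx
    simp only [Finset.mem_insert, Finset.mem_singleton] at hx
    rcases hx with rfl | rfl
    · exact ⟨ha0, (hab.trans hb).le⟩
    · exact ⟨ha0.trans hab.le, hb.le⟩)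
  refine qc_of Q ha0 hab hb (fun n => hF n (by simp)) (fun n => hF n (by simp)) hm ?_ hx hxy hyz hz
  filter_upwards [h Q hG b hb] with n hn t ht
  exact hn t ⟨hta.trans ht.1, ht.2.le⟩ (ha0.trans ht.1)



/-- **N0**: `(1-t)/D(t)² → 0` -/
theorem eps_lim (P : Prof) (hpos : ∀ t ∈ Ico (0 : ℝ) 1, 0 < P.D t)
    (hint : IntervalIntegrable (fun t => 1 / (P.D t) ^ 2) volume 0 1) :
    Tendsto (fun t => (1 - t) / (P.D t) ^ 2) (𝓝[<] 1) (𝓝 0) := by
  have hP := StepAppr_522.isProf P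
  -- the tail of the integral
  have h1 : Tendsto (fun t => ∫ s in t..1, 1 / (P.D s) ^ 2) (𝓝[<] 1) (𝓝 0) := by
    have h3 : ContinuousOn (fun x => ∫ s in (1 : ℝ)..x, 1 / (P.D s) ^ 2) (uIcc 1 0) :=
      intervalIntegral.continuousOn_primitive_interval' hint.symm (by simp)
    rw [uIcc_of_ge zero_le_one] at h3
    have h4 : Tendsto (fun x => ∫ s in (1 : ℝ)..x, 1 / (P.D s) ^ 2) (𝓝[Icc 0 1] 1) (𝓝 0) := by
      have := (h3 1 ⟨zero_le_one, le_rfl⟩).tendsto
      simpa using this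
    have h5 : (𝓝[<] (1 : ℝ)) ≤ 𝓝[Icc 0 1] 1 := by
      rw [← nhdsWithin_Ioo_eq_nhdsLT zero_lt_one]
      exact nhdsWithin_mono _ Ioo_subset_Icc_self
    have h6 := (h4.mono_left h5).neg
    rw [neg_zero] at h6
    refine h6.congr fun t => ?_
    rw [intervalIntegral.integral_symm]
    simp
  refine squeeze_zero' ?_ ?_ h1
  · filter_upwards [Ioo_mem_nhdsLT (zero_lt_one (α := ℝ))] with t ht
    exact div_nonneg (sub_nonneg.2 ht.2.le) (sq_nonneg _)
  · filter_upwards [Ioo_mem_nhdsLT (zero_lt_one (α := ℝ))] with t ht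
    have hsub : IntervalIntegrable (fun s => 1 / (P.D s) ^ 2) volume t 1 := by
      refine hint.mono_set ?_
      rw [uIcc_of_le zero_le_one, uIcc_of_le ht.2.le]
      exact Icc_subset_Icc ht.1.le le_rfl
    have h2 : ∫ _ in t..1, 1 / (P.D t) ^ 2 = (1 - t) / (P.D t) ^ 2 := by
      simp [div_eq_mul_inv]
    rw [← h2]
    refine intervalIntegral.integral_mono_on_of_le_Ioo ht.2.le intervalIntegrable_const hsub
      fun s hs => ?_
    have hs0 : 0 < P.D s := hpos s ⟨(ht.1.trans hs.1).le, hs.2⟩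
    have hst : P.D s ≤ P.D t :=
      hP.anti ⟨ht.1.le, ht.2.le⟩ ⟨(ht.1.trans hs.1).le, hs.2.le⟩ hs.1.le
    exact one_div_le_one_div_of_le (by positivity) (pow_le_pow_left₀ hs0.le hst 2)

end

end Crest.Agent.R146.NoGapQc_489
end

-- ▼ part R146/NoGapM_546
section

/-!
Row 146, PT, no-gap lemma (helper546): assembly of `TipSeq_791.NOGAP` from

* `LOW`  : forgetting lower bound of the law slope (helper384);
* `CERT` : the energy certificate and the lower slope band (helper87).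
-/

set_option autoImplicit false

namespace Crest.Agent.R146.NoGapM_546

open MeasureTheory Set Filter Topology
open scoped Interval
open Crest.Agent.R146.NoGapX_649 Crest.Agent.R146.StepDef_791 Crest.Agent.R146.MaxPCmp_371
open Crest.Agent.R146.TipSeq_791 Crest.Agent.R146.StepApx_856 Crest.Agent.R146.Pos_371
open Crest.Agent.R146.PtScalA_45 (Prof)

noncomputable section

/-- **LOW** (helper384) -/
def LOW : Prop := ∀ (A : SD) (x0 : ℝ) (p Y Yx Yxx : ℝ → ℝ → ℝ), Back A → Clock A →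
  Law A x0 p Y Yx Yxx → (∀ t ∈ Icc (0 : ℝ) 1, (1 - t) * A.b t ≤ 1) →
  (∀ t ∈ Ioc (0 : ℝ) 1, (1 - t) * A.bl t ≤ 1) → ∀ t0 ∈ Ioo 0 A.T,
  (∀ t ∈ Icc t0 A.T, 21 * √(1 - t) ≤ A.D t) → ∀ C : ℝ, 1 ≤ C →
  (∀ x, -Flat_384.Q C 15 A.E t0 x ≤ Y t0 x) →
  ∀ t ∈ Icc t0 A.T, ∀ x, -Flat_384.Q C 15 A.E t x ≤ Y t x

/-- **CERT** (helper87) -/
def CERT : Prop := ∀ A : SD, Back A → (∀ t ∈ Icc (0 : ℝ) 1, (1 - t) * A.b t ≤ 1) →
  ∀ t ∈ Ioo 0 A.T,
    (∀ x, 1 / 2 ≤ A.V t x → 2 / 5 * (√(1 - t))⁻¹ * (1 - A.V t x) ≤ A.P t x) ∧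
    (∀ xa x, A.V t xa ≤ 1 / 1000 → xa ≤ x → 1 / 2 ≤ A.V t x →
      (√(1 - t))⁻¹ ^ 3 / 20000 ≤ ∫ z in xa..x, II (A.b t) (A.V t) (A.P t) (A.Px t) z)

section

variable {A : SD} {x0 : ℝ} {p Y Yx Yxx : ℝ → ℝ → ℝ}

theorem b_comm (hb : ∀ t ∈ Icc (0 : ℝ) 1, (1 - t) * A.b t ≤ 1) :
    ∀ t ∈ Ico (0 : ℝ) A.T, A.b t * (1 - t) ≤ 1 := fun t ht => by
  have := hb t ⟨ht.1, (ht.2.trans A.hT1).le⟩
  linarith

theorem u_le (hB : Back A) (hb : ∀ t ∈ Icc (0 : ℝ) 1, (1 - t) * A.b t ≤ 1) :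
    ∀ t ∈ Icc 0 A.T, ∀ x, A.u t x ≤ √(1 - t) * Mills_384.hz (x / √(1 - t)) := by
  obtain ⟨M, hM⟩ := hB.bsys
  refine Apri_384.u_le_hz hM le_rfl A.hT1 (b_comm hb) fun x => ?_
  rw [hB.u_T]
  exact mul_le_mul_of_nonneg_left (Mills_384.U0_le_hz _) (Real.sqrt_nonneg _)

theorem P_le (hB : Back A) (hb : ∀ t ∈ Icc (0 : ℝ) 1, (1 - t) * A.b t ≤ 1) :
    ∀ t ∈ Icc 0 A.T, ∀ x, A.P t x ≤ (√(1 - t))⁻¹ * √(A.V t x * (1 - A.V t x)) := by
  obtain ⟨M, hM⟩ := hB.bsys
  refine Apri_384.P_le_root hM A.hT1 (b_comm hb) fun x => ?_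
  rw [hB.P_T, hB.V_T]
  have h1 := Mills_384.ph_sq_le (x / √A.dl)
  have h2 : StepStart_483.ph (x / √A.dl) ≤
      √(StepStart_483.Phi (x / √A.dl) * (1 - StepStart_483.Phi (x / √A.dl))) :=
    Real.le_sqrt_of_sq_le h1
  have h3 : (√(1 - A.T))⁻¹ = (√A.dl)⁻¹ := rfl
  rw [h3, div_eq_inv_mul]
  exact mul_le_mul_of_nonneg_left h2 (by positivity)

theorem Ls_nonneg_at (hK : CERT) (hB : Back A) (hL : Law A x0 p Y Yx Yxx)
    (hb : ∀ t ∈ Icc (0 : ℝ) 1, (1 - t) * A.b t ≤ 1) {t : ℝ} (ht' : t ∈ Ioo 0 A.T) {C : ℝ}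
    (hC : 0 ≤ C) (hY : ∀ x, -Flat_384.Q C 15 A.E t x ≤ Y t x)
    (h1 : 17 * C * (A.E t * √(1 - t)) ≤ 1 / 10 ^ 10) (h2 : A.E t * √(1 - t) ≤ 1 / 2000) :
    0 ≤ Ls A x0 p t := by
  have ht : t ∈ Ioc 0 A.T := ⟨ht'.1, ht'.2.le⟩
  have htI : t ∈ Icc 0 A.T := ⟨ht.1.le, ht.2⟩
  have ht1 : t < 1 := ht.2.trans_lt A.hT1
  obtain ⟨M, hM⟩ := hB.bsys
  set r := √(1 - t) with hr
  have hr0 : 0 < r := Real.sqrt_pos.2 (by linarith)
  have hr2 : r ^ 2 = 1 - t := Real.sq_sqrt (by linarith)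
  have hE := A.E_pos t
  obtain ⟨hK1, hK2⟩ := hK A hB hb t ht'
  have e1 : 1 / r⁻¹ = r := by rw [one_div, inv_inv]
  refine NoGapL_546.Ls_nonneg_of (s := r⁻¹) hB hL ht (inv_pos.2 hr0) ?_ ?_ hK1 hK2 ?_ ?_
  · have h3 := hb t ⟨ht.1.le, ht1.le⟩
    rw [← hr2] at h3
    have h4 : (r⁻¹) ^ 2 = 1 / r ^ 2 := by rw [inv_pow, one_div]
    rw [h4, le_div_iff₀ (by positivity)]
    linarith
  · intro x
    have h3 := P_le hB hb t htI x
    have hP0 := (hB.P_pos t htI x).le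
    have hV0 := (hM.V_pos t htI x).le
    have hV1 := (hM.V_lt t htI x).le
    have h4 : A.P t x ^ 2 ≤ ((√(1 - t))⁻¹ * √(A.V t x * (1 - A.V t x))) ^ 2 :=
      pow_le_pow_left₀ hP0 h3 2
    rw [mul_pow, Real.sq_sqrt (mul_nonneg hV0 (by linarith)), ← hr] at h4
    have h5 : 0 ≤ (r⁻¹) ^ 2 := by positivity
    have h6 : A.V t x * (1 - A.V t x) ≤ 2 * (1 - A.V t x) := by nlinarith
    nlinarith [mul_le_mul_of_nonneg_left h6 h5]
  · rw [e1]
    have h3 := u_le hB hb t htI 0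
    rw [zero_div] at h3
    have h4 := Mills_384.hz_zero_le
    have h5 := mul_le_mul_of_nonneg_left h4 hr0.le
    rw [← hr] at h3
    linarith
  · intro x hx
    have e2 : 1000 / r⁻¹ = 1000 * r := by rw [div_inv_eq_mul]
    rw [e2] at hx
    have h3 : -(x * A.E t) ≤ 1 / 2 := by nlinarith [mul_le_mul_of_nonneg_right hx hE.le]
    have h4 : sg (-(x * A.E t)) ≤ 2 := by
      unfold sg
      have h5 : √(1 + (-(x * A.E t)) ^ 2) ≤ 2 - -(x * A.E t) := by
        apply Real.sqrt_le_iff.2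
        constructor
        · linarith
        · nlinarith
      linarith
    have h5 := hY x
    unfold Flat_384.Q at h5
    have h6 : C * A.E t * (15 + sg (-(x * A.E t))) ≤ C * A.E t * 17 :=
      mul_le_mul_of_nonneg_left (by linarith) (by positivity)
    have h7 : C * A.E t * 17 ≤ r⁻¹ / 10 ^ 10 := by
      have h8 : C * A.E t * 17 = 17 * C * (A.E t * r) * r⁻¹ := by field_simp
      rw [h8, div_eq_inv_mul]
      have := mul_le_mul_of_nonneg_right h1 (inv_pos.2 hr0).le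
      rw [one_div] at this
      exact this
    linarith

end

/-- **NOGAP** from `LOW` and `CERT` -/
theorem nogap (hW : LOW) (hK : CERT) : NOGAP := by
  intro P T S CY hQ
  obtain ⟨Q0, _, _⟩ := hQ ∅ (by simp)
  refine NoGapQc_489.qc_all (G := fun Q => ∀ t0 ∈ Ioo (0 : ℝ) 1, ∀ᶠ n in atTop, ∀ x,
      -(CY t0 * (1 + (Q.A n).u t0 x)) ≤ Q.Y n t0 x ∧
        Q.Y n t0 x ≤ CY t0 * (1 + (Q.A n).w t0 x)) hQ ?_
  have hlim := NoGapQc_489.eps_lim P Q0.pos Q0.int2
  have hpos := Q0.pos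
  -- the first time
  obtain ⟨a1, ha1, ha⟩ : ∃ a1 ∈ Ioo (0 : ℝ) 1, ∀ t ∈ Ico a1 1, (1 - t) / (P.D t) ^ 2 ≤ 1 / 441 := by
    have h1 : ∀ᶠ t in 𝓝[<] (1 : ℝ), (1 - t) / (P.D t) ^ 2 < 1 / 441 :=
      hlim.eventually (gt_mem_nhds (by norm_num))
    obtain ⟨l, hl, hl2⟩ := (mem_nhdsLT_iff_exists_Ioo_subset).1 h1
    refine ⟨(max l 0 + 1) / 2, ⟨?_, ?_⟩, fun t ht => ?_⟩
    · have := le_max_right l 0
      linarith
    · have : max l 0 < 1 := max_lt hl one_pos
      linarith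
    · have h2 : max l 0 < 1 := max_lt hl one_pos
      exact (hl2 ⟨by linarith [le_max_left l 0, ht.1], ht.2⟩).le
  set e0 : ℝ := 1 / (P.D a1 + 1) with he0
  have hDa : 0 < P.D a1 := hpos a1 ⟨ha1.1.le, ha1.2⟩
  have he0p : 0 < e0 := by positivity
  set c := max (CY a1) 0 with hc
  have hc0 : 0 ≤ c := le_max_right _ _
  set C : ℝ := 1 + c / e0 + c / e0 ^ 2 with hC
  have hC1 : 1 ≤ C := by
    have h1 : 0 ≤ c / e0 := by positivity
    have h2 : 0 ≤ c / e0 ^ 2 := by positivity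
    linarith
  have hC0 : 0 < C := by linarith
  set δ : ℝ := min (1 / (17 * C * 10 ^ 10)) (1 / 2000) with hδ
  have hδ0 : 0 < δ := lt_min (by positivity) (by norm_num)
  obtain ⟨a2, ha2, ha2'⟩ : ∃ a2 ∈ Ioo a1 1, ∀ t ∈ Ico a2 1, (1 - t) / (P.D t) ^ 2 ≤ δ ^ 2 := by
    have h1 : ∀ᶠ t in 𝓝[<] (1 : ℝ), (1 - t) / (P.D t) ^ 2 < δ ^ 2 :=
      hlim.eventually (gt_mem_nhds (by positivity))
    obtain ⟨l, hl, hl2⟩ := (mem_nhdsLT_iff_exists_Ioo_subset).1 h1
    have h2 : max l a1 < 1 := max_lt hl ha1.2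
    refine ⟨(max l a1 + 1) / 2, ⟨?_, ?_⟩, fun t ht => ?_⟩
    · have := le_max_right l a1
      linarith
    · linarith
    · exact (hl2 ⟨by linarith [le_max_left l a1, ht.1], ht.2⟩).le
  refine ⟨a2, ha2.2, fun Q hG b hb1 => ?_⟩
  have hT : ∀ᶠ n in atTop, max b a1 < (Q.A n).T :=
    (tendsto_T Q.apx Q.ε_lim).eventually (lt_mem_nhds (max_lt hb1 ha1.2))
  have hε : ∀ᶠ n in atTop, Q.ε n < 1 := Q.ε_lim.eventually (gt_mem_nhds one_pos)
  filter_upwards [hT, hε, hG a1 ha1] with n hTn hεn hYn t ht ht0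
  set A := Q.A n with hA
  have hapx := Q.apx n
  have hbA : ∀ t ∈ Icc (0 : ℝ) 1, (1 - t) * A.b t ≤ 1 := fun t ht => hapx.b_le ht
  have hblA : ∀ t ∈ Ioc (0 : ℝ) 1, (1 - t) * A.bl t ≤ 1 := fun t ht => hapx.bl_le ht
  have ha1T : a1 < A.T := (le_max_right _ _).trans_lt hTn
  have hbT : b < A.T := (le_max_left _ _).trans_lt hTn
  have hBn := Q.back n
  have hLn := Q.law n
  obtain ⟨M, hM⟩ := hBn.bsys
  have hEle : ∀ t ∈ Ico (0 : ℝ) 1, A.E t ≤ (P.D t)⁻¹ := fun t ht =>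
    inv_anti₀ (hpos t ht) (hapx.D_le t ⟨ht.1, ht.2.le⟩)
  -- the clock condition
  have h21 : ∀ t ∈ Icc a1 A.T, 21 * √(1 - t) ≤ A.D t := by
    intro t ht
    have ht1 : t < 1 := ht.2.trans_lt A.hT1
    have hD := hpos t ⟨ha1.1.le.trans ht.1, ht1⟩
    have h1 := ha t ⟨ht.1, ht1⟩
    rw [div_le_iff₀ (by positivity)] at h1
    have h2 : √(1 - t) ≤ P.D t / 21 := by
      apply Real.sqrt_le_iff.2
      constructor
      · positivity
      · nlinarith
    have h3 := hapx.D_le t ⟨ha1.1.le.trans ht.1, ht1.le⟩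
    linarith
  -- the initial bound
  have hinit : ∀ x, -Flat_384.Q C 15 A.E a1 x ≤ Q.Y n a1 x := by
    intro x
    have h1 := (hYn x).1
    have hE0 : e0 ≤ A.E a1 := by
      rw [he0, one_div]
      refine inv_anti₀ (A.D_pos a1) ?_
      have := hapx.le_D a1 ⟨ha1.1.le, ha1.2.le⟩
      linarith
    have hEp := A.E_pos a1
    have haI : a1 ∈ Icc 0 A.T := ⟨ha1.1.le, ha1T.le⟩
    have hr1 : √(1 - a1) ≤ 1 := by
      rw [Real.sqrt_le_one]
      linarith [ha1.1]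
    have hr0 : 0 < √(1 - a1) := Real.sqrt_pos.2 (by linarith [ha1.2])
    have hu0 := (hBn.u_pos a1 haI x).le
    -- `u ≤ 1 + max (-x) 0`
    have hu : A.u a1 x ≤ 1 + max (-x) 0 := by
      rcases le_total x 0 with hx | hx
      · have h2 := u_le hBn hbA a1 haI x
        have h3 := Mills_384.hz_le (x / √(1 - a1))
        have h4 := mul_le_mul_of_nonneg_left h3 hr0.le
        have h5 : √(1 - a1) * (1 + |x / √(1 - a1)|) = √(1 - a1) + |x| := by
          rw [abs_div, abs_of_pos hr0]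
          field_simp
        rw [h5, abs_of_nonpos hx] at h4
        rw [max_eq_left (by linarith)]
        linarith
      · have h2 := u_le hBn hbA a1 haI 0
        rw [zero_div] at h2
        have h3 := Mills_384.hz_zero_le
        have h4 : √(1 - a1) * Mills_384.hz 0 ≤ 1 * 0.8 :=
          mul_le_mul hr1 h3 (Mills_384.hz_pos 0).le zero_le_one
        have hanti : Antitone (A.u a1) := by
          refine antitone_of_hasDerivAt_nonpos (fun y => hBn.u_x a1 haI y) fun y => ?_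
          have := hM.V_lt a1 haI y
          simp only [Pi.zero_apply]
          linarith
        have h5 := hanti hx
        rw [max_eq_right (by linarith)]
        norm_num at h4 ⊢
        linarith
    have hsg : 2 * (max (-x) 0) * A.E a1 ≤ sg (-(x * A.E a1)) := by
      rcases le_total x 0 with hx | hx
      · rw [max_eq_left (by linarith)]
        unfold sg
        have h2 : -(x * A.E a1) ≤ √(1 + (-(x * A.E a1)) ^ 2) := by
          apply Real.le_sqrt_of_sq_le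
          linarith
        linarith
      · rw [max_eq_right (by linarith)]
        have := (Flat_384.sg1_pos 0)
        have h3 := sg_pos (-(x * A.E a1))
        simp only [mul_zero, zero_mul]
        exact h3.le
    unfold Flat_384.Q
    have hm0 : 0 ≤ max (-x) 0 := le_max_right _ _
    have h6 : CY a1 * (1 + A.u a1 x) ≤ c * (2 + max (-x) 0) :=
      mul_le_mul (le_max_left _ _) (by linarith) (by linarith) hc0
    have h7 : C * A.E a1 * (15 + 2 * (max (-x) 0) * A.E a1) ≤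
        C * A.E a1 * (15 + sg (-(x * A.E a1))) :=
      mul_le_mul_of_nonneg_left (by linarith) (by positivity)
    have h8 : c ≤ C * A.E a1 := by
      have h9 : c = c / e0 * e0 := by field_simp
      have h10 : c / e0 ≤ C := by
        have : 0 ≤ c / e0 ^ 2 := by positivity
        linarith
      rw [h9]
      exact mul_le_mul h10 hE0 he0p.le hC0.le
    have h9 : c ≤ C * A.E a1 * A.E a1 := by
      have h10 : c = c / e0 ^ 2 * (e0 * e0) := by field_simp
      have h11 : c / e0 ^ 2 ≤ C := by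
        have : 0 ≤ c / e0 := by positivity
        linarith
      rw [h10, mul_assoc]
      exact mul_le_mul h11 (mul_le_mul hE0 hE0 he0p.le hEp.le) (by positivity) hC0.le
    have h10 : c * max (-x) 0 ≤ C * A.E a1 * A.E a1 * max (-x) 0 :=
      mul_le_mul_of_nonneg_right h9 hm0
    have h11 : 0 ≤ C * A.E a1 * A.E a1 * max (-x) 0 := by positivity
    nlinarith
  have hlow := hW A 1 (Q.p n) (Q.Y n) (Q.Yx n) (Q.Yxx n) hBn (Q.clock n) hLn hbA hblA a1
    ⟨ha1.1, ha1T⟩ h21 C hC1 hinit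
  have htpos : 0 < t := (ha1.1.trans ha2.1).trans_le ht.1
  have htT' : t < A.T := ht.2.trans_lt hbT
  have htT : t ≤ A.T := htT'.le
  have ht1 : t < 1 := htT.trans_lt A.hT1
  -- smallness
  have hsm : A.E t * √(1 - t) ≤ δ := by
    have hD := hpos t ⟨htpos.le, ht1⟩
    have h1 := ha2' t ⟨ht.1, ht1⟩
    rw [div_le_iff₀ (by positivity)] at h1
    have h2 : √(1 - t) ≤ δ * P.D t := by
      apply Real.sqrt_le_iff.2
      constructor
      · positivity
      · nlinarith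
    have h3 := hEle t ⟨htpos.le, ht1⟩
    calc A.E t * √(1 - t) ≤ (P.D t)⁻¹ * (δ * P.D t) :=
          mul_le_mul h3 h2 (Real.sqrt_nonneg _) (by positivity)
      _ = δ := by field_simp
  refine Ls_nonneg_at hK hBn hLn hbA ⟨htpos, htT'⟩ hC0.le
    (hlow t ⟨ha2.1.le.trans ht.1, htT⟩) ?_ (hsm.trans (min_le_right _ _))
  have h1 : A.E t * √(1 - t) ≤ 1 / (17 * C * 10 ^ 10) := hsm.trans (min_le_left _ _)
  have h2 := mul_le_mul_of_nonneg_left h1 (show 0 ≤ 17 * C by positivity)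
  refine h2.trans (le_of_eq ?_)
  field_simp

end

end Crest.Agent.R146.NoGapM_546
end

-- ▼ part R146/NgBand_87
section

/-!
Row 146 (helper87), node N4 of NOGAP, part 1: closed-form slope bands in the OLD clock, valid for every
step datum with `(1-t) b ≤ 1`:

`(5/4) v^{3/2} (1-v) ≤ √(1-t) V_x ≤ (6/5) (v(1-v))^{3/4}`,  `v = V`.
-/

set_option autoImplicit false

namespace Crest.Agent.R146.NgBand_87

open MeasureTheory ProbabilityTheory Set Filter Topology
open Crest.Agent.R146.StepDef_791 Crest.Agent.R146.StepStart_483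
open MaxP_371 MaxP2_371 MaxPCmp_371 SlopeV_371

noncomputable section

/-! ### the two barriers -/

/-- `q = (v(1-v))^{1/4}` -/
def qq (v : ℝ) : ℝ := √(√(v * (1 - v)))

/-- upper barrier `(6/5) (v(1-v))^{3/4}` -/
def Kp (v : ℝ) : ℝ := 6 / 5 * qq v ^ 3

/-- lower barrier `(5/4) v^{3/2} (1-v)` -/
def Km (v : ℝ) : ℝ := 5 / 4 * √v ^ 3 * (1 - v)

lemma w_pos {v : ℝ} (hv : v ∈ Ioo (0:ℝ) 1) : 0 < v * (1 - v) :=
  mul_pos hv.1 (by linarith [hv.2])

lemma qq_pos {v : ℝ} (hv : v ∈ Ioo (0:ℝ) 1) : 0 < qq v :=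
  Real.sqrt_pos.2 (Real.sqrt_pos.2 (w_pos hv))

lemma qq_nonneg (v : ℝ) : 0 ≤ qq v := Real.sqrt_nonneg _

lemma qq_sq (v : ℝ) : qq v ^ 2 = √(v * (1 - v)) :=
  Real.sq_sqrt (Real.sqrt_nonneg _)

lemma qq_four {v : ℝ} (hv : v ∈ Icc (0:ℝ) 1) : qq v ^ 4 = v * (1 - v) := by
  have h1 : qq v ^ 4 = (qq v ^ 2) ^ 2 := by ring
  rw [h1, qq_sq, Real.sq_sqrt (mul_nonneg hv.1 (by linarith [hv.2]))]

lemma qq_four' {v : ℝ} (hv : v ∈ Ioo (0:ℝ) 1) : qq v ^ 4 = v * (1 - v) :=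
  qq_four ⟨hv.1.le, hv.2.le⟩

lemma qq_cont : Continuous qq := by unfold qq; fun_prop

lemma qq_deriv {v : ℝ} (hv : v ∈ Ioo (0:ℝ) 1) :
    HasDerivAt qq ((1 - 2 * v) / (4 * qq v ^ 3)) v := by
  have h1 : HasDerivAt (fun v : ℝ => v * (1 - v)) (1 - 2 * v) v := by
    have h2 := (hasDerivAt_id v).mul ((hasDerivAt_id v).const_sub 1)
    refine h2.congr_deriv ?_
    simp only [id]; ring
  have h3 := (h1.sqrt (w_pos hv).ne').sqrt (Real.sqrt_pos.2 (w_pos hv)).ne'
  refine h3.congr_deriv ?_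
  have h4 := qq_pos hv
  have h5 := qq_sq v
  have e1 : √(√(v * (1 - v))) = qq v := rfl
  rw [e1, ← h5]
  field_simp
  ring

lemma Kp_cont : Continuous Kp := by unfold Kp; exact continuous_const.mul (qq_cont.pow 3)

lemma Kp_pos {v : ℝ} (hv : v ∈ Ioo (0:ℝ) 1) : 0 < Kp v := by
  have := qq_pos hv
  unfold Kp; positivity

lemma Kp_nonneg (v : ℝ) : 0 ≤ Kp v := by
  have := qq_nonneg v
  unfold Kp; positivity

def Kp1 (v : ℝ) : ℝ := 9 / 10 * (1 - 2 * v) / qq v
def Kp2 (v : ℝ) : ℝ := -(9 / 40) * (1 + 4 * qq v ^ 4) / qq v ^ 5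

lemma Kp_deriv {v : ℝ} (hv : v ∈ Ioo (0:ℝ) 1) : HasDerivAt Kp (Kp1 v) v := by
  have h1 := ((qq_deriv hv).pow 3).const_mul (6 / 5)
  refine h1.congr_deriv ?_
  have h4 := (qq_pos hv).ne'
  unfold Kp1
  simp only [Nat.cast_ofNat, Nat.add_one_sub_one]
  field_simp
  ring

lemma Kp1_deriv {v : ℝ} (hv : v ∈ Ioo (0:ℝ) 1) : HasDerivAt Kp1 (Kp2 v) v := by
  have h0 : HasDerivAt (fun v : ℝ => 9 / 10 * (1 - 2 * v)) (-(9 / 5)) v := by
    have := (((hasDerivAt_id v).const_mul 2).const_sub 1).const_mul (9 / 10)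
    refine this.congr_deriv ?_
    ring
  have h1 := h0.div (qq_deriv hv) (qq_pos hv).ne'
  refine h1.congr_deriv ?_
  have h4 := (qq_pos hv).ne'
  have h5 := qq_four' hv
  have h6 : (1 - 2 * v) ^ 2 = 1 - 4 * qq v ^ 4 := by rw [h5]; ring
  unfold Kp2
  field_simp
  nlinarith [h6]

lemma Kp2_neg {v : ℝ} (hv : v ∈ Ioo (0:ℝ) 1) : Kp2 v < 0 := by
  have h4 := qq_pos hv
  unfold Kp2
  apply div_neg_of_neg_of_pos _ (by positivity)
  have : 0 < 1 + 4 * qq v ^ 4 := by positivity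
  linarith

/-- `K₊ K₊'' ≤ -1`, strictly -/
lemma Kp_mul {v : ℝ} (hv : v ∈ Ioo (0:ℝ) 1) : Kp v * Kp2 v < -1 := by
  have h4 := qq_pos hv
  have e1 : Kp v * Kp2 v = -(27 / 100) * (1 + 4 * qq v ^ 4) / qq v ^ 2 := by
    unfold Kp Kp2
    field_simp
    ring
  rw [e1, div_lt_iff₀ (by positivity)]
  have h5 : 0 < qq v ^ 2 := by positivity
  nlinarith [sq_nonneg (qq v ^ 2 - 1 / 2), sq_nonneg (qq v ^ 2 - 1 / (2 * 27 / 25))]

lemma Km_cont : Continuous Km := by unfold Km; fun_prop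

lemma sv_pos {v : ℝ} (hv : v ∈ Ioo (0:ℝ) 1) : 0 < √v := Real.sqrt_pos.2 hv.1

lemma Km_pos {v : ℝ} (hv : v ∈ Ioo (0:ℝ) 1) : 0 < Km v := by
  have h1 := sv_pos hv
  have h2 : 0 < 1 - v := by linarith [hv.2]
  unfold Km; positivity

def Km1 (v : ℝ) : ℝ := 5 / 8 * √v * (3 - 5 * v)
def Km2 (v : ℝ) : ℝ := 15 / 16 * (1 - 5 * v) / √v

lemma sv_deriv {v : ℝ} (hv : v ∈ Ioo (0:ℝ) 1) : HasDerivAt (fun v => √v) (1 / (2 * √v)) v :=
  Real.hasDerivAt_sqrt hv.1.ne'

lemma Km_deriv {v : ℝ} (hv : v ∈ Ioo (0:ℝ) 1) : HasDerivAt Km (Km1 v) v := by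
  have h1 := (((sv_deriv hv).pow 3).const_mul (5 / 4)).mul ((hasDerivAt_id v).const_sub 1)
  refine h1.congr_deriv ?_
  have h4 := (sv_pos hv).ne'
  have h5 : √v ^ 2 = v := Real.sq_sqrt hv.1.le
  unfold Km1
  simp only [Nat.cast_ofNat, Nat.add_one_sub_one, id, Pi.pow_apply]
  field_simp
  have h6 : √v ^ 3 = √v * v := by rw [pow_succ, h5]; ring
  nlinarith [h5, h6]

lemma Km1_deriv {v : ℝ} (hv : v ∈ Ioo (0:ℝ) 1) : HasDerivAt Km1 (Km2 v) v := by
  have h1 := ((sv_deriv hv).const_mul (5 / 8)).mul (((hasDerivAt_id v).const_mul 5).const_sub 3)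
  refine h1.congr_deriv ?_
  have h4 := (sv_pos hv).ne'
  have h5 : √v ^ 2 = v := Real.sq_sqrt hv.1.le
  unfold Km2
  simp only [id]
  field_simp
  nlinarith [h5]

lemma Km_mul {v : ℝ} (hv : v ∈ Ioo (0:ℝ) 1) :
    Km v * Km2 v = 75 / 64 * (v * (1 - v) * (1 - 5 * v)) := by
  have h4 := (sv_pos hv).ne'
  have h5 : √v ^ 2 = v := Real.sq_sqrt hv.1.le
  unfold Km Km2
  have e : 5 / 4 * √v ^ 3 * (1 - v) * (15 / 16 * (1 - 5 * v) / √v)
      = 75 / 64 * (√v ^ 2 * (1 - v) * (1 - 5 * v)) := by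
    field_simp
    ring
  rw [e, h5]

lemma Km_mul_gt {v : ℝ} (hv : v ∈ Ioo (0:ℝ) 1) : -1 < Km v * Km2 v := by
  rw [Km_mul hv]
  have h1 := hv.1
  have h2 : 0 < 1 - v := by linarith [hv.2]
  have h3 : -(4 / 5) ≤ (1 - v) * (1 - 5 * v) := by nlinarith [sq_nonneg (v - 3 / 5)]
  nlinarith [hv.2]

/-! ### the start inequalities (1-D maximum principle) -/

/-- tail behaviour of a continuous function of `Φ` vanishing at `0` and `1` -/
lemma comp_tendsto {K : ℝ → ℝ} (hK : Continuous K) (h0 : K 0 = 0) (h1 : K 1 = 0) :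
    Tendsto (fun z => K (Phi z) - ph z) (cocompact ℝ) (𝓝 0) := by
  rw [cocompact_eq_atBot_atTop, tendsto_sup]
  have hPt : Tendsto Phi atTop (𝓝 1) := by
    have h2 : Tendsto (fun z => 1 - Phi (-z)) atTop (𝓝 (1 - 0)) :=
      (Phi_tendsto_atBot.comp tendsto_neg_atTop_atBot).const_sub 1
    refine (h2.congr fun z => ?_).trans (by simp)
    rw [Phi_neg]; ring
  have hpt : Tendsto ph atTop (𝓝 0) := by
    have h2 : Tendsto (fun z => ph (-z)) atTop (𝓝 0) :=
      ph_tendsto_atBot.comp tendsto_neg_atTop_atBot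
    exact h2.congr fun z => ph_neg z
  constructor
  · have := ((hK.tendsto 0).comp Phi_tendsto_atBot).sub ph_tendsto_atBot
    rw [h0, sub_zero] at this
    exact this
  · have := ((hK.tendsto 1).comp hPt).sub hpt
    rw [h1, sub_zero] at this
    exact this

/-- a continuous function tending to `0` at infinity which is negative somewhere has a negative minimum -/
lemma exists_neg_min {F : ℝ → ℝ} (hF : Continuous F) (hlim : Tendsto F (cocompact ℝ) (𝓝 0))
    {z : ℝ} (hz : F z < 0) : ∃ z0, F z0 < 0 ∧ ∀ y, F z0 ≤ F y := by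
  have h1 : ∀ᶠ y in cocompact ℝ, F z ≤ F y := by
    filter_upwards [hlim.eventually (lt_mem_nhds hz)] with y hy using hy.le
  obtain ⟨z0, hz0⟩ := hF.exists_forall_le' z h1
  exact ⟨z0, (hz0 z).trans_lt hz, hz0⟩

lemma Phi_mem (z : ℝ) : Phi z ∈ Ioo (0:ℝ) 1 := ⟨Phi_pos z, Phi_lt_one z⟩

/-- if `K K'' ≤ -1` strictly and `K(0) = K(1) = 0` then `φ ≤ K ∘ Φ` -/
theorem ph_le_of {K K' K'' : ℝ → ℝ} (hK : Continuous K) (h0 : K 0 = 0) (h1 : K 1 = 0)
    (hd : ∀ v ∈ Ioo (0:ℝ) 1, HasDerivAt K (K' v) v)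
    (hd2 : ∀ v ∈ Ioo (0:ℝ) 1, HasDerivAt K' (K'' v) v)
    (hneg : ∀ v ∈ Ioo (0:ℝ) 1, K'' v < 0)
    (hm : ∀ v ∈ Ioo (0:ℝ) 1, K v * K'' v < -1) (z : ℝ) : ph z ≤ K (Phi z) := by
  by_contra hcon
  push Not at hcon
  have hF : Continuous (fun z => K (Phi z) - ph z) := (hK.comp Phi_cont).sub ph_cont
  obtain ⟨z0, hz0, hmin⟩ := exists_neg_min hF (comp_tendsto hK h0 h1)
    (z := z) (by linarith)
  have hF1 : ∀ y, HasDerivAt (fun z => K (Phi z) - ph z) (ph y * (K' (Phi y) + y)) y := by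
    intro y
    have h2 := ((hd _ (Phi_mem y)).comp y (Phi_deriv y)).sub (ph_deriv y)
    refine h2.congr_deriv ?_
    ring
  have hF2 : HasDerivAt (fun y => ph y * (K' (Phi y) + y))
      (-z0 * ph z0 * (K' (Phi z0) + z0) + ph z0 * (K'' (Phi z0) * ph z0 + 1)) z0 := by
    exact (ph_deriv z0).mul (((hd2 _ (Phi_mem z0)).comp z0 (Phi_deriv z0)).add (hasDerivAt_id z0))
  have hloc : IsLocalMin (fun z => K (Phi z) - ph z) z0 := Eventually.of_forall hmin
  have hz1 : ph z0 * (K' (Phi z0) + z0) = 0 := hloc.hasDerivAt_eq_zero (hF1 z0)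
  have hp := ph_pos z0
  have hz2 : K' (Phi z0) + z0 = 0 := by
    rcases mul_eq_zero.1 hz1 with h | h
    · exact absurd h hp.ne'
    · exact h
  have hsec : 0 ≤ -z0 * ph z0 * (K' (Phi z0) + z0) + ph z0 * (K'' (Phi z0) * ph z0 + 1) := by
    have h3 := (HasSide.of_hasDerivAt hF2.neg).nonpos
      (f := fun z => -(K (Phi z) - ph z)) (Eventually.of_forall fun y => (hF1 y).neg) hloc.neg
    linarith [h3.2]
  rw [hz2, mul_zero, zero_add] at hsec
  have h4 : 0 ≤ K'' (Phi z0) * ph z0 + 1 := by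
    by_contra hc
    push Not at hc
    have := mul_neg_of_pos_of_neg hp hc
    linarith
  have h5 := hm _ (Phi_mem z0)
  have h6 := hneg _ (Phi_mem z0)
  have h7 : K'' (Phi z0) * (ph z0 - K (Phi z0)) ≤ 0 :=
    mul_nonpos_of_nonpos_of_nonneg h6.le (by linarith)
  nlinarith

/-- if `-1 < K K''`, `0 < K` and `K(0) = K(1) = 0` then `K ∘ Φ ≤ φ` -/
theorem le_ph_of {K K' K'' : ℝ → ℝ} (hK : Continuous K) (h0 : K 0 = 0) (h1 : K 1 = 0)
    (hd : ∀ v ∈ Ioo (0:ℝ) 1, HasDerivAt K (K' v) v)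
    (hd2 : ∀ v ∈ Ioo (0:ℝ) 1, HasDerivAt K' (K'' v) v)
    (hm : ∀ v ∈ Ioo (0:ℝ) 1, -1 < K v * K'' v) (z : ℝ) : K (Phi z) ≤ ph z := by
  by_contra hcon
  push Not at hcon
  have hF : Continuous (fun z => -(K (Phi z) - ph z)) := ((hK.comp Phi_cont).sub ph_cont).neg
  have hlim : Tendsto (fun z => -(K (Phi z) - ph z)) (cocompact ℝ) (𝓝 0) := by
    have := (comp_tendsto hK h0 h1).neg
    rwa [neg_zero] at this
  obtain ⟨z0, hz0, hmin⟩ := exists_neg_min hF hlim (z := z) (by linarith)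
  have hF1 : ∀ y, HasDerivAt (fun z => -(K (Phi z) - ph z)) (-(ph y * (K' (Phi y) + y))) y := by
    intro y
    have h2 := (((hd _ (Phi_mem y)).comp y (Phi_deriv y)).sub (ph_deriv y)).neg
    refine h2.congr_deriv ?_
    ring
  have hF2 : HasDerivAt (fun y => -(ph y * (K' (Phi y) + y)))
      (-(-z0 * ph z0 * (K' (Phi z0) + z0) + ph z0 * (K'' (Phi z0) * ph z0 + 1))) z0 := by
    exact ((ph_deriv z0).mul
      (((hd2 _ (Phi_mem z0)).comp z0 (Phi_deriv z0)).add (hasDerivAt_id z0))).neg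
  have hloc : IsLocalMin (fun z => -(K (Phi z) - ph z)) z0 := Eventually.of_forall hmin
  have hz1 : -(ph z0 * (K' (Phi z0) + z0)) = 0 := hloc.hasDerivAt_eq_zero (hF1 z0)
  have hp := ph_pos z0
  have hz2 : K' (Phi z0) + z0 = 0 := by
    rcases mul_eq_zero.1 (neg_eq_zero.1 hz1) with h | h
    · exact absurd h hp.ne'
    · exact h
  have hsec : 0 ≤ -(-z0 * ph z0 * (K' (Phi z0) + z0) + ph z0 * (K'' (Phi z0) * ph z0 + 1)) := by
    have h3 := (HasSide.of_hasDerivAt hF2.neg).nonpos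
      (f := fun z => -(-(K (Phi z) - ph z))) (Eventually.of_forall fun y => (hF1 y).neg) hloc.neg
    linarith [h3.2]
  rw [hz2, mul_zero, zero_add] at hsec
  have h4 : K'' (Phi z0) * ph z0 + 1 ≤ 0 := by
    by_contra hc
    push Not at hc
    have := mul_pos hp hc
    linarith
  have h5 := hm _ (Phi_mem z0)
  have h6 : ph z0 < K (Phi z0) := by linarith
  have h7 : K'' (Phi z0) < 0 := by
    by_contra hc
    push Not at hc
    have := mul_nonneg hc hp.le
    linarith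
  have h8 : K'' (Phi z0) * (K (Phi z0) - ph z0) < 0 :=
    mul_neg_of_neg_of_pos h7 (by linarith)
  nlinarith

theorem ph_le_Kp (z : ℝ) : ph z ≤ Kp (Phi z) :=
  ph_le_of Kp_cont (by simp [Kp, qq]) (by simp [Kp, qq]) (fun _ hv => Kp_deriv hv)
    (fun _ hv => Kp1_deriv hv) (fun _ hv => Kp2_neg hv) (fun _ hv => Kp_mul hv) z

theorem Km_le_ph (z : ℝ) : Km (Phi z) ≤ ph z :=
  le_ph_of Km_cont (by simp [Km]) (by simp [Km]) (fun _ hv => Km_deriv hv)
    (fun _ hv => Km1_deriv hv) (fun _ hv => Km_mul_gt hv) z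

/-! ### the bands -/

lemma g_deriv {t : ℝ} (h2 : 0 < 1 - t) :
    HasDerivAt (fun t : ℝ => (√(1 - t))⁻¹) ((√(1 - t))⁻¹ ^ 3 / 2) t := by
  have hs := Real.sqrt_pos.2 h2
  have h3 : HasDerivAt (fun t : ℝ => 1 - t) (-1) t := by
    simpa using (hasDerivAt_id t).const_sub 1
  have h4 := (h3.sqrt h2.ne').inv hs.ne'
  refine h4.congr_deriv ?_
  field_simp

lemma g_cont {t : ℝ} (h2 : 0 < 1 - t) : ContinuousAt (fun t : ℝ => (√(1 - t))⁻¹) t :=
  (g_deriv h2).continuousAt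

/-- `b ≤ g²` -/
lemma b_le_g {t b : ℝ} (h2 : 0 < 1 - t) (h : (1 - t) * b ≤ 1) : b ≤ (√(1 - t))⁻¹ ^ 2 := by
  rw [inv_pow, Real.sq_sqrt h2.le]
  rw [mul_comm] at h
  rw [← one_div, le_div_iff₀ h2]
  exact h

/-- **upper band** (old clock, all `0 ≤ ν ≤ 1`) -/
theorem band_up (A : SD) (hB : Back A) (h : ∀ t ∈ Ico 0 A.T, (1 - t) * A.b t ≤ 1) :
    ∀ t ∈ Icc 0 A.T, ∀ x, A.P t x ≤ (√(1 - t))⁻¹ * Kp (A.V t x) := by
  obtain ⟨M, hS⟩ := hB.bsys
  have hT1 := A.hT1
  have hpos : ∀ t ∈ Icc 0 A.T, 0 < 1 - t := fun t ht => by linarith [ht.2]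
  refine hS.slope_le (g := fun t => (√(1 - t))⁻¹) (g' := fun t => (√(1 - t))⁻¹ ^ 3 / 2)
    (K := Kp) (K' := Kp1) (K'' := Kp2)
    (fun t ht => (g_deriv (hpos t ⟨ht.1, ht.2.le⟩)).hasDerivWithinAt)
    (fun t ht => (g_cont (hpos t ht)).continuousWithinAt)
    (fun t ht => by have := hpos t ht; positivity) Kp_cont.continuousOn (fun v hv => Kp_nonneg v)
    (fun v hv => Kp_deriv hv) (fun v hv => HasSide.of_hasDerivAt (Kp1_deriv hv))
    (fun v hv => (Kp2_neg hv).le) (fun t ht v hv => ?_) (fun x => ?_)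
  · have htI : t ∈ Icc 0 A.T := ⟨ht.1, ht.2.le⟩
    have h2 := hpos t htI
    have hs := Real.sqrt_pos.2 h2
    have hb := b_le_g h2 (h t ht)
    have hb0 := hS.b_nonneg t htI
    set g := (√(1 - t))⁻¹ with hg
    have hgp : 0 < g := inv_pos.2 hs
    have hq := qq_pos hv
    have hq4 := qq_four' hv
    set q := qq v with hqd
    have hE : g ^ 3 / 2 * Kp v + g ^ 3 * (Kp v ^ 2 * Kp2 v) / 2 +
        A.b t * g * (v * (1 - v) * Kp1 v - (2 - 3 * v) * Kp v) =
        g * q * (g ^ 2 * (3 / 5 * q ^ 2 - 81 / 500 * (1 + 4 * q ^ 4)) +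
          A.b t * (q ^ 2 * (9 / 5 * v - 3 / 2))) := by
      rw [← hq4]
      unfold Kp Kp1 Kp2
      rw [← hqd]
      field_simp
      ring
    rw [hE]
    apply mul_nonpos_of_nonneg_of_nonpos (by positivity)
    have hr : 0 < q ^ 2 := by positivity
    have hg2 : 0 < g ^ 2 := by positivity
    have e4 : q ^ 4 = (q ^ 2) ^ 2 := by ring
    set r := q ^ 2 with hrd
    rw [e4] at hq4 ⊢
    rcases le_total (9 / 5 * v - 3 / 2) 0 with hc | hc
    · have h3 : A.b t * (r * (9 / 5 * v - 3 / 2)) ≤ 0 :=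
        mul_nonpos_of_nonneg_of_nonpos hb0 (mul_nonpos_of_nonneg_of_nonpos hr.le hc)
      have h4 : 3 / 5 * r - 81 / 500 * (1 + 4 * r ^ 2) ≤ 0 := by
        nlinarith [sq_nonneg (r - 1 / 2), sq_nonneg (r - 25 / 54)]
      have h5 := mul_nonpos_of_nonneg_of_nonpos hg2.le h4
      linarith
    · have h3 : A.b t * (r * (9 / 5 * v - 3 / 2)) ≤ g ^ 2 * (r * (9 / 5 * v - 3 / 2)) :=
        mul_le_mul_of_nonneg_right hb (mul_nonneg hr.le hc)
      have h4 : 3 / 5 * r - 81 / 500 * (1 + 4 * r ^ 2) + r * (9 / 5 * v - 3 / 2) ≤ 0 := by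
        have h5 : (2 * v - 1) ^ 2 = 1 - 4 * r ^ 2 := by rw [hq4]; ring
        nlinarith [sq_nonneg ((2 * v - 1) - 25 / 9 * r), sq_nonneg r]
      have h5 := mul_nonpos_of_nonneg_of_nonpos hg2.le h4
      nlinarith
  · have hx := hB.P_T x
    have hxv := hB.V_T x
    have hd := A.dl_pos
    have e1 : A.dl = 1 - A.T := rfl
    rw [hx, hxv]
    have e2 : (gaussianReal 0 1).real (Iic (x / √A.dl)) = Phi (x / √A.dl) := rfl
    rw [e2, ← e1, div_eq_inv_mul]
    exact mul_le_mul_of_nonneg_left (ph_le_Kp _) (by positivity)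

/-- **lower band** (old clock, all `0 ≤ ν ≤ 1`) -/
theorem band_lo (A : SD) (hB : Back A) (h : ∀ t ∈ Ico 0 A.T, (1 - t) * A.b t ≤ 1) :
    ∀ t ∈ Icc 0 A.T, ∀ x, (√(1 - t))⁻¹ * Km (A.V t x) ≤ A.P t x := by
  obtain ⟨M, hS⟩ := hB.bsys
  have hT1 := A.hT1
  have hpos : ∀ t ∈ Icc 0 A.T, 0 < 1 - t := fun t ht => by linarith [ht.2]
  refine le_slope_v hS (g := fun t => (√(1 - t))⁻¹) (g' := fun t => (√(1 - t))⁻¹ ^ 3 / 2)
    (K := Km) (K' := Km1) (K'' := Km2) (G := (√(1 - A.T))⁻¹) (KM := 5 / 4) (κ2 := 75 / 64)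
    (fun t ht => (g_deriv (hpos t ⟨ht.1, ht.2.le⟩)).hasDerivWithinAt)
    (fun t ht => (g_cont (hpos t ht)).continuousWithinAt)
    (fun t ht => by have := hpos t ht; positivity)
    (fun t ht => ?_) Km_cont.continuousOn (fun v hv => (Km_pos hv).le) (fun v hv => ?_)
    (fun v hv => TouchBelow.of_Ioo (fun y hy => Km_deriv hy)
      (fun y hy => HasSide.of_hasDerivAt (Km1_deriv hy)) hv) (by norm_num)
    (fun v hv => ?_) (fun t ht v hv => ?_) (fun x => ?_)
  · have h2 : 0 < 1 - A.T := by linarith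
    apply inv_anti₀ (Real.sqrt_pos.2 h2)
    exact Real.sqrt_le_sqrt (by linarith [ht.2])
  · have h1 : √v ≤ 1 := Real.sqrt_le_one.2 hv.2.le
    have h2 := sv_pos hv
    have h3 : √v ^ 3 ≤ 1 := pow_le_one₀ h2.le h1
    have h4 : 0 < √v ^ 3 := by positivity
    unfold Km
    nlinarith [hv.1, hv.2]
  · rw [Km_mul hv]
    have h1 := hv.1
    have h2 : 0 < 1 - v := by linarith [hv.2]
    have h3 : v * (1 - v) * (1 - 5 * v) ≤ 1 := by nlinarith [mul_pos h1 h2, mul_pos (mul_pos h1 h2) h1]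
    linarith
  · have htI : t ∈ Icc 0 A.T := ⟨ht.1, ht.2.le⟩
    have h2 := hpos t htI
    have hs := Real.sqrt_pos.2 h2
    have hb := b_le_g h2 (h t ht)
    have hb0 := hS.b_nonneg t htI
    set g := (√(1 - t))⁻¹ with hg
    have hgp : 0 < g := inv_pos.2 hs
    have ha := sv_pos hv
    have ha2 : √v ^ 2 = v := Real.sq_sqrt hv.1.le
    set a := √v with had
    have hE : g ^ 3 / 2 * Km v + g ^ 3 * (Km v ^ 2 * Km2 v) / 2 +
        A.b t * g * (v * (1 - v) * Km1 v - (2 - 3 * v) * Km v) =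
        5 / 8 * g * a ^ 3 * (1 - v) * (g ^ 2 * (1 + 75 / 64 * (v * (1 - v) * (1 - 5 * v))) -
          A.b t * (1 - v)) := by
      unfold Km Km1 Km2
      rw [← had]
      rw [← ha2]
      field_simp
      ring
    rw [hE]
    have h1v : 0 < 1 - v := by linarith [hv.2]
    apply mul_nonneg (by positivity)
    have h3 : A.b t * (1 - v) ≤ g ^ 2 * (1 - v) := mul_le_mul_of_nonneg_right hb h1v.le
    have h4 : 0 ≤ v + 75 / 64 * (v * (1 - v) * (1 - 5 * v)) := by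
      have h5 : -(4 / 5) ≤ (1 - v) * (1 - 5 * v) := by nlinarith [sq_nonneg (v - 3 / 5)]
      nlinarith [hv.1]
    have h5 : 0 ≤ g ^ 2 * (v + 75 / 64 * (v * (1 - v) * (1 - 5 * v))) :=
      mul_nonneg (sq_nonneg g) h4
    nlinarith
  · have hx := hB.P_T x
    have hxv := hB.V_T x
    have hd := A.dl_pos
    have e1 : A.dl = 1 - A.T := rfl
    rw [hx, hxv]
    have e2 : (gaussianReal 0 1).real (Iic (x / √A.dl)) = Phi (x / √A.dl) := rfl
    rw [e2, ← e1]
    have h5 : (√A.dl)⁻¹ * Km (Phi (x / √A.dl)) ≤ (√A.dl)⁻¹ * ph (x / √A.dl) :=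
      mul_le_mul_of_nonneg_left (Km_le_ph _) (by positivity)
    refine h5.trans (le_of_eq ?_)
    rw [mul_comm, ← div_eq_mul_inv]

end

end Crest.Agent.R146.NgBand_87
end

-- ▼ part R146/NgCert_87
section

/-!
Row 146 (helper87), node N4 of NOGAP, part 2: the algebraic no-gap certificate.

At one time, `s > 0`, `0 ≤ b ≤ s²`, slope band `s K₋(V) ≤ P ≤ s K₊(V)` (`NgBand_87`):
if `V xa ≤ 1/1000`, `xa ≤ x`, `1/2 ≤ V x` then `∫_{xa}^x II ≥ s³/20000`.
-/

set_option autoImplicit false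

namespace Crest.Agent.R146.NgCert_87

open MeasureTheory Set Filter Topology
open Crest.Agent.R146.NgBand_87 Crest.Agent.R146.NoGapX_649

noncomputable section

/-! ### one-variable facts -/

lemma Kp_le {v : ℝ} (hv : v ∈ Ioo (0:ℝ) 1) : Kp v ≤ 7 / 5 * (v * (1 - v)) + 2 / 25 := by
  have h1 := qq_pos hv
  rw [← qq_four' hv]
  unfold Kp
  set q := qq v
  have h2 : 0 ≤ 7 / 5 * q ^ 2 + 3 / 5 * q + 27 / 140 := by positivity
  nlinarith [mul_nonneg (sq_nonneg (q - 9 / 14)) h2]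

/-- `H` -/
def HH (v : ℝ) : ℝ :=
  752 / 125 * (v ^ 2 / 2 - v ^ 3 / 3) - 128 / 625 * v - 8 / 5 * √v ^ 3 + 24 / 25 * √v ^ 5

/-- `H'` -/
def HH1 (v : ℝ) : ℝ := 752 / 125 * (v * (1 - v)) - 128 / 625 - 12 / 5 * √v * (1 - v)

lemma HH_deriv {v : ℝ} (hv : v ∈ Ioo (0:ℝ) 1) : HasDerivAt HH (HH1 v) v := by
  have h0 := sv_deriv hv
  have h1 : HasDerivAt (fun v : ℝ => 752 / 125 * (v ^ 2 / 2 - v ^ 3 / 3) - 128 / 625 * v)
      (752 / 125 * (v * (1 - v)) - 128 / 625) v := by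
    have e2 := (hasDerivAt_pow 2 v).div_const 2
    have e3 := (hasDerivAt_pow 3 v).div_const 3
    have e4 := ((e2.sub e3).const_mul (752 / 125)).sub ((hasDerivAt_id v).const_mul (128 / 625))
    refine e4.congr_deriv ?_
    norm_num
    ring
  have h3 : HasDerivAt (fun v : ℝ => 8 / 5 * √v ^ 3) (8 / 5 * (3 * √v ^ 2 * (1 / (2 * √v)))) v := by
    have := (h0.pow 3).const_mul (8 / 5)
    simpa using this
  have h5 : HasDerivAt (fun v : ℝ => 24 / 25 * √v ^ 5) (24 / 25 * (5 * √v ^ 4 * (1 / (2 * √v)))) v := by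
    have := (h0.pow 5).const_mul (24 / 25)
    simpa using this
  refine ((h1.sub h3).add h5).congr_deriv ?_
  have h4 := (sv_pos hv).ne'
  have h6 : √v ^ 2 = v := Real.sq_sqrt hv.1.le
  unfold HH1
  set a := √v with ha
  have e : 24 / 25 * (5 * a ^ 4 * (1 / (2 * a))) = 12 / 5 * a * a ^ 2 := by field_simp; ring
  have e' : 8 / 5 * (3 * a ^ 2 * (1 / (2 * a))) = 12 / 5 * a := by field_simp; ring
  rw [e, e', h6]
  ring

/-- the pointwise inequality -/
lemma key1 {v k : ℝ} (hv : v ∈ Ioo (0:ℝ) 1) (hk1 : Km v ≤ k) (hk2 : k ≤ Kp v) :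
    0 ≤ -(3 * (v * (1 - v)) ^ 2) + 48 / 5 * (v * (1 - v)) * k - 64 / 25 * k ^ 2 - HH1 v * k := by
  have hk0 : 0 < k := (Km_pos hv).trans_le hk1
  have h1 := Kp_le hv
  have ha := sv_pos hv
  have ha2 : √v ^ 2 = v := Real.sq_sqrt hv.1.le
  have h1v : 0 < 1 - v := by linarith [hv.2]
  have h2 : 3 * (v * (1 - v)) ^ 2 ≤ 12 / 5 * √v * (1 - v) * k := by
    have h3 : 12 / 5 * √v * (1 - v) * Km v ≤ 12 / 5 * √v * (1 - v) * k :=
      mul_le_mul_of_nonneg_left hk1 (by positivity)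
    refine le_trans (le_of_eq ?_) h3
    unfold Km
    have e : 12 / 5 * √v * (1 - v) * (5 / 4 * √v ^ 3 * (1 - v)) = 3 * (√v ^ 2 * (1 - v)) ^ 2 := by ring
    rw [e, ha2]
  have h4 : k * k ≤ (7 / 5 * (v * (1 - v)) + 2 / 25) * k :=
    mul_le_mul_of_nonneg_right (hk2.trans h1) hk0.le
  unfold HH1
  nlinarith

lemma hh_aux {a : ℝ} (h1 : 1 / 2 ≤ a ^ 2) (h2 : a ≤ 1) (h0 : 0 < a) :
    0 ≤ 752 / 125 * ((a ^ 2) ^ 2 / 2 - (a ^ 2) ^ 3 / 3) - 128 / 625 * a ^ 2 - 8 / 5 * a ^ 3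
      + 24 / 25 * a ^ 5 := by
  have ha : 141 / 200 ≤ a := by nlinarith
  have hQ : 0 ≤ 752 / 375 * a ^ 2 + 2459 / 1000 * a - 23 / 100 := by nlinarith
  have h3 : 0 ≤ (a - 141 / 200) * (1 - a) * (752 / 375 * a ^ 2 + 2459 / 1000 * a - 23 / 100) :=
    mul_nonneg (mul_nonneg (by linarith) (by linarith)) hQ
  have h4 : 0 ≤ -(752 / 375) * a ^ 4 + 24 / 25 * a ^ 3 + 376 / 125 * a ^ 2 - 8 / 5 * a - 128 / 625 := by
    nlinarith
  have h5 := mul_nonneg (sq_nonneg a) h4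
  nlinarith

lemma HH_eq {v : ℝ} (hv : v ∈ Ioo (0:ℝ) 1) : HH v = 752 / 125 * ((√v ^ 2) ^ 2 / 2 - (√v ^ 2) ^ 3 / 3)
    - 128 / 625 * √v ^ 2 - 8 / 5 * √v ^ 3 + 24 / 25 * √v ^ 5 := by
  have h6 : √v ^ 2 = v := Real.sq_sqrt hv.1.le
  unfold HH
  rw [h6]

lemma sv_le_one {v : ℝ} (hv : v ∈ Ioo (0:ℝ) 1) : √v ≤ 1 := Real.sqrt_le_one.2 hv.2.le

lemma HH_nonneg {v : ℝ} (hv : v ∈ Ioo (0:ℝ) 1) (h : 1 / 2 ≤ v) : 0 ≤ HH v := by
  rw [HH_eq hv]
  have h6 : √v ^ 2 = v := Real.sq_sqrt hv.1.le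
  exact hh_aux (by rw [h6]; exact h) (sv_le_one hv) (sv_pos hv)

lemma hh_aux2 {a : ℝ} (h1 : 9 / 10 ≤ a ^ 2) (h2 : a ≤ 1) (h0 : 0 < a) :
    3 / 20 ≤ 752 / 125 * ((a ^ 2) ^ 2 / 2 - (a ^ 2) ^ 3 / 3) - 128 / 625 * a ^ 2 - 8 / 5 * a ^ 3
      + 24 / 25 * a ^ 5 := by
  have ha : 237 / 250 ≤ a := by nlinarith
  have h3 : 0 ≤ (a - 237 / 250) * (1 - a) * (752 / 375 * a ^ 4 + 2946 / 1000 * a ^ 3
      + 83 / 100 * a ^ 2 + 42 / 100 * a + 24 / 100) :=
    mul_nonneg (mul_nonneg (by linarith) (by linarith)) (by positivity)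
  nlinarith [mul_nonneg (mul_nonneg (sub_nonneg.2 ha) (sub_nonneg.2 h2)) h0.le,
    mul_nonneg (mul_nonneg (sub_nonneg.2 ha) (sub_nonneg.2 h2)) (sq_nonneg a),
    mul_nonneg (mul_nonneg (sub_nonneg.2 ha) (sub_nonneg.2 h2)) (pow_nonneg h0.le 3),
    mul_nonneg (mul_nonneg (sub_nonneg.2 ha) (sub_nonneg.2 h2)) (pow_nonneg h0.le 4),
    mul_nonneg (sub_nonneg.2 ha) (sub_nonneg.2 h2)]

lemma HH_ge {v : ℝ} (hv : v ∈ Ioo (0:ℝ) 1) (h : 9 / 10 ≤ v) : 3 / 20 ≤ HH v := by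
  rw [HH_eq hv]
  have h6 : √v ^ 2 = v := Real.sq_sqrt hv.1.le
  exact hh_aux2 (by rw [h6]; exact h) (sv_le_one hv) (sv_pos hv)

lemma HH_nonpos {v : ℝ} (hv : v ∈ Ioo (0:ℝ) 1) (h : v ≤ 1 / 1000) : HH v ≤ 0 := by
  have ha := sv_pos hv
  have ha1 := sv_le_one hv
  have h3 : √v ^ 5 ≤ √v ^ 3 := pow_le_pow_of_le_one ha.le ha1 (by norm_num)
  have h4 : 0 ≤ √v ^ 3 := by positivity
  have h5 := hv.1
  unfold HH
  have h6 : 0 < v ^ 3 := by positivity
  nlinarith

/-- the lower end -/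
lemma f_Km {v : ℝ} (hv : v ∈ Ioo (0:ℝ) 1) :
    Km v * (6 * (v * (1 - v)) - 8 / 5 * Km v) = 5 / 2 * √v ^ 5 * (1 - v) ^ 2 * (3 - √v) := by
  have ha2 : √v ^ 2 = v := Real.sq_sqrt hv.1.le
  unfold Km
  set a := √v
  rw [← ha2]
  ring

/-- the upper end -/
lemma f_Kp {v : ℝ} (hv : v ∈ Ioo (0:ℝ) 1) :
    Kp v * (6 * (v * (1 - v)) - 8 / 5 * Kp v) = 36 / 5 * (qq v ^ 7 - 8 / 25 * qq v ^ 6) := by
  rw [← qq_four' hv]
  unfold Kp
  ring

lemma q7 {q : ℝ} (hq : 0 ≤ q) : -(3 / 20000) ≤ 36 / 5 * (q ^ 7 - 8 / 25 * q ^ 6) := by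
  have h1 : 0 ≤ q ^ 5 + 8 / 35 * q ^ 4 + 1536 / 30625 * q ^ 3 + 55296 / 5359375 * q ^ 2
      + 1769472 / 937890625 * q + 42467328 / 164130859375 := by positivity
  have h2 := mul_nonneg (sq_nonneg (q - 48 / 175)) h1
  have e : q ^ 7 - 8 / 25 * q ^ 6 = (q - 48 / 175) ^ 2 * (q ^ 5 + 8 / 35 * q ^ 4
      + 1536 / 30625 * q ^ 3 + 55296 / 5359375 * q ^ 2
      + 1769472 / 937890625 * q + 42467328 / 164130859375)
      - 97844723712 / 5026507568359375 := by ring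
  rw [e]
  linarith

/-- concavity in `k` -/
lemma f_min {w k k1 k2 m : ℝ} (h1 : k1 ≤ k) (h2 : k ≤ k2)
    (hm1 : m ≤ k1 * (6 * w - 8 / 5 * k1)) (hm2 : m ≤ k2 * (6 * w - 8 / 5 * k2)) :
    m ≤ k * (6 * w - 8 / 5 * k) := by
  rcases le_total (k + k1) (15 / 4 * w) with h | h
  · have : 0 ≤ (k - k1) * (6 * w - 8 / 5 * (k + k1)) :=
      mul_nonneg (by linarith) (by linarith)
    nlinarith
  · have : 0 ≤ (k2 - k) * (8 / 5 * (k + k2) - 6 * w) :=
      mul_nonneg (by linarith) (by linarith)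
    nlinarith

/-- main lower bound, `ν ≥ 1/50` -/
lemma L_ge {v k nu : ℝ} (hv : v ∈ Ioo (0:ℝ) 1) (hh : 1 / 2 ≤ v) (hk1 : Km v ≤ k) (hk2 : k ≤ Kp v)
    (hn : 1 / 50 ≤ nu) :
    27 / 10000 ≤ k * (6 * (v * (1 - v)) - 8 / 5 * k) + nu * HH v := by
  have ha := sv_pos hv
  have ha1 := sv_le_one hv
  have ha2 : √v ^ 2 = v := Real.sq_sqrt hv.1.le
  have hq := qq_pos hv
  have hq4 := qq_four' hv
  have h1v : 0 < 1 - v := by linarith [hv.2]
  rcases le_total v (9 / 10) with h9 | h9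
  · -- `1/2 ≤ v ≤ 9/10`
    have hH := HH_nonneg hv hh
    have hH' : 0 ≤ nu * HH v := mul_nonneg (by linarith) hH
    have h1 : 27 / 10000 ≤ k * (6 * (v * (1 - v)) - 8 / 5 * k) := by
      apply f_min hk1 hk2
      · rw [f_Km hv]
        have h2 : 7 / 10 ≤ √v := by nlinarith
        have h3 : (7 / 10) ^ 5 ≤ √v ^ 5 := pow_le_pow_left₀ (by norm_num) h2 5
        have h4 : 1 / 100 ≤ (1 - v) ^ 2 := by nlinarith
        have h5 : (7 / 10) ^ 5 * (1 / 100) ≤ √v ^ 5 * (1 - v) ^ 2 :=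
          mul_le_mul h3 h4 (by norm_num) (by positivity)
        have h6 : 2 ≤ 3 - √v := by linarith
        have h7 : (7 / 10) ^ 5 * (1 / 100) * 2 ≤ √v ^ 5 * (1 - v) ^ 2 * (3 - √v) :=
          mul_le_mul h5 h6 (by norm_num) (by positivity)
        nlinarith
      · rw [f_Kp hv]
        have h2 : 9 / 100 ≤ qq v ^ 4 := by rw [hq4]; nlinarith
        have h3 : 54 / 100 ≤ qq v := by
          by_contra hc
          push Not at hc
          have : qq v ^ 4 < (54 / 100) ^ 4 := pow_lt_pow_left₀ hc hq.le (by norm_num)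
          norm_num at this
          linarith
        have h4 : (54 / 100) ^ 6 ≤ qq v ^ 6 := pow_le_pow_left₀ (by norm_num) h3 6
        have h5 : (54 / 100) ^ 6 * (22 / 100) ≤ qq v ^ 6 * (qq v - 8 / 25) :=
          mul_le_mul h4 (by linarith) (by norm_num) (by positivity)
        have e : qq v ^ 7 - 8 / 25 * qq v ^ 6 = qq v ^ 6 * (qq v - 8 / 25) := by ring
        rw [e]
        nlinarith
    linarith
  · have hH := HH_ge hv h9
    have hH' : 1 / 50 * (3 / 20) ≤ nu * HH v := mul_le_mul hn hH (by norm_num) (by linarith)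
    have h1 : -(3 / 20000) ≤ k * (6 * (v * (1 - v)) - 8 / 5 * k) := by
      apply f_min hk1 hk2
      · rw [f_Km hv]
        have : 0 ≤ 5 / 2 * √v ^ 5 * (1 - v) ^ 2 * (3 - √v) := by
          have : 0 ≤ 3 - √v := by linarith
          positivity
        linarith
      · rw [f_Kp hv]; exact q7 hq.le
    linarith

lemma qa_bound {v : ℝ} (hv : v ∈ Ioo (0:ℝ) 1) (h : v ≤ 1 / 1000) : qq v ≤ 18 / 100 := by
  have hq := qq_pos hv
  have hq4 := qq_four' hv
  by_contra hc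
  push Not at hc
  have h1 : (18 / 100 : ℝ) ^ 4 < qq v ^ 4 := pow_lt_pow_left₀ hc (by norm_num) (by norm_num)
  rw [hq4] at h1
  norm_num at h1
  nlinarith [hv.1, hv.2]

/-- upper bound at the left end, `ν ≤ 1` -/
lemma La_le {v k nu : ℝ} (hv : v ∈ Ioo (0:ℝ) 1) (hh : v ≤ 1 / 1000) (hk1 : Km v ≤ k)
    (hk2 : k ≤ Kp v) (hn : 0 ≤ nu) :
    k * (6 * (v * (1 - v)) - 8 / 5 * k) + nu * HH v ≤ 42 / 1000000 := by
  have hq := qq_pos hv
  have hq4 := qq_four' hv
  have hqa := qa_bound hv hh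
  have hk0 : 0 < k := (Km_pos hv).trans_le hk1
  have h1 : nu * HH v ≤ 0 := mul_nonpos_of_nonneg_of_nonpos hn (HH_nonpos hv hh)
  have h2 : k * (6 * (v * (1 - v)) - 8 / 5 * k) ≤ 6 * (v * (1 - v)) * Kp v := by
    have h3 := w_pos hv
    have h4 : 6 * (v * (1 - v)) * k ≤ 6 * (v * (1 - v)) * Kp v :=
      mul_le_mul_of_nonneg_left hk2 (by positivity)
    nlinarith [sq_nonneg k]
  have h5 : v * (1 - v) ≤ 1 / 1000 := by nlinarith [hv.1]
  have h6 : Kp v ≤ 6 / 5 * (18 / 100) ^ 3 := by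
    unfold Kp
    have := pow_le_pow_left₀ hq.le hqa 3
    linarith
  have h7 : v * (1 - v) * Kp v ≤ 1 / 1000 * (6 / 5 * (18 / 100) ^ 3) :=
    mul_le_mul h5 h6 (Kp_pos hv).le (by norm_num)
  nlinarith

/-! ### integration of a pointwise inequality -/

lemma int_ge {g g' I : ℝ → ℝ} {x y : ℝ} (hxy : x ≤ y) (hg : ∀ z, HasDerivAt g (g' z) z)
    (hI : Continuous I) (hle : ∀ z ∈ Icc x y, g' z ≤ I z) : g y - g x ≤ ∫ z in x..y, I z := by
  refine intervalIntegral.sub_le_integral_of_hasDeriv_right_of_le hxy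
    (fun z hz => (hg z).continuousAt.continuousWithinAt)
    (fun z hz => (hg z).hasDerivWithinAt) ?_
    (fun z hz => hle z ⟨hz.1.le, hz.2.le⟩)
  exact hI.continuousOn.integrableOn_Icc

/-- profile at one time with the slope band -/
structure Sl (s b : ℝ) (V P Px : ℝ → ℝ) : Prop where
  s_pos : 0 < s
  b_nonneg : 0 ≤ b
  b_le : b ≤ s ^ 2
  hV : ∀ x, HasDerivAt V (P x) x
  hP : ∀ x, HasDerivAt P (Px x) x
  cPx : Continuous Px
  V_mem : ∀ x, V x ∈ Ioo (0:ℝ) 1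
  lo : ∀ x, s * Km (V x) ≤ P x
  up : ∀ x, P x ≤ s * Kp (V x)

namespace Sl

variable {s b : ℝ} {V P Px : ℝ → ℝ}

lemma cV (h : Sl s b V P Px) : Continuous V :=
  continuous_iff_continuousAt.2 fun x => (h.hV x).continuousAt

lemma cP (h : Sl s b V P Px) : Continuous P :=
  continuous_iff_continuousAt.2 fun x => (h.hP x).continuousAt

lemma P_pos (h : Sl s b V P Px) (x : ℝ) : 0 < P x :=
  (mul_pos h.s_pos (Km_pos (h.V_mem x))).trans_le (h.lo x)

lemma cII (h : Sl s b V P Px) : Continuous (II b V P Px) := II_continuous h.cV h.cP h.cPx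

lemma k_lo (h : Sl s b V P Px) (x : ℝ) : Km (V x) ≤ P x / s := by
  rw [le_div_iff₀ h.s_pos, mul_comm]; exact h.lo x

lemma k_up (h : Sl s b V P Px) (x : ℝ) : P x / s ≤ Kp (V x) := by
  rw [div_le_iff₀ h.s_pos, mul_comm]; exact h.up x

lemma mono (h : Sl s b V P Px) : StrictMono V := by
  apply strictMono_of_deriv_pos
  intro x; rw [(h.hV x).deriv]; exact h.P_pos x

/-- case `ν ≥ 1/50` -/
theorem case1 (h : Sl s b V P Px) {xa x : ℝ} (hx : xa ≤ x) (hVa : V xa ≤ 1 / 1000)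
    (hVx : 1 / 2 ≤ V x) (hn : 1 / 50 * s ^ 2 ≤ b) :
    s ^ 3 / 20000 ≤ ∫ z in xa..x, II b V P Px z := by
  have hs := h.s_pos
  set nu := b / s ^ 2 with hnu
  have hnu1 : 1 / 50 ≤ nu := by rw [hnu, le_div_iff₀ (by positivity)]; exact hn
  have hnu0 : 0 ≤ nu := by linarith
  have hb : b = nu * s ^ 2 := by rw [hnu]; field_simp
  have hk : ∀ z, HasDerivAt (fun z => P z / s) (Px z / s) z := fun z => (h.hP z).div_const s
  have hw : ∀ z, HasDerivAt (fun z => V z * (1 - V z)) ((1 - 2 * V z) * P z) z := by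
    intro z
    refine ((h.hV z).mul ((h.hV z).const_sub 1)).congr_deriv ?_
    ring
  have hH : ∀ z, HasDerivAt (fun z => HH (V z)) (HH1 (V z) * P z) z :=
    fun z => (HH_deriv (h.V_mem z)).comp z (h.hV z)
  have hg : ∀ z, HasDerivAt (fun z => s ^ 3 * (nu * (P z / s * (6 * (V z * (1 - V z)) -
      8 / 5 * (P z / s))) + nu ^ 2 * HH (V z)))
      (s ^ 3 * (nu * (Px z / s * (6 * (V z * (1 - V z)) - 8 / 5 * (P z / s)) +
        P z / s * (6 * ((1 - 2 * V z) * P z) - 8 / 5 * (Px z / s))) +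
        nu ^ 2 * (HH1 (V z) * P z))) z := by
    intro z
    have h1 := ((hk z).mul (((hw z).const_mul 6).sub ((hk z).const_mul (8 / 5)))).const_mul nu
    exact (h1.add ((hH z).const_mul (nu ^ 2))).const_mul (s ^ 3)
  have key := int_ge (I := II b V P Px) hx hg h.cII (by
    intro z _
    have h1 := key1 (h.V_mem z) (h.k_lo z) (h.k_up z)
    set k := P z / s with hkd
    have hPz : P z = s * k := by rw [hkd]; field_simp
    set κ := Px z / s with hκd
    have hPxz : Px z = s * κ := by rw [hκd]; field_simp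
    unfold II
    rw [hPz, hPxz, hb]
    set v := V z
    have e : (s * κ) ^ 2 + 6 * (nu * s ^ 2) * (1 - 2 * v) * (s * k) ^ 2 +
        6 * (nu * s ^ 2) ^ 2 * v ^ 2 * (1 - v) ^ 2 -
        s ^ 3 * (nu * (κ * (6 * (v * (1 - v)) - 8 / 5 * k) +
        k * (6 * ((1 - 2 * v) * (s * k)) - 8 / 5 * κ)) + nu ^ 2 * (HH1 v * (s * k))) =
        (s * κ - s ^ 2 * nu * (3 * (v * (1 - v)) - 8 / 5 * k)) ^ 2 +
        s ^ 4 * nu ^ 2 * (-(3 * (v * (1 - v)) ^ 2) + 48 / 5 * (v * (1 - v)) * k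
          - 64 / 25 * k ^ 2 - HH1 v * k) := by ring
    have h2 : 0 ≤ s ^ 4 * nu ^ 2 * (-(3 * (v * (1 - v)) ^ 2) + 48 / 5 * (v * (1 - v)) * k
          - 64 / 25 * k ^ 2 - HH1 v * k) := mul_nonneg (by positivity) h1
    nlinarith [sq_nonneg (s * κ - s ^ 2 * nu * (3 * (v * (1 - v)) - 8 / 5 * k))])
  refine le_trans ?_ key
  have h1 := L_ge (h.V_mem x) hVx (h.k_lo x) (h.k_up x) hnu1
  have h2 := La_le (h.V_mem xa) hVa (h.k_lo xa) (h.k_up xa) hnu0
  have e : s ^ 3 * (nu * (P x / s * (6 * (V x * (1 - V x)) - 8 / 5 * (P x / s))) + nu ^ 2 * HH (V x))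
      - s ^ 3 * (nu * (P xa / s * (6 * (V xa * (1 - V xa)) - 8 / 5 * (P xa / s))) +
        nu ^ 2 * HH (V xa)) =
      s ^ 3 * nu * ((P x / s * (6 * (V x * (1 - V x)) - 8 / 5 * (P x / s)) + nu * HH (V x)) -
        (P xa / s * (6 * (V xa * (1 - V xa)) - 8 / 5 * (P xa / s)) + nu * HH (V xa))) := by ring
  rw [e]
  have h3 : 27 / 10000 - 42 / 1000000 ≤
      (P x / s * (6 * (V x * (1 - V x)) - 8 / 5 * (P x / s)) + nu * HH (V x)) -
        (P xa / s * (6 * (V xa * (1 - V xa)) - 8 / 5 * (P xa / s)) + nu * HH (V xa)) := by linarith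
  have hs3 : 0 < s ^ 3 := by positivity
  calc s ^ 3 / 20000 ≤ s ^ 3 * (1 / 50) * (27 / 10000 - 42 / 1000000) := by nlinarith
    _ ≤ s ^ 3 * nu * (27 / 10000 - 42 / 1000000) := by
        apply mul_le_mul_of_nonneg_right _ (by norm_num)
        exact mul_le_mul_of_nonneg_left hnu1 hs3.le
    _ ≤ _ := mul_le_mul_of_nonneg_left h3 (by positivity)

set_option maxHeartbeats 1000000 in
/-- case `ν ≤ 1/50` -/
theorem case2 (h : Sl s b V P Px) {xa x : ℝ} (hx : xa ≤ x) (hVa : V xa ≤ 1 / 1000)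
    (hVx : 1 / 2 ≤ V x) (hn : b ≤ 1 / 50 * s ^ 2) :
    s ^ 3 / 20000 ≤ ∫ z in xa..x, II b V P Px z := by
  have hs := h.s_pos
  have hs3 : 0 < s ^ 3 := by positivity
  set nu := b / s ^ 2 with hnu
  have hnu1 : nu ≤ 1 / 50 := by rw [hnu, div_le_iff₀ (by positivity)]; exact hn
  have hb : b = nu * s ^ 2 := by rw [hnu]; field_simp
  have hnu0 : 0 ≤ nu := div_nonneg h.b_nonneg (by positivity)
  -- the middle point
  obtain ⟨xh, ⟨hxa, hxx⟩, hxh⟩ : ∃ xh ∈ Icc xa x, V xh = 1 / 2 :=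
    intermediate_value_Icc hx h.cV.continuousOn ⟨by linarith, hVx⟩
  have hk : ∀ z, HasDerivAt (fun z => P z / s) (Px z / s) z := fun z => (h.hP z).div_const s
  have hk0 : ∀ z, 0 < P z / s := fun z => div_pos (h.P_pos z) hs
  -- left part
  have hgl : ∀ z, HasDerivAt (fun z => s ^ 3 * (4 / 3 * (7 / 50) * (P z / s * √(P z / s)) -
      (7 / 50) ^ 2 * V z))
      (s ^ 3 * (4 / 3 * (7 / 50) * (Px z / s * √(P z / s) +
        P z / s * (Px z / s / (2 * √(P z / s)))) - (7 / 50) ^ 2 * P z)) z := by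
    intro z
    have h1 := ((hk z).mul ((hk z).sqrt (hk0 z).ne')).const_mul (4 / 3 * (7 / 50))
    exact (h1.sub ((h.hV z).const_mul ((7 / 50) ^ 2))).const_mul (s ^ 3)
  have keyl := int_ge (I := II b V P Px) hxa hgl h.cII (by
    intro z hz
    have hVz : V z ≤ 1 / 2 := by rw [← hxh]; exact h.mono.monotone hz.2
    have hr := Real.sqrt_pos.2 (hk0 z)
    have hr2 : √(P z / s) ^ 2 = P z / s := Real.sq_sqrt (hk0 z).le
    set r := √(P z / s) with hrd
    have hPz : P z = s * r ^ 2 := by rw [hr2]; field_simp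
    set κ := Px z / s with hκd
    have hPxz : Px z = s * κ := by rw [hκd]; field_simp
    have e : s ^ 3 * (4 / 3 * (7 / 50) * (κ * r + P z / s * (κ / (2 * r))) - (7 / 50) ^ 2 * P z) =
        s ^ 3 * (2 * (7 / 50) * (κ * r) - (7 / 50) ^ 2 * (s * r ^ 2)) := by
      rw [← hr2, hPz]
      field_simp
      ring
    rw [e]
    have h1 : Px z ^ 2 ≤ II b V P Px z := by
      unfold II
      have h2 : 0 ≤ 1 - 2 * V z := by linarith
      have hb0 := h.b_nonneg
      have h3 : 0 ≤ 6 * b * (1 - 2 * V z) * P z ^ 2 := by positivity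
      have h4 : 0 ≤ 6 * b ^ 2 * V z ^ 2 * (1 - V z) ^ 2 := by positivity
      linarith
    refine le_trans ?_ h1
    rw [hPxz]
    nlinarith [sq_nonneg (s * κ - 7 / 50 * s ^ 2 * r)])
  -- right part
  have hgr : ∀ z, HasDerivAt (fun z => s ^ 3 * (nu * (144 / 35 * qq (V z) ^ 7)))
      (s ^ 3 * (nu * (144 / 35 * (7 * qq (V z) ^ 6 * ((1 - 2 * V z) / (4 * qq (V z) ^ 3) * P z))))) z := by
    intro z
    have h1 := ((qq_deriv (h.V_mem z)).comp z (h.hV z)).pow 7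
    have h2 := ((h1.const_mul (144 / 35)).const_mul nu).const_mul (s ^ 3)
    refine h2.congr_deriv ?_
    simp
  have keyr := int_ge (I := II b V P Px) hxx hgr h.cII (by
    intro z hz
    have hVz : 1 / 2 ≤ V z := by rw [← hxh]; exact h.mono.monotone hz.1
    have hq := qq_pos (h.V_mem z)
    have hPp := h.P_pos z
    have hup := h.up z
    have e : s ^ 3 * (nu * (144 / 35 * (7 * qq (V z) ^ 6 * ((1 - 2 * V z) / (4 * qq (V z) ^ 3) * P z))))
        = -(6 * (nu * s ^ 2) * (2 * V z - 1) * P z * (s * Kp (V z))) := by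
      unfold Kp
      field_simp
      ring
    rw [e, ← hb]
    have h1 : -(6 * b * (2 * V z - 1) * P z * P z) ≤ II b V P Px z := by
      unfold II
      have h4 : 0 ≤ 6 * b ^ 2 * V z ^ 2 * (1 - V z) ^ 2 := by positivity
      nlinarith [sq_nonneg (Px z)]
    refine le_trans ?_ h1
    have hb0 := h.b_nonneg
    have h2 : 0 ≤ 6 * b * (2 * V z - 1) * P z := by
      have : 0 ≤ 2 * V z - 1 := by linarith
      positivity
    have := mul_le_mul_of_nonneg_left hup h2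
    linarith)
  rw [← intervalIntegral.integral_add_adjacent_intervals (h.cII.intervalIntegrable xa xh)
    (h.cII.intervalIntegrable xh x)]
  -- numbers
  have hmid : (1 / 2 : ℝ) ∈ Ioo (0:ℝ) 1 := by constructor <;> norm_num
  have hkh : 22 / 100 ≤ P xh / s := by
    refine le_trans ?_ (h.k_lo xh)
    rw [hxh]
    unfold Km
    have h1 : 7071 / 10000 ≤ √(1 / 2 : ℝ) := by
      apply Real.le_sqrt_of_sq_le; norm_num
    have h2 : (7071 / 10000) ^ 3 ≤ √(1 / 2 : ℝ) ^ 3 := pow_le_pow_left₀ (by norm_num) h1 3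
    nlinarith
  have hrh : 46 / 100 ≤ √(P xh / s) := by
    apply Real.le_sqrt_of_sq_le
    nlinarith
  have h5 : 22 / 100 * (46 / 100) ≤ P xh / s * √(P xh / s) :=
    mul_le_mul hkh hrh (by norm_num) (hk0 xh).le
  have hka : P xa / s ≤ 7 / 1000 := by
    refine (h.k_up xa).trans ?_
    unfold Kp
    have hq := qq_pos (h.V_mem xa)
    have := pow_le_pow_left₀ hq.le (qa_bound (h.V_mem xa) hVa) 3
    nlinarith
  have hra : √(P xa / s) ≤ 1 / 10 := by
    rw [show (1 / 10 : ℝ) = √((1 / 10) ^ 2) by rw [Real.sqrt_sq (by norm_num)]]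
    apply Real.sqrt_le_sqrt
    nlinarith
  have h6 : P xa / s * √(P xa / s) ≤ 7 / 1000 * (1 / 10) :=
    mul_le_mul hka hra (Real.sqrt_nonneg _) (by norm_num)
  have hVa0 := (h.V_mem xa).1
  have h7 : qq (V xh) ^ 7 ≤ 886 / 10000 := by
    rw [hxh]
    have h8 := qq_four' hmid
    have h9 : qq (1 / 2 : ℝ) ^ 2 = 1 / 2 := by
      rw [qq_sq]
      rw [show (1 / 2 : ℝ) * (1 - 1 / 2) = (1 / 2) ^ 2 by norm_num, Real.sqrt_sq (by norm_num)]
    have h10 : qq (1 / 2 : ℝ) ≤ 7072 / 10000 := by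
      have hq := qq_pos hmid
      nlinarith
    have e : qq (1 / 2 : ℝ) ^ 7 = (qq (1 / 2 : ℝ) ^ 2) ^ 3 * qq (1 / 2 : ℝ) := by ring
    rw [e, h9]
    nlinarith
  have h8 : 0 ≤ qq (V x) ^ 7 := by have := (qq_pos (h.V_mem x)).le; positivity
  have hl : s ^ 3 * (4 / 3 * (7 / 50) * (22 / 100 * (46 / 100) - 7 / 1000 * (1 / 10)) - (7 / 50) ^ 2 * (1 / 2)) ≤
      ∫ z in xa..xh, II b V P Px z := by
    refine le_trans ?_ keyl
    rw [← mul_sub]
    apply mul_le_mul_of_nonneg_left _ hs3.le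
    rw [hxh]
    nlinarith
  have hr : -(s ^ 3 * (1 / 50 * (144 / 35 * (886 / 10000)))) ≤ ∫ z in xh..x, II b V P Px z := by
    refine le_trans ?_ keyr
    rw [← mul_sub, neg_mul_eq_mul_neg]
    apply mul_le_mul_of_nonneg_left _ hs3.le
    have h9 : nu * (144 / 35 * qq (V xh) ^ 7) ≤ 1 / 50 * (144 / 35 * (886 / 10000)) :=
      mul_le_mul hnu1 (by linarith) (by have := (qq_pos (h.V_mem xh)).le; positivity) (by norm_num)
    have h10 : 0 ≤ nu * (144 / 35 * qq (V x) ^ 7) := by positivity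
    linarith
  nlinarith

/-- **N4** : the algebraic no-gap certificate. -/
theorem cert (h : Sl s b V P Px) {xa x : ℝ} (hx : xa ≤ x) (hVa : V xa ≤ 1 / 1000)
    (hVx : 1 / 2 ≤ V x) : s ^ 3 / 20000 ≤ ∫ z in xa..x, II b V P Px z := by
  rcases le_total (1 / 50 * s ^ 2) b with hn | hn
  · exact h.case1 hx hVa hVx hn
  · exact h.case2 hx hVa hVx hn

end Sl

/-! ### the step system -/

open Crest.Agent.R146.StepDef_791

/-- the slice of a step system in the old clock (`(1-t) b ≤ 1`) -/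
theorem sl_of (A : SD) (hB : Back A) (h : ∀ t ∈ Ico 0 A.T, (1 - t) * A.b t ≤ 1)
    {t : ℝ} (ht : t ∈ Ico 0 A.T) : Sl (√(1 - t))⁻¹ (A.b t) (A.V t) (A.P t) (A.Px t) := by
  have htI : t ∈ Icc 0 A.T := ⟨ht.1, ht.2.le⟩
  have h2 : 0 < 1 - t := by linarith [ht.2, A.hT1]
  obtain ⟨M, hS⟩ := hB.bsys
  exact { s_pos := inv_pos.2 (Real.sqrt_pos.2 h2)
          b_nonneg := hS.b_nonneg t htI
          b_le := b_le_g h2 (h t ht)
          hV := hB.V_x t htI
          hP := hB.P_x t htI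
          cPx := continuous_iff_continuousAt.2 fun x => (hB.Px_x t htI x).continuousAt
          V_mem := fun x => ⟨hS.V_pos t htI x, hS.V_lt t htI x⟩
          lo := band_lo A hB h t htI
          up := band_up A hB h t htI }

/-- **N4 for the step system**: `∫_{xa}^x II ≥ (1-t)^{-3/2}/20000`. -/
theorem step_cert (A : SD) (hB : Back A) (h : ∀ t ∈ Ico 0 A.T, (1 - t) * A.b t ≤ 1)
    {t : ℝ} (ht : t ∈ Ico 0 A.T) {xa x : ℝ} (hx : xa ≤ x) (hVa : A.V t xa ≤ 1 / 1000)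
    (hVx : 1 / 2 ≤ A.V t x) :
    (√(1 - t))⁻¹ ^ 3 / 20000 ≤ ∫ z in xa..x, II (A.b t) (A.V t) (A.P t) (A.Px t) z :=
  (sl_of A hB h ht).cert hx hVa hVx

end

end Crest.Agent.R146.NgCert_87
end

-- ▼ part R146/NoGap_546

/-!
Row 146, PT: **NOGAP is a theorem** (helper546), from `NoGapM_546.nogap`, helper384's forgetting barrier
and helper87's energy certificate.
-/

set_option autoImplicit false

namespace Crest.Agent.R146.NoGap_546

open MeasureTheory Set Filter Topology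
open Crest.Agent.R146.StepDef_791 Crest.Agent.R146.MaxPCmp_371 Crest.Agent.R146.MaxPCmp2_371
open Crest.Agent.R146.NoGapM_546 Crest.Agent.R146.Flat_384 Crest.Agent.R146.FlatStep_384
open Crest.Agent.R146.MaxP_371 Crest.Agent.R146.MaxP2_371 Crest.Agent.R146.Pos_371

/-- the forgetting lower bound of the law slope, from any bound at `t0` -/
theorem low : LOW := by
  intro A x0 p Y Yx Yxx hBk _ hL hb _ t0 ht0 hD C hC hinit
  obtain ⟨M, hM⟩ := hL.ysys t0 ht0
  have hν : ∀ t ∈ Ico (0 : ℝ) A.T, A.b t * (1 - t) ≤ 1 := b_comm hb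
  have ht0' := ht0.1
  have hbar : FBar t0 A.T (fun _ _ => (0:ℝ)) (fun _ _ => 0) (fun _ _ => 0) (fun _ _ => 0) :=
    { cS := continuousOn_const
      hSt := fun t _ x => hasDerivWithinAt_const t _ 0
      hSx := fun t _ x => hasDerivAt_const x 0
      hSxx := fun t _ x => HasSide.of_hasDerivAt (hasDerivAt_const x 0) }
  have key := add_le_Y (E := A.E) (C := C) (c0 := 15) (L := 0) hM hbar
    (StepClk_900.E_cont A).continuousOn (fun t _ => A.E_pos t) (fun t _ => StepClk_900.E_l A t)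
    (by linarith) (by linarith) (fun t _ x => by simp) (fun t _ x => by simp) ?_ ?_ ?_
  · intro t ht x
    have := key t ht x
    linarith
  · intro t ht x
    have htI : t ∈ Icc 0 A.T := ⟨ht0'.le.trans ht.1.le, ht.2⟩
    have h1 := mul_nonneg (A.bl_nonneg t) (hBk.P_pos t htI x).le
    simp only [mul_zero, zero_div, sub_zero, zero_add, add_zero]
    linarith
  · intro t ht x
    have htI : t ∈ Icc 0 A.T := ⟨ht0'.le.trans ht.1.le, ht.2⟩
    have htI' : t ∈ Icc t0 A.T := ⟨ht.1.le, ht.2⟩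
    have hE := A.E_pos t
    have hDE : A.D t * A.E t = 1 := by
      unfold SD.E; exact mul_inv_cancel₀ (A.D_pos t).ne'
    have hcond := hpt_low (x := x) (e := A.E t) (β := A.bl t) (uu := A.u t) (VV := A.V t)
      (A.bl_nonneg t) hE ?_ ?_ (V_01 hBk htI x).1.le
    · simp only [mul_zero, sub_zero, add_zero]
      exact hcond
    · intro hx
      have h1 := step_FF hBk hν ht0'.le ht0.2.le hD t htI' x hx
      have h2 := mul_le_mul_of_nonneg_left h1 hE.le
      have e1 : A.E t * ((A.D t - x) * A.V t x) = (1 - x * A.E t) * A.V t x := by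
        have : A.E t * ((A.D t - x) * A.V t x) = (A.D t * A.E t - x * A.E t) * A.V t x := by ring
        rw [this, hDE]
      rw [e1] at h2
      exact h2
    · intro hx
      refine ⟨?_, ?_⟩
      · have h1 := u_anti hBk htI hx
        have h2 := step_u_zero hBk hν htI
        have h3 := hD t htI'
        have h4 : A.E t * (21 * √(1 - t)) ≤ 1 := by
          have := mul_le_mul_of_nonneg_left h3 hE.le
          linarith
        have h5 : A.E t * (x + A.u t x) ≤ A.E t * (x + 0.8 * √(1 - t)) :=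
          mul_le_mul_of_nonneg_left (by linarith) hE.le
        have h6 := mul_nonneg hE.le (Real.sqrt_nonneg (1 - t))
        nlinarith
      · exact (step_V_zero hBk hν t htI).trans (V_mono hBk htI hx)
  · intro x
    have := hinit x
    linarith

/-- the energy certificate and the lower slope band -/
theorem cert : CERT := by
  intro A hB hb t ht
  have hb' : ∀ t ∈ Ico (0 : ℝ) A.T, (1 - t) * A.b t ≤ 1 := fun t ht =>
    hb t ⟨ht.1, (ht.2.trans A.hT1).le⟩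
  refine ⟨fun x hx => ?_, fun xa x hVa hx hVx =>
    NgCert_87.step_cert A hB hb' ⟨ht.1.le, ht.2⟩ hx hVa hVx⟩
  have htI : t ∈ Icc 0 A.T := ⟨ht.1.le, ht.2.le⟩
  have h1 := NgBand_87.band_lo A hB hb' t htI x
  have hV := V_01 hB htI x
  have hs : 0 < (√(1 - t))⁻¹ := inv_pos.2 (Real.sqrt_pos.2 (by linarith [ht.2, A.hT1]))
  refine le_trans ?_ h1
  unfold NgBand_87.Km
  -- `√v³ ≥ .35` for `v ≥ 1/2`
  have h2 : (7 / 10 : ℝ) ≤ √(A.V t x) := by
    apply Real.le_sqrt_of_sq_le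
    norm_num
    linarith
  have h3 : (343 / 1000 : ℝ) ≤ √(A.V t x) ^ 3 := by
    have := pow_le_pow_left₀ (by norm_num) h2 3
    norm_num at this ⊢
    linarith
  have h4 : 2 / 5 * (1 - A.V t x) ≤ 5 / 4 * √(A.V t x) ^ 3 * (1 - A.V t x) :=
    mul_le_mul_of_nonneg_right (by linarith) (by linarith [hV.2])
  have h5 := mul_le_mul_of_nonneg_left h4 hs.le
  calc 2 / 5 * (√(1 - t))⁻¹ * (1 - A.V t x) = (√(1 - t))⁻¹ * (2 / 5 * (1 - A.V t x)) := by ring
    _ ≤ _ := h5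

/-- **NOGAP** -/
theorem nogap : TipSeq_791.NOGAP := NoGapM_546.nogap low cert

end Crest.Agent.R146.NoGap_546
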