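import Crest.Agent.R146.Stat8_307

/-!
# Row 146: the closure identity of the stationary pair

`∫ q I² = (lam - c) ∫ q V R + 2 c ∫ q V R²`, so `C(c) = ∫ q I² / (2 ∫ q V R²)` satisfies
`C(c) = c ↔ lam = c`.
-/

namespace Crest.Agent.R146.Stat9_307

open Set Filter Topology MeasureTheory
open SPair_307 Stat7_307 Stat8_307

variable {c : ℝ} {W V I k : ℝ → ℝ} {lam : ℝ}

lemma tendsto_gauss {β C : ℝ} (hβ : 0 < β) {g : ℝ → ℝ}
    (hg : ∀ x, |g x| ≤ C * Real.exp (-β * x ^ 2)) : Tendsto g atTop (𝓝 0) ∧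
      Tendsto g atBot (𝓝 0) := by
  have h1 : Tendsto (fun x : ℝ => -β * x ^ 2) atTop atBot :=
    (tendsto_pow_atTop (by norm_num)).const_mul_atTop_of_neg (by linarith)
  have h2 : Tendsto (fun x : ℝ => -β * x ^ 2) atBot atBot := by
    have h3 : Tendsto (fun x : ℝ => x ^ 2) atBot atTop := by
      have := (tendsto_pow_atTop (α := ℝ) (n := 2) (by norm_num)).comp tendsto_neg_atBot_atTop
      refine this.congr fun x => ?_
      simp
    exact h3.const_mul_atTop_of_neg (by linarith)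
  constructor
  · refine squeeze_zero_norm (a := fun x => C * Real.exp (-β * x ^ 2)) (fun x => hg x) ?_
    have := (Real.tendsto_exp_atBot.comp h1).const_mul C
    simpa using this
  · refine squeeze_zero_norm (a := fun x => C * Real.exp (-β * x ^ 2)) (fun x => hg x) ?_
    have := (Real.tendsto_exp_atBot.comp h2).const_mul C
    simpa using this

lemma integrable_gauss {β C : ℝ} (hβ : 0 < β) {g : ℝ → ℝ} (hc : Continuous g)
    (hg : ∀ x, |g x| ≤ C * Real.exp (-β * x ^ 2)) : Integrable g := by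
  refine ((integrable_exp_neg_mul_sq hβ).const_mul C).mono' hc.aestronglyMeasurable ?_
  exact Eventually.of_forall fun x => hg x

lemma qs_le (h : SPair c W V I k lam) : ∃ K, 0 ≤ K ∧ (∀ x, k x ≤ K) ∧
    ∀ x, qs k x ≤ Real.exp (K * |x|) := by
  obtain ⟨C, hC⟩ := h.k_bdd
  have hC0 : 0 ≤ C := (h.k_pos 0).le.trans (hC 0)
  refine ⟨C, hC0, hC, fun x => ?_⟩
  rw [qs]
  apply Real.exp_le_exp.2
  have h1 : ‖∫ r in (0 : ℝ)..x, k r‖ ≤ C * |x - 0| :=
    intervalIntegral.norm_integral_le_of_norm_le_const fun r _ => by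
      rw [Real.norm_eq_abs, abs_of_pos (h.k_pos r)]
      exact hC r
  rw [sub_zero, Real.norm_eq_abs] at h1
  linarith [(abs_le.1 h1).1]

lemma A_abs (h : SPair c W V I k lam) (x : ℝ) : |Ad c W x| ≤ 1 + |x| := by
  have hc := h.c_pos
  have hc1 := h.c_lt
  have h1 := h.U_pos x
  have h2 := h.W_pos x
  have hr := Real.sq_sqrt (show (0 : ℝ) ≤ x ^ 2 + 1 by positivity)
  have hr0 := Real.sqrt_nonneg (x ^ 2 + 1)
  have h3 := h.W_le x
  have h4 := abs_nonneg x
  have h5 := sq_abs x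
  have h6 : Real.sqrt (x ^ 2 + 1) ≤ |x| + 1 := by nlinarith
  unfold Ad
  rw [abs_le]
  constructor
  · have h7 := neg_abs_le x
    nlinarith
  · have h7 := le_abs_self x
    have h8 := neg_abs_le x
    nlinarith

/-- the weight `q (1+|x|) exp (-b x²)` is Gaussian -/
lemma weight (h : SPair c W V I k lam) {b : ℝ} (hb : 0 < b) :
    ∃ C, 0 < C ∧ ∀ x, qs k x * (1 + |x|) * Real.exp (-b * x ^ 2) ≤
      C * Real.exp (-(b / 2) * x ^ 2) := by
  obtain ⟨K, hK0, -, hK⟩ := qs_le h
  refine ⟨Real.exp ((K + 1) ^ 2 / (2 * b)), Real.exp_pos _, fun x => ?_⟩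
  have h1 : 1 + |x| ≤ Real.exp |x| := by
    have := Real.add_one_le_exp |x|
    linarith
  have h2 : qs k x * (1 + |x|) ≤ Real.exp (K * |x|) * Real.exp |x| :=
    mul_le_mul (hK x) h1 (by positivity) (Real.exp_pos _).le
  have h3 : Real.exp (K * |x|) * Real.exp |x| * Real.exp (-b * x ^ 2) ≤
      Real.exp ((K + 1) ^ 2 / (2 * b)) * Real.exp (-(b / 2) * x ^ 2) := by
    rw [← Real.exp_add, ← Real.exp_add, ← Real.exp_add]
    apply Real.exp_le_exp.2
    have h4 : (K + 1) * |x| ≤ b / 2 * x ^ 2 + (K + 1) ^ 2 / (2 * b) := by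
      have h5 : 0 ≤ (b * |x| - (K + 1)) ^ 2 / (2 * b) := by positivity
      have h6 : (b * |x| - (K + 1)) ^ 2 / (2 * b) =
          b / 2 * x ^ 2 + (K + 1) ^ 2 / (2 * b) - (K + 1) * |x| := by
        rw [← sq_abs x]; field_simp; ring
      linarith
    linarith
  exact (mul_le_mul_of_nonneg_right h2 (Real.exp_pos _).le).trans h3

/-- boundary functional -/
noncomputable def Ph (c : ℝ) (W V I k : ℝ → ℝ) (x : ℝ) : ℝ :=
  (qs k x * (I x * (1 - 2 * V x)) + k x * qs k x * (V x * (1 - V x))) / 2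
    + Ad c W x * qs k x * (V x * (1 - V x))


lemma integrable_q (h : SPair c W V I k lam) :
    Integrable (fun x => qs k x * (V x * (1 - V x))) ∧
    Integrable (fun x => qs k x * (V x * (1 - V x) ^ 2)) ∧
    Integrable (fun x => qs k x * I x ^ 2) ∧
    Tendsto (Ph c W V I k) atTop (𝓝 0) ∧ Tendsto (Ph c W V I k) atBot (𝓝 0) := by
  obtain ⟨C, b, hC, hb, hG⟩ := gauss h
  obtain ⟨D, hD, hw⟩ := weight h hb
  obtain ⟨K, hK0, hk, -⟩ := qs_le h
  have hcq : Continuous (qs k) := continuous_iff_continuousAt.2 fun x => (dqs h x).continuousAt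
  have hcV := h.cV
  have hcI := h.cI
  have hb2 : 0 < b / 2 := by linarith
  have hq0 := fun x => qs_pos k x
  have hE := fun x : ℝ => Real.exp_pos (-b * x ^ 2)
  -- `q * exp ≤ weight`
  have hqe : ∀ x, qs k x * Real.exp (-b * x ^ 2) ≤ D * Real.exp (-(b / 2) * x ^ 2) := fun x => by
    refine le_trans ?_ (hw x)
    have h1 : qs k x * 1 ≤ qs k x * (1 + |x|) :=
      mul_le_mul_of_nonneg_left (by linarith [abs_nonneg x]) (hq0 x).le
    rw [mul_one] at h1
    exact mul_le_mul_of_nonneg_right h1 (hE x).le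
  have hVR : ∀ x, 0 < V x * (1 - V x) := fun x =>
    mul_pos (h.V_pos x) (by linarith [h.V_lt x])
  have b1 : ∀ x, |qs k x * (V x * (1 - V x))| ≤ C * D * Real.exp (-(b / 2) * x ^ 2) := fun x => by
    rw [abs_of_pos (mul_pos (hq0 x) (hVR x))]
    calc qs k x * (V x * (1 - V x)) ≤ qs k x * (C * Real.exp (-b * x ^ 2)) :=
          mul_le_mul_of_nonneg_left (hG x).2 (hq0 x).le
      _ = C * (qs k x * Real.exp (-b * x ^ 2)) := by ring
      _ ≤ C * (D * Real.exp (-(b / 2) * x ^ 2)) := mul_le_mul_of_nonneg_left (hqe x) hC.le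
      _ = _ := by ring
  have b2 : ∀ x, |qs k x * (V x * (1 - V x) ^ 2)| ≤ C * D * Real.exp (-(b / 2) * x ^ 2) :=
    fun x => by
      have hR : 0 < 1 - V x := by linarith [h.V_lt x]
      have hR1 : 1 - V x < 1 := by linarith [h.V_pos x]
      have hpos : 0 < qs k x * (V x * (1 - V x) ^ 2) :=
        mul_pos (hq0 x) (mul_pos (h.V_pos x) (by positivity))
      refine le_trans ?_ (b1 x)
      rw [abs_of_pos hpos, abs_of_pos (mul_pos (hq0 x) (hVR x))]
      apply mul_le_mul_of_nonneg_left _ (hq0 x).le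
      have := hVR x
      nlinarith
  have hIb : ∀ x, I x ≤ (1 + c) * W 0 := h.I_le
  have hI0 : ∀ x, 0 < I x := h.I_pos
  have hB0 : 0 < (1 + c) * W 0 := (hI0 0).trans_le (hIb 0)
  have b3 : ∀ x, |qs k x * I x ^ 2| ≤ (1 + c) * W 0 * C * D * Real.exp (-(b / 2) * x ^ 2) :=
    fun x => by
      have hpos : 0 < qs k x * I x ^ 2 := mul_pos (hq0 x) (by have := hI0 x; positivity)
      rw [abs_of_pos hpos]
      have h1 : I x ^ 2 ≤ (1 + c) * W 0 * (C * Real.exp (-b * x ^ 2)) := by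
        rw [sq]
        exact mul_le_mul (hIb x) (hG x).1 (hI0 x).le hB0.le
      calc qs k x * I x ^ 2 ≤ qs k x * ((1 + c) * W 0 * (C * Real.exp (-b * x ^ 2))) :=
            mul_le_mul_of_nonneg_left h1 (hq0 x).le
        _ = (1 + c) * W 0 * C * (qs k x * Real.exp (-b * x ^ 2)) := by ring
        _ ≤ (1 + c) * W 0 * C * (D * Real.exp (-(b / 2) * x ^ 2)) :=
            mul_le_mul_of_nonneg_left (hqe x) (by positivity)
        _ = _ := by ring
  have b4 : ∀ x, |Ph c W V I k x| ≤ (2 + K) * (C * D) * Real.exp (-(b / 2) * x ^ 2) := fun x => by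
    have hV := h.V_pos x
    have hV1 := h.V_lt x
    have hGx := Real.exp_pos (-(b / 2) * x ^ 2)
    have t1 : |qs k x * (I x * (1 - 2 * V x))| ≤ C * D * Real.exp (-(b / 2) * x ^ 2) := by
      rw [abs_mul, abs_mul, abs_of_pos (hq0 x), abs_of_pos (hI0 x)]
      have h1 : |1 - 2 * V x| ≤ 1 := by rw [abs_le]; constructor <;> linarith
      have h2 : I x * |1 - 2 * V x| ≤ C * Real.exp (-b * x ^ 2) := by
        have := mul_le_mul (hG x).1 h1 (abs_nonneg _) (by have := hE x; positivity)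
        linarith
      calc qs k x * (I x * |1 - 2 * V x|) ≤ qs k x * (C * Real.exp (-b * x ^ 2)) :=
            mul_le_mul_of_nonneg_left h2 (hq0 x).le
        _ = C * (qs k x * Real.exp (-b * x ^ 2)) := by ring
        _ ≤ C * (D * Real.exp (-(b / 2) * x ^ 2)) := mul_le_mul_of_nonneg_left (hqe x) hC.le
        _ = _ := by ring
    have t2 : |k x * qs k x * (V x * (1 - V x))| ≤ K * (C * D) * Real.exp (-(b / 2) * x ^ 2) := by
      rw [mul_assoc, abs_mul, abs_of_pos (h.k_pos x)]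
      calc k x * |qs k x * (V x * (1 - V x))| ≤ K * (C * D * Real.exp (-(b / 2) * x ^ 2)) :=
            mul_le_mul (hk x) (b1 x) (abs_nonneg _) hK0
        _ = _ := by ring
    have t3 : |Ad c W x * qs k x * (V x * (1 - V x))| ≤ C * D * Real.exp (-(b / 2) * x ^ 2) := by
      rw [mul_assoc, abs_mul, abs_of_pos (mul_pos (hq0 x) (hVR x))]
      calc |Ad c W x| * (qs k x * (V x * (1 - V x)))
          ≤ (1 + |x|) * (qs k x * (C * Real.exp (-b * x ^ 2))) :=
            mul_le_mul (A_abs h x) (mul_le_mul_of_nonneg_left (hG x).2 (hq0 x).le)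
              (mul_pos (hq0 x) (hVR x)).le (by positivity)
        _ = C * (qs k x * (1 + |x|) * Real.exp (-b * x ^ 2)) := by ring
        _ ≤ C * (D * Real.exp (-(b / 2) * x ^ 2)) := mul_le_mul_of_nonneg_left (hw x) hC.le
        _ = _ := by ring
    unfold Ph
    have t4 := abs_add_le ((qs k x * (I x * (1 - 2 * V x)) + k x * qs k x * (V x * (1 - V x))) / 2)
      (Ad c W x * qs k x * (V x * (1 - V x)))
    have t5 := abs_add_le (qs k x * (I x * (1 - 2 * V x))) (k x * qs k x * (V x * (1 - V x)))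
    have t6 : |(qs k x * (I x * (1 - 2 * V x)) + k x * qs k x * (V x * (1 - V x))) / 2| =
        |qs k x * (I x * (1 - 2 * V x)) + k x * qs k x * (V x * (1 - V x))| / 2 := by
      rw [abs_div, abs_two]
    rw [t6] at t4
    have t7 : 0 ≤ K * (C * D) * Real.exp (-(b / 2) * x ^ 2) := by positivity
    have t8 : 0 < C * D * Real.exp (-(b / 2) * x ^ 2) := by positivity
    linarith
  have hlim := tendsto_gauss hb2 b4
  exact ⟨integrable_gauss hb2 (by fun_prop) b1, integrable_gauss hb2 (by fun_prop) b2,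
    integrable_gauss hb2 (by fun_prop) b3, hlim.1, hlim.2⟩








end Crest.Agent.R146.Stat9_307
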