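import Crest.Agent.R146.Pos_371
import Crest.Agent.R146.StepCmp_371
import Crest.Agent.R146.StepStart_483
import Crest.Agent.R146.YW_177
import Crest.Agent.R146.SPair_307

-- ▼ part R146/StepLim_692
section

/-!
Row 146, PT-CMP (helper692): limits of the positions for a step datum.
For `A : SD` with `Back A`, at every `t ∈ [0,T]`: `u(t,x) → 0` as `x → +∞`, `w(t,x) = x + u(t,x) → 0` as
`x → -∞`, with rates; `w = ∫_{(0,V)} v/I`, `u = ∫_{(V,1)} (1-v)/I` for `t ∈ [0,T)` (`Pos_371`).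
-/

set_option autoImplicit false

namespace Crest.Agent.R146.StepLim_692

open Set Filter Topology MeasureTheory
open Crest.Agent.R146.StepDef_791 Crest.Agent.R146.StepStart_483
open Crest.Agent.R146.Pos_371 Crest.Agent.R146.MaxPCmp_371 Crest.Agent.R146.VSpace_371

variable {A : SD}

theorem U0_le_sg (z : ℝ) : U0 z ≤ 3 * sg (-z) := by
  have hq := sqrt_sq' z
  have hq0 := sqrt_pos' z
  have h1 := one_le_sqrt z
  have e : sg (-z) = Real.sqrt (1 + z ^ 2) - z := by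
    unfold sg
    rw [neg_sq]
    ring
  rw [e]
  rcases le_or_gt z 0 with hz | hz
  · have h2 := U0_le z
    rw [abs_of_nonpos hz] at h2
    linarith
  · have h2 : U0 z ≤ ph z := by
      rw [U0_eq]
      have := mul_nonneg hz.le (sub_nonneg.2 (Phi_le_one z))
      linarith
    have h3 : ph z ≤ 1 / (1 + z ^ 2 / 2) := by
      rw [ph_eq]
      have h4 : (√(2 * Real.pi))⁻¹ ≤ 1 := by
        refine inv_le_one_of_one_le₀ ?_
        rw [Real.one_le_sqrt]
        have := Real.pi_gt_three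
        linarith
      have h5 : Real.exp (-z ^ 2 / 2) ≤ 1 / (1 + z ^ 2 / 2) := by
        rw [show -z ^ 2 / 2 = -(z ^ 2 / 2) by ring, Real.exp_neg, ← one_div]
        refine one_div_le_one_div_of_le (by positivity) ?_
        have := Real.add_one_le_exp (z ^ 2 / 2)
        linarith
      calc (√(2 * Real.pi))⁻¹ * Real.exp (-z ^ 2 / 2) ≤ 1 * (1 / (1 + z ^ 2 / 2)) :=
            mul_le_mul h4 h5 (Real.exp_pos _).le zero_le_one
        _ = _ := one_mul _
    have h6 : Real.sqrt (1 + z ^ 2) - z = 1 / (Real.sqrt (1 + z ^ 2) + z) := by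
      rw [eq_div_iff (by positivity)]
      nlinarith
    have h7 : Real.sqrt (1 + z ^ 2) + z ≤ 1 + 2 * z := by
      have := sqrt_le z
      rw [abs_of_pos hz] at this
      linarith
    have h8 : 1 / (1 + z ^ 2 / 2) ≤ 3 * (1 / (Real.sqrt (1 + z ^ 2) + z)) := by
      have h9 : (3 : ℝ) * (1 / (Real.sqrt (1 + z ^ 2) + z)) = 3 / (Real.sqrt (1 + z ^ 2) + z) := by
        ring
      rw [h9, div_le_div_iff₀ (by positivity) (by positivity)]
      nlinarith [sq_nonneg (z - 1)]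
    rw [h6]
    exact (h2.trans h3).trans h8

theorem sqrt_mul_sg {δ : ℝ} (hδ : 0 < δ) (hδ1 : δ ≤ 1) (x : ℝ) :
    Real.sqrt δ * sg (x / Real.sqrt δ) ≤ sg x := by
  have hs : 0 < Real.sqrt δ := Real.sqrt_pos.2 hδ
  unfold sg
  have h1 : Real.sqrt δ * Real.sqrt (1 + (x / Real.sqrt δ) ^ 2) = Real.sqrt (δ + x ^ 2) := by
    rw [← Real.sqrt_mul hδ.le]
    congr 1
    rw [div_pow, Real.sq_sqrt hδ.le]
    field_simp
  have h2 : Real.sqrt δ * (x / Real.sqrt δ) = x := by field_simp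
  rw [mul_add, h1, h2]
  have h3 : Real.sqrt (δ + x ^ 2) ≤ Real.sqrt (1 + x ^ 2) := Real.sqrt_le_sqrt (by linarith)
  linarith

theorem dl_le_one (A : SD) : A.dl ≤ 1 := by
  unfold SD.dl
  linarith [A.hT0]

theorem u_T_le (hB : Back A) (x : ℝ) : A.u A.T x ≤ 3 * sg (-x) := by
  have hs : 0 < Real.sqrt A.dl := Real.sqrt_pos.2 A.dl_pos
  rw [hB.u_T]
  have h1 := U0_le_sg (x / Real.sqrt A.dl)
  have h2 := sqrt_mul_sg A.dl_pos (dl_le_one A) (-x)
  rw [neg_div] at h2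
  calc Real.sqrt A.dl * U0 (x / Real.sqrt A.dl) ≤ Real.sqrt A.dl * (3 * sg (-(x / Real.sqrt A.dl))) :=
        mul_le_mul_of_nonneg_left h1 hs.le
    _ = 3 * (Real.sqrt A.dl * sg (-(x / Real.sqrt A.dl))) := by ring
    _ ≤ _ := mul_le_mul_of_nonneg_left h2 (by norm_num)

theorem w_T_le (hB : Back A) (x : ℝ) : x + A.u A.T x ≤ 3 * sg x := by
  have hs : 0 < Real.sqrt A.dl := Real.sqrt_pos.2 A.dl_pos
  rw [hB.u_T]
  have h0 : x + Real.sqrt A.dl * U0 (x / Real.sqrt A.dl) =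
      Real.sqrt A.dl * U0 (-(x / Real.sqrt A.dl)) := by
    rw [← add_U0, mul_add]
    congr 1
    field_simp
  have h1 := U0_le_sg (-(x / Real.sqrt A.dl))
  rw [neg_neg] at h1
  have h2 := sqrt_mul_sg A.dl_pos (dl_le_one A) x
  rw [h0]
  calc Real.sqrt A.dl * U0 (-(x / Real.sqrt A.dl)) ≤ Real.sqrt A.dl * (3 * sg (x / Real.sqrt A.dl)) :=
        mul_le_mul_of_nonneg_left h1 hs.le
    _ = 3 * (Real.sqrt A.dl * sg (x / Real.sqrt A.dl)) := by ring
    _ ≤ _ := mul_le_mul_of_nonneg_left h2 (by norm_num)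

/-- uniform decay of `u` at `+∞` and of `w` at `-∞` -/
theorem decay (hB : Back A) : ∃ C : ℝ, 0 ≤ C ∧ ∀ t ∈ Icc 0 A.T, ∀ x,
    A.u t x ≤ C * sg (-x) ∧ A.w t x ≤ C * sg x := by
  obtain ⟨M, h⟩ := hB.bsys
  have h1 := u_le_sg h (C := 3) (by norm_num) (u_T_le hB)
  have h2 := w_le h (C := 3) (by norm_num) (w_T_le hB)
  have hM : 0 ≤ M := by
    have := (h.P_nonneg 0 ⟨le_rfl, A.hT0.le⟩ 0).trans (h.P_le 0 ⟨le_rfl, A.hT0.le⟩ 0)
    exact this
  refine ⟨3 * Real.exp ((1 + M) * A.T) + 3 * Real.exp ((1 + 2 * M ^ 2) * A.T), by positivity,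
    fun t ht x => ⟨?_, ?_⟩⟩
  · have h3 : Real.exp ((1 + M) * (A.T - t)) ≤ Real.exp ((1 + M) * A.T) :=
      Real.exp_le_exp.2 (mul_le_mul_of_nonneg_left (by linarith [ht.1]) (by linarith))
    refine (h1 t ht x).trans (mul_le_mul_of_nonneg_right ?_ (sg_pos _).le)
    have := (Real.exp_pos ((1 + 2 * M ^ 2) * A.T)).le
    linarith
  · have h3 : Real.exp ((1 + 2 * M ^ 2) * (A.T - t)) ≤ Real.exp ((1 + 2 * M ^ 2) * A.T) :=
      Real.exp_le_exp.2 (mul_le_mul_of_nonneg_left (by linarith [ht.1]) (by positivity))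
    refine (h2 t ht x).trans (mul_le_mul_of_nonneg_right ?_ (sg_pos _).le)
    have := (Real.exp_pos ((1 + M) * A.T)).le
    linarith


theorem w_bot (hB : Back A) {t : ℝ} (ht : t ∈ Icc 0 A.T) : Tendsto (A.w t) atBot (𝓝 0) := by
  obtain ⟨C, hC, h⟩ := decay hB
  have h1 : Tendsto (fun x : ℝ => C * sg x) atBot (𝓝 (C * 0)) := tendsto_sg_bot.const_mul C
  rw [mul_zero] at h1
  exact tendsto_of_tendsto_of_tendsto_of_le_of_le tendsto_const_nhds h1
    (fun x => (hB.w_pos t ht x).le) (fun x => (h t ht x).2)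

theorem w_x (hB : Back A) {t : ℝ} (ht : t ∈ Icc 0 A.T) (x : ℝ) :
    HasDerivAt (A.w t) (A.V t x) x := by
  have h1 := (hasDerivAt_id x).add (hB.u_x t ht x)
  have h2 : (1 : ℝ) + (A.V t x - 1) = A.V t x := by ring
  rw [h2] at h1
  exact h1

theorem V_mem (hB : Back A) {t : ℝ} (ht : t ∈ Icc 0 A.T) (x : ℝ) : 0 < A.V t x ∧ A.V t x < 1 := by
  obtain ⟨M, h⟩ := hB.bsys
  exact ⟨h.V_pos t ht x, h.V_lt t ht x⟩

theorem V_strictMono (hB : Back A) {t : ℝ} (ht : t ∈ Icc 0 A.T) : StrictMono (A.V t) := by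
  refine strictMono_of_deriv_pos fun x => ?_
  rw [(hB.V_x t ht x).deriv]
  exact hB.P_pos t ht x

theorem V_bot (hB : Back A) {t : ℝ} (ht : t ∈ Icc 0 A.T) : Tendsto (A.V t) atBot (𝓝 0) :=
  StepCmp_371.lim_bot_of (V_strictMono hB ht).monotone (fun x => (V_mem hB ht x).1.le) (w_x hB ht)
    (hB.w_pos t ht)




end Crest.Agent.R146.StepLim_692
end

-- ▼ part R146/YWRef_177

/-!
Row 146, PT-CMP (helper177): the law band of REF on the step system.

* `Wi, Lam, Lam1, Lam2`: the reference law slope as a function of `η`, `Λ = k ∘ W⁻¹` on `(0,∞)`, for a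
  stationary pair `SPair c W V I k lam`; `lstat_zero`, `lstat_diff`.
* `pos_le, le_pos`: static position bounds `N₋(V) ≤ s w ≤ N₊(V)` from the slope band (fixed time).
* `band_up, band_low`: `|s⁻¹ Y - Λ(s w)| ≤ C + transient` on the step system.
-/

set_option autoImplicit false

open Set Filter Topology

namespace Crest.Agent.R146.YWRef_177

open MaxP_371 MaxP2_371 MaxPCmp_371 MaxPCmp2_371 SPair_307 YW_177 StepDef_791

/-! ### The reference in the coordinate `η` -/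

section ref

variable {c : ℝ} {W V I k : ℝ → ℝ} {lam : ℝ}

/-- inverse of `W` -/
noncomputable def Wi (W : ℝ → ℝ) (η : ℝ) : ℝ := Function.invFun W η

lemma W_surj (h : SPair c W V I k lam) {η : ℝ} (hη : 0 < η) : ∃ x, W x = η := by
  set a : ℝ := 1 / (2 * η) with ha
  have ha0 : 0 < a := by positivity
  have h1 : W (-a) < η := by
    have h2 := h.W_le (-a)
    have h3 : Real.sqrt ((-a) ^ 2 + 1) ≤ a + 1 / (2 * a) := by
      apply Real.sqrt_le_iff.2
      refine ⟨by positivity, ?_⟩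
      have h4 : (a + 1 / (2 * a)) ^ 2 = a ^ 2 + 1 + 1 / (4 * a ^ 2) := by
        field_simp
        ring
      rw [h4]
      have h5 : 0 ≤ 1 / (4 * a ^ 2) := by positivity
      have h6 : (-a) ^ 2 = a ^ 2 := by ring
      rw [h6]
      linarith
    have h7 : 1 / (2 * a) = η := by rw [ha]; field_simp
    rw [h7] at h3
    linarith
  have h2 : η < W η := h.U_pos η
  have hcont : ContinuousOn W (Icc (-a) η) := h.cW.continuousOn
  obtain ⟨x, -, hx⟩ := intermediate_value_Icc (by linarith : -a ≤ η) hcont ⟨h1.le, h2.le⟩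
  exact ⟨x, hx⟩

lemma W_Wi (h : SPair c W V I k lam) {η : ℝ} (hη : 0 < η) : W (Wi W η) = η :=
  Function.invFun_eq (W_surj h hη)

lemma Wi_W (h : SPair c W V I k lam) (x : ℝ) : Wi W (W x) = x :=
  Function.leftInverse_invFun h.W_strictMono.injective x

lemma Wi_mono (h : SPair c W V I k lam) : StrictMonoOn (Wi W) (Ioi 0) := by
  intro a ha b hb hab
  by_contra hcon
  push Not at hcon
  have := h.W_strictMono.monotone hcon
  rw [W_Wi h ha, W_Wi h hb] at this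
  linarith

lemma Wi_cont (h : SPair c W V I k lam) {η : ℝ} (hη : 0 < η) : ContinuousAt (Wi W) η := by
  refine (Wi_mono h).continuousAt_of_image_mem_nhds (Ioi_mem_nhds hη) ?_
  have : Wi W '' Ioi 0 = univ := by
    ext x
    simp only [mem_image, mem_Ioi, mem_univ, iff_true]
    exact ⟨W x, h.W_pos x, Wi_W h x⟩
  rw [this]
  exact univ_mem

lemma Wi_deriv (h : SPair c W V I k lam) {η : ℝ} (hη : 0 < η) :
    HasDerivAt (Wi W) (V (Wi W η))⁻¹ η :=
  HasDerivAt.of_local_left_inverse (Wi_cont h hη) (h.dW _) (h.V_pos _).ne'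
    (by filter_upwards [Ioi_mem_nhds hη] with y hy; exact W_Wi h hy)

/-- `k'` -/
noncomputable def k1 (c : ℝ) (W V k : ℝ → ℝ) (lam x : ℝ) : ℝ :=
  k x ^ 2 + 2 * Ad c W x * k x - 2 * Ad1 c V x + 2 * lam

/-- `k''` -/
noncomputable def k2 (c : ℝ) (W V I k : ℝ → ℝ) (lam x : ℝ) : ℝ :=
  2 * (k x + Ad c W x) * k1 c W V k lam x + 2 * Ad1 c V x * k x - 2 * c * I x

/-- the reference law slope as a function of `η` -/
noncomputable def Lam (W k : ℝ → ℝ) (η : ℝ) : ℝ := k (Wi W η)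
/-- its derivative -/
noncomputable def Lam1 (c : ℝ) (W V k : ℝ → ℝ) (lam η : ℝ) : ℝ :=
  k1 c W V k lam (Wi W η) / V (Wi W η)
/-- its second derivative -/
noncomputable def Lam2 (c : ℝ) (W V I k : ℝ → ℝ) (lam η : ℝ) : ℝ :=
  (k2 c W V I k lam (Wi W η) * V (Wi W η) - k1 c W V k lam (Wi W η) * I (Wi W η))
    / V (Wi W η) ^ 3

lemma Lam_deriv (h : SPair c W V I k lam) {η : ℝ} (hη : 0 < η) :
    HasDerivAt (Lam W k) (Lam1 c W V k lam η) η := by
  have h1 := (h.dk (Wi W η)).comp η (Wi_deriv h hη)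
  exact h1

lemma Lam1_deriv (h : SPair c W V I k lam) {η : ℝ} (hη : 0 < η) :
    HasDerivAt (Lam1 c W V k lam) (Lam2 c W V I k lam η) η := by
  have hV := (h.V_pos (Wi W η)).ne'
  have h1 : HasDerivAt (fun x => k1 c W V k lam x / V x)
      ((k2 c W V I k lam (Wi W η) * V (Wi W η) - k1 c W V k lam (Wi W η) * I (Wi W η))
        / V (Wi W η) ^ 2) (Wi W η) := (h.dk1 (Wi W η)).div (h.dV (Wi W η)) hV
  have h2 := h1.comp η (Wi_deriv h hη)
  refine h2.congr_deriv ?_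
  unfold Lam2
  field_simp

lemma Lam1_side (h : SPair c W V I k lam) {η : ℝ} (hη : 0 < η) :
    HasSide (Lam1 c W V k lam) (Lam2 c W V I k lam η) η :=
  HasSide.of_hasDerivAt (Lam1_deriv h hη)

/-- the stationary law equation in the coordinate `η`, along the curve -/
lemma lstat_zero (h : SPair c W V I k lam) (x : ℝ) :
    LStat 1 c (V x) (I x) (W x) (k x) (k1 c W V k lam x / V x)
      ((k2 c W V I k lam x * V x - k1 c W V k lam x * I x) / V x ^ 3) = 0 := by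
  have hV := (h.V_pos x).ne'
  have hI := h.eqI x
  unfold LStat k2
  generalize hk1 : k1 c W V k lam x = K1
  have hA1 : Ad1 c V x = (1 + c) / 2 - c * (1 - V x) := rfl
  rw [hA1]
  have e : V x ^ 2 * (((2 * (k x + Ad c W x) * K1 + 2 * ((1 + c) / 2 - c * (1 - V x)) * k x
        - 2 * c * I x) * V x - K1 * I x) / V x ^ 3) / 2
      + (I x - k x * V x - (1 + 1 * c) / 2 * W x) * (K1 / V x)
      - ((1 + 1 * c) / 2 - c * (1 - V x)) * k x + c * I x
      = K1 / (2 * V x) * (2 * Ad c W x * V x + I x - (1 + c) * W x) := by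
    field_simp
    ring
  rw [e, hI]
  ring

/-- difference form of the source, everything at the same `η = W ξ` -/
lemma lstat_diff (h : SPair c W V I k lam) (x y v i : ℝ) :
    LStat 1 y v i (W x) (k x) (k1 c W V k lam x / V x)
      ((k2 c W V I k lam x * V x - k1 c W V k lam x * I x) / V x ^ 3)
    = (v ^ 2 - V x ^ 2) / 2 * ((k2 c W V I k lam x * V x - k1 c W V k lam x * I x) / V x ^ 3)
      + ((i - I x) - k x * (v - V x) - (y - c) / 2 * W x) * (k1 c W V k lam x / V x)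
      - ((y - c) / 2 - (y * (1 - v) - c * (1 - V x))) * k x + (y * i - c * I x) := by
  have h0 := lstat_zero h x
  unfold LStat at h0 ⊢
  linarith


end ref

/-! ### Static position bounds -/

section pos

variable {w V P : ℝ → ℝ} {s : ℝ} {K N N' : ℝ → ℝ}

/-- `P ≥ s K₋(V)`, `N' K₋ ≥ v`, `N ≥ 0` give `s w ≤ N(V)`. -/
theorem pos_le (hs : 0 < s) (hw : ∀ x, HasDerivAt w (V x) x) (hV : ∀ x, HasDerivAt V (P x) x)
    (hVm : ∀ x, V x ∈ Ioo (0:ℝ) 1) (hlim : Tendsto w atBot (𝓝 0))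
    (hN : ∀ v ∈ Ioo (0:ℝ) 1, HasDerivAt N (N' v) v) (hN'0 : ∀ v ∈ Ioo (0:ℝ) 1, 0 ≤ N' v)
    (hN' : ∀ v ∈ Ioo (0:ℝ) 1, v ≤ N' v * K v) (hN0 : ∀ v ∈ Ioo (0:ℝ) 1, 0 ≤ N v)
    (hband : ∀ x, s * K (V x) ≤ P x) (x : ℝ) : s * w x ≤ N (V x) := by
  have hd : ∀ x, HasDerivAt (fun x => N (V x) - s * w x) (N' (V x) * P x - s * V x) x := fun x =>
    ((hN _ (hVm x)).comp x (hV x)).sub ((hw x).const_mul s)
  have hmono : Monotone (fun x => N (V x) - s * w x) := by
    apply monotone_of_deriv_nonneg (fun x => (hd x).differentiableAt)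
    intro x
    rw [(hd x).deriv]
    have h1 := hN' _ (hVm x)
    have h2 := mul_le_mul_of_nonneg_left (hband x) (hN'0 _ (hVm x))
    have h3 := mul_le_mul_of_nonneg_left h1 hs.le
    have h4 : N' (V x) * (s * K (V x)) = s * (N' (V x) * K (V x)) := by ring
    linarith
  have hlim' : Tendsto (fun y => -(s * w y)) atBot (𝓝 (-(s * 0))) := (hlim.const_mul s).neg
  have h5 : -(s * 0) ≤ N (V x) - s * w x := by
    refine le_of_tendsto hlim' ?_
    filter_upwards [eventually_le_atBot x] with y hy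
    have h6 := hmono hy
    have h7 := hN0 _ (hVm y)
    simp only at h6
    linarith
  linarith


end pos

/-! ### Restriction to a smaller time interval -/

section mono

variable {t0 t1 q : ℝ} {b : ℝ → ℝ} {u V P Y Yx Yxx : ℝ → ℝ → ℝ} {M : ℝ} {s th : ℝ → ℝ} {ω k : ℝ}

lemma YSys.restrict (h : YSys t0 t1 b u V P Y Yx Yxx M) (hq : q ≤ t1) :
    YSys t0 q b u V P Y Yx Yxx M where
  cY := h.cY.mono (prod_mono (Icc_subset_Icc_right hq) le_rfl)
  hYt t ht x := h.hYt t ⟨ht.1, ht.2.trans hq⟩ x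
  hYx t ht x := h.hYx t ⟨ht.1, ht.2.trans hq⟩ x
  hYxx t ht x := h.hYxx t ⟨ht.1, ht.2.trans hq⟩ x
  b_nonneg t ht := h.b_nonneg t ⟨ht.1, ht.2.trans hq⟩
  b_le t ht := h.b_le t ⟨ht.1, ht.2.trans hq⟩
  V_pos t ht x := h.V_pos t ⟨ht.1, ht.2.trans hq⟩ x
  drift t ht x := h.drift t ⟨ht.1, ht.2.trans hq⟩ x
  Y_le t ht x := h.Y_le t ⟨ht.1, ht.2.trans hq⟩ x

lemma LSys.restrict (h : LSys t0 t1 b u V P) (hq : q ≤ t1) : LSys t0 q b u V P where
  hut t ht x := h.hut t ⟨ht.1, ht.2.trans hq⟩ x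
  hux t ht x := h.hux t ⟨ht.1, ht.2.trans hq⟩ x
  hVx t ht x := h.hVx t ⟨ht.1, ht.2.trans hq⟩ x
  cu := h.cu.mono (prod_mono (Icc_subset_Icc_right hq) le_rfl)
  V_pos t ht x := h.V_pos t ⟨ht.1, ht.2.trans hq⟩ x
  V_lt t ht x := h.V_lt t ⟨ht.1, ht.2.trans hq⟩ x
  P_nonneg t ht x := h.P_nonneg t ⟨ht.1, ht.2.trans hq⟩ x
  u_pos t ht x := h.u_pos t ⟨ht.1, ht.2.trans hq⟩ x
  w_pos t ht x := h.w_pos t ⟨ht.1, ht.2.trans hq⟩ x

lemma LClock.restrict (h : LClock t0 t1 b s th ω k) (hq : q ≤ t1) : LClock t0 q b s th ω k where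
  hs t ht := h.hs t ⟨ht.1, ht.2.trans hq⟩
  cs := h.cs.mono (Icc_subset_Icc_right hq)
  s_pos t ht := h.s_pos t ⟨ht.1, ht.2.trans hq⟩
  hth t ht := h.hth t ⟨ht.1, ht.2.trans hq⟩
  cth := h.cth.mono (Icc_subset_Icc_right hq)

end mono

/-! ### The law bands on the step system -/

section band

variable {A : SD} {x0 : ℝ} {p Y Yx Yxx : ℝ → ℝ → ℝ} {c : ℝ} {W V I k : ℝ → ℝ} {lam : ℝ}
  {t0 q C C0 B κ θ0 μ Im : ℝ}



end band

end Crest.Agent.R146.YWRef_177
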