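import Crest.Agent.R146.RefX_355
import Crest.Agent.R146.YWRef_177
import Crest.Agent.R146.Stat9_307
import Crest.Agent.R146.StepStart_483
import Crest.Agent.R146.SPair_307
import Crest.Agent.R146.Stat1_307
import Crest.Agent.R146.PtRef_846

-- ▼ part R146/PairQ_355
section

/-!
Row 146 (helper355).  Qualitative facts of a stationary pair `SPair c W V I k lam` used to build
`PtRef_846.WS` from inequalities in `ξ`:

* `X_atBot, X_atTop` : limits of the inverse of `V`;
* `I_lin, k_lin` : `I (1+|x|)`, `k (1+|x|)` bounded;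
* `W_left` : `W (1+|x|) ≤ M V` on `(-∞, a]`;  `U_right` : `U (1+|x|) ≤ M R` on `[a, ∞)`;
* `k1_ge` : `-M V ≤ k'`;
* `G0x` the algebraic dual function, `dG0 : G0' = k G0 + I² - 2 c V R²` (`lam = c`), growth bounds.
-/

set_option autoImplicit false

open Set Filter Topology

namespace Crest.Agent.R146.PairQ_355

open SPair_307 RefX_355 YWRef_177 Stat8_307 Stat9_307 MaxP_371 MaxP2_371

variable {c : ℝ} {W V I k : ℝ → ℝ} {lam : ℝ}

/-! ### limits of the inverse -/

lemma X_atBot (h : SPair c W V I k lam) : Tendsto (X V) (𝓝[>] 0) atBot := by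
  rw [tendsto_atBot]
  intro b
  have h1 : ∀ᶠ v in 𝓝[>] (0:ℝ), v < V b := by
    have : ∀ᶠ v in 𝓝 (0:ℝ), v < V b := gt_mem_nhds (h.V_pos b)
    exact this.filter_mono nhdsWithin_le_nhds
  filter_upwards [h1, self_mem_nhdsWithin] with v hv hv0
  have hvm : v ∈ Ioo (0:ℝ) 1 := ⟨hv0, hv.trans (h.V_lt b)⟩
  rw [← h.V_strictMono.le_iff_le, V_X h hvm]
  exact hv.le

lemma X_atTop (h : SPair c W V I k lam) : Tendsto (X V) (𝓝[<] 1) atTop := by
  rw [tendsto_atTop]
  intro b
  have h1 : ∀ᶠ v in 𝓝[<] (1:ℝ), V b < v := by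
    have : ∀ᶠ v in 𝓝 (1:ℝ), V b < v := lt_mem_nhds (h.V_lt b)
    exact this.filter_mono nhdsWithin_le_nhds
  filter_upwards [h1, self_mem_nhdsWithin] with v hv hv0
  have hvm : v ∈ Ioo (0:ℝ) 1 := ⟨(h.V_pos b).trans hv, hv0⟩
  rw [← h.V_strictMono.le_iff_le, V_X h hvm]
  exact hv.le

/-! ### elementary bounds -/

lemma W_le_half (h : SPair c W V I k lam) {x : ℝ} (hx : x ≤ 0) : W x ≤ 1 / 2 :=
  (h.W_strictMono.monotone hx).trans (W0_le h)

lemma U_anti (h : SPair c W V I k lam) : Antitone fun x => W x - x := by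
  apply antitone_of_deriv_nonpos
  · exact fun x => ((h.dW x).sub (hasDerivAt_id x)).differentiableAt
  · intro x
    have e : deriv (fun x => W x - x) x = V x - 1 := ((h.dW x).sub (hasDerivAt_id x)).deriv
    rw [e]
    linarith [h.V_lt x]

lemma U_le_half (h : SPair c W V I k lam) {x : ℝ} (hx : 0 ≤ x) : W x - x ≤ 1 / 2 := by
  have h1 := U_anti h hx
  have h2 := W0_le h
  simp only at h1
  linarith

lemma W_le_abs (h : SPair c W V I k lam) (x : ℝ) : W x ≤ 1 + |x| := by
  rcases le_total x 0 with hx | hx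
  · have := W_le_half h hx; have := abs_nonneg x; linarith
  · have := U_le_half h hx; rw [abs_of_nonneg hx]; linarith

lemma U_le_abs (h : SPair c W V I k lam) (x : ℝ) : W x - x ≤ 1 + |x| := by
  rcases le_total x 0 with hx | hx
  · have := W_le_half h hx; rw [abs_of_nonpos hx]; linarith
  · have := U_le_half h hx; have := abs_nonneg x; linarith

lemma k_lin (h : SPair c W V I k lam) : ∃ M, 0 < M ∧ ∀ x, k x * (1 + |x|) ≤ M := by
  obtain ⟨C, hC⟩ := h.k_bdd
  obtain ⟨C1, hC1⟩ := h.k_right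
  obtain ⟨C2, hC2⟩ := h.k_left
  refine ⟨|C| + |C1| + |C2| + 1, by positivity, fun x => ?_⟩
  have hk := h.k_pos x
  have a1 := le_abs_self C
  have a2 := le_abs_self C1
  have a3 := le_abs_self C2
  have b1 := abs_nonneg C
  have b2 := abs_nonneg C1
  have b3 := abs_nonneg C2
  have h1 := hC x
  rcases lt_trichotomy x 0 with hx | hx | hx
  · have h2 := hC2 x hx
    rw [le_div_iff₀ (by linarith)] at h2
    rw [abs_of_neg hx]
    nlinarith
  · subst hx; simp; linarith
  · have h2 := hC1 x hx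
    rw [le_div_iff₀ hx] at h2
    rw [abs_of_pos hx]
    nlinarith

/-- `(1+|x|)² e^{-b x²}` is Gaussian -/
lemma sq_exp {b : ℝ} (hb : 0 < b) (x : ℝ) :
    (1 + |x|) ^ 2 * Real.exp (-b * x ^ 2) ≤
      Real.exp (2 / b) * Real.exp (-(b / 2) * x ^ 2) := by
  have h1 : 1 + |x| ≤ Real.exp |x| := by
    have := Real.add_one_le_exp |x|
    linarith
  have h2 : (1 + |x|) ^ 2 ≤ Real.exp |x| ^ 2 := pow_le_pow_left₀ (by positivity) h1 2
  have h3 : Real.exp |x| ^ 2 * Real.exp (-b * x ^ 2) ≤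
      Real.exp (2 / b) * Real.exp (-(b / 2) * x ^ 2) := by
    rw [← Real.exp_nat_mul, ← Real.exp_add, ← Real.exp_add]
    apply Real.exp_le_exp.2
    push_cast
    have h4 : 2 * |x| ≤ b / 2 * x ^ 2 + 2 / b := by
      have h5 : 0 ≤ (b * |x| - 2) ^ 2 / (2 * b) := by positivity
      have h6 : (b * |x| - 2) ^ 2 / (2 * b) = b / 2 * x ^ 2 + 2 / b - 2 * |x| := by
        rw [← sq_abs x]; field_simp; ring
      linarith
    linarith
  exact (mul_le_mul_of_nonneg_right h2 (Real.exp_pos _).le).trans h3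

/-- `I (1+|x|)²` is Gaussian -/
lemma I_gauss (h : SPair c W V I k lam) : ∃ C b : ℝ, 0 < C ∧ 0 < b ∧
    ∀ x, I x * (1 + |x|) ^ 2 ≤ C * Real.exp (-b * x ^ 2) := by
  obtain ⟨C, b, hC, hb, h1⟩ := gauss h
  refine ⟨C * Real.exp (2 / b), b / 2, by positivity, by positivity, fun x => ?_⟩
  have h2 := (h1 x).1
  have h3 := sq_exp hb x
  calc I x * (1 + |x|) ^ 2 ≤ C * Real.exp (-b * x ^ 2) * (1 + |x|) ^ 2 :=
        mul_le_mul_of_nonneg_right h2 (by positivity)
    _ = C * ((1 + |x|) ^ 2 * Real.exp (-b * x ^ 2)) := by ring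
    _ ≤ C * (Real.exp (2 / b) * Real.exp (-(b / 2) * x ^ 2)) :=
        mul_le_mul_of_nonneg_left h3 hC.le
    _ = _ := by ring

lemma I_lin (h : SPair c W V I k lam) : ∃ M, 0 < M ∧ ∀ x, I x * (1 + |x|) ^ 2 ≤ M := by
  obtain ⟨C, b, hC, hb, h1⟩ := I_gauss h
  refine ⟨C, hC, fun x => (h1 x).trans ?_⟩
  have h2 : Real.exp (-b * x ^ 2) ≤ 1 := by
    apply Real.exp_le_one_iff.2
    nlinarith [sq_nonneg x]
  nlinarith

/-- `A` for `x ≤ 0` -/
lemma A_le_left (h : SPair c W V I k lam) {x : ℝ} (hx : x ≤ 0) :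
    Ad c W x ≤ (1 - c) / 2 * x + 1 / 2 := by
  have h1 := W_le_half h hx
  have h2 := h.c_pos
  have h3 := h.c_lt
  have h4 := h.W_pos x
  unfold Ad
  nlinarith

lemma A_ge_right (h : SPair c W V I k lam) (x : ℝ) : (1 + c) / 2 * x ≤ Ad c W x := by
  have h1 := h.U_pos x
  have h2 := h.c_pos
  unfold Ad
  nlinarith

/-- **left tail** : `W (1+|x|) ≤ M V` -/
lemma W_left (h : SPair c W V I k lam) (a : ℝ) :
    ∃ M, 0 < M ∧ ∀ x ≤ a, W x * (1 + |x|) ≤ M * V x := by
  have hc := h.c_pos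
  have hc1 := h.c_lt
  set x1 : ℝ := -(4 / (1 - c)) with hx1
  have h1c : 0 < 1 - c := by linarith
  have hx1' : 4 ≤ 4 / (1 - c) := by
    rw [le_div_iff₀ h1c]; linarith
  set M1 : ℝ := 4 / (1 - c) with hM1
  have hM10 : 0 < M1 := by positivity
  -- derivative
  have hd : ∀ x, HasDerivAt (fun x => M1 * V x - W x * (1 - x))
      (M1 * I x - (V x * (1 - x) + W x * (-1))) x := fun x =>
    ((h.dV x).const_mul M1).sub ((h.dW x).mul ((hasDerivAt_id x).const_sub 1))
  have hmono : MonotoneOn (fun x => M1 * V x - W x * (1 - x)) (Iic x1) := by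
    apply monotoneOn_of_deriv_nonneg (convex_Iic x1)
    · exact fun x _ => (hd x).continuousAt.continuousWithinAt
    · exact fun x _ => (hd x).differentiableAt.differentiableWithinAt
    · intro x hx
      rw [interior_Iic] at hx
      have hx' : x < x1 := hx
      rw [(hd x).deriv]
      have hI := h.eqI x
      have hA := A_le_left h (x := x) (by linarith)
      have hW := h.W_pos x
      have hV := h.V_pos x
      have h2 : 2 * (1 - x) ≤ M1 * (-2 * ((1 - c) / 2 * x + 1 / 2)) := by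
        have e : M1 * (-2 * ((1 - c) / 2 * x + 1 / 2)) = -(M1 * (1 - c)) * x - M1 := by ring
        have e2 : M1 * (1 - c) = 4 := by rw [hM1]; field_simp
        rw [e, e2]
        linarith
      have h3 : M1 * (-2 * ((1 - c) / 2 * x + 1 / 2)) * V x ≤ M1 * I x := by
        rw [hI]
        have h4 : (-2 * ((1 - c) / 2 * x + 1 / 2)) * V x ≤ (1 + c) * W x - 2 * Ad c W x * V x := by
          nlinarith [mul_pos (show 0 < 1 + c by linarith) hW]
        calc M1 * (-2 * ((1 - c) / 2 * x + 1 / 2)) * V x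
            = M1 * ((-2 * ((1 - c) / 2 * x + 1 / 2)) * V x) := by ring
          _ ≤ _ := mul_le_mul_of_nonneg_left h4 hM10.le
      have h5 : 2 * (1 - x) * V x ≤ M1 * (-2 * ((1 - c) / 2 * x + 1 / 2)) * V x :=
        mul_le_mul_of_nonneg_right h2 hV.le
      nlinarith [mul_pos hV (show 0 < 1 - x by linarith)]
  have hlim : Tendsto (fun x => M1 * V x - W x * (1 - x)) atBot (𝓝 0) := by
    have l1 := (V_tendsto_left h).const_mul M1
    have l2 : Tendsto (fun x => W x * (1 - x)) atBot (𝓝 0) := by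
      obtain ⟨C, b, hC, hb, hI⟩ := I_gauss h
      have h6 : Tendsto (fun x : ℝ => C * Real.exp (-b * x ^ 2)) atBot (𝓝 0) :=
        (tendsto_gauss (β := b) (C := C) hb (g := fun x => C * Real.exp (-b * x ^ 2))
          (fun x => by rw [abs_of_pos (by positivity)])).2
      refine tendsto_of_tendsto_of_tendsto_of_le_of_le' tendsto_const_nhds h6 ?_ ?_
      · filter_upwards [eventually_lt_atBot (0:ℝ)] with x hx
        have := h.W_pos x
        nlinarith
      · filter_upwards [eventually_lt_atBot x1] with x hx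
        have hx0 : x < 0 := by linarith
        have h7 := hI x
        have hW := h.W_pos x
        have hV := h.V_pos x
        have hIp := h.I_pos x
        have h8 : W x ≤ I x := by
          rw [h.eqI x]
          have hA := A_le_left h (x := x) hx0.le
          have hA2 : Ad c W x ≤ 0 := by
            have : (1 - c) / 2 * x ≤ (1 - c) / 2 * x1 := by
              apply mul_le_mul_of_nonneg_left hx.le (by linarith)
            have e : (1 - c) / 2 * x1 = -2 := by rw [hx1, hM1]; field_simp; norm_num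
            linarith
          nlinarith [mul_nonneg (neg_nonneg.2 hA2) hV.le]
        rw [abs_of_neg hx0] at h7
        nlinarith [mul_le_mul_of_nonneg_right h8 (show 0 ≤ 1 - x by linarith),
          mul_nonneg hIp.le (mul_nonneg (show 0 ≤ -x by linarith) (show 0 ≤ 1 - x by linarith))]
    have := l1.sub l2
    simpa using this
  have hleft : ∀ x ≤ x1, W x * (1 + |x|) ≤ M1 * V x := by
    intro x hx
    have h9 : (0:ℝ) ≤ M1 * V x - W x * (1 - x) := by
      refine le_of_tendsto' (b := M1 * V x - W x * (1 - x))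
        (f := fun y => M1 * V (min x y) - W (min x y) * (1 - min x y)) (x := atBot) ?_ ?_
      · refine Tendsto.congr' ?_ hlim
        filter_upwards [eventually_le_atBot x] with y hy
        rw [min_eq_right hy]
      · intro y
        exact hmono (show min x y ∈ Iic x1 from (min_le_left _ _).trans hx) hx (min_le_left _ _)
    rw [abs_of_neg (by linarith)]
    linarith
  -- compact part
  obtain ⟨B, hB⟩ := (isCompact_Icc (a := x1) (b := max x1 a)).exists_bound_of_continuousOn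
    (f := fun x => W x * (1 + |x|) / V x) (by
      apply Continuous.continuousOn
      exact (h.cW.mul (continuous_const.add continuous_abs)).div h.cV fun x => (h.V_pos x).ne')
  refine ⟨M1 + |B|, by positivity, fun x hx => ?_⟩
  have hV := h.V_pos x
  rcases le_total x x1 with h10 | h10
  · have := hleft x h10
    nlinarith [abs_nonneg B]
  · have h11 := hB x ⟨h10, hx.trans (le_max_right _ _)⟩
    rw [Real.norm_eq_abs] at h11
    have h12 := (le_abs_self _).trans h11
    rw [div_le_iff₀ hV] at h12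
    nlinarith [le_abs_self B]

/-- **right tail** : `U (1+|x|) ≤ M R` -/
lemma U_right (h : SPair c W V I k lam) (a : ℝ) :
    ∃ M, 0 < M ∧ ∀ x ≥ a, (W x - x) * (1 + |x|) ≤ M * (1 - V x) := by
  have hc := h.c_pos
  have hc1 := h.c_lt
  set M1 : ℝ := 2 with hM1
  have hd : ∀ x, HasDerivAt (fun x => M1 * (1 - V x) - (W x - x) * (1 + x))
      (M1 * (-(I x)) - ((V x - 1) * (1 + x) + (W x - x) * 1)) x := fun x =>
    (((h.dV x).const_sub 1).const_mul M1).sub
      (((h.dW x).sub (hasDerivAt_id x)).mul ((hasDerivAt_id x).const_add 1))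
  have hanti : AntitoneOn (fun x => M1 * (1 - V x) - (W x - x) * (1 + x)) (Ici 1) := by
    apply antitoneOn_of_deriv_nonpos (convex_Ici 1)
    · exact fun x _ => (hd x).continuousAt.continuousWithinAt
    · exact fun x _ => (hd x).differentiableAt.differentiableWithinAt
    · intro x hx
      rw [interior_Ici] at hx
      have hx' : 1 < x := hx
      rw [(hd x).deriv]
      have hI : I x = (1 - c) * (W x - x) + 2 * Ad c W x * (1 - V x) := by
        rw [h.eqI]; unfold Ad; ring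
      have hA := A_ge_right h x
      have hU := h.U_pos x
      have hR := h.V_lt x
      have h2 : x * (1 - V x) ≤ I x := by
        rw [hI]
        have h3 : x ≤ 2 * Ad c W x := by nlinarith
        nlinarith [mul_le_mul_of_nonneg_right h3 (show 0 ≤ 1 - V x by linarith),
          mul_nonneg (show 0 ≤ 1 - c by linarith) (show 0 ≤ W x - x by linarith)]
      rw [hM1]
      nlinarith [mul_nonneg (show 0 ≤ x - 1 by linarith) (show 0 ≤ 1 - V x by linarith)]
  have hlim : Tendsto (fun x => M1 * (1 - V x) - (W x - x) * (1 + x)) atTop (𝓝 0) := by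
    have l1 := ((V_tendsto_right h).const_sub 1).const_mul M1
    have l2 : Tendsto (fun x => (W x - x) * (1 + x)) atTop (𝓝 0) := by
      have h6 : Tendsto (fun x : ℝ => Real.exp (2 / (1/2)) * Real.exp (-(1/4) * x ^ 2)) atTop (𝓝 0) :=
        (tendsto_gauss (β := 1/4) (C := Real.exp (2 / (1/2))) (by norm_num)
          (g := fun x => Real.exp (2 / (1/2)) * Real.exp (-(1/4) * x ^ 2))
          (fun x => by rw [abs_of_pos (by positivity)])).1
      refine tendsto_of_tendsto_of_tendsto_of_le_of_le' tendsto_const_nhds h6 ?_ ?_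
      · filter_upwards [eventually_gt_atTop (0:ℝ)] with x hx
        have := h.U_pos x
        nlinarith
      · filter_upwards [eventually_gt_atTop (0:ℝ)] with x hx
        have h7 := Stat8_307.U_le h hx.le
        have h8 := sq_exp (b := 1/2) (by norm_num) x
        have h9 := h.U_pos x
        rw [abs_of_pos hx] at h8
        have e1 : -(1/2:ℝ) * x ^ 2 = -(x ^ 2 / 2) := by ring
        have e2 : -((1/2:ℝ) / 2) * x ^ 2 = -(1/4) * x ^ 2 := by ring
        rw [e1, e2] at h8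
        have h10 := Real.exp_pos (-(x ^ 2 / 2))
        nlinarith [mul_le_mul_of_nonneg_right h7 (show 0 ≤ 1 + x by linarith),
          mul_nonneg h10.le (mul_nonneg hx.le (show 0 ≤ 1 + x by linarith))]
    have := l1.sub l2
    simpa using this
  have hright : ∀ x ≥ 1, (W x - x) * (1 + |x|) ≤ M1 * (1 - V x) := by
    intro x hx
    have h9 : (0:ℝ) ≤ M1 * (1 - V x) - (W x - x) * (1 + x) := by
      refine le_of_tendsto' (b := M1 * (1 - V x) - (W x - x) * (1 + x))
        (f := fun y => M1 * (1 - V (max x y)) - (W (max x y) - max x y) * (1 + max x y))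
        (x := atTop) ?_ ?_
      · refine Tendsto.congr' ?_ hlim
        filter_upwards [eventually_ge_atTop x] with y hy
        rw [max_eq_right hy]
      · intro y
        exact hanti (show x ∈ Ici (1:ℝ) from hx)
          (show max x y ∈ Ici (1:ℝ) from hx.trans (le_max_left _ _)) (le_max_left _ _)
    rw [abs_of_pos (by linarith)]
    linarith
  obtain ⟨B, hB⟩ := (isCompact_Icc (a := min 1 a) (b := 1)).exists_bound_of_continuousOn
    (f := fun x => (W x - x) * (1 + |x|) / (1 - V x)) (by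
      apply Continuous.continuousOn
      exact ((h.cW.sub continuous_id).mul (continuous_const.add continuous_abs)).div
        (continuous_const.sub h.cV) fun x => by linarith [h.V_lt x])
  refine ⟨M1 + |B|, by positivity, fun x hx => ?_⟩
  have hV := h.V_lt x
  rcases le_total 1 x with h10 | h10
  · have := hright x h10
    nlinarith [abs_nonneg B]
  · have h11 := hB x ⟨(min_le_right _ _).trans hx, h10⟩
    rw [Real.norm_eq_abs] at h11
    have h12 := (le_abs_self _).trans h11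
    rw [div_le_iff₀ (by linarith)] at h12
    nlinarith [le_abs_self B]

/-! ### `k'` is bounded below by `-M V` -/

lemma ck1 (h : SPair c W V I k lam) : Continuous (k1 c W V k lam) := by
  unfold k1
  have hA : Continuous (Ad c W) := Stat8_307.cA h
  have hA1 : Continuous (Ad1 c V) := by
    unfold Ad1
    exact continuous_const.sub (continuous_const.mul (continuous_const.sub h.cV))
  exact ((((h.ck.pow 2).add ((continuous_const.mul hA).mul h.ck)).sub
    (continuous_const.mul hA1)).add continuous_const)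

/-- far left, `-2cV ≤ k'` -/
lemma k1_ge_left (h : SPair c W V I k lam) {x1 : ℝ}
    (hx1 : ∀ x ≤ x1, k x + Ad c W x ≤ 0) : ∀ x ≤ x1, -(2 * c * V x) ≤ k1 c W V k lam x := by
  have hc := h.c_pos
  have hc1 := h.c_lt
  intro x0 hx0
  by_contra hcon
  push Not at hcon
  set f : ℝ → ℝ := fun x => k1 c W V k lam x + 2 * c * V x with hf
  have hf0 : f x0 < 0 := by rw [hf]; simp only; linarith
  have hcont : Continuous fun x => k x + Ad c W x := h.ck.add (Stat8_307.cA h)
  set P : ℝ → ℝ := fun x => ∫ t in x0..x, (k t + Ad c W t) with hP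
  have hPd : ∀ x, HasDerivAt P (k x + Ad c W x) x := fun x =>
    (hcont.integral_hasStrictDerivAt x0 x).hasDerivAt
  have hP0 : P x0 = 0 := by rw [hP]; simp
  have hfd : ∀ x, HasDerivAt f
      (2 * (k x + Ad c W x) * k1 c W V k lam x + 2 * Ad1 c V x * k x) x := by
    intro x
    have h1 : HasDerivAt (k1 c W V k lam) _ x := h.dk1 x
    have h2 := h1.add ((h.dV x).const_mul (2 * c))
    refine h2.congr_deriv ?_
    unfold k1; ring
  have hgd : ∀ x, HasDerivAt (fun x => f x * Real.exp (-2 * P x))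
      ((2 * (k x + Ad c W x) * k1 c W V k lam x + 2 * Ad1 c V x * k x) * Real.exp (-2 * P x)
        + f x * (Real.exp (-2 * P x) * (-2 * (k x + Ad c W x)))) x := fun x =>
    (hfd x).mul (((hPd x).const_mul (-2)).exp)
  have hgm : MonotoneOn (fun x => f x * Real.exp (-2 * P x)) (Iic x0) := by
    apply monotoneOn_of_deriv_nonneg (convex_Iic x0)
    · exact fun x _ => (hgd x).continuousAt.continuousWithinAt
    · exact fun x _ => (hgd x).differentiableAt.differentiableWithinAt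
    · intro x hx
      rw [interior_Iic] at hx
      have hx' : x < x0 := hx
      rw [(hgd x).deriv]
      have hE := Real.exp_pos (-2 * P x)
      have hk := h.k_pos x
      have hV := h.V_pos x
      have hA := hx1 x (by linarith)
      have hA1 : 0 ≤ Ad1 c V x := by unfold Ad1; nlinarith
      have e : (2 * (k x + Ad c W x) * k1 c W V k lam x + 2 * Ad1 c V x * k x) * Real.exp (-2 * P x)
        + f x * (Real.exp (-2 * P x) * (-2 * (k x + Ad c W x)))
        = (2 * Ad1 c V x * k x + 4 * c * V x * (-(k x + Ad c W x))) * Real.exp (-2 * P x) := by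
        rw [hf]; ring
      rw [e]
      have h3 : 0 ≤ 4 * c * V x * (-(k x + Ad c W x)) :=
        mul_nonneg (by positivity) (by linarith)
      have h4 : 0 ≤ 2 * Ad1 c V x * k x := by positivity
      exact mul_nonneg (by linarith) hE.le
  have hPm : AntitoneOn P (Iic x0) := by
    apply antitoneOn_of_deriv_nonpos (convex_Iic x0)
    · exact fun x _ => (hPd x).continuousAt.continuousWithinAt
    · exact fun x _ => (hPd x).differentiableAt.differentiableWithinAt
    · intro x hx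
      rw [interior_Iic] at hx
      rw [(hPd x).deriv]
      exact hx1 x (by have : x < x0 := hx; linarith)
  have hfx : ∀ x ≤ x0, f x ≤ f x0 := by
    intro x hx
    have h5 := hgm (show x ∈ Iic x0 from hx) (mem_Iic.2 (le_refl x0)) hx
    simp only [hP0, mul_zero, Real.exp_zero, mul_one] at h5
    have h6 : 0 ≤ P x := by
      have := hPm (show x ∈ Iic x0 from hx) (mem_Iic.2 (le_refl x0)) hx
      rw [hP0] at this; exact this
    have h7 : Real.exp (-2 * P x) ≤ 1 := Real.exp_le_one_iff.2 (by linarith)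
    have h8 := Real.exp_pos (-2 * P x)
    by_contra h9
    push Not at h9
    rcases le_total 0 (f x) with h10 | h10
    · nlinarith
    · nlinarith
  obtain ⟨C, hC⟩ := h.k_bdd
  set m : ℝ := -f x0 with hm
  have hm0 : 0 < m := by linarith
  have hkd : ∀ x, HasDerivAt (fun x => k x + m * x) (k1 c W V k lam x + m * 1) x := fun x =>
    (h.dk x).add ((hasDerivAt_id x).const_mul m)
  have hkm : AntitoneOn (fun x => k x + m * x) (Iic x0) := by
    apply antitoneOn_of_deriv_nonpos (convex_Iic x0)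
    · exact fun x _ => (hkd x).continuousAt.continuousWithinAt
    · exact fun x _ => (hkd x).differentiableAt.differentiableWithinAt
    · intro x hx
      rw [interior_Iic] at hx
      rw [(hkd x).deriv]
      have h11 := hfx x (by have : x < x0 := hx; linarith)
      have h12 := h.V_pos x
      have h13 : 0 < 2 * c * V x := by positivity
      rw [hf] at h11
      simp only at h11
      linarith
  set x2 : ℝ := x0 - (|C| + 1) / m with hx2
  have h14 : x2 ≤ x0 := by
    have : 0 ≤ (|C| + 1) / m := by positivity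
    linarith
  have h15 := hkm (show x2 ∈ Iic x0 from h14) (mem_Iic.2 (le_refl x0)) h14
  simp only at h15
  have h16 := hC x2
  have h17 := h.k_pos x0
  have h18 : m * x2 = m * x0 - (|C| + 1) := by rw [hx2]; field_simp
  have := le_abs_self C
  linarith

/-- **`-M V ≤ k'`** -/
lemma k1_ge (h : SPair c W V I k lam) : ∃ M, 0 < M ∧ ∀ x, -(M * V x) ≤ k1 c W V k lam x := by
  have hc := h.c_pos
  have hc1 := h.c_lt
  obtain ⟨C, hC⟩ := h.k_bdd
  have h1c : 0 < 1 - c := by linarith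
  set x1 : ℝ := -(2 * (|C| + 1) / (1 - c)) with hx1
  have hx10 : x1 ≤ 0 := by
    have : 0 ≤ 2 * (|C| + 1) / (1 - c) := by positivity
    linarith
  have hleft := k1_ge_left h (x1 := x1) (by
    intro x hx
    have h1 := A_le_left h (x := x) (by linarith)
    have h2 := hC x
    have h3 : (1 - c) / 2 * x ≤ (1 - c) / 2 * x1 := mul_le_mul_of_nonneg_left hx (by linarith)
    have h4 : (1 - c) / 2 * x1 = -(|C| + 1) := by rw [hx1]; field_simp
    have := le_abs_self C
    linarith)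
  set K : ℝ := 2 * ((1 - c) / 2 * |x1| * (|C|)) + 2 with hK
  have hK0 : 0 < K := by positivity
  have hV1 := h.V_pos x1
  refine ⟨2 * c + K / V x1, by positivity, fun x => ?_⟩
  have hV := h.V_pos x
  rcases le_total x x1 with hx | hx
  · have h5 := hleft x hx
    have h6 : 0 ≤ K / V x1 * V x := by positivity
    nlinarith
  · have hk := h.k_pos x
    have hkC := (hC x).trans (le_abs_self C)
    have hVm : V x1 ≤ V x := h.V_strictMono.monotone hx
    have h7 : K ≤ K / V x1 * V x := by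
      rw [div_mul_eq_mul_div, le_div_iff₀ hV1]
      exact mul_le_mul_of_nonneg_left hVm hK0.le
    have hA : -((1 - c) / 2 * |x1|) ≤ Ad c W x := by
      have h8 := h.W_pos x
      have h9 : Ad c W x = (1 - c) / 2 * x + c * W x := by unfold Ad; ring
      rw [h9]
      have h10 : -|x1| ≤ x := (neg_abs_le x1).trans hx
      nlinarith [mul_pos hc h8, mul_le_mul_of_nonneg_left h10 (show 0 ≤ (1 - c) / 2 by linarith)]
    have h11 : -((1 - c) / 2 * |x1| * |C|) ≤ Ad c W x * k x := by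
      have h12 : -((1 - c) / 2 * |x1|) * k x ≤ Ad c W x * k x := mul_le_mul_of_nonneg_right hA hk.le
      have h13 : (1 - c) / 2 * |x1| * k x ≤ (1 - c) / 2 * |x1| * |C| :=
        mul_le_mul_of_nonneg_left hkC (by positivity)
      linarith
    have h14 : Ad1 c V x ≤ 1 := by
      have := h.V_lt x
      unfold Ad1; nlinarith
    have h15 : -K ≤ k1 c W V k lam x := by
      unfold k1
      have := h.lam_gt
      rw [hK]
      nlinarith [sq_nonneg (k x)]
    have h16 : 0 ≤ 2 * c * V x := by positivity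
    nlinarith

/-! ### the algebraic dual function (closed pair) -/

/-- `G0 = -(V R k + I R - (1-c) U V)/2` -/
noncomputable def G0x (c : ℝ) (W V I k : ℝ → ℝ) (x : ℝ) : ℝ :=
  -(V x * (1 - V x) * k x + I x * (1 - V x) - (1 - c) * (W x - x) * V x) / 2

/-- `G0' = k G0 + I² - 2 c V R²` for the closed pair -/
lemma dG0 (h : SPair c W V I k c) (x : ℝ) : HasDerivAt (G0x c W V I k)
    (k x * G0x c W V I k x + I x ^ 2 - 2 * c * (V x * (1 - V x) ^ 2)) x := by
  have hV := h.dV x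
  have hR := hV.const_sub 1
  have hU := (h.dW x).sub (hasDerivAt_id x)
  have h1 := ((hV.mul hR).mul (h.dk x)).add ((h.dI x).mul hR)
  have h2 := (hU.const_mul (1 - c)).mul hV
  have h3 := ((h1.sub h2).neg).div_const 2
  refine h3.congr_deriv ?_
  simp only [Pi.mul_apply, Pi.sub_apply, id_eq]
  unfold G0x Ad1
  have hI := h.eqI x
  have e : Ad c W x = (1 + c) / 2 * x + c * (W x - x) := rfl
  rw [e] at hI ⊢
  linear_combination (1 / 2 * (V x * k x - I x)) * hI

/-- other form -/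
lemma G0x_left (h : SPair c W V I k lam) (x : ℝ) : G0x c W V I k x =
    -(V x * (1 - V x) * k x + (1 + c) * W x * (1 - V x) - I x * V x) / 2 := by
  have hU' : I x = (1 + c) * W x * (1 - V x) + (1 - c) * (W x - x) * V x := by
    rw [h.eqI]; unfold Ad; ring
  unfold G0x
  linear_combination (-1 / 2) * hU'

lemma G0_left (h : SPair c W V I k lam) (a : ℝ) :
    ∃ M, 0 < M ∧ ∀ x ≤ a, |G0x c W V I k x| * (1 + |x|) ≤ M * V x := by
  have hc := h.c_pos
  have hc1 := h.c_lt
  obtain ⟨M1, hM1, h1⟩ := W_left h a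
  obtain ⟨M2, hM2, h2⟩ := k_lin h
  obtain ⟨M3, hM3, h3⟩ := I_lin h
  refine ⟨2 * M1 + M2 + M3, by positivity, fun x hx => ?_⟩
  have hV := h.V_pos x
  have hV1 := h.V_lt x
  have hI := h.I_pos x
  have hk := h.k_pos x
  have hW := h.W_pos x
  have hx0 := abs_nonneg x
  have a1 := h1 x hx
  have a2 := h2 x
  have a3 := h3 x
  rw [G0x_left h]
  have hb : |-(V x * (1 - V x) * k x + (1 + c) * W x * (1 - V x) - I x * V x) / 2| ≤
      (V x * k x + 2 * W x + I x * V x) := by
    rw [abs_le]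
    have e1 : 0 ≤ V x * (1 - V x) * k x := by
      have : 0 ≤ 1 - V x := by linarith
      positivity
    have e2 : V x * (1 - V x) * k x ≤ V x * k x := by nlinarith [mul_pos hV hk]
    have e3 : 0 ≤ (1 + c) * W x * (1 - V x) := by
      have : 0 ≤ 1 - V x := by linarith
      positivity
    have e4 : (1 + c) * W x * (1 - V x) ≤ 2 * W x := by
      have e6 : (1 + c) * W x ≤ 2 * W x := by nlinarith
      nlinarith [mul_pos (show 0 < 1 + c by linarith) hW]
    have e5 : 0 < I x * V x := by positivity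
    constructor <;> nlinarith
  have b3 : I x * (1 + |x|) ≤ M3 := by
    refine le_trans ?_ a3
    have : (1 + |x|) ≤ (1 + |x|) ^ 2 := by nlinarith
    exact mul_le_mul_of_nonneg_left this hI.le
  calc _ ≤ (V x * k x + 2 * W x + I x * V x) * (1 + |x|) :=
        mul_le_mul_of_nonneg_right hb (by positivity)
    _ = V x * (k x * (1 + |x|)) + 2 * (W x * (1 + |x|)) + V x * (I x * (1 + |x|)) := by ring
    _ ≤ V x * M2 + 2 * (M1 * V x) + V x * M3 := by
        have := mul_le_mul_of_nonneg_left a2 hV.le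
        have := mul_le_mul_of_nonneg_left b3 hV.le
        linarith
    _ = _ := by ring

lemma G0_right (h : SPair c W V I k lam) (a : ℝ) :
    ∃ M, 0 < M ∧ ∀ x ≥ a, |G0x c W V I k x| * (1 + |x|) ≤ M * (1 - V x) := by
  have hc := h.c_pos
  have hc1 := h.c_lt
  obtain ⟨M1, hM1, h1⟩ := U_right h a
  obtain ⟨M2, hM2, h2⟩ := k_lin h
  obtain ⟨M3, hM3, h3⟩ := I_lin h
  refine ⟨M1 + M2 + M3, by positivity, fun x hx => ?_⟩
  have hV := h.V_pos x
  have hV1 := h.V_lt x
  have hI := h.I_pos x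
  have hk := h.k_pos x
  have hU := h.U_pos x
  have hx0 := abs_nonneg x
  have a1 := h1 x hx
  have a2 := h2 x
  have a3 := h3 x
  have hR : 0 < 1 - V x := by linarith
  have hU' : 0 < W x - x := by linarith
  have hb : |G0x c W V I k x| ≤ (1 - V x) * k x + I x * (1 - V x) + (W x - x) := by
    unfold G0x
    rw [abs_le]
    have e1 : 0 ≤ V x * (1 - V x) * k x := by positivity
    have e2 : V x * (1 - V x) * k x ≤ (1 - V x) * k x := by nlinarith [mul_pos hR hk]
    have e3 : 0 ≤ (1 - c) * (W x - x) * V x := by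
      have : 0 ≤ 1 - c := by linarith
      positivity
    have e4 : (1 - c) * (W x - x) * V x ≤ W x - x := by
      have : (1 - c) * (W x - x) ≤ W x - x := by nlinarith
      nlinarith [mul_nonneg (show 0 ≤ 1 - c by linarith) hU'.le]
    have e5 : 0 < I x * (1 - V x) := by positivity
    constructor <;> nlinarith
  have b3 : I x * (1 + |x|) ≤ M3 := by
    refine le_trans ?_ a3
    have : (1 + |x|) ≤ (1 + |x|) ^ 2 := by nlinarith
    exact mul_le_mul_of_nonneg_left this hI.le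
  calc _ ≤ ((1 - V x) * k x + I x * (1 - V x) + (W x - x)) * (1 + |x|) :=
        mul_le_mul_of_nonneg_right hb (by positivity)
    _ = (1 - V x) * (k x * (1 + |x|)) + (1 - V x) * (I x * (1 + |x|)) + (W x - x) * (1 + |x|) := by
        ring
    _ ≤ (1 - V x) * M2 + (1 - V x) * M3 + M1 * (1 - V x) := by
        have := mul_le_mul_of_nonneg_left a2 hR.le
        have := mul_le_mul_of_nonneg_left b3 hR.le
        linarith
    _ = _ := by ring

lemma G0_bdd (h : SPair c W V I k lam) : ∃ M, 0 < M ∧ ∀ x, |G0x c W V I k x| ≤ M := by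
  obtain ⟨M1, hM1, h1⟩ := G0_left h 0
  obtain ⟨M2, hM2, h2⟩ := G0_right h 0
  refine ⟨M1 + M2, by positivity, fun x => ?_⟩
  have hV := h.V_pos x
  have hV1 := h.V_lt x
  have hG := abs_nonneg (G0x c W V I k x)
  have hx := abs_nonneg x
  rcases le_total x 0 with hx0 | hx0
  · have := h1 x hx0
    nlinarith [mul_nonneg hG hx]
  · have := h2 x hx0
    nlinarith [mul_nonneg hG hx]

end Crest.Agent.R146.PairQ_355
end

-- ▼ part R146/RatioB_39
section

/-!
# Row 146, helper39: ratio bound for the stationary pair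

For `SPair c W V I k lam` with `c < 1/2`, at every `x` with `V x = Φ y`:
`√(1-2c) φ(y) ≤ I x ≤ √(1+2c) φ(y)`.
-/

set_option autoImplicit false

open Set Filter Topology

namespace Crest.Agent.R146.RatioB_39

open StepStart_483 SPair_307 StepDef_791

/-! ### Gaussian lemmas -/

theorem Phi_tendsto_atTop : Tendsto Phi atTop (𝓝 1) := by
  have h := Phi_tendsto_atBot.comp tendsto_neg_atTop_atBot
  have h1 : Tendsto (fun z => 1 - (Phi ∘ Neg.neg) z) atTop (𝓝 (1 - 0)) := h.const_sub 1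
  rw [sub_zero] at h1
  refine h1.congr fun z => ?_
  simp only [Function.comp]
  rw [Phi_neg]; ring

theorem ph_tendsto_atTop : Tendsto ph atTop (𝓝 0) := by
  have h := ph_tendsto_atBot.comp tendsto_neg_atTop_atBot
  refine h.congr fun z => ?_
  simp only [Function.comp]
  rw [ph_neg]

/-- upper Mills bound -/
theorem mills_upper (z : ℝ) : z * (1 - Phi z) < ph z := by
  have h := U0_pos z
  rw [U0_eq] at h
  linarith

/-- lower Mills bound -/
theorem mills_lower (z : ℝ) : z * ph z < (1 + z ^ 2) * (1 - Phi z) := by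
  set F : ℝ → ℝ := fun z => (1 - Phi z) - z / (1 + z ^ 2) * ph z with hF
  have hd : ∀ z : ℝ, HasDerivAt F (-(2 / (1 + z ^ 2) ^ 2 * ph z)) z := by
    intro z
    have hp : (1 + z ^ 2) ≠ 0 := by positivity
    have h1 : HasDerivAt (fun z : ℝ => 1 + z ^ 2) (2 * z) z := by
      simpa using (hasDerivAt_id' z).fun_pow 2 |>.const_add 1
    have h2 := (hasDerivAt_id' z).fun_div h1 hp
    have h3 := ((Phi_deriv z).const_sub 1).fun_sub (h2.fun_mul (ph_deriv z))
    refine h3.congr_deriv ?_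
    field_simp
    ring
  have hanti : StrictAnti F := strictAnti_of_deriv_neg fun z => by
    rw [(hd z).deriv]
    have := ph_pos z
    have : 0 < 2 / (1 + z ^ 2) ^ 2 * ph z := by positivity
    linarith
  have hlim : Tendsto F atTop (𝓝 0) := by
    have h1 : Tendsto (fun z => 1 - Phi z) atTop (𝓝 (1 - 1)) := Phi_tendsto_atTop.const_sub 1
    have h2 : Tendsto (fun z : ℝ => z / (1 + z ^ 2) * ph z) atTop (𝓝 0) := by
      refine squeeze_zero_norm (fun z => ?_) ph_tendsto_atTop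
      rw [Real.norm_eq_abs, abs_mul, abs_of_pos (ph_pos z)]
      have h3 : |z / (1 + z ^ 2)| ≤ 1 := by
        rw [abs_div, abs_of_pos (by positivity : (0:ℝ) < 1 + z ^ 2), div_le_one (by positivity)]
        rw [abs_le]
        constructor <;> nlinarith [sq_nonneg (z - 1), sq_nonneg (z + 1)]
      have := mul_le_mul_of_nonneg_right h3 (ph_pos z).le
      linarith
    have h3 := h1.sub h2
    simpa using h3
  have hpos : 0 < F z := by
    have h1 : F (z + 1) < F z := hanti (by linarith)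
    have h2 : 0 ≤ F (z + 1) := by
      refine le_of_tendsto hlim ?_
      filter_upwards [eventually_ge_atTop (z + 1)] with t ht
      exact hanti.antitone ht
    linarith
  have hp : 0 < 1 + z ^ 2 := by positivity
  have h1 := mul_pos hp hpos
  simp only [hF] at h1
  have e : (1 + z ^ 2) * ((1 - Phi z) - z / (1 + z ^ 2) * ph z) =
      (1 + z ^ 2) * (1 - Phi z) - z * ph z := by
    field_simp
  rw [e] at h1
  linarith

/-- `U0 z ≤ φ(z)/(1+z²)` for `z ≥ 0` -/
theorem U0_le_ph {z : ℝ} (hz : 0 ≤ z) : U0 z * (1 + z ^ 2) ≤ ph z := by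
  rw [U0_eq]
  have h := mills_lower z
  nlinarith [mul_le_mul_of_nonneg_left h.le hz]

theorem Phi_zero : Phi 0 = 1 / 2 := by
  have h := Phi_neg 0
  rw [neg_zero] at h
  linarith

theorem ph_zero_le : ph 0 ≤ 2 / 5 := by
  rw [ph_eq]
  simp only [ne_eq, OfNat.ofNat_ne_zero, not_false_eq_true, zero_pow, neg_zero, zero_div,
    Real.exp_zero, mul_one]
  have h1 : (5 / 2 : ℝ) ≤ √(2 * Real.pi) := by
    refine Real.le_sqrt_of_sq_le ?_
    have := Real.pi_gt_d2
    norm_num
    linarith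
  calc (√(2 * Real.pi))⁻¹ ≤ (5 / 2 : ℝ)⁻¹ := inv_anti₀ (by norm_num) h1
    _ = 2 / 5 := by norm_num

theorem ph_le_zero (z : ℝ) : ph z ≤ ph 0 := by
  rw [ph_eq, ph_eq]
  refine mul_le_mul_of_nonneg_left (Real.exp_le_exp.2 ?_) (by positivity)
  have := sq_nonneg z
  simp only [ne_eq, OfNat.ofNat_ne_zero, not_false_eq_true, zero_pow, neg_zero, zero_div]
  linarith

theorem ph_ge {z : ℝ} (h0 : 0 ≤ z) (h1 : z ≤ 1) : 3 / 16 ≤ ph z := by
  rw [ph_eq]
  have h2 : √(2 * Real.pi) ≤ 8 / 3 := by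
    rw [Real.sqrt_le_left (by norm_num)]
    have := Real.pi_lt_d2
    norm_num
    linarith
  have h3 : (3 / 8 : ℝ) ≤ (√(2 * Real.pi))⁻¹ := by
    have : (8 / 3 : ℝ)⁻¹ ≤ (√(2 * Real.pi))⁻¹ := inv_anti₀ (by positivity) h2
    norm_num at this ⊢
    exact this
  have h4 : (1 / 2 : ℝ) ≤ Real.exp (-z ^ 2 / 2) := by
    have := Real.add_one_le_exp (-z ^ 2 / 2)
    nlinarith
  calc (3 / 16 : ℝ) = 3 / 8 * (1 / 2) := by norm_num
    _ ≤ _ := mul_le_mul h3 h4 (by norm_num) (by positivity)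

theorem Phi_le_lin {z : ℝ} (hz : 0 ≤ z) : Phi z ≤ 1 / 2 + 2 / 5 * z := by
  have hd : ∀ t : ℝ, HasDerivAt (fun t => 2 / 5 * t - Phi t) (2 / 5 - ph t) t := by
    intro t
    have := ((hasDerivAt_id' t).const_mul (2 / 5)).fun_sub (Phi_deriv t)
    exact this.congr_deriv (by ring)
  have hm : Monotone (fun t => 2 / 5 * t - Phi t) := monotone_of_deriv_nonneg
    (fun t => (hd t).differentiableAt) fun t => by
      rw [(hd t).deriv]; linarith [ph_le_zero t, ph_zero_le]
  have := hm hz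
  simp only [mul_zero, Phi_zero] at this
  linarith

/-- the universal source is bounded by one -/
theorem S_bound_aux {z : ℝ} (hz : 0 ≤ z) :
    |z * (Phi z * (1 - Phi z) / ph z) - 3 / 2 * (2 * Phi z - 1)| ≤ 1 := by
  have hp := ph_pos z
  have hP1 := Phi_lt_one z
  have hP0 : 1 / 2 ≤ Phi z := by
    rw [← Phi_zero]; exact Phi_strictMono.monotone hz
  have hmu := mills_upper z
  have hml := mills_lower z
  set R := 1 - Phi z with hR
  have hPR : Phi z = 1 - R := by rw [hR]; ring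
  rw [hPR] at hP1 hP0 ⊢
  have hR0 : 0 < R := by linarith
  have hRh : R ≤ 1 / 2 := by linarith
  rw [abs_le]
  constructor
  · -- lower
    by_cases h45 : z ≤ 4 / 5
    · have h1 := Phi_le_lin hz
      rw [hPR] at h1
      have h2 : 0 ≤ z * ((1 - R) * R / ph z) := by
        have : 0 ≤ (1 - R) * R / ph z := div_nonneg (mul_nonneg (by linarith) hR0.le) hp.le
        exact mul_nonneg hz this
      nlinarith
    · push Not at h45
      have hq : 1 ≤ z ^ 2 + 4 * z * ph z := by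
        by_cases h1 : z ≤ 1
        · have := ph_ge hz h1
          nlinarith
        · push Not at h1
          nlinarith [mul_pos (by linarith : (0:ℝ) < z) hp]
      -- `1/2 ≤ 3R + z R (1-R)/φ`
      set a := z / (1 + z ^ 2) with ha
      have hD : 0 < 1 + z ^ 2 := by positivity
      have ha0 : 0 < a := div_pos (by linarith) hD
      have hza : z * a ≤ 1 := by
        rw [ha, ← mul_div_assoc, div_le_one hD]; nlinarith
      have haR : a * ph z ≤ R := by
        rw [ha, div_mul_eq_mul_div, div_le_iff₀ hD]; linarith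
      have hf0 : 1 / 2 ≤ a * (2 * ph z + z) := by
        rw [ha, div_mul_eq_mul_div, le_div_iff₀ hD]; nlinarith
      have hf1 : a * (2 * ph z + z) ≤ 3 * (a * ph z) + z * (a * (1 - a * ph z)) := by
        have : 0 ≤ a * ph z * (1 - z * a) := mul_nonneg (mul_pos ha0 hp).le (by linarith)
        nlinarith
      have hf2 : 3 * (a * ph z) + z * (a * (1 - a * ph z)) ≤ 3 * R + z * ((1 - R) * R / ph z) := by
        have e : z * (a * (1 - a * ph z)) = z * ((1 - a * ph z) * (a * ph z) / ph z) := by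
          field_simp
        rw [e]
        have h3 : (1 - a * ph z) * (a * ph z) / ph z ≤ (1 - R) * R / ph z := by
          refine div_le_div_of_nonneg_right ?_ hp.le
          nlinarith
        have h4 := mul_le_mul_of_nonneg_left h3 hz
        linarith
      linarith
  · -- upper
    have h1 : z * ((1 - R) * R / ph z) ≤ 1 - R := by
      have e : z * ((1 - R) * R / ph z) = (1 - R) * (z * R / ph z) := by ring
      rw [e]
      have h2 : z * R / ph z ≤ 1 := by rw [div_le_one hp]; exact hmu.le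
      have := mul_le_mul_of_nonneg_left h2 (by linarith : 0 ≤ 1 - R)
      linarith
    linarith

theorem S_bound (z : ℝ) :
    |z * (Phi z * (1 - Phi z) / ph z) - 3 / 2 * (2 * Phi z - 1)| ≤ 1 := by
  rcases le_total 0 z with hz | hz
  · exact S_bound_aux hz
  · have h := S_bound_aux (neg_nonneg.2 hz)
    rw [ph_neg, Phi_neg] at h
    rw [← abs_neg]
    convert h using 2
    ring

/-! ### quantile function -/

/-- inverse of `Phi` -/
noncomputable def Qn : ℝ → ℝ := Function.invFun Phi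

theorem Qn_Phi (z : ℝ) : Qn (Phi z) = z :=
  Function.leftInverse_invFun Phi_strictMono.injective z

theorem exists_Phi {v : ℝ} (hv : v ∈ Ioo (0:ℝ) 1) : ∃ z, Phi z = v := by
  have h1 : ∃ a, Phi a ≤ v := ((Phi_tendsto_atBot.eventually_lt_const hv.1).exists).imp
    fun a ha => ha.le
  have h2 : ∃ b, v ≤ Phi b := ((Phi_tendsto_atTop.eventually_const_lt hv.2).exists).imp
    fun a ha => ha.le
  obtain ⟨a, ha⟩ := h1
  obtain ⟨b, hb⟩ := h2
  exact mem_range_of_exists_le_of_exists_ge Phi_cont ⟨a, ha⟩ ⟨b, hb⟩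

theorem Phi_Qn {v : ℝ} (hv : v ∈ Ioo (0:ℝ) 1) : Phi (Qn v) = v := by
  obtain ⟨z, rfl⟩ := exists_Phi hv
  rw [Qn_Phi]

theorem Qn_cont {v : ℝ} (hv : v ∈ Ioo (0:ℝ) 1) : ContinuousAt Qn v := by
  rw [Metric.continuousAt_iff]
  intro ε hε
  obtain ⟨z, rfl⟩ := exists_Phi hv
  have h1 : Phi (z - ε) < Phi z := Phi_strictMono (by linarith)
  have h2 : Phi z < Phi (z + ε) := Phi_strictMono (by linarith)
  have h3 : ∀ᶠ w in 𝓝 (Phi z), w ∈ Ioo (Phi (z - ε)) (Phi (z + ε)) := Ioo_mem_nhds h1 h2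
  rw [Metric.eventually_nhds_iff] at h3
  obtain ⟨δ, hδ, h4⟩ := h3
  refine ⟨δ, hδ, fun {w} hw => ?_⟩
  have h5 := h4 hw
  have hw01 : w ∈ Ioo (0:ℝ) 1 := ⟨(Phi_pos _).trans h5.1, h5.2.trans (Phi_lt_one _)⟩
  obtain ⟨u, rfl⟩ := exists_Phi hw01
  rw [Qn_Phi, Qn_Phi, Real.dist_eq, abs_lt]
  have h6 := Phi_strictMono.lt_iff_lt.1 h5.1
  have h7 := Phi_strictMono.lt_iff_lt.1 h5.2
  constructor <;> linarith

theorem Qn_deriv {v : ℝ} (hv : v ∈ Ioo (0:ℝ) 1) : HasDerivAt Qn (ph (Qn v))⁻¹ v := by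
  refine HasDerivAt.of_local_left_inverse (Qn_cont hv) (Phi_deriv _) (ph_pos _).ne' ?_
  filter_upwards [Ioo_mem_nhds hv.1 hv.2] with w hw using Phi_Qn hw

/-! ### the ratio `g = I/φ(Φ⁻¹(V))` of a stationary pair -/

variable {c : ℝ} {W V I k : ℝ → ℝ} {lam : ℝ}

/-- `y(x) = Φ⁻¹(V x)` -/
noncomputable def yy (V : ℝ → ℝ) (x : ℝ) : ℝ := Qn (V x)

/-- `g(x) = I x / φ(y x)` -/
noncomputable def gg (V I : ℝ → ℝ) (x : ℝ) : ℝ := I x / ph (yy V x)

/-- `m(x) = V(1-V)/φ(y)` -/
noncomputable def mm (V : ℝ → ℝ) (x : ℝ) : ℝ := V x * (1 - V x) / ph (yy V x)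

/-- `g'` -/
noncomputable def DD (c : ℝ) (W V I : ℝ → ℝ) (x : ℝ) : ℝ :=
  yy V x * gg V I x ^ 2 - 2 * Ad c W x * gg V I x + 2 * c * mm V x

theorem V_mem (h : SPair c W V I k lam) (x : ℝ) : V x ∈ Ioo (0:ℝ) 1 := ⟨h.V_pos x, h.V_lt x⟩

theorem Phi_yy (h : SPair c W V I k lam) (x : ℝ) : Phi (yy V x) = V x := Phi_Qn (V_mem h x)

theorem gg_pos (h : SPair c W V I k lam) (x : ℝ) : 0 < gg V I x := div_pos (h.I_pos x) (ph_pos _)

theorem gg_mul (V I : ℝ → ℝ) (x : ℝ) : gg V I x * ph (yy V x) = I x := by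
  unfold gg
  field_simp [(ph_pos (yy V x)).ne']

theorem hyy (h : SPair c W V I k lam) (x : ℝ) : HasDerivAt (yy V) (gg V I x) x := by
  have h1 := (Qn_deriv (V_mem h x)).comp x (h.dV x)
  refine h1.congr_deriv ?_
  unfold gg yy
  rw [div_eq_inv_mul]

theorem hphy (h : SPair c W V I k lam) (x : ℝ) :
    HasDerivAt (fun x => ph (yy V x)) (-yy V x * I x) x := by
  have h1 := (ph_deriv (yy V x)).comp x (hyy h x)
  refine h1.congr_deriv ?_
  rw [← gg_mul V I x]; ring

theorem hgg (h : SPair c W V I k lam) (x : ℝ) : HasDerivAt (gg V I) (DD c W V I x) x := by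
  have hp := (ph_pos (yy V x)).ne'
  have h1 := (h.dI x).fun_div (hphy h x) hp
  refine h1.congr_deriv ?_
  unfold DD mm gg
  field_simp
  ring

theorem hmm (h : SPair c W V I k lam) (x : ℝ) :
    HasDerivAt (mm V) ((1 - 2 * V x) * gg V I x + yy V x * gg V I x * mm V x) x := by
  have hp := (ph_pos (yy V x)).ne'
  have h1 := ((h.dV x).fun_mul ((h.dV x).const_sub 1)).fun_div (hphy h x) hp
  refine h1.congr_deriv ?_
  unfold mm gg
  field_simp
  ring

/-- second derivative of `g` -/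
theorem hDD (h : SPair c W V I k lam) (x : ℝ) :
    HasDerivAt (DD c W V I)
      ((2 * yy V x * gg V I x - 2 * Ad c W x) * DD c W V I x +
        gg V I x * (gg V I x ^ 2 - 1 + 2 * c * (yy V x * mm V x - 3 / 2 * (2 * V x - 1)))) x := by
  have h1 := (((hyy h x).fun_mul ((hgg h x).fun_pow 2)).fun_sub
    (((h.dA x).const_mul 2).fun_mul (hgg h x))).fun_add ((hmm h x).const_mul (2 * c))
  refine h1.congr_deriv ?_
  unfold Ad1
  push_cast
  ring

theorem S_yy (h : SPair c W V I k lam) (x : ℝ) :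
    |yy V x * mm V x - 3 / 2 * (2 * V x - 1)| ≤ 1 := by
  have := S_bound (yy V x)
  rw [Phi_yy h x] at this
  exact this

theorem I_eq (h : SPair c W V I k lam) (x : ℝ) :
    I x = (1 + c) * (1 - V x) * W x + (1 - c) * V x * (W x - x) := by
  rw [h.eqI x]; unfold Ad; ring

/-- no interior maximum above `√(1+2c)` -/
theorem dichotomy_up (h : SPair c W V I k lam) {B : ℝ} (hB0 : 0 < B) (hB : 1 + 2 * c ≤ B ^ 2)
    {x0 : ℝ} (hx0 : B < gg V I x0) :
    (∀ x ≥ x0, B < gg V I x) ∨ (∀ x ≤ x0, B < gg V I x) := by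
  by_contra hcon
  push Not at hcon
  obtain ⟨⟨x1, hx1, h1⟩, ⟨x2, hx2, h2⟩⟩ := hcon
  have hx1' : x0 < x1 := lt_of_le_of_ne hx1 (by rintro rfl; linarith)
  have hx2' : x2 < x0 := lt_of_le_of_ne hx2 (by rintro rfl; linarith)
  have hc : ContinuousOn (gg V I) (Icc x2 x1) := fun x _ => (hgg h x).continuousAt.continuousWithinAt
  obtain ⟨xm, hxm, hmax⟩ := isCompact_Icc.exists_isMaxOn ⟨x0, hx2, hx1⟩ hc
  have hm0 : gg V I x0 ≤ gg V I xm := hmax ⟨hx2, hx1⟩
  have hxm1 : xm ≠ x1 := by rintro rfl; linarith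
  have hxm2 : xm ≠ x2 := by rintro rfl; linarith
  have hin : xm ∈ Ioo x2 x1 := ⟨lt_of_le_of_ne hxm.1 (Ne.symm hxm2), lt_of_le_of_ne hxm.2 hxm1⟩
  have h3 := Stat1_307.second_deriv_nonpos hin (fun t _ => hgg h t) (hDD h xm)
    (fun t ht => hmax ⟨ht.1.le, ht.2.le⟩)
  rw [h3.1] at h3
  have h4 := h3.2
  have hS := S_yy h xm
  have hg : B < gg V I xm := by linarith
  have hgp := gg_pos h xm
  have hc0 := h.c_pos
  rw [abs_le] at hS
  have h5 : 0 < gg V I xm ^ 2 - 1 +
      2 * c * (yy V xm * mm V xm - 3 / 2 * (2 * V xm - 1)) := by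
    have h6 : B ^ 2 < gg V I xm ^ 2 := by
      apply pow_lt_pow_left₀ hg hB0.le (by norm_num)
    nlinarith
  have h7 := mul_pos hgp h5
  simp only [mul_zero, zero_add] at h4
  linarith

/-- no interior minimum below `√(1-2c)` -/
theorem dichotomy_dn (h : SPair c W V I k lam) {b : ℝ} (hb : b ^ 2 ≤ 1 - 2 * c)
    {x0 : ℝ} (hx0 : gg V I x0 < b) :
    (∀ x ≥ x0, gg V I x < b) ∨ (∀ x ≤ x0, gg V I x < b) := by
  by_contra hcon
  push Not at hcon
  obtain ⟨⟨x1, hx1, h1⟩, ⟨x2, hx2, h2⟩⟩ := hcon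
  have hx1' : x0 < x1 := lt_of_le_of_ne hx1 (by rintro rfl; linarith)
  have hx2' : x2 < x0 := lt_of_le_of_ne hx2 (by rintro rfl; linarith)
  have hc : ContinuousOn (gg V I) (Icc x2 x1) := fun x _ => (hgg h x).continuousAt.continuousWithinAt
  obtain ⟨xm, hxm, hmin⟩ := isCompact_Icc.exists_isMinOn ⟨x0, hx2, hx1⟩ hc
  have hm0 : gg V I xm ≤ gg V I x0 := hmin ⟨hx2, hx1⟩
  have hxm1 : xm ≠ x1 := by rintro rfl; linarith
  have hxm2 : xm ≠ x2 := by rintro rfl; linarith
  have hin : xm ∈ Ioo x2 x1 := ⟨lt_of_le_of_ne hxm.1 (Ne.symm hxm2), lt_of_le_of_ne hxm.2 hxm1⟩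
  have h3 := Stat1_307.second_deriv_nonneg hin (fun t _ => hgg h t) (hDD h xm)
    (fun t ht => hmin ⟨ht.1.le, ht.2.le⟩)
  rw [h3.1] at h3
  have h4 := h3.2
  have hS := S_yy h xm
  have hg : gg V I xm < b := by linarith
  have hgp := gg_pos h xm
  have hc0 := h.c_pos
  rw [abs_le] at hS
  have h5 : gg V I xm ^ 2 - 1 +
      2 * c * (yy V xm * mm V xm - 3 / 2 * (2 * V xm - 1)) < 0 := by
    have h6 : gg V I xm ^ 2 < b ^ 2 := by
      apply pow_lt_pow_left₀ hg hgp.le (by norm_num)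
    nlinarith
  have h7 := mul_neg_of_pos_of_neg hgp h5
  simp only [mul_zero, zero_add] at h4
  linarith

/-! ### ends -/

/-- `V → 1`: there are points with `V x > a` for every `a < 1` -/
theorem exists_V_gt (h : SPair c W V I k lam) {a : ℝ} (ha : a < 1) (x0 : ℝ) :
    ∃ x ≥ x0, a < V x := by
  by_contra hcon
  push Not at hcon
  -- `W x - x` decreases with slope at most `a - 1`
  have hd : ∀ x ≥ x0, W x - x ≤ W x0 - x0 + (a - 1) * (x - x0) := by
    intro x hx
    rcases hx.eq_or_lt with rfl | hlt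
    · simp
    obtain ⟨t, ht, hEq⟩ := exists_hasDerivAt_eq_slope (fun x => W x - x) (fun x => V x - 1) hlt
      (fun t _ => ((h.dW t).sub (hasDerivAt_id' t)).continuousAt.continuousWithinAt)
      (fun t _ => (h.dW t).sub (hasDerivAt_id' t))
    have h1 := hcon t ht.1.le
    have h2 : V t - 1 ≤ a - 1 := by linarith
    rw [eq_div_iff (by linarith : x - x0 ≠ 0)] at hEq
    nlinarith
  have h1 := hd (x0 + (W x0 - x0) / (1 - a)) (by
    have := h.U_pos x0
    have : 0 ≤ (W x0 - x0) / (1 - a) := div_nonneg (by linarith) (by linarith)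
    linarith)
  have h2 := h.U_pos (x0 + (W x0 - x0) / (1 - a))
  have h3 : (a - 1) * (x0 + (W x0 - x0) / (1 - a) - x0) = -(W x0 - x0) := by
    field_simp [(by linarith : (1 - a) ≠ 0)]
    ring
  rw [h3] at h1
  linarith

theorem exists_V_lt (h : SPair c W V I k lam) {a : ℝ} (ha : 0 < a) (x0 : ℝ) :
    ∃ x ≤ x0, V x < a := by
  by_contra hcon
  push Not at hcon
  have hd : ∀ x ≤ x0, W x ≤ W x0 - a * (x0 - x) := by
    intro x hx
    rcases hx.eq_or_lt with rfl | hlt
    · simp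
    obtain ⟨t, ht, hEq⟩ := exists_hasDerivAt_eq_slope W V hlt
      (fun t _ => (h.dW t).continuousAt.continuousWithinAt)
      (fun t _ => h.dW t)
    have h1 := hcon t ht.2.le
    rw [eq_div_iff (by linarith : x0 - x ≠ 0)] at hEq
    nlinarith
  have h1 := hd (x0 - W x0 / a) (by
    have := h.W_pos x0
    have : 0 ≤ W x0 / a := div_nonneg this.le ha.le
    linarith)
  have h2 := h.W_pos (x0 - W x0 / a)
  have h3 : a * (x0 - (x0 - W x0 / a)) = W x0 := by
    field_simp
    ring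
  rw [h3] at h1
  linarith

theorem yy_strictMono (h : SPair c W V I k lam) : StrictMono (yy V) :=
  strictMono_of_deriv_pos fun x => by rw [(hyy h x).deriv]; exact gg_pos h x

theorem exists_yy_gt (h : SPair c W V I k lam) (a : ℝ) : ∃ x1, ∀ x ≥ x1, a < yy V x := by
  obtain ⟨x1, -, hx1⟩ := exists_V_gt h (Phi_lt_one a) 0
  refine ⟨x1, fun x hx => ?_⟩
  rw [← Phi_yy h x1] at hx1
  exact (Phi_strictMono.lt_iff_lt.1 hx1).trans_le ((yy_strictMono h).monotone hx)

theorem exists_yy_lt (h : SPair c W V I k lam) (a : ℝ) : ∃ x1, ∀ x ≤ x1, yy V x < a := by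
  obtain ⟨x1, -, hx1⟩ := exists_V_lt h (Phi_pos a) 0
  refine ⟨x1, fun x hx => ?_⟩
  rw [← Phi_yy h x1] at hx1
  exact ((yy_strictMono h).monotone hx).trans_lt (Phi_strictMono.lt_iff_lt.1 hx1)

theorem W_le_right (h : SPair c W V I k lam) {x : ℝ} (hx : 0 ≤ x) : W x ≤ x + 1 := by
  have h1 := h.W_le x
  have h2 : Real.sqrt (x ^ 2 + 1) ≤ x + 1 := by
    rw [Real.sqrt_le_left (by linarith)]; nlinarith
  linarith

theorem W_le_left (h : SPair c W V I k lam) {x : ℝ} (hx : x ≤ 0) : W x ≤ 1 := by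
  have h1 := h.W_le x
  have h2 : Real.sqrt (x ^ 2 + 1) ≤ -x + 1 := by
    rw [Real.sqrt_le_left (by linarith)]; nlinarith
  linarith

theorem U_small (h : SPair c W V I k lam) {x ε : ℝ} (hε : 0 < ε) (hx : 1 / ε ≤ x) :
    W x - x ≤ ε := by
  have h1 := h.W_le x
  have hx0 : 0 < x := lt_of_lt_of_le (by positivity) hx
  have h3 : 1 ≤ x * ε := by rwa [div_le_iff₀ hε] at hx
  have h2 : Real.sqrt (x ^ 2 + 1) ≤ x + ε := by
    rw [Real.sqrt_le_left (by linarith)]; nlinarith
  linarith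

theorem W_small (h : SPair c W V I k lam) {x ε : ℝ} (hε : 0 < ε) (hx : x ≤ -(1 / ε)) :
    W x ≤ ε := by
  have h1 := h.W_le x
  have hp : 0 < 1 / ε := by positivity
  have hx0 : 0 < -x := by linarith
  have h3 : 1 ≤ -x * ε := by
    have : 1 / ε ≤ -x := by linarith
    rwa [div_le_iff₀ hε] at this
  have h2 : Real.sqrt (x ^ 2 + 1) ≤ -x + ε := by
    rw [Real.sqrt_le_left (by linarith)]; nlinarith
  linarith

theorem U_le_of_gt (h : SPair c W V I k lam) {B x0 : ℝ} (hB : 0 < B)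
    (hg : ∀ x ≥ x0, B < gg V I x) {x : ℝ} (hx : x0 ≤ x) : W x - x ≤ U0 (yy V x) / B := by
  have hd : ∀ t, HasDerivAt (fun t => U0 (yy V t) / B - (W t - t))
      ((1 - V t) * (1 - gg V I t / B)) t := by
    intro t
    have h1 := (((U0_deriv (yy V t)).comp t (hyy h t)).div_const B).fun_sub
      ((h.dW t).fun_sub (hasDerivAt_id' t))
    refine h1.congr_deriv ?_
    rw [Phi_yy h t]; ring
  have hanti : AntitoneOn (fun t => U0 (yy V t) / B - (W t - t)) (Ici x0) := by
    refine antitoneOn_of_deriv_nonpos (convex_Ici x0)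
      (fun t _ => (hd t).continuousAt.continuousWithinAt)
      (fun t _ => (hd t).differentiableAt.differentiableWithinAt) fun t ht => ?_
    rw [interior_Ici] at ht
    rw [(hd t).deriv]
    have h1 := hg t (le_of_lt ht)
    have h2 : 1 ≤ gg V I t / B := by rw [le_div_iff₀ hB]; linarith
    have h3 := h.V_lt t
    nlinarith
  by_contra hcon
  push Not at hcon
  set ε := (W x - x - U0 (yy V x) / B) / 2 with hε
  have hεp : 0 < ε := by rw [hε]; linarith
  have h1 := hanti (mem_Ici.2 hx) (mem_Ici.2 (hx.trans (le_max_left x (1 / ε))))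
    (le_max_left x (1 / ε))
  have h2 := U_small h hεp (le_max_right x (1 / ε))
  have h3 : 0 ≤ U0 (yy V (max x (1 / ε))) / B := div_nonneg (U0_nonneg _) hB.le
  simp only at h1
  linarith

theorem W_le_of_gt (h : SPair c W V I k lam) {B x0 : ℝ} (hB : 0 < B)
    (hg : ∀ x ≤ x0, B < gg V I x) {x : ℝ} (hx : x ≤ x0) : W x ≤ U0 (-yy V x) / B := by
  have hd : ∀ t, HasDerivAt (fun t => U0 (-yy V t) / B - W t) (V t * (gg V I t / B - 1)) t := by
    intro t
    have h1 := (((U0_deriv (-yy V t)).comp t (hyy h t).fun_neg).div_const B).fun_sub (h.dW t)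
    refine h1.congr_deriv ?_
    rw [Phi_neg, Phi_yy h t]; ring
  have hmono : MonotoneOn (fun t => U0 (-yy V t) / B - W t) (Iic x0) := by
    refine monotoneOn_of_deriv_nonneg (convex_Iic x0)
      (fun t _ => (hd t).continuousAt.continuousWithinAt)
      (fun t _ => (hd t).differentiableAt.differentiableWithinAt) fun t ht => ?_
    rw [interior_Iic] at ht
    rw [(hd t).deriv]
    have h1 := hg t (le_of_lt ht)
    have h2 : 1 ≤ gg V I t / B := by rw [le_div_iff₀ hB]; linarith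
    have h3 := h.V_pos t
    exact mul_nonneg h3.le (by linarith)
  by_contra hcon
  push Not at hcon
  set ε := (W x - U0 (-yy V x) / B) / 2 with hε
  have hεp : 0 < ε := by rw [hε]; linarith
  have h1 := hmono (mem_Iic.2 ((min_le_left x (-(1 / ε))).trans hx)) (mem_Iic.2 hx)
    (min_le_left x (-(1 / ε)))
  have h2 := W_small h hεp (min_le_right x (-(1 / ε)))
  have h3 : 0 ≤ U0 (-yy V (min x (-(1 / ε)))) / B := div_nonneg (U0_nonneg _) hB.le
  simp only at h1
  linarith

theorem yy_sub_mono (h : SPair c W V I k lam) {B : ℝ} {s : Set ℝ} (hs : Convex ℝ s)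
    (hg : ∀ x ∈ s, B ≤ gg V I x) : MonotoneOn (fun t => yy V t - B * t) s := by
  have hd : ∀ t, HasDerivAt (fun t => yy V t - B * t) (gg V I t - B) t := by
    intro t
    have h1 := (hyy h t).fun_sub ((hasDerivAt_id' t).const_mul B)
    exact h1.congr_deriv (by ring)
  refine monotoneOn_of_deriv_nonneg hs
    (fun t _ => (hd t).continuousAt.continuousWithinAt)
    (fun t _ => (hd t).differentiableAt.differentiableWithinAt) fun t ht => ?_
  rw [(hd t).deriv]
  linarith [hg t (interior_subset ht)]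

theorem yy_sub_anti (h : SPair c W V I k lam) {B : ℝ} {s : Set ℝ} (hs : Convex ℝ s)
    (hg : ∀ x ∈ s, gg V I x ≤ B) : AntitoneOn (fun t => yy V t - B * t) s := by
  have hd : ∀ t, HasDerivAt (fun t => yy V t - B * t) (gg V I t - B) t := by
    intro t
    have h1 := (hyy h t).fun_sub ((hasDerivAt_id' t).const_mul B)
    exact h1.congr_deriv (by ring)
  refine antitoneOn_of_deriv_nonpos hs
    (fun t _ => (hd t).continuousAt.continuousWithinAt)
    (fun t _ => (hd t).differentiableAt.differentiableWithinAt) fun t ht => ?_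
  rw [(hd t).deriv]
  linarith [hg t (interior_subset ht)]

/-- `a x ≤ K` for all large `x` is impossible for `a > 0` -/
theorem lin_absurd {a K x1 : ℝ} (ha : 0 < a) (hK : ∀ x ≥ x1, a * x ≤ K) : False := by
  have h1 := hK (max x1 (K / a + 1)) (le_max_left _ _)
  have h2 : K / a + 1 ≤ max x1 (K / a + 1) := le_max_right _ _
  have h3 := mul_le_mul_of_nonneg_left h2 ha.le
  have h4 : a * (K / a + 1) = K + a := by field_simp
  linarith

theorem end_up_right (h : SPair c W V I k lam) {B x0 : ℝ} (hB0 : 0 < B) (hB : 1 + c < B ^ 2)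
    (hg : ∀ x ≥ x0, B < gg V I x) : False := by
  have hc0 := h.c_pos
  have hc1 := h.c_lt
  have hm := yy_sub_mono h (convex_Ici x0) (B := B) fun x hx => (hg x hx).le
  obtain ⟨x1, hx1⟩ := exists_yy_gt h 0
  refine lin_absurd (a := B ^ 2 - (1 + c)) (K := (1 + c) + 1 / B - B * (yy V x0 - B * x0))
    (x1 := max x0 (max x1 0)) (by linarith) fun x hx => ?_
  have hxx0 : x0 ≤ x := (le_max_left _ _).trans hx
  have hxx1 : x1 ≤ x := ((le_max_left _ _).trans (le_max_right _ _)).trans hx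
  have hx0 : 0 ≤ x := ((le_max_right _ _).trans (le_max_right _ _)).trans hx
  have hy := hx1 x hxx1
  have hp := ph_pos (yy V x)
  have h1 := hm (mem_Ici.2 le_rfl) (mem_Ici.2 hxx0) hxx0
  simp only at h1
  have h2 := U_le_of_gt h hB0 hg hxx0
  have h3 := U0_le_ph hy.le
  have h4 := mills_upper (yy V x)
  rw [Phi_yy h x] at h4
  have h5 := W_le_right h hx0
  have h6 := hg x hxx0
  have h7 := gg_mul V I x
  rw [I_eq h x] at h7
  have hV0 := h.V_pos x
  have hV1 := h.V_lt x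
  have hW0 := h.W_pos x
  have hU0 := h.U_pos x
  set y := yy V x
  -- `y φ g ≤ (1+c) φ W + (1-c) y U0/B ≤ φ ((1+c) (x+1) + 1/B)`
  have h8 : y * ((1 + c) * (1 - V x) * W x) ≤ (1 + c) * ph y * (x + 1) := by
    calc y * ((1 + c) * (1 - V x) * W x) = (1 + c) * (y * (1 - V x)) * W x := by ring
      _ ≤ (1 + c) * ph y * W x := by
          refine mul_le_mul_of_nonneg_right ?_ hW0.le
          exact mul_le_mul_of_nonneg_left h4.le (by linarith)
      _ ≤ (1 + c) * ph y * (x + 1) := mul_le_mul_of_nonneg_left h5 (by positivity)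
  have h9 : y * ((1 - c) * V x * (W x - x)) ≤ ph y * (1 / B) := by
    have e1 : (1 - c) * V x * (W x - x) ≤ U0 y / B := by
      have : (1 - c) * V x ≤ 1 := by nlinarith
      calc (1 - c) * V x * (W x - x) ≤ 1 * (W x - x) :=
            mul_le_mul_of_nonneg_right this (by linarith)
        _ ≤ U0 y / B := by linarith
    have e2 : y * U0 y ≤ ph y := by
      have hU := U0_nonneg y
      nlinarith [mul_nonneg hU (sq_nonneg (y - 1))]
    calc y * ((1 - c) * V x * (W x - x)) ≤ y * (U0 y / B) := mul_le_mul_of_nonneg_left e1 hy.le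
      _ = (y * U0 y) * (1 / B) := by ring
      _ ≤ ph y * (1 / B) := mul_le_mul_of_nonneg_right e2 (by positivity)
  have h10 : y * (gg V I x * ph y) ≤ (1 + c) * ph y * (x + 1) + ph y * (1 / B) := by
    rw [h7]; linarith
  have h11 : ph y * (y * gg V I x) ≤ ph y * ((1 + c) * (x + 1) + 1 / B) := by
    nlinarith
  have h12 := le_of_mul_le_mul_left h11 hp
  have h13 : y * B ≤ y * gg V I x := mul_le_mul_of_nonneg_left h6.le hy.le
  nlinarith

theorem end_up_left (h : SPair c W V I k lam) {B x0 : ℝ} (hB0 : 0 < B) (hB : 1 - c < B ^ 2)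
    (hg : ∀ x ≤ x0, B < gg V I x) : False := by
  have hc0 := h.c_pos
  have hc1 := h.c_lt
  have hm := yy_sub_mono h (convex_Iic x0) (B := B) fun x hx => (hg x hx).le
  obtain ⟨x1, hx1⟩ := exists_yy_lt h 0
  refine lin_absurd (a := B ^ 2 - (1 - c)) (K := 1 + (1 + c) / B + B * (yy V x0 - B * x0))
    (x1 := max (-x0) (max (-x1) 0)) (by linarith) fun t ht => ?_
  have hxx0 : -t ≤ x0 := by have := (le_max_left _ _).trans ht; linarith
  have hxx1 : -t ≤ x1 := by
    have := ((le_max_left _ _).trans (le_max_right _ _)).trans ht; linarith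
  have hx0 : -t ≤ 0 := by
    have := ((le_max_right _ _).trans (le_max_right _ _)).trans ht; linarith
  obtain ⟨x, rfl⟩ : ∃ x, t = -x := ⟨-t, by ring⟩
  rw [neg_neg] at hxx0 hxx1 hx0
  have hy := hx1 x hxx1
  have hp := ph_pos (yy V x)
  have h1 := hm (mem_Iic.2 hxx0) (mem_Iic.2 le_rfl) hxx0
  simp only at h1
  have h2 := W_le_of_gt h hB0 hg hxx0
  have h3 := U0_le_ph (z := -yy V x) (by linarith)
  rw [ph_neg] at h3
  have h4 := mills_upper (-yy V x)
  rw [Phi_neg, Phi_yy h x, ph_neg] at h4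
  have h5 := W_le_left h hx0
  have h6 := hg x hxx0
  have h7 := gg_mul V I x
  rw [I_eq h x] at h7
  have hV0 := h.V_pos x
  have hV1 := h.V_lt x
  have hW0 := h.W_pos x
  have hU0 := h.U_pos x
  set y := yy V x
  set z := -y with hz
  have hzp : 0 < z := by linarith
  have h8 : z * ((1 - c) * V x * (W x - x)) ≤ (1 - c) * ph y * (1 - x) := by
    calc z * ((1 - c) * V x * (W x - x)) = (1 - c) * (z * (1 - (1 - V x))) * (W x - x) := by ring
      _ ≤ (1 - c) * ph y * (W x - x) := by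
          refine mul_le_mul_of_nonneg_right ?_ (by linarith)
          exact mul_le_mul_of_nonneg_left h4.le (by linarith)
      _ ≤ (1 - c) * ph y * (1 - x) := mul_le_mul_of_nonneg_left (by linarith)
          (mul_nonneg (by linarith) hp.le)
  have h9 : z * ((1 + c) * (1 - V x) * W x) ≤ ph y * ((1 + c) / B) := by
    have e1 : (1 + c) * (1 - V x) * W x ≤ (1 + c) * (U0 z / B) := by
      have : (1 + c) * (1 - V x) ≤ 1 + c := by nlinarith
      calc (1 + c) * (1 - V x) * W x ≤ (1 + c) * W x :=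
            mul_le_mul_of_nonneg_right this (by linarith)
        _ ≤ (1 + c) * (U0 z / B) := mul_le_mul_of_nonneg_left h2 (by linarith)
    have e2 : z * U0 z ≤ ph y := by
      have hU := U0_nonneg z
      nlinarith [mul_nonneg hU (sq_nonneg (z - 1))]
    calc z * ((1 + c) * (1 - V x) * W x) ≤ z * ((1 + c) * (U0 z / B)) :=
          mul_le_mul_of_nonneg_left e1 hzp.le
      _ = (z * U0 z) * ((1 + c) / B) := by ring
      _ ≤ ph y * ((1 + c) / B) := mul_le_mul_of_nonneg_right e2 (by positivity)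
  have h10 : z * (gg V I x * ph y) ≤ (1 - c) * ph y * (1 - x) + ph y * ((1 + c) / B) := by
    rw [h7]; linarith
  have h11 : ph y * (z * gg V I x) ≤ ph y * ((1 - c) * (1 - x) + (1 + c) / B) := by
    nlinarith
  have h12 := le_of_mul_le_mul_left h11 hp
  have h13 : z * B ≤ z * gg V I x := mul_le_mul_of_nonneg_left h6.le hzp.le
  nlinarith

theorem end_dn_right (h : SPair c W V I k lam) {b x0 : ℝ} (hb : b ^ 2 < 1 + c)
    (hg : ∀ x ≥ x0, gg V I x < b) : False := by
  have hc0 := h.c_pos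
  have hc1 := h.c_lt
  have hb0 : 0 < b := (gg_pos h x0).trans (hg x0 le_rfl)
  have hm := yy_sub_anti h (convex_Ici x0) (B := b) fun x hx => (hg x hx).le
  obtain ⟨x1, hx1⟩ := exists_yy_gt h 1
  refine lin_absurd (a := (1 + c) - b ^ 2) (K := b * (yy V x0 - b * x0 + 1))
    (x1 := max x0 (max x1 0)) (by linarith) fun x hx => ?_
  have hxx0 : x0 ≤ x := (le_max_left _ _).trans hx
  have hxx1 : x1 ≤ x := ((le_max_left _ _).trans (le_max_right _ _)).trans hx
  have hx0 : 0 ≤ x := ((le_max_right _ _).trans (le_max_right _ _)).trans hx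
  have hy := hx1 x hxx1
  have hp := ph_pos (yy V x)
  have h1 := hm (mem_Ici.2 le_rfl) (mem_Ici.2 hxx0) hxx0
  simp only at h1
  have h4 := mills_lower (yy V x)
  rw [Phi_yy h x] at h4
  have h6 := hg x hxx0
  have h7 := gg_mul V I x
  rw [I_eq h x] at h7
  have hV0 := h.V_pos x
  have hV1 := h.V_lt x
  have hW0 := h.W_pos x
  have hU0 := h.U_pos x
  set y := yy V x
  -- `φ ≤ (y+1)(1-V)`
  have h8 : ph y ≤ (y + 1) * (1 - V x) := by
    have e1 : (1 + y ^ 2) * (1 - V x) ≤ y * (y + 1) * (1 - V x) := by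
      refine mul_le_mul_of_nonneg_right ?_ (by linarith)
      nlinarith
    have e2 : y * ph y ≤ y * ((y + 1) * (1 - V x)) := by nlinarith
    exact le_of_mul_le_mul_left e2 (by linarith)
  have h9 : (1 + c) * x * ph y ≤ (y + 1) * (gg V I x * ph y) := by
    rw [h7]
    have e1 : (1 + c) * x * ph y ≤ (1 + c) * x * ((y + 1) * (1 - V x)) :=
      mul_le_mul_of_nonneg_left h8 (by positivity)
    have e2 : (1 + c) * x * ((y + 1) * (1 - V x)) ≤ (y + 1) * ((1 + c) * (1 - V x) * W x) := by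
      have : 0 ≤ (y + 1) * (1 + c) * (1 - V x) * (W x - x) := by
        have := mul_nonneg (mul_nonneg (mul_nonneg (by linarith : 0 ≤ y + 1)
          (by linarith : 0 ≤ 1 + c)) (by linarith : 0 ≤ 1 - V x)) (by linarith : 0 ≤ W x - x)
        exact this
      nlinarith
    have e3 : 0 ≤ (y + 1) * ((1 - c) * V x * (W x - x)) :=
      mul_nonneg (by linarith) (mul_nonneg (mul_nonneg (by linarith) hV0.le) (by linarith))
    linarith
  have h10 : ph y * ((1 + c) * x) ≤ ph y * ((y + 1) * gg V I x) := by nlinarith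
  have h11 := le_of_mul_le_mul_left h10 hp
  have h12 : (y + 1) * gg V I x ≤ (y + 1) * b :=
    mul_le_mul_of_nonneg_left h6.le (by linarith)
  nlinarith

theorem end_dn_left (h : SPair c W V I k lam) {b x0 : ℝ} (hb : b ^ 2 < 1 - c)
    (hg : ∀ x ≤ x0, gg V I x < b) : False := by
  have hc0 := h.c_pos
  have hc1 := h.c_lt
  have hb0 : 0 < b := (gg_pos h x0).trans (hg x0 le_rfl)
  have hm := yy_sub_anti h (convex_Iic x0) (B := b) fun x hx => (hg x hx).le
  obtain ⟨x1, hx1⟩ := exists_yy_lt h (-1)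
  refine lin_absurd (a := (1 - c) - b ^ 2) (K := b * (1 - (yy V x0 - b * x0)))
    (x1 := max (-x0) (max (-x1) 0)) (by linarith) fun t ht => ?_
  have hxx0 : -t ≤ x0 := by have := (le_max_left _ _).trans ht; linarith
  have hxx1 : -t ≤ x1 := by
    have := ((le_max_left _ _).trans (le_max_right _ _)).trans ht; linarith
  have hx0 : -t ≤ 0 := by
    have := ((le_max_right _ _).trans (le_max_right _ _)).trans ht; linarith
  obtain ⟨x, rfl⟩ : ∃ x, t = -x := ⟨-t, by ring⟩
  rw [neg_neg] at hxx0 hxx1 hx0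
  have hy := hx1 x hxx1
  have hp := ph_pos (yy V x)
  have h1 := hm (mem_Iic.2 hxx0) (mem_Iic.2 le_rfl) hxx0
  simp only at h1
  have h4 := mills_lower (-yy V x)
  rw [Phi_neg, Phi_yy h x, ph_neg] at h4
  have h6 := hg x hxx0
  have h7 := gg_mul V I x
  rw [I_eq h x] at h7
  have hV0 := h.V_pos x
  have hV1 := h.V_lt x
  have hW0 := h.W_pos x
  have hU0 := h.U_pos x
  set y := yy V x
  set z := -y with hz
  have hzp : 1 < z := by linarith
  have h8 : ph y ≤ (z + 1) * V x := by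
    have e1 : (1 + z ^ 2) * (1 - (1 - V x)) ≤ z * (z + 1) * V x := by
      have : (1 + z ^ 2) ≤ z * (z + 1) := by nlinarith
      have := mul_le_mul_of_nonneg_right this hV0.le
      linarith
    have e2 : z * ph y ≤ z * ((z + 1) * V x) := by nlinarith
    exact le_of_mul_le_mul_left e2 (by linarith)
  have h9 : (1 - c) * (-x) * ph y ≤ (z + 1) * (gg V I x * ph y) := by
    rw [h7]
    have e1 : (1 - c) * (-x) * ph y ≤ (1 - c) * (-x) * ((z + 1) * V x) :=
      mul_le_mul_of_nonneg_left h8 (mul_nonneg (by linarith) (by linarith))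
    have e2 : (1 - c) * (-x) * ((z + 1) * V x) ≤ (z + 1) * ((1 - c) * V x * (W x - x)) := by
      have : 0 ≤ (z + 1) * ((1 - c) * V x * W x) :=
        mul_nonneg (by linarith) (mul_nonneg (mul_nonneg (by linarith) hV0.le) hW0.le)
      nlinarith
    have e3 : 0 ≤ (z + 1) * ((1 + c) * (1 - V x) * W x) :=
      mul_nonneg (by linarith) (mul_nonneg (mul_nonneg (by linarith) (by linarith)) hW0.le)
    linarith
  have h10 : ph y * ((1 - c) * (-x)) ≤ ph y * ((z + 1) * gg V I x) := by nlinarith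
  have h11 := le_of_mul_le_mul_left h10 hp
  have h12 : (z + 1) * gg V I x ≤ (z + 1) * b :=
    mul_le_mul_of_nonneg_left h6.le (by linarith)
  nlinarith

/-! ### result -/

theorem gg_le (h : SPair c W V I k lam) (x : ℝ) : gg V I x ≤ Real.sqrt (1 + 2 * c) := by
  have hc0 := h.c_pos
  have hs : Real.sqrt (1 + 2 * c) ^ 2 = 1 + 2 * c := Real.sq_sqrt (by linarith)
  have hs0 : 0 < Real.sqrt (1 + 2 * c) := Real.sqrt_pos.2 (by linarith)
  by_contra hcon
  push Not at hcon
  rcases dichotomy_up h hs0 hs.ge hcon with h1 | h1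
  · exact end_up_right h hs0 (by linarith) h1
  · exact end_up_left h hs0 (by linarith) h1

theorem le_gg (h : SPair c W V I k lam) (x : ℝ) : Real.sqrt (1 - 2 * c) ≤ gg V I x := by
  have hc0 := h.c_pos
  have hc1 := h.c_lt
  by_contra hcon
  push Not at hcon
  have hpos : 0 < Real.sqrt (1 - 2 * c) := (gg_pos h x).trans hcon
  have hs : Real.sqrt (1 - 2 * c) ^ 2 = 1 - 2 * c := Real.sq_sqrt (Real.sqrt_pos.1 hpos).le
  rcases dichotomy_dn h hs.le hcon with h1 | h1
  · exact end_dn_right h (by linarith) h1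
  · exact end_dn_left h (by linarith) h1

/-- **Ratio bound**: `√(1-2c) φ(y) ≤ I x ≤ √(1+2c) φ(y)` whenever `V x = Φ y`. -/
theorem ratio_bound (h : SPair c W V I k lam) {x y : ℝ} (hy : Phi y = V x) :
    Real.sqrt (1 - 2 * c) * ph y ≤ I x ∧ I x ≤ Real.sqrt (1 + 2 * c) * ph y := by
  have e : yy V x = y := by unfold yy; rw [← hy, Qn_Phi]
  have h1 := gg_mul V I x
  have h2 := gg_le h x
  have h3 := le_gg h x
  rw [e] at h1
  have hp := (ph_pos y).le
  rw [← h1]
  exact ⟨mul_le_mul_of_nonneg_right h3 hp, mul_le_mul_of_nonneg_right h2 hp⟩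

end Crest.Agent.R146.RatioB_39
end

-- ▼ part R146/RefWS_355

/-!
Row 146 (helper355).  **Static side of REF: `PtRef_846.WS` from inequalities in `x = ξ`.**

`XD` = data as functions of `x` (shapes of the slope barriers `K± = I (1 ± δ b±)`, positions `N±`,
dual factors `G± = g± G0`, law constants `F± = Λ ± δ f±`), `XWS` = the inequalities, at the vertices of
`n`, for the labels `x` (level `v = V x`) and `z` (position `η = W z`).  `ws_of_xws : SPair c .. c → XWS .. →
∃ M, WS ..`.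
-/

set_option autoImplicit false

open Set Filter Topology

namespace Crest.Agent.R146.RefWS_355

open SPair_307 RefX_355 YWRef_177 PairQ_355 PtRef_846 ILin_355 ILog_371 SlopeT_371 YW_177 MaxP2_371
open StepStart_483 (Phi ph)

/-- data of the REF window step as functions of `x = ξ` -/
structure XD where
  bp : ℝ → ℝ
  bp1 : ℝ → ℝ
  bp2 : ℝ → ℝ
  bm : ℝ → ℝ
  bm1 : ℝ → ℝ
  bm2 : ℝ → ℝ
  np : ℝ → ℝ
  np1 : ℝ → ℝ
  nm : ℝ → ℝ
  nm1 : ℝ → ℝ
  fp : ℝ
  fm : ℝ
  gp : ℝ → ℝ
  gp1 : ℝ → ℝ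
  gm : ℝ → ℝ
  gm1 : ℝ → ℝ

/-- lower end of `n` -/
noncomputable def nl (c δ e0 : ℝ) : ℝ := max 0 (c - δ - e0)
/-- upper end of `n` -/
noncomputable def nu (c δ e0 : ℝ) : ℝ := min (7 / 10) (c + δ) + e0

/-- `x` = label of the level, `z` = label of the position -/
structure PosX (e0 : ℝ) (W : ℝ → ℝ) (D : XD) (x z : ℝ) : Prop where
  lo : (1 - e0) * D.nm x ≤ W z
  hi : W z ≤ (1 + e0) * D.np x

/-- `k'/V = dΛ/dη` and `d²Λ/dη²` at the label `z` -/
noncomputable def L1 (c : ℝ) (W V k : ℝ → ℝ) (z : ℝ) : ℝ := k1 c W V k c z / V z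

noncomputable def L2 (c : ℝ) (W V I k : ℝ → ℝ) (z : ℝ) : ℝ :=
  (k2 c W V I k c z * V z - k1 c W V k c z * I z) / V z ^ 3

/-- closure expression with `H = -G0`: `I² j(j-g) + 2VR²(c j g - T) + g H (j k - L) + j g' H` -/
noncomputable def CloX (c T j L g g1 : ℝ) (W V I k : ℝ → ℝ) (x : ℝ) : ℝ :=
  I x ^ 2 * (j * (j - g)) + 2 * (V x * (1 - V x) ^ 2) * (c * j * g - T)
    + g * -G0x c W V I k x * (j * k x - L) + j * g1 * -G0x c W V I k x

/-- the inequalities of the REF window step in the variable `x` -/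
structure XWS (c δ e0 κ B tlo thi : ℝ) (W V I k : ℝ → ℝ) (D : XD) : Prop where
  δ_pos : 0 < δ
  δ_le : δ ≤ c
  e0_pos : 0 < e0
  e0_le : e0 ≤ 1 / 100
  κ_pos : 0 < κ
  κ_le : κ ≤ 1 / 2
  B_pos : 0 < B
  -- regularity
  dbp : ∀ x, HasDerivAt D.bp (D.bp1 x) x
  dbp1 : ∀ x, HasSide D.bp1 (D.bp2 x) x
  dbm : ∀ x, HasDerivAt D.bm (D.bm1 x) x
  dbm1 : ∀ x, HasSide D.bm1 (D.bm2 x) x
  dnp : ∀ x, HasDerivAt D.np (D.np1 x) x
  dnm : ∀ x, HasDerivAt D.nm (D.nm1 x) x
  dgp : ∀ x, HasDerivAt D.gp (D.gp1 x) x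
  dgm : ∀ x, HasDerivAt D.gm (D.gm1 x) x
  -- bounds
  bpm : ∀ x, 0 ≤ D.bp x + D.bm x
  bp_le : ∀ x, D.bp x ≤ B
  Tm : ∀ x, κ ≤ 1 - δ * D.bm x
  bm_side : ∀ x, |D.bm2 x + k1x c W V I x * D.bm1 x| ≤ B
  -- slope barriers
  up : ∀ x y, (y = nl c δ e0 ∨ y = nu c δ e0) →
    Exx c y ((y - c) / δ) (1 + δ * D.bp x) W V I D.bp D.bp1 D.bp2 x ≤ 0
  low : ∀ x y, (y = nl c δ e0 ∨ y = nu c δ e0) →
    Exx c y (-((y - c) / δ)) (1 - δ * D.bm x) W V I D.bm D.bm1 D.bm2 x ≤ 0
  conc : ∀ x, κ * (1 + δ * D.bp x) ≤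
    Jx c W V I x * (1 + δ * D.bp x) + 2 * δ * c * qx V I x * D.bp1 x
  lin_p : ∀ x, κ * (1 + δ * D.bp x) ≤
    (1 / 2 + nu c δ e0 * sx c W V I x) * (1 + δ * D.bp x) + nu c δ e0 * (δ * qx V I x * D.bp1 x)
  lin_m : ∀ x, κ * (1 - δ * D.bm x) ≤
    (1 / 2 + nu c δ e0 * sx c W V I x) * (1 - δ * D.bm x) - nu c δ e0 * (δ * qx V I x * D.bm1 x)
  lin_m2 : ∀ x y, (y = 0 ∨ y = nu c δ e0) → κ * (1 - δ * D.bm x) ≤
    (1 / 2 + y * sx c W V I x) * (1 - δ * D.bm x) - y * (δ * qx V I x * D.bm1 x)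
      + 1 / 2 * (1 - δ * D.bm x) ^ 2 * (Jx c W V I x * (1 - δ * D.bm x)
        + δ * (D.bm2 x + k1x c W V I x * D.bm1 x))
  -- positions
  pos_p : ∀ x, V x ≤ D.np1 x * (1 - δ * D.bm x)
  pos_m : ∀ x, D.nm1 x * (1 + δ * D.bp x) ≤ V x
  np_lim : Tendsto D.np atBot (𝓝 0)
  nm_lim : Tendsto D.nm atBot (𝓝 0)
  nm_nonneg : ∀ x, 0 ≤ D.nm x
  np_le : ∀ x, D.np x ≤ B * (1 + |x|)
  -- law
  fp_nonneg : 0 ≤ D.fp
  fm_nonneg : 0 ≤ D.fm
  law_p : ∀ x z, PosX e0 W D x z → ∀ y, (y = nl c δ e0 ∨ y = nu c δ e0) →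
    ∀ j, (j = (1 - e0) * (1 - δ * D.bm x) ∨ j = (1 + e0) * (1 + δ * D.bp x)) →
    LStat 1 y (V x) (j * I x) (W z) (k z) (L1 c W V k z) (L2 c W V I k z) ≤
      δ * D.fp * PotR y (V x) (L1 c W V k z)
  law_m : ∀ x z, PosX e0 W D x z → ∀ y, (y = nl c δ e0 ∨ y = nu c δ e0) →
    ∀ j, (j = (1 - e0) * (1 - δ * D.bm x) ∨ j = (1 + e0) * (1 + δ * D.bp x)) →
    -(δ * D.fm * PotR y (V x) (L1 c W V k z)) ≤
      LStat 1 y (V x) (j * I x) (W z) (k z) (L1 c W V k z) (L2 c W V I k z)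
  pot : ∀ x z, PosX e0 W D x z → ∀ y, (y = nl c δ e0 ∨ y = nu c δ e0) →
    κ ≤ PotR y (V x) (L1 c W V k z)
  -- closure
  gp_bd : ∀ x, |D.gp x| ≤ B
  gp1_bd : ∀ x, |D.gp1 x| ≤ B
  gm_bd : ∀ x, |D.gm x| ≤ B
  gm1_bd : ∀ x, |D.gm1 x| ≤ B
  clo_p : ∀ x z j L, PosX e0 W D x z → (1 - e0) * (1 - δ * D.bm x) ≤ j →
    j ≤ (1 + e0) * (1 + δ * D.bp x) → 0 ≤ L → k z - δ * D.fm ≤ L → L ≤ k z + δ * D.fp →
    CloX c thi j L (D.gp x) (D.gp1 x) W V I k x ≤ 0
  clo_m : ∀ x z j L, PosX e0 W D x z → (1 - e0) * (1 - δ * D.bm x) ≤ j →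
    j ≤ (1 + e0) * (1 + δ * D.bp x) → 0 ≤ L → k z - δ * D.fm ≤ L → L ≤ k z + δ * D.fp →
    0 ≤ CloX c tlo j L (D.gm x) (D.gm1 x) W V I k x

/-- derivative of `G = g G0` in `v` -/
noncomputable def G1x (c : ℝ) (g g1 : ℝ → ℝ) (W V I k : ℝ → ℝ) (x : ℝ) : ℝ :=
  (g1 x * G0x c W V I k x
    + g x * (k x * G0x c W V I k x + I x ^ 2 - 2 * c * (V x * (1 - V x) ^ 2))) / I x

/-- the functions of `PtRef_846.WData` -/
noncomputable def wd (c δ κ : ℝ) (W V I k : ℝ → ℝ) (D : XD) : WData where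
  Kp := LL δ (Iv V I) (ev V D.bp)
  Kp1 := LL1 δ (Iv V I) (I1v c W V I) (ev V D.bp) (e1v V I D.bp1)
  Kp2 := LL2 δ (Iv V I) (I1v c W V I) (I2v c W V I) (ev V D.bp) (e1v V I D.bp1)
    (e2v c W V I D.bp1 D.bp2)
  Km := LL (-δ) (Iv V I) (ev V D.bm)
  Km1 := LL1 (-δ) (Iv V I) (I1v c W V I) (ev V D.bm) (e1v V I D.bm1)
  Km2 := LL2 (-δ) (Iv V I) (I1v c W V I) (I2v c W V I) (ev V D.bm) (e1v V I D.bm1)
    (e2v c W V I D.bm1 D.bm2)
  Np := fun v => D.np (X V v)
  Np1 := fun v => D.np1 (X V v) / I (X V v)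
  Nm := fun v => D.nm (X V v)
  Nm1 := fun v => D.nm1 (X V v) / I (X V v)
  Ub := fun v => κ⁻¹ * (W (X V v) - X V v)
  Ub1 := fun v => κ⁻¹ * ((V (X V v) - 1) / I (X V v))
  Fp := fun η => Lam W k η + δ * D.fp
  Fp1 := Lam1 c W V k c
  Fp2 := Lam2 c W V I k c
  Fm := fun η => Lam W k η - δ * D.fm
  Fm1 := Lam1 c W V k c
  Fm2 := Lam2 c W V I k c
  Gp := fun v => D.gp (X V v) * G0x c W V I k (X V v)
  Gp1 := fun v => G1x c D.gp D.gp1 W V I k (X V v)
  Gm := fun v => D.gm (X V v) * G0x c W V I k (X V v)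
  Gm1 := fun v => G1x c D.gm D.gm1 W V I k (X V v)

section alg

variable {c : ℝ} {W V I k : ℝ → ℝ} {lam : ℝ} {a v : ℝ} {e e1 e2 : ℝ → ℝ}

lemma LL_eq : LL a (Iv V I) (ev V e) v = I (X V v) * (1 + a * e (X V v)) := rfl

/-- `K K''` in the variable `x` -/
lemma KK_eq (h : SPair c W V I k lam) (hv : v ∈ Ioo (0:ℝ) 1) :
    LL a (Iv V I) (ev V e) v * LL2 a (Iv V I) (I1v c W V I) (I2v c W V I) (ev V e) (e1v V I e1)
      (e2v c W V I e1 e2) v
    = -Jx c W V I (X V v) * (1 + a * e (X V v)) ^ 2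
      + a * (1 + a * e (X V v)) * (e2 (X V v) + k1x c W V I (X V v) * e1 (X V v)) := by
  have hI := (h.I_pos (X V v)).ne'
  rw [LLLL_eq (refI h) hv, Jc_eq h hv]
  have e2' : Iv V I v ^ 2 * (e2v c W V I e1 e2 v + 2 * (I1v c W V I v / Iv V I v) * e1v V I e1 v) =
      e2 (X V v) + k1x c W V I (X V v) * e1 (X V v) := by
    unfold Iv e2v I1v e1v; field_simp; ring
  rw [e2']
  rfl

/-- `LinR` in the variable `x` -/
lemma Lin_eq (h : SPair c W V I k lam) (hv : v ∈ Ioo (0:ℝ) 1) (n : ℝ) :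
    LinR n v (LL a (Iv V I) (ev V e) v) (LL1 a (Iv V I) (I1v c W V I) (ev V e) (e1v V I e1) v)
    = I (X V v) * ((1 / 2 + n * sx c W V I (X V v)) * (1 + a * e (X V v))
        + n * (a * qx V I (X V v) * e1 (X V v))) := by
  have hI := (h.I_pos (X V v)).ne'
  have hV := V_X h hv
  unfold LinR LL LL1 Iv I1v ev e1v sx qx
  rw [hV]
  field_simp
  ring

/-- `Stat 1` in the variable `x` -/
lemma Stat_eq (h : SPair c W V I k lam) (hv : v ∈ Ioo (0:ℝ) 1) (ha : a ≠ 0) (y : ℝ) :
    Stat 1 y v (LL a (Iv V I) (ev V e) v)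
      (LL1 a (Iv V I) (I1v c W V I) (ev V e) (e1v V I e1) v)
      (LL2 a (Iv V I) (I1v c W V I) (I2v c W V I) (ev V e) (e1v V I e1) (e2v c W V I e1 e2) v)
    = I (X V v) * a * Exx c y ((y - c) / a) (1 + a * e (X V v)) W V I e e1 e2 (X V v) := by
  rw [stat_eq (refI h) hv ha, ← Ex_eq h hv]
  rfl

/-- `Exx` is affine in `y` -/
lemma Exx_vertices {τ0 yl yu y T x : ℝ}
    (hl : Exx c yl ((yl - c) * τ0) T W V I e e1 e2 x ≤ 0)
    (hu : Exx c yu ((yu - c) * τ0) T W V I e e1 e2 x ≤ 0) (hy : y ∈ Icc yl yu) :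
    Exx c y ((y - c) * τ0) T W V I e e1 e2 x ≤ 0 := by
  set A : ℝ := 1 / 2 * T ^ 2 * (e2 x + k1x c W V I x * e1 x - Jx c W V I x * e x)
    + (-c * τ0 * sx c W V I x - 1 / 2 * Jx c W V I x * e x) * T with hA
  set B : ℝ := τ0 * sx c W V I x * T + qx V I x * e1 x with hB
  have key : ∀ z, Exx c z ((z - c) * τ0) T W V I e e1 e2 x = A + B * z := by
    intro z; rw [hA, hB]; unfold Exx; ring
  rw [key] at hl hu ⊢
  exact affine_nonpos hl hu hy

/-- `|q A| ≤ 1/2` -/
lemma qA_le (h : SPair c W V I k lam) (x : ℝ) : |qx V I x * Ad c W x| ≤ 1 / 2 := by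
  have hI := h.I_pos x
  have hV := h.V_pos x
  have hV1 := h.V_lt x
  have hW := h.W_pos x
  have hU := h.U_pos x
  have hc := h.c_pos
  have hc1 := h.c_lt
  have e1 : I x = (1 + c) * W x - 2 * Ad c W x * V x := h.eqI x
  have e2 : I x = (1 - c) * (W x - x) + 2 * Ad c W x * (1 - V x) := by
    rw [h.eqI]; unfold Ad; ring
  have e3 : qx V I x * Ad c W x = V x * (1 - V x) * Ad c W x / I x := by
    unfold qx; ring
  rw [e3, abs_le]
  constructor
  · rw [le_div_iff₀ hI]
    have h1 : 0 < (1 + c) * W x := by positivity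
    nlinarith [mul_pos h1 (show 0 < 1 - V x by linarith)]
  · rw [div_le_iff₀ hI]
    have h1 : 0 < (1 - c) * (W x - x) := mul_pos (by linarith) (by linarith)
    nlinarith [mul_pos h1 hV]

lemma q_pos (h : SPair c W V I k lam) (x : ℝ) : 0 < qx V I x := by
  have hI := h.I_pos x
  have hV := h.V_pos x
  have hV1 : 0 < 1 - V x := by linarith [h.V_lt x]
  unfold qx
  positivity

/-- `q` is bounded -/
lemma q_bdd (h : SPair c W V I k lam) : ∃ M, 0 < M ∧ ∀ x, qx V I x ≤ M := by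
  have hc := h.c_pos
  have hc1 := h.c_lt
  have h1c : 0 < 1 - c := by linarith
  set a : ℝ := 3 / (1 - c) with ha
  have ha0 : 0 < a := by positivity
  obtain ⟨B, hB⟩ := (isCompact_Icc (a := -a) (b := 2)).exists_bound_of_continuousOn
    (f := qx V I) (by
      apply Continuous.continuousOn
      unfold qx
      exact (h.cV.mul (continuous_const.sub h.cV)).div h.cI fun x => (h.I_pos x).ne')
  refine ⟨|B| + 1, by positivity, fun x => ?_⟩
  have hq := q_pos h x
  have hqA := abs_le.1 (qA_le h x)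
  rcases le_total x (-a) with hx | hx
  · have h1 := A_le_left h (x := x) (by linarith)
    have h2 : (1 - c) / 2 * x ≤ (1 - c) / 2 * (-a) := mul_le_mul_of_nonneg_left hx (by linarith)
    have h3 : (1 - c) / 2 * (-a) = -(3 / 2) := by rw [ha]; field_simp
    have h4 : Ad c W x ≤ -1 := by linarith
    have := abs_nonneg B
    nlinarith [hqA.1]
  · rcases le_total x 2 with hx2 | hx2
    · have := hB x ⟨hx, hx2⟩
      rw [Real.norm_eq_abs] at this
      have h5 := (le_abs_self _).trans this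
      have := le_abs_self B
      linarith
    · have h1 := A_ge_right h x
      have h4 : 1 ≤ Ad c W x := by nlinarith
      have := abs_nonneg B
      nlinarith [hqA.2]

/-- `s` is bounded -/
lemma s_bdd (h : SPair c W V I k lam) : ∃ M, 0 < M ∧ ∀ x, |sx c W V I x| ≤ M := by
  obtain ⟨M, hM, hq⟩ := q_bdd h
  have hc := h.c_pos
  have hc1 := h.c_lt
  refine ⟨1 + 2 * M ^ 2 + 3, by positivity, fun x => ?_⟩
  have h1 := abs_le.1 (qA_le h x)
  have h2 := hq x
  have h3 := q_pos h x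
  have h4 := h.V_pos x
  have h5 := h.V_lt x
  have h6 : qx V I x ^ 2 ≤ M ^ 2 := pow_le_pow_left₀ h3.le h2 2
  have h7 : 0 ≤ c * qx V I x ^ 2 := by positivity
  have h8 : c * qx V I x ^ 2 ≤ M ^ 2 := by nlinarith [sq_nonneg (qx V I x)]
  have e : sx c W V I x = -2 * (qx V I x * Ad c W x) + 2 * (c * qx V I x ^ 2) + 3 * V x - 3 / 2 := by
    unfold sx k1x; ring
  rw [e, abs_le]
  constructor <;> linarith

lemma J_bdd (h : SPair c W V I k lam) : ∃ M, 0 < M ∧ ∀ x, |Jx c W V I x| ≤ M := by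
  obtain ⟨M, hM, hs⟩ := s_bdd h
  have hc := h.c_pos
  have hc1 := h.c_lt
  refine ⟨1 + 2 * M, by positivity, fun x => ?_⟩
  have h1 := abs_le.1 (hs x)
  unfold Jx
  rw [abs_le]
  constructor
  · nlinarith
  · nlinarith

/-- affine in two variables -/
lemma biaffine_nonpos {A B C D yl yu jl ju y j : ℝ}
    (h1 : A + B * yl + (C + D * yl) * jl ≤ 0) (h2 : A + B * yu + (C + D * yu) * jl ≤ 0)
    (h3 : A + B * yl + (C + D * yl) * ju ≤ 0) (h4 : A + B * yu + (C + D * yu) * ju ≤ 0)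
    (hy : y ∈ Icc yl yu) (hj : j ∈ Icc jl ju) : A + B * y + (C + D * y) * j ≤ 0 := by
  have k1 : (A + C * jl) + (B + D * jl) * y ≤ 0 :=
    affine_nonpos (by linarith) (by linarith) hy
  have k2 : (A + C * ju) + (B + D * ju) * y ≤ 0 :=
    affine_nonpos (by linarith) (by linarith) hy
  have k3 : (A + B * y) + (C + D * y) * j ≤ 0 :=
    affine_nonpos (by linarith) (by linarith) hj
  linarith

lemma lstat_add (ω y v J η F F1 F2 C : ℝ) : LStat ω y v J η (F + C) F1 F2 =
    LStat ω y v J η F F1 F2 - C * ((1 + ω * y) / 2 - y * (1 - v) + v * F1) := by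
  unfold LStat; ring

end alg

section main

variable {c δ e0 κ B tlo thi : ℝ} {W V I k : ℝ → ℝ} {D : XD}

lemma mem_vert (hX : XWS c δ e0 κ B tlo thi W V I k D) (hc : c < 1 / 2) :
    c ∈ Icc (nl c δ e0) (nu c δ e0) := by
  have h1 := hX.δ_pos
  have h2 := hX.e0_pos
  have h3 := hX.δ_le
  constructor
  · unfold nl; exact max_le (by linarith) (by linarith)
  · unfold nu
    have : c ≤ min (7 / 10) (c + δ) := le_min (by linarith) (by linarith)
    linarith

lemma mem_win (hX : XWS c δ e0 κ B tlo thi W V I k D) {n : ℝ} (hn : 0 ≤ n)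
    (h1 : max 0 (c - δ) - e0 ≤ n) (h2 : n ≤ min (7 / 10) (c + δ) + e0) :
    n ∈ Icc (nl c δ e0) (nu c δ e0) := by
  refine ⟨?_, h2⟩
  unfold nl
  refine max_le hn ?_
  have := le_max_right 0 (c - δ)
  linarith

lemma nu_pos (hX : XWS c δ e0 κ B tlo thi W V I k D) : 0 < nu c δ e0 := by
  have h1 := hX.δ_pos
  have h2 := hX.e0_pos
  have h3 := hX.δ_le
  unfold nu
  have : 0 ≤ min (7 / 10) (c + δ) := le_min (by norm_num) (by linarith)
  linarith

lemma Tp_ge (hX : XWS c δ e0 κ B tlo thi W V I k D) (x : ℝ) : κ ≤ 1 + δ * D.bp x := by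
  have h1 := hX.Tm x
  have h2 := hX.bpm x
  have h3 := hX.δ_pos
  nlinarith

/-- `K₊ K₊'' ≤ -κ` -/
lemma KKp_le (hX : XWS c δ e0 κ B tlo thi W V I k D) (hc : c < 1 / 2) (x : ℝ) :
    -Jx c W V I x * (1 + δ * D.bp x) ^ 2
      + δ * (1 + δ * D.bp x) * (D.bp2 x + k1x c W V I x * D.bp1 x) ≤ -κ := by
  have hδ := hX.δ_pos
  have hT := (hX.κ_pos).trans_le (Tp_ge hX x)
  have hl := hX.up x _ (Or.inl rfl)
  have hu := hX.up x _ (Or.inr rfl)
  rw [div_eq_mul_inv] at hl hu
  have h1 := Exx_vertices hl hu (mem_vert hX hc)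
  have h2 := hX.conc x
  unfold Exx at h1
  simp only [sub_self, zero_mul, zero_sub] at h1
  set T := 1 + δ * D.bp x with hTd
  set S := D.bp2 x + k1x c W V I x * D.bp1 x with hS
  set J := Jx c W V I x with hJ
  set qb := qx V I x * D.bp1 x with hqb
  have hb : δ * D.bp x = T - 1 := by rw [hTd]; ring
  -- multiply `h1` by `2 δ / T`
  have h3 : T ^ 2 * (δ * S - J * (T - 1)) - J * (T - 1) * T + 2 * δ * c * qb ≤ 0 := by
    have e : T ^ 2 * (δ * S - J * (T - 1)) - J * (T - 1) * T + 2 * δ * c * qb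
        = 2 * δ * (1 / 2 * T ^ 2 * (S - J * D.bp x) + -(1 / 2 * J * D.bp x) * T
          + c * qx V I x * D.bp1 x) := by
      rw [← hb, hqb]; ring
    rw [e]
    exact mul_nonpos_of_nonneg_of_nonpos (by positivity) h1
  have h4 : κ * T ≤ J * T + 2 * δ * c * qb := by
    have e : 2 * δ * c * qx V I x * D.bp1 x = 2 * δ * c * qb := by rw [hqb]; ring
    rw [e] at h2
    exact h2
  have h5 : T * (-J * T ^ 2 + δ * T * S + κ) ≤ 0 := by nlinarith
  have h6 : -J * T ^ 2 + δ * T * S + κ ≤ 0 := by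
    by_contra hcon
    push Not at hcon
    nlinarith [mul_pos hT hcon]
  linarith

lemma wd_Km (x : ℝ) : (1 + -δ * D.bm x) = 1 - δ * D.bm x := by ring

/-- the closure expression -/
lemma clo_eq (h : SPair c W V I k c) (x : ℝ) (T j L : ℝ) (g g1 : ℝ → ℝ) :
    CloR T (V x) (j * I x) L (g x * G0x c W V I k x) (G1x c g g1 W V I k x)
      = CloX c T j L (g x) (g1 x) W V I k x := by
  have hI := (h.I_pos x).ne'
  unfold CloR CloX G1x
  field_simp
  ring

lemma dG (h : SPair c W V I k c) {g g1 : ℝ → ℝ} (hg : ∀ x, HasDerivAt g (g1 x) x) {v : ℝ}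
    (hv : v ∈ Ioo (0:ℝ) 1) : HasDerivAt (fun v => g (X V v) * G0x c W V I k (X V v))
      (G1x c g g1 W V I k (X V v)) v := by
  have h1 := (hg (X V v)).mul (dG0 h (X V v))
  exact comp_X h hv h1

/-- `|K₊ G'| ≤ M` -/
lemma KG_bdd (h : SPair c W V I k c) {g g1 : ℝ → ℝ} {BT : ℝ} (hB : 0 < B)
    (hg : ∀ x, |g x| ≤ B) (hg1 : ∀ x, |g1 x| ≤ B) {T : ℝ → ℝ} (hT0 : ∀ x, 0 ≤ T x)
    (hT : ∀ x, T x ≤ BT) :
    ∃ M, 0 < M ∧ ∀ x, |I x * T x * G1x c g g1 W V I k x| ≤ M := by
  obtain ⟨MG, hMG, hG⟩ := G0_bdd h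
  obtain ⟨Mk, hMk, hk⟩ := k_lin h
  obtain ⟨MI, hMI, hIl⟩ := I_lin h
  have hBT : 0 ≤ BT := (hT0 0).trans (hT 0)
  have hc := h.c_pos
  have hc1 := h.c_lt
  refine ⟨(BT + 1) * (B * MG + B * (Mk * MG + MI ^ 2 + 2)), by positivity, fun x => ?_⟩
  have hI := h.I_pos x
  have hkp := h.k_pos x
  have hV := h.V_pos x
  have hV1 := h.V_lt x
  have hx := abs_nonneg x
  have k1' : k x ≤ Mk := by nlinarith [hk x, mul_nonneg hkp.le hx]
  have i1 : I x ≤ MI := by
    have := hIl x
    nlinarith [mul_nonneg hI.le (show 0 ≤ (1 + |x|) ^ 2 - 1 by nlinarith)]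
  have e : I x * T x * G1x c g g1 W V I k x = T x * (g1 x * G0x c W V I k x
    + g x * (k x * G0x c W V I k x + I x ^ 2 - 2 * c * (V x * (1 - V x) ^ 2))) := by
    unfold G1x; field_simp
  rw [e, abs_mul, abs_of_nonneg (hT0 x)]
  have b1 : |g1 x * G0x c W V I k x| ≤ B * MG := by
    rw [abs_mul]; exact mul_le_mul (hg1 x) (hG x) (abs_nonneg _) hB.le
  have b2 : |k x * G0x c W V I k x + I x ^ 2 - 2 * c * (V x * (1 - V x) ^ 2)|
      ≤ Mk * MG + MI ^ 2 + 2 := by
    have b3 : |k x * G0x c W V I k x| ≤ Mk * MG := by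
      rw [abs_mul, abs_of_pos hkp]; exact mul_le_mul k1' (hG x) (abs_nonneg _) hMk.le
    have b4 : I x ^ 2 ≤ MI ^ 2 := pow_le_pow_left₀ hI.le i1 2
    have b5 : 0 ≤ V x * (1 - V x) ^ 2 := by
      have : 0 ≤ 1 - V x := by linarith
      positivity
    have b6 : V x * (1 - V x) ^ 2 ≤ 1 := by
      have : (1 - V x) ^ 2 ≤ 1 := by nlinarith
      nlinarith
    have b7 : 2 * c * (V x * (1 - V x) ^ 2) ≤ 2 := by nlinarith
    have b8 : 0 ≤ 2 * c * (V x * (1 - V x) ^ 2) := by positivity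
    have b9 := abs_le.1 b3
    rw [abs_le]
    constructor <;> nlinarith [sq_nonneg (I x), mul_nonneg hMk.le hMG.le, sq_nonneg MI]
  have b3 : |g x * (k x * G0x c W V I k x + I x ^ 2 - 2 * c * (V x * (1 - V x) ^ 2))|
      ≤ B * (Mk * MG + MI ^ 2 + 2) := by
    rw [abs_mul]; exact mul_le_mul (hg x) b2 (abs_nonneg _) hB.le
  have b4 := (abs_add_le (g1 x * G0x c W V I k x)
    (g x * (k x * G0x c W V I k x + I x ^ 2 - 2 * c * (V x * (1 - V x) ^ 2)))).trans
    (add_le_add b1 b3)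
  have hT1 := hT x
  have hT2 := hT0 x
  have h9 : 0 ≤ B * MG + B * (Mk * MG + MI ^ 2 + 2) := by positivity
  calc _ ≤ T x * (B * MG + B * (Mk * MG + MI ^ 2 + 2)) := mul_le_mul_of_nonneg_left b4 hT2
    _ ≤ (BT + 1) * (B * MG + B * (Mk * MG + MI ^ 2 + 2)) :=
        mul_le_mul_of_nonneg_right (by linarith) h9

/-- growth of the dual functions -/
lemma G_growth (h : SPair c W V I k c) {g : ℝ → ℝ} (hB : 0 < B) (hκ : 0 < κ)
    (hg : ∀ x, |g x| ≤ B) {np : ℝ → ℝ} (hnp : ∀ x, np x ≤ B * (1 + |x|)) :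
    ∃ M, 0 < M ∧ (∀ v ∈ Ioc (0:ℝ) (1 / 2), |g (X V v) * G0x c W V I k (X V v)| *
        (1 + np (X V v) + κ⁻¹ * (W (X V v) - X V v)) ≤ M * v) ∧
      (∀ v ∈ Ico (1 / 2 : ℝ) 1, |g (X V v) * G0x c W V I k (X V v)| *
        (1 + np (X V v) + κ⁻¹ * (W (X V v) - X V v)) ≤ M * (1 - v)) := by
  have hhalf : (1 / 2 : ℝ) ∈ Ioo (0:ℝ) 1 := by constructor <;> norm_num
  obtain ⟨M1, hM1, h1⟩ := G0_left h (X V (1 / 2))
  obtain ⟨M2, hM2, h2⟩ := G0_right h (X V (1 / 2))
  have hκi : 0 < κ⁻¹ := inv_pos.2 hκ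
  have key : ∀ x, |g x * G0x c W V I k x| * (1 + np x + κ⁻¹ * (W x - x)) ≤
      (B * (1 + B + κ⁻¹)) * (|G0x c W V I k x| * (1 + |x|)) := by
    intro x
    have hU := U_le_abs h x
    have hx := abs_nonneg x
    have a1 : 1 + np x + κ⁻¹ * (W x - x) ≤ (1 + B + κ⁻¹) * (1 + |x|) := by
      have := hnp x
      have := mul_le_mul_of_nonneg_left hU hκi.le
      nlinarith
    rw [abs_mul]
    have hG := abs_nonneg (G0x c W V I k x)
    have hgx := abs_nonneg (g x)
    calc |g x| * |G0x c W V I k x| * (1 + np x + κ⁻¹ * (W x - x))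
        ≤ |g x| * |G0x c W V I k x| * ((1 + B + κ⁻¹) * (1 + |x|)) :=
          mul_le_mul_of_nonneg_left a1 (by positivity)
      _ = |g x| * ((1 + B + κ⁻¹) * (|G0x c W V I k x| * (1 + |x|))) := by ring
      _ ≤ B * ((1 + B + κ⁻¹) * (|G0x c W V I k x| * (1 + |x|))) :=
          mul_le_mul_of_nonneg_right (hg x) (by positivity)
      _ = _ := by ring
  have hBB : 0 < B * (1 + B + κ⁻¹) := by positivity
  refine ⟨(B * (1 + B + κ⁻¹)) * (M1 + M2), by positivity, ?_, ?_⟩
  · intro v hv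
    have hvm : v ∈ Ioo (0:ℝ) 1 := ⟨hv.1, by linarith [hv.2]⟩
    have hx : X V v ≤ X V (1 / 2) := (X_le_iff h hvm hhalf).2 hv.2
    have a1 := h1 _ hx
    rw [V_X h hvm] at a1
    refine (key _).trans ?_
    have a2 := mul_le_mul_of_nonneg_left a1 hBB.le
    have a3 : 0 ≤ (B * (1 + B + κ⁻¹)) * (M2 * v) := by have := hv.1; positivity
    nlinarith
  · intro v hv
    have hvm : v ∈ Ioo (0:ℝ) 1 := ⟨by linarith [hv.1], hv.2⟩
    have hx : X V v ≥ X V (1 / 2) := (X_le_iff h hhalf hvm).2 hv.1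
    have a1 := h2 _ hx
    rw [V_X h hvm] at a1
    refine (key _).trans ?_
    have a2 := mul_le_mul_of_nonneg_left a1 hBB.le
    have a3 : 0 ≤ (B * (1 + B + κ⁻¹)) * (M1 * (1 - v)) := by
      have : 0 ≤ 1 - v := by linarith [hv.2]
      positivity
    nlinarith

/-- `φ(z) ≤ M K₊(Φ z)` and `K₋(Φ z) ≤ M φ(z)` -/
lemma gau (h : SPair c W V I k c) (hc : c < 1 / 2) (z : ℝ) :
    Real.sqrt (1 - 2 * c) * ph z ≤ I (X V (Phi z)) ∧ I (X V (Phi z)) ≤ Real.sqrt (1 + 2 * c) * ph z := by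
  have hz : Phi z ∈ Ioo (0:ℝ) 1 := ⟨StepStart_483.Phi_pos z, StepStart_483.Phi_lt_one z⟩
  exact RatioB_39.ratio_bound h (V_X h hz).symm

lemma law_p_aux (h : SPair c W V I k c) (hX : XWS c δ e0 κ B tlo thi W V I k D) :
    ∀ v η J n, AdmR e0 (wd c δ κ W V I k D) v η J → 0 ≤ n → max 0 (c - δ) - e0 ≤ n →
      n ≤ min (7 / 10) (c + δ) + e0 →
      LStat 1 n v J η (Lam W k η + δ * D.fp) (Lam1 c W V k c η) (Lam2 c W V I k c η) ≤ 0 := by
  intro v η J n hA hn0 hn1 hn2
  have hwin : ∀ n, 0 ≤ n → max 0 (c - δ) - e0 ≤ n → n ≤ min (7 / 10) (c + δ) + e0 →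
      n ∈ Icc (nl c δ e0) (nu c δ e0) := fun n => mem_win hX
  have hv : v ∈ Ioo (0:ℝ) 1 := ⟨hA.v_pos, hA.v_lt⟩
  have hη := hA.η_pos
  have hWi := W_Wi h hη
  have hVX := V_X h hv
  set x := X V v with hx
  set z := Wi W η with hz
  have hI := h.I_pos x
  have hP : PosX e0 W D x z := ⟨by rw [hWi]; exact hA.η_lo, by rw [hWi]; exact hA.η_hi⟩
  have hJ1 : (1 - e0) * (I x * (1 + -δ * D.bm x)) ≤ J := hA.J_lo
  have hJ2 : J ≤ (1 + e0) * (I x * (1 + δ * D.bp x)) := hA.J_hi
  rw [wd_Km] at hJ1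
  show LStat 1 n v J η (Lam W k η + δ * D.fp) (Lam1 c W V k c η) (Lam2 c W V I k c η) ≤ 0
  rw [lstat_add]
  have hy := hwin n hn0 hn1 hn2
  have hL := hX.law_p x z hP
  have q1 := hL _ (Or.inl rfl) _ (Or.inl rfl)
  have q2 := hL _ (Or.inr rfl) _ (Or.inl rfl)
  have q3 := hL _ (Or.inl rfl) _ (Or.inr rfl)
  have q4 := hL _ (Or.inr rfl) _ (Or.inr rfl)
  rw [hVX, hWi] at q1 q2 q3 q4
  have eL1 : L1 c W V k z = Lam1 c W V k c η := rfl
  have eL2 : L2 c W V I k z = Lam2 c W V I k c η := rfl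
  have eL : k z = Lam W k η := rfl
  rw [eL1, eL2, eL] at q1 q2 q3 q4
  set F := Lam W k η
  set F1 := Lam1 c W V k c η
  set F2 := Lam2 c W V I k c η
  set j := J / I x with hj
  have hjI : j * I x = J := by rw [hj]; field_simp
  have hj1 : (1 - e0) * (1 - δ * D.bm x) ≤ j := by
    rw [hj, le_div_iff₀ hI]; linarith
  have hj2 : j ≤ (1 + e0) * (1 + δ * D.bp x) := by
    rw [hj, div_le_iff₀ hI]; linarith
  have key := biaffine_nonpos
    (A := v ^ 2 * F2 / 2 + (-(F * v) - 1 / 2 * η) * F1 - 1 / 2 * F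
      - δ * D.fp * (1 / 2 + v * F1))
    (B := -(1 / 2 * η) * F1 - (1 / 2 - (1 - v)) * F - δ * D.fp * (1 / 2 - (1 - v)))
    (C := I x * F1) (D := I x)
    (yl := nl c δ e0) (yu := nu c δ e0) (y := n)
    (jl := (1 - e0) * (1 - δ * D.bm x)) (ju := (1 + e0) * (1 + δ * D.bp x)) (j := j)
    (by unfold LStat PotR at q1; linarith) (by unfold LStat PotR at q2; linarith)
    (by unfold LStat PotR at q3; linarith) (by unfold LStat PotR at q4; linarith)
    hy ⟨hj1, hj2⟩
  unfold LStat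
  rw [← hjI]
  linarith

lemma law_m_aux (h : SPair c W V I k c) (hX : XWS c δ e0 κ B tlo thi W V I k D) :
    ∀ v η J n, AdmR e0 (wd c δ κ W V I k D) v η J → 0 ≤ n → max 0 (c - δ) - e0 ≤ n →
      n ≤ min (7 / 10) (c + δ) + e0 →
      0 ≤ LStat 1 n v J η (Lam W k η - δ * D.fm) (Lam1 c W V k c η) (Lam2 c W V I k c η) := by
  intro v η J n hA hn0 hn1 hn2
  have hwin : ∀ n, 0 ≤ n → max 0 (c - δ) - e0 ≤ n → n ≤ min (7 / 10) (c + δ) + e0 →
      n ∈ Icc (nl c δ e0) (nu c δ e0) := fun n => mem_win hX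
  have hv : v ∈ Ioo (0:ℝ) 1 := ⟨hA.v_pos, hA.v_lt⟩
  have hη := hA.η_pos
  have hWi := W_Wi h hη
  have hVX := V_X h hv
  set x := X V v with hx
  set z := Wi W η with hz
  have hI := h.I_pos x
  have hP : PosX e0 W D x z := ⟨by rw [hWi]; exact hA.η_lo, by rw [hWi]; exact hA.η_hi⟩
  have hJ1 : (1 - e0) * (I x * (1 + -δ * D.bm x)) ≤ J := hA.J_lo
  have hJ2 : J ≤ (1 + e0) * (I x * (1 + δ * D.bp x)) := hA.J_hi
  rw [wd_Km] at hJ1
  have e9 : Lam W k η - δ * D.fm = Lam W k η + (-(δ * D.fm)) := by ring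
  show 0 ≤ LStat 1 n v J η (Lam W k η - δ * D.fm) (Lam1 c W V k c η) (Lam2 c W V I k c η)
  rw [e9, lstat_add]
  have hy := hwin n hn0 hn1 hn2
  have hL := hX.law_m x z hP
  have q1 := hL _ (Or.inl rfl) _ (Or.inl rfl)
  have q2 := hL _ (Or.inr rfl) _ (Or.inl rfl)
  have q3 := hL _ (Or.inl rfl) _ (Or.inr rfl)
  have q4 := hL _ (Or.inr rfl) _ (Or.inr rfl)
  rw [hVX, hWi] at q1 q2 q3 q4
  have eL1 : L1 c W V k z = Lam1 c W V k c η := rfl
  have eL2 : L2 c W V I k z = Lam2 c W V I k c η := rfl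
  have eL : k z = Lam W k η := rfl
  rw [eL1, eL2, eL] at q1 q2 q3 q4
  set F := Lam W k η
  set F1 := Lam1 c W V k c η
  set F2 := Lam2 c W V I k c η
  set j := J / I x with hj
  have hjI : j * I x = J := by rw [hj]; field_simp
  have hj1 : (1 - e0) * (1 - δ * D.bm x) ≤ j := by
    rw [hj, le_div_iff₀ hI]; linarith
  have hj2 : j ≤ (1 + e0) * (1 + δ * D.bp x) := by
    rw [hj, div_le_iff₀ hI]; linarith
  have key := biaffine_nonpos
    (A := -(v ^ 2 * F2 / 2 + (-(F * v) - 1 / 2 * η) * F1 - 1 / 2 * F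
      + δ * D.fm * (1 / 2 + v * F1)))
    (B := -(-(1 / 2 * η) * F1 - (1 / 2 - (1 - v)) * F + δ * D.fm * (1 / 2 - (1 - v))))
    (C := -(I x * F1)) (D := -(I x))
    (yl := nl c δ e0) (yu := nu c δ e0) (y := n)
    (jl := (1 - e0) * (1 - δ * D.bm x)) (ju := (1 + e0) * (1 + δ * D.bp x)) (j := j)
    (by unfold LStat PotR at q1; linarith) (by unfold LStat PotR at q2; linarith)
    (by unfold LStat PotR at q3; linarith) (by unfold LStat PotR at q4; linarith)
    hy ⟨hj1, hj2⟩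
  unfold LStat
  rw [← hjI]
  linarith

lemma pot_p_aux (h : SPair c W V I k c) (hX : XWS c δ e0 κ B tlo thi W V I k D) :
    ∀ v η J n, AdmR e0 (wd c δ κ W V I k D) v η J → 0 ≤ n → max 0 (c - δ) - e0 ≤ n →
      n ≤ min (7 / 10) (c + δ) + e0 → κ ≤ PotR n v (Lam1 c W V k c η) := by
  intro v η J n hA hn0 hn1 hn2
  have hwin : ∀ n, 0 ≤ n → max 0 (c - δ) - e0 ≤ n → n ≤ min (7 / 10) (c + δ) + e0 →
      n ∈ Icc (nl c δ e0) (nu c δ e0) := fun n => mem_win hX
  have hv : v ∈ Ioo (0:ℝ) 1 := ⟨hA.v_pos, hA.v_lt⟩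
  have hWi := W_Wi h hA.η_pos
  have hVX := V_X h hv
  have hP : PosX e0 W D (X V v) (Wi W η) :=
    ⟨by rw [hWi]; exact hA.η_lo, by rw [hWi]; exact hA.η_hi⟩
  have q1 := hX.pot _ _ hP _ (Or.inl rfl)
  have q2 := hX.pot _ _ hP _ (Or.inr rfl)
  rw [hVX] at q1 q2
  have key := affine_nonpos (A := κ - (1 / 2 + v * L1 c W V k (Wi W η)))
    (B := -(1 / 2 - (1 - v))) (by unfold PotR at q1; linarith) (by unfold PotR at q2; linarith)
    (hwin n hn0 hn1 hn2)
  show κ ≤ PotR n v (L1 c W V k (Wi W η))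
  unfold PotR
  linarith

lemma clo_p_aux (h : SPair c W V I k c) (hX : XWS c δ e0 κ B tlo thi W V I k D) :
    ∀ v η J L, AdmR e0 (wd c δ κ W V I k D) v η J → 0 ≤ L →
      Lam W k η - δ * D.fm ≤ L → L ≤ Lam W k η + δ * D.fp →
      CloR thi v J L (D.gp (X V v) * G0x c W V I k (X V v)) (G1x c D.gp D.gp1 W V I k (X V v)) ≤ 0 := by
  intro v η J L hA hL0 hL1 hL2
  have hv : v ∈ Ioo (0:ℝ) 1 := ⟨hA.v_pos, hA.v_lt⟩
  have hWi := W_Wi h hA.η_pos
  have hVX := V_X h hv
  have hP : PosX e0 W D (X V v) (Wi W η) :=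
    ⟨by rw [hWi]; exact hA.η_lo, by rw [hWi]; exact hA.η_hi⟩
  have hJ1 : (1 - e0) * (I (X V v) * (1 + -δ * D.bm (X V v))) ≤ J := hA.J_lo
  have hJ2 : J ≤ (1 + e0) * (I (X V v) * (1 + δ * D.bp (X V v))) := hA.J_hi
  rw [wd_Km] at hJ1
  set x := X V v with hx
  have hI := h.I_pos x
  have hjI : J / I x * I x = J := by field_simp
  have hj1 : (1 - e0) * (1 - δ * D.bm x) ≤ J / I x := by
    rw [le_div_iff₀ hI]; linarith
  have hj2 : J / I x ≤ (1 + e0) * (1 + δ * D.bp x) := by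
    rw [div_le_iff₀ hI]; linarith
  have key := hX.clo_p x (Wi W η) (J / I x) L hP hj1 hj2 hL0 hL1 hL2
  rw [← clo_eq h, hVX, hjI] at key
  exact key

lemma clo_m_aux (h : SPair c W V I k c) (hX : XWS c δ e0 κ B tlo thi W V I k D) :
    ∀ v η J L, AdmR e0 (wd c δ κ W V I k D) v η J → 0 ≤ L →
      Lam W k η - δ * D.fm ≤ L → L ≤ Lam W k η + δ * D.fp →
      0 ≤ CloR tlo v J L (D.gm (X V v) * G0x c W V I k (X V v)) (G1x c D.gm D.gm1 W V I k (X V v)) := by
  intro v η J L hA hL0 hL1 hL2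
  have hv : v ∈ Ioo (0:ℝ) 1 := ⟨hA.v_pos, hA.v_lt⟩
  have hWi := W_Wi h hA.η_pos
  have hVX := V_X h hv
  have hP : PosX e0 W D (X V v) (Wi W η) :=
    ⟨by rw [hWi]; exact hA.η_lo, by rw [hWi]; exact hA.η_hi⟩
  have hJ1 : (1 - e0) * (I (X V v) * (1 + -δ * D.bm (X V v))) ≤ J := hA.J_lo
  have hJ2 : J ≤ (1 + e0) * (I (X V v) * (1 + δ * D.bp (X V v))) := hA.J_hi
  rw [wd_Km] at hJ1
  set x := X V v with hx
  have hI := h.I_pos x
  have hjI : J / I x * I x = J := by field_simp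
  have hj1 : (1 - e0) * (1 - δ * D.bm x) ≤ J / I x := by
    rw [le_div_iff₀ hI]; linarith
  have hj2 : J / I x ≤ (1 + e0) * (1 + δ * D.bp x) := by
    rw [div_le_iff₀ hI]; linarith
  have key := hX.clo_m x (Wi W η) (J / I x) L hP hj1 hj2 hL0 hL1 hL2
  rw [← clo_eq h, hVX, hjI] at key
  exact key


/-- **the static glue of REF** -/
theorem ws_of_xws (h : SPair c W V I k c) (hc : c < 1 / 2)
    (hX : XWS c δ e0 κ B tlo thi W V I k D) :
    ∃ M, WS (max 0 (c - δ)) (min (7 / 10) (c + δ)) tlo thi e0 κ M (wd c δ κ W V I k D) := by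
  have hc0 := h.c_pos
  have hδ := hX.δ_pos
  have he0 := hX.e0_pos
  have he1 := hX.e0_le
  have hκ := hX.κ_pos
  have hB := hX.B_pos
  have hκi : 0 < κ⁻¹ := inv_pos.2 hκ
  have hnu := nu_pos hX
  -- the bounds
  have hKI : ∀ x, I x ≤ 1 := fun x => by
    have h1 := h.I_le x
    have h2 := Stat8_307.W0_le h
    have h3 := h.W_pos 0
    nlinarith
  have hTp : ∀ x, κ ≤ 1 + δ * D.bp x := Tp_ge hX
  have hTp' : ∀ x, 1 + δ * D.bp x ≤ 1 + δ * B := fun x => by
    have := mul_le_mul_of_nonneg_left (hX.bp_le x) hδ.le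
    linarith
  have hTm := hX.Tm
  have hTm' : ∀ x, 1 - δ * D.bm x ≤ 1 + δ * B := fun x => by
    have := hX.bpm x
    have h2 := hTp' x
    nlinarith
  obtain ⟨MJ, hMJ, hJ⟩ := J_bdd h
  obtain ⟨Mk, hMk, hk⟩ := k_lin h
  obtain ⟨M1, hM1, hk1⟩ := k1_ge h
  obtain ⟨MG, hMG, hGl, hGr⟩ := G_growth h hB hκ hX.gp_bd hX.np_le
  obtain ⟨MG', hMG', hGl', hGr'⟩ := G_growth h hB hκ hX.gm_bd hX.np_le
  obtain ⟨MD, hMD, hKD⟩ := KG_bdd h hB hX.gp_bd hX.gp1_bd (T := fun x => 1 + δ * D.bp x)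
    (fun x => hκ.le.trans (hTp x)) hTp'
  obtain ⟨MD', hMD', hKD'⟩ := KG_bdd h hB hX.gm_bd hX.gm1_bd (T := fun x => 1 + δ * D.bp x)
    (fun x => hκ.le.trans (hTp x)) hTp'
  have hfp := hX.fp_nonneg
  have hfm := hX.fm_nonneg
  set T0 : ℝ := 1 + δ * B with hT0
  have hT00 : 1 ≤ T0 := by rw [hT0]; nlinarith [mul_pos hδ hB]
  set MKK : ℝ := MJ * T0 ^ 2 + δ * T0 * B with hMKK
  have hMKK0 : 0 < MKK := by positivity
  set s1 : ℝ := Real.sqrt (1 - 2 * c) with hs1
  have hs10 : 0 < s1 := Real.sqrt_pos.2 (by linarith)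
  set s2 : ℝ := Real.sqrt (1 + 2 * c) with hs2
  have hs20 : 0 < s2 := Real.sqrt_pos.2 (by linarith)
  set Mg : ℝ := (κ * s1)⁻¹ with hMg
  have hMg0 : 0 < Mg := by positivity
  set Mh : ℝ := s2 * T0 with hMh
  have hMh0 : 0 < Mh := by positivity
  set MF : ℝ := Mk + δ * D.fp + δ * D.fm with hMF
  have hMF0 : 0 < MF := by positivity
  set M : ℝ := T0 + MKK + Mg + Mh + MF + M1 + MG + MG' + MD + MD' with hM
  have hM0 : 0 < M := by positivity
  have hKKm : ∀ x, |-Jx c W V I x * (1 + -δ * D.bm x) ^ 2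
      + -δ * (1 + -δ * D.bm x) * (D.bm2 x + k1x c W V I x * D.bm1 x)| ≤ MKK := by
    intro x
    rw [wd_Km]
    have a1 := hTm x
    have a2 := hTm' x
    have a3 := abs_le.1 (hJ x)
    have a4 := abs_le.1 (hX.bm_side x)
    set T := 1 - δ * D.bm x
    set S := D.bm2 x + k1x c W V I x * D.bm1 x
    set J := Jx c W V I x
    have a5 : T ^ 2 ≤ T0 ^ 2 := pow_le_pow_left₀ (hκ.le.trans a1) a2 2
    have a0 : 0 ≤ T := hκ.le.trans a1
    have b1 : |J * T ^ 2| ≤ MJ * T0 ^ 2 := by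
      rw [abs_mul, abs_of_nonneg (sq_nonneg T)]
      exact mul_le_mul (abs_le.2 a3) a5 (sq_nonneg T) hMJ.le
    have b2 : |δ * T * S| ≤ δ * T0 * B := by
      rw [abs_mul, abs_mul, abs_of_pos hδ, abs_of_nonneg a0]
      exact mul_le_mul (mul_le_mul_of_nonneg_left a2 hδ.le) (abs_le.2 a4) (abs_nonneg _)
        (by positivity)
    have b3 := abs_le.1 b1
    have b4 := abs_le.1 b2
    rw [abs_le, hMKK]
    constructor <;> nlinarith
  refine ⟨M, ?_⟩
  have hwin : ∀ n, 0 ≤ n → max 0 (c - δ) - e0 ≤ n → n ≤ min (7 / 10) (c + δ) + e0 →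
      n ∈ Icc (nl c δ e0) (nu c δ e0) := fun n => mem_win hX
  -- affine extension of the linear parts
  have hlin : ∀ (T A C : ℝ), κ * T ≤ 1 / 2 * T + C →
      κ * T ≤ (1 / 2 * T + C) + A * nu c δ e0 → ∀ n, 0 ≤ n → n ≤ nu c δ e0 →
      κ * T ≤ (1 / 2 * T + C) + A * n := by
    intro T A C h1 h2 n hn0 hn1
    have := affine_nonpos (A := κ * T - (1 / 2 * T + C)) (B := -A) (yl := 0) (yu := nu c δ e0)
      (y := n) (by linarith) (by linarith) ⟨hn0, hn1⟩
    linarith
  exact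
  { lo_nonneg := le_max_left _ _
    lo_le := by
      have h3 := hX.δ_le
      refine max_le (le_min (by norm_num) (by linarith)) (le_min (by linarith) (by linarith))
    hi_lt := by
      have := min_le_left (7 / 10 : ℝ) (c + δ)
      linarith
    e0_pos := he0
    e0_le := he1
    κ_pos := hκ
    M_pos := hM0
    Kp_pos := fun v _ => mul_pos (h.I_pos _) (hκ.trans_le (hTp _))
    Km_pos := fun v _ => by
      show 0 < I (X V v) * (1 + -δ * D.bm (X V v))
      rw [wd_Km]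
      exact mul_pos (h.I_pos _) (hκ.trans_le (hTm _))
    Kp_le := fun v _ => by
      show I (X V v) * (1 + δ * D.bp (X V v)) ≤ M
      have h1 := hKI (X V v)
      have h2 := h.I_pos (X V v)
      have h3 := hTp' (X V v)
      have h4 := hκ.trans_le (hTp (X V v))
      have : I (X V v) * (1 + δ * D.bp (X V v)) ≤ T0 := by nlinarith
      have : T0 ≤ M := by rw [hM]; linarith
      linarith
    Km_le := fun v _ => by
      show I (X V v) * (1 + -δ * D.bm (X V v)) ≤ I (X V v) * (1 + δ * D.bp (X V v))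
      apply mul_le_mul_of_nonneg_left _ (h.I_pos _).le
      have := mul_nonneg hδ.le (hX.bpm (X V v))
      linarith
    dKp := fun v hv => LL_hasDerivAt (refI h) hv (ev_hasDerivAt h hv hX.dbp)
    dKp1 := fun v hv => LL1_hasSide (refI h) hv (ev_hasDerivAt h hv hX.dbp)
      (e1v_hasSide h hv hX.dbp1)
    dKm := fun v hv => LL_hasDerivAt (refI h) hv (ev_hasDerivAt h hv hX.dbm)
    dKm1 := fun v hv => LL1_hasSide (refI h) hv (ev_hasDerivAt h hv hX.dbm)
      (e1v_hasSide h hv hX.dbm1)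
    KKp := fun v hv => by
      have := KKp_le hX hc (X V v)
      rw [← KK_eq h hv] at this
      exact this
    KKm_le := fun v hv => by
      have := (abs_le.1 (hKKm (X V v))).2
      rw [← KK_eq h hv] at this
      refine this.trans ?_
      rw [hM]; linarith
    KKm_ge := fun v hv => by
      have := (abs_le.1 (hKKm (X V v))).1
      rw [← KK_eq h hv] at this
      refine le_trans ?_ this
      rw [hM]; linarith
    stat_p := fun v hv n hn0 hn1 hn2 => by
      have hy := hwin n hn0 hn1 hn2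
      have hl := hX.up (X V v) _ (Or.inl rfl)
      have hu := hX.up (X V v) _ (Or.inr rfl)
      rw [div_eq_mul_inv] at hl hu
      have h1 := Exx_vertices hl hu hy
      rw [← div_eq_mul_inv] at h1
      show Stat 1 n v (LL δ (Iv V I) (ev V D.bp) v) _ _ ≤ 0
      rw [show (wd c δ κ W V I k D).Kp1 v = LL1 δ (Iv V I) (I1v c W V I) (ev V D.bp)
          (e1v V I D.bp1) v from rfl,
        show (wd c δ κ W V I k D).Kp2 v = LL2 δ (Iv V I) (I1v c W V I) (I2v c W V I) (ev V D.bp)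
          (e1v V I D.bp1) (e2v c W V I D.bp1 D.bp2) v from rfl, Stat_eq h hv hδ.ne']
      exact mul_nonpos_of_nonneg_of_nonpos (mul_pos (h.I_pos _) hδ).le h1
    stat_m := fun v hv n hn0 hn1 hn2 => by
      have hy := hwin n hn0 hn1 hn2
      have hl := hX.low (X V v) _ (Or.inl rfl)
      have hu := hX.low (X V v) _ (Or.inr rfl)
      have e0' : ∀ y : ℝ, -((y - c) / δ) = (y - c) * (-δ)⁻¹ := fun y => by
        rw [inv_neg, div_eq_mul_inv]; ring
      rw [e0'] at hl hu
      have h1 := Exx_vertices hl hu hy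
      rw [← div_eq_mul_inv] at h1
      show 0 ≤ Stat 1 n v (LL (-δ) (Iv V I) (ev V D.bm) v) _ _
      rw [show (wd c δ κ W V I k D).Km1 v = LL1 (-δ) (Iv V I) (I1v c W V I) (ev V D.bm)
          (e1v V I D.bm1) v from rfl,
        show (wd c δ κ W V I k D).Km2 v = LL2 (-δ) (Iv V I) (I1v c W V I) (I2v c W V I) (ev V D.bm)
          (e1v V I D.bm1) (e2v c W V I D.bm1 D.bm2) v from rfl,
        Stat_eq h hv (neg_ne_zero.2 hδ.ne'), wd_Km]
      refine mul_nonneg_of_nonpos_of_nonpos ?_ h1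
      have := h.I_pos (X V v)
      nlinarith
    lin_p := fun v hv n hn0 hn1 => by
      have hI := h.I_pos (X V v)
      show κ * (I (X V v) * (1 + δ * D.bp (X V v))) ≤ LinR n v (LL δ (Iv V I) (ev V D.bp) v)
        (LL1 δ (Iv V I) (I1v c W V I) (ev V D.bp) (e1v V I D.bp1) v)
      rw [Lin_eq h hv]
      have h1 := hX.lin_p (X V v)
      have h2 := hTp (X V v)
      have h3 := hlin (1 + δ * D.bp (X V v))
        (sx c W V I (X V v) * (1 + δ * D.bp (X V v)) + δ * qx V I (X V v) * D.bp1 (X V v)) 0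
        (by nlinarith [hX.κ_le]) (by linarith) n hn0 hn1
      have h4 := mul_le_mul_of_nonneg_left h3 hI.le
      linarith
    lin_m := fun v hv n hn0 hn1 => by
      have hI := h.I_pos (X V v)
      show κ * (I (X V v) * (1 + -δ * D.bm (X V v))) ≤ LinR n v (LL (-δ) (Iv V I) (ev V D.bm) v)
        (LL1 (-δ) (Iv V I) (I1v c W V I) (ev V D.bm) (e1v V I D.bm1) v)
      rw [Lin_eq h hv, wd_Km]
      have h1 := hX.lin_m (X V v)
      have h2 := hTm (X V v)
      have h3 := hlin (1 - δ * D.bm (X V v))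
        (sx c W V I (X V v) * (1 - δ * D.bm (X V v)) - δ * qx V I (X V v) * D.bm1 (X V v)) 0
        (by nlinarith [hX.κ_le]) (by linarith) n hn0 hn1
      have h4 := mul_le_mul_of_nonneg_left h3 hI.le
      linarith
    lin_m2 := fun v hv n hn0 hn1 => by
      have hI := h.I_pos (X V v)
      have hKK := KK_eq (a := -δ) (e := D.bm) (e1 := D.bm1) (e2 := D.bm2) h hv
      show κ * (I (X V v) * (1 + -δ * D.bm (X V v))) ≤ LinR n v (LL (-δ) (Iv V I) (ev V D.bm) v)
        (LL1 (-δ) (Iv V I) (I1v c W V I) (ev V D.bm) (e1v V I D.bm1) v)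
        - LL (-δ) (Iv V I) (ev V D.bm) v ^ 2 * LL2 (-δ) (Iv V I) (I1v c W V I) (I2v c W V I)
          (ev V D.bm) (e1v V I D.bm1) (e2v c W V I D.bm1 D.bm2) v / 2
      have e5 : LL (-δ) (Iv V I) (ev V D.bm) v ^ 2 * LL2 (-δ) (Iv V I) (I1v c W V I) (I2v c W V I)
          (ev V D.bm) (e1v V I D.bm1) (e2v c W V I D.bm1 D.bm2) v / 2
          = LL (-δ) (Iv V I) (ev V D.bm) v * (LL (-δ) (Iv V I) (ev V D.bm) v *
            LL2 (-δ) (Iv V I) (I1v c W V I) (I2v c W V I)
          (ev V D.bm) (e1v V I D.bm1) (e2v c W V I D.bm1 D.bm2) v) / 2 := by ring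
      rw [e5, hKK, Lin_eq h hv, LL_eq, wd_Km]
      have h1 := hX.lin_m2 (X V v) 0 (Or.inl rfl)
      have h1' := hX.lin_m2 (X V v) _ (Or.inr rfl)
      have h3 := hlin (1 - δ * D.bm (X V v))
        (sx c W V I (X V v) * (1 - δ * D.bm (X V v)) - δ * qx V I (X V v) * D.bm1 (X V v))
        (1 / 2 * (1 - δ * D.bm (X V v)) ^ 2 * (Jx c W V I (X V v) * (1 - δ * D.bm (X V v))
        + δ * (D.bm2 (X V v) + k1x c W V I (X V v) * D.bm1 (X V v))))
        (by linarith) (by linarith) n hn0 hn1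
      have h4 := mul_le_mul_of_nonneg_left h3 hI.le
      linarith
    gau_p := fun z => by
      obtain ⟨h1, h2⟩ := gau h hc z
      show ph z ≤ M * (I (X V (Phi z)) * (1 + δ * D.bp (X V (Phi z))))
      have hp := StepStart_483.ph_pos z
      have h3 := hTp (X V (Phi z))
      have h4 := h.I_pos (X V (Phi z))
      have h5 : ph z ≤ Mg * (I (X V (Phi z)) * (1 + δ * D.bp (X V (Phi z)))) := by
        have h6 : s1 * ph z * κ ≤ I (X V (Phi z)) * (1 + δ * D.bp (X V (Phi z))) :=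
          mul_le_mul h1 h3 hκ.le h4.le
        have h7 := mul_le_mul_of_nonneg_left h6 hMg0.le
        have h8 : Mg * (s1 * ph z * κ) = ph z := by rw [hMg]; field_simp
        linarith
      refine h5.trans (mul_le_mul_of_nonneg_right ?_ ?_)
      · rw [hM]; linarith
      · exact mul_nonneg h4.le (hκ.le.trans h3)
    gau_m := fun z => by
      obtain ⟨h1, h2⟩ := gau h hc z
      show I (X V (Phi z)) * (1 + -δ * D.bm (X V (Phi z))) ≤ M * ph z
      rw [wd_Km]
      have hp := StepStart_483.ph_pos z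
      have h3 := hTm' (X V (Phi z))
      have h4 := h.I_pos (X V (Phi z))
      have h5 : I (X V (Phi z)) * (1 - δ * D.bm (X V (Phi z))) ≤ (s2 * ph z) * T0 :=
        mul_le_mul h2 h3 (hκ.le.trans (hTm _)) (by positivity)
      have h6 : s2 * ph z * T0 = Mh * ph z := by rw [hMh]; ring
      have h7 : Mh ≤ M := by rw [hM]; linarith
      have := mul_le_mul_of_nonneg_right h7 hp.le
      linarith
    dNp := fun v hv => comp_X h hv (hX.dnp _)
    Np_ge := fun v hv => by
      show v ≤ D.np1 (X V v) / I (X V v) * (I (X V v) * (1 + -δ * D.bm (X V v)))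
      have h1 := hX.pos_p (X V v)
      rw [V_X h hv] at h1
      have hI := (h.I_pos (X V v)).ne'
      rw [wd_Km]
      have e : D.np1 (X V v) / I (X V v) * (I (X V v) * (1 - δ * D.bm (X V v))) =
        D.np1 (X V v) * (1 - δ * D.bm (X V v)) := by field_simp
      rw [e]; exact h1
    Np_lim := hX.np_lim.comp (X_atBot h)
    dNm := fun v hv => comp_X h hv (hX.dnm _)
    Nm_le := fun v hv => by
      show D.nm1 (X V v) / I (X V v) * (I (X V v) * (1 + δ * D.bp (X V v))) ≤ v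
      have h1 := hX.pos_m (X V v)
      rw [V_X h hv] at h1
      have hI := (h.I_pos (X V v)).ne'
      have e : D.nm1 (X V v) / I (X V v) * (I (X V v) * (1 + δ * D.bp (X V v))) =
        D.nm1 (X V v) * (1 + δ * D.bp (X V v)) := by field_simp
      rw [e]; exact h1
    Nm_lim := hX.nm_lim.comp (X_atBot h)
    Nm_nonneg := fun v _ => hX.nm_nonneg _
    dUb := fun v hv => by
      have h1 : HasDerivAt (fun x => W x - x) (V (X V v) - 1) (X V v) :=
        (h.dW _).sub (hasDerivAt_id _)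
      exact (comp_X h hv h1).const_mul κ⁻¹
    Ub_ge := fun v hv => by
      show 1 - v ≤ -(κ⁻¹ * ((V (X V v) - 1) / I (X V v))) * (I (X V v) * (1 + -δ * D.bm (X V v)))
      rw [wd_Km]
      have hI := (h.I_pos (X V v)).ne'
      have e : -(κ⁻¹ * ((V (X V v) - 1) / I (X V v))) * (I (X V v) * (1 - δ * D.bm (X V v)))
          = (1 - v) * (κ⁻¹ * (1 - δ * D.bm (X V v))) := by
        rw [V_X h hv]; field_simp; ring
      rw [e]
      have h1 : 1 ≤ κ⁻¹ * (1 - δ * D.bm (X V v)) := by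
        have := mul_le_mul_of_nonneg_left (hTm (X V v)) hκi.le
        rw [inv_mul_cancel₀ hκ.ne'] at this
        exact this
      have h2 : 0 < 1 - v := by linarith [hv.2]
      nlinarith
    Ub_lim := by
      have h1 := ((Stat7_307.tendsto_U h).comp (X_atTop h)).const_mul κ⁻¹
      rw [mul_zero] at h1
      exact h1
    dFp := fun η hη => (Lam_deriv h hη).add_const _
    dFp1 := fun η hη => Lam1_side h hη
    dFm := fun η hη => (Lam_deriv h hη).sub_const _
    dFm1 := fun η hη => Lam1_side h hη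
    Fp_nonneg := fun η _ => by
      show 0 ≤ k (Wi W η) + δ * D.fp
      have := h.k_pos (Wi W η)
      positivity
    Fp_le := fun η _ => by
      show k (Wi W η) + δ * D.fp ≤ M
      have h1 := hk (Wi W η)
      have h2 := h.k_pos (Wi W η)
      have h3 := mul_nonneg h2.le (abs_nonneg (Wi W η))
      have h4 : k (Wi W η) ≤ Mk := by linarith
      have h5 : 0 ≤ δ * D.fm := mul_nonneg hδ.le hfm
      rw [hM, hMF]; linarith
    Fm_le := fun η _ => by
      show k (Wi W η) - δ * D.fm ≤ k (Wi W η) + δ * D.fp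
      have h5 : 0 ≤ δ * D.fm := mul_nonneg hδ.le hfm
      have h6 : 0 ≤ δ * D.fp := mul_nonneg hδ.le hfp
      linarith
    Fm_ge := fun η _ => by
      show -M ≤ k (Wi W η) - δ * D.fm
      have h2 := h.k_pos (Wi W η)
      have h6 : 0 ≤ δ * D.fp := mul_nonneg hδ.le hfp
      rw [hM, hMF]; linarith
    Fp1_ge := fun η _ => by
      show -M ≤ k1 c W V k c (Wi W η) / V (Wi W η)
      have hV := h.V_pos (Wi W η)
      rw [le_div_iff₀ hV]
      have h1 := hk1 (Wi W η)
      have h2 : M1 ≤ M := by rw [hM]; linarith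
      nlinarith
    Fm1_ge := fun η _ => by
      show -M ≤ k1 c W V k c (Wi W η) / V (Wi W η)
      have hV := h.V_pos (Wi W η)
      rw [le_div_iff₀ hV]
      have h1 := hk1 (Wi W η)
      have h2 : M1 ≤ M := by rw [hM]; linarith
      nlinarith
    law_p := law_p_aux h hX
    law_m := law_m_aux h hX
    pot_p := pot_p_aux h hX
    pot_m := pot_p_aux h hX
    dGp := fun v hv => dG h hX.dgp hv
    dGm := fun v hv => dG h hX.dgm hv
    Gp_l := fun v hv => by
      refine (hGl v hv).trans (mul_le_mul_of_nonneg_right ?_ hv.1.le)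
      rw [hM]; linarith
    Gp_r := fun v hv => by
      refine (hGr v hv).trans (mul_le_mul_of_nonneg_right ?_ (by linarith [hv.2]))
      rw [hM]; linarith
    Gm_l := fun v hv => by
      refine (hGl' v hv).trans (mul_le_mul_of_nonneg_right ?_ hv.1.le)
      rw [hM]; linarith
    Gm_r := fun v hv => by
      refine (hGr' v hv).trans (mul_le_mul_of_nonneg_right ?_ (by linarith [hv.2]))
      rw [hM]; linarith
    KGp := fun v _ => by
      refine (hKD (X V v)).trans ?_
      rw [hM]; linarith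
    KGm := fun v _ => by
      refine (hKD' (X V v)).trans ?_
      rw [hM]; linarith
    clo_p := clo_p_aux h hX
    clo_m := clo_m_aux h hX }

end main

end Crest.Agent.R146.RefWS_355
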