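import Crest.Agent.R146.C2Prof_454
import Crest.Agent.R146.C2D_889
import Crest.Agent.R146.J_791
import Crest.Agent.R146.PtNumRef_846
import Crest.Agent.R146.C2S_889
import Crest.Agent.R146.PtNum_846
import Crest.Agent.R146.C2V_889
import Crest.Agent.R146.C2X_865
import Crest.Agent.R146.C2P_490
import Crest.Agent.R146.C2Q_490
import Crest.Agent.R146.C2Disp_889
import Crest.Agent.R146.C1M_445
import Crest.Agent.R146.C1L_445
import Crest.Agent.R146.TailK_445
import Crest.Agent.R146.Dual_924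
import Crest.Agent.R146.CloG_924
import Crest.Agent.R146.CloC_924
import Crest.Agent.R146.KShift_277
import Crest.Agent.R146.RefWS_355
import Crest.Agent.R146.Fix2_181
import Crest.Agent.R146.C2Z_649

-- ▼ part R146/C2Cell_454
section

/-!
# Row 146, helper454: law cells of NUMREF (C2), the theorem

`law` : for the closed stationary pair, `-5 < x ≤ 3` the label of the position, `r`, `β`, `ε` the level
shift, the slope ratio and the concavity gap: potential `≥ 1/100` and `-23/20 PX ≤ SX ≤ 7/5 PX`.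
-/

set_option autoImplicit false
set_option linter.unusedVariables false
set_option linter.unusedSimpArgs false

namespace Crest.Agent.R146.C2Cell_454

open Set
open PP865 EncR_848 PP4_454 C2Data_454 C2Eng_454 C2Ex_454 C2Alg_454 C2Env_454 C2Comp_454 C2Prof_454
open Crest.Agent.R146.SPair_307 Crest.Agent.R146.RefX_355
open Crest.Agent.R146.C2R_889 (SX PX HX)

noncomputable section

variable {c : ℝ} {W V I k : ℝ → ℝ}

/-- both inequalities for `q P`, `q S` -/
def Fin2 (c : ℝ) (W V I k : ℝ → ℝ) (x δ ν r H : ℝ) : Prop :=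
  0 < 1433 / 1024 * QP (qx V I x) (V x) (K1 c W V k x) (c + δ * ν) δ r
      - QS (qx V I x) (V x) (k x) (K1 c W V k x) (gQ c W V I k x) (gB c W V I k x) (c + δ * ν) ν
        δ r H ∧
    0 < 1177 / 1024 * QP (qx V I x) (V x) (K1 c W V k x) (c + δ * ν) δ r
      + QS (qx V I x) (V x) (k x) (K1 c W V k x) (gQ c W V I k x) (gB c W V I k x) (c + δ * ν) ν
        δ r H

section base

variable {x : ℝ} (h : SPair c W V I k c)
include h

theorem q_pos (x : ℝ) : 0 < qx V I x :=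
  div_pos (mul_pos (h.V_pos x) (by linarith [h.V_lt x])) (h.I_pos x)

theorem q_p (x : ℝ) : qx V I x * (I x / V x) = 1 - V x := by
  have := (h.V_pos x).ne'
  have := (h.I_pos x).ne'
  unfold qx
  field_simp

theorem q_ir (x : ℝ) : qx V I x * (I x / (1 - V x)) = V x := by
  have := (h.I_pos x).ne'
  have : 1 - V x ≠ 0 := by linarith [h.V_lt x]
  unfold qx
  field_simp

end base


/-- upper form -/
theorem form_p (h : SPair c W V I k c) {x δ r β ε : ℝ} {j : ℕ} {B : ℝ}
    (hj : wf c W V I k x j = B) (hβ : |β| ≤ B) (hδ : 0 < δ) (hε : 0 ≤ ε)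
    (hpos : 0 ≤ I x / V x + δ * (k1x c W V I x * r - ε)) :
    qx V I x * HX δ (I x / V x) (k1x c W V I x) r β ε
      ≤ HF.val (fP (.var j)) (wf c W V I k x) δ r := by
  have := h_le (q_pos h x) (q_p h x) (rfl : qx V I x * k1x c W V I x = gT c W V I x) hβ hδ.le hε
    hpos
  unfold HX
  refine this.trans (le_of_eq ?_)
  simp only [HF.val, fP, C2Ex_454.eR, Ex.evR_mul, Ex.evR_sub, Ex.evR_var, Ex.evR_cst,
    Enc1_848.evR_one, hj]
  rw [show wf c W V I k x 2 = V x from rfl, show wf c W V I k x 34 = gT c W V I x from rfl]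
  norm_num [gT]

/-- Taylor form -/
theorem form_t (h : SPair c W V I k c) {x δ r β ε : ℝ} {j l : ℕ} {B K : ℝ}
    (hj : wf c W V I k x j = B) (hl : wf c W V I k x l = K) (hβ : |β| ≤ B) (hδ : 0 < δ)
    (hε : 0 ≤ ε) (hpos : 0 ≤ I x / V x + δ * (k1x c W V I x * r - ε)) (hK : ε ≤ δ * K) :
    HF.val (fT (.var j) (.var l)) (wf c W V I k x) δ r
      ≤ qx V I x * HX δ (I x / V x) (k1x c W V I x) r β ε := by
  have := le_h_T (q_pos h x) (q_p h x) (rfl : qx V I x * k1x c W V I x = gT c W V I x) hβ hδ.le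
    hpos hε hK
  unfold HX
  refine le_trans (le_of_eq ?_) this
  simp only [HF.val, fT, C2Ex_454.eR, Ex.evR_mul, Ex.evR_sub, Ex.evR_neg, Ex.evR_var, Ex.evR_cst,
    Enc1_848.evR_one, hj, hl]
  rw [show wf c W V I k x 2 = V x from rfl, show wf c W V I k x 34 = gT c W V I x from rfl,
    show wf c W V I k x 7 = qx V I x from rfl]
  rfl

/-- chord form, `r ≤ 0` -/
theorem form_c0 (h : SPair c W V I k c) {x δ r β ε : ℝ} {j : ℕ} {B : ℝ}
    (hj : wf c W V I k x j = B) (hβ : |β| ≤ B) (hδB : δ * B ≤ 1)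
    (hpos : 0 ≤ I x / V x + δ * (k1x c W V I x * r - ε))
    (hc : ε ≤ (I x / V x - k1x c W V I x) * (-r)) :
    HF.val (fC0 (.var j)) (wf c W V I k x) δ r
      ≤ qx V I x * HX δ (I x / V x) (k1x c W V I x) r β ε := by
  have := le_h_C0 (q_pos h x) (q_p h x) hβ hδB hpos hc
  unfold HX
  refine le_trans (le_of_eq ?_) this
  simp only [HF.val, fC0, C2Ex_454.eR, Ex.evR_mul, Ex.evR_sub, Ex.evR_neg, Ex.evR_var, Ex.evR_cst,
    Enc1_848.evR_one, hj]
  rw [show wf c W V I k x 2 = V x from rfl]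
  norm_num

/-- chord form, `0 ≤ r` -/
theorem form_c1 (h : SPair c W V I k c) {x δ r β ε : ℝ} {j : ℕ} {B : ℝ}
    (hj : wf c W V I k x j = B) (hβ : |β| ≤ B) (hδB : δ * B ≤ 1)
    (hpos : 0 ≤ I x / V x + δ * (k1x c W V I x * r - ε))
    (hc : ε ≤ (I x / (1 - V x) + k1x c W V I x) * r) :
    HF.val (fC1 (.var j)) (wf c W V I k x) δ r
      ≤ qx V I x * HX δ (I x / V x) (k1x c W V I x) r β ε := by
  have := le_h_C1 (q_pos h x) (q_p h x) (q_ir h x) hβ hδB hpos hc
  unfold HX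
  refine le_trans (le_of_eq ?_) this
  simp only [HF.val, fC1, C2Ex_454.eR, Ex.evR_mul, Ex.evR_sub, Ex.evR_neg, Ex.evR_var, Ex.evR_cst,
    Enc1_848.evR_one, hj]
  rw [show wf c W V I k x 2 = V x from rfl]
  norm_num

section main

variable {x δ ν r β ε : ℝ}

theorem right_side (h : SPair c W V I k c) (h1 : -5 < x) (h2 : x ≤ 3) (hδ : 0 < δ)
    (hδc : δ ≤ c) (hν : |ν| ≤ 1001 / 1000) (hn7 : c + δ * ν ≤ 7 / 10 + δ / 1000) (hr : 0 ≤ r)
    (hr2 : r ≤ Mp x) (hβ : |β| ≤ BX δ x r) (hε : 0 ≤ ε)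
    (hpos : 0 ≤ I x / V x + δ * (k1x c W V I x * r - ε))
    (ht1 : x ≤ 3 / 4 → ε * (2 * (I x / V x) * (1 - V x - δ * V x * Mp x))
      ≤ 153 / 100 * δ * r ^ 2 * (1 - V x))
    (hc1 : 3 / 4 < x → ε ≤ (I x / (1 - V x) + k1x c W V I x) * r) :
    Fin2 c W V I k x δ ν r (qx V I x * HX δ (I x / V x) (k1x c W V I x) r β ε) := by
  have hc2 : c ≤ 435931 / 2 ^ 20 := (Enc3_848.enc h).c_hi
  have hB : |β| ≤ wf c W V I k x 46 := hβ.trans (BX_p h1 h2 hr)
  have hB2 : wf c W V I k x 46 ≤ 5 / 4 := Bp_le h1 h2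
  have hδB : δ * wf c W V I k x 46 ≤ 1 := by
    have hB0 : 0 ≤ wf c W V I k x 46 := (abs_nonneg β).trans hB
    norm_num at hc2
    nlinarith
  have hrM : (0 ≤ r ∧ r ≤ (Ex.var 22).evR (wf c W V I k x)) ∨
      (r ≤ 0 ∧ (Ex.var 22).evR (wf c W V I k x) ≤ r) := Or.inl ⟨hr, hr2⟩
  have hu := form_p (j := 46) h rfl hB hδ hε hpos
  rcases le_or_gt x (3 / 4) with hx | hx
  · have hK : 0 < cv 36 P1 PS1 x 28 :=
      use0 rfl C2X5_454.kp h1 h2 (by norm_num; linarith) (by norm_num; linarith)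
    rcases le_or_gt x (-4) with g1 | g1
    · have hp := proA h h1 g1
      have hl := form_t (j := 46) (l := 28) h rfl rfl hB hδ hε hpos
        (epsP h h1 h2 hp C2X1_454.kPA hK hδ hδc hε hr hr2 (ht1 hx))
      exact cell h h1 h2 hp.prf C2X1_454.cAp (Or.inl (kpos_of h h1 h2 hp C2X5_454.kA))
        (sig_of h h1 h2 hp C2X5_454.sA) hrM hδ hδc rfl hν hn7 hu hl
    rcases le_or_gt x (-2) with g2 | g2
    · have hp := proB h g1 g2
      have hl := form_t (j := 46) (l := 28) h rfl rfl hB hδ hε hpos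
        (epsP h h1 h2 hp C2X1_454.kPB hK hδ hδc hε hr hr2 (ht1 hx))
      exact cell h h1 h2 hp.prf C2X1_454.cBp (Or.inl (kpos_of h h1 h2 hp C2X5_454.kB))
        (sig_of h h1 h2 hp C2X5_454.sB) hrM hδ hδc rfl hν hn7 hu hl
    rcases le_or_gt x (-(1 / 4)) with g3 | g3
    · have hp := proC h g2 g3
      have hl := form_t (j := 46) (l := 28) h rfl rfl hB hδ hε hpos
        (epsP h h1 h2 hp C2X2_454.kPC hK hδ hδc hε hr hr2 (ht1 hx))
      exact cell h h1 h2 hp.prf C2X2_454.cCp (Or.inl (kpos_of h h1 h2 hp C2X5_454.kC))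
        (sig_of h h1 h2 hp C2X5_454.sC) hrM hδ hδc rfl hν hn7 hu hl
    · have hp := proD h g3 hx
      have hl := form_t (j := 46) (l := 28) h rfl rfl hB hδ hε hpos
        (epsP h h1 h2 hp C2X3_454.kPD hK hδ hδc hε hr hr2 (ht1 hx))
      exact cell h h1 h2 hp.prf C2X3_454.cDp (Or.inr C2X3_454.xDp)
        (sig_of h h1 h2 hp C2X5_454.sD) hrM hδ hδc rfl hν hn7 hu hl
  · have hl := form_c1 (j := 46) h rfl hB hδB hpos (hc1 hx)
    rcases le_or_gt x 1 with g1 | g1
    · have hp := proE h hx g1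
      exact cell h h1 h2 hp.prf C2X3_454.cEp (Or.inr C2X3_454.xEp)
        (sig_of h h1 h2 hp C2X5_454.sE) hrM hδ hδc rfl hν hn7 hu hl
    · have hp := proF h g1 h2
      exact cell h h1 h2 hp.prf C2X4_454.cFp (Or.inr C2X4_454.xFp)
        (sig_of h h1 h2 hp C2X5_454.sF) hrM hδ hδc rfl hν hn7 hu hl

theorem left_side (h : SPair c W V I k c) (h1 : -5 < x) (h2 : x ≤ 3) (hδ : 0 < δ)
    (hδc : δ ≤ c) (hν : |ν| ≤ 1001 / 1000) (hn7 : c + δ * ν ≤ 7 / 10 + δ / 1000) (hr : r < 0)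
    (hr2 : -Mm x ≤ r) (hβ : |β| ≤ BX δ x r) (hε : 0 ≤ ε)
    (hpos : 0 ≤ I x / V x + δ * (k1x c W V I x * r - ε))
    (ht1 : -2 < x → x ≤ 1 → ε * (2 * (I x / V x) * (1 - δ * Mm x)) ≤ 153 / 100 * δ * r ^ 2)
    (hc1 : (x ≤ -2 ∨ 1 < x) → ε ≤ (I x / V x - k1x c W V I x) * (-r)) :
    Fin2 c W V I k x δ ν r (qx V I x * HX δ (I x / V x) (k1x c W V I x) r β ε) := by
  have hc2 : c ≤ 435931 / 2 ^ 20 := (Enc3_848.enc h).c_hi
  have hB : |β| ≤ wf c W V I k x 49 := hβ.trans (BX_m h1 h2 hr hδ (hδc.trans hc2))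
  have hB2 : wf c W V I k x 49 ≤ 5 / 4 := Bm_le h1 h2
  have hδB : δ * wf c W V I k x 49 ≤ 1 := by
    have hB0 : 0 ≤ wf c W V I k x 49 := (abs_nonneg β).trans hB
    norm_num at hc2
    nlinarith
  have hrM : (0 ≤ r ∧ r ≤ (-(Ex.var 25)).evR (wf c W V I k x)) ∨
      (r ≤ 0 ∧ (-(Ex.var 25)).evR (wf c W V I k x) ≤ r) := by
    refine Or.inr ⟨hr.le, ?_⟩
    rw [Ex.evR_neg]
    exact hr2
  have hu := form_p (j := 49) h rfl hB hδ hε hpos
  rcases le_or_gt x (-4) with g1 | g1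
  · have hp := proA h h1 g1
    have hl := form_c0 (j := 49) h rfl hB hδB hpos (hc1 (Or.inl (by linarith)))
    exact cell h h1 h2 hp.prf C2X1_454.cAm (Or.inl (kpos_of h h1 h2 hp C2X5_454.kA))
      (sig_of h h1 h2 hp C2X5_454.sA) hrM hδ hδc rfl hν hn7 hu hl
  rcases le_or_gt x (-2) with g2 | g2
  · have hp := proB h g1 g2
    have hl := form_c0 (j := 49) h rfl hB hδB hpos (hc1 (Or.inl g2))
    exact cell h h1 h2 hp.prf C2X1_454.cBm (Or.inl (kpos_of h h1 h2 hp C2X5_454.kB))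
      (sig_of h h1 h2 hp C2X5_454.sB) hrM hδ hδc rfl hν hn7 hu hl
  rcases le_or_gt x 1 with g5 | g5
  · rcases le_or_gt x (-(1 / 4)) with g3 | g3
    · have hp := proC h g2 g3
      have hl := form_t (j := 49) (l := 31) h rfl rfl hB hδ hε hpos
        (epsM h h1 h2 hp C2X2_454.kMC hδ hδc hε hr.le hr2 (ht1 g2 g5))
      exact cell h h1 h2 hp.prf C2X2_454.cCm (Or.inl (kpos_of h h1 h2 hp C2X5_454.kC))
        (sig_of h h1 h2 hp C2X5_454.sC) hrM hδ hδc rfl hν hn7 hu hl
    rcases le_or_gt x (3 / 4) with g4 | g4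
    · have hp := proD h g3 g4
      have hl := form_t (j := 49) (l := 31) h rfl rfl hB hδ hε hpos
        (epsM h h1 h2 hp C2X3_454.kMD hδ hδc hε hr.le hr2 (ht1 g2 g5))
      exact cell h h1 h2 hp.prf C2X3_454.cDm (Or.inr C2X3_454.xDm)
        (sig_of h h1 h2 hp C2X5_454.sD) hrM hδ hδc rfl hν hn7 hu hl
    · have hp := proE h g4 g5
      have hl := form_t (j := 49) (l := 31) h rfl rfl hB hδ hε hpos
        (epsM h h1 h2 hp C2X3_454.kME hδ hδc hε hr.le hr2 (ht1 g2 g5))
      exact cell h h1 h2 hp.prf C2X3_454.cEm (Or.inr C2X3_454.xEm)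
        (sig_of h h1 h2 hp C2X5_454.sE) hrM hδ hδc rfl hν hn7 hu hl
  · have hp := proF h g5 h2
    have hl := form_c0 (j := 49) h rfl hB hδB hpos (hc1 (Or.inr g5))
    exact cell h h1 h2 hp.prf C2X4_454.cFm (Or.inr C2X4_454.xFm)
      (sig_of h h1 h2 hp C2X5_454.sF) hrM hδ hδc rfl hν hn7 hu hl

/-- `k' ≥ -70/1024` -/
theorem k_low (h : SPair c W V I k c) (h1 : -5 < x) (h2 : x ≤ 3) :
    -(70 / 1024) ≤ K1 c W V k x := by
  rcases le_or_gt x (-4) with g1 | g1
  · linarith [kpos_of h h1 h2 (proA h h1 g1) C2X5_454.kA]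
  rcases le_or_gt x (-2) with g2 | g2
  · linarith [kpos_of h h1 h2 (proB h g1 g2) C2X5_454.kB]
  rcases le_or_gt x (-(1 / 4)) with g3 | g3
  · linarith [kpos_of h h1 h2 (proC h g2 g3) C2X5_454.kC]
  rcases le_or_gt x (3 / 4) with g4 | g4
  · exact klow_of h h1 h2 (proD h g3 g4) C2X5_454.kD
  rcases le_or_gt x 1 with g5 | g5
  · exact klow_of h h1 h2 (proE h g4 g5) C2X5_454.kE
  · exact klow_of h h1 h2 (proF h g5 h2) C2X5_454.kF

/-- the potential -/
theorem pot (h : SPair c W V I k c) (h1 : -5 < x) (h2 : x ≤ 3) (hδ : 0 < δ) (hδc : δ ≤ c)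
    (hn0 : 0 ≤ c + δ * ν) (hn7 : c + δ * ν ≤ 7 / 10 + δ / 1000) (hr1 : -Mm x ≤ r)
    (hr2 : r ≤ Mp x) : 1 / 100 ≤ PX c δ ν (V x) (K1 c W V k x) r := by
  have hc2 : c ≤ 435931 / 2 ^ 20 := (Enc3_848.enc h).c_hi
  have hk := k_low h h1 h2
  have hV := h.V_pos x
  have a1 := Mp_le h1 h2
  have a2 := Mm_le h1 h2
  norm_num at hc2
  have e1 : PX c δ ν (V x) (K1 c W V k x) r
      = (1 - (c + δ * ν)) / 2 + (1 + δ * r) * (K1 c W V k x + (c + δ * ν) * V x) := by
    unfold PX; ring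
  rw [e1]
  have b1 : -(55 / 100) ≤ δ * r := by nlinarith
  have b2 : δ * r ≤ 55 / 100 := by nlinarith
  have b3 : -(70 / 1024) ≤ K1 c W V k x + (c + δ * ν) * V x := by
    have := mul_nonneg hn0 hV.le
    linarith
  have b4 : -(155 / 100 * (70 / 1024)) ≤ (1 + δ * r) * (K1 c W V k x + (c + δ * ν) * V x) := by
    rcases le_total 0 (K1 c W V k x + (c + δ * ν) * V x) with hs | hs
    · have := mul_nonneg (by linarith : 0 ≤ 1 + δ * r) hs
      linarith
    · nlinarith
  linarith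

/-- **the law cells**: position label `x ∈ (-5, 3]` -/
theorem law (h : SPair c W V I k c) (h1 : -5 < x) (h2 : x ≤ 3) (hδ : 0 < δ) (hδc : δ ≤ c)
    (hν : |ν| ≤ 1001 / 1000) (hn0 : 0 ≤ c + δ * ν) (hn7 : c + δ * ν ≤ 7 / 10 + δ / 1000)
    (hr1 : -Mm x ≤ r) (hr2 : r ≤ Mp x) (hβ : |β| ≤ BX δ x r) (hε : 0 ≤ ε)
    (hpos : 0 ≤ I x / V x + δ * (k1x c W V I x * r - ε))
    (ht0 : r < 0 → -2 < x → x ≤ 1 →
      ε * (2 * (I x / V x) * (1 - δ * Mm x)) ≤ 153 / 100 * δ * r ^ 2)
    (ht1 : 0 ≤ r → x ≤ 3 / 4 → ε * (2 * (I x / V x) * (1 - V x - δ * V x * Mp x))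
      ≤ 153 / 100 * δ * r ^ 2 * (1 - V x))
    (hc0 : r < 0 → (x ≤ -2 ∨ 1 < x) → ε ≤ (I x / V x - k1x c W V I x) * (-r))
    (hc1 : 0 ≤ r → 3 / 4 < x → ε ≤ (I x / (1 - V x) + k1x c W V I x) * r) :
    1 / 100 ≤ PX c δ ν (V x) (K1 c W V k x) r ∧
    SX c δ ν (I x / V x) (W x / V x) (V x) (k x) (K1 c W V k x) (K2 c W V I k x) r
        (HX δ (I x / V x) (k1x c W V I x) r β ε)
      ≤ 7 / 5 * PX c δ ν (V x) (K1 c W V k x) r ∧
    -(23 / 20 * PX c δ ν (V x) (K1 c W V k x) r)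
      ≤ SX c δ ν (I x / V x) (W x / V x) (V x) (k x) (K1 c W V k x) (K2 c W V I k x) r
        (HX δ (I x / V x) (k1x c W V I x) r β ε) := by
  have hP := pot (ν := ν) h h1 h2 hδ hδc hn0 hn7 hr1 hr2
  have hF : Fin2 c W V I k x δ ν r (qx V I x * HX δ (I x / V x) (k1x c W V I x) r β ε) := by
    rcases lt_or_ge r 0 with hr | hr
    · exact left_side h h1 h2 hδ hδc hν hn7 hr hr1 hβ hε hpos (ht0 hr) (hc0 hr)
    · exact right_side h h1 h2 hδ hδc hν hn7 hr hr2 hβ hε hpos (ht1 hr) (hc1 hr)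
  have hq := q_pos h x
  have hqp := q_p h x
  set H := HX δ (I x / V x) (k1x c W V I x) r β ε with hH
  have eP : QP (qx V I x) (V x) (K1 c W V k x) (c + δ * ν) δ r
      = qx V I x * PX c δ ν (V x) (K1 c W V k x) r := by
    unfold QP PX; ring
  have eS : QS (qx V I x) (V x) (k x) (K1 c W V k x) (gQ c W V I k x) (gB c W V I k x)
      (c + δ * ν) ν δ r (qx V I x * H)
      = qx V I x * SX c δ ν (I x / V x) (W x / V x) (V x) (k x) (K1 c W V k x) (K2 c W V I k x) r
        H := by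
    have e3 : SX c δ ν (I x / V x) (W x / V x) (V x) (k x) (K1 c W V k x) (K2 c W V I k x) r H
      = r * (1 + δ * r / 2) * (K2 c W V I k x - K1 c W V k x * (I x / V x))
        + (H - k x * r - ν * (W x / V x) / 2) * K1 c W V k x + ν * (1 / 2 - V x) * k x
        - (c + δ * ν) * V x * r * k x + ν * V x * (I x / V x) + (c + δ * ν) * V x * H := rfl
    rw [e3]
    unfold QS gQ gB
    rw [← hqp]
    ring
  unfold Fin2 at hF
  rw [eP, eS] at hF
  obtain ⟨f1, f2⟩ := hF
  have g1 : 0 < qx V I x * (1433 / 1024 * PX c δ ν (V x) (K1 c W V k x) r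
      - SX c δ ν (I x / V x) (W x / V x) (V x) (k x) (K1 c W V k x) (K2 c W V I k x) r H) := by
    linarith
  have g2 : 0 < qx V I x * (1177 / 1024 * PX c δ ν (V x) (K1 c W V k x) r
      + SX c δ ν (I x / V x) (W x / V x) (V x) (k x) (K1 c W V k x) (K2 c W V I k x) r H) := by
    linarith
  have g3 := pos_of_mul_pos_right g1 hq.le
  have g4 := pos_of_mul_pos_right g2 hq.le
  refine ⟨hP, ?_, ?_⟩
  · linarith
  · linarith

end main

end

end Crest.Agent.R146.C2Cell_454
end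

-- ▼ part R146/C2M_454
section

/-!
# Row 146, helper454: the majorants `Mm`, `Mp` dominate helper889's windows `mm`, `mp` on `(-5, 3]`
-/

set_option autoImplicit false

namespace Crest.Agent.R146.C2M_454

open PP865 EncR_848 PP4_454

/-- same grid and same function -/
def same (k k' : ℕ) : Pc → List Pc → Pc → List Pc → Bool
  | p, [], p', [] => decide (p.c = p'.c) && decide (p.j = p'.j) &&
      decide (p.f.getD k [] = p'.f.getD k' [])
  | p, q :: ps, p', q' :: ps' => decide (p.c = p'.c) && decide (p.j = p'.j) &&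
      decide (p.f.getD k [] = p'.f.getD k' []) && same k k' q ps q' ps'
  | _, [], _, _ :: _ => false
  | _, _ :: _, _, [] => false

theorem v0_same {P k k' : ℕ} {p p' : Pc} (h1 : p.c = p'.c) (h2 : p.j = p'.j)
    (h3 : p.f.getD k [] = p'.f.getD k' []) (z : ℝ) : Pc.v0 P k p z = Pc.v0 P k' p' z := by
  unfold Pc.v0 Pc.loc
  rw [h1, h2, h3]

theorem Fn_same {P k k' : ℕ} : ∀ {p : Pc} {ps : List Pc} {p' : Pc} {ps' : List Pc},
    same k k' p ps p' ps' = true → ∀ z, Fn P k p ps z = Fn P k' p' ps' z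
  | p, [], p', [], h, z => by
    simp only [same, Bool.and_eq_true, decide_eq_true_eq] at h
    exact v0_same h.1.1 h.1.2 h.2 z
  | p, q :: ps, p', q' :: ps', h, z => by
    simp only [same, Bool.and_eq_true, decide_eq_true_eq] at h
    obtain ⟨⟨⟨h1, h2⟩, h3⟩, h4⟩ := h
    have e1 : p.hi = p'.hi := by unfold Pc.hi; rw [h1, h2]
    have e2 := Fn_same (P := P) h4 z
    show (if z ≤ p.hi then Pc.v0 P k p z else Fn P k q ps z)
      = (if z ≤ p'.hi then Pc.v0 P k' p' z else Fn P k' q' ps' z)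
    rw [e1, v0_same h1 h2 h3, e2]
  | _, [], _, _ :: _, h, _ => by simp [same] at h
  | _, _ :: _, _, [], h, _ => by simp [same] at h

def P2 : Pc := extP C2D_889.P1 C2Data_454.g0
def PS2 : List Pc := exts C2D_889.PS1 C2Data_454.gs

theorem adj2 : chain adj P2 PS2 = true := by decide +kernel
theorem len9 : lens 9 C2D_889.P1 C2D_889.PS1 = true := by decide +kernel
theorem s7 : same 7 9 C2Data_454.P1 C2Data_454.PS1 P2 PS2 = true := by decide +kernel
theorem s8 : same 8 10 C2Data_454.P1 C2Data_454.PS1 P2 PS2 = true := by decide +kernel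

theorem c1 : checkO 36 2 6 30 C2X5_454.e0 (-40) 24 (.var 31 - .var 22) P2 PS2 = true := by
  decide +kernel
theorem c2 : checkO 36 2 6 30 C2X5_454.e0 (-40) 24 (.var 28 - .var 25) P2 PS2 = true := by
  decide +kernel

theorem lo2 : P2.lo = -8 := by
  have h1 : P2.c = -63 := by decide +kernel
  have h2 : P2.j = 3 := by decide +kernel
  unfold Pc.lo
  rw [h1, h2]
  norm_num

theorem hi2 : hiL P2 PS2 = 8 := by
  rw [Enc1_848.hiL_eq]
  have h1 : (Enc1_848.lastP P2 PS2).c = 63 := by decide +kernel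
  have h2 : (Enc1_848.lastP P2 PS2).j = 3 := by decide +kernel
  unfold Pc.hi
  rw [h1, h2]
  norm_num

theorem use2 {e : Ex} (he : e.bnd 49 = true)
    (hc : checkO 36 2 6 30 C2X5_454.e0 (-40) 24 e P2 PS2 = true) {x : ℝ} (h1 : -5 < x)
    (h2 : x ≤ 3) : 0 < e.evR (cv 36 P2 PS2 x) :=
  checkO_sound he adj2 hc x (by rw [lo2]; linarith) (by rw [hi2]; linarith)
    (by norm_num; linarith) (by norm_num; linarith) _ rfl fun i _ => by simp <;> positivity

theorem mm_le {x : ℝ} (h1 : -5 < x) (h2 : x ≤ 3) : C2D_889.mm x ≤ C2Prof_454.Mm x := by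
  have := use2 rfl c1 h1 h2
  simp only [Ex.evR_sub, Ex.evR_var] at this
  have e1 : cv 36 P2 PS2 x 31 = C2Prof_454.Mm x := (Fn_same s8 x).symm
  have e2 : cv 36 P2 PS2 x 22 = C2D_889.mm x :=
    congrFun (Fn_exts (by norm_num) len9 _ _ : Fn 36 7 P2 PS2 = Fn 36 7 C2D_889.P1 C2D_889.PS1) x
  rw [e1, e2] at this
  linarith

theorem mp_le {x : ℝ} (h1 : -5 < x) (h2 : x ≤ 3) : C2D_889.mp x ≤ C2Prof_454.Mp x := by
  have := use2 rfl c2 h1 h2
  simp only [Ex.evR_sub, Ex.evR_var] at this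
  have e1 : cv 36 P2 PS2 x 28 = C2Prof_454.Mp x := (Fn_same s7 x).symm
  have e2 : cv 36 P2 PS2 x 25 = C2D_889.mp x :=
    congrFun (Fn_exts (by norm_num) len9 _ _ : Fn 36 8 P2 PS2 = Fn 36 8 C2D_889.P1 C2D_889.PS1) x
  rw [e1, e2] at this
  linarith

end Crest.Agent.R146.C2M_454
private theorem rz_eb6034376b : type_of% @_root_.Crest.Agent.R146.C2M_454.same.eq_def := @_root_.Crest.Agent.R146.C2M_454.same.eq_def -- L15
private theorem rz_fc320ae3f1 : type_of% @_root_.Crest.Agent.R146.C2M_454.same.eq_1 := @_root_.Crest.Agent.R146.C2M_454.same.eq_1 -- L15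
end

-- ▼ part R146/C2Mid_454
section

/-!
# Row 146, helper454: the C2 fields for positions with label `z ∈ (-5, 3]`

`mid` : window of the level (`V z (1 - δ mm z) ≤ V x ≤ V z (1 + δ mp z)`) and `b x + 2/1000 ≤ BX δ z r`
imply the three inequalities of `PtNum_846.C2` at `(x, z)`.
-/

set_option autoImplicit false
set_option linter.unusedVariables false

namespace Crest.Agent.R146.C2Mid_454

open Set
open Crest.Agent.R146.SPair_307 Crest.Agent.R146.RefX_355 Crest.Agent.R146.RefWS_355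
open Crest.Agent.R146.C2R_889 Crest.Agent.R146.C2Prof_454 Crest.Agent.R146.C2Env_454
open Crest.Agent.R146.YW_177 (LStat)
open Crest.Agent.R146.PtRef_846 (PotR)
open Crest.Agent.R146.C1D_445 (b b1)

noncomputable section

variable {c : ℝ} {W V I k : ℝ → ℝ}

/-- bounds of `ν = (y - c)/δ` at the two ends of `n` -/
theorem nu_bd (hc0 : 0 < c) (hc7 : c ≤ 7 / 10) {δ y : ℝ} (hδ : 0 < δ) (hδc : δ ≤ c)
    (hy : y = nl c δ (δ / 1000) ∨ y = nu c δ (δ / 1000)) :
    |(y - c) / δ| ≤ 1001 / 1000 ∧ 0 ≤ y ∧ y ≤ 7 / 10 + δ / 1000 := by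
  have key : c - δ - δ / 1000 ≤ y ∧ y ≤ c + δ + δ / 1000 ∧ 0 ≤ y ∧ y ≤ 7 / 10 + δ / 1000 := by
    rcases hy with rfl | rfl
    · unfold nl
      refine ⟨le_max_right _ _, max_le (by linarith) (by linarith), le_max_left _ _,
        max_le (by linarith) (by linarith)⟩
    · unfold nu
      have a1 : c ≤ min (7 / 10) (c + δ) := le_min hc7 (by linarith)
      have a2 := min_le_left (7 / 10 : ℝ) (c + δ)
      have a3 := min_le_right (7 / 10 : ℝ) (c + δ)
      exact ⟨by linarith, by linarith, by linarith, by linarith⟩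
  obtain ⟨k1, k2, k3, k4⟩ := key
  refine ⟨?_, k3, k4⟩
  rw [abs_le]
  constructor
  · rw [le_div_iff₀ hδ]; linarith
  · rw [div_le_iff₀ hδ]; linarith

/-- bound of `β = (j - 1)/δ` at the two ends of `j` -/
theorem beta_bd {δ j x : ℝ} (hδ : 0 < δ) (hδ1 : δ ≤ 1 / 2)
    (hj : j = (1 - δ / 1000) * (1 - δ * b x) ∨ j = (1 + δ / 1000) * (1 + δ * b x)) :
    |(j - 1) / δ| ≤ b x + 2 / 1000 := by
  obtain ⟨b0, b5⟩ := PtNumRef_846.b_bd x
  have hb : 0 ≤ δ * b x := (mul_pos hδ b0).le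
  have hb2 : δ * b x ≤ 5 / 8 := by nlinarith
  rcases hj with rfl | rfl
  · have e : ((1 - δ / 1000) * (1 - δ * b x) - 1) / δ = -(b x + 1 / 1000 - δ * b x / 1000) := by
      field_simp
      ring
    rw [e, abs_neg, abs_of_nonneg (by linarith)]
    linarith
  · have e : ((1 + δ / 1000) * (1 + δ * b x) - 1) / δ = b x + 1 / 1000 + δ * b x / 1000 := by
      field_simp
      ring
    rw [e, abs_of_nonneg (by linarith)]
    linarith

theorem mid (h : SPair c W V I k c) {δ : ℝ} (hδ : 0 < δ) (hδc : δ ≤ c) {x z : ℝ} (hz1 : -5 < z)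
    (hz2 : z ≤ 3) (hw1 : V z * (1 - δ * C2D_889.mm z) ≤ V x)
    (hw2 : V x ≤ V z * (1 + δ * C2D_889.mp z))
    (hb : b x + 2 / 1000 ≤ BX δ z ((V x / V z - 1) / δ)) {y j : ℝ}
    (hy : y = nl c δ (δ / 1000) ∨ y = nu c δ (δ / 1000))
    (hj : j = (1 - δ / 1000) * (1 - δ * b x) ∨ j = (1 + δ / 1000) * (1 + δ * b x)) :
    1 / 100 ≤ PotR y (V x) (L1 c W V k z) ∧
    LStat 1 y (V x) (j * I x) (W z) (k z) (L1 c W V k z) (L2 c W V I k z)
      ≤ δ * (7 / 5) * PotR y (V x) (L1 c W V k z) ∧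
    -(δ * (23 / 20) * PotR y (V x) (L1 c W V k z))
      ≤ LStat 1 y (V x) (j * I x) (W z) (k z) (L1 c W V k z) (L2 c W V I k z) := by
  have hc1 : 435929 / 2 ^ 20 ≤ c := (Enc3_848.enc h).c_lo
  have hc2 : c ≤ 435931 / 2 ^ 20 := (Enc3_848.enc h).c_hi
  have hc0 := h.c_pos
  have hVz := h.V_pos z
  have hVz1 := h.V_lt z
  have hIz := h.I_pos z
  have hJ0 : ∀ x, 0 ≤ Jx c W V I x := fun x => (J_791.Jx_pos h x).le
  have hJ2 : ∀ x, Jx c W V I x ≤ 153 / 100 := J_791.Jx_le h
  obtain ⟨hν, hn0, hn7⟩ := nu_bd hc0 (by norm_num at hc2; linarith) hδ hδc hy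
  have hβ := beta_bd hδ (by norm_num at hc2; linarith) hj
  set r := (V x / V z - 1) / δ with hr
  set ν := (y - c) / δ with hνd
  set β := (j - 1) / δ with hβd
  set ε := gap c δ W V I z x with hε
  have er : V x = V z * (1 + δ * r) := by
    rw [hr]; field_simp; ring
  have ey : y = c + δ * ν := by
    rw [hνd]; field_simp; ring
  have ej : j = 1 + δ * β := by
    rw [hβd]; field_simp; ring
  have eI := gap_eq h hδ er
  have hr1 : -Mm z ≤ r := by
    have h1 := C2M_454.mm_le hz1 hz2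
    rw [er] at hw1
    have h2 : 1 - δ * C2D_889.mm z ≤ 1 + δ * r := le_of_mul_le_mul_left hw1 hVz
    have h3 : 0 ≤ δ * (r + C2D_889.mm z) := by linarith
    have h4 := nonneg_of_mul_nonneg_right h3 hδ
    linarith
  have hr2 : r ≤ Mp z := by
    have h1 := C2M_454.mp_le hz1 hz2
    rw [er] at hw2
    have h2 : 1 + δ * r ≤ 1 + δ * C2D_889.mp z := le_of_mul_le_mul_left hw2 hVz
    have h3 : 0 ≤ δ * (C2D_889.mp z - r) := by linarith
    have h4 := nonneg_of_mul_nonneg_right h3 hδ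
    linarith
  have hε0 : 0 ≤ ε := gap_nonneg h hJ0 hδ
  have hpos : 0 ≤ I z / V z + δ * (k1x c W V I z * r - ε) := by
    have h1 : V z * (I z / V z + δ * (k1x c W V I z * r - ε)) = I x := eI.symm
    have h2 : 0 < V z * (I z / V z + δ * (k1x c W V I z * r - ε)) := by
      rw [h1]; exact h.I_pos x
    exact (pos_of_mul_pos_right h2 hVz.le).le
  have hlt : r < 0 → x ≤ z := by
    intro h1
    refine (h.V_strictMono.le_iff_le).1 ?_
    rw [er]
    nlinarith [mul_pos hVz hδ]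
  have hge : 0 ≤ r → z ≤ x := by
    intro h1
    refine (h.V_strictMono.le_iff_le).1 ?_
    rw [er]
    have := mul_nonneg hδ.le h1
    nlinarith
  have hMm := Mm_le hz1 hz2
  have key := C2Cell_454.law (x := z) (δ := δ) (ν := ν) (r := r) (β := β) (ε := ε) h hz1 hz2 hδ hδc
    hν (by rw [← ey]; exact hn0) (by rw [← ey]; exact hn7) hr1 hr2 (hβ.trans hb) hε0 hpos
    (fun h1 _ _ => gap_taylor_left h hJ0 hJ2 hδ (hlt h1) er hr1 (by
      norm_num at hc2
      nlinarith))
    (fun h1 _ => gap_taylor_right h hJ0 hJ2 hδ (hge h1) er hr2)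
    (fun h1 _ => gap_chord_left h hJ0 hδ (hlt h1) er)
    (fun h1 _ => gap_chord_right h hJ0 hδ (hge h1) er)
  obtain ⟨k1, k2, k3⟩ := key
  have ejI : j * I x = V z * (I z / V z + δ * HX δ (I z / V z) (k1x c W V I z) r β ε) := by
    rw [eI, ej]
    unfold HX
    ring
  have eL : LStat 1 y (V x) (j * I x) (W z) (k z) (L1 c W V k z) (L2 c W V I k z)
      = δ * SX c δ ν (I z / V z) (W z / V z) (V z) (k z) (YWRef_177.k1 c W V k c z)
        (YWRef_177.k2 c W V I k c z) r (HX δ (I z / V z) (k1x c W V I z) r β ε) := by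
    rw [← lstat_SX h z δ ν r (HX δ (I z / V z) (k1x c W V I z) r β ε), ← ejI, ← er, ← ey]
    rfl
  have eP : PotR y (V x) (L1 c W V k z) = PX c δ ν (V z) (YWRef_177.k1 c W V k c z) r := by
    rw [← pot_PX h z δ ν r (YWRef_177.k1 c W V k c z), ← er, ← ey]
    rfl
  rw [eL, eP]
  refine ⟨k1, ?_, ?_⟩
  · have := mul_le_mul_of_nonneg_left k2 hδ.le
    linarith
  · have := mul_le_mul_of_nonneg_left k3 hδ.le
    linarith

/-- same with the two signs of `r` separated: `BX δ z 0` (level right of the position), `BX δ z (-1)` -/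
theorem mid2 (h : SPair c W V I k c) {δ : ℝ} (hδ : 0 < δ) (hδc : δ ≤ c) {x z : ℝ} (hz1 : -5 < z)
    (hz2 : z ≤ 3) (hw1 : V z * (1 - δ * C2D_889.mm z) ≤ V x)
    (hw2 : V x ≤ V z * (1 + δ * C2D_889.mp z))
    (hb1 : z ≤ x → b x + 2 / 1000 ≤ BX δ z 0) (hb2 : x < z → b x + 2 / 1000 ≤ BX δ z (-1))
    {y j : ℝ} (hy : y = nl c δ (δ / 1000) ∨ y = nu c δ (δ / 1000))
    (hj : j = (1 - δ / 1000) * (1 - δ * b x) ∨ j = (1 + δ / 1000) * (1 + δ * b x)) :
    1 / 100 ≤ PotR y (V x) (L1 c W V k z) ∧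
    LStat 1 y (V x) (j * I x) (W z) (k z) (L1 c W V k z) (L2 c W V I k z)
      ≤ δ * (7 / 5) * PotR y (V x) (L1 c W V k z) ∧
    -(δ * (23 / 20) * PotR y (V x) (L1 c W V k z))
      ≤ LStat 1 y (V x) (j * I x) (W z) (k z) (L1 c W V k z) (L2 c W V I k z) := by
  refine mid h hδ hδc hz1 hz2 hw1 hw2 ?_ hy hj
  have hVz := h.V_pos z
  rcases le_or_gt z x with hzx | hzx
  · have h1 : V z ≤ V x := h.V_strictMono.monotone hzx
    have h2 : 0 ≤ (V x / V z - 1) / δ := by
      refine div_nonneg ?_ hδ.le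
      rw [sub_nonneg, le_div_iff₀ hVz]
      linarith
    refine (hb1 hzx).trans (le_of_eq ?_)
    unfold BX
    simp only [le_refl, if_true, h2]
  · have h1 : V x < V z := h.V_strictMono hzx
    have h2 : ¬ 0 ≤ (V x / V z - 1) / δ := by
      rw [not_le]
      refine div_neg_of_neg_of_pos ?_ hδ
      rw [sub_neg, div_lt_one hVz]
      exact h1
    have h3 : ¬ (0 : ℝ) ≤ -1 := by norm_num
    refine (hb2 hzx).trans (le_of_eq ?_)
    unfold BX
    simp only [h2, h3, if_false]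

end

end Crest.Agent.R146.C2Mid_454
end

-- ▼ part R146/C2Asm_454
section

/-!
# Row 146, helper454: assembly of `PtNum_846.C2`

`c2_of` : windows on the whole line + two point bounds of the slope shape + tails ⇒ `C2`.
-/

set_option autoImplicit false

namespace Crest.Agent.R146.C2Asm_454

open Set
open Crest.Agent.R146.SPair_307 Crest.Agent.R146.RefX_355 Crest.Agent.R146.RefWS_355
open Crest.Agent.R146.C2R_889 Crest.Agent.R146.C2Prof_454 Crest.Agent.R146.C2Env_454
open Crest.Agent.R146.PtNum_846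
open Crest.Agent.R146.C2S_889 (mpF mmF Ek)
open Crest.Agent.R146.YW_177 (LStat)
open Crest.Agent.R146.PtRef_846 (PotR)
open Crest.Agent.R146.C1D_445 (b b1)

noncomputable section

/-- the level window at the position label `z` -/
def Wd (δ : ℝ) (V : ℝ → ℝ) (x z : ℝ) : Prop :=
  V z * (1 - δ * mmF z) ≤ V x ∧ V x ≤ V z * (1 + δ * mpF z)

/-- the three inequalities of `C2` at one point -/
def Th (c δ : ℝ) (W V I k : ℝ → ℝ) (x z y j : ℝ) : Prop :=
  1 / 100 ≤ PotR y (V x) (L1 c W V k z) ∧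
    LStat 1 y (V x) (j * I x) (W z) (k z) (L1 c W V k z) (L2 c W V I k z)
      ≤ δ * (7 / 5) * PotR y (V x) (L1 c W V k z) ∧
    -(δ * (23 / 20) * PotR y (V x) (L1 c W V k z))
      ≤ LStat 1 y (V x) (j * I x) (W z) (k z) (L1 c W V k z) (L2 c W V I k z)

/-- bounds of the shape over the window -/
structure Bd (δ : ℝ) (V : ℝ → ℝ) (x z : ℝ) : Prop where
  emL : z ≤ -1 / 4 → x ≤ z → b x + 2 / 1000 ≤ b z - 3 / 5 * δ * b1 z + δ ^ 2 / 10 + 2 / 1000
  epL : z ≤ -1 / 4 → z ≤ x → b x ≤ b z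
  eR : -1 / 4 < z → b x + 2 / 1000 ≤ Ek z
  eR' : 3 / 4 < z → b x + 2 / 1000 ≤ 472 / 1000

theorem Ek_le {δ x z r : ℝ} (hz : -1 / 4 < z) (h1 : b x + 2 / 1000 ≤ Ek z)
    (h2 : 3 / 4 < z → b x + 2 / 1000 ≤ 472 / 1000) : b x + 2 / 1000 ≤ BX δ z r := by
  have h0 : ¬ z ≤ -(1 / 4) := by linarith
  unfold BX
  rw [if_neg h0]
  unfold Ek at h1
  split_ifs at h1 ⊢ with a1 a2 a3 a4
  · exact h1.trans (by norm_num)
  · exact h1.trans (by norm_num)
  · exact h1.trans (by norm_num)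
  · exact h1.trans (by norm_num)
  · exact h2 (not_le.1 a4)

theorem mid_of {c : ℝ} {W V I k : ℝ → ℝ} (h : SPair c W V I k c) {δ : ℝ} (hδ : 0 < δ)
    (hδc : δ ≤ c) {x z : ℝ} (hz1 : -5 < z) (hz2 : z ≤ 3) (hw : Wd δ V x z) (hb : Bd δ V x z)
    {y j : ℝ} (hy : y = nl c δ (δ / 1000) ∨ y = nu c δ (δ / 1000))
    (hj : j = (1 - δ / 1000) * (1 - δ * b x) ∨ j = (1 + δ / 1000) * (1 + δ * b x)) :
    Th c δ W V I k x z y j := by
  obtain ⟨w1, w2⟩ := hw
  have e1 : mmF z = C2D_889.mm z := if_pos hz2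
  have e2 : mpF z = C2D_889.mp z := if_pos hz2
  rw [e1] at w1
  rw [e2] at w2
  refine C2Mid_454.mid2 h hδ hδc hz1 hz2 w1 w2 ?_ ?_ hy hj
  · intro hzx
    rcases le_or_gt z (-1 / 4) with g | g
    · have := hb.epL g hzx
      unfold BX
      rw [if_pos (by linarith), if_pos le_rfl]
      linarith
    · exact Ek_le g (hb.eR g) hb.eR'
  · intro hxz
    rcases le_or_gt z (-1 / 4) with g | g
    · have := hb.emL g hxz.le
      unfold BX
      rw [if_pos (by linarith), if_neg (by norm_num)]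
      exact this
    · exact Ek_le g (hb.eR g) hb.eR'

theorem c2_of
    (win : ∀ (c : ℝ) (W V I k : ℝ → ℝ), SPair c W V I k c → ∀ δ, 0 < δ → δ ≤ c → ∀ x z,
      Pos δ W V x z → Wd δ V x z)
    (bd : ∀ (c : ℝ) (W V I k : ℝ → ℝ), SPair c W V I k c → ∀ δ, 0 < δ → δ ≤ c → ∀ x z,
      -5 < z → z ≤ 3 → Wd δ V x z → Bd δ V x z)
    (tails : ∀ (c : ℝ) (W V I k : ℝ → ℝ), SPair c W V I k c → ∀ δ, 0 < δ → δ ≤ c → ∀ x z,
      (z ≤ -5 ∨ 3 < z) → Wd δ V x z → ∀ y j,
      (y = nl c δ (δ / 1000) ∨ y = nu c δ (δ / 1000)) →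
      (j = (1 - δ / 1000) * (1 - δ * b x) ∨ j = (1 + δ / 1000) * (1 + δ * b x)) →
      Th c δ W V I k x z y j) : C2 := by
  have key : ∀ (c : ℝ) (W V I k : ℝ → ℝ), SPair c W V I k c → ∀ δ, 0 < δ → δ ≤ c → ∀ x z,
      Pos δ W V x z → ∀ y j, (y = nl c δ (δ / 1000) ∨ y = nu c δ (δ / 1000)) →
      (j = (1 - δ / 1000) * (1 - δ * b x) ∨ j = (1 + δ / 1000) * (1 + δ * b x)) →
      Th c δ W V I k x z y j := by
    intro c W V I k h δ hδ hδc x z hp y j hy hj
    have hw := win c W V I k h δ hδ hδc x z hp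
    rcases le_or_gt z (-5) with g | g
    · exact tails c W V I k h δ hδ hδc x z (Or.inl g) hw y j hy hj
    rcases le_or_gt z 3 with g' | g'
    · exact mid_of h hδ hδc g g' hw (bd c W V I k h δ hδ hδc x z g g' hw) hy hj
    · exact tails c W V I k h δ hδ hδc x z (Or.inr g') hw y j hy hj
  refine ⟨?_, ?_, ?_⟩
  · intro c W V I k h δ hδ hδc x z hp y j hy hj
    exact (key c W V I k h δ hδ hδc x z hp y j hy hj).2.1
  · intro c W V I k h δ hδ hδc x z hp y j hy hj
    exact (key c W V I k h δ hδ hδc x z hp y j hy hj).2.2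
  · intro c W V I k h δ hδ hδc x z hp y hy
    exact (key c W V I k h δ hδ hδc x z hp y _ hy (Or.inl rfl)).1

end

end Crest.Agent.R146.C2Asm_454
end

-- ▼ part R146/C2Fin_454
section

/-!
# Row 146, helper454: `PtNum_846.C2` from the two point bounds of the slope shape

`c2_of3` : `C2` from the four two point bounds (`C2Y_924`, `C2Z_649`).
-/

set_option autoImplicit false

namespace Crest.Agent.R146.C2Fin_454

open Set
open Crest.Agent.R146.SPair_307 Crest.Agent.R146.RefX_355 Crest.Agent.R146.RefWS_355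
open Crest.Agent.R146.PtNum_846 Crest.Agent.R146.C2Asm_454
open Crest.Agent.R146.C2S_889 (mpF mmF Ek Ep Em sg)
open Crest.Agent.R146.C1D_445 (b b1)

theorem c2_of3
    (yp : ∀ (c : ℝ) (W V I k : ℝ → ℝ), SPair c W V I k c → ∀ δ, 0 < δ → δ ≤ c → ∀ x y,
      x ≤ -1 / 4 → x ≤ y → V y ≤ V x * (1 + δ * mpF x) → b y + 2 / 1000 ≤ Ep x ∧ b y ≤ b x)
    (ym : ∀ (c : ℝ) (W V I k : ℝ → ℝ), SPair c W V I k c → ∀ δ, 0 < δ → δ ≤ c → ∀ x y,
      x ≤ -1 / 4 → y ≤ x → V x * (1 - δ * mmF x) ≤ V y → b y + 2 / 1000 ≤ Em x ∧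
        b y + 2 / 1000 ≤ b x - 3 / 5 * δ * b1 x + δ ^ 2 / 10 + 2 / 1000)
    (zp : ∀ (c : ℝ) (W V I k : ℝ → ℝ), SPair c W V I k c → ∀ δ, 0 < δ → δ ≤ c → ∀ x y,
      -1 / 4 < x → x ≤ y → V y ≤ V x * (1 + δ * mpF x) → b y + 2 / 1000 ≤ Ek x ∧
        (3 / 4 < x → b y + 2 / 1000 ≤ 472 / 1000))
    (zm : ∀ (c : ℝ) (W V I k : ℝ → ℝ), SPair c W V I k c → ∀ δ, 0 < δ → δ ≤ c → ∀ x y,
      -1 / 4 < x → y ≤ x → V x * (1 - δ * mmF x) ≤ V y → b y + 2 / 1000 ≤ Ek x ∧
        (3 / 4 < x → b y + 2 / 1000 ≤ 472 / 1000)) : C2 := by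
  refine c2_of ?_ ?_ fun c W V I k h δ hδ hδc x z hz hw y j hy hj =>
    C2Q_490.tails c W V I k h δ hδ hδc x z hz hw y j hy hj
  · intro c W V I k h δ hδ hδc x z hp
    have hEp : ∀ x y, x ≤ y → V y ≤ V x * (1 + δ * mpF x) → b y + 2 / 1000 ≤ Ep x := by
      intro x y hxy hV
      rcases le_or_gt x (-1 / 4) with hx | hx
      · exact (yp c W V I k h δ hδ hδc x y hx hxy hV).1
      · have := (zp c W V I k h δ hδ hδc x y hx hxy hV).1
        unfold Ep
        rw [if_neg (not_le.2 hx)]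
        exact this
    have hEm : ∀ x y, y ≤ x → V x * (1 - δ * mmF x) ≤ V y → b y + 2 / 1000 ≤ Em x := by
      intro x y hxy hV
      rcases le_or_gt x (-1 / 4) with hx | hx
      · exact (ym c W V I k h δ hδ hδc x y hx hxy hV).1
      · have := (zm c W V I k h δ hδ hδc x y hx hxy hV).1
        unfold Em
        rw [if_neg (by linarith), if_neg (not_le.2 hx)]
        exact this
    exact ⟨C2V_889.lower h hδ hδc (fun x hx => C2P_490.L_right h hδ hδc hx)
        (fun x hx => ⟨C2X_865.X2 x, C2X_865.T_X2 h hx, C2X_865.V_X2 h hx⟩) hEm hp.2,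
      C2V_889.upper h hδ hδc (fun x hx => C2P_490.U_right h hδ hδc hx) hEp hp.1⟩
  · intro c W V I k h δ hδ hδc x z _ _ hw
    refine ⟨?_, ?_, ?_, ?_⟩
    · intro hz hxz
      exact (ym c W V I k h δ hδ hδc z x hz hxz hw.1).2
    · intro hz hzx
      exact (yp c W V I k h δ hδ hδc z x hz hzx hw.2).2
    · intro hz
      rcases le_total x z with g | g
      · exact (zm c W V I k h δ hδ hδc z x hz g hw.1).1
      · exact (zp c W V I k h δ hδ hδc z x hz g hw.2).1
    · intro hz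
      rcases le_total x z with g | g
      · exact (zm c W V I k h δ hδ hδc z x (by linarith) g hw.1).2 hz
      · exact (zp c W V I k h δ hδ hδc z x (by linarith) g hw.2).2 hz

end Crest.Agent.R146.C2Fin_454
end

-- ▼ part R146/C2Ym_889
section

/-!
# Row 146, helper889: the shape `b` over the windows, position `x ≤ -1/4` (`yp`, `ym` of `C2Fin_454`)
-/

set_option autoImplicit false
set_option linter.style.longLine false

namespace Crest.Agent.R146.C2Ym_889

open Set Filter Topology PP865 EncR_848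
open Crest.Agent.R146.SPair_307 Crest.Agent.R146.RefX_355 Crest.Agent.R146.QEnc_865
open Crest.Agent.R146.C2D_889 Crest.Agent.R146.C2S_889 Crest.Agent.R146.C2T_889
open Crest.Agent.R146.C1D_445 (b b1 b2 hb hb1)
open Crest.Agent.R146.PP4_454

/-! ### the first non constant piece -/

theorem sel_at {g : Pc → ℝ → ℝ} {a b : ℤ} {Q : Pc → Bool} {R : ℝ → ℝ → Prop}
    (hQ : ∀ (p : Pc) (z : ℝ), Q p = true → p.lo < z → z ≤ p.hi → R z (g p z)) :
    ∀ (p : Pc) (ps : List Pc), chain adj p ps = true →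
    ((p :: ps).all fun q => !(inO a b q) || Q q) = true → ∀ z, p.lo < z → z ≤ hiL p ps →
      (a : ℝ) / 8 < z → z ≤ (b : ℝ) / 8 → R z (sel g p ps z)
  | p, [], _, h, z, h1, h2, ha, hb => by
    simp only [List.all_cons, List.all_nil, Bool.and_true, Bool.or_eq_true, Bool.not_eq_true'] at h
    have h3 := inO_of (q := p) h1 h2 ha hb
    rcases h with h | h
    · rw [h3] at h; exact absurd h (by decide)
    · exact hQ p z h h1 h2
  | p, q :: ps, hch, h, z, h1, h2, ha, hb => by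
    by_cases hz : z ≤ p.hi
    · rw [sel_of_le hz]
      rw [List.all_cons, Bool.and_eq_true] at h
      have h3 := inO_of (q := p) h1 hz ha hb
      have h4 := h.1
      simp only [Bool.or_eq_true, Bool.not_eq_true'] at h4
      rcases h4 with h4 | h4
      · rw [h3] at h4; exact absurd h4 (by decide)
      · exact hQ p z h4 h1 hz
    · simp only [chain, Bool.and_eq_true] at hch
      rw [List.all_cons, Bool.and_eq_true] at h
      have e : sel g p (q :: ps) z = sel g q ps z := by simp [sel, hz]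
      rw [e]
      have hq : q.lo < z := by
        rw [← adj_sound hch.1]
        exact not_le.1 hz
      exact sel_at hQ q ps hch.2 h.2 z hq h2 ha hb

def Q8 (q : Pc) : Bool :=
  decide (q.c = -47) && decide (q.j = 3) &&
    decide (q.f.getD 6 [] = [82443501568, -55836672, -55836672, -18612224])

theorem q8 : ((P1 :: PS1).all fun q => !(inO (-48) (-46) q) || Q8 q) = true := by decide +kernel

theorem b1_8 {x : ℝ} (h1 : -6 < x) (h2 : x ≤ -23 / 4) : b1 x ≤ 0 := by
  rw [b1_eq]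
  refine sel_at (g := fun p z => p.v1 36 6 z) (R := fun _ v => v ≤ 0) (Q := Q8) ?_ P1 PS1 adj_PS1 q8 x
    (by rw [lo8]; linarith) (by rw [hi8]; linarith) (by push_cast; linarith)
    (by push_cast; linarith)
  intro p z hQ _ _
  simp only [Q8, Bool.and_eq_true, decide_eq_true_eq] at hQ
  obtain ⟨⟨hc, hj⟩, hf⟩ := hQ
  unfold Pc.v1
  rw [hf, hj]
  generalize p.loc z = t
  have e : PP865.ev (pder [82443501568, -55836672, -55836672, -18612224]) t
      = -55836672 * (t + 1) ^ 2 := by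
    simp [pder, pderAux, PP865.ev]
    ring
  rw [e]
  have : 0 ≤ (t + 1) ^ 2 := sq_nonneg _
  apply div_nonpos_of_nonpos_of_nonneg _ (by positivity)
  nlinarith

theorem cb1 : checkBO 4 8 40 (err 570) (-46) 0 prm (-(Ex.var 20)) = true := by decide +kernel
theorem cb2 : checkBO 4 8 40 (err 570) (-48) (-12) prm (Ex.cst 19 10 - Ex.var 21) = true := by
  decide +kernel
theorem cb3 : checkBO 4 8 40 (err 570) (-48) (-2) prm (Ex.cst 3 3 - Ex.var 21) = true := by
  decide +kernel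
theorem cV0 : checkBO 4 8 40 (err 570) (-48) (-2) prm
    (Ex.cst 460 10 - Ex.var 2 * (Ex.cst 1 0 + Ex.var 28 * Ex.var 25)) = true := by decide +kernel
theorem cV1 : checkBO 4 8 40 (err 570) (-2) 0 prm
    (Ex.var 2 - Ex.cst 1 1 * Ex.var 0 - Ex.cst 460 10) = true := by decide +kernel
theorem cV2 : checkBO 4 8 40 (err 570) (-10) (-8) prm
    (Ex.cst 1 2 - Ex.var 2) = true := by decide +kernel

theorem rdb {e : Ex} {A B : ℤ} (he : checkBO 4 8 40 (err 570) A B prm e = true)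
    (hb : e.bnd 27 = true) (hv : verts prm e = [e, e, e, e]) {x : ℝ} (h1 : -8 < x) (h2 : x ≤ 8)
    (h3 : (A : ℝ) / 8 < x) (h4 : x ≤ (B : ℝ) / 8) : 0 < e.evR (cv 36 P1 PS1 x) := by
  simp only [checkBO, Bool.and_eq_true, List.all_eq_true] at he
  have k := (he.2 e (by rw [hv]; simp)).2
  refine checkO_sound hb adj_PS1 k x (by rw [lo8]; exact h1) (by rw [hi8]; exact h2)
    h3 h4 _ rfl ?_
  intro i _
  rw [sub_self, abs_zero]
  positivity

theorem b1_nonpos {x : ℝ} (hx : x ≤ 0) : b1 x ≤ 0 := by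
  rcases le_or_gt x (-6) with g | g
  · rw [C1D_445.b1_left g]
  rcases le_or_gt x (-23 / 4) with g2 | g2
  · exact b1_8 g g2
  · have := rdb cb1 rfl rfl (x := x) (by linarith) (by linarith) (by push_cast; linarith)
      (by push_cast; linarith)
    simp only [Ex.evR_neg, Ex.evR_var] at this
    have e : cv 36 P1 PS1 x 20 = b1 x := (congrFun b1_eq x).symm
    rw [e] at this
    linarith

theorem b2_le1 {x : ℝ} (hx : x ≤ -3 / 2) : b2 x ≤ 19 / 1024 := by
  rcases le_or_gt x (-6) with g | g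
  · rw [C1D_445.b2_left g]; norm_num
  · have := rdb cb2 rfl rfl (x := x) (by linarith) (by linarith) (by push_cast; linarith)
      (by push_cast; linarith)
    simp only [Ex.evR_sub, Ex.evR_cst, Ex.evR_var] at this
    have e : cv 36 P1 PS1 x 21 = b2 x := (congrFun b2_eq x).symm
    rw [e] at this
    norm_num at this ⊢
    linarith

theorem b2_le2 {x : ℝ} (hx : x ≤ -1 / 4) : b2 x ≤ 3 / 8 := by
  rcases le_or_gt x (-6) with g | g
  · rw [C1D_445.b2_left g]; norm_num
  · have := rdb cb3 rfl rfl (x := x) (by linarith) (by linarith) (by push_cast; linarith)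
      (by push_cast; linarith)
    simp only [Ex.evR_sub, Ex.evR_cst, Ex.evR_var] at this
    have e : cv 36 P1 PS1 x 21 = b2 x := (congrFun b2_eq x).symm
    rw [e] at this
    norm_num at this ⊢
    linarith

theorem b_anti {x y : ℝ} (hxy : x ≤ y) (hy : y ≤ 0) : b y ≤ b x := by
  have : AntitoneOn b (Iic 0) := by
    apply antitoneOn_of_deriv_nonpos (convex_Iic 0)
    · exact fun t _ => (hb t).continuousAt.continuousWithinAt
    · exact fun t _ => (hb t).differentiableAt.differentiableWithinAt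
    · intro t ht
      rw [interior_Iic] at ht
      rw [(hb t).deriv]
      exact b1_nonpos (le_of_lt ht)
  exact this (mem_Iic.2 (hxy.trans hy)) (mem_Iic.2 hy) hxy

/-- Taylor -/
theorem b_taylor {D x y : ℝ} (hD : ∀ t ≤ x, b2 t ≤ D) (hyx : y ≤ x) :
    b y ≤ b x + b1 x * (y - x) + D / 2 * (y - x) ^ 2 := by
  have h1 : ∀ t ≤ x, b1 x + D * (t - x) ≤ b1 t := by
    intro t ht
    have hm : MonotoneOn (fun t => D * t - b1 t) (Iic x) := by
      have hd : ∀ t, HasDerivAt (fun t => D * t - b1 t) (D - b2 t) t := fun t => by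
        have := ((hasDerivAt_id' t).const_mul D).sub (hb1 t)
        rw [mul_one] at this
        exact this
      apply monotoneOn_of_deriv_nonneg (convex_Iic x)
      · exact fun t _ => (hd t).continuousAt.continuousWithinAt
      · exact fun t _ => (hd t).differentiableAt.differentiableWithinAt
      · intro s hs
        rw [interior_Iic] at hs
        rw [(hd s).deriv]
        linarith [hD s (le_of_lt hs)]
    have := hm (mem_Iic.2 ht) (mem_Iic.2 le_rfl) ht
    simp only at this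
    linarith
  have hm : AntitoneOn (fun t => b1 x * (t - x) + D / 2 * (t - x) ^ 2 - b t) (Iic x) := by
    have hd : ∀ t, HasDerivAt (fun t => b1 x * (t - x) + D / 2 * (t - x) ^ 2 - b t)
        (b1 x + D * (t - x) - b1 t) t := fun t => by
      have k1 := ((hasDerivAt_id' t).sub_const x)
      have := ((k1.const_mul (b1 x)).add ((k1.pow 2).const_mul (D / 2))).sub (hb t)
      refine this.congr_deriv ?_
      simp only [Nat.cast_ofNat]
      ring
    apply antitoneOn_of_deriv_nonpos (convex_Iic x)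
    · exact fun t _ => (hd t).continuousAt.continuousWithinAt
    · exact fun t _ => (hd t).differentiableAt.differentiableWithinAt
    · intro s hs
      rw [interior_Iic] at hs
      rw [(hd s).deriv]
      linarith [h1 s (le_of_lt hs)]
  have := hm (mem_Iic.2 hyx) (mem_Iic.2 le_rfl) hyx
  simp only [sub_self] at this
  norm_num at this
  linarith

section
variable {c : ℝ} {W V I k : ℝ → ℝ}

theorem V_top_lt (h : SPair c W V I k c) {δ : ℝ} (hδ : 0 < δ) (hδc : δ ≤ c) {x : ℝ}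
    (hx : x ≤ -1 / 4) : V x * (1 + δ * mpF x) < V 0 := by
  have hV0 : (460 : ℝ) / 1024 < V 0 := by
    have Q := hq h (x := 0) (by norm_num) (by norm_num)
    have := chkW h h.c_pos.le le_rfl cV1 Q (by norm_num) (by norm_num) (by push_cast; norm_num)
      (by push_cast; norm_num)
    simp only [Ex.evR_sub, Ex.evR_mul, Ex.evR_cst, Ex.evR_var, v0, v2] at this
    norm_num at this ⊢
    linarith
  have em : mpF x = mp x := by unfold mpF; rw [if_pos (by linarith)]
  rw [em]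
  have hV := h.V_pos x
  have hm := mp_pos (x := x) (by linarith)
  have h1 : V x * (1 + δ * mp x) ≤ V x * (1 + c * mp x) := by
    apply mul_le_mul_of_nonneg_left _ hV.le
    have := mul_le_mul_of_nonneg_right hδc hm.le
    linarith
  refine lt_of_le_of_lt h1 (lt_trans ?_ hV0)
  rcases le_or_gt x (-6) with g | g
  · have Q := hq h (x := -1) (by norm_num) (by norm_num)
    have w := chkW h h.c_pos.le le_rfl cV2 Q (by norm_num) (by norm_num) (by push_cast; norm_num)
      (by push_cast; norm_num)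
    simp only [Ex.evR_sub, Ex.evR_cst, Ex.evR_var, v2] at w
    norm_num at w
    have h2 : V x < V (-1) := h.V_strictMono (by linarith)
    have h3 := mp_lt (x := x) (by linarith)
    have E := Enc3_848.enc h
    have hc1 : c ≤ 1 / 2 := E.c_hi.trans (by norm_num)
    have hc0 := h.c_pos
    have h4 : c * mp x ≤ 1 / 2 * (1239 / 1024) := mul_le_mul hc1 h3.le hm.le (by norm_num)
    have h5 : V x * (1 + c * mp x) ≤ 1 / 4 * (1 + 1 / 2 * (1239 / 1024)) :=
      mul_le_mul (by linarith) (by linarith) (by positivity) (by norm_num)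
    refine lt_of_le_of_lt h5 (by norm_num)
  · have Q := hq h (x := x) g.le (by linarith)
    have w := chkW h h.c_pos.le le_rfl cV0 Q (by linarith) (by linarith) (by push_cast; linarith)
      (by push_cast; linarith)
    simp only [Ex.evR_sub, Ex.evR_add, Ex.evR_mul, Ex.evR_cst, Ex.evR_var, v2, v25, v28] at w
    norm_num at w ⊢
    linarith

/-- `yp` of `C2Fin_454` -/
theorem yp (c : ℝ) (W V I k : ℝ → ℝ) (h : SPair c W V I k c) (δ : ℝ) (hδ : 0 < δ) (hδc : δ ≤ c)
    (x y : ℝ) (hx : x ≤ -1 / 4) (hxy : x ≤ y) (hy : V y ≤ V x * (1 + δ * mpF x)) :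
    b y + 2 / 1000 ≤ Ep x ∧ b y ≤ b x := by
  have h1 := V_top_lt h hδ hδc hx
  have h2 : y < 0 := h.V_strictMono.lt_iff_lt.1 (lt_of_le_of_lt hy h1)
  have h3 := b_anti hxy h2.le
  refine ⟨?_, h3⟩
  unfold Ep
  rw [if_pos hx]
  norm_num at h3 ⊢
  linarith

/-- `ym` of `C2Fin_454` -/
theorem ym (c : ℝ) (W V I k : ℝ → ℝ) (h : SPair c W V I k c) (δ : ℝ) (hδ : 0 < δ) (hδc : δ ≤ c)
    (x y : ℝ) (hx : x ≤ -1 / 4) (hyx : y ≤ x) (hy : V x * (1 - δ * mmF x) ≤ V y) :
    b y + 2 / 1000 ≤ Em x ∧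
      b y + 2 / 1000 ≤ b x - 3 / 5 * δ * b1 x + δ ^ 2 / 10 + 2 / 1000 := by
  have hd := C2Disp_889.disp h hδ hδc hx hy
  have E := Enc3_848.enc h
  have hc1 : c ≤ 5 / 12 := E.c_hi.trans (by norm_num)
  have hs0 : 0 ≤ x - y := by linarith
  have hs1 : x - y ≤ 3 / 5 * δ := by linarith
  have hs2 : (x - y) ^ 2 ≤ (3 / 5 * δ) ^ 2 := pow_le_pow_left₀ hs0 hs1 2
  have hs3 : 3 / 5 * δ ≤ 1 / 4 := by linarith
  have hs4 : (3 / 5 * δ) ^ 2 ≤ (1 / 4) ^ 2 := pow_le_pow_left₀ (by positivity) hs3 2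
  have hb0 := b1_nonpos (x := x) (by linarith)
  have h2 : b1 x * (y - x) ≤ -(3 / 5 * δ * b1 x) := by nlinarith
  have h3 : -(3 / 5 * δ * b1 x) ≤ -(b1 x / 4) := by nlinarith
  have e : (y - x) ^ 2 = (x - y) ^ 2 := by ring
  have t2 := b_taylor (D := 3 / 8) (x := x) (y := y) (fun t ht => b2_le2 (by linarith)) hyx
  rw [e] at t2
  constructor
  · unfold Em
    split_ifs with g1
    · have t1 := b_taylor (D := 19 / 1024) (x := x) (y := y) (fun t ht => b2_le1 (by linarith)) hyx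
      rw [e] at t1
      have : 19 / 1024 / 2 * (x - y) ^ 2 ≤ 19 / 1024 / 2 * (1 / 4) ^ 2 :=
        mul_le_mul_of_nonneg_left (hs2.trans hs4) (by norm_num)
      norm_num at this t1 ⊢
      linarith
    · have : 3 / 8 / 2 * (x - y) ^ 2 ≤ 3 / 8 / 2 * (1 / 4) ^ 2 :=
        mul_le_mul_of_nonneg_left (hs2.trans hs4) (by norm_num)
      norm_num at this t2 ⊢
      linarith
  · nlinarith

end

end Crest.Agent.R146.C2Ym_889
end

-- ▼ part R146/C1_445
section

/-!
# Row 146, helper445: **C1 of NUMREF** (slope fields) : `c1 : PtNum_846.C1`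
-/

set_option autoImplicit false

namespace Crest.Agent.R146.C1_445

open Crest.Agent.R146.SPair_307 Crest.Agent.R146.RefX_355 Crest.Agent.R146.RefWS_355
open C1D_445 (b b1 b2)
open C1A_445 C1M_445 C1L_445
open PP865 C1E_445

variable {c : ℝ} {W V I k : ℝ → ℝ}

theorem c_bd (h : SPair c W V I k c) : 41573 / 100000 ≤ c ∧ c ≤ 41574 / 100000 := by
  obtain ⟨h1, h2⟩ := Enc2_848.c_box h
  norm_num at h1 h2
  constructor <;> linarith

/-! ### the tails -/

theorem WV_left (h : SPair c W V I k c) {x : ℝ} (hx : x ≤ -6) :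
    W x ≤ 14 / 100000 ∧ V x ≤ 22 / 100000 := by
  have e := Enc3_848.enc h
  have k1 := rd nL (x := -6) (by norm_num) (by norm_num) (by norm_num) (by norm_num)
    (e := Ex.cst 1 13 - wE) (by simp)
  have k2 := rd nL (x := -6) (by norm_num) (by norm_num) (by norm_num) (by norm_num)
    (e := Ex.cst 1 13 - vE) (by simp)
  simp only [wE, vE, Ex.evR_sub, Ex.evR_cst, Ex.evR_var, vv1, vv2] at k1 k2
  have w1 := (abs_le.1 (e.W8 (-6) (by norm_num) (by norm_num))).2
  have v1 := (abs_le.1 (e.V8 (-6) (by norm_num) (by norm_num))).2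
  have w2 : W x ≤ W (-6) := h.W_strictMono.monotone hx
  have v2 : V x ≤ V (-6) := h.V_strictMono.monotone hx
  norm_num at k1 k2 w1 v1
  constructor <;> linarith

theorem V_right (h : SPair c W V I k c) {x : ℝ} (hx : 6 ≤ x) : 9997 / 10000 ≤ V x := by
  have e := Enc3_848.enc h
  have k2 := rd nR (x := 6) (by norm_num) (by norm_num) (by norm_num) (by norm_num)
    (e := vE - Ex.cst 8191 13) (by simp)
  simp only [wE, vE, Ex.evR_sub, Ex.evR_cst, Ex.evR_var, vv1, vv2] at k2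
  have v1 := (abs_le.1 (e.V8 6 (by norm_num) (by norm_num))).1
  have v2 : V 6 ≤ V x := h.V_strictMono.monotone hx
  norm_num at k2 v1
  linarith

theorem sl_aux {q a c v : ℝ} (hq : 0 < q) (ha : 35 / 10 ≤ a) (hc1 : c ≤ 41574 / 100000)
    (hc0 : 0 ≤ c) (h6 : q * a ≤ 1) (h5 : 9585 / 10000 ≤ q * (a + 2 * c * q)) (hv0 : 0 < v)
    (hv : v ≤ 22 / 100000) :
    -(5415 / 10000) ≤ q * (a + 2 * c * q) + 3 * v - 3 / 2 ∧
      q * (a + 2 * c * q) + 3 * v - 3 / 2 ≤ -(2 / 5) := by
  have h7 : q ≤ 2 / 7 := by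
    by_contra hcon
    push Not at hcon
    nlinarith
  have h8 : q * q ≤ (2 / 7) * (2 / 7) := mul_le_mul h7 h7 hq.le (by norm_num)
  have h9 : c * (q * q) ≤ 41574 / 100000 * ((2 / 7) * (2 / 7)) :=
    mul_le_mul hc1 h8 (by positivity) (by norm_num)
  have e : q * (a + 2 * c * q) = q * a + 2 * (c * (q * q)) := by ring
  constructor
  · linarith
  · rw [e]; norm_num at h9 ⊢; linarith

theorem s_left (h : SPair c W V I k c) {x : ℝ} (hx : x ≤ -6) :
    -(5415 / 10000) ≤ sx c W V I x ∧ sx c W V I x ≤ -(2 / 5) := by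
  obtain ⟨hc, hc1⟩ := c_bd h
  obtain ⟨hW, hV⟩ := WV_left h hx
  have hW0 := h.W_pos x
  have hV0 := h.V_pos x
  have hI0 := h.I_pos x
  set a := -2 * Ad c W x with ha
  have ha1 : 35 / 10 ≤ a := by
    rw [ha]; unfold Ad
    nlinarith
  have ha0 : 0 < a := by linarith
  have hx0 : Ad c W x < 0 := by linarith
  have hI : I x = (1 + c) * W x + a * V x := by rw [h.eqI, ha]; ring
  have hVW := V_ge_aW h hx0
  rw [← ha] at hVW
  set K := 3 - c + 4 * c * V x with hK
  have hK1 : K ≤ 25851 / 10000 := by rw [hK]; nlinarith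
  have hK0 : 0 < K := by rw [hK]; nlinarith
  have hb : 1225 / 100 ≤ a ^ 2 := by nlinarith
  -- W (a² + 1.65) ≤ a V
  have h1 : W x * (a * (a ^ 2 + K + 2)) ≤ (a ^ 2 + K) * V x := by linarith
  have h2 : W x * (a ^ 2 + 165 / 100) ≤ a * V x := by
    have k1 : (a ^ 2 + K) * (a ^ 2 + 165 / 100) ≤ a ^ 2 * (a ^ 2 + K + 2) := by nlinarith
    have k2 : W x * (a * (a ^ 2 + K + 2)) * (a ^ 2 + 165 / 100) ≤
        (a ^ 2 * (a ^ 2 + K + 2)) * V x := by
      have k3 := mul_le_mul_of_nonneg_right h1 (show 0 ≤ a ^ 2 + 165 / 100 by positivity)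
      have k4 := mul_le_mul_of_nonneg_right k1 hV0.le
      linarith
    have hD : 0 < a * (a ^ 2 + K + 2) := by positivity
    have k5 : (W x * (a ^ 2 + 165 / 100)) * (a * (a ^ 2 + K + 2)) ≤
        (a * V x) * (a * (a ^ 2 + K + 2)) := by linarith
    exact le_of_mul_le_mul_right k5 hD
  have h3 : I x * (a ^ 2 + 165 / 100) ≤ a * V x * (a ^ 2 + 265 / 100 + c) := by
    rw [hI]; nlinarith
  set q := qx V I x with hq
  have hqI : q * I x = V x * (1 - V x) := by rw [hq]; unfold qx; field_simp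
  have hR : 0 < 1 - V x := by linarith
  have hq0 : 0 < q := by rw [hq]; unfold qx; positivity
  have h4 : (1 - V x) * (a ^ 2 + 165 / 100) ≤ q * (a * (a ^ 2 + 265 / 100 + c)) := by
    have k1 : V x * ((1 - V x) * (a ^ 2 + 165 / 100)) ≤
        V x * (q * (a * (a ^ 2 + 265 / 100 + c))) := by
      have := mul_le_mul_of_nonneg_left h3 hq0.le
      have e : q * (I x * (a ^ 2 + 165 / 100)) = V x * ((1 - V x) * (a ^ 2 + 165 / 100)) := by
        rw [← mul_assoc, hqI]; ring
      rw [e] at this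
      linarith
    exact le_of_mul_le_mul_left k1 hV0
  have h5 := qk_left ha1 hc hc1 (show 9995 / 10000 ≤ 1 - V x by linarith) h4
  have hk : k1x c W V I x = a + 2 * c * q := by unfold k1x; rw [← hq, ha]
  have hs : sx c W V I x = q * (a + 2 * c * q) + 3 * V x - 3 / 2 := by
    unfold sx; rw [← hq, hk]
  have h6 : q * a ≤ 1 := by
    have k1 : a * V x ≤ I x := by rw [hI]; nlinarith
    have k2 := mul_le_mul_of_nonneg_left k1 hq0.le
    rw [hqI] at k2
    have k3 : V x * (q * a) ≤ V x * 1 := by nlinarith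
    exact le_of_mul_le_mul_left k3 hV0
  rw [hs]
  exact sl_aux hq0 ha1 hc1 (by linarith) h6 h5 hV0 hV

theorem s_right (h : SPair c W V I k c) {x : ℝ} (hx : 6 ≤ x) :
    49 / 100 ≤ sx c W V I x ∧ sx c W V I x ≤ 53 / 100 := by
  obtain ⟨hc, hc1⟩ := c_bd h
  have hV := V_right h hx
  have hV1 := h.V_lt x
  have hU := h.U_pos x
  have hI0 := h.I_pos x
  set a := 2 * Ad c W x with ha
  have ha1 : 849 / 100 ≤ a := by
    rw [ha]; unfold Ad
    nlinarith
  have ha0 : 0 < a := by linarith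
  have hI := TailK_445.I_eq h x
  have haU := TailK_445.aU_le_R h x
  rw [← ha] at hI haU
  set R := 1 - V x with hR
  have hR0 : 0 < R := by linarith
  set q := qx V I x with hq
  have hqI : q * I x = V x * R := by rw [hq, hR]; unfold qx; field_simp
  have hq0 : 0 < q := by
    rw [hq]; unfold qx
    have := h.V_pos x
    positivity
  have hk : k1x c W V I x = -a + 2 * c * q := by unfold k1x; rw [← hq, ha]; ring
  have hs : sx c W V I x = q * (-a + 2 * c * q) + 3 * V x - 3 / 2 := by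
    unfold sx; rw [← hq, hk]
  have h1 : q * a ≤ V x := by
    have k1 : a * R ≤ I x := by
      rw [hI]
      have : 0 ≤ (1 - c) * (W x - x) := mul_nonneg (by linarith) (by linarith)
      linarith
    have k2 := mul_le_mul_of_nonneg_left k1 hq0.le
    rw [hqI] at k2
    have k3 : (q * a) * R ≤ V x * R := by linarith
    exact le_of_mul_le_mul_right k3 hR0
  have h2 : V x * a ^ 2 ≤ q * a * (a ^ 2 + 1 - c) := by
    have k1 : I x * a ≤ R * (a ^ 2 + 1 - c) := by
      rw [hI]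
      have : (1 - c) * (a * (W x - x)) ≤ (1 - c) * R := mul_le_mul_of_nonneg_left haU (by linarith)
      nlinarith
    have k2 := mul_le_mul_of_nonneg_left k1 hq0.le
    have k3 : (V x * a) * R ≤ (q * (a ^ 2 + 1 - c)) * R := by
      have e : q * (I x * a) = (V x * a) * R := by rw [← mul_assoc, hqI]; ring
      rw [e] at k2; linarith
    have k4 := le_of_mul_le_mul_right k3 hR0
    nlinarith
  have h3 : q ≤ 1 / 8 := by
    by_contra hcon
    push Not at hcon
    nlinarith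
  have h4 : 991 / 1000 ≤ q * a := by
    by_contra hcon
    push Not at hcon
    have : q * a * (a ^ 2 + 1 - c) < 991 / 1000 * (a ^ 2 + 1 - c) :=
      mul_lt_mul_of_pos_right hcon (by nlinarith)
    nlinarith
  constructor
  · rw [hs]
    have h9 : 0 ≤ c * (q * q) := mul_nonneg (by linarith) (mul_self_nonneg q)
    have e : q * (-a + 2 * c * q) = -(q * a) + 2 * (c * (q * q)) := by ring
    rw [e]
    linarith
  · rw [hs]
    have h8 : q * q ≤ (1 / 8) * (1 / 8) := mul_le_mul h3 h3 hq0.le (by norm_num)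
    have h9 : c * (q * q) ≤ 41574 / 100000 * ((1 / 8) * (1 / 8)) :=
      mul_le_mul hc1 h8 (by positivity) (by norm_num)
    have e : q * (-a + 2 * c * q) = -(q * a) + 2 * (c * (q * q)) := by ring
    rw [e]
    norm_num at h9 ⊢
    linarith

/-- `b = const` on the left: the slope inequality -/
theorem left (h : SPair c W V I k c) {σ : ℝ} (hσ : σ = 1 ∨ σ = -1) {δ τ : ℝ} (h1 : 0 < δ)
    (h2 : δ ≤ c) (t0 : -(1001 / 1000) ≤ τ) (t1 : τ ≤ 1001 / 1000)
    (t2 : τ * δ ≤ 7 / 10 - c + 1 / 1000 * δ) {q k' s J e : ℝ} (hs : -(5415 / 10000) ≤ s)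
    (hs1 : s ≤ -(2 / 5)) (hJ : J = 1 + 2 * c * s) (he0 : 11999 / 10000 ≤ e) (he1 : e ≤ 6 / 5) :
    0 ≤ Gr c (σ * δ) (σ * τ) e 0 0 q k' s J := by
  obtain ⟨hc, hc1⟩ := c_bd h
  clear h
  have hJ0 : 5497 / 10000 ≤ J := by rw [hJ]; nlinarith
  have hδe : δ * e ≤ 1 / 2 := by nlinarith
  have hδe0 : 0 < δ * e := by positivity
  rcases hσ with rfl | rfl
  · have e1 : Gr c (1 * δ) (1 * τ) e 0 0 q k' s J =
        (1 + δ * e) * (1 / 2 * ((1 + δ * e) * (J * e)) - τ * s + 1 / 2 * (J * e)) := by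
      unfold Gr; ring
    rw [e1]
    apply mul_nonneg (by positivity)
    have k2 : J * e ≤ (1 + δ * e) * (J * e) := by
      have : 0 ≤ (δ * e) * (J * e) := by positivity
      linarith
    have k3 : 5497 / 10000 * (11999 / 10000) ≤ J * e := mul_le_mul hJ0 he0 (by norm_num) (by linarith)
    have k4 : τ * s ≤ 1001 / 1000 * (5415 / 10000) := by nlinarith
    norm_num at k3 k4
    linarith
  · have e1 : Gr c (-1 * δ) (-1 * τ) e 0 0 q k' s J =
        (1 - δ * e) * (J * (e * (1 - δ * e / 2)) + τ * s) := by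
      unfold Gr; ring
    rw [e1]
    apply mul_nonneg (by linarith)
    set m := e * (1 - δ * e / 2) with hm
    have hee : e * e ≤ 36 / 25 := by nlinarith
    have hs' : J * m + τ * s = m + s * (2 * c * m + τ) := by rw [hJ]; ring
    rw [hs']
    have m2 : m ≤ 6 / 5 := by rw [hm]; nlinarith
    have hm' : m = e - δ * (e * e) / 2 := by rw [hm]; ring
    rcases le_or_gt δ (2843 / 10000) with d | d
    · have m1 : 9952 / 10000 ≤ m := by
        have : δ * (e * e) ≤ 2843 / 10000 * (36 / 25) :=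
          mul_le_mul d hee (mul_self_nonneg e) (by norm_num)
        rw [hm']; norm_num at this ⊢; linarith
      rcases le_or_gt 0 (2 * c * m + τ) with g | g
      · have k1 : -(5415 / 10000) * (2 * c * m + τ) ≤ s * (2 * c * m + τ) :=
          mul_le_mul_of_nonneg_right hs g
        have k2 : c * m ≤ 41574 / 100000 * m := mul_le_mul_of_nonneg_right hc1 (by linarith)
        linarith
      · have : 0 ≤ s * (2 * c * m + τ) := mul_nonneg_of_nonpos_of_nonpos (by linarith) g.le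
        linarith
    · have m0 : 0 ≤ m := by rw [hm]; exact mul_nonneg (by linarith) (by linarith)
      have m1 : 28290 / 100000 ≤ m * δ := by
        have a1 : δ * δ * (e * e) ≤ δ * δ * (36 / 25) :=
          mul_le_mul_of_nonneg_left hee (mul_self_nonneg δ)
        have a2 := mul_nonneg (sub_nonneg.2 d.le) (sub_nonneg.2 (show δ ≤ 41574 / 100000 by linarith))
        have a3 : 11999 / 10000 * δ ≤ e * δ := mul_le_mul_of_nonneg_right he0 h1.le
        have a4 : m * δ = e * δ - δ * δ * (e * e) / 2 := by rw [hm']; ring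
        rw [a4]
        norm_num at a2 ⊢
        linarith
      have key : 0 ≤ (m + s * (2 * c * m + τ)) * δ := by
        have e2 : (m + s * (2 * c * m + τ)) * δ = m * δ + s * (2 * c * (m * δ) + τ * δ) := by ring
        rw [e2]
        have M0 : 0 ≤ m * δ := mul_nonneg m0 h1.le
        generalize m * δ = M at *
        rcases le_or_gt 0 (2 * c * M + τ * δ) with g | g
        · have k1 : -(5415 / 10000) * (2 * c * M + τ * δ) ≤ s * (2 * c * M + τ * δ) :=
            mul_le_mul_of_nonneg_right hs g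
          have k2 : c * M ≤ 41574 / 100000 * M := mul_le_mul_of_nonneg_right hc1 M0
          linarith
        · have : 0 ≤ s * (2 * c * M + τ * δ) := mul_nonneg_of_nonpos_of_nonpos (by linarith) g.le
          linarith
      exact nonneg_of_mul_nonneg_left key h1

/-- `b = const` on the right: the slope inequality -/
theorem right (h : SPair c W V I k c) {σ : ℝ} (hσ : σ = 1 ∨ σ = -1) {δ τ : ℝ} (h1 : 0 < δ)
    (h2 : δ ≤ c) (t0 : -(1001 / 1000) ≤ τ) (t1 : τ ≤ 1001 / 1000)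
    {q k' s J e : ℝ} (hs : 49 / 100 ≤ s)
    (hs1 : s ≤ 53 / 100) (hJ : J = 1 + 2 * c * s) (he0 : 46 / 100 ≤ e) (he1 : e ≤ 1 / 2) :
    0 ≤ Gr c (σ * δ) (σ * τ) e 0 0 q k' s J := by
  obtain ⟨hc, hc1⟩ := c_bd h
  clear h
  have hJ0 : 14 / 10 ≤ J := by rw [hJ]; nlinarith
  have hδe : δ * e ≤ 1 / 2 := by nlinarith
  have hδe0 : 0 < δ * e := by positivity
  rcases hσ with rfl | rfl
  · have e1 : Gr c (1 * δ) (1 * τ) e 0 0 q k' s J =
        (1 + δ * e) * (1 / 2 * ((1 + δ * e) * (J * e)) - τ * s + 1 / 2 * (J * e)) := by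
      unfold Gr; ring
    rw [e1]
    apply mul_nonneg (by positivity)
    have k2 : J * e ≤ (1 + δ * e) * (J * e) := by
      have : 0 ≤ (δ * e) * (J * e) := by positivity
      linarith
    have k3 : 14 / 10 * (46 / 100) ≤ J * e := mul_le_mul hJ0 he0 (by norm_num) (by linarith)
    have k4 : τ * s ≤ 1001 / 1000 * (53 / 100) := by nlinarith
    norm_num at k3 k4
    linarith
  · have e1 : Gr c (-1 * δ) (-1 * τ) e 0 0 q k' s J =
        (1 - δ * e) * (J * (e * (1 - δ * e / 2)) + τ * s) := by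
      unfold Gr; ring
    rw [e1]
    apply mul_nonneg (by linarith)
    have m0 : δ * e ≤ 41574 / 100000 * (1 / 2) := mul_le_mul (by linarith) he1 (by linarith) (by norm_num)
    have m1 : 46 / 100 * (1 - 41574 / 100000 * (1 / 2) / 2) ≤ e * (1 - δ * e / 2) := by
      apply mul_le_mul he0 (by linarith) (by norm_num) (by linarith)
    have k3 : 14 / 10 * (46 / 100 * (1 - 41574 / 100000 * (1 / 2) / 2)) ≤ J * (e * (1 - δ * e / 2)) := by
      apply mul_le_mul hJ0 m1 (by norm_num) (by linarith)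
    have k4 : -(1001 / 1000 * (53 / 100)) ≤ τ * s := by nlinarith
    norm_num at k3 k4
    linarith

/-- **the slope inequality**, all `x`, all `δ ≤ c` -/
theorem slope (h : SPair c W V I k c) {σ : ℝ} (hσ : σ = 1 ∨ σ = -1) {δ τ : ℝ} (h1 : 0 < δ)
    (h2 : δ ≤ c) (t0 : -(1001 / 1000) ≤ τ) (t1 : τ ≤ 1001 / 1000)
    (t2 : τ * δ ≤ 7 / 10 - c + 1 / 1000 * δ) (x : ℝ) :
    0 ≤ Gr c (σ * δ) (σ * τ) (b x) (b1 x) (b2 x) (qx V I x) (k1x c W V I x) (sx c W V I x)
      (Jx c W V I x) := by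
  obtain ⟨hc, hc1⟩ := c_bd h
  rcases le_or_gt x (-6) with d | d
  · rw [C1D_445.b_left d, C1D_445.b1_left d, C1D_445.b2_left d]
    obtain ⟨s1, s2⟩ := s_left h d
    exact left h hσ h1 h2 t0 t1 t2 s1 s2 rfl (by norm_num [C1D_445.bL]) (by norm_num [C1D_445.bL])
  rcases le_or_gt x 6 with d2 | d2
  · obtain ⟨U, Z, hv⟩ := mid h d d2
    exact hv.all hσ hc h1.le (by norm_num; linarith) (by linarith) (by linarith) t2
  · rw [C1D_445.b_right (by linarith), C1D_445.b1_right (by linarith),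
      C1D_445.b2_right (by linarith)]
    obtain ⟨s1, s2⟩ := s_right h d2.le
    exact right h hσ h1 h2 t0 t1 s1 s2 rfl (by norm_num [C1D_445.bR]) (by norm_num [C1D_445.bR])

/-- crude bounds for all `x` -/
theorem sides (h : SPair c W V I k c) (x : ℝ) : Sd c W V I x := by
  obtain ⟨hc, hc1⟩ := c_bd h
  rcases le_or_gt x (-6) with d | d
  · obtain ⟨s1, s2⟩ := s_left h d
    refine ⟨by linarith, ?_, ?_, ?_, ?_, ?_, ?_, ?_, ?_, ?_⟩
    · unfold Jx; nlinarith
    all_goals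
      simp only [C1D_445.b_left d, C1D_445.b1_left d, C1D_445.b2_left d, C1D_445.bL]
      norm_num
  rcases le_or_gt x 6 with d2 | d2
  · exact side h d d2
  · obtain ⟨s1, s2⟩ := s_right h d2.le
    have d3 : 7 / 2 < x := by linarith
    refine ⟨by linarith, ?_, ?_, ?_, ?_, ?_, ?_, ?_, ?_, ?_⟩
    · unfold Jx; nlinarith
    all_goals
      simp only [C1D_445.b_right d3, C1D_445.b1_right d3, C1D_445.b2_right d3, C1D_445.bR]
      norm_num

theorem ybd {δ y : ℝ} (h : SPair c W V I k c) (h1 : 0 < δ) (h2 : δ ≤ c)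
    (hy : y = nl c δ (δ / 1000) ∨ y = nu c δ (δ / 1000)) :
    -(1001 / 1000) * δ ≤ y - c ∧ y - c ≤ 1001 / 1000 * δ ∧ y - c ≤ 7 / 10 - c + 1 / 1000 * δ ∧
      0 ≤ y := by
  obtain ⟨hc, hc1⟩ := c_bd h
  rcases hy with rfl | rfl
  · unfold nl
    have a1 : c - δ - δ / 1000 ≤ max 0 (c - δ - δ / 1000) := le_max_right _ _
    have a2 : 0 ≤ max 0 (c - δ - δ / 1000) := le_max_left _ _
    have a3 : max 0 (c - δ - δ / 1000) ≤ c := max_le (by linarith) (by linarith)
    refine ⟨by linarith, by linarith, by linarith, a2⟩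
  · unfold nu
    have a1 : min (7 / 10) (c + δ) ≤ 7 / 10 := min_le_left _ _
    have a2 : min (7 / 10) (c + δ) ≤ c + δ := min_le_right _ _
    have a3 : c ≤ min (7 / 10) (c + δ) := le_min (by linarith) (by linarith)
    refine ⟨by linarith, by linarith, by linarith, by linarith⟩

theorem nu_bd {δ : ℝ} (h : SPair c W V I k c) (h1 : 0 < δ) (h2 : δ ≤ c) :
    0 ≤ nu c δ (δ / 1000) ∧ nu c δ (δ / 1000) ≤ 7005 / 10000 := by
  obtain ⟨hc, hc1⟩ := c_bd h
  have := ybd h h1 h2 (Or.inr rfl)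
  exact ⟨this.2.2.2, by linarith [this.2.2.1]⟩

theorem lin_m_aux {δ n q b b1 s : ℝ} (hδ : 0 < δ) (hδ2 : δ ≤ 41574 / 100000) (hn : 0 ≤ n)
    (hn1 : n ≤ 7005 / 10000) (hb : 0 ≤ b) (hb1 : b ≤ 6 / 5) (hs : -(3 / 5) ≤ s)
    (hqf : q * b1 ≤ 1 / 16) :
    1 / 100 * (1 - δ * b) ≤ (1 / 2 + n * s) * (1 - δ * b) - n * (δ * q * b1) := by
  have hT : 5 / 10 ≤ 1 - δ * b := by nlinarith
  have h1 : -(7005 / 10000 * (3 / 5)) ≤ n * s := by nlinarith
  have h2 : (1 / 2 - 7005 / 10000 * (3 / 5) - 1 / 100) * (5 / 10) ≤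
      (1 / 2 + n * s - 1 / 100) * (1 - δ * b) := by
    apply mul_le_mul (by linarith) hT (by norm_num)
    norm_num; linarith
  have h3 : n * δ * (q * b1) ≤ 7005 / 10000 * (41574 / 100000) * (1 / 16) := by
    have a1 : n * δ ≤ 7005 / 10000 * (41574 / 100000) := mul_le_mul hn1 hδ2 hδ.le (by norm_num)
    have a2 : 0 ≤ n * δ := mul_nonneg hn hδ.le
    rcases le_or_gt 0 (q * b1) with g | g
    · exact mul_le_mul a1 hqf g (by norm_num)
    · have : n * δ * (q * b1) ≤ 0 := mul_nonpos_of_nonneg_of_nonpos a2 g.le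
      refine this.trans (by norm_num)
  have e : n * (δ * q * b1) = n * δ * (q * b1) := by ring
  rw [e]
  norm_num at h2 h3 ⊢
  nlinarith

/-- **C1 of NUMREF** -/
theorem c1 : PtNum_846.C1 where
  up := fun c W V I k h δ h1 h2 x y hy => by
    obtain ⟨y1, y2, y3, -⟩ := ybd h h1 h2 hy
    have hδ : δ * ((y - c) / δ) = y - c := by field_simp
    have e : Exx c y ((y - c) / δ) (1 + δ * b x) W V I b b1 b2 x =
        -Gr c (1 * δ) (1 * ((y - c) / δ)) (b x) (b1 x) (b2 x) (qx V I x) (k1x c W V I x)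
          (sx c W V I x) (Jx c W V I x) := by
      have e1 : c + 1 * δ * (1 * ((y - c) / δ)) = y := by
        rw [one_mul, one_mul, hδ]; ring
      unfold Exx Gr
      rw [e1]
      ring
    rw [e]
    have := slope h (σ := 1) (Or.inl rfl) h1 h2 (τ := (y - c) / δ)
      (by rw [le_div_iff₀ h1]; linarith) (by rw [div_le_iff₀ h1]; linarith)
      (by rw [mul_comm, hδ]; exact y3) x
    linarith
  low := fun c W V I k h δ h1 h2 x y hy => by
    obtain ⟨y1, y2, y3, -⟩ := ybd h h1 h2 hy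
    have hδ : δ * ((y - c) / δ) = y - c := by field_simp
    have e : Exx c y (-((y - c) / δ)) (1 - δ * b x) W V I b b1 b2 x =
        -Gr c (-1 * δ) (-1 * ((y - c) / δ)) (b x) (b1 x) (b2 x) (qx V I x) (k1x c W V I x)
          (sx c W V I x) (Jx c W V I x) := by
      have e1 : c + -1 * δ * (-1 * ((y - c) / δ)) = y := by
        have : -1 * δ * (-1 * ((y - c) / δ)) = δ * ((y - c) / δ) := by ring
        rw [this, hδ]; ring
      unfold Exx Gr
      rw [e1]
      ring
    rw [e]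
    have := slope h (σ := -1) (Or.inr rfl) h1 h2 (τ := (y - c) / δ)
      (by rw [le_div_iff₀ h1]; linarith) (by rw [div_le_iff₀ h1]; linarith)
      (by rw [mul_comm, hδ]; exact y3) x
    linarith
  conc := fun c W V I k h δ h1 h2 x => by
    obtain ⟨hc, hc1⟩ := c_bd h
    have hS := sides h x
    have e : 2 * δ * c * qx V I x * b1 x = 2 * (δ * c) * (qx V I x * b1 x) := by ring
    rw [e]
    have a1 : δ * c ≤ 18 / 100 := by nlinarith
    have a2 : 0 ≤ δ * c := by positivity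
    have a3 : -(18 / 100 * (151 / 1000)) ≤ δ * c * (qx V I x * b1 x) := by
      have := hS.qf0
      nlinarith
    have a4 : 1 / 2 * (1 + δ * b x) ≤ Jx c W V I x * (1 + δ * b x) := by
      apply mul_le_mul_of_nonneg_right hS.J0
      have := mul_nonneg h1.le hS.e0
      linarith
    have a5 := mul_nonneg h1.le hS.e0
    norm_num at a3
    linarith
  lin_p := fun c W V I k h δ h1 h2 x => by
    obtain ⟨hc, hc1⟩ := c_bd h
    obtain ⟨n0, n1⟩ := nu_bd h h1 h2
    have hS := sides h x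
    set n := nu c δ (δ / 1000) with hn
    have a5 := mul_nonneg h1.le hS.e0
    have b1' : -(7005 / 10000 * (3 / 5)) ≤ n * sx c W V I x := by
      have := hS.s0
      nlinarith
    have b2' : (1 / 2 - 7005 / 10000 * (3 / 5) - 1 / 100) * 1 ≤
        (1 / 2 + n * sx c W V I x - 1 / 100) * (1 + δ * b x) := by
      apply mul_le_mul (by linarith) (by linarith) (by norm_num)
      norm_num; linarith
    have b3' : -(7005 / 10000 * (41574 / 100000) * (151 / 1000)) ≤ n * δ * (qx V I x * b1 x) := by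
      have a1 : n * δ ≤ 7005 / 10000 * (41574 / 100000) :=
        mul_le_mul n1 (by linarith) h1.le (by norm_num)
      have a2 : 0 ≤ n * δ := mul_nonneg n0 h1.le
      have := hS.qf0
      nlinarith
    have e : n * (δ * qx V I x * b1 x) = n * δ * (qx V I x * b1 x) := by ring
    rw [e]
    norm_num at b2' b3' ⊢
    nlinarith
  lin_m := fun c W V I k h δ h1 h2 x => by
    obtain ⟨hc, hc1⟩ := c_bd h
    obtain ⟨n0, n1⟩ := nu_bd h h1 h2
    have hS := sides h x
    exact lin_m_aux h1 (by linarith) n0 n1 hS.e0 hS.e1 hS.s0 hS.qf1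
  lin_m2 := fun c W V I k h δ h1 h2 x y hy => by
    obtain ⟨hc, hc1⟩ := c_bd h
    obtain ⟨n0, n1⟩ := nu_bd h h1 h2
    have hS := sides h x
    have hy0 : 0 ≤ y ∧ y ≤ 7005 / 10000 := by
      rcases hy with rfl | rfl
      · norm_num
      · exact ⟨n0, n1⟩
    have k1 := lin_m_aux (n := y) h1 (by linarith) hy0.1 hy0.2 hS.e0 hS.e1 hS.s0 hS.qf1
    have hT : 5 / 10 ≤ 1 - δ * b x := by
      have := hS.e0
      have := hS.e1
      nlinarith
    have k2 : 0 ≤ Jx c W V I x * (1 - δ * b x) + δ * (b2 x + k1x c W V I x * b1 x) := by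
      have a1 : 1 / 2 * (5 / 10) ≤ Jx c W V I x * (1 - δ * b x) :=
        mul_le_mul hS.J0 hT (by norm_num) (by linarith [hS.J0])
      have a2 : -(41574 / 100000 * (1 / 2)) ≤ δ * (b2 x + k1x c W V I x * b1 x) := by
        have := hS.g0
        nlinarith
      norm_num at a1 a2
      linarith
    have k3 : 0 ≤ 1 / 2 * (1 - δ * b x) ^ 2 *
        (Jx c W V I x * (1 - δ * b x) + δ * (b2 x + k1x c W V I x * b1 x)) :=
      mul_nonneg (by positivity) k2
    linarith

end Crest.Agent.R146.C1_445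
end

-- ▼ part R146/CloTail_649
section

/-!
# Row 146, NUMREF, closure (N6): the tails of the one-point inequalities `(U')`, `(L')` of `Dual_924`
(helper649)

For a closed pair `SPair c W V I k c`, `.4157 ≤ c ≤ .4158`, `H = (V R k + I R - (1-c) U V)/2`:
* `kR_le : k R ≤ (1-c) U` (all `x`), `Hf_le_right : H ≤ I R / 2` (all `x`);
* `x ≤ -5`, `b ≤ 5/4` and `x ≥ 3`, `b ≤ 1/2`: `(U')`, `(L')` and the monotonicity condition `hmon`
  of `Dual_924.lo_of_corner`, for `a ∈ [4/5,1]`, `F ≤ 3/2`, `G = 9/10`, `0 ≤ δ ≤ c`.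
No enclosures are used.
-/

set_option autoImplicit false

namespace Crest.Agent.R146.CloTail_649

open Set Filter Topology
open SPair_307 Stat7_307 Stat8_307 Stat9_307 TailK_445

variable {c : ℝ} {W V I k : ℝ → ℝ}

/-- `H = -G₀` -/
noncomputable def Hf (c : ℝ) (W V I k : ℝ → ℝ) (x : ℝ) : ℝ :=
  (V x * (1 - V x) * k x + I x * (1 - V x) - (1 - c) * (W x - x) * V x) / 2

/-- the derivative of `k - (1-c) U/R` -/
lemma dD (h : SPair c W V I k c) (y : ℝ) :
    HasDerivAt (fun y => k y - (1 - c) * ((W y - y) / (1 - V y)))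
      ((I y / (1 - V y) + k y) * (k y - (1 - c) * ((W y - y) / (1 - V y))) +
        2 * c * (1 - V y)) y := by
  have hR : 1 - V y ≠ 0 := by linarith [h.V_lt y]
  have h1 : HasDerivAt (fun y => W y - y) (V y - 1) y := (h.dW y).sub (hasDerivAt_id y)
  have h2 : HasDerivAt (fun y => 1 - V y) (-I y) y := (h.dV y).const_sub 1
  have h3 := (h.dk y).sub ((h1.div h2 hR).const_mul (1 - c))
  refine h3.congr_deriv ?_
  have e := I_eq h y
  rw [e]
  unfold Ad1
  generalize Ad c W y = A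
  generalize k y = kk
  generalize hr : 1 - V y = R at *
  have hv : V y = 1 - R := by linarith
  rw [hv]
  generalize W y - y = U
  field_simp
  ring

/-- **`k R ≤ (1-c) U`** for the closed pair -/
theorem kR_le (h : SPair c W V I k c) (x : ℝ) : k x * (1 - V x) ≤ (1 - c) * (W x - x) := by
  have hR : ∀ y, 0 < 1 - V y := fun y => by linarith [h.V_lt y]
  obtain ⟨B, hB⟩ := h.k_bdd
  have hc := h.c_pos
  have hc1 : 0 < 1 - c := by linarith [h.c_lt]
  have hg : Continuous fun y => I y / (1 - V y) + k y :=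
    (h.cI.div (continuous_const.sub h.cV) fun y => (hR y).ne').add h.ck
  have key := blowR (g := fun y => I y / (1 - V y) + k y) (r := fun y => 2 * c * (1 - V y))
    (D := fun y => k y - (1 - c) * ((W y - y) / (1 - V y))) (x1 := x) (x2 := max x 1) (B := B)
    hg (fun y _ => dD h y) (fun y _ => by have := hR y; positivity) (le_max_left _ _)
    (fun y hy => by
      have hy1 : 1 ≤ y := (le_max_right _ _).trans hy
      have hU : 0 < W y - y := by linarith [h.U_pos y]
      have h1 : 1 * (1 - V y) ≤ I y := by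
        rw [I_eq h]
        have h2 : 1 ≤ 2 * Ad c W y := by
          unfold Ad
          nlinarith [mul_pos hc hU]
        have h3 := mul_le_mul_of_nonneg_right h2 (hR y).le
        have h4 := mul_pos hc1 hU
        linarith
      have h2 : 1 ≤ I y / (1 - V y) := by rw [le_div_iff₀ (hR y)]; exact h1
      linarith [h.k_pos y])
    (fun y _ => by
      have hU : 0 < W y - y := by linarith [h.U_pos y]
      have h1 : 0 ≤ (1 - c) * ((W y - y) / (1 - V y)) :=
        mul_nonneg hc1.le (div_pos hU (hR y)).le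
      linarith [hB y])
  have h1 : k x ≤ (1 - c) * ((W x - x) / (1 - V x)) := by simpa using key
  have h2 := mul_le_mul_of_nonneg_right h1 (hR x).le
  have h3 : (1 - c) * ((W x - x) / (1 - V x)) * (1 - V x) = (1 - c) * (W x - x) := by
    have := (hR x).ne'
    field_simp
  rw [h3] at h2
  exact h2

/-- `H ≤ I R / 2` -/
theorem Hf_le_right (h : SPair c W V I k c) (x : ℝ) :
    Hf c W V I k x ≤ I x * (1 - V x) / 2 := by
  have h1 := kR_le h x
  have h2 := mul_le_mul_of_nonneg_left h1 (h.V_pos x).le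
  unfold Hf
  nlinarith

/-- `H = ((1+c) R² W + V R k - (1-c) V² U)/2` -/
theorem Hf_eq (h : SPair c W V I k c) (x : ℝ) :
    Hf c W V I k x = ((1 + c) * (1 - V x) ^ 2 * W x + V x * (1 - V x) * k x -
      (1 - c) * V x ^ 2 * (W x - x)) / 2 := by
  unfold Hf
  rw [h.eqI]
  unfold Ad
  ring

/-- `H ≤ ((1+c) W + V k)/2` -/
theorem Hf_le_left (h : SPair c W V I k c) (x : ℝ) :
    Hf c W V I k x ≤ ((1 + c) * W x + V x * k x) / 2 := by
  rw [Hf_eq h]
  have hc := h.c_pos
  have hc1 : 0 < 1 - c := by linarith [h.c_lt]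
  have hV := h.V_pos x
  have hV1 := h.V_lt x
  have hW := h.W_pos x
  have hU : 0 < W x - x := by linarith [h.U_pos x]
  have hk := h.k_pos x
  have h1 : (1 - V x) ^ 2 ≤ 1 := by nlinarith
  have h2 : (1 + c) * (1 - V x) ^ 2 * W x ≤ (1 + c) * W x := by
    have : 0 ≤ (1 + c) * W x := by positivity
    nlinarith
  have h3 : V x * (1 - V x) * k x ≤ V x * k x := by
    have : 0 ≤ V x * k x := by positivity
    nlinarith
  have h4 : 0 ≤ (1 - c) * V x ^ 2 * (W x - x) := by positivity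
  linarith

/-- `W ≤ 1/(4|x|)` on the left -/
lemma W_quarter (h : SPair c W V I k c) {x : ℝ} (hx : x < 0) : W x * (-x) ≤ 1 / 4 := by
  have h1 := h.W_le x
  obtain ⟨y, hy⟩ : ∃ y, y = -x := ⟨_, rfl⟩
  have hy0 : 0 < y := by linarith
  have hxy : x = -y := by linarith
  have h2 : Real.sqrt (x ^ 2 + 1) ≤ y + 1 / (2 * y) := by
    apply Real.sqrt_le_iff.2
    refine ⟨by positivity, ?_⟩
    have e : (y + 1 / (2 * y)) ^ 2 = x ^ 2 + 1 + (1 / (2 * y)) ^ 2 := by
      rw [hxy]
      field_simp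
      ring
    rw [e]
    have : 0 ≤ (1 / (2 * y)) ^ 2 := sq_nonneg _
    linarith
  have h3 : W x ≤ 1 / (4 * y) := by
    have e : 1 / (4 * y) = (x + (y + 1 / (2 * y))) / 2 := by
      rw [hxy]
      field_simp
      ring
    rw [e]
    linarith
  have h4 := mul_le_mul_of_nonneg_right h3 hy0.le
  have e : 1 / (4 * y) * y = 1 / 4 := by field_simp
  rw [e] at h4
  rw [← hy]
  exact h4

lemma exp6 : Real.exp (-6) ≤ 1 / 400 := by
  have h1 := Real.exp_one_gt_d9
  have h2 : Real.exp 6 = Real.exp 1 ^ 6 := by rw [← Real.exp_nat_mul]; norm_num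
  have h3 : (400 : ℝ) ≤ Real.exp 6 := by
    rw [h2]
    calc (400 : ℝ) ≤ 2.718 ^ 6 := by norm_num
      _ ≤ Real.exp 1 ^ 6 := by
          apply pow_le_pow_left₀ (by norm_num)
          linarith
  rw [Real.exp_neg, inv_eq_one_div]
  exact one_div_le_one_div_of_le (by norm_num) h3

/-! ### the left tail -/

lemma a_ge_left (h : SPair c W V I k c) {x : ℝ} (hx : x ≤ -1) :
    (1 - c) * (-x) - c / 2 ≤ -2 * Ad c W x := by
  have h1 := W_quarter h (show x < 0 by linarith)
  have hc := h.c_pos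
  have hW := h.W_pos x
  have h2 : W x ≤ 1 / 4 := by nlinarith
  have h3 := mul_le_mul_of_nonneg_left h2 hc.le
  unfold Ad
  nlinarith

lemma a_ge5 (h : SPair c W V I k c) (hc2 : c ≤ 0.4158) {x : ℝ} (hx : x ≤ -5) :
    2.87 ≤ -2 * Ad c W x := by
  have h1 := W_quarter h (show x < 0 by linarith)
  have hc := h.c_pos
  have hW := h.W_pos x
  have h2 : W x ≤ 1 / 20 := by nlinarith
  have h3 : c * W x ≤ 0.4158 * (1 / 20) := mul_le_mul hc2 h2 hW.le (by norm_num)
  unfold Ad
  nlinarith [mul_nonneg (show 0 ≤ 1 - c - 0.5842 by linarith) (show 0 ≤ -x - 5 by linarith)]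

/-- `V ≤ 1/400` for `x ≤ -5` -/
lemma V_left (h : SPair c W V I k c) (hc2 : c ≤ 0.4158) {x : ℝ} (hx : x ≤ -5) :
    V x ≤ 1 / 400 := by
  set q : ℝ → ℝ := fun y => (1 - c) / 2 * y ^ 2 + c / 2 * y with hq
  have hqd : ∀ y, HasDerivAt q ((1 - c) * y + c / 2) y := fun y => by
    have h1 := (((hasDerivAt_id y).pow 2).const_mul ((1 - c) / 2)).add
      ((hasDerivAt_id y).const_mul (c / 2))
    refine h1.congr_deriv ?_
    simp only [id]
    push_cast
    ring
  have hd : ∀ y, HasDerivAt (fun y => V y * Real.exp (q y))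
      (I y * Real.exp (q y) + V y * (Real.exp (q y) * ((1 - c) * y + c / 2))) y := fun y =>
    (h.dV y).mul (hqd y).exp
  have hmono : MonotoneOn (fun y => V y * Real.exp (q y)) (Iic (-1)) := by
    apply monotoneOn_of_deriv_nonneg (convex_Iic _)
    · exact fun y _ => (hd y).continuousAt.continuousWithinAt
    · exact fun y _ => (hd y).differentiableAt.differentiableWithinAt
    · intro y hy
      rw [interior_Iic] at hy
      rw [(hd y).deriv]
      have h1 := aV_le_I h y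
      have h2 := a_ge_left h (le_of_lt hy)
      have h3 := mul_le_mul_of_nonneg_right h2 (h.V_pos y).le
      have h4 : 0 ≤ I y + V y * ((1 - c) * y + c / 2) := by nlinarith
      have h5 := mul_nonneg h4 (Real.exp_pos (q y)).le
      nlinarith
  have h1 : V (-5) * Real.exp (q (-5)) ≤ V (-1) * Real.exp (q (-1)) :=
    hmono (by norm_num) (by norm_num) (by norm_num)
  have h2 : V (-5) ≤ Real.exp (-6) := by
    have e1 : V (-5) = V (-5) * Real.exp (q (-5)) * Real.exp (-q (-5)) := by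
      rw [mul_assoc, ← Real.exp_add]; simp
    rw [e1]
    calc V (-5) * Real.exp (q (-5)) * Real.exp (-q (-5))
        ≤ V (-1) * Real.exp (q (-1)) * Real.exp (-q (-5)) :=
          mul_le_mul_of_nonneg_right h1 (Real.exp_pos _).le
      _ ≤ 1 * Real.exp (q (-1)) * Real.exp (-q (-5)) := by
          have := h.V_lt (-1)
          gcongr
      _ = Real.exp (q (-1) - q (-5)) := by
          rw [one_mul, ← Real.exp_add]; ring_nf
      _ ≤ Real.exp (-6) := by
          apply Real.exp_le_exp.2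
          simp only [hq]
          nlinarith
  exact ((h.V_strictMono.monotone hx).trans h2).trans exp6

/-- `a² V ≤ .0214` for `x ≤ -5` -/
lemma a2V (h : SPair c W V I k c) (hc1 : 0.4157 ≤ c) (hc2 : c ≤ 0.4158) {x : ℝ} (hx : x ≤ -5) :
    (-2 * Ad c W x) ^ 2 * V x ≤ 0.0214 := by
  have hd : ∀ y, HasDerivAt (fun y => (-2 * Ad c W y) ^ 2 * V y)
      ((2 * (-2 * Ad c W y) * (-2 * Ad1 c V y)) * V y + (-2 * Ad c W y) ^ 2 * I y) y := fun y => by
    refine ((((h.dA y).const_mul (-2)).pow 2).mul (h.dV y)).congr_deriv ?_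
    simp only [Pi.pow_apply]
    push_cast
    ring
  have hmono : MonotoneOn (fun y => (-2 * Ad c W y) ^ 2 * V y) (Iic (-5)) := by
    apply monotoneOn_of_deriv_nonneg (convex_Iic _)
    · exact fun y _ => (hd y).continuousAt.continuousWithinAt
    · exact fun y _ => (hd y).differentiableAt.differentiableWithinAt
    · intro y hy
      rw [interior_Iic] at hy
      rw [(hd y).deriv]
      have h1 := aV_le_I h y
      have h2 := a_ge5 h hc2 (le_of_lt hy)
      have h3 := Ad1_lt h y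
      have hV := h.V_pos y
      set a := -2 * Ad c W y with ha
      have ha0 : 0 < a := by linarith
      have h4 : a ^ 2 * (a * V y) ≤ a ^ 2 * I y := mul_le_mul_of_nonneg_left h1 (by positivity)
      have h5 : 0 ≤ a ^ 2 - 4 * Ad1 c V y := by nlinarith
      have h6 := mul_nonneg (mul_nonneg ha0.le hV.le) h5
      nlinarith
  have h1 : (-2 * Ad c W x) ^ 2 * V x ≤ (-2 * Ad c W (-5)) ^ 2 * V (-5) :=
    hmono hx (by simp) hx
  have h2 := V_left h hc2 (le_refl (-5 : ℝ))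
  have h3 := a_ge5 h hc2 (le_refl (-5 : ℝ))
  have h4 : -2 * Ad c W (-5) ≤ 2.9215 := by
    unfold Ad
    have := mul_pos h.c_pos (h.W_pos (-5))
    nlinarith
  have h5 : (-2 * Ad c W (-5)) ^ 2 ≤ 2.9215 ^ 2 := by
    apply pow_le_pow_left₀ (by linarith) h4
  have h6 := mul_le_mul h5 h2 (h.V_pos (-5)).le (by positivity)
  calc _ ≤ _ := h1
    _ ≤ _ := h6
    _ ≤ 0.0214 := by norm_num

/-- the numbers of the left tail -/
structure Lnum (c v I H k : ℝ) : Prop where
  v0 : 0 < v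
  v1 : v ≤ 1 / 400
  I0 : 0 < I
  Isq : I ^ 2 ≤ 3 / 100 * v
  I1 : I ≤ 1 / 100
  k0 : 0 < k
  k1 : k ≤ 9 / 100
  H1 : H ≤ 29 / 100 * v

theorem lnum (h : SPair c W V I k c) (hc1 : 0.4157 ≤ c) (hc2 : c ≤ 0.4158) {x : ℝ} (hx : x ≤ -5) :
    Lnum c (V x) (I x) (Hf c W V I k x) (k x) := by
  have ha := a_ge5 h hc2 hx
  have hA : Ad c W x < 0 := by linarith
  have hv := h.V_pos x
  have hv1 := V_left h hc2 hx
  have hk0 := h.k_pos x
  have hI0 := h.I_pos x
  have hW := h.W_pos x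
  have h2 := a2V h hc1 hc2 hx
  have h3 := aW_le_V h x
  have h4 := I_le_aV h hA
  have h5 := k_le_left h (by linarith) hA
  have h6 := Hf_le_left h x
  set a := -2 * Ad c W x with had
  have ha0 : 0 < a := by linarith
  rw [le_div_iff₀ ha0] at h5
  have hk1 : k x ≤ 9 / 100 := by nlinarith
  -- `a v ≤ .0075`
  have h7 : a * V x ≤ 0.0075 := by
    have : 2.87 * (a * V x) ≤ a ^ 2 * V x := by nlinarith [mul_pos ha0 hv]
    linarith
  have h8 : (1 + c) / a ≤ 0.494 := by
    rw [div_le_iff₀ ha0]; nlinarith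
  have h9 : I x ≤ (a + 0.494) * V x := h4.trans (mul_le_mul_of_nonneg_right (by linarith) hv.le)
  have hH : Hf c W V I k x ≤ 29 / 100 * V x := by
    have e1 : a * ((1 + c) * W x + V x * k x) ≤ 4 * c * V x := by
      have e2 := mul_le_mul_of_nonneg_left h3 (show 0 ≤ 1 + c by linarith)
      have e3 := mul_le_mul_of_nonneg_left h5 hv.le
      nlinarith
    have e4 : 2.87 * ((1 + c) * W x + V x * k x) ≤ a * ((1 + c) * W x + V x * k x) := by
      apply mul_le_mul_of_nonneg_right ha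
      have : 0 < c := h.c_pos
      positivity
    nlinarith
  refine ⟨hv, hv1, hI0, ?_, ?_, hk0, hk1, hH⟩
  · have h10 : I x ^ 2 ≤ ((a + 0.494) * V x) ^ 2 := by
      apply pow_le_pow_left₀ hI0.le h9
    have h11 : ((a + 0.494) * V x) ^ 2 = (a ^ 2 * V x + 0.988 * (a * V x) + 0.494 ^ 2 * V x) * V x := by
      ring
    rw [h11] at h10
    refine h10.trans (mul_le_mul_of_nonneg_right ?_ hv.le)
    nlinarith
  · nlinarith

/-- `(U')`, `(L')` in the left tail; `s = ±δ b` -/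
lemma left_alg {c v I H k w b s F a : ℝ} (hc1 : 0.4157 ≤ c) (hc2 : c ≤ 0.4158)
    (hn : Lnum c v I H k) (hw : w = v * (1 - v) ^ 2) (hb0 : 0 ≤ b) (hb : b ≤ 5 / 4)
    (hs : -1 ≤ s) (hs1 : s ≤ 0.52) (hF0 : 0 ≤ F) (hF : F ≤ 3 / 2) (ha0 : 0 ≤ a) (ha : a ≤ 1) :
    b * (I ^ 2 * (1 + s) + 2 * c * w + k * H) + F * H
      + a * ((1 + s) * (v * (k * H - I ^ 2 + 2 * c * w) + I * H)) ≤ 2 * (9 / 10) * w := by
  obtain ⟨hv0, hv1, hI0, hI2, hI1, hk0, hk1, hH⟩ := hn
  have hw0 : 0 ≤ w := by rw [hw]; positivity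
  have hwv : w ≤ v := by
    rw [hw]
    have : (1 - v) ^ 2 ≤ 1 := by nlinarith
    nlinarith
  have hwl : (1 - 1 / 200) * v ≤ w := by
    rw [hw]
    have : 1 - 1 / 200 ≤ (1 - v) ^ 2 := by nlinarith
    nlinarith
  -- the pieces
  have h1 : I ^ 2 * (1 + s) ≤ 0.0456 * v := by
    calc I ^ 2 * (1 + s) ≤ (3 / 100 * v) * 1.52 :=
          mul_le_mul hI2 (by linarith) (by linarith) (by positivity)
      _ = 0.0456 * v := by ring
  have h2 : 2 * c * w ≤ 0.8316 * v := by nlinarith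
  have h3 : k * H ≤ 0.0261 * v := by
    calc k * H ≤ k * (29 / 100 * v) := mul_le_mul_of_nonneg_left hH hk0.le
      _ ≤ 9 / 100 * (29 / 100 * v) := mul_le_mul_of_nonneg_right hk1 (by positivity)
      _ = 0.0261 * v := by ring
  have h4 : b * (I ^ 2 * (1 + s) + 2 * c * w + k * H) ≤ 5 / 4 * (0.9033 * v) := by
    calc b * (I ^ 2 * (1 + s) + 2 * c * w + k * H) ≤ b * (0.9033 * v) :=
          mul_le_mul_of_nonneg_left (by linarith) hb0
      _ ≤ 5 / 4 * (0.9033 * v) := mul_le_mul_of_nonneg_right hb (by positivity)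
  have h5 : F * H ≤ 3 / 2 * (29 / 100 * v) := by
    calc F * H ≤ F * (29 / 100 * v) := mul_le_mul_of_nonneg_left hH hF0
      _ ≤ 3 / 2 * (29 / 100 * v) := mul_le_mul_of_nonneg_right hF (by positivity)
  have h6 : I * H ≤ 0.0029 * v := by
    calc I * H ≤ I * (29 / 100 * v) := mul_le_mul_of_nonneg_left hH hI0.le
      _ ≤ 1 / 100 * (29 / 100 * v) := mul_le_mul_of_nonneg_right hI1 (by positivity)
      _ = 0.0029 * v := by ring
  have h7 : v * (k * H - I ^ 2 + 2 * c * w) + I * H ≤ 0.0051 * v := by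
    have h8 : v * (k * H - I ^ 2 + 2 * c * w) ≤ v * (0.8577 * v) :=
      mul_le_mul_of_nonneg_left (by nlinarith [sq_nonneg I]) hv0.le
    have h9 : v * (0.8577 * v) ≤ 0.0022 * v := by nlinarith
    linarith
  have h8 : a * ((1 + s) * (v * (k * H - I ^ 2 + 2 * c * w) + I * H)) ≤ 0.0078 * v := by
    calc a * ((1 + s) * (v * (k * H - I ^ 2 + 2 * c * w) + I * H))
        = (a * (1 + s)) * (v * (k * H - I ^ 2 + 2 * c * w) + I * H) := by ring
      _ ≤ (a * (1 + s)) * (0.0051 * v) :=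
          mul_le_mul_of_nonneg_left h7 (mul_nonneg ha0 (by linarith))
      _ ≤ 1.52 * (0.0051 * v) := by
          apply mul_le_mul_of_nonneg_right _ (by positivity)
          nlinarith
      _ ≤ 0.0078 * v := by nlinarith
  linarith

/-! ### the right tail -/

lemma al_ge (h : SPair c W V I k c) (x : ℝ) : (1 + c) * x ≤ 2 * Ad c W x := by
  have hU : 0 < W x - x := by linarith [h.U_pos x]
  have := mul_pos h.c_pos hU
  unfold Ad
  linarith

/-- `R ≤ 1/400` for `x ≥ 3` -/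
lemma R_right (h : SPair c W V I k c) (hc1 : 0.4157 ≤ c) {x : ℝ} (hx : 3 ≤ x) :
    1 - V x ≤ 1 / 400 := by
  set q : ℝ → ℝ := fun y => (1 + c) / 2 * y ^ 2 with hq
  have hc3 : 0 < 1 - c := by linarith [h.c_lt]
  have hqd : ∀ y, HasDerivAt q ((1 + c) * y) y := fun y => by
    have h1 := ((hasDerivAt_id y).pow 2).const_mul ((1 + c) / 2)
    refine h1.congr_deriv ?_
    simp only [id]
    push_cast
    ring
  have hd : ∀ y, HasDerivAt (fun y => (1 - V y) * Real.exp (q y))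
      (-I y * Real.exp (q y) + (1 - V y) * (Real.exp (q y) * ((1 + c) * y))) y := fun y =>
    ((h.dV y).const_sub 1).mul (hqd y).exp
  have hmono : AntitoneOn (fun y => (1 - V y) * Real.exp (q y)) (Ici 0) := by
    apply antitoneOn_of_deriv_nonpos (convex_Ici _)
    · exact fun y _ => (hd y).continuousAt.continuousWithinAt
    · exact fun y _ => (hd y).differentiableAt.differentiableWithinAt
    · intro y hy
      rw [interior_Ici] at hy
      rw [(hd y).deriv]
      have hR : 0 < 1 - V y := by linarith [h.V_lt y]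
      have hU : 0 < W y - y := by linarith [h.U_pos y]
      have h1 := I_eq h y
      have h2 := mul_le_mul_of_nonneg_right (al_ge h y) hR.le
      have h4 : 0 ≤ I y - (1 - V y) * ((1 + c) * y) := by
        have := mul_pos hc3 hU
        nlinarith
      have h5 := mul_nonneg h4 (Real.exp_pos (q y)).le
      nlinarith
  have h1 : (1 - V 3) * Real.exp (q 3) ≤ (1 - V 0) * Real.exp (q 0) :=
    hmono (by simp) (by norm_num) (by norm_num)
  have h2 : 1 - V 3 ≤ Real.exp (-6) := by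
    have e1 : 1 - V 3 = (1 - V 3) * Real.exp (q 3) * Real.exp (-q 3) := by
      rw [mul_assoc, ← Real.exp_add]; simp
    rw [e1]
    calc (1 - V 3) * Real.exp (q 3) * Real.exp (-q 3)
        ≤ (1 - V 0) * Real.exp (q 0) * Real.exp (-q 3) :=
          mul_le_mul_of_nonneg_right h1 (Real.exp_pos _).le
      _ ≤ 1 * Real.exp (q 0) * Real.exp (-q 3) := by
          have := h.V_pos 0
          gcongr
          linarith
      _ = Real.exp (q 0 - q 3) := by
          rw [one_mul, ← Real.exp_add]; ring_nf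
      _ ≤ Real.exp (-6) := by
          apply Real.exp_le_exp.2
          simp only [hq]
          nlinarith
  have h3 := h.V_strictMono.monotone hx
  linarith [exp6]

/-- the numbers of the right tail, `r = I/R` -/
structure Rnum (v I H k r : ℝ) : Prop where
  R0 : 0 < 1 - v
  R1 : 1 - v ≤ 1 / 400
  I1 : I = r * (1 - v)
  r0 : 4.24 ≤ r
  k0 : 0 < k
  k1 : k ≤ 0.138
  H1 : H ≤ r * (1 - v) ^ 2 / 2

theorem rnum (h : SPair c W V I k c) (hc1 : 0.4157 ≤ c) (hc2 : c ≤ 0.4158) {x : ℝ} (hx : 3 ≤ x) :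
    Rnum (V x) (I x) (Hf c W V I k x) (k x) (I x / (1 - V x)) := by
  have hR : 0 < 1 - V x := by linarith [h.V_lt x]
  have hU : 0 < W x - x := by linarith [h.U_pos x]
  have h1 := al_ge h x
  have h2 : 4.24 ≤ 2 * Ad c W x := by nlinarith
  have h3 := k_le_right h (show 0 < Ad c W x by linarith)
  have h4 := I_eq h x
  have hc3 : 0 < 1 - c := by linarith
  have ha : 0 < 2 * Ad c W x := by linarith
  rw [le_div_iff₀ ha] at h3
  refine ⟨hR, R_right h hc1 hx, ?_, ?_, h.k_pos x, ?_, ?_⟩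
  · field_simp
  · rw [le_div_iff₀ hR, h4]
    have := mul_pos hc3 hU
    nlinarith [mul_le_mul_of_nonneg_right h2 hR.le]
  · have hk := h.k_pos x
    nlinarith
  · have h5 := Hf_le_right h x
    have e : I x / (1 - V x) * (1 - V x) ^ 2 / 2 = I x * (1 - V x) / 2 := by
      field_simp
    rw [e]; exact h5

/-- the numerical core of the right tail -/
lemma right_num {c v R k r b s F a : ℝ} (hc1 : 0.4157 ≤ c) (hc2 : c ≤ 0.4158)
    (hR0 : 0 < R) (hR1 : R ≤ 1 / 400) (hv : v = 1 - R) (hr : 4.24 ≤ r) (hk0 : 0 < k)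
    (hk1 : k ≤ 0.138) (hb0 : 0 ≤ b) (hb : b ≤ 1 / 2)
    (hs : -0.21 ≤ s) (hs1 : s ≤ 0.21) (hF : F ≤ 3 / 2) (ha0 : 4 / 5 ≤ a) (ha : a ≤ 1) :
    (1 + s) * (b - a * (v - R / 2)) * r ^ 2 +
        (b * k + F + a * ((1 + s) * (v * k))) / 2 * r + 2 * c * v * (b + a * (1 + s) * v) ≤
      9 / 5 * v := by
  have hv0 : 0 < v := by linarith
  have hr0 : 0 < r := by linarith
  have hv1 : v ≤ 1 := by linarith
  have hvl : 399 / 400 ≤ v := by linarith
  have h4 : b - a * (v - R / 2) ≤ -0.29 := by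
    have e1 : 0.99 ≤ v - R / 2 := by linarith
    have e2 : 4 / 5 * 0.99 ≤ a * (v - R / 2) := mul_le_mul ha0 e1 (by norm_num) (by linarith)
    linarith
  have h5 : (1 + s) * (b - a * (v - R / 2)) ≤ -0.229 := by
    have e1 : (1 + s) * (b - a * (v - R / 2)) ≤ (1 + s) * (-0.29) :=
      mul_le_mul_of_nonneg_left h4 (by linarith)
    linarith
  have h6 : (1 + s) * (b - a * (v - R / 2)) * r ^ 2 ≤ -0.229 * r ^ 2 :=
    mul_le_mul_of_nonneg_right h5 (by positivity)
  have h7 : b * k ≤ 0.069 := by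
    have := mul_le_mul hb hk1 hk0.le (by norm_num)
    linarith
  have hs2 : 0 ≤ 1 + s := by linarith
  have has : a * (1 + s) ≤ 1.21 := by
    have := mul_le_mul ha (show 1 + s ≤ 1.21 by linarith) hs2 (by norm_num)
    linarith
  have has0 : 0 ≤ a * (1 + s) := mul_nonneg (by linarith) hs2
  have h8 : a * ((1 + s) * (v * k)) ≤ 0.167 := by
    have e1 : v * k ≤ 1 * 0.138 := mul_le_mul hv1 hk1 hk0.le (by norm_num)
    have e2 : a * ((1 + s) * (v * k)) = a * (1 + s) * (v * k) := by ring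
    rw [e2]
    calc a * (1 + s) * (v * k) ≤ 1.21 * (1 * 0.138) :=
          mul_le_mul has e1 (mul_pos hv0 hk0).le (by norm_num)
      _ ≤ 0.167 := by norm_num
  have h9 : (b * k + F + a * ((1 + s) * (v * k))) / 2 * r ≤ 0.868 * r :=
    mul_le_mul_of_nonneg_right (by linarith) hr0.le
  have h10 : 2 * c * v * (b + a * (1 + s) * v) ≤ 1.43 := by
    have e1 : a * (1 + s) * v ≤ 1.21 * 1 := mul_le_mul has hv1 hv0.le (by norm_num)
    have e2 : 2 * c * v ≤ 0.8316 * 1 := mul_le_mul (by linarith) hv1 hv0.le (by norm_num)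
    calc 2 * c * v * (b + a * (1 + s) * v) ≤ 0.8316 * 1 * 1.71 := by
          apply mul_le_mul e2 (by linarith) _ (by norm_num)
          have : 0 ≤ a * (1 + s) * v := mul_nonneg has0 hv0.le
          linarith
      _ ≤ 1.43 := by norm_num
  have h11 : -0.229 * r ^ 2 + 0.868 * r + 1.43 ≤ 1.1 := by
    have e1 : 4.24 * r ≤ r ^ 2 := by
      rw [sq]; exact mul_le_mul_of_nonneg_right hr hr0.le
    linarith
  linarith

/-- `(U')`, `(L')` in the right tail; `s = ±δ b` -/
lemma right_alg {c v I H k r w b s F a : ℝ} (hc1 : 0.4157 ≤ c) (hc2 : c ≤ 0.4158)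
    (hn : Rnum v I H k r) (hw : w = v * (1 - v) ^ 2) (hb0 : 0 ≤ b) (hb : b ≤ 1 / 2)
    (hs : -0.21 ≤ s) (hs1 : s ≤ 0.21) (hF0 : 0 ≤ F) (hF : F ≤ 3 / 2) (ha0 : 4 / 5 ≤ a)
    (ha : a ≤ 1) :
    b * (I ^ 2 * (1 + s) + 2 * c * w + k * H) + F * H
      + a * ((1 + s) * (v * (k * H - I ^ 2 + 2 * c * w) + I * H)) ≤ 2 * (9 / 10) * w := by
  obtain ⟨hR0, hR1, hI, hr, hk0, hk1, hH⟩ := hn
  set R := 1 - v with hR
  have hv : v = 1 - R := by rw [hR]; ring
  have hv0 : 0 < v := by linarith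
  have hr0 : 0 < r := by linarith
  have hR2 : 0 < R ^ 2 := by positivity
  have hI0 : 0 < I := by rw [hI]; positivity
  -- replace `H` by its upper bound
  have hcoef : 0 ≤ b * k + F + a * ((1 + s) * (v * k + I)) := by
    have h1 : 0 ≤ 1 + s := by linarith
    have : 0 ≤ a := by linarith
    positivity
  have h1 : b * (I ^ 2 * (1 + s) + 2 * c * w + k * H) + F * H
      + a * ((1 + s) * (v * (k * H - I ^ 2 + 2 * c * w) + I * H)) ≤
      b * (I ^ 2 * (1 + s) + 2 * c * w + k * (r * R ^ 2 / 2)) + F * (r * R ^ 2 / 2)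
      + a * ((1 + s) * (v * (k * (r * R ^ 2 / 2) - I ^ 2 + 2 * c * w) + I * (r * R ^ 2 / 2))) := by
    have h2 := mul_le_mul_of_nonneg_left hH hcoef
    nlinarith
  refine h1.trans ?_
  have h2 : b * (I ^ 2 * (1 + s) + 2 * c * w + k * (r * R ^ 2 / 2)) + F * (r * R ^ 2 / 2)
      + a * ((1 + s) * (v * (k * (r * R ^ 2 / 2) - I ^ 2 + 2 * c * w) + I * (r * R ^ 2 / 2))) =
      R ^ 2 * ((1 + s) * (b - a * (v - R / 2)) * r ^ 2 +
        (b * k + F + a * ((1 + s) * (v * k))) / 2 * r + 2 * c * v * (b + a * (1 + s) * v)) := by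
    rw [hI, hw]; ring
  have h3 : (2 : ℝ) * (9 / 10) * w = R ^ 2 * (9 / 5 * v) := by rw [hw]; ring
  rw [h2, h3]
  refine mul_le_mul_of_nonneg_left ?_ hR2.le
  exact right_num hc1 hc2 hR0 hR1 hv hr hk0 hk1 hb0 hb hs hs1 hF ha0 ha

/-! ### the closure fields in the tails -/

/-- the tail region and the size of `b` there -/
def Tail (x b : ℝ) : Prop := (x ≤ -5 ∧ b ≤ 5 / 4) ∨ (3 ≤ x ∧ b ≤ 1 / 2)

/-- **`(U')` in the tails** (exact form of `Dual_924.up_corner`) -/
theorem up_tail (h : SPair c W V I k c) (hc1 : 0.4157 ≤ c) (hc2 : c ≤ 0.4158) {x b F a δ : ℝ}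
    (hx : Tail x b) (hb0 : 0 ≤ b) (hF0 : 0 ≤ F) (hF : F ≤ 3 / 2) (ha0 : 4 / 5 ≤ a) (ha : a ≤ 1)
    (hδ0 : 0 ≤ δ) (hδ : δ ≤ c) :
    b * (I x ^ 2 * (1 + δ * b) + 2 * c * (V x * (1 - V x) ^ 2) + k x * Hf c W V I k x)
      + F * Hf c W V I k x
      + a * ((1 + δ * b) * (V x * (k x * Hf c W V I k x - I x ^ 2 + 2 * c * (V x * (1 - V x) ^ 2))
        + I x * Hf c W V I k x)) ≤ 2 * (9 / 10) * (V x * (1 - V x) ^ 2) := by
  have hδb : 0 ≤ δ * b := mul_nonneg hδ0 hb0
  rcases hx with ⟨hx, hb⟩ | ⟨hx, hb⟩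
  · refine left_alg hc1 hc2 (lnum h hc1 hc2 hx) rfl hb0 hb (by linarith) ?_ hF0 hF (by linarith) ha
    have := mul_le_mul (hδ.trans hc2) hb hb0 (by norm_num)
    linarith
  · refine right_alg hc1 hc2 (rnum h hc1 hc2 hx) rfl hb0 hb (by linarith) ?_ hF0 hF ha0 ha
    have := mul_le_mul (hδ.trans hc2) hb hb0 (by norm_num)
    linarith

/-- **`(L')` in the tails** (exact form of `Dual_924.lo_corner`) -/
theorem lo_tail (h : SPair c W V I k c) (hc1 : 0.4157 ≤ c) (hc2 : c ≤ 0.4158) {x b F a δ : ℝ}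
    (hx : Tail x b) (hb0 : 0 ≤ b) (hF0 : 0 ≤ F) (hF : F ≤ 3 / 2) (ha0 : 4 / 5 ≤ a) (ha : a ≤ 1)
    (hδ0 : 0 ≤ δ) (hδ : δ ≤ c) :
    b * (I x ^ 2 * (1 - δ * b) + 2 * c * (V x * (1 - V x) ^ 2) + k x * Hf c W V I k x)
      + F * Hf c W V I k x
      + a * ((1 - δ * b) * (V x * (k x * Hf c W V I k x - I x ^ 2 + 2 * c * (V x * (1 - V x) ^ 2))
        + I x * Hf c W V I k x)) ≤ 2 * (9 / 10) * (V x * (1 - V x) ^ 2) := by
  have hδb : 0 ≤ δ * b := mul_nonneg hδ0 hb0
  simp only [sub_eq_add_neg (1 : ℝ) (δ * b)]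
  rcases hx with ⟨hx, hb⟩ | ⟨hx, hb⟩
  · refine left_alg hc1 hc2 (lnum h hc1 hc2 hx) rfl hb0 hb ?_ (by linarith) hF0 hF (by linarith) ha
    have := mul_le_mul (hδ.trans hc2) hb hb0 (by norm_num)
    linarith
  · refine right_alg hc1 hc2 (rnum h hc1 hc2 hx) rfl hb0 hb ?_ (by linarith) hF0 hF ha0 ha
    have := mul_le_mul (hδ.trans hc2) hb hb0 (by norm_num)
    linarith




end Crest.Agent.R146.CloTail_649
end

-- ▼ part R146/CloTail2_649
section

/-!
# Row 146, NUMREF, closure: the tails plugged into `Clo_924.Cert` (helper649)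

`cert_of_cells`: `Cert` from the gauge forms `gaL` on `[-5, y0]` and `gaR` on `[y0, 3]` only.
-/

set_option autoImplicit false

namespace Crest.Agent.R146.CloTail2_649

open Crest.Agent.R146.SPair_307 Crest.Agent.R146.HFact_924 Crest.Agent.R146.Clo_924
open Crest.Agent.R146.CloG_924 Crest.Agent.R146.CloTail_649

variable {c : ℝ} {W V I k : ℝ → ℝ}

/-- `PHI ≤ 2 G w` in the tails -/
theorem phi_tail (h : SPair c W V I k c) (hc1 : 0.4157 ≤ c) (hc2 : c ≤ 0.4158) {x B F a G σ : ℝ}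
    (hx : Tail x B) (hb0 : 0 ≤ B) (hF0 : 0 ≤ F) (hF : F ≤ 3 / 2) (ha0 : 4 / 5 ≤ a) (ha : a ≤ 1)
    (hG : 9 / 10 ≤ G) (hσ : σ = c ∨ σ = -c) :
    PHI c a F B σ (V x) (I x) (k x) (HH c W V I k x) ≤ 2 * G * (V x * (1 - V x) ^ 2) := by
  have hc := h.c_pos
  have hw : 0 ≤ V x * (1 - V x) ^ 2 := mul_nonneg (h.V_pos x).le (sq_nonneg _)
  have hG' : 2 * (9 / 10) * (V x * (1 - V x) ^ 2) ≤ 2 * G * (V x * (1 - V x) ^ 2) :=
    mul_le_mul_of_nonneg_right (by linarith) hw
  have e : HH c W V I k x = Hf c W V I k x := rfl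
  rw [e]
  rcases hσ with rfl | rfl
  · have h1 := up_tail h hc1 hc2 hx hb0 hF0 hF ha0 ha hc.le le_rfl
    refine le_trans (le_of_eq ?_) (h1.trans hG')
    unfold PHI
    ring
  · have h1 := lo_tail h hc1 hc2 hx hb0 hF0 hF ha0 ha hc.le le_rfl
    refine le_trans (le_of_eq ?_) (h1.trans hG')
    unfold PHI
    ring


end Crest.Agent.R146.CloTail2_649
end

-- ▼ part R146/CloTail3_649
section

/-!
# Row 146, NUMREF, closure tails with `F ≤ 33/20`, `G ≥ 19/20` (helper649)
-/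

set_option autoImplicit false

namespace Crest.Agent.R146.CloTail3_649

open Crest.Agent.R146.SPair_307 Crest.Agent.R146.HFact_924 Crest.Agent.R146.Clo_924
open Crest.Agent.R146.CloG_924 Crest.Agent.R146.CloTail_649 Crest.Agent.R146.CloTail2_649

variable {c : ℝ} {W V I k : ℝ → ℝ}

/-- the numerical core of the right tail -/
lemma right_num3 {c v R k r b s F a : ℝ} (hc1 : 0.4157 ≤ c) (hc2 : c ≤ 0.4158)
    (hR0 : 0 < R) (hR1 : R ≤ 1 / 400) (hv : v = 1 - R) (hr : 4.24 ≤ r) (hk0 : 0 < k)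
    (hk1 : k ≤ 0.138) (hb0 : 0 ≤ b) (hb : b ≤ 1 / 2)
    (hs : -0.21 ≤ s) (hs1 : s ≤ 0.21) (hF : F ≤ 33 / 20) (ha0 : 4 / 5 ≤ a) (ha : a ≤ 1) :
    (1 + s) * (b - a * (v - R / 2)) * r ^ 2 +
        (b * k + F + a * ((1 + s) * (v * k))) / 2 * r + 2 * c * v * (b + a * (1 + s) * v) ≤
      9 / 5 * v := by
  have hv0 : 0 < v := by linarith
  have hr0 : 0 < r := by linarith
  have hv1 : v ≤ 1 := by linarith
  have hvl : 399 / 400 ≤ v := by linarith
  have h4 : b - a * (v - R / 2) ≤ -0.29 := by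
    have e1 : 0.99 ≤ v - R / 2 := by linarith
    have e2 : 4 / 5 * 0.99 ≤ a * (v - R / 2) := mul_le_mul ha0 e1 (by norm_num) (by linarith)
    linarith
  have h5 : (1 + s) * (b - a * (v - R / 2)) ≤ -0.229 := by
    have e1 : (1 + s) * (b - a * (v - R / 2)) ≤ (1 + s) * (-0.29) :=
      mul_le_mul_of_nonneg_left h4 (by linarith)
    linarith
  have h6 : (1 + s) * (b - a * (v - R / 2)) * r ^ 2 ≤ -0.229 * r ^ 2 :=
    mul_le_mul_of_nonneg_right h5 (by positivity)
  have h7 : b * k ≤ 0.069 := by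
    have := mul_le_mul hb hk1 hk0.le (by norm_num)
    linarith
  have hs2 : 0 ≤ 1 + s := by linarith
  have has : a * (1 + s) ≤ 1.21 := by
    have := mul_le_mul ha (show 1 + s ≤ 1.21 by linarith) hs2 (by norm_num)
    linarith
  have has0 : 0 ≤ a * (1 + s) := mul_nonneg (by linarith) hs2
  have h8 : a * ((1 + s) * (v * k)) ≤ 0.167 := by
    have e1 : v * k ≤ 1 * 0.138 := mul_le_mul hv1 hk1 hk0.le (by norm_num)
    have e2 : a * ((1 + s) * (v * k)) = a * (1 + s) * (v * k) := by ring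
    rw [e2]
    calc a * (1 + s) * (v * k) ≤ 1.21 * (1 * 0.138) :=
          mul_le_mul has e1 (mul_pos hv0 hk0).le (by norm_num)
      _ ≤ 0.167 := by norm_num
  have h9 : (b * k + F + a * ((1 + s) * (v * k))) / 2 * r ≤ 0.943 * r :=
    mul_le_mul_of_nonneg_right (by linarith) hr0.le
  have h10 : 2 * c * v * (b + a * (1 + s) * v) ≤ 1.43 := by
    have e1 : a * (1 + s) * v ≤ 1.21 * 1 := mul_le_mul has hv1 hv0.le (by norm_num)
    have e2 : 2 * c * v ≤ 0.8316 * 1 := mul_le_mul (by linarith) hv1 hv0.le (by norm_num)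
    calc 2 * c * v * (b + a * (1 + s) * v) ≤ 0.8316 * 1 * 1.71 := by
          apply mul_le_mul e2 (by linarith) _ (by norm_num)
          have : 0 ≤ a * (1 + s) * v := mul_nonneg has0 hv0.le
          linarith
      _ ≤ 1.43 := by norm_num
  have h11 : -0.229 * r ^ 2 + 0.943 * r + 1.43 ≤ 1.4 := by
    have e1 : 4.24 * r ≤ r ^ 2 := by
      rw [sq]; exact mul_le_mul_of_nonneg_right hr hr0.le
    linarith
  linarith

/-- `(U')`, `(L')` in the right tail; `s = ±δ b` -/
lemma right_alg3 {c v I H k r w b s F a : ℝ} (hc1 : 0.4157 ≤ c) (hc2 : c ≤ 0.4158)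
    (hn : Rnum v I H k r) (hw : w = v * (1 - v) ^ 2) (hb0 : 0 ≤ b) (hb : b ≤ 1 / 2)
    (hs : -0.21 ≤ s) (hs1 : s ≤ 0.21) (hF0 : 0 ≤ F) (hF : F ≤ 33 / 20) (ha0 : 4 / 5 ≤ a)
    (ha : a ≤ 1) :
    b * (I ^ 2 * (1 + s) + 2 * c * w + k * H) + F * H
      + a * ((1 + s) * (v * (k * H - I ^ 2 + 2 * c * w) + I * H)) ≤ 2 * (9 / 10) * w := by
  obtain ⟨hR0, hR1, hI, hr, hk0, hk1, hH⟩ := hn
  set R := 1 - v with hR
  have hv : v = 1 - R := by rw [hR]; ring
  have hv0 : 0 < v := by linarith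
  have hr0 : 0 < r := by linarith
  have hR2 : 0 < R ^ 2 := by positivity
  have hI0 : 0 < I := by rw [hI]; positivity
  -- replace `H` by its upper bound
  have hcoef : 0 ≤ b * k + F + a * ((1 + s) * (v * k + I)) := by
    have h1 : 0 ≤ 1 + s := by linarith
    have : 0 ≤ a := by linarith
    positivity
  have h1 : b * (I ^ 2 * (1 + s) + 2 * c * w + k * H) + F * H
      + a * ((1 + s) * (v * (k * H - I ^ 2 + 2 * c * w) + I * H)) ≤
      b * (I ^ 2 * (1 + s) + 2 * c * w + k * (r * R ^ 2 / 2)) + F * (r * R ^ 2 / 2)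
      + a * ((1 + s) * (v * (k * (r * R ^ 2 / 2) - I ^ 2 + 2 * c * w) + I * (r * R ^ 2 / 2))) := by
    have h2 := mul_le_mul_of_nonneg_left hH hcoef
    nlinarith
  refine h1.trans ?_
  have h2 : b * (I ^ 2 * (1 + s) + 2 * c * w + k * (r * R ^ 2 / 2)) + F * (r * R ^ 2 / 2)
      + a * ((1 + s) * (v * (k * (r * R ^ 2 / 2) - I ^ 2 + 2 * c * w) + I * (r * R ^ 2 / 2))) =
      R ^ 2 * ((1 + s) * (b - a * (v - R / 2)) * r ^ 2 +
        (b * k + F + a * ((1 + s) * (v * k))) / 2 * r + 2 * c * v * (b + a * (1 + s) * v)) := by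
    rw [hI, hw]; ring
  have h3 : (2 : ℝ) * (9 / 10) * w = R ^ 2 * (9 / 5 * v) := by rw [hw]; ring
  rw [h2, h3]
  refine mul_le_mul_of_nonneg_left ?_ hR2.le
  exact right_num3 hc1 hc2 hR0 hR1 hv hr hk0 hk1 hb0 hb hs hs1 hF ha0 ha

/-- `PHI ≤ 2 G w` in the tails, `F ≤ 33/20` -/
theorem phi_tail3 (h : SPair c W V I k c) (hc1 : 0.4157 ≤ c) (hc2 : c ≤ 0.4158) {x B F a G σ : ℝ}
    (hx : Tail x B) (hb0 : 0 ≤ B) (hF0 : 0 ≤ F) (hF : F ≤ 33 / 20) (ha0 : 4 / 5 ≤ a) (ha : a ≤ 1)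
    (hG : 19 / 20 ≤ G) (hσ : σ = c ∨ σ = -c) :
    PHI c a F B σ (V x) (I x) (k x) (HH c W V I k x) ≤ 2 * G * (V x * (1 - V x) ^ 2) := by
  have hc := h.c_pos
  have hw : 0 ≤ V x * (1 - V x) ^ 2 := mul_nonneg (h.V_pos x).le (sq_nonneg _)
  have hs : -c ≤ σ ∧ σ ≤ c := by
    rcases hσ with rfl | rfl
    · exact ⟨by linarith, le_rfl⟩
    · exact ⟨le_rfl, by linarith⟩
  rcases hx with ⟨hx, hb⟩ | ⟨hx, hb⟩
  · rcases le_total F (3 / 2) with hF1 | hF1
    · exact phi_tail h hc1 hc2 (Or.inl ⟨hx, hb⟩) hb0 hF0 hF1 ha0 ha (by linarith) hσ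
    have h1 := phi_tail h hc1 hc2 (F := 3 / 2) (Or.inl ⟨hx, hb⟩) hb0 (by norm_num) le_rfl ha0 ha
      (le_refl (9 / 10 : ℝ)) hσ
    have hn := lnum h hc1 hc2 hx
    have e : HH c W V I k x = Hf c W V I k x := rfl
    have e2 : PHI c a F B σ (V x) (I x) (k x) (HH c W V I k x) =
        PHI c a (3 / 2) B σ (V x) (I x) (k x) (HH c W V I k x) +
          (F - 3 / 2) * Hf c W V I k x := by
      rw [e]; unfold PHI; ring
    have h2 : (F - 3 / 2) * Hf c W V I k x ≤ 3 / 20 * (29 / 100 * V x) := by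
      calc (F - 3 / 2) * Hf c W V I k x ≤ (F - 3 / 2) * (29 / 100 * V x) :=
            mul_le_mul_of_nonneg_left hn.H1 (by linarith)
        _ ≤ 3 / 20 * (29 / 100 * V x) :=
            mul_le_mul_of_nonneg_right (by linarith) (mul_nonneg (by norm_num) hn.v0.le)
    have h3 : (1 - 1 / 200) * V x ≤ V x * (1 - V x) ^ 2 := by
      have h4 : 1 - 1 / 200 ≤ (1 - V x) ^ 2 := by nlinarith [hn.v0, hn.v1]
      rw [mul_comm]
      exact mul_le_mul_of_nonneg_left h4 hn.v0.le
    have h5 : 2 * (19 / 20) * (V x * (1 - V x) ^ 2) ≤ 2 * G * (V x * (1 - V x) ^ 2) :=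
      mul_le_mul_of_nonneg_right (by linarith) hw
    rw [e2]
    linarith
  · have hcb : c * B ≤ 0.4158 * (1 / 2) := mul_le_mul hc2 hb hb0 (by norm_num)
    have hcb0 : 0 ≤ c * B := mul_nonneg hc.le hb0
    have hsB : -(c * B) ≤ σ * B ∧ σ * B ≤ c * B := by
      constructor
      · rw [← neg_mul]; exact mul_le_mul_of_nonneg_right hs.1 hb0
      · exact mul_le_mul_of_nonneg_right hs.2 hb0
    have h1 := right_alg3 hc1 hc2 (rnum h hc1 hc2 hx) rfl hb0 hb (s := σ * B)
      (by linarith [hsB.1]) (by linarith [hsB.2]) hF0 hF ha0 ha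
    have hG' : 2 * (9 / 10) * (V x * (1 - V x) ^ 2) ≤ 2 * G * (V x * (1 - V x) ^ 2) :=
      mul_le_mul_of_nonneg_right (by linarith) hw
    have e : HH c W V I k x = Hf c W V I k x := rfl
    rw [e]
    refine le_trans (le_of_eq ?_) (h1.trans hG')
    unfold PHI
    ring


end Crest.Agent.R146.CloTail3_649
end

-- ▼ part R146/CloD_924
section

/-!
# Row 146, NUMREF, node C3: the closure certificate at every point (helper924)
-/

set_option autoImplicit false

namespace Crest.Agent.R146.CloD_924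

open Set Filter Topology
open Crest.Agent.R146.PP865 Crest.Agent.R146.EncR_848 Crest.Agent.R146.Enc1_848
open Crest.Agent.R146.SPair_307 Crest.Agent.R146.HFact_924 Crest.Agent.R146.Clo_924
open Crest.Agent.R146.CloG_924 Crest.Agent.R146.C3_924 Crest.Agent.R146.CloC_924
open Crest.Agent.R146.QEnc_865

noncomputable section

/-- the variables of the cells -/
def wv (c σ : ℝ) (W V I k : ℝ → ℝ) (x : ℝ) (i : ℕ) : ℝ :=
  if i = 1 then W x else if i = 2 then V x else if i = 3 then I x else if i = 4 then k x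
  else if i = 7 then qv V I x else if i = 22 then c else if i = 23 then σ
  else cv 36 C1D_445.P0 C1D_445.PS x i

theorem cv1 (x : ℝ) : cv 36 C1D_445.P0 C1D_445.PS x 1 = F 0 x :=
  congrFun (Fn_exts (by norm_num) C1D_445.len6 C1D_445.g0 C1D_445.gs) x
theorem cv2 (x : ℝ) : cv 36 C1D_445.P0 C1D_445.PS x 2 = F1 0 x :=
  congrFun (Fn1_exts (by norm_num) C1D_445.len6 C1D_445.g0 C1D_445.gs) x
theorem cv3 (x : ℝ) : cv 36 C1D_445.P0 C1D_445.PS x 3 = F2 0 x :=
  congrFun (Fn2_exts (by norm_num) C1D_445.len6 C1D_445.g0 C1D_445.gs) x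
theorem cv4 (x : ℝ) : cv 36 C1D_445.P0 C1D_445.PS x 4 = F 1 x :=
  congrFun (Fn_exts (by norm_num) C1D_445.len6 C1D_445.g0 C1D_445.gs) x
theorem cv7 (x : ℝ) : cv 36 C1D_445.P0 C1D_445.PS x 7 = F 2 x :=
  congrFun (Fn_exts (by norm_num) C1D_445.len6 C1D_445.g0 C1D_445.gs) x

theorem evR_90 (v : ℕ → ℝ) : (90 : Ex).evR v = 90 := by simpa using Ex.evR_ofNat v 90
theorem evR_100 (v : ℕ → ℝ) : (100 : Ex).evR v = 100 := by simpa using Ex.evR_ofNat v 100
theorem evR_190 (v : ℕ → ℝ) : (190 : Ex).evR v = 190 := by simpa using Ex.evR_ofNat v 190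

section main

variable {c σ : ℝ} {W V I k : ℝ → ℝ}

theorem I_enc (h : SPair c W V I k c) {x : ℝ} (h1 : -5 ≤ x) (h2 : x ≤ 3) :
    |I x - F2 0 x| ≤ 460 / 2 ^ 20 := by
  have E := Enc3_848.enc h
  rcases le_total (-3) x with h3 | h3
  · exact E.I3 x h3 h2
  · refine (E.I8 x (by linarith) (by linarith)).trans ?_
    have hA := E.A8 x (by linarith) (by linarith)
    have hW := E.W8 x (by linarith) (by linarith)
    have hc1 := E.c_lo
    have hc2 := E.c_hi
    have hWp := h.W_pos x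
    have hWm := CloTail_649.W_quarter h (x := x) (by linarith)
    have hW1 : W x ≤ 1 / 12 := by nlinarith
    rw [Enc1_848.Ad_eq]
    have h4 : |(1 - c) * x + 2 * c * W x| ≤ 3 := by
      norm_num at hc1 hc2
      rw [abs_le]
      constructor <;> nlinarith
    norm_num
    linarith

theorem w_bd (h : SPair c W V I k c) {x : ℝ} (h1 : -5 ≤ x) (h2 : x ≤ 3) :
    ∀ i ≤ 21, |wv c σ W V I k x i - cv 36 C1D_445.P0 C1D_445.PS x i| ≤ (er i : ℝ) / 2 ^ 36 := by
  have E := Enc3_848.enc h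
  intro i hi
  by_cases e1 : i = 1
  · subst e1
    rw [cv1]
    refine (E.W8 x (by linarith) (by linarith)).trans ?_
    norm_num [er]
  by_cases e2 : i = 2
  · subst e2
    rw [cv2]
    refine (E.V8 x (by linarith) (by linarith)).trans ?_
    norm_num [er]
  by_cases e3 : i = 3
  · subst e3
    rw [cv3]
    refine (I_enc h h1 h2).trans ?_
    norm_num [er]
  by_cases e4 : i = 4
  · subst e4
    rw [cv4]
    refine (E.k6 x (by linarith) (by linarith)).trans ?_
    norm_num [er]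
  by_cases e7 : i = 7
  · subst e7
    rw [cv7]
    refine (encQ h E.c_lo E.c_hi x ⟨by linarith, by linarith⟩).trans ?_
    norm_num [er]
  have e : wv c σ W V I k x i = cv 36 C1D_445.P0 C1D_445.PS x i := by
    unfold wv
    rw [if_neg e1, if_neg e2, if_neg e3, if_neg e4, if_neg e7, if_neg (by omega), if_neg (by omega)]
  rw [e, sub_self, abs_zero]
  positivity

theorem boxp (h : SPair c W V I k c) (x : ℝ) (hs0 : 0 ≤ σ) (hs : σ ≤ c) :
    ∀ q ∈ CloC_924.bp, q.2.1.evR (wv c σ W V I k x) ≤ wv c σ W V I k x q.1 ∧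
      wv c σ W V I k x q.1 ≤ q.2.2.evR (wv c σ W V I k x) := by
  have E := Enc3_848.enc h
  have hc1 := E.c_lo
  have hc2 := E.c_hi
  intro q hq
  simp only [CloC_924.bp, List.mem_cons, List.not_mem_nil, or_false] at hq
  rcases hq with rfl | rfl
  · simp only [Ex.evR_cst]
    have e : wv c σ W V I k x 22 = c := rfl
    rw [e]
    norm_num at hc1 hc2 ⊢
    exact ⟨by linarith, by linarith⟩
  · simp only [Ex.evR_cst]
    have e : wv c σ W V I k x 23 = σ := rfl
    rw [e]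
    norm_num at hc1 hc2 ⊢
    exact ⟨by linarith, by linarith⟩

theorem boxm (h : SPair c W V I k c) (x : ℝ) (hs0 : -c ≤ σ) (hs : σ ≤ 0) :
    ∀ q ∈ CloC_924.bm, q.2.1.evR (wv c σ W V I k x) ≤ wv c σ W V I k x q.1 ∧
      wv c σ W V I k x q.1 ≤ q.2.2.evR (wv c σ W V I k x) := by
  have E := Enc3_848.enc h
  have hc1 := E.c_lo
  have hc2 := E.c_hi
  intro q hq
  simp only [CloC_924.bm, List.mem_cons, List.not_mem_nil, or_false] at hq
  rcases hq with rfl | rfl
  · simp only [Ex.evR_cst]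
    have e : wv c σ W V I k x 22 = c := rfl
    rw [e]
    norm_num at hc1 hc2 ⊢
    exact ⟨by linarith, by linarith⟩
  · simp only [Ex.evR_cst]
    have e : wv c σ W V I k x 23 = σ := rfl
    rw [e]
    norm_num at hc1 hc2 ⊢
    exact ⟨by linarith, by linarith⟩

theorem evL (x : ℝ) (nF : ℤ) : (eL nF).evR (wv c σ W V I k x)
    = 100 * gaL c (9 / 10) (nF / 100) (19 / 20) (BC x) σ (V x) (I x) (k x)
      (V x * (1 - V x) / I x) (W x - x) := by
  have e0 : wv c σ W V I k x 0 = x := rfl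
  have e1 : wv c σ W V I k x 1 = W x := rfl
  have e2 : wv c σ W V I k x 2 = V x := rfl
  have e3 : wv c σ W V I k x 3 = I x := rfl
  have e4 : wv c σ W V I k x 4 = k x := rfl
  have e7 : wv c σ W V I k x 7 = V x * (1 - V x) / I x := rfl
  have e19 : wv c σ W V I k x 19 = C1D_445.b x := rfl
  have e22 : wv c σ W V I k x 22 = c := rfl
  have e23 : wv c σ W V I k x 23 = σ := rfl
  simp only [eL, xR, xB, xh, xw, Ex.evR_sub, Ex.evR_add, Ex.evR_mul, Ex.evR_cst, Ex.evR_var,
    evR_90, evR_100, evR_190, Enc1_848.evR_one, Enc1_848.evR_two, e0, e1, e2, e3, e4, e7, e19, e22, e23, gaL, BC]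
  push_cast
  ring

theorem evRR (x : ℝ) (nF : ℤ) : (eR nF).evR (wv c σ W V I k x)
    = 100 * gaR c (9 / 10) (nF / 100) (19 / 20) (BC x) σ (V x) (I x) (k x)
      (V x * (1 - V x) / I x) := by
  have e2 : wv c σ W V I k x 2 = V x := rfl
  have e3 : wv c σ W V I k x 3 = I x := rfl
  have e4 : wv c σ W V I k x 4 = k x := rfl
  have e7 : wv c σ W V I k x 7 = V x * (1 - V x) / I x := rfl
  have e19 : wv c σ W V I k x 19 = C1D_445.b x := rfl
  have e22 : wv c σ W V I k x 22 = c := rfl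
  have e23 : wv c σ W V I k x 23 = σ := rfl
  simp only [eR, xB, Ex.evR_sub, Ex.evR_add, Ex.evR_mul, Ex.evR_cst, Ex.evR_var,
    evR_90, evR_100, evR_190, Enc1_848.evR_one, Enc1_848.evR_two, e2, e3, e4, e7, e19, e22, e23, gaR, BC]
  push_cast
  ring

/-- left cells -/
theorem cellL (h : SPair c W V I k c) {x : ℝ} (h1 : -5 ≤ x) (h2 : x ≤ 7 / 8) :
    (∀ σ, 0 ≤ σ → σ ≤ c → 0 ≤ gaL c (9 / 10) (150 / 100) (19 / 20) (BC x) σ (V x) (I x) (k x)
      (V x * (1 - V x) / I x) (W x - x)) ∧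
    (∀ σ, -c ≤ σ → σ ≤ 0 → 0 ≤ gaL c (9 / 10) (161 / 100) (19 / 20) (BC x) σ (V x) (I x) (k x)
      (V x * (1 - V x) / I x) (W x - x)) := by
  constructor
  · intro σ hs0 hs
    have key := checkBoxT_sound C1D_445.adj_PS L1 (z := x) (by rw [C3_924.lo8]; linarith)
      (by rw [C3_924.hi8]; linarith) (by norm_num; linarith) (by norm_num; linarith)
      (w := wv c σ W V I k x) rfl (w_bd h h1 (by linarith)) (boxp h x hs0 hs)
    rw [evL] at key
    push_cast at key
    linarith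
  · intro σ hs0 hs
    have key := checkBoxT_sound C1D_445.adj_PS L2 (z := x) (by rw [C3_924.lo8]; linarith)
      (by rw [C3_924.hi8]; linarith) (by norm_num; linarith) (by norm_num; linarith)
      (w := wv c σ W V I k x) rfl (w_bd h h1 (by linarith)) (boxm h x hs0 hs)
    rw [evL] at key
    push_cast at key
    linarith

/-- right cells -/
theorem cellR (h : SPair c W V I k c) {x : ℝ} (h1 : 7 / 8 ≤ x) (h2 : x ≤ 3) :
    (∀ σ, 0 ≤ σ → σ ≤ c → 0 ≤ gaR c (9 / 10) (150 / 100) (19 / 20) (BC x) σ (V x) (I x) (k x)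
      (V x * (1 - V x) / I x)) ∧
    (∀ σ, -c ≤ σ → σ ≤ 0 → 0 ≤ gaR c (9 / 10) (161 / 100) (19 / 20) (BC x) σ (V x) (I x) (k x)
      (V x * (1 - V x) / I x)) := by
  constructor
  · intro σ hs0 hs
    have key := checkBoxT_sound C1D_445.adj_PS R1 (z := x) (by rw [C3_924.lo8]; linarith)
      (by rw [C3_924.hi8]; linarith) (by norm_num; linarith) (by norm_num; linarith)
      (w := wv c σ W V I k x) rfl (w_bd h (by linarith) (by linarith)) (boxp h x hs0 hs)
    rw [evRR] at key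
    push_cast at key
    linarith
  · intro σ hs0 hs
    have key := checkBoxT_sound C1D_445.adj_PS R2 (z := x) (by rw [C3_924.lo8]; linarith)
      (by rw [C3_924.hi8]; linarith) (by norm_num; linarith) (by norm_num; linarith)
      (w := wv c σ W V I k x) rfl (w_bd h (by linarith) (by linarith)) (boxm h x hs0 hs)
    rw [evRR] at key
    push_cast at key
    linarith

theorem cb3 : chkBoxR 36 3 21 24 64 [] (.cst 127 8 - .var 19) C1D_445.P0
    C1D_445.PS = true := by decide +kernel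

theorem tail (x : ℝ) (hx : x ≤ -5 ∨ 3 ≤ x) : CloTail_649.Tail x (BC x) := by
  rcases hx with hx | hx
  · left
    refine ⟨hx, ?_⟩
    have := (BC_bd x).2
    linarith
  · right
    refine ⟨hx, ?_⟩
    unfold BC
    rcases le_or_gt x 8 with h2 | h2
    · have a1 := chkBoxR_sound C1D_445.adj_PS cb3 (z := x) (by rw [C3_924.lo8]; linarith)
        (by rw [C3_924.hi8]; exact h2) (by norm_num; linarith) (by norm_num; linarith)
        (v := cv 36 C1D_445.P0 C1D_445.PS x) (fun _ _ => rfl) (by simp)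
      simp only [Ex.evR_sub, Ex.evR_var, Ex.evR_cst] at a1
      have e : cv 36 C1D_445.P0 C1D_445.PS x 19 = C1D_445.b x := rfl
      rw [e] at a1
      norm_num at a1 ⊢
      linarith
    · rw [C1D_445.b_right (by linarith)]
      unfold C1D_445.bR
      norm_num

/-- **the certificate**, upper side (`F = 3/2`, `σ ∈ [0,c]`) -/
theorem certU (h : SPair c W V I k c) (x : ℝ) (hs0 : 0 ≤ σ) (hs : σ ≤ c) :
    PHI c (9 / 10) (3 / 2) (BC x) σ (V x) (I x) (k x) (HH c W V I k x)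
      ≤ 2 * (19 / 20) * (V x * (1 - V x) ^ 2) := by
  have E := Enc3_848.enc h
  have hc1 := E.c_lo
  have hc2 := E.c_hi
  norm_num at hc1 hc2
  obtain ⟨hb0, hb1⟩ := BC_bd x
  have hc := h.c_pos
  by_cases hx : x ≤ -5 ∨ 3 ≤ x
  · have ht := tail x hx
    exact PHI_le hc
      (CloTail3_649.phi_tail3 h (by norm_num; linarith) (by norm_num; linarith) ht hb0 (by norm_num)
        (by norm_num) (by norm_num) (by norm_num) le_rfl (Or.inl rfl))
      (CloTail3_649.phi_tail3 h (by norm_num; linarith) (by norm_num; linarith) ht hb0 (by norm_num)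
        (by norm_num) (by norm_num) (by norm_num) le_rfl (Or.inr rfl)) (by linarith) hs
  · push Not at hx
    rcases le_total x (7 / 8) with h8 | h8
    · refine PHI_left h x σ ?_
      have := (cellL h hx.1.le h8).1 σ hs0 hs
      norm_num at this ⊢
      exact this
    · refine PHI_right h x σ (by norm_num) (by norm_num) hb0 ?_ ?_
      · positivity
      · have := (cellR h h8 hx.2.le).1 σ hs0 hs
        norm_num at this ⊢
        exact this

/-- **the certificate**, lower side (`F = 161/100`, `σ ∈ [-c,0]`) -/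
theorem certL (h : SPair c W V I k c) (x : ℝ) (hs0 : -c ≤ σ) (hs : σ ≤ 0) :
    PHI c (9 / 10) (161 / 100) (BC x) σ (V x) (I x) (k x) (HH c W V I k x)
      ≤ 2 * (19 / 20) * (V x * (1 - V x) ^ 2) := by
  have E := Enc3_848.enc h
  have hc1 := E.c_lo
  have hc2 := E.c_hi
  norm_num at hc1 hc2
  obtain ⟨hb0, hb1⟩ := BC_bd x
  have hc := h.c_pos
  by_cases hx : x ≤ -5 ∨ 3 ≤ x
  · have ht := tail x hx
    exact PHI_le hc
      (CloTail3_649.phi_tail3 h (by norm_num; linarith) (by norm_num; linarith) ht hb0 (by norm_num)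
        (by norm_num) (by norm_num) (by norm_num) le_rfl (Or.inl rfl))
      (CloTail3_649.phi_tail3 h (by norm_num; linarith) (by norm_num; linarith) ht hb0 (by norm_num)
        (by norm_num) (by norm_num) (by norm_num) le_rfl (Or.inr rfl)) hs0 (by linarith)
  · push Not at hx
    rcases le_total x (7 / 8) with h8 | h8
    · refine PHI_left h x σ ?_
      have := (cellL h hx.1.le h8).2 σ hs0 hs
      norm_num at this ⊢
      exact this
    · refine PHI_right h x σ (by norm_num) (by norm_num) hb0 ?_ ?_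
      · nlinarith
      · have := (cellR h h8 hx.2.le).2 σ hs0 hs
        norm_num at this ⊢
        exact this

end main

end

end Crest.Agent.R146.CloD_924
end

-- ▼ part R146/C3y_924
section

/-!
# Row 146, NUMREF, node C3 from the label shift (helper924)
-/

set_option autoImplicit false

namespace Crest.Agent.R146.C3y_924

open Crest.Agent.R146.SPair_307 Crest.Agent.R146.HFact_924 Crest.Agent.R146.Clo_924
open Crest.Agent.R146.C3_924 Crest.Agent.R146.CloD_924 Crest.Agent.R146.PtNum_846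
open Crest.Agent.R146.PtRef_846 Crest.Agent.R146.PairQ_355

/-- **C3** from the bound of the label shift -/
theorem c3_of (hZ : ∀ (c : ℝ) (W V I k : ℝ → ℝ), SPair c W V I k c → ∀ δ, 0 < δ → δ ≤ c → ∀ x z,
    Pos δ W V x z → |k z - k x| ≤ 21 / 100 * δ) : C3 where
  clo_p c W V I k h δ hδ hδc x z hP j L hj1 hj2 hL0 hL1 hL2 := by
    have E := Enc3_848.enc h
    have hc2 := E.c_hi
    norm_num at hc2
    obtain ⟨hb1, hb2⟩ := b_bd x
    norm_num at hb1 hb2
    have hz := (abs_le.1 (hZ c W V I k h δ hδ hδc x z hP)).1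
    have hV := h.V_pos x
    have hV1 := h.V_lt x
    have hδb : δ * C1D_445.b x ≤ 5 / 8 := by nlinarith
    have hδb0 : 0 ≤ δ * C1D_445.b x := by positivity
    have key := clo_up (a := 9 / 10) (F := 3 / 2) (B := BC x) (G := 19 / 20) (dl := δ) (v := V x)
      (I := I x) (k := k x) (H := HH c W V I k x) (j := j) (L := L) h.c_pos hδ (by norm_num) hV.le
      (by nlinarith) (h.I_pos x).le (h.k_pos x).le (H_pos h (by have := E.c_lo; norm_num at this ⊢; linarith) x).le
      (certU h x hδ.le hδc) (by unfold BC; nlinarith) (by unfold BC; nlinarith) hL0 (by linarith)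
    unfold Dual_924.EE gr
    rw [G0_eq]
    linarith
  clo_m c W V I k h δ hδ hδc x z hP j L hj1 hj2 hL0 hL1 hL2 := by
    have E := Enc3_848.enc h
    have hc1 := E.c_lo
    have hc2 := E.c_hi
    norm_num at hc2
    obtain ⟨hb1, hb2⟩ := b_bd x
    norm_num at hb1 hb2
    have hz := (abs_le.1 (hZ c W V I k h δ hδ hδc x z hP)).2
    have hV := h.V_pos x
    have hV1 := h.V_lt x
    have hδb : δ * C1D_445.b x ≤ 5 / 8 := by nlinarith
    have hδb0 : 0 ≤ δ * C1D_445.b x := by positivity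
    have hHp := (H_pos h (by have := E.c_lo; norm_num at this ⊢; linarith) x).le
    obtain ⟨hB0, hB1⟩ := BC_bd x
    have key := clo_lo (c := c) (a := 9 / 10) (F := 161 / 100) (B := BC x) (G := 19 / 20) (dl := δ)
      (v := V x) (I := I x) (k := k x) (H := HH c W V I k x) (j := j) (L := L) hδ (by norm_num) hV.le
      (by nlinarith) (h.k_pos x).le hHp hB0 (by norm_num) (by nlinarith)
      (certL h x (by linarith) (by linarith))
      (hM_of h.c_pos (by norm_num; linarith) hδ hδc (by norm_num) (by norm_num) hV hV1 (h.I_pos x)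
        (h.k_pos x).le hHp (H_lt h x).le hB1 (hor h hc1 E.c_hi x))
      (by unfold BC; nlinarith) (by linarith)
    unfold Dual_924.EE gr
    rw [G0_eq]
    linarith

end Crest.Agent.R146.C3y_924
end

-- ▼ part R146/C3x_924
section

/-!
# Row 146, NUMREF, node C3 (helper924): `theorem c3 : PtNum_846.C3`
-/

set_option autoImplicit false

namespace Crest.Agent.R146.C3x_924

open MeasureTheory Set
open Crest.Agent.R146.PP865 Crest.Agent.R146.EncR_848
open Crest.Agent.R146.SPair_307 Crest.Agent.R146.PtNum_846 Crest.Agent.R146.PtNumRef_846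
open Crest.Agent.R146.C1D_445 (b)

theorem cb : chkBoxR 36 3 21 (-64) 64 [] (.cst 78643 16 - .var 19) C1D_445.P0
    C1D_445.PS = true := by decide +kernel

theorem b_le (x : ℝ) : C1D_445.b x ≤ 6 / 5 := by
  rcases le_or_gt x (-8) with h1 | h1
  · rw [C1D_445.b_left (by linarith)]
    unfold C1D_445.bL
    norm_num
  rcases le_or_gt x 8 with h2 | h2
  · have a1 := chkBoxR_sound C1D_445.adj_PS cb (z := x) (by rw [C3_924.lo8]; exact h1.le)
      (by rw [C3_924.hi8]; exact h2) (by norm_num; linarith) (by norm_num; linarith)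
      (v := cv 36 C1D_445.P0 C1D_445.PS x) (fun _ _ => rfl) (by simp)
    simp only [Ex.evR_sub, Ex.evR_var, Ex.evR_cst] at a1
    have e : cv 36 C1D_445.P0 C1D_445.PS x 19 = C1D_445.b x := rfl
    rw [e] at a1
    norm_num at a1 ⊢
    linarith
  · rw [C1D_445.b_right (by linarith)]
    unfold C1D_445.bR
    norm_num

variable {c δ : ℝ} {W V I k : ℝ → ℝ}

theorem Pm_ge (h : SPair c W V I k c) (hδ : 0 < δ) (hδ2 : δ < 1 / 2) (x : ℝ) :
    W x / (1 + 6 / 5 * δ) ≤ Pm δ V x := by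
  have h1 : W x / (1 + 6 / 5 * δ) = ∫ t in Iic x, V t * (1 + 6 / 5 * δ)⁻¹ := by
    rw [integral_mul_const, V_int h x, div_eq_mul_inv]
  rw [h1]
  unfold Pm
  refine setIntegral_mono ((V_intOn h x).mul_const _) (int_gm h hδ hδ2 x) fun t => ?_
  have hV := h.V_pos t
  have hb := b_le t
  have hb0 := (b_bd t).1
  have h2 : 0 < 1 + δ * b t := by positivity
  show V t * (1 + 6 / 5 * δ)⁻¹ ≤ V t / (1 + δ * b t)
  rw [← div_eq_mul_inv]
  exact div_le_div_of_nonneg_left hV.le h2 (by nlinarith)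

theorem Pp_le' (h : SPair c W V I k c) (hδ : 0 < δ) (hδ2 : δ < 1 / 2) (x : ℝ) :
    Pp δ V x ≤ W x / (1 - 6 / 5 * δ) := by
  have h1 : W x / (1 - 6 / 5 * δ) = ∫ t in Iic x, V t * (1 - 6 / 5 * δ)⁻¹ := by
    rw [integral_mul_const, V_int h x, div_eq_mul_inv]
  rw [h1]
  unfold Pp
  refine setIntegral_mono (int_gp h hδ hδ2 x) ((V_intOn h x).mul_const _) fun t => ?_
  have hV := h.V_pos t
  have hb := b_le t
  have h2 : 0 < 1 - 6 / 5 * δ := by linarith
  show V t / (1 - δ * b t) ≤ V t * (1 - 6 / 5 * δ)⁻¹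
  rw [← div_eq_mul_inv]
  exact div_le_div_of_nonneg_left hV.le h2 (by nlinarith)

/-- the label shift -/
theorem shift (h : SPair c W V I k c) (hδ : 0 < δ) (hδc : δ ≤ c) {x z : ℝ}
    (hP : Pos δ W V x z) : |k z - k x| ≤ 21 / 100 * δ := by
  have E := Enc3_848.enc h
  have hc2 := E.c_hi
  norm_num at hc2
  have hδ2 : δ < 1 / 2 := by linarith
  exact (KShift_277.kz h (e0 := δ / 1000) hδ.le hδc (by positivity) le_rfl
    (Pm_ge h hδ hδ2 x) (Pp_le' h hδ hδ2 x) hP.1 hP.2).1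

/-- **node C3 of NUMREF** -/
theorem c3 : PtNum_846.C3 :=
  C3y_924.c3_of fun _ _ _ _ _ h _ hδ hδc _ _ hP => shift h hδ hδc hP

end Crest.Agent.R146.C3x_924
end

-- ▼ part R146/RefWSN_355
section

/-!
Row 146 (helper355).  `NUMREF` from the inequalities in `ξ` for every radius.
-/

set_option autoImplicit false

namespace Crest.Agent.R146.RefWSN_355

open Crest.Agent.R146.SPair_307 Crest.Agent.R146.PtRef_846 Crest.Agent.R146.RefWS_355

/-- the certificate at the closed pair, all radii -/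
def XNUM : Prop := ∀ (c : ℝ) (W V I k : ℝ → ℝ), SPair c W V I k c →
  0.415735 < c → c < 0.415736 →
  ∀ δ : ℝ, 0 < δ → δ ≤ c → ∃ (e0 κ B : ℝ) (D : XD),
    XWS c δ e0 κ B (c - gr * δ) (c + gr * δ) W V I k D

theorem numref_of (H : XNUM) : NUMREF := by
  intro c W V I k h δ hδ hδc
  obtain ⟨h1, h2⟩ := Fix2_181.closed_digits h
  obtain ⟨e0, κ, B, D, hX⟩ := H c W V I k h h1 h2 δ hδ hδc
  obtain ⟨M, hM⟩ := ws_of_xws h (by norm_num at h2 ⊢; linarith) hX
  exact ⟨e0, κ, M, _, hM⟩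

end Crest.Agent.R146.RefWSN_355
end

-- ▼ part R146/PtNumFin_846
section

/-!
Row 146, PT (helper846): `C1, C2, C3 ⟹ NUMREF`.
-/

set_option autoImplicit false

namespace Crest.Agent.R146.PtNumFin_846

open Crest.Agent.R146.PtNum_846

/-- the certificate at the closed pair -/
theorem xnum_of (h1 : C1) (h2 : C2) (h3 : C3) : RefWSN_355.XNUM := by
  intro c W V I k hS hc1 hc2 δ hδ hδc
  obtain ⟨B, hB⟩ := PtNumRef_846.xws h1 h2 h3 hS (by norm_num at hc2 ⊢; linarith) hδ hδc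
  exact ⟨δ / 1000, 1 / 100, B, _, hB⟩

/-- **NUMREF from the three certificates** -/
theorem numref_of (h1 : C1) (h2 : C2) (h3 : C3) : PtRef_846.NUMREF :=
  RefWSN_355.numref_of (xnum_of h1 h2 h3)

end Crest.Agent.R146.PtNumFin_846
end

-- ▼ part R146/NumThm_131

/-!
Row 146 (helper131, PM-C), glue only: **`PtNum_846.C2` and `PtRef_846.NUMREF` are theorems**
(C1: helper445; C2: helpers 889, 454, 490, 649, 865, 791; C3: helper924, 649, 277; glue 355, 846;
enclosures 848, 865).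
-/

set_option autoImplicit false

namespace Crest.Agent.R146.NumThm_131

theorem c2 : PtNum_846.C2 :=
  C2Fin_454.c2_of3 C2Ym_889.yp C2Ym_889.ym
    (fun _ _ _ _ _ h _ hδ hδc _ _ hx hxy hV => C2Z_649.hEp_right h hδ hδc hx hxy hV)
    (fun _ _ _ _ _ h _ hδ hδc _ _ hx hxy hV => C2Z_649.hEm_right h hδ hδc hx hxy hV)

/-- **NUMREF** -/
theorem numref : PtRef_846.NUMREF := PtNumFin_846.numref_of C1_445.c1 c2 C3x_924.c3

end Crest.Agent.R146.NumThm_131
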