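import Crest.Agent.R146.PP_865

/-!
# Row 146, helper865: piecewise polynomial certificates, part 2: interval parameters

`checkBox P n ps e p pcs = true` : the expression `e` in the certificate variables
(`0 = z`, `3k+1, 3k+2, 3k+3 = f_k, f_k', f_k''`) and in the parameter variables listed in
`ps : List (ℕ × Ex × Ex)` (index, lower bound, upper bound) is affine in every parameter and
positive at all vertices of the box; hence (`checkBox_sound`) it is positive for all values of the
parameters between the bounds, at every `z` of the interval.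

A parameter in which `e` is concave may be handled with `concave_pos` (end points suffice as well).
-/

set_option autoImplicit false

namespace Crest.Agent.R146.PP865

open Function

namespace Ex

def subst (a : Ex) (i : ℕ) (t : Ex) : Ex :=
  match a with
  | cst n e => cst n e
  | var j => if i = j then t else var j
  | add a b => add (a.subst i t) (b.subst i t)
  | mul a b => mul (a.subst i t) (b.subst i t)
  | neg a => neg (a.subst i t)

theorem evR_subst (i : ℕ) (t : Ex) (v : ℕ → ℝ) (e : Ex) :
    (e.subst i t).evR v = e.evR (update v i (t.evR v)) := by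
  induction e with
  | cst n e => rfl
  | var j =>
    by_cases h : i = j
    · subst h; simp [subst, evR]
    · simp [subst, evR, h, update_of_ne (Ne.symm h)]
  | add a b iha ihb => simp only [subst, evR, iha, ihb]
  | mul a b iha ihb => simp only [subst, evR, iha, ihb]
  | neg a iha => simp only [subst, evR, iha]

/-- degree in the variable `i` (upper bound) -/
def deg (i : ℕ) : Ex → ℕ
  | cst _ _ => 0
  | var j => if i = j then 1 else 0
  | add a b => max (a.deg i) (b.deg i)
  | mul a b => a.deg i + b.deg i
  | neg a => a.deg i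

theorem evR_update_of_deg_zero {i : ℕ} {e : Ex} (h : e.deg i = 0) (v : ℕ → ℝ) (x : ℝ) :
    e.evR (update v i x) = e.evR v := by
  induction e with
  | cst n e => rfl
  | var j =>
    have : i ≠ j := by
      intro hh
      simp [deg, hh] at h
    simp [evR, update_of_ne this.symm]
  | add a b iha ihb =>
    simp only [deg] at h
    simp only [evR, iha (by omega), ihb (by omega)]
  | mul a b iha ihb =>
    simp only [deg] at h
    simp only [evR, iha (by omega), ihb (by omega)]
  | neg a iha => simp only [evR, iha h]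

theorem affine_of_deg {i : ℕ} {e : Ex} (h : e.deg i ≤ 1) (v : ℕ → ℝ) :
    ∃ α β : ℝ, ∀ x, e.evR (update v i x) = α + β * x := by
  induction e with
  | cst n e => exact ⟨(n : ℝ) / 2 ^ e, 0, fun x => by simp [evR]⟩
  | var j =>
    by_cases hij : i = j
    · subst hij
      exact ⟨0, 1, fun x => by simp [evR]⟩
    · exact ⟨v j, 0, fun x => by simp [evR, update_of_ne (Ne.symm hij)]⟩
  | add a b iha ihb =>
    simp only [deg] at h
    obtain ⟨α, β, h1⟩ := iha (by omega)
    obtain ⟨γ, δ, h2⟩ := ihb (by omega)
    exact ⟨α + γ, β + δ, fun x => by simp only [evR, h1, h2]; ring⟩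
  | mul a b iha ihb =>
    simp only [deg] at h
    rcases Nat.eq_zero_or_pos (a.deg i) with h0 | h0
    · obtain ⟨γ, δ, h2⟩ := ihb (by omega)
      refine ⟨a.evR v * γ, a.evR v * δ, fun x => ?_⟩
      simp only [evR, h2, evR_update_of_deg_zero h0]
      ring
    · obtain ⟨γ, δ, h2⟩ := iha (by omega)
      refine ⟨b.evR v * γ, b.evR v * δ, fun x => ?_⟩
      simp only [evR, h2, evR_update_of_deg_zero (show b.deg i = 0 by omega)]
      ring
  | neg a iha =>
    obtain ⟨α, β, h1⟩ := iha h
    exact ⟨-α, -β, fun x => by simp only [evR, h1]; ring⟩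

end Ex

/-- a positive value at both ends of the interval gives a positive value inside (affine function) -/
theorem affine_pos {α β l h x : ℝ} (h1 : 0 < α + β * l) (h2 : 0 < α + β * h) (hl : l ≤ x)
    (hh : x ≤ h) : 0 < α + β * x := by
  rcases le_total 0 β with hb | hb
  · nlinarith
  · nlinarith


/-- parameters: index, lower bound, upper bound -/
abbrev Prm := ℕ × Ex × Ex

def verts : List Prm → Ex → List Ex
  | [], e => [e]
  | (i, l, h) :: ps, e => verts ps (e.subst i l) ++ verts ps (e.subst i h)

def okdeg : List Prm → Ex → Bool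
  | [], _ => true
  | (i, l, h) :: ps, e => decide (e.deg i ≤ 1) && okdeg ps (e.subst i l) && okdeg ps (e.subst i h)

theorem verts_sound {v : ℕ → ℝ} : ∀ {ps : List Prm} {e : Ex}, okdeg ps e = true →
    (∀ q ∈ ps, q.2.1.evR v ≤ v q.1 ∧ v q.1 ≤ q.2.2.evR v) →
    (∀ e' ∈ verts ps e, 0 < e'.evR v) → 0 < e.evR v
  | [], e, _, _, h => h e (by simp [verts])
  | (i, l, h) :: ps, e, hd, hb, hv => by
    simp only [okdeg, Bool.and_eq_true, decide_eq_true_eq] at hd
    have b := hb (i, l, h) (by simp)
    have hb' : ∀ q ∈ ps, q.2.1.evR v ≤ v q.1 ∧ v q.1 ≤ q.2.2.evR v :=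
      fun q hq => hb q (by simp [hq])
    have k1 : 0 < (e.subst i l).evR v :=
      verts_sound hd.1.2 hb' fun e' he' => hv e' (by simp [verts, he'])
    have k2 : 0 < (e.subst i h).evR v :=
      verts_sound hd.2 hb' fun e' he' => hv e' (by simp [verts, he'])
    rw [Ex.evR_subst] at k1 k2
    obtain ⟨α, β, haff⟩ := Ex.affine_of_deg hd.1.1 v
    rw [haff] at k1 k2
    have := affine_pos k1 k2 b.1 b.2
    rw [← haff] at this
    simpa using this

/-- every variable of `e` has index at most `m` -/
def Ex.bnd (m : ℕ) : Ex → Bool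
  | .cst _ _ => true
  | .var j => decide (j ≤ m)
  | .add a b => a.bnd m && b.bnd m
  | .mul a b => a.bnd m && b.bnd m
  | .neg a => a.bnd m

theorem Ex.evR_congr {m : ℕ} {v w : ℕ → ℝ} (h : ∀ i ≤ m, v i = w i) {e : Ex}
    (he : e.bnd m = true) : e.evR v = e.evR w := by
  induction e with
  | cst n e => rfl
  | var j => exact h j (by simpa [Ex.bnd] using he)
  | add a b iha ihb =>
    simp only [Ex.bnd, Bool.and_eq_true] at he
    simp only [Ex.evR, iha he.1, ihb he.2]
  | mul a b iha ihb =>
    simp only [Ex.bnd, Bool.and_eq_true] at he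
    simp only [Ex.evR, iha he.1, ihb he.2]
  | neg a iha =>
    simp only [Ex.bnd] at he
    simp only [Ex.evR, iha he]

/-- the values of the certificate variables at `z` -/
noncomputable def cv (P : ℕ) (p : Pc) (ps : List Pc) (z : ℝ) (i : ℕ) : ℝ :=
  val (fun k => Fn P k p ps) (fun k => Fn1 P k p ps) (fun k => Fn2 P k p ps) i z



end Crest.Agent.R146.PP865
private theorem rz_9e0e955f75 : type_of% @_root_.Crest.Agent.R146.PP865.Ex.bnd.eq_def := @_root_.Crest.Agent.R146.PP865.Ex.bnd.eq_def -- L163
private theorem rz_55382f0e60 : type_of% @_root_.Crest.Agent.R146.PP865.Ex.bnd.eq_1 := @_root_.Crest.Agent.R146.PP865.Ex.bnd.eq_1 -- L163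
private theorem rz_1a4af7b6cc : type_of% @_root_.Crest.Agent.R146.PP865.Ex.deg.eq_def := @_root_.Crest.Agent.R146.PP865.Ex.deg.eq_def -- L44
private theorem rz_259c01c334 : type_of% @_root_.Crest.Agent.R146.PP865.Ex.deg.eq_1 := @_root_.Crest.Agent.R146.PP865.Ex.deg.eq_1 -- L44
private theorem rz_371f074648 : type_of% @_root_.Crest.Agent.R146.PP865.Ex.subst.eq_def := @_root_.Crest.Agent.R146.PP865.Ex.subst.eq_def -- L23
private theorem rz_28517f3cf2 : type_of% @_root_.Crest.Agent.R146.PP865.Ex.subst.eq_1 := @_root_.Crest.Agent.R146.PP865.Ex.subst.eq_1 -- L23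
private theorem rz_d1e0b33bbb : type_of% @_root_.Crest.Agent.R146.PP865.okdeg.eq_def := @_root_.Crest.Agent.R146.PP865.okdeg.eq_def -- L138
private theorem rz_6eee42874e : type_of% @_root_.Crest.Agent.R146.PP865.okdeg.eq_1 := @_root_.Crest.Agent.R146.PP865.okdeg.eq_1 -- L138
private theorem rz_9a2346eb4f : type_of% @_root_.Crest.Agent.R146.PP865.verts.eq_def := @_root_.Crest.Agent.R146.PP865.verts.eq_def -- L134
private theorem rz_923d6e2681 : type_of% @_root_.Crest.Agent.R146.PP865.verts.eq_1 := @_root_.Crest.Agent.R146.PP865.verts.eq_1 -- L134
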