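import Mathlib

/-!
# Row 146, helper865: piecewise polynomial certificate engine (CERT), part 1

Integer polynomials are coefficient lists `List ℤ` (lowest degree first).

* `ev l x` : real value; `padd`, `psmul`, `pmul`, `pder` : arithmetic with evaluation lemmas;
* `pos n l = true` implies `0 < ev l x` on `[-1, 1]` (constant term dominates, after at most `n`
  bisections);
* `DP` : polynomial divided by `2 ^ e`; `Ex` : expressions, `Ex.evR` (real value), `Ex.evP`
  (polynomial value on a piece), `Ex.evP_ev` (they agree).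
* `Pc` : a piece `[(c-1)/2^j, (c+1)/2^j]` with local coordinate `x = 2^j z - c ∈ [-1,1]` and a list of
  polynomials (all scaled by `2 ^ P`), one for every function of the certificate;
* `Fn P k ps`, `Fn1 P k ps`, `Fn2 P k ps` : the `k`-th piecewise polynomial and its derivatives;
* `hasDerivAt_Fn`, `hasDerivAt_Fn1` : `C¹`, `C²` matching by integer tests;
* `check_sound` : a polynomial inequality in `z, f_k, f_k', f_k''` on the whole interval.
-/

set_option autoImplicit false

namespace Crest.Agent.R146.PP865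

/-! ### integer polynomials -/

abbrev Poly := List ℤ

noncomputable def ev : Poly → ℝ → ℝ
  | [], _ => 0
  | c :: cs, x => (c : ℝ) + x * ev cs x

@[simp] theorem ev_nil (x : ℝ) : ev [] x = 0 := rfl
@[simp] theorem ev_cons (c : ℤ) (cs : Poly) (x : ℝ) : ev (c :: cs) x = (c : ℝ) + x * ev cs x := rfl

def evZ : Poly → ℤ → ℤ
  | [], _ => 0
  | c :: cs, x => c + x * evZ cs x

theorem ev_intCast (l : Poly) (x : ℤ) : ev l (x : ℝ) = (evZ l x : ℝ) := by
  induction l with
  | nil => simp [evZ]
  | cons c cs ih => simp [evZ, ih]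

def padd : Poly → Poly → Poly
  | [], b => b
  | a :: as, [] => a :: as
  | a :: as, b :: bs => (a + b) :: padd as bs

theorem ev_padd (a b : Poly) (x : ℝ) : ev (padd a b) x = ev a x + ev b x := by
  induction a generalizing b with
  | nil => simp [padd]
  | cons a as ih =>
    cases b with
    | nil => simp [padd]
    | cons b bs => simp [padd, ih]; ring

def psmul (k : ℤ) : Poly → Poly
  | [] => []
  | a :: as => (k * a) :: psmul k as

theorem ev_psmul (k : ℤ) (a : Poly) (x : ℝ) : ev (psmul k a) x = (k : ℝ) * ev a x := by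
  induction a with
  | nil => simp [psmul]
  | cons a as ih => simp [psmul, ih]; ring

def pmul : Poly → Poly → Poly
  | [], _ => []
  | a :: as, b => padd (psmul a b) (0 :: pmul as b)

theorem ev_pmul (a b : Poly) (x : ℝ) : ev (pmul a b) x = ev a x * ev b x := by
  induction a with
  | nil => simp [pmul]
  | cons a as ih => simp [pmul, ev_padd, ev_psmul, ih]; ring

/-- derivative: `pderAux n [c_n, c_{n+1}, ...] = [n c_n, (n+1) c_{n+1}, ...]` -/
def pderAux : ℤ → Poly → Poly
  | _, [] => []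
  | n, c :: cs => (n * c) :: pderAux (n + 1) cs

def pder : Poly → Poly
  | [] => []
  | _ :: cs => pderAux 1 cs

theorem pderAux_ev (n : ℤ) (l : Poly) (x : ℝ) :
    ev (pderAux (n + 1) l) x = ev l x + ev (pderAux n l) x := by
  induction l generalizing n with
  | nil => simp [pderAux]
  | cons c cs ih =>
    simp only [pderAux, ev_cons, ih (n + 1)]
    push_cast
    ring

theorem pderAux_one (cs : Poly) (x : ℝ) :
    ev (pderAux 1 cs) x = ev cs x + x * ev (pder cs) x := by
  cases cs with
  | nil => simp [pderAux, pder]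
  | cons c cs =>
    have := pderAux_ev 1 cs x
    simp only [pderAux, ev_cons, pder]
    rw [this]
    push_cast
    ring

theorem hasDerivAt_ev (l : Poly) (x : ℝ) : HasDerivAt (ev l) (ev (pder l) x) x := by
  induction l with
  | nil => exact hasDerivAt_const x (0 : ℝ)
  | cons c cs ih =>
    have h := ((hasDerivAt_id x).mul ih).const_add (c : ℝ)
    have e : ev (pder (c :: cs)) x = 1 * ev cs x + id x * ev (pder cs) x := by
      show ev (pderAux 1 cs) x = _
      rw [pderAux_one, id, one_mul]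
    rw [e]
    exact h

theorem continuous_ev (l : Poly) : Continuous (ev l) :=
  continuous_iff_continuousAt.2 fun x => (hasDerivAt_ev l x).continuousAt

/-! ### positivity on `[-1, 1]` -/

def sumAbs : Poly → ℤ
  | [] => 0
  | c :: cs => |c| + sumAbs cs


theorem abs_ev_le (l : Poly) {x : ℝ} (hx : |x| ≤ 1) : |ev l x| ≤ (sumAbs l : ℝ) := by
  induction l with
  | nil => simp [sumAbs]
  | cons c cs ih =>
    simp only [ev_cons, sumAbs]
    push_cast
    calc |(c : ℝ) + x * ev cs x| ≤ |(c : ℝ)| + |x * ev cs x| := abs_add_le _ _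
      _ ≤ |(c : ℝ)| + 1 * sumAbs cs := by
        rw [abs_mul]
        gcongr
      _ = _ := by ring

/-- `ev (half s l) y = 2 ^ l.length * ev l ((y + s) / 2)` -/
def half (s : ℤ) : Poly → Poly
  | [] => []
  | c :: cs => let r := half s cs
    padd [2 ^ (cs.length + 1) * c] (padd (psmul s r) (0 :: r))

theorem ev_half (s : ℤ) (l : Poly) (y : ℝ) :
    ev (half s l) y = 2 ^ l.length * ev l ((y + s) / 2) := by
  induction l with
  | nil => simp [half]
  | cons c cs ih =>
    simp only [half, ev_padd, ev_psmul, ih, ev_cons, ev_nil, List.length_cons]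
    push_cast
    ring

/-- drop one common factor two if all coefficients are even (keeps numbers small) -/
def lead (l : Poly) : Bool :=
  match l with
  | [] => false
  | c :: cs => decide (sumAbs cs < c)

theorem lead_sound {l : Poly} (h : lead l = true) {x : ℝ} (hx : |x| ≤ 1) : 0 < ev l x := by
  cases l with
  | nil => simp [lead] at h
  | cons c cs =>
    have h' : sumAbs cs < c := by simpa [lead] using h
    have h'' : (sumAbs cs : ℝ) < c := by exact_mod_cast h'
    have h1 : |x * ev cs x| ≤ sumAbs cs := by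
      rw [abs_mul]
      calc |x| * |ev cs x| ≤ 1 * sumAbs cs := by
            gcongr
            exact abs_ev_le cs hx
        _ = _ := one_mul _
    have := (abs_le.1 h1).1
    simp only [ev_cons]
    linarith

/-- positivity on `[-1,1]` with at most `n` bisections -/
def pos : ℕ → Poly → Bool
  | 0, l => lead l
  | n + 1, l => lead l || (pos n (half (-1) l) && pos n (half 1 l))

theorem pos_sound {n : ℕ} {l : Poly} (h : pos n l = true) {x : ℝ} (hx : |x| ≤ 1) : 0 < ev l x := by
  induction n generalizing l x with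
  | zero => exact lead_sound h hx
  | succ n ih =>
    simp only [pos, Bool.or_eq_true, Bool.and_eq_true] at h
    rcases h with h | ⟨h1, h2⟩
    · exact lead_sound h hx
    · have hx' := abs_le.1 hx
      rcases le_total x 0 with h0 | h0
      · have := ih h1 (x := 2 * x + 1) (abs_le.2 ⟨by linarith, by linarith⟩)
        rw [ev_half] at this
        have e : ((2 * x + 1) + ((-1 : ℤ) : ℝ)) / 2 = x := by push_cast; ring
        rw [e] at this
        exact pos_of_mul_pos_right this (by positivity)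
      · have := ih h2 (x := 2 * x - 1) (abs_le.2 ⟨by linarith, by linarith⟩)
        rw [ev_half] at this
        have e : ((2 * x - 1) + ((1 : ℤ) : ℝ)) / 2 = x := by push_cast; ring
        rw [e] at this
        exact pos_of_mul_pos_right this (by positivity)

/-! ### dyadic polynomials -/

structure DP where
  c : Poly
  e : ℕ

namespace DP

noncomputable def ev (p : DP) (x : ℝ) : ℝ := PP865.ev p.c x / 2 ^ p.e

def add (p q : DP) : DP :=
  if p.e ≤ q.e then ⟨padd (psmul (2 ^ (q.e - p.e)) p.c) q.c, q.e⟩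
  else ⟨padd p.c (psmul (2 ^ (p.e - q.e)) q.c), p.e⟩

theorem ev_add (p q : DP) (x : ℝ) : (p.add q).ev x = p.ev x + q.ev x := by
  unfold add ev
  split_ifs with h
  · obtain ⟨k, hk⟩ := Nat.exists_eq_add_of_le h
    simp only [ev_padd, ev_psmul, hk, Nat.add_sub_cancel_left]
    push_cast
    field_simp
    ring
  · obtain ⟨k, hk⟩ := Nat.exists_eq_add_of_le (le_of_not_ge h)
    simp only [ev_padd, ev_psmul, hk, Nat.add_sub_cancel_left]
    push_cast
    field_simp
    ring

def neg (p : DP) : DP := ⟨psmul (-1) p.c, p.e⟩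

theorem ev_neg (p : DP) (x : ℝ) : p.neg.ev x = - p.ev x := by
  simp [neg, ev, ev_psmul]; ring

def mul (p q : DP) : DP := ⟨pmul p.c q.c, p.e + q.e⟩

theorem ev_mul (p q : DP) (x : ℝ) : (p.mul q).ev x = p.ev x * q.ev x := by
  simp only [mul, ev, ev_pmul, pow_add]
  field_simp

end DP

/-! ### expressions -/

inductive Ex : Type
  /-- the dyadic constant `n / 2 ^ e` -/
  | cst (n : ℤ) (e : ℕ) : Ex
  | var (i : ℕ) : Ex
  | add (a b : Ex) : Ex
  | mul (a b : Ex) : Ex
  | neg (a : Ex) : Ex

namespace Ex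

noncomputable def evR (v : ℕ → ℝ) : Ex → ℝ
  | cst n e => (n : ℝ) / 2 ^ e
  | var i => v i
  | add a b => a.evR v + b.evR v
  | mul a b => a.evR v * b.evR v
  | neg a => - a.evR v

def evP (v : ℕ → DP) : Ex → DP
  | cst n e => ⟨[n], e⟩
  | var i => v i
  | add a b => (a.evP v).add (b.evP v)
  | mul a b => (a.evP v).mul (b.evP v)
  | neg a => (a.evP v).neg

theorem evP_ev (v : ℕ → DP) (x : ℝ) (e : Ex) :
    (e.evP v).ev x = e.evR (fun i => (v i).ev x) := by
  induction e with
  | cst n e => simp [evP, evR, DP.ev]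
  | var i => rfl
  | add a b iha ihb => simp only [evP, evR, DP.ev_add, iha, ihb]
  | mul a b iha ihb => simp only [evP, evR, DP.ev_mul, iha, ihb]
  | neg a iha => simp only [evP, evR, DP.ev_neg, iha]

instance : Add Ex := ⟨add⟩
instance : Mul Ex := ⟨mul⟩
instance : Neg Ex := ⟨neg⟩
instance : Sub Ex := ⟨fun a b => add a (neg b)⟩
instance (n : ℕ) : OfNat Ex n := ⟨cst n 0⟩

@[simp] theorem evR_cst (v : ℕ → ℝ) (n : ℤ) (e : ℕ) : (cst n e).evR v = (n : ℝ) / 2 ^ e := rfl
@[simp] theorem evR_var (v : ℕ → ℝ) (i : ℕ) : (var i).evR v = v i := rfl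
@[simp] theorem evR_add (v : ℕ → ℝ) (a b : Ex) : (a + b).evR v = a.evR v + b.evR v := rfl
@[simp] theorem evR_mul (v : ℕ → ℝ) (a b : Ex) : (a * b).evR v = a.evR v * b.evR v := rfl
@[simp] theorem evR_neg (v : ℕ → ℝ) (a : Ex) : (-a).evR v = - a.evR v := rfl
@[simp] theorem evR_sub (v : ℕ → ℝ) (a b : Ex) : (a - b).evR v = a.evR v - b.evR v := by
  show a.evR v + -(b.evR v) = _
  ring
@[simp] theorem evR_ofNat (v : ℕ → ℝ) (n : ℕ) : (OfNat.ofNat n : Ex).evR v = n := by
  show ((n : ℤ) : ℝ) / 2 ^ 0 = _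
  simp

end Ex

/-! ### pieces -/

structure Pc where
  /-- centre times `2 ^ j` -/
  c : ℤ
  j : ℕ
  /-- polynomials in the local coordinate, scaled by `2 ^ P` -/
  f : List Poly

namespace Pc

noncomputable def lo (p : Pc) : ℝ := ((p.c : ℝ) - 1) / 2 ^ p.j
noncomputable def hi (p : Pc) : ℝ := ((p.c : ℝ) + 1) / 2 ^ p.j
/-- local coordinate -/
noncomputable def loc (p : Pc) (z : ℝ) : ℝ := 2 ^ p.j * z - p.c

theorem lo_lt_hi (p : Pc) : p.lo < p.hi := by
  unfold lo hi
  gcongr
  linarith

theorem loc_hi (p : Pc) : p.loc p.hi = 1 := by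
  unfold loc hi
  field_simp
  ring

theorem loc_lo (p : Pc) : p.loc p.lo = -1 := by
  unfold loc lo
  field_simp
  ring

theorem abs_loc_le {p : Pc} {z : ℝ} (h1 : p.lo ≤ z) (h2 : z ≤ p.hi) : |p.loc z| ≤ 1 := by
  have hp : (0 : ℝ) < 2 ^ p.j := by positivity
  unfold lo at h1
  unfold hi at h2
  rw [div_le_iff₀ hp] at h1
  rw [le_div_iff₀ hp] at h2
  rw [abs_le]
  unfold loc
  constructor <;> nlinarith

/-- `k`-th function and derivatives on the piece (polynomial on the whole line) -/
noncomputable def v0 (P k : ℕ) (p : Pc) (z : ℝ) : ℝ := ev (p.f.getD k []) (p.loc z) / 2 ^ P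
noncomputable def v1 (P k : ℕ) (p : Pc) (z : ℝ) : ℝ :=
  2 ^ p.j * ev (pder (p.f.getD k [])) (p.loc z) / 2 ^ P
noncomputable def v2 (P k : ℕ) (p : Pc) (z : ℝ) : ℝ :=
  2 ^ (2 * p.j) * ev (pder (pder (p.f.getD k []))) (p.loc z) / 2 ^ P

theorem hasDerivAt_loc (p : Pc) (z : ℝ) : HasDerivAt p.loc (2 ^ p.j) z := by
  have := ((hasDerivAt_id z).const_mul ((2 : ℝ) ^ p.j)).sub_const (p.c : ℝ)
  rw [mul_one] at this
  exact this

theorem hasDerivAt_v0 (P k : ℕ) (p : Pc) (z : ℝ) : HasDerivAt (p.v0 P k) (p.v1 P k z) z := by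
  have h := ((hasDerivAt_ev (p.f.getD k []) (p.loc z)).comp z (p.hasDerivAt_loc z)).div_const
    ((2 : ℝ) ^ P)
  have e : p.v1 P k z = ev (pder (p.f.getD k [])) (p.loc z) * 2 ^ p.j / 2 ^ P := by
    unfold v1
    ring
  rw [e]
  exact h

theorem hasDerivAt_v1 (P k : ℕ) (p : Pc) (z : ℝ) : HasDerivAt (p.v1 P k) (p.v2 P k z) z := by
  have h := (((hasDerivAt_ev (pder (p.f.getD k [])) (p.loc z)).comp z
    (p.hasDerivAt_loc z)).const_mul ((2 : ℝ) ^ p.j)).div_const ((2 : ℝ) ^ P)
  have e : p.v2 P k z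
      = 2 ^ p.j * (ev (pder (pder (p.f.getD k []))) (p.loc z) * 2 ^ p.j) / 2 ^ P := by
    unfold v2
    rw [two_mul, pow_add]
    ring
  rw [e]
  exact h

end Pc

/-- select the piece containing `z` (extended by the outer pieces) and apply `g` -/
noncomputable def sel (g : Pc → ℝ → ℝ) : Pc → List Pc → ℝ → ℝ
  | p, [], z => g p z
  | p, q :: ps, z => if z ≤ p.hi then g p z else sel g q ps z

/-- a certificate is a nonempty list of pieces: `p :: ps` -/
noncomputable def Fn (P k : ℕ) (p : Pc) (ps : List Pc) : ℝ → ℝ := sel (Pc.v0 P k) p ps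
noncomputable def Fn1 (P k : ℕ) (p : Pc) (ps : List Pc) : ℝ → ℝ := sel (Pc.v1 P k) p ps
noncomputable def Fn2 (P k : ℕ) (p : Pc) (ps : List Pc) : ℝ → ℝ := sel (Pc.v2 P k) p ps

/-- the end of the last piece -/
noncomputable def hiL : Pc → List Pc → ℝ
  | p, [] => p.hi
  | _, q :: ps => hiL q ps

/-- adjacent pieces touch -/
def adj (p q : Pc) : Bool := decide ((p.c + 1) * 2 ^ q.j = (q.c - 1) * 2 ^ p.j)

theorem adj_sound {p q : Pc} (h : adj p q = true) : p.hi = q.lo := by
  have h' : (p.c + 1) * 2 ^ q.j = (q.c - 1) * 2 ^ p.j := by simpa [adj] using h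
  have h'' : ((p.c : ℝ) + 1) * 2 ^ q.j = ((q.c : ℝ) - 1) * 2 ^ p.j := by exact_mod_cast h'
  unfold Pc.hi Pc.lo
  rw [div_eq_div_iff (by positivity) (by positivity)]
  exact h''

def m0 (k : ℕ) (p q : Pc) : Bool := decide (evZ (p.f.getD k []) 1 = evZ (q.f.getD k []) (-1))
def m1 (k : ℕ) (p q : Pc) : Bool :=
  decide (2 ^ p.j * evZ (pder (p.f.getD k [])) 1 = 2 ^ q.j * evZ (pder (q.f.getD k [])) (-1))
def m2 (k : ℕ) (p q : Pc) : Bool :=
  decide (2 ^ (2 * p.j) * evZ (pder (pder (p.f.getD k []))) 1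
    = 2 ^ (2 * q.j) * evZ (pder (pder (q.f.getD k []))) (-1))

theorem m0_sound {P k : ℕ} {p q : Pc} (ha : adj p q = true) (h : m0 k p q = true) :
    p.v0 P k p.hi = q.v0 P k p.hi := by
  have h' : evZ (p.f.getD k []) 1 = evZ (q.f.getD k []) (-1) := by simpa [m0] using h
  unfold Pc.v0
  rw [p.loc_hi]
  rw [adj_sound ha, q.loc_lo]
  have e1 := ev_intCast (p.f.getD k []) 1
  have e2 := ev_intCast (q.f.getD k []) (-1)
  push_cast at e1 e2
  rw [e1, e2, h']

theorem m1_sound {P k : ℕ} {p q : Pc} (ha : adj p q = true) (h : m1 k p q = true) :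
    p.v1 P k p.hi = q.v1 P k p.hi := by
  have h' : 2 ^ p.j * evZ (pder (p.f.getD k [])) 1 = 2 ^ q.j * evZ (pder (q.f.getD k [])) (-1) := by
    simpa [m1] using h
  unfold Pc.v1
  rw [p.loc_hi]
  rw [adj_sound ha, q.loc_lo]
  have e1 := ev_intCast (pder (p.f.getD k [])) 1
  have e2 := ev_intCast (pder (q.f.getD k [])) (-1)
  push_cast at e1 e2
  rw [e1, e2]
  have h'' : (2 : ℝ) ^ p.j * (evZ (pder (p.f.getD k [])) 1 : ℤ)
      = 2 ^ q.j * (evZ (pder (q.f.getD k [])) (-1) : ℤ) := by exact_mod_cast h'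
  rw [h'']

theorem m2_sound {P k : ℕ} {p q : Pc} (ha : adj p q = true) (h : m2 k p q = true) :
    p.v2 P k p.hi = q.v2 P k p.hi := by
  have h' : 2 ^ (2 * p.j) * evZ (pder (pder (p.f.getD k []))) 1
    = 2 ^ (2 * q.j) * evZ (pder (pder (q.f.getD k []))) (-1) := by
    simpa [m2] using h
  unfold Pc.v2
  rw [p.loc_hi]
  rw [adj_sound ha, q.loc_lo]
  have e1 := ev_intCast (pder (pder (p.f.getD k []))) 1
  have e2 := ev_intCast (pder (pder (q.f.getD k []))) (-1)
  push_cast at e1 e2
  rw [e1, e2]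
  have h'' : (2 : ℝ) ^ (2 * p.j) * (evZ (pder (pder (p.f.getD k []))) 1 : ℤ)
      = 2 ^ (2 * q.j) * (evZ (pder (pder (q.f.getD k []))) (-1) : ℤ) := by exact_mod_cast h'
  rw [h'']

/-- test on all consecutive pairs -/
def chain (t : Pc → Pc → Bool) : Pc → List Pc → Bool
  | _, [] => true
  | p, q :: ps => t p q && chain t q ps


theorem sel_of_le {g : Pc → ℝ → ℝ} {p : Pc} {ps : List Pc} {z : ℝ} (h : z ≤ p.hi) :
    sel g p ps z = g p z := by
  cases ps with
  | nil => rfl
  | cons q ps => simp [sel, h]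

theorem hasDerivAt_ite {f g : ℝ → ℝ} {f' g' : ℝ → ℝ} {a : ℝ}
    (hf : ∀ z, HasDerivAt f (f' z) z) (hg : ∀ z, HasDerivAt g (g' z) z)
    (h0 : f a = g a) (h1 : f' a = g' a) (z : ℝ) :
    HasDerivAt (fun z => if z ≤ a then f z else g z) (if z ≤ a then f' z else g' z) z := by
  rcases lt_trichotomy z a with h | h | h
  · rw [if_pos h.le]
    refine (hf z).congr_of_eventuallyEq ?_
    filter_upwards [eventually_lt_nhds h] with y hy
    rw [if_pos hy.le]
  · subst h
    rw [if_pos le_rfl]
    have e1 : HasDerivWithinAt (fun y => if y ≤ z then f y else g y) (f' z) (Set.Iic z) z := by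
      refine (hf z).hasDerivWithinAt.congr (fun y hy => ?_) ?_
      · rw [if_pos (show y ≤ z from hy)]
      · rw [if_pos le_rfl]
    have e2 : HasDerivWithinAt (fun y => if y ≤ z then f y else g y) (f' z) (Set.Ici z) z := by
      rw [h1]
      refine (hg z).hasDerivWithinAt.congr (fun y hy => ?_) ?_
      · rcases eq_or_lt_of_le (show z ≤ y from hy) with hh | hh
        · subst hh
          rw [if_pos le_rfl, h0]
        · rw [if_neg (not_le.2 hh)]
      · rw [if_pos le_rfl, h0]
    have := e1.union e2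
    rwa [Set.Iic_union_Ici, hasDerivWithinAt_univ] at this
  · rw [if_neg (not_le.2 h)]
    refine (hg z).congr_of_eventuallyEq ?_
    filter_upwards [eventually_gt_nhds h] with y hy
    rw [if_neg (not_le.2 hy)]

theorem sel_hasDerivAt {g g' : Pc → ℝ → ℝ} {t0 t1 : Pc → Pc → Bool}
    (hg : ∀ p z, HasDerivAt (g p) (g' p z) z)
    (h0 : ∀ p q, adj p q = true → t0 p q = true → g p p.hi = g q p.hi)
    (h1 : ∀ p q, adj p q = true → t1 p q = true → g' p p.hi = g' q p.hi) :
    ∀ (p : Pc) (ps : List Pc), chain adj p ps = true → chain t0 p ps = true →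
      chain t1 p ps = true → ∀ z, HasDerivAt (sel g p ps) (sel g' p ps z) z
  | p, [], _, _, _, z => hg p z
  | p, q :: ps, ha, c0, c1, z => by
    simp only [chain, Bool.and_eq_true] at ha c0 c1
    have ih := sel_hasDerivAt hg h0 h1 q ps ha.2 c0.2 c1.2
    have hq : p.hi ≤ q.hi := by
      rw [adj_sound ha.1]
      exact q.lo_lt_hi.le
    exact hasDerivAt_ite (f := g p) (g := sel g q ps) (f' := g' p) (g' := sel g' q ps) (a := p.hi)
      (hg p) ih
      ((h0 p q ha.1 c0.1).trans (sel_of_le hq).symm)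
      ((h1 p q ha.1 c1.1).trans (sel_of_le hq).symm) z

theorem hasDerivAt_Fn {P k : ℕ} {p : Pc} {ps : List Pc} (ha : chain adj p ps = true)
    (c0 : chain (m0 k) p ps = true) (c1 : chain (m1 k) p ps = true) (z : ℝ) :
    HasDerivAt (Fn P k p ps) (Fn1 P k p ps z) z :=
  sel_hasDerivAt (fun p z => p.hasDerivAt_v0 P k z) (fun _ _ h h' => m0_sound h h')
    (fun _ _ h h' => m1_sound h h') p ps ha c0 c1 z

theorem hasDerivAt_Fn1 {P k : ℕ} {p : Pc} {ps : List Pc} (ha : chain adj p ps = true)
    (c1 : chain (m1 k) p ps = true) (c2 : chain (m2 k) p ps = true) (z : ℝ) :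
    HasDerivAt (Fn1 P k p ps) (Fn2 P k p ps z) z :=
  sel_hasDerivAt (fun p z => p.hasDerivAt_v1 P k z) (fun _ _ h h' => m1_sound h h')
    (fun _ _ h h' => m2_sound h h') p ps ha c1 c2 z

/-- all matching tests for the functions `0, ..., n-1` -/
def smooth (n : ℕ) (p : Pc) (ps : List Pc) : Bool :=
  chain adj p ps && (List.range n).all fun k =>
    chain (m0 k) p ps && chain (m1 k) p ps && chain (m2 k) p ps

theorem smooth_sound {n : ℕ} {p : Pc} {ps : List Pc} (h : smooth n p ps = true) {k : ℕ}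
    (hk : k < n) (P : ℕ) (z : ℝ) :
    HasDerivAt (Fn P k p ps) (Fn1 P k p ps z) z ∧ HasDerivAt (Fn1 P k p ps) (Fn2 P k p ps z) z := by
  simp only [smooth, Bool.and_eq_true, List.all_eq_true] at h
  have := h.2 k (List.mem_range.2 hk)
  exact ⟨hasDerivAt_Fn h.1 this.1.1 this.1.2 z, hasDerivAt_Fn1 h.1 this.1.2 this.2 z⟩

/-! ### inequalities -/

/-- variables of an expression: `0 ↦ z`, `3k+1 ↦ f_k`, `3k+2 ↦ f_k'`, `3k+3 ↦ f_k''` -/
def Pc.env (P : ℕ) (p : Pc) (i : ℕ) : DP :=
  match i with
  | 0 => ⟨[p.c, 1], p.j⟩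
  | i + 1 =>
    let l := p.f.getD (i / 3) []
    match i % 3 with
    | 0 => ⟨l, P⟩
    | 1 => ⟨psmul (2 ^ p.j) (pder l), P⟩
    | _ => ⟨psmul (2 ^ (2 * p.j)) (pder (pder l)), P⟩

/-- the real values of the variables -/
noncomputable def val (g0 g1 g2 : ℕ → ℝ → ℝ) (i : ℕ) (z : ℝ) : ℝ :=
  match i with
  | 0 => z
  | i + 1 =>
    match i % 3 with
    | 0 => g0 (i / 3) z
    | 1 => g1 (i / 3) z
    | _ => g2 (i / 3) z

theorem Pc.env_ev (P : ℕ) (p : Pc) (z : ℝ) (i : ℕ) :
    (p.env P i).ev (p.loc z)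
      = val (fun k => p.v0 P k) (fun k => p.v1 P k) (fun k => p.v2 P k) i z := by
  unfold Pc.env val
  split
  · simp only [DP.ev, ev_cons, ev_nil, Pc.loc]
    field_simp
    push_cast
    ring
  · split
    · rfl
    · simp only [DP.ev, ev_psmul, Pc.v1]
      push_cast
      rfl
    · simp only [DP.ev, ev_psmul, Pc.v2]
      push_cast
      rfl

/-- the inequality `0 < e` holds on every piece -/
def check (P n : ℕ) (e : Ex) (p : Pc) (ps : List Pc) : Bool :=
  (p :: ps).all fun q => pos n (e.evP (q.env P)).c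

theorem piece_sound {P n : ℕ} {e : Ex} {q : Pc} (h : pos n (e.evP (q.env P)).c = true) {z : ℝ}
    (h1 : q.lo ≤ z) (h2 : z ≤ q.hi) :
    0 < e.evR (fun i => val (fun k => q.v0 P k) (fun k => q.v1 P k) (fun k => q.v2 P k) i z) := by
  have := pos_sound h (Pc.abs_loc_le h1 h2)
  have e1 := e.evP_ev (q.env P) (q.loc z)
  simp only [Pc.env_ev] at e1
  rw [← e1]
  exact div_pos this (by positivity)

theorem val_sel (P : ℕ) (p : Pc) (ps : List Pc) (z : ℝ) (hz : z ≤ p.hi) (i : ℕ) :
    val (fun k => Fn P k p ps) (fun k => Fn1 P k p ps) (fun k => Fn2 P k p ps) i z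
      = val (fun k => p.v0 P k) (fun k => p.v1 P k) (fun k => p.v2 P k) i z := by
  unfold val
  split
  · rfl
  · split <;> exact sel_of_le hz

theorem check_sound {P n : ℕ} {e : Ex} : ∀ {p : Pc} {ps : List Pc}, chain adj p ps = true →
    check P n e p ps = true → ∀ z, p.lo ≤ z → z ≤ hiL p ps →
    0 < e.evR (fun i => val (fun k => Fn P k p ps) (fun k => Fn1 P k p ps)
      (fun k => Fn2 P k p ps) i z)
  | p, [], _, h, z, h1, h2 => by
    simp only [check, List.all_cons, List.all_nil, Bool.and_true] at h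
    exact piece_sound h h1 h2
  | p, q :: ps, ha, h, z, h1, h2 => by
    by_cases hz : z ≤ p.hi
    · simp only [check, List.all_cons, Bool.and_eq_true] at h
      have := piece_sound h.1 h1 hz
      simpa only [val_sel P p (q :: ps) z hz] using this
    · simp only [chain, Bool.and_eq_true] at ha
      have h' : check P n e q ps = true := by
        simp only [check, List.all_cons, Bool.and_eq_true] at h ⊢
        exact h.2
      have hq : q.lo ≤ z := by
        rw [← adj_sound ha.1]
        exact (not_le.1 hz).le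
      have := check_sound ha.2 h' z hq h2
      have e2 : ∀ i, val (fun k => Fn P k p (q :: ps)) (fun k => Fn1 P k p (q :: ps))
          (fun k => Fn2 P k p (q :: ps)) i z
          = val (fun k => Fn P k q ps) (fun k => Fn1 P k q ps) (fun k => Fn2 P k q ps) i z := by
        intro i
        have hs : ∀ g, sel g p (q :: ps) z = sel g q ps z := fun g => by simp [sel, hz]
        unfold val
        split
        · rfl
        · split <;> exact hs _
      simpa only [e2] using this

end Crest.Agent.R146.PP865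
private theorem rz_2b9a81c1a7 : type_of% @_root_.Crest.Agent.R146.PP865.Ex.evP.eq_def := @_root_.Crest.Agent.R146.PP865.Ex.evP.eq_def -- L263
private theorem rz_ce1daf54af : type_of% @_root_.Crest.Agent.R146.PP865.Ex.evP.eq_1 := @_root_.Crest.Agent.R146.PP865.Ex.evP.eq_1 -- L263
private theorem rz_c421e92264 : type_of% @_root_.Crest.Agent.R146.PP865.Ex.evR.eq_def := @_root_.Crest.Agent.R146.PP865.Ex.evR.eq_def -- L256
private theorem rz_6ac5ed91d1 : type_of% @_root_.Crest.Agent.R146.PP865.Ex.evR.eq_1 := @_root_.Crest.Agent.R146.PP865.Ex.evR.eq_1 -- L256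
private theorem rz_01e9543585 : type_of% @_root_.Crest.Agent.R146.PP865.chain.eq_def := @_root_.Crest.Agent.R146.PP865.chain.eq_def -- L449
private theorem rz_c3a57fd03d : type_of% @_root_.Crest.Agent.R146.PP865.chain.eq_1 := @_root_.Crest.Agent.R146.PP865.chain.eq_1 -- L449
private theorem rz_ea4a04cfb7 : type_of% @_root_.Crest.Agent.R146.PP865.ev.eq_def := @_root_.Crest.Agent.R146.PP865.ev.eq_def -- L28
private theorem rz_6719780d3e : type_of% @_root_.Crest.Agent.R146.PP865.ev.eq_1 := @_root_.Crest.Agent.R146.PP865.ev.eq_1 -- L28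
private theorem rz_c59da7b6ac : type_of% @_root_.Crest.Agent.R146.PP865.evZ.eq_def := @_root_.Crest.Agent.R146.PP865.evZ.eq_def -- L35
private theorem rz_20d73cb8d9 : type_of% @_root_.Crest.Agent.R146.PP865.evZ.eq_1 := @_root_.Crest.Agent.R146.PP865.evZ.eq_1 -- L35
private theorem rz_e0bda0aaa3 : type_of% @_root_.Crest.Agent.R146.PP865.half.eq_def := @_root_.Crest.Agent.R146.PP865.half.eq_def -- L142
private theorem rz_1160099d6a : type_of% @_root_.Crest.Agent.R146.PP865.half.eq_1 := @_root_.Crest.Agent.R146.PP865.half.eq_1 -- L142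
private theorem rz_d0e87a1c06 : type_of% @_root_.Crest.Agent.R146.PP865.hiL.eq_def := @_root_.Crest.Agent.R146.PP865.hiL.eq_def -- L385
private theorem rz_bfaa09af0b : type_of% @_root_.Crest.Agent.R146.PP865.hiL.eq_1 := @_root_.Crest.Agent.R146.PP865.hiL.eq_1 -- L385
private theorem rz_6e03d74061 : type_of% @_root_.Crest.Agent.R146.PP865.lead.eq_1 := @_root_.Crest.Agent.R146.PP865.lead.eq_1 -- L157
private theorem rz_1590508565 : type_of% @_root_.Crest.Agent.R146.PP865.padd.eq_def := @_root_.Crest.Agent.R146.PP865.padd.eq_def -- L44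
private theorem rz_ea3fe09e38 : type_of% @_root_.Crest.Agent.R146.PP865.padd.eq_1 := @_root_.Crest.Agent.R146.PP865.padd.eq_1 -- L44
private theorem rz_d1bc6d729d : type_of% @_root_.Crest.Agent.R146.PP865.pder.eq_1 := @_root_.Crest.Agent.R146.PP865.pder.eq_1 -- L80
private theorem rz_029d1b8b65 : type_of% @_root_.Crest.Agent.R146.PP865.pderAux.eq_def := @_root_.Crest.Agent.R146.PP865.pderAux.eq_def -- L76
private theorem rz_0f251aa0ec : type_of% @_root_.Crest.Agent.R146.PP865.pderAux.eq_1 := @_root_.Crest.Agent.R146.PP865.pderAux.eq_1 -- L76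
private theorem rz_c0fe8d33e0 : type_of% @_root_.Crest.Agent.R146.PP865.pmul.eq_def := @_root_.Crest.Agent.R146.PP865.pmul.eq_def -- L66
private theorem rz_95c81149cc : type_of% @_root_.Crest.Agent.R146.PP865.pmul.eq_1 := @_root_.Crest.Agent.R146.PP865.pmul.eq_1 -- L66
private theorem rz_cbef73889d : type_of% @_root_.Crest.Agent.R146.PP865.pos.eq_def := @_root_.Crest.Agent.R146.PP865.pos.eq_def -- L179
private theorem rz_d3341a0ebd : type_of% @_root_.Crest.Agent.R146.PP865.pos.eq_1 := @_root_.Crest.Agent.R146.PP865.pos.eq_1 -- L179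
private theorem rz_bb8a8f43cf : type_of% @_root_.Crest.Agent.R146.PP865.psmul.eq_def := @_root_.Crest.Agent.R146.PP865.psmul.eq_def -- L57
private theorem rz_0125d057a3 : type_of% @_root_.Crest.Agent.R146.PP865.psmul.eq_1 := @_root_.Crest.Agent.R146.PP865.psmul.eq_1 -- L57
private theorem rz_d284f244b0 : type_of% @_root_.Crest.Agent.R146.PP865.sel.eq_def := @_root_.Crest.Agent.R146.PP865.sel.eq_def -- L375
private theorem rz_baef33d072 : type_of% @_root_.Crest.Agent.R146.PP865.sel.eq_1 := @_root_.Crest.Agent.R146.PP865.sel.eq_1 -- L375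
private theorem rz_b4c3523edb : type_of% @_root_.Crest.Agent.R146.PP865.sumAbs.eq_def := @_root_.Crest.Agent.R146.PP865.sumAbs.eq_def -- L120
private theorem rz_a64b10a5e5 : type_of% @_root_.Crest.Agent.R146.PP865.sumAbs.eq_1 := @_root_.Crest.Agent.R146.PP865.sumAbs.eq_1 -- L120
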