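import Mathlib
import Crest.Agent.R146.TipSeq_791
import Crest.Agent.R146.SPair_307

-- ▼ part R146/PtLogic_164
section

/-!
Row 146, top logic of PT (helper164): from "every admissible window contracts towards the closure value
of the stationary reference" to convergence.  Pure real variable, any filter.

`Win Y l lo hi` : eventually (up to `ε`) the function `Y` is in `[lo, hi]`.
-/

set_option autoImplicit false

open Filter Topology Set

namespace Crest.Agent.R146.PtLogic_164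

/-- asymptotic window: for every `ε > 0`, eventually `lo - ε ≤ Y ≤ hi + ε` -/
def Win (Y : ℝ → ℝ) (l : Filter ℝ) (lo hi : ℝ) : Prop :=
  ∀ ε : ℝ, 0 < ε → ∀ᶠ t in l, lo - ε ≤ Y t ∧ Y t ≤ hi + ε

variable {Y : ℝ → ℝ} {l : Filter ℝ}

theorem Win.mono {lo hi lo' hi' : ℝ} (h : Win Y l lo hi) (h1 : lo' ≤ lo) (h2 : hi ≤ hi') :
    Win Y l lo' hi' := by
  intro ε hε
  filter_upwards [h ε hε] with t ht
  exact ⟨by linarith [ht.1], by linarith [ht.2]⟩


/-- the set of upper window ends -/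
def Ub (Y : ℝ → ℝ) (l : Filter ℝ) : Set ℝ := {b | ∀ ε : ℝ, 0 < ε → ∀ᶠ t in l, Y t ≤ b + ε}
/-- the set of lower window ends -/
def Lb (Y : ℝ → ℝ) (l : Filter ℝ) : Set ℝ := {a | ∀ ε : ℝ, 0 < ε → ∀ᶠ t in l, a - ε ≤ Y t}

/-- the sharp window: there are `a ≤ b` with `Win a b`, and every window contains `[a, b]` -/
theorem exists_sharp [NeBot l] {lo hi : ℝ} (h : Win Y l lo hi) :
    ∃ a b : ℝ, a ≤ b ∧ Win Y l a b ∧ ∀ lo' hi' : ℝ, Win Y l lo' hi' → lo' ≤ a ∧ b ≤ hi' := by
  classical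
  have hLU : ∀ x ∈ Lb Y l, ∀ y ∈ Ub Y l, x ≤ y := by
    intro x hx y hy
    refine le_of_forall_pos_le_add fun ε hε => ?_
    obtain ⟨t, h1, h2⟩ := ((hx (ε / 2) (by positivity)).and (hy (ε / 2) (by positivity))).exists
    linarith
  have hlo : lo ∈ Lb Y l := fun ε hε => (h ε hε).mono fun t ht => ht.1
  have hhi : hi ∈ Ub Y l := fun ε hε => (h ε hε).mono fun t ht => ht.2
  have hbL : BddAbove (Lb Y l) := ⟨hi, fun x hx => hLU x hx hi hhi⟩
  have hbU : BddBelow (Ub Y l) := ⟨lo, fun y hy => hLU lo hlo y hy⟩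
  refine ⟨sSup (Lb Y l), sInf (Ub Y l), ?_, ?_, ?_⟩
  · exact csSup_le ⟨lo, hlo⟩ fun x hx => le_csInf ⟨hi, hhi⟩ fun y hy => hLU x hx y hy
  · intro ε hε
    obtain ⟨x, hx, hx1⟩ := exists_lt_of_lt_csSup (s := Lb Y l) ⟨lo, hlo⟩
      (show sSup (Lb Y l) - ε / 2 < sSup (Lb Y l) by linarith)
    obtain ⟨y, hy, hy1⟩ := exists_lt_of_csInf_lt (s := Ub Y l) ⟨hi, hhi⟩
      (show sInf (Ub Y l) < sInf (Ub Y l) + ε / 2 by linarith)
    filter_upwards [hx (ε / 2) (by positivity), hy (ε / 2) (by positivity)] with t h1 h2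
    exact ⟨by linarith, by linarith⟩
  · intro lo' hi' h'
    exact ⟨le_csSup hbL fun ε hε => (h' ε hε).mono fun t ht => ht.1,
      csInf_le hbU fun ε hε => (h' ε hε).mono fun t ht => ht.2⟩

theorem tendsto_of_Win {c : ℝ} (h : Win Y l c c) : Tendsto Y l (𝓝 c) := by
  rw [Metric.tendsto_nhds]
  intro ε hε
  filter_upwards [h (ε / 2) (by positivity)] with t ht
  rw [Real.dist_eq, abs_lt]
  constructor <;> linarith [ht.1, ht.2]



end Crest.Agent.R146.PtLogic_164
end

-- ▼ part R146/PtTip_164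

/-!
Row 146: ASSEMBLY OF PT (helper164), PT-SPEC v1.1 (posts 1064 + 1079).

Props (each to be proved by its owner; all are statements about `TipSeq P` of helper791 only):
* `T1`   : old clock window  `limsup ν ≤ .52`;
* `T12`  : change of clock (pure real variable);
* `T2`   : new clock, one-sided window A: `Y ≤ .70`;
* `STAT` : existence of the stationary pair at every `c ∈ [.4107, .4207]` (helper307);
* `REF`  : the contraction towards the stationary reference, all radii `≤ .4157`;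
* `CC0`  : `|C(.4157) - .4157| ≤ .001`;
* `END`  : from `Y* → Y∞` to the digits and the logarithmic limit.

`ptmain : T1 → T12 → T2 → STAT → REF → CC0 → END → PTMAIN`.
-/

set_option autoImplicit false

namespace Crest.Agent.R146.PtTip_164

open MeasureTheory Set Filter Topology
open Crest.Agent.R146.TipSeq_791 Crest.Agent.R146.SPair_307
open Crest.Agent.R146.PtScalA_45 (Prof)

noncomputable section

/-! ### constants -/

/-- centre of the reference interval -/
def cz : ℝ := 4157 / 10000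
/-- reference interval `Wt = [.4107, .4207]` -/
def Wt : Set ℝ := Icc (4107 / 10000) (4207 / 10000)
/-- contraction rate (true value `≤ .66`) -/
def gz : ℝ := 4 / 5
/-- upper end of window A -/
def hiA : ℝ := 7 / 10

/-- closure value of a stationary pair: `∫ q I² / (2 ∫ q V R²)`, `q = exp(-∫_0^x k)` -/
def Cval (V I k : ℝ → ℝ) : ℝ :=
  (∫ x, Real.exp (-∫ y in (0 : ℝ)..x, k y) * I x ^ 2) /
    (2 * ∫ x, Real.exp (-∫ y in (0 : ℝ)..x, k y) * (V x * (1 - V x) ^ 2))

/-! ### the Props -/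

/-- (T1) old clock: `limsup (1-t) m/D ≤ .52` -/
def T1 : Prop := ∀ P : Prof, TipSeq P → Win P 0 0 (13 / 25)

/-- (T12) change of clock -/
def T12 : Prop := ∀ P : Prof, TipSeq P → Win P 0 0 (13 / 25) → Win P 1 0 (109 / 100)

/-- (T2) window A -/
def T2 : Prop := ∀ P : Prof, TipSeq P → Win P 1 0 (109 / 100) → Win P 1 0 hiA


/-- (REF) at one pair -/
def REFat (P : Prof) (c : ℝ) (V I k : ℝ → ℝ) : Prop :=
  ∀ δ : ℝ, 0 < δ → δ ≤ cz → Win P 1 (max 0 (c - δ)) (min hiA (c + δ)) →
    Win P 1 (Cval V I k - gz * δ) (Cval V I k + gz * δ)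

/-- (REF) -/
def REF : Prop := ∀ P : Prof, TipSeq P → ∀ c ∈ Wt, ∀ (W V I k : ℝ → ℝ) (lam : ℝ),
  SPair c W V I k lam → REFat P c V I k



/-! ### windows as filters -/

theorem win_iff (P : Prof) (a : Fin 2) (lo hi : ℝ) :
    Win P a lo hi ↔ PtLogic_164.Win (Ystar P a) (𝓝[<] 1) lo hi := by
  constructor
  · intro h ε hε
    obtain ⟨ta, h1, h0, h2⟩ := h ε hε
    filter_upwards [Ico_mem_nhdsLT h1] with t ht
    exact h2 t ht
  · intro h ε hε
    have h1 := h ε hε
    obtain ⟨ta, h2, h3⟩ := (mem_nhdsLT_iff_exists_Ioo_subset (a := (1 : ℝ))).1 h1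
    have h2' : ta < 1 := h2
    refine ⟨max ((ta + 1) / 2) 0, ?_, le_max_right _ _, fun t ht => h3 ⟨?_, ht.2⟩⟩
    · exact max_lt (by linarith) one_pos
    · have := le_max_left ((ta + 1) / 2) (0 : ℝ)
      linarith [ht.1]

/-! ### the assembly -/



end

end Crest.Agent.R146.PtTip_164
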