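import Crest.Agent.R146.PtScalA_45
import Crest.Agent.R146.PtS1_489
import Crest.Agent.R146.PtTip_164

-- ▼ part R146/YtoD_385
section

/-!
Row 146, package PT-END, task 122 (helper385, design helper460): real-variable end of the tip analysis.

`Clk D K m t0` : `D t = D 1 + ∫_t^1 m`, `K t = ∫_t^1 1/D` on `[t0,1]`, `D > 0` on `[t0,1)`.
`Y = m K`, `χ = D K`, `τ = 1 - t`, `ν = τ m / D`.

Window versions (a.e. hypotheses) and limits:
* `a ≤ Y ≤ b` a.e. near `1`  ⟹  `c K^b ≤ D ≤ C K^a`, `τ` between `c K^(1+b)` and `C K^(1+a)`,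
  `(1+a) τ ≤ χ ≤ (1+b) τ`, `a/(1+b) ≤ ν ≤ b/(1+a)`;
* `a ≤ ν ≤ b < 1` a.e. near `1` ⟹ `τ/(1-a) ≤ χ ≤ τ/(1-b)`, `a/(1-a) ≤ Y ≤ b/(1-b)`;
* `Y → Y∞` ⟹ `log D/log K → Y∞`, `log τ/log K → 1+Y∞`, `log D/log τ → Y∞/(1+Y∞)`,
  `χ/τ → 1+Y∞`, `ν → Y∞/(1+Y∞)`.
* `m` monotone: `τ m ≤ D`, a.e. windows hold everywhere.
-/

set_option autoImplicit false

namespace Crest.Agent.R146.YtoD_385

open MeasureTheory Set Filter Topology

/-- clock data. -/
structure Clk (D K m : ℝ → ℝ) (t0 : ℝ) : Prop where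
  lt : t0 < 1
  m_int : IntervalIntegrable m volume t0 1
  D_eq : ∀ t ∈ Icc t0 1, D t = D 1 + ∫ s in t..1, m s
  D_pos : ∀ t ∈ Ico t0 1, 0 < D t
  E_int : IntervalIntegrable (fun s => (D s)⁻¹) volume t0 1
  K_eq : ∀ t ∈ Icc t0 1, K t = ∫ s in t..1, (D s)⁻¹

section basic

variable {D K m : ℝ → ℝ} {t0 : ℝ}

theorem sub_int {u : ℝ → ℝ} {c d a b : ℝ} (hu : IntervalIntegrable u volume c d) (hcd : c ≤ d)
    (ha : a ∈ Icc c d) (hb : b ∈ Icc c d) : IntervalIntegrable u volume a b := by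
  apply hu.mono_set
  rw [uIcc_of_le hcd]
  exact uIcc_subset_Icc ha hb

theorem Clk.restrict (h : Clk D K m t0) {t1 : ℝ} (h1 : t0 ≤ t1) (h2 : t1 < 1) :
    Clk D K m t1 where
  lt := h2
  m_int := sub_int h.m_int h.lt.le ⟨h1, h2.le⟩ ⟨h.lt.le, le_rfl⟩
  D_eq t ht := h.D_eq t ⟨h1.trans ht.1, ht.2⟩
  D_pos t ht := h.D_pos t ⟨h1.trans ht.1, ht.2⟩
  E_int := sub_int h.E_int h.lt.le ⟨h1, h2.le⟩ ⟨h.lt.le, le_rfl⟩
  K_eq t ht := h.K_eq t ⟨h1.trans ht.1, ht.2⟩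

theorem Clk.D_sub (h : Clk D K m t0) {t t' : ℝ} (ht : t ∈ Icc t0 1) (ht' : t' ∈ Icc t0 1) :
    D t' = D t + ∫ s in t..t', - m s := by
  have h1 : (∫ s in t..t', m s) + ∫ s in t'..1, m s = ∫ s in t..1, m s :=
    intervalIntegral.integral_add_adjacent_intervals
      (sub_int h.m_int h.lt.le ht ht')
      (sub_int h.m_int h.lt.le ht' ⟨h.lt.le, le_rfl⟩)
  have h2 : (∫ s in t..t', - m s) = - ∫ s in t..t', m s := intervalIntegral.integral_neg
  rw [h.D_eq t ht, h.D_eq t' ht', h2]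
  linarith

theorem Clk.K_sub (h : Clk D K m t0) {t t' : ℝ} (ht : t ∈ Icc t0 1) (ht' : t' ∈ Icc t0 1) :
    K t' = K t + ∫ s in t..t', - (D s)⁻¹ := by
  have h1 : (∫ s in t..t', (D s)⁻¹) + ∫ s in t'..1, (D s)⁻¹ = ∫ s in t..1, (D s)⁻¹ :=
    intervalIntegral.integral_add_adjacent_intervals
      (sub_int h.E_int h.lt.le ht ht')
      (sub_int h.E_int h.lt.le ht' ⟨h.lt.le, le_rfl⟩)
  have h2 : (∫ s in t..t', - (D s)⁻¹) = - ∫ s in t..t', (D s)⁻¹ := intervalIntegral.integral_neg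
  rw [h.K_eq t ht, h.K_eq t' ht', h2]
  linarith

theorem Clk.K_one (h : Clk D K m t0) : K 1 = 0 := by
  rw [h.K_eq 1 ⟨h.lt.le, le_rfl⟩]; simp

theorem Clk.D_cont (h : Clk D K m t0) : ContinuousOn D (Icc t0 1) := by
  have h1 : ContinuousOn (fun t => D t0 + ∫ s in t0..t, - m s) (Icc t0 1) := by
    apply continuousOn_const.add
    have h2 : IntegrableOn (fun s => - m s) (uIcc t0 1) volume := by
      have := h.m_int.neg
      rw [intervalIntegrable_iff'] at this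
      exact this
    have h3 := intervalIntegral.continuousOn_primitive_interval h2
    rwa [uIcc_of_le h.lt.le] at h3
  apply h1.congr
  intro t ht
  exact h.D_sub ⟨le_rfl, h.lt.le⟩ ht

theorem Clk.K_cont (h : Clk D K m t0) : ContinuousOn K (Icc t0 1) := by
  have h1 : ContinuousOn (fun t => K t0 + ∫ s in t0..t, - (D s)⁻¹) (Icc t0 1) := by
    apply continuousOn_const.add
    have h2 : IntegrableOn (fun s => - (D s)⁻¹) (uIcc t0 1) volume := by
      have := h.E_int.neg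
      rw [intervalIntegrable_iff'] at this
      exact this
    have h3 := intervalIntegral.continuousOn_primitive_interval h2
    rwa [uIcc_of_le h.lt.le] at h3
  apply h1.congr
  intro t ht
  exact h.K_sub ⟨le_rfl, h.lt.le⟩ ht

theorem Clk.K_pos (h : Clk D K m t0) {t : ℝ} (ht : t ∈ Ico t0 1) : 0 < K t := by
  rw [h.K_eq t ⟨ht.1, ht.2.le⟩]
  apply intervalIntegral.intervalIntegral_pos_of_pos_on
    (sub_int h.E_int h.lt.le ⟨ht.1, ht.2.le⟩ ⟨h.lt.le, le_rfl⟩) _ ht.2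
  intro s hs
  exact inv_pos.2 (h.D_pos s ⟨ht.1.trans hs.1.le, hs.2⟩)


theorem Clk.K_tendsto (h : Clk D K m t0) : Tendsto K (𝓝[<] 1) (𝓝 0) := by
  have h1 : ContinuousWithinAt K (Icc t0 1) 1 := h.K_cont 1 ⟨h.lt.le, le_rfl⟩
  have h2 : Tendsto K (𝓝[<] 1) (𝓝 (K 1)) := by
    apply h1.mono_left
    rw [← nhdsWithin_Ico_eq_nhdsLT h.lt]
    exact nhdsWithin_mono _ Ico_subset_Icc_self
  rwa [h.K_one] at h2

theorem Clk.K_tendsto' (h : Clk D K m t0) : Tendsto K (𝓝[<] 1) (𝓝[>] 0) := by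
  rw [tendsto_nhdsWithin_iff]
  refine ⟨h.K_tendsto, ?_⟩
  filter_upwards [Ico_mem_nhdsLT h.lt] with t ht
  exact h.K_pos ht

theorem Clk.logK_tendsto (h : Clk D K m t0) :
    Tendsto (fun t => Real.log (K t)) (𝓝[<] 1) atBot :=
  Real.tendsto_log_nhdsGT_zero.comp h.K_tendsto'

theorem Clk.K_hasDerivAt (h : Clk D K m t0) {t : ℝ} (ht : t ∈ Ioo t0 1) :
    HasDerivAt K (-(D t)⁻¹) t := by
  have hDc : ContinuousAt D t := h.D_cont.continuousAt (Icc_mem_nhds ht.1 ht.2)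
  have hEc : ContinuousAt (fun s => -(D s)⁻¹) t :=
    (hDc.inv₀ (h.D_pos t ⟨ht.1.le, ht.2⟩).ne').neg
  have hint : IntervalIntegrable (fun s => -(D s)⁻¹) volume t0 t :=
    (sub_int h.E_int h.lt.le ⟨le_rfl, h.lt.le⟩ ⟨ht.1.le, ht.2.le⟩).neg
  have hmeas : StronglyMeasurableAtFilter (fun s => -(D s)⁻¹) (𝓝 t) volume := by
    have hc : ContinuousOn (fun s => -(D s)⁻¹) (Ioo t0 1) := by
      apply ContinuousOn.neg
      apply (h.D_cont.mono Ioo_subset_Icc_self).inv₀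
      intro s hs
      exact (h.D_pos s ⟨hs.1.le, hs.2⟩).ne'
    exact hc.stronglyMeasurableAtFilter isOpen_Ioo t ht
  have h1 : HasDerivAt (fun u => ∫ s in t0..u, -(D s)⁻¹) (-(D t)⁻¹) t :=
    intervalIntegral.integral_hasDerivAt_right hint hmeas hEc
  have h2 := h1.const_add (K t0)
  apply h2.congr_of_eventuallyEq
  filter_upwards [Ioo_mem_nhds ht.1 ht.2] with s hs
  exact h.K_sub ⟨le_rfl, h.lt.le⟩ ⟨hs.1.le, hs.2.le⟩

/-- integration by parts against a `C¹` factor. -/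
theorem Clk.ibp (h : Clk D K m t0) {t t' : ℝ} (h0 : t0 ≤ t) (h1 : t ≤ t') (h2 : t' ≤ 1)
    {g g' : ℝ → ℝ} (hg : ContinuousOn g (Icc t t'))
    (hd : ∀ s ∈ Ioo t t', HasDerivAt g (g' s) s) (hg' : IntervalIntegrable g' volume t t') :
    D t' * g t' - D t * g t = ∫ s in t..t', (D s * g' s - m s * g s) := by
  have ht : t ∈ Icc t0 1 := ⟨h0, h1.trans h2⟩
  have ht' : t' ∈ Icc t0 1 := ⟨h0.trans h1, h2⟩
  have hgs : ∀ s ∈ Icc t t', g s = g t + ∫ r in t..s, g' r := by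
    intro s hs
    have e := intervalIntegral.integral_eq_sub_of_hasDerivAt_of_le hs.1
      (hg.mono (Icc_subset_Icc_right hs.2)) (fun x hx => hd x ⟨hx.1, hx.2.trans_le hs.2⟩)
      (sub_int hg' h1 ⟨le_rfl, h1⟩ hs)
    linarith
  have hDs : ∀ s ∈ Icc t t', D s = D t + ∫ r in t..s, - m r := fun s hs =>
    h.D_sub ht ⟨h0.trans hs.1, hs.2.trans h2⟩
  have key := PtScalA_45.ibp (a := t) (b := t') (u := fun s => - m s) (v := g') (D t) (g t)
    (sub_int h.m_int h.lt.le ht ht').neg hg'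
  rw [← hDs t' ⟨h1, le_rfl⟩, ← hgs t' ⟨h1, le_rfl⟩] at key
  rw [← key]
  apply intervalIntegral.integral_congr
  intro s hs
  rw [uIcc_of_le h1] at hs
  simp only
  rw [← hDs s hs, ← hgs s hs]
  ring

/-- a.e. differential inequality gives monotonicity of `D g`. -/
theorem Clk.le_of_ae (h : Clk D K m t0) {t t' : ℝ} (h0 : t0 ≤ t) (h1 : t ≤ t') (h2 : t' ≤ 1)
    {g g' : ℝ → ℝ} (hg : ContinuousOn g (Icc t t'))
    (hd : ∀ s ∈ Ioo t t', HasDerivAt g (g' s) s) (hg' : IntervalIntegrable g' volume t t')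
    (hle : ∀ᵐ s ∂volume.restrict (Ioo t t'), D s * g' s ≤ m s * g s) :
    D t' * g t' ≤ D t * g t := by
  have e := h.ibp h0 h1 h2 hg hd hg'
  have e2 : (∫ s in t..t', (D s * g' s - m s * g s)) ≤ 0 := by
    rw [intervalIntegral.integral_of_le h1]
    apply integral_nonpos_of_ae
    rw [← restrict_Ioo_eq_restrict_Ioc]
    filter_upwards [hle] with s hs
    simp only [Pi.zero_apply]
    linarith
  linarith

theorem Clk.ge_of_ae (h : Clk D K m t0) {t t' : ℝ} (h0 : t0 ≤ t) (h1 : t ≤ t') (h2 : t' ≤ 1)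
    {g g' : ℝ → ℝ} (hg : ContinuousOn g (Icc t t'))
    (hd : ∀ s ∈ Ioo t t', HasDerivAt g (g' s) s) (hg' : IntervalIntegrable g' volume t t')
    (hle : ∀ᵐ s ∂volume.restrict (Ioo t t'), m s * g s ≤ D s * g' s) :
    D t * g t ≤ D t' * g t' := by
  have e := h.le_of_ae h0 h1 h2 (g := fun s => - g s) (g' := fun s => - g' s) hg.neg
    (fun s hs => (hd s hs).neg) hg'.neg (by
      filter_upwards [hle] with s hs
      linarith)
  linarith

/-- monotone from a nonnegative derivative, on `[t, t']`. -/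
theorem le_of_deriv_nonneg {F F' : ℝ → ℝ} {t t' : ℝ} (h1 : t ≤ t') (hF : ContinuousOn F (Icc t t'))
    (hd : ∀ s ∈ Ioo t t', HasDerivAt F (F' s) s) (h0 : ∀ s ∈ Ioo t t', 0 ≤ F' s) : F t ≤ F t' := by
  have h2 : MonotoneOn F (Icc t t') := by
    apply monotoneOn_of_deriv_nonneg (convex_Icc t t') hF
    · intro s hs
      rw [interior_Icc] at hs
      exact (hd s hs).differentiableAt.differentiableWithinAt
    · intro s hs
      rw [interior_Icc] at hs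
      rw [(hd s hs).deriv]
      exact h0 s hs
  exact h2 ⟨le_rfl, h1⟩ ⟨h1, le_rfl⟩ h1

theorem Clk.Kpow_deriv (h : Clk D K m t0) (p : ℝ) {s : ℝ} (hs : s ∈ Ioo t0 1) :
    HasDerivAt (fun s => K s ^ p) (-(p * K s ^ (p - 1) * (D s)⁻¹)) s := by
  have h1 := (h.K_hasDerivAt hs).rpow_const (p := p) (Or.inl (h.K_pos ⟨hs.1.le, hs.2⟩).ne')
  convert h1 using 1
  ring

theorem Clk.Kpow_cont (h : Clk D K m t0) (p : ℝ) {t t' : ℝ} (h0 : t0 ≤ t) (h2 : t' < 1) :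
    ContinuousOn (fun s => K s ^ p) (Icc t t') := by
  intro s hs
  have hs' : s ∈ Icc t0 1 := ⟨h0.trans hs.1, hs.2.trans h2.le⟩
  have h1 : ContinuousWithinAt K (Icc t t') s :=
    (h.K_cont s hs').mono (Icc_subset_Icc h0 h2.le)
  exact h1.rpow_const (Or.inl (h.K_pos ⟨hs'.1, hs.2.trans_lt h2⟩).ne')

theorem Clk.Dinv_cont (h : Clk D K m t0) {t t' : ℝ} (h0 : t0 ≤ t) (h2 : t' < 1) :
    ContinuousOn (fun s => (D s)⁻¹) (Icc t t') := by
  apply (h.D_cont.mono (Icc_subset_Icc h0 h2.le)).inv₀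
  intro s hs
  exact (h.D_pos s ⟨h0.trans hs.1, hs.2.trans_lt h2⟩).ne'

theorem Clk.Kpow_deriv_int (h : Clk D K m t0) (p : ℝ) {t t' : ℝ} (h0 : t0 ≤ t) (h1 : t ≤ t')
    (h2 : t' < 1) :
    IntervalIntegrable (fun s => -(p * K s ^ (p - 1) * (D s)⁻¹)) volume t t' := by
  apply ContinuousOn.intervalIntegrable_of_Icc h1
  exact (((h.Kpow_cont (p - 1) h0 h2).const_mul p).mul (h.Dinv_cont h0 h2)).neg

/-- `a ≤ Y` a.e. on `(t,t')` gives `D K^{-a}` smaller at `t'`. -/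
theorem Clk.DK_anti (h : Clk D K m t0) {a t t' : ℝ} (h0 : t0 ≤ t) (h1 : t ≤ t') (h2 : t' < 1)
    (hY : ∀ᵐ s ∂volume.restrict (Ioo t t'), a ≤ m s * K s) :
    D t' * K t' ^ (-a) ≤ D t * K t ^ (-a) := by
  apply h.le_of_ae h0 h1 h2.le (h.Kpow_cont (-a) h0 h2)
    (fun s hs => h.Kpow_deriv (-a) ⟨h0.trans_lt hs.1, hs.2.trans h2⟩)
    (h.Kpow_deriv_int (-a) h0 h1 h2)
  filter_upwards [hY, ae_restrict_mem measurableSet_Ioo] with s hs hs'
  have hs0 : s ∈ Ico t0 1 := ⟨h0.trans hs'.1.le, hs'.2.trans h2⟩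
  have hK := h.K_pos hs0
  have hD := h.D_pos s hs0
  have e1 : K s ^ (-a) = K s ^ (-a - 1) * K s := by
    rw [Real.rpow_sub_one hK.ne']; field_simp
  have e2 : D s * -(-a * K s ^ (-a - 1) * (D s)⁻¹) = a * K s ^ (-a - 1) := by
    field_simp
  rw [e2, e1]
  have hp : 0 < K s ^ (-a - 1) := Real.rpow_pos_of_pos hK _
  nlinarith

theorem Clk.DK_mono (h : Clk D K m t0) {b t t' : ℝ} (h0 : t0 ≤ t) (h1 : t ≤ t') (h2 : t' < 1)
    (hY : ∀ᵐ s ∂volume.restrict (Ioo t t'), m s * K s ≤ b) :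
    D t * K t ^ (-b) ≤ D t' * K t' ^ (-b) := by
  apply h.ge_of_ae h0 h1 h2.le (h.Kpow_cont (-b) h0 h2)
    (fun s hs => h.Kpow_deriv (-b) ⟨h0.trans_lt hs.1, hs.2.trans h2⟩)
    (h.Kpow_deriv_int (-b) h0 h1 h2)
  filter_upwards [hY, ae_restrict_mem measurableSet_Ioo] with s hs hs'
  have hs0 : s ∈ Ico t0 1 := ⟨h0.trans hs'.1.le, hs'.2.trans h2⟩
  have hK := h.K_pos hs0
  have hD := h.D_pos s hs0
  have e1 : K s ^ (-b) = K s ^ (-b - 1) * K s := by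
    rw [Real.rpow_sub_one hK.ne']; field_simp
  have e2 : D s * -(-b * K s ^ (-b - 1) * (D s)⁻¹) = b * K s ^ (-b - 1) := by
    field_simp
  rw [e2, e1]
  have hp : 0 < K s ^ (-b - 1) := Real.rpow_pos_of_pos hK _
  nlinarith

/-- `D ≤ C K^a`, `C = D(t1) K(t1)^{-a}`. -/
theorem Clk.D_le (h : Clk D K m t0) {a t1 : ℝ} (h0 : t0 ≤ t1)
    (hY : ∀ᵐ s ∂volume.restrict (Ioo t1 1), a ≤ m s * K s) {t : ℝ} (ht : t ∈ Ico t1 1) :
    D t ≤ (D t1 * K t1 ^ (-a)) * K t ^ a := by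
  have h1 := h.DK_anti h0 ht.1 ht.2 (ae_restrict_of_ae_restrict_of_subset
    (Ioo_subset_Ioo_right ht.2.le) hY)
  have hK := h.K_pos (t := t) ⟨h0.trans ht.1, ht.2⟩
  have hp : 0 < K t ^ a := Real.rpow_pos_of_pos hK _
  have e : D t = D t * K t ^ (-a) * K t ^ a := by
    rw [mul_assoc, ← Real.rpow_add hK]; simp
  rw [e]
  exact mul_le_mul_of_nonneg_right h1 hp.le

/-- `c K^b ≤ D`, `c = D(t1) K(t1)^{-b}`. -/
theorem Clk.D_ge (h : Clk D K m t0) {b t1 : ℝ} (h0 : t0 ≤ t1)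
    (hY : ∀ᵐ s ∂volume.restrict (Ioo t1 1), m s * K s ≤ b) {t : ℝ} (ht : t ∈ Ico t1 1) :
    (D t1 * K t1 ^ (-b)) * K t ^ b ≤ D t := by
  have h1 := h.DK_mono h0 ht.1 ht.2 (ae_restrict_of_ae_restrict_of_subset
    (Ioo_subset_Ioo_right ht.2.le) hY)
  have hK := h.K_pos (t := t) ⟨h0.trans ht.1, ht.2⟩
  have hp : 0 < K t ^ b := Real.rpow_pos_of_pos hK _
  have e : D t = D t * K t ^ (-b) * K t ^ b := by
    rw [mul_assoc, ← Real.rpow_add hK]; simp
  rw [e]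
  exact mul_le_mul_of_nonneg_right h1 hp.le

theorem Clk.DK_const_pos (h : Clk D K m t0) (a : ℝ) {t1 : ℝ} (ht : t1 ∈ Ico t0 1) :
    0 < D t1 * K t1 ^ (-a) :=
  mul_pos (h.D_pos t1 ht) (Real.rpow_pos_of_pos (h.K_pos ht) _)

/-- `D ≤ C K^a` on `[t1,1)`, `a > -1`, gives `τ ≤ C/(1+a) K^{1+a}`. -/
theorem Clk.tau_le (h : Clk D K m t0) {a C t1 : ℝ} (h0 : t0 ≤ t1) (ha : -1 < a)
    (hC : 0 ≤ C) (hD : ∀ t ∈ Ioo t1 1, D t ≤ C * K t ^ a) {t : ℝ} (ht : t ∈ Ico t1 1) :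
    1 - t ≤ C / (1 + a) * K t ^ (1 + a) := by
  have ha' : 0 < 1 + a := by linarith
  have key : ∀ t' ∈ Ioo t 1, t' - t ≤ C / (1 + a) * K t ^ (1 + a) := by
    intro t' ht'
    have hm := le_of_deriv_nonneg (F := fun s => -(C / (1 + a) * K s ^ (1 + a)) - s)
      (F' := fun s => -(C / (1 + a) * -((1 + a) * K s ^ (1 + a - 1) * (D s)⁻¹)) - 1) ht'.1.le
      (((h.Kpow_cont (1 + a) (h0.trans ht.1) ht'.2).const_mul _).neg.sub continuousOn_id)
      (fun s hs => (((h.Kpow_deriv (1 + a)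
        ⟨(h0.trans ht.1).trans_lt hs.1, hs.2.trans ht'.2⟩).const_mul _).neg.sub
          (hasDerivAt_id s)))
      (fun s hs => by
        have hs1 : s ∈ Ioo t1 1 := ⟨ht.1.trans_lt hs.1, hs.2.trans ht'.2⟩
        have hDp := h.D_pos s ⟨h0.trans hs1.1.le, hs1.2⟩
        have h3 := hD s hs1
        have e : (1 + a - 1) = a := by ring
        rw [e]
        have e2 : -(C / (1 + a) * -((1 + a) * K s ^ a * (D s)⁻¹)) - 1 =
            (C * K s ^ a - D s) * (D s)⁻¹ := by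
          field_simp
        rw [e2]
        exact mul_nonneg (by linarith) (inv_pos.2 hDp).le)
    have hp : 0 ≤ C / (1 + a) * K t' ^ (1 + a) :=
      mul_nonneg (div_nonneg hC ha'.le)
        (Real.rpow_nonneg (h.K_pos ⟨(h0.trans ht.1).trans ht'.1.le, ht'.2⟩).le _)
    linarith
  have hlim : Tendsto (fun t' : ℝ => t' - t) (𝓝[<] 1) (𝓝 (1 - t)) := by
    apply Tendsto.mono_left _ nhdsWithin_le_nhds
    exact (continuous_id.sub continuous_const).tendsto 1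
  apply le_of_tendsto hlim
  filter_upwards [Ioo_mem_nhdsLT ht.2] with t' ht'
  exact key t' ht'

/-- `c K^b ≤ D` on `[t1,1)`, `b > -1`, gives `c/(1+b) K^{1+b} ≤ τ`. -/
theorem Clk.tau_ge (h : Clk D K m t0) {b c t1 : ℝ} (h0 : t0 ≤ t1) (hb : -1 < b)
    (hD : ∀ t ∈ Ioo t1 1, c * K t ^ b ≤ D t) {t : ℝ} (ht : t ∈ Ico t1 1) :
    c / (1 + b) * K t ^ (1 + b) ≤ 1 - t := by
  have hb' : 0 < 1 + b := by linarith
  have key : ∀ t' ∈ Ioo t 1, c / (1 + b) * K t ^ (1 + b) ≤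
      c / (1 + b) * K t' ^ (1 + b) + (t' - t) := by
    intro t' ht'
    have hm := le_of_deriv_nonneg (F := fun s => (c / (1 + b) * K s ^ (1 + b)) + s)
      (F' := fun s => (c / (1 + b) * -((1 + b) * K s ^ (1 + b - 1) * (D s)⁻¹)) + 1) ht'.1.le
      (((h.Kpow_cont (1 + b) (h0.trans ht.1) ht'.2).const_mul _).add continuousOn_id)
      (fun s hs => (((h.Kpow_deriv (1 + b)
        ⟨(h0.trans ht.1).trans_lt hs.1, hs.2.trans ht'.2⟩).const_mul _).add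
          (hasDerivAt_id s)))
      (fun s hs => by
        have hs1 : s ∈ Ioo t1 1 := ⟨ht.1.trans_lt hs.1, hs.2.trans ht'.2⟩
        have hDp := h.D_pos s ⟨h0.trans hs1.1.le, hs1.2⟩
        have h3 := hD s hs1
        have e : (1 + b - 1) = b := by ring
        rw [e]
        have e2 : (c / (1 + b) * -((1 + b) * K s ^ b * (D s)⁻¹)) + 1 =
            (D s - c * K s ^ b) * (D s)⁻¹ := by
          field_simp
          ring
        rw [e2]
        exact mul_nonneg (by linarith) (inv_pos.2 hDp).le)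
    linarith
  have hlim : Tendsto (fun t' : ℝ => c / (1 + b) * K t' ^ (1 + b) + (t' - t)) (𝓝[<] 1)
      (𝓝 (c / (1 + b) * 0 ^ (1 + b) + (1 - t))) := by
    apply Tendsto.add
    · apply Tendsto.const_mul
      exact h.K_tendsto.rpow_const (Or.inr hb'.le)
    · apply Tendsto.mono_left _ nhdsWithin_le_nhds
      exact (continuous_id.sub continuous_const).tendsto 1
  rw [Real.zero_rpow hb'.ne', mul_zero, zero_add] at hlim
  apply ge_of_tendsto hlim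
  filter_upwards [Ioo_mem_nhdsLT ht.2] with t' ht'
  exact key t' ht'

/-! ### `χ = D K` -/





/-! ### the variable `ν = τ m / D` -/

theorem taupow_deriv (p : ℝ) {s : ℝ} (hs : s < 1) :
    HasDerivAt (fun s : ℝ => (1 - s) ^ p) (-(p * (1 - s) ^ (p - 1))) s := by
  have h2 : HasDerivAt (fun s : ℝ => 1 - s) (-1) s := by
    simpa using (hasDerivAt_id s).const_sub 1
  have h3 := h2.rpow_const (p := p) (Or.inl (by linarith : (1 - s) ≠ 0))
  convert h3 using 1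
  ring

theorem taupow_cont (p : ℝ) {t t' : ℝ} (h : t' < 1) :
    ContinuousOn (fun s : ℝ => (1 - s) ^ p) (Icc t t') := fun _ hs =>
  (taupow_deriv p (hs.2.trans_lt h)).continuousAt.continuousWithinAt

theorem taupow_int (p : ℝ) {t t' : ℝ} (h1 : t ≤ t') (h : t' < 1) :
    IntervalIntegrable (fun s : ℝ => -(p * (1 - s) ^ (p - 1))) volume t t' :=
  ContinuousOn.intervalIntegrable_of_Icc h1 ((taupow_cont (p - 1) h).const_mul p).neg

/-- `ν ≤ b` a.e. : `D τ^{-b}` nondecreasing. -/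
theorem Clk.Dtau_mono (h : Clk D K m t0) {b t t' : ℝ} (h0 : t0 ≤ t) (h1 : t ≤ t') (h2 : t' < 1)
    (hν : ∀ᵐ s ∂volume.restrict (Ioo t t'), (1 - s) * m s ≤ b * D s) :
    D t * (1 - t) ^ (-b) ≤ D t' * (1 - t') ^ (-b) := by
  apply h.ge_of_ae h0 h1 h2.le (taupow_cont (-b) h2) (fun _ hs => taupow_deriv (-b) (hs.2.trans h2))
    (taupow_int (-b) h1 h2)
  filter_upwards [hν, ae_restrict_mem measurableSet_Ioo] with s hs hs'
  have hτ : 0 < 1 - s := by linarith [hs'.2.trans h2]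
  have e1 : (1 - s) ^ (-b) = (1 - s) ^ (-b - 1) * (1 - s) := by
    rw [Real.rpow_sub_one hτ.ne']; field_simp
  have e2 : D s * -(-b * (1 - s) ^ (-b - 1)) = (b * D s) * (1 - s) ^ (-b - 1) := by ring
  rw [e2, e1]
  have hp : 0 < (1 - s) ^ (-b - 1) := Real.rpow_pos_of_pos hτ _
  nlinarith





/-- `ν ≤ b < 1` a.e. on `(t,1)`: `(1-b) χ ≤ τ`. -/
theorem Clk.chi_le_of_nu (h : Clk D K m t0) {b t : ℝ} (hb : b < 1) (ht : t ∈ Ico t0 1)
    (hν : ∀ᵐ s ∂volume.restrict (Ioo t 1), (1 - s) * m s ≤ b * D s) :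
    (1 - b) * (D t * K t) ≤ 1 - t := by
  have hτ : 0 < 1 - t := by linarith [ht.2]
  have hDt := h.D_pos t ht
  have hb' : 0 < 1 - b := by linarith
  -- `c = τ^b / (D t (1-b))`
  set c : ℝ := (1 - t) ^ b / (D t * (1 - b)) with hc
  have key : ∀ t' ∈ Ioo t 1, K t - c * (1 - t) ^ (1 - b) ≤ K t' := by
    intro t' ht'
    have hm := le_of_deriv_nonneg (F := fun s => K s - c * (1 - s) ^ (1 - b))
      (F' := fun s => -(D s)⁻¹ - c * -((1 - b) * (1 - s) ^ (1 - b - 1))) ht'.1.le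
      ((h.K_cont.mono (Icc_subset_Icc ht.1 ht'.2.le)).sub
        ((taupow_cont (1 - b) ht'.2).const_mul c))
      (fun s hs => (h.K_hasDerivAt ⟨ht.1.trans_lt hs.1, hs.2.trans ht'.2⟩).sub
        ((taupow_deriv (1 - b) (hs.2.trans ht'.2)).const_mul c))
      (fun s hs => by
        have hs1 : s < 1 := hs.2.trans ht'.2
        have hDs := h.D_pos s ⟨ht.1.trans hs.1.le, hs1⟩
        have hτs : 0 < 1 - s := by linarith
        have h3 := h.Dtau_mono (b := b) ht.1 hs.1.le hs1 (ae_restrict_of_ae_restrict_of_subset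
          (Ioo_subset_Ioo_right hs1.le) hν)
        have e : (1 - b - 1) = -b := by ring
        rw [e]
        have e1 : c * ((1 - b) * (1 - s) ^ (-b)) = (1 - s) ^ (-b) / (D t * (1 - t) ^ (-b)) := by
          rw [hc, Real.rpow_neg hτ.le]
          field_simp
        have e2 : (D s)⁻¹ ≤ (1 - s) ^ (-b) / (D t * (1 - t) ^ (-b)) := by
          rw [inv_eq_one_div, div_le_div_iff₀ hDs (mul_pos hDt (Real.rpow_pos_of_pos hτ _))]
          linarith
        linarith)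
    have hp : 0 ≤ c * (1 - t') ^ (1 - b) :=
      mul_nonneg (div_nonneg (Real.rpow_nonneg hτ.le _) (mul_pos hDt hb').le)
        (Real.rpow_nonneg (by linarith [ht'.2]) _)
    linarith
  have hlim := h.K_tendsto
  have h4 : K t - c * (1 - t) ^ (1 - b) ≤ 0 := by
    apply ge_of_tendsto hlim
    filter_upwards [Ioo_mem_nhdsLT ht.2] with t' ht'
    exact key t' ht'
  have e3 : c * (1 - t) ^ (1 - b) = (1 - t) / (D t * (1 - b)) := by
    rw [hc, div_mul_eq_mul_div, ← Real.rpow_add hτ]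
    simp
  rw [e3] at h4
  have h5 : K t ≤ (1 - t) / (D t * (1 - b)) := by linarith
  rw [le_div_iff₀ (mul_pos hDt hb')] at h5
  linarith


/-! ### monotone `m` -/





/-! ### logarithmic limits -/

/-- `f ≤ c + a L`, `L → -∞`: `f/L` is eventually `≥ a - ε`. -/
theorem ratio_ge {l : Filter ℝ} {f L : ℝ → ℝ} {c a ε : ℝ} (hL : Tendsto L l atBot)
    (h : ∀ᶠ t in l, f t ≤ c + a * L t) (hε : 0 < ε) : ∀ᶠ t in l, a - ε ≤ f t / L t := by
  have h1 : ∀ᶠ t in l, L t ≤ -(|c| / ε) := hL.eventually_le_atBot _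
  have h2 : ∀ᶠ t in l, L t ≤ -1 := hL.eventually_le_atBot _
  filter_upwards [h, h1, h2] with t ht ht1 ht2
  have hneg : L t < 0 := by linarith
  rw [le_div_iff_of_neg hneg]
  have h3 : |c| ≤ ε * -L t := by
    have := (div_le_iff₀ hε).1 (by linarith : |c| / ε ≤ -L t)
    linarith
  have h4 := le_abs_self c
  nlinarith

/-- `c + a L ≤ f`, `L → -∞`: `f/L` is eventually `≤ a + ε`. -/
theorem ratio_le {l : Filter ℝ} {f L : ℝ → ℝ} {c a ε : ℝ} (hL : Tendsto L l atBot)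
    (h : ∀ᶠ t in l, c + a * L t ≤ f t) (hε : 0 < ε) : ∀ᶠ t in l, f t / L t ≤ a + ε := by
  have h0 := ratio_ge (f := fun t => - f t) (c := -c) (a := -a) hL (by
    filter_upwards [h] with t ht
    linarith) hε
  filter_upwards [h0] with t ht
  rw [neg_div] at ht
  linarith

/-- essential limit of `Y = m K` at `1`. -/
def EssLim (f : ℝ → ℝ) (y : ℝ) : Prop :=
  ∀ ε : ℝ, 0 < ε → ∃ t1 : ℝ, t1 < 1 ∧ ∀ᵐ s ∂volume.restrict (Ioo t1 1), |f s - y| ≤ ε

theorem EssLim.of_tendsto {f : ℝ → ℝ} {y : ℝ} (h : Tendsto f (𝓝[<] 1) (𝓝 y)) : EssLim f y := by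
  intro ε hε
  have h1 : ∀ᶠ s in 𝓝[<] (1:ℝ), |f s - y| < ε := by
    have := h (Metric.ball_mem_nhds y hε)
    filter_upwards [this] with s hs
    simpa [Real.dist_eq] using hs
  obtain ⟨t1, ht1, hsub⟩ := (mem_nhdsLT_iff_exists_Ioo_subset.1 h1)
  refine ⟨t1, ht1, ?_⟩
  filter_upwards [ae_restrict_mem measurableSet_Ioo] with s hs
  exact (hsub hs).le

theorem EssLim.window {f : ℝ → ℝ} {y : ℝ} (h : EssLim f y) (t0 : ℝ) (ht0 : t0 < 1) {ε : ℝ}
    (hε : 0 < ε) : ∃ t1 : ℝ, t0 ≤ t1 ∧ t1 < 1 ∧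
      (∀ᵐ s ∂volume.restrict (Ioo t1 1), y - ε ≤ f s) ∧
      (∀ᵐ s ∂volume.restrict (Ioo t1 1), f s ≤ y + ε) := by
  obtain ⟨t1, ht1, h1⟩ := h ε hε
  have h2 : ∀ᵐ s ∂volume.restrict (Ioo (max t0 t1) 1), |f s - y| ≤ ε :=
    ae_restrict_of_ae_restrict_of_subset (Ioo_subset_Ioo_left (le_max_right _ _)) h1
  refine ⟨max t0 t1, le_max_left _ _, max_lt ht0 ht1, ?_, ?_⟩
  · filter_upwards [h2] with s hs
    linarith [(abs_le.1 hs).1]
  · filter_upwards [h2] with s hs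
    linarith [(abs_le.1 hs).2]

theorem tendsto_of_windows {l : Filter ℝ} {f : ℝ → ℝ} {y : ℝ}
    (h : ∀ ε : ℝ, 0 < ε → (∀ᶠ t in l, y - ε ≤ f t) ∧ ∀ᶠ t in l, f t ≤ y + ε) :
    Tendsto f l (𝓝 y) := by
  rw [Metric.tendsto_nhds]
  intro ε hε
  obtain ⟨h1, h2⟩ := h (ε / 2) (half_pos hε)
  filter_upwards [h1, h2] with t h1 h2
  rw [Real.dist_eq, abs_lt]
  constructor <;> linarith

/-- `a ≤ Y` a.e. near `1`: `log D / log K ≥ a - ε` eventually. -/
theorem Clk.logD_logK_ge (h : Clk D K m t0) {a t1 : ℝ} (h0 : t0 ≤ t1) (h1 : t1 < 1)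
    (hY : ∀ᵐ s ∂volume.restrict (Ioo t1 1), a ≤ m s * K s) {ε : ℝ} (hε : 0 < ε) :
    ∀ᶠ t in 𝓝[<] 1, a - ε ≤ Real.log (D t) / Real.log (K t) := by
  apply ratio_ge (c := Real.log (D t1 * K t1 ^ (-a))) h.logK_tendsto _ hε
  filter_upwards [Ico_mem_nhdsLT h1] with t ht
  have ht' : t ∈ Ico t0 1 := ⟨h0.trans ht.1, ht.2⟩
  have hC := h.DK_const_pos a (t1 := t1) ⟨h0, h1⟩
  have h3 := Real.log_le_log (h.D_pos t ht') (h.D_le h0 hY ht)
  rwa [Real.log_mul hC.ne' (Real.rpow_pos_of_pos (h.K_pos ht') _).ne',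
    Real.log_rpow (h.K_pos ht')] at h3

theorem Clk.logD_logK_le (h : Clk D K m t0) {b t1 : ℝ} (h0 : t0 ≤ t1) (h1 : t1 < 1)
    (hY : ∀ᵐ s ∂volume.restrict (Ioo t1 1), m s * K s ≤ b) {ε : ℝ} (hε : 0 < ε) :
    ∀ᶠ t in 𝓝[<] 1, Real.log (D t) / Real.log (K t) ≤ b + ε := by
  apply ratio_le (c := Real.log (D t1 * K t1 ^ (-b))) h.logK_tendsto _ hε
  filter_upwards [Ico_mem_nhdsLT h1] with t ht
  have ht' : t ∈ Ico t0 1 := ⟨h0.trans ht.1, ht.2⟩
  have hC := h.DK_const_pos b (t1 := t1) ⟨h0, h1⟩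
  have hK := Real.rpow_pos_of_pos (h.K_pos ht') b
  have h3 := Real.log_le_log (mul_pos hC hK) (h.D_ge h0 hY ht)
  rwa [Real.log_mul hC.ne' hK.ne', Real.log_rpow (h.K_pos ht')] at h3

/-- `a ≤ Y` a.e. near `1`, `a > -1`: `log τ / log K ≥ 1 + a - ε` eventually. -/
theorem Clk.logtau_logK_ge (h : Clk D K m t0) {a t1 : ℝ} (h0 : t0 ≤ t1) (h1 : t1 < 1)
    (ha : -1 < a) (hY : ∀ᵐ s ∂volume.restrict (Ioo t1 1), a ≤ m s * K s) {ε : ℝ} (hε : 0 < ε) :
    ∀ᶠ t in 𝓝[<] 1, 1 + a - ε ≤ Real.log (1 - t) / Real.log (K t) := by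
  have ha' : 0 < 1 + a := by linarith
  have hC := h.DK_const_pos a (t1 := t1) ⟨h0, h1⟩
  have hC' : 0 < D t1 * K t1 ^ (-a) / (1 + a) := div_pos hC ha'
  apply ratio_ge (c := Real.log (D t1 * K t1 ^ (-a) / (1 + a))) h.logK_tendsto _ hε
  filter_upwards [Ico_mem_nhdsLT h1] with t ht
  have ht' : t ∈ Ico t0 1 := ⟨h0.trans ht.1, ht.2⟩
  have hK := Real.rpow_pos_of_pos (h.K_pos ht') (1 + a)
  have h2 := h.tau_le h0 ha hC.le (fun s hs => h.D_le h0 hY ⟨hs.1.le, hs.2⟩) ht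
  have h3 := Real.log_le_log (by linarith [ht.2]) h2
  rwa [Real.log_mul hC'.ne' hK.ne', Real.log_rpow (h.K_pos ht')] at h3

theorem Clk.logtau_logK_le (h : Clk D K m t0) {b t1 : ℝ} (h0 : t0 ≤ t1) (h1 : t1 < 1)
    (hb : -1 < b) (hY : ∀ᵐ s ∂volume.restrict (Ioo t1 1), m s * K s ≤ b) {ε : ℝ} (hε : 0 < ε) :
    ∀ᶠ t in 𝓝[<] 1, Real.log (1 - t) / Real.log (K t) ≤ 1 + b + ε := by
  have hb' : 0 < 1 + b := by linarith
  have hC := h.DK_const_pos b (t1 := t1) ⟨h0, h1⟩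
  have hC' : 0 < D t1 * K t1 ^ (-b) / (1 + b) := div_pos hC hb'
  apply ratio_le (c := Real.log (D t1 * K t1 ^ (-b) / (1 + b))) h.logK_tendsto _ hε
  filter_upwards [Ico_mem_nhdsLT h1] with t ht
  have ht' : t ∈ Ico t0 1 := ⟨h0.trans ht.1, ht.2⟩
  have hK := Real.rpow_pos_of_pos (h.K_pos ht') (1 + b)
  have h2 := h.tau_ge h0 hb (fun s hs => h.D_ge h0 hY ⟨hs.1.le, hs.2⟩) ht
  have h3 := Real.log_le_log (mul_pos hC' hK) h2
  rwa [Real.log_mul hC'.ne' hK.ne', Real.log_rpow (h.K_pos ht')] at h3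

/-- **(1a)** `log D / log K → Y∞`. -/
theorem Clk.logD_logK (h : Clk D K m t0) {y : ℝ} (hy : EssLim (fun s => m s * K s) y) :
    Tendsto (fun t => Real.log (D t) / Real.log (K t)) (𝓝[<] 1) (𝓝 y) := by
  apply tendsto_of_windows
  intro ε hε
  obtain ⟨t1, h1, h2, h3, h4⟩ := hy.window t0 h.lt (half_pos hε)
  constructor
  · filter_upwards [h.logD_logK_ge h1 h2 h3 (half_pos hε)] with t ht
    linarith
  · filter_upwards [h.logD_logK_le h1 h2 h4 (half_pos hε)] with t ht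
    linarith

/-- **(1b)** `log τ / log K → 1 + Y∞`. -/
theorem Clk.logtau_logK (h : Clk D K m t0) {y : ℝ} (hy0 : -1 < y)
    (hy : EssLim (fun s => m s * K s) y) :
    Tendsto (fun t => Real.log (1 - t) / Real.log (K t)) (𝓝[<] 1) (𝓝 (1 + y)) := by
  apply tendsto_of_windows
  intro ε hε
  set δ := min (ε / 2) ((1 + y) / 2) with hδ
  have hδ0 : 0 < δ := lt_min (half_pos hε) (by linarith)
  have hδ1 : δ ≤ ε / 2 := min_le_left _ _
  have hδ2 : δ ≤ (1 + y) / 2 := min_le_right _ _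
  obtain ⟨t1, h1, h2, h3, h4⟩ := hy.window t0 h.lt hδ0
  constructor
  · filter_upwards [h.logtau_logK_ge h1 h2 (by linarith) h3 (half_pos hε)] with t ht
    linarith
  · filter_upwards [h.logtau_logK_le h1 h2 (by linarith) h4 (half_pos hε)] with t ht
    linarith

/-- **(1c)** `log D / log τ → Y∞/(1+Y∞)`. -/
theorem Clk.logD_logtau (h : Clk D K m t0) {y : ℝ} (hy0 : -1 < y)
    (hy : EssLim (fun s => m s * K s) y) :
    Tendsto (fun t => Real.log (D t) / Real.log (1 - t)) (𝓝[<] 1) (𝓝 (y / (1 + y))) := by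
  have h1 := (h.logD_logK hy).div (h.logtau_logK hy0 hy) (by linarith : 1 + y ≠ 0)
  apply h1.congr'
  filter_upwards [h.logK_tendsto.eventually_lt_atBot 0] with t ht
  simp only [Pi.div_apply]
  rw [div_div_div_cancel_right₀ ht.ne]





/-- window for `Y` from a window for `ν` (`b < 1`). -/
theorem Clk.Y_le_of_nu (h : Clk D K m t0) {b t : ℝ} (hb : b < 1) (hb0 : 0 ≤ b) (ht : t ∈ Ico t0 1)
    (hν : ∀ᵐ s ∂volume.restrict (Ioo t 1), (1 - s) * m s ≤ b * D s)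
    (hνt : (1 - t) * m t ≤ b * D t) : m t * K t ≤ b / (1 - b) := by
  have h1 := h.chi_le_of_nu hb ht hν
  have hK := h.K_pos ht
  have hτ : 0 < 1 - t := by linarith [ht.2]
  have hb' : 0 < 1 - b := by linarith
  rw [le_div_iff₀ hb']
  have h2 : m t * K t * (1 - b) * (1 - t) ≤ b * (1 - t) := by
    have e1 : m t * K t * (1 - b) * (1 - t) = ((1 - t) * m t) * (K t * (1 - b)) := by ring
    rw [e1]
    calc ((1 - t) * m t) * (K t * (1 - b)) ≤ (b * D t) * (K t * (1 - b)) :=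
          mul_le_mul_of_nonneg_right hνt (mul_pos hK hb').le
      _ = b * ((1 - b) * (D t * K t)) := by ring
      _ ≤ b * (1 - t) := mul_le_mul_of_nonneg_left h1 hb0
  exact le_of_mul_le_mul_right h2 hτ



end basic

/-! ### constructors -/

/-- from `PtScalA_45.Prof` with `d = 0`. -/
theorem clk_of_prof (P : PtScalA_45.Prof) (hd : P.d = 0) (hpos : ∀ t ∈ Ico (0:ℝ) 1, 0 < P.D t)
    (hE : IntervalIntegrable (fun s => (P.D s)⁻¹) volume 0 1) {t0 : ℝ} (h0 : 0 ≤ t0)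
    (h1 : t0 < 1) : Clk P.D (fun t => ∫ s in t..1, (P.D s)⁻¹) P.m t0 where
  lt := h1
  m_int := sub_int P.int zero_le_one ⟨h0, h1.le⟩ ⟨zero_le_one, le_rfl⟩
  D_eq t _ := by
    have e : P.D 1 = 0 := by simp [PtScalA_45.Prof.D, hd]
    rw [e, zero_add]
    simp [PtScalA_45.Prof.D, hd]
  D_pos t ht := hpos t ⟨h0.trans ht.1, ht.2⟩
  E_int := sub_int hE zero_le_one ⟨h0, h1.le⟩ ⟨zero_le_one, le_rfl⟩
  K_eq _ _ := rfl


end Crest.Agent.R146.YtoD_385
end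

-- ▼ part R146/T12_52

/-!
Row 146 (S0205), package PT: `PtTip_164.T12` (change of clock) (helper52).
-/

set_option autoImplicit false

namespace Crest.Agent.R146.T12_52

open MeasureTheory Set Filter Topology
open Crest.Agent.R146.TipSeq_791 Crest.Agent.R146.YtoD_385
open Crest.Agent.R146.PtScalA_45 (Prof)

noncomputable section

theorem t12 : PtTip_164.T12 := by
  intro P hP hw ε hε
  -- size of the old window
  set η : ℝ := min (ε / 100) (1 / 1000) with hη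
  have hη0 : 0 < η := lt_min (by positivity) (by norm_num)
  have hη1 : η ≤ ε / 100 := min_le_left _ _
  have hη2 : η ≤ 1 / 1000 := min_le_right _ _
  obtain ⟨ta, h1, h0, h2⟩ := hw η hη0
  have hclk := clk_of_prof P hP.seq.d0 hP.seq.pos hP.seq.int1 h0 h1
  refine ⟨ta, h1, h0, fun t ht => ?_⟩
  have ht0 : 0 ≤ t := h0.trans ht.1
  have hpos : ∀ s ∈ Ico ta 1, 0 < P.D s := fun s hs => hP.seq.pos s ⟨h0.trans hs.1, hs.2⟩
  have hnu : ∀ s ∈ Ico ta 1, (1 - s) * P.m s ≤ (13 / 25 + η) * P.D s := by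
    intro s hs
    have h3 := (h2 s hs).2
    unfold Ystar at h3
    rw [if_pos rfl, div_le_iff₀ (hpos s hs)] at h3
    exact h3
  have hY : Ystar P 1 t = P.m t * ∫ s in t..1, (P.D s)⁻¹ := by
    unfold Ystar StepApx_856.Ks
    rw [if_neg (by decide)]
  have hK0 : 0 < ∫ s in t..1, (P.D s)⁻¹ := hclk.K_pos ht
  have hm0 : 0 ≤ P.m t := P.nonneg t ⟨ht0, ht.2⟩
  have hae : ∀ᵐ s ∂volume.restrict (Ioo t 1), (1 - s) * P.m s ≤ (13 / 25 + η) * P.D s := by
    refine (ae_restrict_iff' measurableSet_Ioo).mpr (Eventually.of_forall fun s hs => ?_)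
    exact hnu s ⟨ht.1.trans hs.1.le, hs.2⟩
  have h4 := hclk.Y_le_of_nu (b := 13 / 25 + η) (by linarith) (by linarith) ht hae (hnu t ht)
  rw [hY]
  constructor
  · have := mul_nonneg hm0 hK0.le
    linarith
  · refine h4.trans ?_
    rw [div_le_iff₀ (by linarith)]
    nlinarith

end

end Crest.Agent.R146.T12_52
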