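import Crest.Agent.R146.PtS4b_489
import Crest.Agent.R146.StepApx_856

-- ▼ part R146/PtS5_489
section

/-!
Row 146, package PT, task 73 (helper489), part S5: CLOSURE AS INEQUALITY.

Sequence of step data `A n` with limit profile `P` and limit `T` of `Ts` constant on `[p,q]`.
If `Ns ≤ 2 β_n Zs + o(1)` on `[p,q]` with `β_n → β0` then `P.m ≤ β0 P.D` on `(p,q)`; same with `≥`.
-/

set_option autoImplicit false

namespace Crest.Agent.R146.PtS5_489

open Set MeasureTheory Filter Topology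
open Crest.Agent.R146.PtS4_489 Crest.Agent.R146.PtS4b_489 Crest.Agent.R146.PtScalA_45
open Crest.Agent.R146.StepDef_791

noncomputable section

/-- a function with nonnegative integrals over all subintervals is a.e. nonnegative -/
theorem ae_nonneg {p q : ℝ} {G : ℝ → ℝ} (hG : IntervalIntegrable G volume p q)
    (h : ∀ x y, p ≤ x → x ≤ y → y ≤ q → 0 ≤ ∫ z in x..y, G z) :
    ∀ᵐ t ∂(volume : Measure ℝ), t ∈ Ioo p q → 0 ≤ G t := by
  filter_upwards [hG.ae_hasDerivAt_integral] with t ht htI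
  have hpq : p ≤ q := (htI.1.trans htI.2).le
  have hd : HasDerivAt (fun y => ∫ z in p..y, G z) (G t) t :=
    ht (by rw [uIcc_of_le hpq]; exact ⟨htI.1.le, htI.2.le⟩) p (by simp)
  have hm : MonotoneOn (fun y => ∫ z in p..y, G z) (Ioo p q) := by
    intro x hx y hy hxy
    have hi : ∀ u v, u ∈ Icc p q → v ∈ Icc p q → IntervalIntegrable G volume u v := by
      intro u v hu hv
      refine hG.mono_set ?_
      rw [uIcc_of_le hpq]
      exact uIcc_subset_Icc hu hv
    have e1 : (∫ z in p..x, G z) + ∫ z in x..y, G z = ∫ z in p..y, G z :=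
      intervalIntegral.integral_add_adjacent_intervals
        (hi _ _ ⟨le_rfl, hpq⟩ ⟨hx.1.le, hx.2.le⟩) (hi _ _ ⟨hx.1.le, hx.2.le⟩ ⟨hy.1.le, hy.2.le⟩)
    have e2 := h x y hx.1.le hxy hy.2.le
    simp only
    linarith
  -- derivative of a monotone function
  have h0 : Tendsto (fun y => slope (fun y => ∫ z in p..y, G z) t y) (𝓝[>] t) (𝓝 (G t)) := by
    have := (hasDerivAt_iff_tendsto_slope.1 hd)
    exact this.mono_left (nhdsWithin_mono _ fun y hy => ne_of_gt hy)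
  refine ge_of_tendsto h0 ?_
  have hev : ∀ᶠ y in 𝓝[>] t, y ∈ Ioo t q := Ioo_mem_nhdsGT htI.2
  filter_upwards [hev] with y hy
  rw [slope_def_field]
  exact div_nonneg (sub_nonneg.2 (hm htI ⟨htI.1.trans hy.1, hy.2⟩ hy.1.le))
    (sub_nonneg.2 hy.1.le)

open scoped Classical in
/-- abstract closure lemma: `T_n' ≤ 2 (β_n - b_n) Z_n + o(1)`, `T_n(y) - T_n(x) → 0` ⟹ `b ≤ β`
almost everywhere. -/
theorem closure_ae {p q z0 B : ℝ} (hpq : p < q) (hz0 : 0 < z0) {Tn Kn bn βn Zn : ℕ → ℝ → ℝ}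
    {b β : ℝ → ℝ}
    (hT : ∀ x ∈ Icc p q, ∀ y ∈ Icc p q, Tendsto (fun n => Tn n y - Tn n x) atTop (𝓝 0))
    (hTc : ∀ᶠ n in atTop, ContinuousOn (Tn n) (Icc p q))
    (hTd : ∀ᶠ n in atTop, ∀ t ∈ Ico p q, HasDerivWithinAt (Tn n) (Kn n t) (Ici t) t)
    (hbm : ∀ᶠ n in atTop, AEStronglyMeasurable (bn n) (volume.restrict (Icc p q)))
    (hβm : ∀ᶠ n in atTop, AEStronglyMeasurable (βn n) (volume.restrict (Icc p q)))
    (hbb : ∀ᶠ n in atTop, ∀ t ∈ Icc p q, |bn n t| ≤ B)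
    (hβb : ∀ᶠ n in atTop, ∀ t ∈ Icc p q, |βn n t| ≤ B)
    (hbl : ∀ᵐ t ∂(volume : Measure ℝ), t ∈ Icc p q → Tendsto (fun n => bn n t) atTop (𝓝 (b t)))
    (hβl : ∀ᵐ t ∂(volume : Measure ℝ), t ∈ Icc p q → Tendsto (fun n => βn n t) atTop (𝓝 (β t)))
    (hZ : ∀ᶠ n in atTop, ∀ t ∈ Icc p q, z0 ≤ Zn n t ∧ Zn n t ≤ 1)
    (hK : ∀ ε : ℝ, 0 < ε → ∀ᶠ n in atTop, ∀ t ∈ Ico p q,
      Kn n t ≤ 2 * (βn n t - bn n t) * Zn n t + ε) :
    ∀ᵐ t ∂(volume : Measure ℝ), t ∈ Ioo p q → b t ≤ β t := by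
  have hB0 : 0 ≤ B := by
    obtain ⟨n, hn⟩ := hbb.exists
    exact (abs_nonneg _).trans (hn p ⟨le_rfl, hpq.le⟩)
  -- the dominating integrands
  set G : ℕ → ℝ → ℝ := fun n t =>
    2 * max (βn n t - bn n t) 0 - 2 * z0 * max (bn n t - βn n t) 0 with hG
  set G0 : ℝ → ℝ := fun t => 2 * max (β t - b t) 0 - 2 * z0 * max (b t - β t) 0 with hG0
  have hz1 : z0 ≤ 1 := by
    obtain ⟨n, hn⟩ := hZ.exists
    have := hn p ⟨le_rfl, hpq.le⟩
    linarith
  have hGb : ∀ᶠ n in atTop, ∀ t ∈ Icc p q, |G n t| ≤ 8 * B := by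
    filter_upwards [hbb, hβb] with n h1 h2 t ht
    have a1 := abs_le.1 (h1 t ht)
    have a2 := abs_le.1 (h2 t ht)
    have a3 : max (βn n t - bn n t) 0 ≤ 2 * B := max_le (by linarith) (by linarith)
    have a4 : max (bn n t - βn n t) 0 ≤ 2 * B := max_le (by linarith) (by linarith)
    have a5 : 0 ≤ max (βn n t - bn n t) 0 := le_max_right _ _
    have a6 : 0 ≤ max (bn n t - βn n t) 0 := le_max_right _ _
    have a7 : z0 * max (bn n t - βn n t) 0 ≤ 1 * (2 * B) := mul_le_mul hz1 a4 a6 zero_le_one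
    have a8 : 0 ≤ z0 * max (bn n t - βn n t) 0 := mul_nonneg hz0.le a6
    simp only [hG]
    rw [abs_le]
    constructor <;> nlinarith
  have hGm : ∀ᶠ n in atTop, AEStronglyMeasurable (G n) (volume.restrict (Icc p q)) := by
    filter_upwards [hbm, hβm] with n h1 h2
    have e1 : AEMeasurable (bn n) (volume.restrict (Icc p q)) := h1.aemeasurable
    have e2 : AEMeasurable (βn n) (volume.restrict (Icc p q)) := h2.aemeasurable
    exact ((((e2.sub e1).max aemeasurable_const).const_mul 2).sub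
      (((e1.sub e2).max aemeasurable_const).const_mul (2 * z0))).aestronglyMeasurable
  have hGl : ∀ᵐ t ∂(volume : Measure ℝ), t ∈ Icc p q → Tendsto (fun n => G n t) atTop (𝓝 (G0 t)) := by
    filter_upwards [hbl, hβl] with t h1 h2 ht
    exact ((((h2 ht).sub (h1 ht)).max tendsto_const_nhds).const_mul 2).sub
      ((((h1 ht).sub (h2 ht)).max tendsto_const_nhds).const_mul (2 * z0))
  have hsub : ∀ {x y : ℝ}, x ∈ Icc p q → y ∈ Icc p q → uIoc x y ⊆ Icc p q := fun {x y} hx hy z hz =>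
    uIcc_subset_Icc hx hy (uIoc_subset_uIcc hz)
  have hGi : ∀ᶠ n in atTop, ∀ x ∈ Icc p q, ∀ y ∈ Icc p q, IntervalIntegrable (G n) volume x y := by
    filter_upwards [hGb, hGm] with n h1 h2 x hx y hy
    rw [intervalIntegrable_iff]
    have : IsFiniteMeasure (volume.restrict (uIoc x y)) :=
      ⟨by rw [Measure.restrict_apply_univ, uIoc, Real.volume_Ioc]; exact ENNReal.ofReal_lt_top⟩
    refine Integrable.of_bound (h2.mono_set (hsub hx hy)) (8 * B) ?_
    filter_upwards [ae_restrict_mem measurableSet_uIoc] with z hz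
    exact h1 z (hsub hx hy hz)
  have hlim : ∀ x ∈ Icc p q, ∀ y ∈ Icc p q,
      Tendsto (fun n => ∫ z in x..y, G n z) atTop (𝓝 (∫ z in x..y, G0 z)) := by
    intro x hx y hy
    refine intervalIntegral.tendsto_integral_filter_of_dominated_convergence (fun _ => 8 * B)
      ?_ ?_ intervalIntegrable_const ?_
    · filter_upwards [hGm] with n hn using hn.mono_set (hsub hx hy)
    · filter_upwards [hGb] with n hn
      exact Eventually.of_forall fun z hz => hn z (hsub hx hy hz)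
    · filter_upwards [hGl] with z hz hzI using hz (hsub hx hy hzI)
  have hG0m : AEStronglyMeasurable G0 (volume.restrict (Icc p q)) := by
    refine aestronglyMeasurable_of_tendsto_ae atTop (f := fun n => (fun t => if
      AEStronglyMeasurable (G n) (volume.restrict (Icc p q)) then G n t else 0)) ?_ ?_
    · intro n
      by_cases h : AEStronglyMeasurable (G n) (volume.restrict (Icc p q))
      · have e1 : (fun t => if AEStronglyMeasurable (G n) (volume.restrict (Icc p q)) then G n t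
            else 0) = G n := by funext t; rw [if_pos h]
        rw [e1]; exact h
      · have e1 : (fun t => if AEStronglyMeasurable (G n) (volume.restrict (Icc p q)) then G n t
            else 0) = fun _ => (0 : ℝ) := by funext t; rw [if_neg h]
        rw [e1]; exact aestronglyMeasurable_const
    · have h1 : ∀ᵐ t ∂(volume.restrict (Icc p q)), Tendsto (fun n => G n t) atTop (𝓝 (G0 t)) := by
        rw [ae_restrict_iff' measurableSet_Icc]; exact hGl
      filter_upwards [h1] with t ht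
      refine ht.congr' ?_
      filter_upwards [hGm] with n hn
      rw [if_pos hn]
  have hG0b : ∀ᵐ t ∂(volume : Measure ℝ), t ∈ Icc p q → |G0 t| ≤ 8 * B := by
    filter_upwards [hGl] with t ht htI
    refine le_of_tendsto (ht htI).abs ?_
    filter_upwards [hGb] with n hn using hn t htI
  have hG0i : IntervalIntegrable G0 volume p q := by
    rw [intervalIntegrable_iff, uIoc_of_le hpq.le]
    have : IsFiniteMeasure (volume.restrict (Ioc p q)) :=
      ⟨by rw [Measure.restrict_apply_univ, Real.volume_Ioc]; exact ENNReal.ofReal_lt_top⟩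
    refine Integrable.of_bound (hG0m.mono_set Ioc_subset_Icc_self) (8 * B) ?_
    rw [ae_restrict_iff' measurableSet_Ioc]
    filter_upwards [hG0b] with z hz hzI using hz (Ioc_subset_Icc_self hzI)
  -- the integral inequality
  have hint : ∀ x y, p ≤ x → x ≤ y → y ≤ q → 0 ≤ ∫ z in x..y, G0 z := by
    intro x y hx hxy hy
    have hxI : x ∈ Icc p q := ⟨hx, hxy.trans hy⟩
    have hyI : y ∈ Icc p q := ⟨hx.trans hxy, hy⟩
    refine le_of_forall_pos_le_add fun ε hε => ?_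
    have hqp : 0 < q - p := sub_pos.2 hpq
    have h1 : Tendsto (fun n => (∫ z in x..y, G n z) + ε) atTop (𝓝 ((∫ z in x..y, G0 z) + ε)) :=
      (hlim x hxI y hyI).add_const ε
    have h2 := hT x hxI y hyI
    refine le_of_tendsto_of_tendsto h2 h1 ?_
    filter_upwards [hTc, hTd, hZ, hGi, hK (ε / (q - p)) (by positivity)] with n k1 k2 k3 k4 k5
    -- compare with the primitive
    have key := intervalIntegral.sub_le_integral_of_hasDeriv_right_of_le (g := Tn n) (g' := Kn n)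
      (φ := fun t => G n t + ε / (q - p)) hxy (k1.mono (Icc_subset_Icc hx hy))
      (fun t ht => (k2 t ⟨hx.trans ht.1.le, ht.2.trans_le hy⟩).mono Ioi_subset_Ici_self)
      (((intervalIntegrable_iff_integrableOn_Icc_of_le hxy).1
        ((k4 x hxI y hyI).add intervalIntegrable_const)))
      (fun t ht => by
        have htI : t ∈ Ico p q := ⟨hx.trans ht.1.le, ht.2.trans_le hy⟩
        have a1 := k5 t htI
        have a2 := k3 t ⟨htI.1, htI.2.le⟩
        have a3 : 2 * (βn n t - bn n t) * Zn n t ≤ G n t := by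
          simp only [hG]
          rcases le_total (bn n t) (βn n t) with h | h
          · rw [max_eq_left (by linarith : (0 : ℝ) ≤ βn n t - bn n t),
              max_eq_right (by linarith : bn n t - βn n t ≤ 0)]
            have : (βn n t - bn n t) * Zn n t ≤ (βn n t - bn n t) * 1 :=
              mul_le_mul_of_nonneg_left a2.2 (by linarith)
            linarith
          · rw [max_eq_right (by linarith : βn n t - bn n t ≤ 0),
              max_eq_left (by linarith : (0 : ℝ) ≤ bn n t - βn n t)]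
            have : (bn n t - βn n t) * z0 ≤ (bn n t - βn n t) * Zn n t :=
              mul_le_mul_of_nonneg_left a2.1 (by linarith)
            linarith
        linarith)
    have e1 : ∫ t in x..y, (G n t + ε / (q - p)) = (∫ z in x..y, G n z) + (y - x) * (ε / (q - p)) := by
      rw [intervalIntegral.integral_add (k4 x hxI y hyI) intervalIntegrable_const]
      simp only [intervalIntegral.integral_const, smul_eq_mul]
    rw [e1] at key
    have e2 : (y - x) * (ε / (q - p)) ≤ ε := by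
      rw [← mul_div_assoc, div_le_iff₀ hqp, mul_comm]
      exact mul_le_mul_of_nonneg_left (by linarith) hε.le
    linarith
  have hfin := ae_nonneg hG0i hint
  filter_upwards [hfin] with t ht htI
  have h1 := ht htI
  by_contra hcon
  push Not at hcon
  simp only [hG0] at h1
  rw [max_eq_right (by linarith : β t - b t ≤ 0), max_eq_left (by linarith : 0 ≤ b t - β t)] at h1
  have := mul_pos hz0 (sub_pos.2 hcon)
  linarith

/-- the reversed form: `T_n' ≥ 2 (β_n - b_n) Z_n - o(1)` ⟹ `β ≤ b` a.e. -/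
theorem closure_ae' {p q z0 B : ℝ} (hpq : p < q) (hz0 : 0 < z0) {Tn Kn bn βn Zn : ℕ → ℝ → ℝ}
    {b β : ℝ → ℝ}
    (hT : ∀ x ∈ Icc p q, ∀ y ∈ Icc p q, Tendsto (fun n => Tn n y - Tn n x) atTop (𝓝 0))
    (hTc : ∀ᶠ n in atTop, ContinuousOn (Tn n) (Icc p q))
    (hTd : ∀ᶠ n in atTop, ∀ t ∈ Ico p q, HasDerivWithinAt (Tn n) (Kn n t) (Ici t) t)
    (hbm : ∀ᶠ n in atTop, AEStronglyMeasurable (bn n) (volume.restrict (Icc p q)))
    (hβm : ∀ᶠ n in atTop, AEStronglyMeasurable (βn n) (volume.restrict (Icc p q)))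
    (hbb : ∀ᶠ n in atTop, ∀ t ∈ Icc p q, |bn n t| ≤ B)
    (hβb : ∀ᶠ n in atTop, ∀ t ∈ Icc p q, |βn n t| ≤ B)
    (hbl : ∀ᵐ t ∂(volume : Measure ℝ), t ∈ Icc p q → Tendsto (fun n => bn n t) atTop (𝓝 (b t)))
    (hβl : ∀ᵐ t ∂(volume : Measure ℝ), t ∈ Icc p q → Tendsto (fun n => βn n t) atTop (𝓝 (β t)))
    (hZ : ∀ᶠ n in atTop, ∀ t ∈ Icc p q, z0 ≤ Zn n t ∧ Zn n t ≤ 1)
    (hK : ∀ ε : ℝ, 0 < ε → ∀ᶠ n in atTop, ∀ t ∈ Ico p q,
      2 * (βn n t - bn n t) * Zn n t - ε ≤ Kn n t) :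
    ∀ᵐ t ∂(volume : Measure ℝ), t ∈ Ioo p q → β t ≤ b t := by
  have h := closure_ae (p := p) (q := q) (z0 := z0) (B := B) hpq hz0
    (Tn := fun n t => -Tn n t) (Kn := fun n t => -Kn n t) (bn := fun n t => -bn n t)
    (βn := fun n t => -βn n t) (Zn := Zn) (b := fun t => -b t) (β := fun t => -β t)
    (by
      intro x hx y hy
      have := (hT x hx y hy).neg
      rw [neg_zero] at this
      refine this.congr fun n => ?_
      ring)
    (hTc.mono fun n hn => hn.neg) (hTd.mono fun n hn t ht => (hn t ht).neg)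
    (hbm.mono fun n hn => hn.neg) (hβm.mono fun n hn => hn.neg)
    (hbb.mono fun n hn t ht => by rw [abs_neg]; exact hn t ht)
    (hβb.mono fun n hn t ht => by rw [abs_neg]; exact hn t ht)
    (hbl.mono fun t ht hI => (ht hI).neg) (hβl.mono fun t ht hI => (ht hI).neg) hZ
    (by
      intro ε hε
      filter_upwards [hK ε hε] with n hn t ht
      have := hn t ht
      linarith)
  filter_upwards [h] with t ht htI
  have := ht htI
  linarith

/-- from almost everywhere to everywhere, upper bound of a monotone function -/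
theorem le_everywhere {p q : ℝ} {m g : ℝ → ℝ} (hm : MonotoneOn m (Ioo p q))
    (hg : ContinuousOn g (Ioo p q))
    (h : ∀ᵐ t ∂(volume : Measure ℝ), t ∈ Ioo p q → m t ≤ g t) : ∀ t ∈ Ioo p q, m t ≤ g t := by
  intro t ht
  have hgt : Tendsto g (𝓝[>] t) (𝓝 (g t)) :=
    ((hg t ht).continuousAt (Ioo_mem_nhds ht.1 ht.2)).tendsto.mono_left nhdsWithin_le_nhds
  by_contra hcon
  push Not at hcon
  -- near `t`, `g < m t`
  have h1 : ∀ᶠ s in 𝓝[>] t, g s < m t := hgt.eventually_lt_const hcon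
  have h2 : ∀ᶠ s in 𝓝[>] t, s ∈ Ioo t q := Ioo_mem_nhdsGT ht.2
  obtain ⟨u, hu, hsub⟩ := mem_nhdsGT_iff_exists_Ioo_subset.1 (h1.and h2)
  have h3 : (volume : Measure ℝ) (Ioo t u) = 0 := by
    refine measure_mono_null ?_ (ae_iff.1 h)
    intro s hs
    obtain ⟨a1, a2⟩ := hsub hs
    have hsI : s ∈ Ioo p q := ⟨ht.1.trans a2.1, a2.2⟩
    intro hcon2
    have := hcon2 hsI
    have := hm ht hsI a2.1.le
    linarith
  rw [Real.volume_Ioo, ENNReal.ofReal_eq_zero] at h3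
  have : t < u := hu
  linarith

/-- from almost everywhere to everywhere, lower bound of a monotone function -/
theorem ge_everywhere {p q : ℝ} {m g : ℝ → ℝ} (hm : MonotoneOn m (Ioo p q))
    (hg : ContinuousOn g (Ioo p q))
    (h : ∀ᵐ t ∂(volume : Measure ℝ), t ∈ Ioo p q → g t ≤ m t) : ∀ t ∈ Ioo p q, g t ≤ m t := by
  intro t ht
  have hgt : Tendsto g (𝓝[<] t) (𝓝 (g t)) :=
    ((hg t ht).continuousAt (Ioo_mem_nhds ht.1 ht.2)).tendsto.mono_left nhdsWithin_le_nhds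
  by_contra hcon
  push Not at hcon
  have h1 : ∀ᶠ s in 𝓝[<] t, m t < g s := hgt.eventually_const_lt hcon
  have h2 : ∀ᶠ s in 𝓝[<] t, s ∈ Ioo p t := Ioo_mem_nhdsLT ht.1
  obtain ⟨u, hu, hsub⟩ := mem_nhdsLT_iff_exists_Ioo_subset.1 (h1.and h2)
  have h3 : (volume : Measure ℝ) (Ioo u t) = 0 := by
    refine measure_mono_null ?_ (ae_iff.1 h)
    intro s hs
    obtain ⟨a1, a2⟩ := hsub hs
    have hsI : s ∈ Ioo p q := ⟨a2.1, a2.2.trans ht.2⟩
    intro hcon2
    have := hcon2 hsI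
    have := hm hsI ht a2.2.le
    linarith
  rw [Real.volume_Ioo, ENNReal.ofReal_eq_zero] at h3
  have : u < t := hu
  linarith

section Appr

variable {P : Prof} {A : ℕ → SD} {x0 : ℝ} {p : ℕ → ℝ → ℝ → ℝ} {L0 C0 : ℝ → ℝ}

/-- common preparations on a compact interval -/
theorem prep (h : Appr P A x0 p L0 C0) (hpos : ∀ t ∈ Ico (0 : ℝ) 1, 0 < P.D t) {p' q : ℝ}
    (hp : 0 ≤ p') (hpq : p' < q) (hq : q < 1) :
    (∀ᶠ n in atTop, ContinuousOn (Ts (A n) x0 (p n)) (Icc p' q)) ∧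
    (∀ᶠ n in atTop, ∀ t ∈ Ico p' q, HasDerivWithinAt (Ts (A n) x0 (p n))
      (Ns (A n) x0 (p n) t - 2 * (A n).b t * Zs (A n) x0 (p n) t) (Ici t) t) ∧
    (∃ B, ∀ᶠ n in atTop, ∀ t ∈ Icc p' q, |(A n).b t| ≤ B) ∧
    (∀ᵐ t ∂(volume : Measure ℝ), t ∈ Icc p' q →
      Tendsto (fun n => (A n).b t) atTop (𝓝 (P.m t / P.D t))) := by
  have hq' : (q + 1) / 2 ∈ Ioo (0 : ℝ) 1 := ⟨by linarith, by linarith⟩
  have hseq := h.seq hpos
  have hsub : Icc p' q ⊆ Icc 0 ((q + 1) / 2) := Icc_subset_Icc hp (by linarith)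
  obtain ⟨B, hB⟩ := hseq.bd _ hq'
  refine ⟨?_, ?_, ⟨B, ?_⟩, ?_⟩
  · filter_upwards [hB] with n hn using hn.2.1.mono hsub
  · filter_upwards [hB] with n hn t ht
    exact (hn.2.2.2.2.2.2.1 t ⟨hp.trans ht.1, by linarith [ht.2]⟩).2.2.2.1
  · filter_upwards [hB] with n hn t ht
    exact (hn.2.2.2.2.2.2.1 t ⟨hp.trans ht.1, by linarith [ht.2]⟩).2.1
  · filter_upwards [hseq.bL] with t ht htI
    exact ht ⟨hp.trans htI.1, htI.2.trans_lt hq⟩

/-- **Closure as inequality, upper bound.** -/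
theorem closure_le (h : Appr P A x0 p L0 C0) (hpos : ∀ t ∈ Ico (0 : ℝ) 1, 0 < P.D t) {p' q z0 : ℝ}
    (hp : 0 ≤ p') (hpq : p' < q) (hq : q < 1) (hz0 : 0 < z0)
    (hT : ∀ x ∈ Icc p' q, ∀ y ∈ Icc p' q,
      Tendsto (fun n => Ts (A n) x0 (p n) y - Ts (A n) x0 (p n) x) atTop (𝓝 0))
    {βn : ℕ → ℝ → ℝ} {β : ℝ → ℝ}
    (hβm : ∀ᶠ n in atTop, AEStronglyMeasurable (βn n) (volume.restrict (Icc p' q)))
    (hβb : ∃ B, ∀ᶠ n in atTop, ∀ t ∈ Icc p' q, |βn n t| ≤ B)
    (hβl : ∀ᵐ t ∂(volume : Measure ℝ), t ∈ Icc p' q → Tendsto (fun n => βn n t) atTop (𝓝 (β t)))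
    (hβc : ContinuousOn β (Icc p' q))
    (hZ : ∀ᶠ n in atTop, ∀ t ∈ Icc p' q, z0 ≤ Zs (A n) x0 (p n) t ∧ Zs (A n) x0 (p n) t ≤ 1)
    (hK : ∀ ε : ℝ, 0 < ε → ∀ᶠ n in atTop, ∀ t ∈ Ico p' q,
      Ns (A n) x0 (p n) t ≤ 2 * βn n t * Zs (A n) x0 (p n) t + ε) :
    ∀ t ∈ Ioo p' q, P.m t ≤ β t * P.D t := by
  obtain ⟨h1, h2, ⟨B1, hB1⟩, h4⟩ := prep h hpos hp hpq hq
  obtain ⟨B2, hB2⟩ := hβb
  have key := closure_ae (B := max B1 B2) hpq hz0 hT h1 h2
    (Eventually.of_forall fun n => (measurable_b (A n) (h.clk n)).aestronglyMeasurable) hβm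
    (hB1.mono fun n hn t ht => (hn t ht).trans (le_max_left _ _))
    (hB2.mono fun n hn t ht => (hn t ht).trans (le_max_right _ _)) h4 hβl hZ
    (by
      intro ε hε
      filter_upwards [hK ε hε] with n hn t ht
      have := hn t ht
      linarith)
  have hD : ContinuousOn P.D (Ioo p' q) := (D_contOn P).mono fun t ht =>
    ⟨hp.trans ht.1.le, (ht.2.trans hq).le⟩
  refine le_everywhere (P.mono.mono fun t ht => ⟨hp.trans ht.1.le, ht.2.trans hq⟩)
    ((hβc.mono Ioo_subset_Icc_self).mul hD) ?_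
  filter_upwards [key] with t ht htI
  have h5 := ht htI
  have hDt : 0 < P.D t := hpos t ⟨hp.trans htI.1.le, htI.2.trans hq⟩
  rwa [div_le_iff₀ hDt] at h5

/-- **Closure as inequality, lower bound.** -/
theorem closure_ge (h : Appr P A x0 p L0 C0) (hpos : ∀ t ∈ Ico (0 : ℝ) 1, 0 < P.D t) {p' q z0 : ℝ}
    (hp : 0 ≤ p') (hpq : p' < q) (hq : q < 1) (hz0 : 0 < z0)
    (hT : ∀ x ∈ Icc p' q, ∀ y ∈ Icc p' q,
      Tendsto (fun n => Ts (A n) x0 (p n) y - Ts (A n) x0 (p n) x) atTop (𝓝 0))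
    {βn : ℕ → ℝ → ℝ} {β : ℝ → ℝ}
    (hβm : ∀ᶠ n in atTop, AEStronglyMeasurable (βn n) (volume.restrict (Icc p' q)))
    (hβb : ∃ B, ∀ᶠ n in atTop, ∀ t ∈ Icc p' q, |βn n t| ≤ B)
    (hβl : ∀ᵐ t ∂(volume : Measure ℝ), t ∈ Icc p' q → Tendsto (fun n => βn n t) atTop (𝓝 (β t)))
    (hβc : ContinuousOn β (Icc p' q))
    (hZ : ∀ᶠ n in atTop, ∀ t ∈ Icc p' q, z0 ≤ Zs (A n) x0 (p n) t ∧ Zs (A n) x0 (p n) t ≤ 1)
    (hK : ∀ ε : ℝ, 0 < ε → ∀ᶠ n in atTop, ∀ t ∈ Ico p' q,
      2 * βn n t * Zs (A n) x0 (p n) t - ε ≤ Ns (A n) x0 (p n) t) :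
    ∀ t ∈ Ioo p' q, β t * P.D t ≤ P.m t := by
  obtain ⟨h1, h2, ⟨B1, hB1⟩, h4⟩ := prep h hpos hp hpq hq
  obtain ⟨B2, hB2⟩ := hβb
  have key := closure_ae' (B := max B1 B2) hpq hz0 hT h1 h2
    (Eventually.of_forall fun n => (measurable_b (A n) (h.clk n)).aestronglyMeasurable) hβm
    (hB1.mono fun n hn t ht => (hn t ht).trans (le_max_left _ _))
    (hB2.mono fun n hn t ht => (hn t ht).trans (le_max_right _ _)) h4 hβl hZ
    (by
      intro ε hε
      filter_upwards [hK ε hε] with n hn t ht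
      have := hn t ht
      linarith)
  have hD : ContinuousOn P.D (Ioo p' q) := (D_contOn P).mono fun t ht =>
    ⟨hp.trans ht.1.le, (ht.2.trans hq).le⟩
  refine ge_everywhere (P.mono.mono fun t ht => ⟨hp.trans ht.1.le, ht.2.trans hq⟩)
    ((hβc.mono Ioo_subset_Icc_self).mul hD) ?_
  filter_upwards [key] with t ht htI
  have h5 := ht htI
  have hDt : 0 < P.D t := hpos t ⟨hp.trans htI.1.le, htI.2.trans hq⟩
  rwa [le_div_iff₀ hDt] at h5

end Appr

end

end Crest.Agent.R146.PtS5_489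
end

-- ▼ part R146/WinLim_746

/-!
Row 146, PT-CMP (helper746): from a closure inequality of the step systems (at every time, for all large
`n`) to the window of the limit profile, in both clocks.

`sc ω A t` : scale of the step system, `ω = true` : `chi = D K0`; `ω = false` : `1 - t`;
`scs ω P t`: the same for the limit profile; `Ys ω P t = m/D * scs`.
-/

set_option autoImplicit false

namespace Crest.Agent.R146.WinLim_746

open Set MeasureTheory Filter Topology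
open Crest.Agent.R146.PtS4_489 Crest.Agent.R146.PtS4b_489 Crest.Agent.R146.PtS5_489
open Crest.Agent.R146.PtScalA_45 Crest.Agent.R146.StepDef_791 Crest.Agent.R146.StepApx_856

noncomputable section

/-- scale of the step system -/
def sc (ω : Bool) (A : SD) (t : ℝ) : ℝ := if ω then A.chi t else 1 - t

/-- scale of the limit profile -/
def scs (ω : Bool) (P : Prof) (t : ℝ) : ℝ := if ω then P.D t * Ks P.D t else 1 - t

/-- `Y*`: `m K0` (new clock) or `ν = (1-t) m / D` (old clock) -/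
def Ys (ω : Bool) (P : Prof) (t : ℝ) : ℝ := P.m t / P.D t * scs ω P t

lemma Ys_true {P : Prof} {t : ℝ} (h : 0 < P.D t) : Ys true P t = P.m t * Ks P.D t := by
  unfold Ys scs
  simp only [if_true]
  field_simp

lemma Ys_false {P : Prof} {t : ℝ} : Ys false P t = (1 - t) * P.m t / P.D t := by
  unfold Ys scs
  simp only [Bool.false_eq_true, if_false]
  ring

lemma sc_ge {A : SD} (hC : Clock A) (ω : Bool) {t : ℝ} (ht : t < 1) : 1 - t ≤ sc ω A t := by
  cases ω
  · simp [sc]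
  · simp only [sc, if_true]
    -- K0 t ≥ (1-t)/D t
    have hD := A.D_pos t
    have h1 : (1 - t) * (A.D t)⁻¹ ≤ A.K0 t := by
      unfold SD.K0
      have h2 : ∫ _ in t..1, (A.D t)⁻¹ = (1 - t) * (A.D t)⁻¹ := by simp
      rw [← h2]
      refine intervalIntegral.integral_mono_on ht.le intervalIntegrable_const ?_ ?_
      · exact (E_cont hC).intervalIntegrable _ _
      · intro s hs
        exact inv_anti₀ (A.D_pos s) (hC.D_anti hs.1)
    have h3 : A.D t * ((1 - t) * (A.D t)⁻¹) ≤ A.D t * A.K0 t := mul_le_mul_of_nonneg_left h1 hD.le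
    have h4 : A.D t * ((1 - t) * (A.D t)⁻¹) = 1 - t := by field_simp
    unfold SD.chi
    linarith

lemma K0_cont {A : SD} (hC : Clock A) : Continuous A.K0 := by
  have h1 : A.K0 = fun t => ∫ s in t..1, A.E s := rfl
  have h2 : A.K0 = fun t => -∫ s in (1 : ℝ)..t, A.E s := by
    rw [h1]; funext t; rw [intervalIntegral.integral_symm]
  rw [h2]
  exact (intervalIntegral.continuous_primitive
    (fun a b => (E_cont hC).intervalIntegrable a b) 1).neg

lemma sc_cont {A : SD} (hC : Clock A) (ω : Bool) : Continuous (sc ω A) := by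
  cases ω
  · have : sc false A = fun t => 1 - t := by funext t; simp [sc]
    rw [this]; fun_prop
  · have : sc true A = fun t => A.D t * A.K0 t := by funext t; simp [sc, SD.chi]
    rw [this]
    exact hC.D_cont.mul (K0_cont hC)

lemma Ks_cont {P : Prof} (hint : IntervalIntegrable (fun x => (P.D x)⁻¹) volume 0 1) :
    ContinuousOn (Ks P.D) (Icc 0 1) := by
  have h2 : ContinuousOn (fun x => ∫ s in (1 : ℝ)..x, (P.D s)⁻¹) (uIcc 1 0) :=
    intervalIntegral.continuousOn_primitive_interval' hint.symm (by simp)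
  rw [uIcc_of_ge zero_le_one] at h2
  refine h2.neg.congr fun x _ => ?_
  show (∫ s in x..1, (P.D s)⁻¹) = -∫ s in (1 : ℝ)..x, (P.D s)⁻¹
  rw [intervalIntegral.integral_symm]

lemma scs_cont {P : Prof} (hint : IntervalIntegrable (fun x => (P.D x)⁻¹) volume 0 1) (ω : Bool) :
    ContinuousOn (scs ω P) (Icc 0 1) := by
  cases ω
  · have : scs false P = fun t => 1 - t := by funext t; simp [scs]
    rw [this]; fun_prop
  · have : scs true P = fun t => P.D t * Ks P.D t := by funext t; simp [scs]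
    rw [this]
    exact (D_contOn P).mul (Ks_cont hint)

lemma scs_pos {P : Prof} (hpos : ∀ t ∈ Ico (0 : ℝ) 1, 0 < P.D t)
    (hint : IntervalIntegrable (fun x => (P.D x)⁻¹) volume 0 1) (ω : Bool) {t : ℝ}
    (ht : t ∈ Ico (0 : ℝ) 1) : 0 < scs ω P t := by
  cases ω
  · simp only [scs, Bool.false_eq_true, if_false]; linarith [ht.2]
  · simp only [scs, if_true]
    refine mul_pos (hpos t ht) ?_
    unfold Ks
    refine intervalIntegral.intervalIntegral_pos_of_pos_on ?_ ?_ ht.2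
    · exact hint.mono_set (by
        rw [uIcc_of_le ht.2.le, uIcc_of_le zero_le_one]
        exact Icc_subset_Icc_left ht.1)
    · intro s hs
      exact inv_pos.2 (hpos s ⟨ht.1.trans hs.1.le, hs.2⟩)

variable {P : Prof} {A : ℕ → SD} {x0 : ℝ} {p : ℕ → ℝ → ℝ → ℝ} {L0 C0 : ℝ → ℝ}

/-- pointwise convergence of the scale -/
lemma sc_tendsto (h : Appr P A x0 p L0 C0)
    (hK : ∀ t ∈ Ico (0 : ℝ) 1, Tendsto (fun n => (A n).K0 t) atTop (𝓝 (Ks P.D t))) (ω : Bool)
    {t : ℝ} (ht : t ∈ Ico (0 : ℝ) 1) : Tendsto (fun n => sc ω (A n) t) atTop (𝓝 (scs ω P t)) := by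
  cases ω
  · simp [sc, scs]
  · simp only [sc, scs, if_true, SD.chi]
    have hq : (t + 1) / 2 ∈ Ioo (0 : ℝ) 1 := ⟨by linarith [ht.1], by linarith [ht.2]⟩
    exact ((h.DL _ hq).tendsto_at ⟨ht.1, by linarith [ht.2]⟩).mul (hK t ht)

/-- **Upper window of the limit** from the closure inequality of the step systems. -/
theorem win_le (h : Appr P A x0 p L0 C0) (hpos : ∀ t ∈ Ico (0 : ℝ) 1, 0 < P.D t)
    (hint : IntervalIntegrable (fun x => (P.D x)⁻¹) volume 0 1)
    (hKs : ∀ t ∈ Ico (0 : ℝ) 1, Tendsto (fun n => (A n).K0 t) atTop (𝓝 (Ks P.D t)))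
    (ω : Bool) {t1 c : ℝ} (ht1 : 0 ≤ t1) (hc : 0 ≤ c)
    (hT : ∀ x ∈ Ico t1 1, ∀ y ∈ Ico t1 1,
      Tendsto (fun n => Ts (A n) x0 (p n) y - Ts (A n) x0 (p n) x) atTop (𝓝 0))
    (hZ : ∀ q ∈ Ioo t1 1, ∃ z0 > 0, ∀ᶠ n in atTop, ∀ t ∈ Icc t1 q,
      z0 ≤ Zs (A n) x0 (p n) t ∧ Zs (A n) x0 (p n) t ≤ 1)
    (hK : ∀ q ∈ Ioo t1 1, ∀ ε : ℝ, 0 < ε → ∀ᶠ n in atTop, ∀ t ∈ Ico t1 q,
      sc ω (A n) t * Ns (A n) x0 (p n) t ≤ 2 * c * Zs (A n) x0 (p n) t + ε) :
    ∀ t ∈ Ioo t1 1, Ys ω P t ≤ c := by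
  intro t ht
  -- choose q
  set q : ℝ := (t + 1) / 2 with hq
  have hq1 : q < 1 := by rw [hq]; linarith [ht.2]
  have htq : t < q := by rw [hq]; linarith [ht.2]
  have hqI : q ∈ Ioo t1 1 := ⟨ht.1.trans htq, hq1⟩
  obtain ⟨z0, hz0, hZ'⟩ := hZ q hqI
  have hsub : Icc t1 q ⊆ Ico 0 1 := fun s hs => ⟨ht1.trans hs.1, hs.2.trans_lt hq1⟩
  have key := closure_le h hpos ht1 hqI.1 hq1 hz0
    (fun x hx y hy => hT x ⟨hx.1, hx.2.trans_lt hq1⟩ y ⟨hy.1, hy.2.trans_lt hq1⟩)
    (βn := fun n t => c / sc ω (A n) t) (β := fun t => c / scs ω P t) ?_ ?_ ?_ ?_ hZ' ?_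
  · have h1 := key t ⟨ht.1, htq⟩
    have hD := hpos t ⟨ht1.trans ht.1.le, ht.2⟩
    have hs := scs_pos hpos hint ω (t := t) ⟨ht1.trans ht.1.le, ht.2⟩
    unfold Ys
    rw [div_mul_eq_mul_div, div_le_iff₀ hD]
    calc P.m t * scs ω P t ≤ (c / scs ω P t * P.D t) * scs ω P t :=
          mul_le_mul_of_nonneg_right h1 hs.le
      _ = c * P.D t := by field_simp
  · refine Eventually.of_forall fun n => ?_
    exact (ContinuousOn.div continuousOn_const (sc_cont (h.clk n) ω).continuousOn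
      (fun s hs => ((sub_pos.2 (hs.2.trans_lt hq1)).trans_le
        (sc_ge (h.clk n) ω (hs.2.trans_lt hq1))).ne')).aestronglyMeasurable measurableSet_Icc
  · refine ⟨c / (1 - q), Eventually.of_forall fun n s hs => ?_⟩
    have h1 : 1 - q ≤ sc ω (A n) s := by
      have := sc_ge (h.clk n) ω (hs.2.trans_lt hq1)
      linarith [hs.2]
    have h2 : 0 < 1 - q := by linarith
    rw [abs_of_nonneg (div_nonneg hc (h2.le.trans h1))]
    exact div_le_div_of_nonneg_left hc h2 h1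
  · refine Eventually.of_forall fun s hs => ?_
    exact (tendsto_const_nhds).div (sc_tendsto h hKs ω (hsub hs)) (scs_pos hpos hint ω (hsub hs)).ne'
  · exact continuousOn_const.div ((scs_cont hint ω).mono fun s hs => ⟨(hsub hs).1, (hsub hs).2.le⟩)
      fun s hs => (scs_pos hpos hint ω (hsub hs)).ne'
  · intro ε hε
    have h2 : 0 < 1 - q := by linarith
    filter_upwards [hK q hqI (ε * (1 - q)) (by positivity)] with n hn s hs
    have h1 : 1 - q ≤ sc ω (A n) s := by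
      have := sc_ge (h.clk n) ω (hs.2.trans hq1)
      linarith [hs.2]
    have hpos' : 0 < sc ω (A n) s := h2.trans_le h1
    have h3 := hn s hs
    have h4 : Ns (A n) x0 (p n) s ≤ (2 * c * Zs (A n) x0 (p n) s + ε * (1 - q)) / sc ω (A n) s := by
      rw [le_div_iff₀ hpos']; linarith
    have h5 : (2 * c * Zs (A n) x0 (p n) s + ε * (1 - q)) / sc ω (A n) s =
        2 * (c / sc ω (A n) s) * Zs (A n) x0 (p n) s + ε * ((1 - q) / sc ω (A n) s) := by
      field_simp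
    have h6 : (1 - q) / sc ω (A n) s ≤ 1 := (div_le_one hpos').2 h1
    have h7 : ε * ((1 - q) / sc ω (A n) s) ≤ ε * 1 := mul_le_mul_of_nonneg_left h6 hε.le
    linarith

/-- **Lower window of the limit** from the closure inequality of the step systems. -/
theorem le_win (h : Appr P A x0 p L0 C0) (hpos : ∀ t ∈ Ico (0 : ℝ) 1, 0 < P.D t)
    (hint : IntervalIntegrable (fun x => (P.D x)⁻¹) volume 0 1)
    (hKs : ∀ t ∈ Ico (0 : ℝ) 1, Tendsto (fun n => (A n).K0 t) atTop (𝓝 (Ks P.D t)))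
    (ω : Bool) {t1 c : ℝ} (ht1 : 0 ≤ t1) (hc : 0 ≤ c)
    (hT : ∀ x ∈ Ico t1 1, ∀ y ∈ Ico t1 1,
      Tendsto (fun n => Ts (A n) x0 (p n) y - Ts (A n) x0 (p n) x) atTop (𝓝 0))
    (hZ : ∀ q ∈ Ioo t1 1, ∃ z0 > 0, ∀ᶠ n in atTop, ∀ t ∈ Icc t1 q,
      z0 ≤ Zs (A n) x0 (p n) t ∧ Zs (A n) x0 (p n) t ≤ 1)
    (hK : ∀ q ∈ Ioo t1 1, ∀ ε : ℝ, 0 < ε → ∀ᶠ n in atTop, ∀ t ∈ Ico t1 q,
      2 * c * Zs (A n) x0 (p n) t - ε ≤ sc ω (A n) t * Ns (A n) x0 (p n) t) :
    ∀ t ∈ Ioo t1 1, c ≤ Ys ω P t := by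
  intro t ht
  set q : ℝ := (t + 1) / 2 with hq
  have hq1 : q < 1 := by rw [hq]; linarith [ht.2]
  have htq : t < q := by rw [hq]; linarith [ht.2]
  have hqI : q ∈ Ioo t1 1 := ⟨ht.1.trans htq, hq1⟩
  obtain ⟨z0, hz0, hZ'⟩ := hZ q hqI
  have hsub : Icc t1 q ⊆ Ico 0 1 := fun s hs => ⟨ht1.trans hs.1, hs.2.trans_lt hq1⟩
  have key := closure_ge h hpos ht1 hqI.1 hq1 hz0
    (fun x hx y hy => hT x ⟨hx.1, hx.2.trans_lt hq1⟩ y ⟨hy.1, hy.2.trans_lt hq1⟩)
    (βn := fun n t => c / sc ω (A n) t) (β := fun t => c / scs ω P t) ?_ ?_ ?_ ?_ hZ' ?_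
  · have h1 := key t ⟨ht.1, htq⟩
    have hD := hpos t ⟨ht1.trans ht.1.le, ht.2⟩
    have hs := scs_pos hpos hint ω (t := t) ⟨ht1.trans ht.1.le, ht.2⟩
    unfold Ys
    rw [div_mul_eq_mul_div, le_div_iff₀ hD]
    calc c * P.D t = (c / scs ω P t * P.D t) * scs ω P t := by field_simp
      _ ≤ P.m t * scs ω P t := mul_le_mul_of_nonneg_right h1 hs.le
  · refine Eventually.of_forall fun n => ?_
    exact (ContinuousOn.div continuousOn_const (sc_cont (h.clk n) ω).continuousOn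
      (fun s hs => ((sub_pos.2 (hs.2.trans_lt hq1)).trans_le
        (sc_ge (h.clk n) ω (hs.2.trans_lt hq1))).ne')).aestronglyMeasurable measurableSet_Icc
  · refine ⟨c / (1 - q), Eventually.of_forall fun n s hs => ?_⟩
    have h1 : 1 - q ≤ sc ω (A n) s := by
      have := sc_ge (h.clk n) ω (hs.2.trans_lt hq1)
      linarith [hs.2]
    have h2 : 0 < 1 - q := by linarith
    rw [abs_of_nonneg (div_nonneg hc (h2.le.trans h1))]
    exact div_le_div_of_nonneg_left hc h2 h1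
  · refine Eventually.of_forall fun s hs => ?_
    exact (tendsto_const_nhds).div (sc_tendsto h hKs ω (hsub hs)) (scs_pos hpos hint ω (hsub hs)).ne'
  · exact continuousOn_const.div ((scs_cont hint ω).mono fun s hs => ⟨(hsub hs).1, (hsub hs).2.le⟩)
      fun s hs => (scs_pos hpos hint ω (hsub hs)).ne'
  · intro ε hε
    have h2 : 0 < 1 - q := by linarith
    filter_upwards [hK q hqI (ε * (1 - q)) (by positivity)] with n hn s hs
    have h1 : 1 - q ≤ sc ω (A n) s := by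
      have := sc_ge (h.clk n) ω (hs.2.trans hq1)
      linarith [hs.2]
    have hpos' : 0 < sc ω (A n) s := h2.trans_le h1
    have h3 := hn s hs
    have h4 : (2 * c * Zs (A n) x0 (p n) s - ε * (1 - q)) / sc ω (A n) s ≤ Ns (A n) x0 (p n) s := by
      rw [div_le_iff₀ hpos']; linarith
    have h5 : (2 * c * Zs (A n) x0 (p n) s - ε * (1 - q)) / sc ω (A n) s =
        2 * (c / sc ω (A n) s) * Zs (A n) x0 (p n) s - ε * ((1 - q) / sc ω (A n) s) := by
      field_simp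
    have h6 : (1 - q) / sc ω (A n) s ≤ 1 := (div_le_one hpos').2 h1
    have h7 : ε * ((1 - q) / sc ω (A n) s) ≤ ε * 1 := mul_le_mul_of_nonneg_left h6 hε.le
    linarith

end

end Crest.Agent.R146.WinLim_746
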