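import Crest.Agent.R146.StepCmp_371
import Crest.Agent.R146.Clo_42
import Crest.Agent.R146.Back_847
import Crest.Agent.R146.StepClk_900
import Crest.Agent.R146.StepStart_483
import Crest.Agent.R146.Pos_371
import Crest.Agent.R146.PtRef_846
import Crest.Agent.R146.PtRefIf_847
import Crest.Agent.R146.PtTipC_52
import Crest.Agent.R146.Fix2_181
import Crest.Agent.R146.WinTail_746
import Crest.Agent.R146.FlatStep_384
import Crest.Agent.R146.Band_371
import Crest.Agent.R146.SlopeT_371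
import Crest.Agent.R146.WinLim_746
import Crest.Agent.R146.WinDef_937
import Crest.Agent.R146.WinQ_454
import Crest.Agent.R146.WinT1_937
import Crest.Agent.R146.WinT1_454
import Crest.Agent.R146.WinA_454
import Crest.Agent.R146.PtLim_847
import Crest.Agent.R146.T12_52

-- ▼ part R146/Abs_423
section

/-!
Row 146, PT-CMP (helper423): the ABSORB LEMMA at a fixed time.

`Fix s V P u`: profile at a fixed time (`s = χ^{-1/2}`) with the universal lower slope bound
`P ≥ (3/4) s V^{3/2} (1-V)`.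
* positions: `x_h` (`V = 1/2`), `x_a` (`V = 1/4`), `-8 ≤ s x_a ≤ s x_h ≤ 4`;
* `absorb`: `E_p[H] ≤ C' E_p[V R²]` for `H ≤ C V` on the left and `H ≤ C (1+ξ₊) (1-V)^{e}` on the right, if
  `Y = -(log p)_x ≥ -λ s (1 + ξ₋)`, `λ` small.
-/

set_option autoImplicit false

open Set Filter Topology MeasureTheory

namespace Crest.Agent.R146.Abs_423

open StepCmp_371

/-- profile at a fixed time -/
structure Fix (s : ℝ) (V P u : ℝ → ℝ) : Prop where
  s_pos : 0 < s
  hu : ∀ x, HasDerivAt u (V x - 1) x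
  hV : ∀ x, HasDerivAt V (P x) x
  cP : Continuous P
  P_pos : ∀ x, 0 < P x
  V_pos : ∀ x, 0 < V x
  V_lt : ∀ x, V x < 1
  u_pos : ∀ x, 0 < u x
  w_pos : ∀ x, 0 < x + u x
  u_top : Tendsto u atTop (𝓝 0)
  w_bot : Tendsto (fun x => x + u x) atBot (𝓝 0)
  lo : ∀ x, s * (3 / 4) * (V x * Real.sqrt (V x)) * (1 - V x) ≤ P x

namespace Fix

variable {s : ℝ} {V P u : ℝ → ℝ}

lemma hw (h : Fix s V P u) (x : ℝ) : HasDerivAt (fun x => x + u x) (V x) x := by
  refine ((hasDerivAt_id x).add (h.hu x)).congr_deriv ?_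
  ring

lemma cV (h : Fix s V P u) : Continuous V :=
  continuous_iff_continuousAt.2 fun x => (h.hV x).continuousAt

lemma cu (h : Fix s V P u) : Continuous u :=
  continuous_iff_continuousAt.2 fun x => (h.hu x).continuousAt

lemma strictMono (h : Fix s V P u) : StrictMono V := by
  apply strictMono_of_deriv_pos
  intro x; rw [(h.hV x).deriv]; exact h.P_pos x

lemma V_bot (h : Fix s V P u) : Tendsto V atBot (𝓝 0) :=
  lim_bot_of h.strictMono.monotone (fun x => (h.V_pos x).le) h.hw h.w_pos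

lemma V_top (h : Fix s V P u) : Tendsto V atTop (𝓝 1) :=
  lim_top_of h.strictMono.monotone (fun x => (h.V_lt x).le) h.hu h.u_pos

lemma surj (h : Fix s V P u) {v : ℝ} (hv : v ∈ Ioo (0:ℝ) 1) : ∃ x, V x = v := by
  have h1 : ∀ᶠ x in atBot, V x < v := h.V_bot.eventually (gt_mem_nhds hv.1)
  have h2 : ∀ᶠ x in atTop, v < V x := h.V_top.eventually (lt_mem_nhds hv.2)
  obtain ⟨a, ha⟩ := h1.exists
  obtain ⟨c, hc⟩ := h2.exists
  have hac : a ≤ c := by
    by_contra hcon
    push Not at hcon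
    exact absurd (h.strictMono.lt_iff_lt.2 hcon) (not_lt.2 (ha.le.trans hc.le))
  obtain ⟨x, _, hx⟩ := intermediate_value_Icc hac h.cV.continuousOn ⟨ha.le, hc.le⟩
  exact ⟨x, hx⟩

/-- `u ≤ 8/s` where `V ≥ 1/4`. -/
lemma u_le (h : Fix s V P u) {x : ℝ} (hx : 1 / 4 ≤ V x) : s * u x ≤ 8 := by
  have hs := h.s_pos
  have hmono : MonotoneOn (fun y => u y + 32 / (3 * s) * V y) (Ici x) := by
    apply monotoneOn_of_deriv_nonneg (convex_Ici x)
    · exact (h.cu.add (continuous_const.mul h.cV)).continuousOn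
    · intro y _
      exact ((h.hu y).add ((h.hV y).const_mul _)).differentiableAt.differentiableWithinAt
    · intro y hy
      rw [interior_Ici] at hy
      have hd : HasDerivAt (fun y => u y + 32 / (3 * s) * V y)
        ((V y - 1) + 32 / (3 * s) * P y) y := (h.hu y).add ((h.hV y).const_mul _)
      rw [hd.deriv]
      have h1 : 1 / 4 ≤ V y := hx.trans (h.strictMono.monotone (le_of_lt hy))
      have h2 : (1:ℝ) / 2 ≤ Real.sqrt (V y) := by
        rw [show (1:ℝ) / 2 = Real.sqrt (1 / 4) by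
          rw [show (1:ℝ) / 4 = (1 / 2) ^ 2 by norm_num, Real.sqrt_sq (by norm_num)]]
        exact Real.sqrt_le_sqrt h1
      have h3 : (1:ℝ) / 8 ≤ V y * Real.sqrt (V y) := by nlinarith
      have h4 := h.lo y
      have h5 : 0 ≤ 1 - V y := by linarith [h.V_lt y]
      have h6 : s * (3 / 32) * (1 - V y) ≤ P y := by
        refine le_trans ?_ h4
        have : s * (3 / 4) * (1 / 8) * (1 - V y) ≤
            s * (3 / 4) * (V y * Real.sqrt (V y)) * (1 - V y) := by gcongr
        linarith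
      have h7 : 32 / (3 * s) * (s * (3 / 32) * (1 - V y)) ≤ 32 / (3 * s) * P y := by gcongr
      have h8 : 32 / (3 * s) * (s * (3 / 32) * (1 - V y)) = 1 - V y := by field_simp
      linarith
  have hlim : Tendsto (fun y => u y + 32 / (3 * s) * V y) atTop (𝓝 (0 + 32 / (3 * s) * 1)) :=
    h.u_top.add (h.V_top.const_mul _)
  have hle : u x + 32 / (3 * s) * V x ≤ 0 + 32 / (3 * s) * 1 := by
    refine ge_of_tendsto hlim ?_
    filter_upwards [eventually_ge_atTop x] with y hy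
    exact hmono (mem_Ici.2 le_rfl) (mem_Ici.2 hy) hy
  have h9 : s * (u x + 32 / (3 * s) * V x) ≤ s * (0 + 32 / (3 * s) * 1) := by gcongr
  have h10 : s * (u x + 32 / (3 * s) * V x) = s * u x + 32 / 3 * V x := by field_simp
  have h11 : s * (0 + 32 / (3 * s) * 1) = 32 / 3 := by field_simp; ring
  rw [h10, h11] at h9
  linarith

/-- `w ≤ 4/s` where `V ≤ 1/2`. -/
lemma w_le (h : Fix s V P u) {x : ℝ} (hx : V x ≤ 1 / 2) : s * (x + u x) ≤ 4 := by
  have hs := h.s_pos
  have hsq : ∀ y, HasDerivAt (fun y => Real.sqrt (V y)) (P y / (2 * Real.sqrt (V y))) y :=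
    fun y => (h.hV y).sqrt (h.V_pos y).ne'
  have hanti : AntitoneOn (fun y => (y + u y) - 16 / (3 * s) * Real.sqrt (V y)) (Iic x) := by
    apply antitoneOn_of_deriv_nonpos (convex_Iic x)
    · refine ((continuous_id.add h.cu).sub (continuous_const.mul ?_)).continuousOn
      exact Real.continuous_sqrt.comp h.cV
    · intro y _
      exact ((h.hw y).sub ((hsq y).const_mul _)).differentiableAt.differentiableWithinAt
    · intro y hy
      rw [interior_Iic] at hy
      have hd : HasDerivAt (fun y => (y + u y) - 16 / (3 * s) * Real.sqrt (V y))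
        (V y - 16 / (3 * s) * (P y / (2 * Real.sqrt (V y)))) y :=
        (h.hw y).sub ((hsq y).const_mul _)
      rw [hd.deriv]
      have h1 : V y ≤ 1 / 2 := (h.strictMono.monotone (le_of_lt hy)).trans hx
      have hq : 0 < Real.sqrt (V y) := Real.sqrt_pos.2 (h.V_pos y)
      have hV0 := h.V_pos y
      have h4 := h.lo y
      have h5 : s * (3 / 8) * (V y * Real.sqrt (V y)) ≤ P y := by
        refine le_trans ?_ h4
        have h6 : 1 / 2 ≤ 1 - V y := by linarith
        have h7 : 0 ≤ s * (3 / 4) * (V y * Real.sqrt (V y)) := by positivity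
        nlinarith
      have h8 : 16 / (3 * s) * (s * (3 / 8) * (V y * Real.sqrt (V y)) / (2 * Real.sqrt (V y))) ≤
          16 / (3 * s) * (P y / (2 * Real.sqrt (V y))) := by gcongr
      have h9 : 16 / (3 * s) * (s * (3 / 8) * (V y * Real.sqrt (V y)) / (2 * Real.sqrt (V y))) =
          V y := by field_simp; ring
      linarith
  have hlim : Tendsto (fun y => (y + u y) - 16 / (3 * s) * Real.sqrt (V y)) atBot
      (𝓝 (0 - 16 / (3 * s) * Real.sqrt 0)) :=
    h.w_bot.sub (((Real.continuous_sqrt.tendsto 0).comp h.V_bot).const_mul _)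
  have hle : (x + u x) - 16 / (3 * s) * Real.sqrt (V x) ≤ 0 - 16 / (3 * s) * Real.sqrt 0 := by
    refine ge_of_tendsto hlim ?_
    filter_upwards [eventually_le_atBot x] with y hy
    exact hanti (mem_Iic.2 hy) (mem_Iic.2 le_rfl) hy
  rw [Real.sqrt_zero] at hle
  have h3 : Real.sqrt (V x) ≤ 3 / 4 := by
    rw [show (3:ℝ) / 4 = Real.sqrt ((3 / 4) ^ 2) by rw [Real.sqrt_sq (by norm_num)]]
    exact Real.sqrt_le_sqrt (by norm_num; linarith)
  have h9 : s * ((x + u x) - 16 / (3 * s) * Real.sqrt (V x)) ≤ s * (0 - 16 / (3 * s) * 0) := by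
    gcongr
  have h10 : s * ((x + u x) - 16 / (3 * s) * Real.sqrt (V x)) =
      s * (x + u x) - 16 / 3 * Real.sqrt (V x) := by field_simp
  rw [h10] at h9
  linarith

/-- position of the level `≥ 1/4`: `ξ₋ ≤ 8`. -/
lemma pos_lo (h : Fix s V P u) {x : ℝ} (hx : 1 / 4 ≤ V x) : -8 ≤ s * x := by
  have h1 := h.u_le hx
  have h2 := mul_pos h.s_pos (h.w_pos x)
  linarith

/-- position of the level `≤ 1/2`: `ξ₊ ≤ 4`. -/
lemma pos_hi (h : Fix s V P u) {x : ℝ} (hx : V x ≤ 1 / 2) : s * x ≤ 4 := by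
  have h1 := h.w_le hx
  have h2 := mul_pos h.s_pos (h.u_pos x)
  linarith

/-- on the left `|ξ| √V ≤ 14`: precisely `(1 + ξ₋) √V ≤ 15`. -/
lemma left_decay (h : Fix s V P u) {x : ℝ} (hx : V x ≤ 1 / 2) :
    (1 + s * max (-x) 0) * Real.sqrt (V x) ≤ 15 := by
  have hs := h.s_pos
  obtain ⟨xh, hxh⟩ := h.surj (v := 1 / 2) ⟨by norm_num, by norm_num⟩
  have hle : x ≤ xh := by
    by_contra hcon
    push Not at hcon
    have := h.strictMono hcon
    linarith
  -- `1/√V` decreases at least at rate `(3/16) s`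
  have hanti : AntitoneOn (fun y => (Real.sqrt (V y))⁻¹ + 3 / 16 * s * y) (Iic xh) := by
    have hd : ∀ y, HasDerivAt (fun y => (Real.sqrt (V y))⁻¹ + 3 / 16 * s * y)
        (-(P y / (2 * Real.sqrt (V y))) / Real.sqrt (V y) ^ 2 + 3 / 16 * s * 1) y := by
      intro y
      have hq : 0 < Real.sqrt (V y) := Real.sqrt_pos.2 (h.V_pos y)
      exact (((h.hV y).sqrt (h.V_pos y).ne').inv hq.ne').add
        ((hasDerivAt_id y).const_mul (3 / 16 * s))
    apply antitoneOn_of_deriv_nonpos (convex_Iic xh)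
    · exact (continuous_iff_continuousAt.2 fun y => (hd y).continuousAt).continuousOn
    · intro y _; exact (hd y).differentiableAt.differentiableWithinAt
    · intro y hy
      rw [interior_Iic] at hy
      rw [(hd y).deriv]
      have h1 : V y ≤ 1 / 2 := (h.strictMono.monotone (le_of_lt hy)).trans hxh.le
      have hq : 0 < Real.sqrt (V y) := Real.sqrt_pos.2 (h.V_pos y)
      have hV0 := h.V_pos y
      have hsq : Real.sqrt (V y) ^ 2 = V y := Real.sq_sqrt hV0.le
      have h4 := h.lo y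
      have h5 : s * (3 / 8) * (V y * Real.sqrt (V y)) ≤ P y := by
        refine le_trans ?_ h4
        have h6 : 1 / 2 ≤ 1 - V y := by linarith
        have h7 : 0 ≤ s * (3 / 4) * (V y * Real.sqrt (V y)) := by positivity
        nlinarith
      have h8 : s * (3 / 8) * (V y * Real.sqrt (V y)) / (2 * Real.sqrt (V y)) / V y ≤
          P y / (2 * Real.sqrt (V y)) / V y := by gcongr
      have h9 : s * (3 / 8) * (V y * Real.sqrt (V y)) / (2 * Real.sqrt (V y)) / V y =
          3 / 16 * s := by field_simp; ring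
      rw [hsq, neg_div]
      linarith
  have h1 := hanti (mem_Iic.2 hle) (mem_Iic.2 le_rfl) hle
  simp only at h1
  have hq : 0 < Real.sqrt (V x) := Real.sqrt_pos.2 (h.V_pos x)
  have hqh : 0 < (Real.sqrt (V xh))⁻¹ := inv_pos.2 (Real.sqrt_pos.2 (h.V_pos xh))
  have h2 : 3 / 16 * s * (xh - x) ≤ (Real.sqrt (V x))⁻¹ := by linarith
  have h3 : 3 / 16 * s * (xh - x) * Real.sqrt (V x) ≤ 1 := by
    have := mul_le_mul_of_nonneg_right h2 hq.le
    rwa [inv_mul_cancel₀ hq.ne'] at this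
  have h4 : Real.sqrt (V x) ≤ 1 := by
    rw [show (1:ℝ) = Real.sqrt 1 by simp]
    exact Real.sqrt_le_sqrt (h.V_lt x).le
  have h5 : -8 ≤ s * xh := h.pos_lo (by rw [hxh]; norm_num)
  have h6 : s * max (-x) 0 ≤ 8 + s * (xh - x) := by
    rcases le_total (-x) 0 with h7 | h7
    · rw [max_eq_right h7]
      have : 0 ≤ s * (xh - x) := mul_nonneg hs.le (by linarith)
      linarith
    · rw [max_eq_left h7]; linarith
  have h7 : (1 + s * max (-x) 0) * Real.sqrt (V x) ≤ (1 + (8 + s * (xh - x))) * Real.sqrt (V x) := by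
    gcongr
  nlinarith

/-- exponential decay of `1 - V` to the right of the level `1/2`. -/
lemma right_decay (h : Fix s V P u) {xh x : ℝ} (hxh : V xh = 1 / 2) (hx : xh ≤ x) :
    1 - V x ≤ Real.exp (-(s * (x - xh) / 4)) := by
  have hs := h.s_pos
  have hd : ∀ y, HasDerivAt (fun y => Real.log (1 - V y) + s / 4 * y)
      (-P y / (1 - V y) + s / 4 * 1) y := by
    intro y
    have h1 : HasDerivAt (fun y => 1 - V y) (-P y) y := by
      simpa using (h.hV y).const_sub 1
    exact (h1.log (by linarith [h.V_lt y])).add ((hasDerivAt_id y).const_mul (s / 4))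
  have hanti : AntitoneOn (fun y => Real.log (1 - V y) + s / 4 * y) (Ici xh) := by
    apply antitoneOn_of_deriv_nonpos (convex_Ici xh)
    · exact (continuous_iff_continuousAt.2 fun y => (hd y).continuousAt).continuousOn
    · intro y _; exact (hd y).differentiableAt.differentiableWithinAt
    · intro y hy
      rw [interior_Ici] at hy
      rw [(hd y).deriv]
      have h1 : 1 / 2 ≤ V y := by
        have := h.strictMono.monotone (le_of_lt hy); linarith
      have h2 : (7:ℝ) / 10 ≤ Real.sqrt (V y) := by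
        rw [show (7:ℝ) / 10 = Real.sqrt ((7 / 10) ^ 2) by rw [Real.sqrt_sq (by norm_num)]]
        exact Real.sqrt_le_sqrt (by norm_num; linarith)
      have h3 : (7:ℝ) / 20 ≤ V y * Real.sqrt (V y) := by nlinarith
      have h4 := h.lo y
      have h5 : 0 < 1 - V y := by linarith [h.V_lt y]
      have h6 : s * (1 / 4) * (1 - V y) ≤ P y := by
        refine le_trans ?_ h4
        have : s * (3 / 4) * (7 / 20) * (1 - V y) ≤
            s * (3 / 4) * (V y * Real.sqrt (V y)) * (1 - V y) := by gcongr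
        nlinarith
      have h7 : s * (1 / 4) ≤ P y / (1 - V y) := by rwa [le_div_iff₀ h5]
      rw [neg_div]; linarith
  have h1 := hanti (mem_Ici.2 le_rfl) (mem_Ici.2 hx) hx
  simp only at h1
  have h2 : Real.log (1 - V xh) ≤ 0 :=
    Real.log_nonpos (by linarith [h.V_lt xh]) (by linarith [h.V_pos xh])
  have h3 : 0 < 1 - V x := by linarith [h.V_lt x]
  rw [← Real.log_le_iff_le_exp h3]
  linarith

/-- the interval between the levels `1/4` and `1/2`: `1/(4 C) ≤ s (x_h - x_a) ≤ 16/3`. -/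
lemma mid_len (h : Fix s V P u) {CK : ℝ} (hCK : ∀ x, P x ≤ CK * s) {xa xh : ℝ}
    (hxa : V xa = 1 / 4) (hxh : V xh = 1 / 2) :
    xa < xh ∧ 1 ≤ 4 * CK * (s * (xh - xa)) ∧ s * (xh - xa) ≤ 16 / 3 := by
  have hs := h.s_pos
  have hlt : xa < xh := h.strictMono.lt_iff_lt.1 (by rw [hxa, hxh]; norm_num)
  refine ⟨hlt, ?_, ?_⟩
  · have hmono : Monotone (fun y => CK * s * y - V y) := by
      apply monotone_of_deriv_nonneg
      · intro y; exact (((hasDerivAt_id y).const_mul (CK * s)).sub (h.hV y)).differentiableAt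
      · intro y
        have hd : HasDerivAt (fun y => CK * s * y - V y) (CK * s * 1 - P y) y :=
          ((hasDerivAt_id y).const_mul (CK * s)).sub (h.hV y)
        rw [hd.deriv]; linarith [hCK y]
    have := hmono hlt.le
    simp only at this
    rw [hxa, hxh] at this
    nlinarith
  · have hmono : MonotoneOn (fun y => V y - 3 / 64 * s * y) (Icc xa xh) := by
      have hd : ∀ y, HasDerivAt (fun y => V y - 3 / 64 * s * y) (P y - 3 / 64 * s * 1) y :=
        fun y => (h.hV y).sub ((hasDerivAt_id y).const_mul (3 / 64 * s))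
      apply monotoneOn_of_deriv_nonneg (convex_Icc xa xh)
      · exact (continuous_iff_continuousAt.2 fun y => (hd y).continuousAt).continuousOn
      · intro y _; exact (hd y).differentiableAt.differentiableWithinAt
      · intro y hy
        rw [interior_Icc] at hy
        rw [(hd y).deriv]
        have h1 : 1 / 4 ≤ V y := by
          have := h.strictMono.monotone hy.1.le; linarith
        have h1' : V y ≤ 1 / 2 := by
          have := h.strictMono.monotone hy.2.le; linarith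
        have h2 : (1:ℝ) / 2 ≤ Real.sqrt (V y) := by
          rw [show (1:ℝ) / 2 = Real.sqrt (1 / 4) by
            rw [show (1:ℝ) / 4 = (1 / 2) ^ 2 by norm_num, Real.sqrt_sq (by norm_num)]]
          exact Real.sqrt_le_sqrt h1
        have h3 : (1:ℝ) / 8 ≤ V y * Real.sqrt (V y) := by nlinarith
        have h4 := h.lo y
        have h5 : (1:ℝ) / 2 ≤ 1 - V y := by linarith
        have h6 : s * (3 / 4) * (1 / 8) * (1 / 2) ≤
            s * (3 / 4) * (V y * Real.sqrt (V y)) * (1 - V y) := by gcongr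
        linarith
    have := hmono (left_mem_Icc.2 hlt.le) (right_mem_Icc.2 hlt.le) hlt.le
    simp only at this
    rw [hxa, hxh] at this
    nlinarith

/-- `p` is almost nonincreasing to the right of the level `1/4`. -/
lemma p_le (h : Fix s V P u) {p Y : ℝ → ℝ} (hp : ∀ x, 0 < p x)
    (hpx : ∀ x, HasDerivAt p (-Y x * p x) x) {lam : ℝ} (hlam : 0 ≤ lam)
    (hY : ∀ x, -(lam * s * (1 + s * max (-x) 0)) ≤ Y x) {y x : ℝ} (hy : 1 / 4 ≤ V y)
    (hyx : y ≤ x) : p x ≤ p y * Real.exp (9 * lam * s * (x - y)) := by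
  have hs := h.s_pos
  have hd : ∀ z, HasDerivAt (fun z => Real.log (p z) - 9 * lam * s * z)
      (-Y z * p z / p z - 9 * lam * s * 1) z := fun z =>
    ((hpx z).log (hp z).ne').sub ((hasDerivAt_id z).const_mul (9 * lam * s))
  have hanti : AntitoneOn (fun z => Real.log (p z) - 9 * lam * s * z) (Ici y) := by
    apply antitoneOn_of_deriv_nonpos (convex_Ici y)
    · exact (continuous_iff_continuousAt.2 fun y => (hd y).continuousAt).continuousOn
    · intro z _; exact (hd z).differentiableAt.differentiableWithinAt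
    · intro z hz
      rw [interior_Ici] at hz
      rw [(hd z).deriv, mul_div_assoc, div_self (hp z).ne']
      have h1 : 1 / 4 ≤ V z := hy.trans (h.strictMono.monotone (le_of_lt hz))
      have h2 := h.pos_lo h1
      have h3 : s * max (-z) 0 ≤ 8 := by
        rcases le_total (-z) 0 with h4 | h4
        · rw [max_eq_right h4]; simp
        · rw [max_eq_left h4]; linarith
      have h4 : lam * s * (1 + s * max (-z) 0) ≤ lam * s * (1 + 8) := by gcongr
      have := hY z
      linarith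
  have h1 := hanti (mem_Ici.2 le_rfl) (mem_Ici.2 hyx) hyx
  simp only at h1
  have h2 : Real.log (p x) ≤ Real.log (p y * Real.exp (9 * lam * s * (x - y))) := by
    rw [Real.log_mul (hp y).ne' (Real.exp_pos _).ne', Real.log_exp]
    linarith
  exact (Real.log_le_log_iff (hp x) (mul_pos (hp y) (Real.exp_pos _))).1 h2

/-- the constant of the absorb lemma -/
noncomputable def KA (CK e : ℝ) : ℝ := 4 + 64 * CK * (Real.exp e * (5 + 16 / e) * (16 / e))

lemma KA_nonneg {CK e : ℝ} (hCK : 0 ≤ CK) (he : 0 < e) : 0 ≤ KA CK e := by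
  unfold KA; positivity

/-- the pointwise bound of the right part -/
lemma exp_aux {e z : ℝ} (he : 0 < e) (hz : 0 ≤ z) :
    (5 + z) * Real.exp (-(e * z / 8)) ≤ (5 + 16 / e) * Real.exp (-(e * z / 16)) := by
  have h1 : Real.exp (-(e * z / 8)) = Real.exp (-(e * z / 16)) * Real.exp (-(e * z / 16)) := by
    rw [← Real.exp_add]; ring_nf
  have h2 : 0 ≤ e * z / 16 := by positivity
  have h3 : Real.exp (-(e * z / 16)) ≤ 1 := Real.exp_le_one_iff.2 (by linarith)
  have h4 : e * z / 16 * Real.exp (-(e * z / 16)) ≤ 1 := by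
    have h5 : e * z / 16 ≤ Real.exp (e * z / 16) := by
      have := Real.add_one_le_exp (e * z / 16); linarith
    rw [Real.exp_neg, ← div_eq_mul_inv]
    exact (div_le_one (Real.exp_pos _)).2 h5
  have h5 : z * Real.exp (-(e * z / 16)) ≤ 16 / e := by
    have h6 : z * Real.exp (-(e * z / 16)) = 16 / e * (e * z / 16 * Real.exp (-(e * z / 16))) := by
      field_simp
    rw [h6]
    calc 16 / e * (e * z / 16 * Real.exp (-(e * z / 16))) ≤ 16 / e * 1 := by gcongr
      _ = 16 / e := mul_one _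
  have h6 := Real.exp_pos (-(e * z / 16))
  rw [h1, ← mul_assoc]
  refine mul_le_mul_of_nonneg_right ?_ h6.le
  nlinarith

/-- **ABSORB LEMMA.** -/
theorem absorb (h : Fix s V P u) {CK e C lam : ℝ} (hCK0 : 0 ≤ CK) (hCK : ∀ x, P x ≤ CK * s)
    (he : 0 < e) (hC : 0 ≤ C) (hlam0 : 0 ≤ lam) (hlam : 72 * lam ≤ e) {p Y H : ℝ → ℝ}
    (hp : ∀ x, 0 < p x) (hpx : ∀ x, HasDerivAt p (-Y x * p x) x)
    (hY : ∀ x, -(lam * s * (1 + s * max (-x) 0)) ≤ Y x)
    (intp : Integrable p) (intH : Integrable (fun x => p x * H x))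
    (left : ∀ x, V x ≤ 1 / 2 → H x ≤ C * V x)
    (right : ∀ x, 1 / 2 ≤ V x → H x ≤ C * (1 + s * max x 0) * (1 - V x) ^ e) :
    ∫ x, p x * H x ≤ C * KA CK e * ∫ x, p x * (V x * (1 - V x) ^ 2) := by
  have hs := h.s_pos
  obtain ⟨xa, hxa⟩ := h.surj (v := 1 / 4) ⟨by norm_num, by norm_num⟩
  obtain ⟨xh, hxh⟩ := h.surj (v := 1 / 2) ⟨by norm_num, by norm_num⟩
  obtain ⟨hlt, hl1, hl2⟩ := h.mid_len hCK hxa hxh
  have cp : Continuous p := continuous_iff_continuousAt.2 fun x => (hpx x).continuousAt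
  have cV := h.cV
  -- the reference integrand
  have hG0 : ∀ x, 0 ≤ p x * (V x * (1 - V x) ^ 2) := fun x =>
    mul_nonneg (hp x).le (mul_nonneg (h.V_pos x).le (sq_nonneg _))
  have intG : Integrable (fun x => p x * (V x * (1 - V x) ^ 2)) := by
    refine intp.mono (cp.mul (cV.mul ((continuous_const.sub cV).pow 2))).aestronglyMeasurable
      (Eventually.of_forall fun x => ?_)
    rw [Real.norm_of_nonneg (hG0 x), Real.norm_of_nonneg (hp x).le]
    have h1 := (h.V_pos x).le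
    have h2 := (h.V_lt x).le
    have h3 : V x * (1 - V x) ^ 2 ≤ 1 := by
      have : (1 - V x) ^ 2 ≤ 1 := by nlinarith
      nlinarith [sq_nonneg (1 - V x)]
    calc p x * (V x * (1 - V x) ^ 2) ≤ p x * 1 := mul_le_mul_of_nonneg_left h3 (hp x).le
      _ = p x := mul_one _
  set E := ∫ x, p x * (V x * (1 - V x) ^ 2) with hE
  have hE0 : 0 ≤ E := integral_nonneg hG0
  -- left part
  have hleft : ∫ x in Iic xh, p x * H x ≤ 4 * C * E := by
    have h1 : ∫ x in Iic xh, p x * H x ≤ ∫ x in Iic xh, 4 * C * (p x * (V x * (1 - V x) ^ 2)) := by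
      refine setIntegral_mono_on intH.integrableOn (intG.const_mul _).integrableOn
        measurableSet_Iic fun x hx => ?_
      have h2 : V x ≤ 1 / 2 := (h.strictMono.monotone hx).trans hxh.le
      have h3 := left x h2
      have h4 := (h.V_pos x).le
      have h5 : (1:ℝ) / 4 ≤ (1 - V x) ^ 2 := by nlinarith
      have h6 : C * V x ≤ 4 * C * (V x * (1 - V x) ^ 2) := by
        have h7 : 0 ≤ C * V x := mul_nonneg hC h4
        nlinarith
      calc p x * H x ≤ p x * (4 * C * (V x * (1 - V x) ^ 2)) :=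
            mul_le_mul_of_nonneg_left (h3.trans h6) (hp x).le
        _ = 4 * C * (p x * (V x * (1 - V x) ^ 2)) := by ring
    have h2 : ∫ x in Iic xh, 4 * C * (p x * (V x * (1 - V x) ^ 2)) ≤
        ∫ x, 4 * C * (p x * (V x * (1 - V x) ^ 2)) :=
      setIntegral_le_integral (intG.const_mul _) (Eventually.of_forall fun x =>
        mul_nonneg (by positivity) (hG0 x))
    have h3 : ∫ x, 4 * C * (p x * (V x * (1 - V x) ^ 2)) = 4 * C * E := integral_const_mul _ _
    exact h1.trans (h2.trans h3.le)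
  -- right part
  set K1 := Real.exp e * (5 + 16 / e) * (16 / e) with hK1
  have hK10 : 0 ≤ K1 := by positivity
  set IR := ∫ x in Ioi xh, p x * H x with hIR
  have hy : ∀ y ∈ Icc xa xh, IR ≤ p y * (C * K1 / s) := by
    intro y hy
    have hVy : 1 / 4 ≤ V y := by
      have := h.strictMono.monotone hy.1; linarith
    have hz : ∀ x ∈ Ioi xh, p x * H x ≤
        p y * (C * (Real.exp e * (5 + 16 / e))) * Real.exp (-(e * s / 16) * (x - xh)) := by
      intro x hx
      have hxh' : xh < x := hx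
      have hVx : 1 / 2 ≤ V x := by
        have := h.strictMono.monotone hxh'.le; linarith
      have h1 := h.p_le hp hpx hlam0 hY hVy (hy.2.trans hxh'.le)
      have h2 := right x hVx
      have h3 := h.right_decay hxh hxh'.le
      have h4 : 0 < 1 - V x := by linarith [h.V_lt x]
      have h5 : (1 - V x) ^ e ≤ Real.exp (-(s * (x - xh) / 4)) ^ e :=
        Real.rpow_le_rpow h4.le h3 he.le
      rw [← Real.exp_mul] at h5
      have h6 : s * max x 0 ≤ 4 + s * (x - xh) := by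
        have h7 := h.pos_hi hxh.le
        have h8 : 0 ≤ s * (x - xh) := mul_nonneg hs.le (by linarith)
        rcases le_total x 0 with h9 | h9
        · rw [max_eq_right h9]; linarith [mul_zero s]
        · rw [max_eq_left h9]; linarith
      have hsx : 0 ≤ s * max x 0 := mul_nonneg hs.le (le_max_right _ _)
      have hzz : 0 ≤ s * (x - xh) := mul_nonneg hs.le (by linarith)
      have h7 : H x ≤ C * (5 + s * (x - xh)) * Real.exp (-(s * (x - xh) / 4) * e) := by
        refine h2.trans ?_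
        have h8 : C * (1 + s * max x 0) ≤ C * (5 + s * (x - xh)) :=
          mul_le_mul_of_nonneg_left (by linarith) hC
        exact mul_le_mul h8 h5 (Real.rpow_nonneg h4.le _) (by positivity)
      have h8 : p x ≤ p y * (Real.exp e * Real.exp (e / 8 * (s * (x - xh)))) := by
        refine h1.trans (mul_le_mul_of_nonneg_left ?_ (hp y).le)
        rw [← Real.exp_add]
        apply Real.exp_le_exp.2
        have h9 : s * (xh - y) ≤ 16 / 3 := by
          have : s * (xh - y) ≤ s * (xh - xa) := by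
            apply mul_le_mul_of_nonneg_left _ hs.le; linarith [hy.1]
          linarith
        have h10 : 9 * lam * s * (x - y) = 9 * lam * (s * (xh - y)) + 9 * lam * (s * (x - xh)) := by
          ring
        rw [h10]
        have h11 : 9 * lam * (s * (xh - y)) ≤ 9 * lam * (16 / 3) := by gcongr
        have h12 : 9 * lam * (s * (x - xh)) ≤ e / 8 * (s * (x - xh)) := by
          apply mul_le_mul_of_nonneg_right _ hzz; linarith
        linarith
      have h9 : 0 ≤ C * (5 + s * (x - xh)) * Real.exp (-(s * (x - xh) / 4) * e) := by positivity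
      calc p x * H x ≤ p x * (C * (5 + s * (x - xh)) * Real.exp (-(s * (x - xh) / 4) * e)) :=
            mul_le_mul_of_nonneg_left h7 (hp x).le
        _ ≤ p y * (Real.exp e * Real.exp (e / 8 * (s * (x - xh)))) *
            (C * (5 + s * (x - xh)) * Real.exp (-(s * (x - xh) / 4) * e)) :=
            mul_le_mul_of_nonneg_right h8 h9
        _ = p y * (C * Real.exp e) * ((5 + s * (x - xh)) *
            (Real.exp (e / 8 * (s * (x - xh))) * Real.exp (-(s * (x - xh) / 4) * e))) := by ring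
        _ = p y * (C * Real.exp e) * ((5 + s * (x - xh)) *
            Real.exp (-(e * (s * (x - xh)) / 8))) := by
            rw [← Real.exp_add]; ring_nf
        _ ≤ p y * (C * Real.exp e) * ((5 + 16 / e) *
            Real.exp (-(e * (s * (x - xh)) / 16))) := by
            have := exp_aux he hzz
            have h10 : 0 ≤ p y * (C * Real.exp e) :=
              mul_nonneg (hp y).le (mul_nonneg hC (Real.exp_pos _).le)
            exact mul_le_mul_of_nonneg_left this h10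
        _ = p y * (C * (Real.exp e * (5 + 16 / e))) * Real.exp (-(e * s / 16) * (x - xh)) := by
            ring_nf
    have ha : -(e * s / 16) < 0 := by
      have : 0 < e * s := mul_pos he hs
      linarith
    have hexp : ∀ x : ℝ, Real.exp (-(e * s / 16) * (x - xh)) =
        Real.exp (e * s / 16 * xh) * Real.exp (-(e * s / 16) * x) := by
      intro x; rw [← Real.exp_add]; ring_nf
    have hint : IntegrableOn (fun x => Real.exp (-(e * s / 16) * (x - xh))) (Ioi xh) := by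
      simp only [hexp]
      exact (integrableOn_exp_mul_Ioi ha xh).const_mul _
    have hval : ∫ x in Ioi xh, Real.exp (-(e * s / 16) * (x - xh)) = 16 / (e * s) := by
      simp only [hexp]
      rw [integral_const_mul, integral_exp_mul_Ioi ha]
      have h1 : Real.exp (e * s / 16 * xh) * Real.exp (-(e * s / 16) * xh) = 1 := by
        rw [← Real.exp_add]; simp
      have h2 : Real.exp (e * s / 16 * xh) * (-Real.exp (-(e * s / 16) * xh) / -(e * s / 16)) =
          (Real.exp (e * s / 16 * xh) * Real.exp (-(e * s / 16) * xh)) / (e * s / 16) := by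
        field_simp
      rw [h2, h1]; field_simp
    calc IR ≤ ∫ x in Ioi xh, p y * (C * (Real.exp e * (5 + 16 / e))) *
          Real.exp (-(e * s / 16) * (x - xh)) :=
          setIntegral_mono_on intH.integrableOn (hint.const_mul _) measurableSet_Ioi hz
      _ = p y * (C * (Real.exp e * (5 + 16 / e))) * (16 / (e * s)) := by
          rw [integral_const_mul, hval]
      _ = p y * (C * K1 / s) := by rw [hK1]; field_simp
  have hmid : IR * (xh - xa) ≤ C * K1 / s * (16 * E) := by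
    have h1 : ∫ _ in Icc xa xh, IR ≤ ∫ y in Icc xa xh, p y * (C * K1 / s) := by
      refine setIntegral_mono_on ?_ (intp.mul_const _).integrableOn measurableSet_Icc hy
      exact (continuous_const.continuousOn).integrableOn_Icc
    have h2 : ∫ _ in Icc xa xh, IR = IR * (xh - xa) := by
      rw [setIntegral_const, smul_eq_mul, Measure.real, Real.volume_Icc,
        ENNReal.toReal_ofReal (by linarith)]
      ring
    rw [h2] at h1
    refine h1.trans ?_
    have h3 : ∫ y in Icc xa xh, p y * (C * K1 / s) =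
        C * K1 / s * ∫ y in Icc xa xh, p y := by
      rw [← integral_const_mul]; congr 1; funext y; ring
    rw [h3]
    refine mul_le_mul_of_nonneg_left ?_ (by positivity)
    have h4 : ∫ y in Icc xa xh, p y ≤ ∫ y in Icc xa xh, 16 * (p y * (V y * (1 - V y) ^ 2)) := by
      refine setIntegral_mono_on intp.integrableOn (intG.const_mul _).integrableOn
        measurableSet_Icc fun y hy => ?_
      have h5 : 1 / 4 ≤ V y := by
        have := h.strictMono.monotone hy.1; linarith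
      have h6 : V y ≤ 1 / 2 := by
        have := h.strictMono.monotone hy.2; linarith
      have h7 : (1:ℝ) / 4 ≤ (1 - V y) ^ 2 := by nlinarith
      have h8 : (1:ℝ) / 16 ≤ V y * (1 - V y) ^ 2 := by nlinarith
      have := mul_le_mul_of_nonneg_left h8 (hp y).le
      linarith
    refine h4.trans ?_
    have h5 : ∫ y in Icc xa xh, 16 * (p y * (V y * (1 - V y) ^ 2)) ≤
        ∫ y, 16 * (p y * (V y * (1 - V y) ^ 2)) :=
      setIntegral_le_integral (intG.const_mul _) (Eventually.of_forall fun x =>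
        mul_nonneg (by norm_num) (hG0 x))
    have h6 : ∫ y, 16 * (p y * (V y * (1 - V y) ^ 2)) = 16 * E := integral_const_mul _ _
    exact h5.trans h6.le
  have hR : IR ≤ 64 * CK * K1 * C * E := by
    rcases le_total IR 0 with h0 | h0
    · exact h0.trans (by positivity)
    · have h1 : IR ≤ 4 * CK * (s * (xh - xa)) * IR := by nlinarith
      have h2 : 4 * CK * (s * (xh - xa)) * IR = 4 * CK * s * (IR * (xh - xa)) := by ring
      have h3 : 4 * CK * s * (IR * (xh - xa)) ≤ 4 * CK * s * (C * K1 / s * (16 * E)) :=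
        mul_le_mul_of_nonneg_left hmid (by positivity)
      have h4 : 4 * CK * s * (C * K1 / s * (16 * E)) = 64 * CK * K1 * C * E := by
        field_simp; ring
      linarith
  have hsplit : ∫ x, p x * H x = (∫ x in Iic xh, p x * H x) + IR := by
    have h1 := integral_add_compl (measurableSet_Iic (a := xh)) intH
    rw [compl_Iic] at h1
    exact h1.symm
  rw [hsplit]
  have : C * KA CK e * E = 4 * C * E + 64 * CK * K1 * C * E := by
    unfold KA; rw [← hK1]; ring
  rw [this]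
  exact add_le_add hleft hR

end Fix

end Crest.Agent.R146.Abs_423
end

-- ▼ part R146/CloAbs_42
section

/-!
Row 146, S0205, PT-CMP (helper42): CLOSURE + ABSORB at one fixed time (`Clo_42` + `Abs_423`).
`σ = χ^{-1/2}`.

* `up_abs` : band `P ≤ σ (1+ε) S(V)`, law `Y ≥ σ (ℓ - θ (B + σ u))`, dual inequality
  `S² - S G' + ℓ G ≤ 2 h v (1-v)²`, `G ≤ 0`  ⟹
  `∫ p P² ≤ σ² (2 h + (3 ε CF + θ CG) K) ∫ p V (1-V)²`;
* `lo_abs` : band `P ≥ σ (1-ε) S(V)`, law `Y ≤ σ (ℓ + θ (B + σ w))`, `G' ≤ 2 S`,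
  `2 h v (1-v)² ≤ S² - S G' + ℓ G`  ⟹  `σ² (2 h - (2 ε CF + θ CG) K) ∫ p V (1-V)² ≤ ∫ p P²`.
`K = KA CK e` depends only on the bound `P ≤ CK σ` and on the exponent `0 < e ≤ 1`.
-/

set_option autoImplicit false

namespace Crest.Agent.R146.CloAbs_42

open MeasureTheory Set Filter Topology Crest.Agent.R146.Clo_42 Crest.Agent.R146.Abs_423
  Crest.Agent.R146.Abs_423.Fix

noncomputable section






section abs

variable {σ : ℝ} {V P u p Y : ℝ → ℝ}

theorem int_p (L : Lw V P p Y) : Integrable p := by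
  have := L.mom 0
  simpa using this








end abs

end

end Crest.Agent.R146.CloAbs_42
end

-- ▼ part R146/FixA_423
section

/-!
Row 146, PT-CMP (helper423): the step system at a fixed time is a `Fix` (see `Abs_423`), in the new clock
(`s = χ^{-1/2}`, unconditional) and in the old clock (`s = τ^{-1/2}`, `ν ≤ 1`).

The universal lower slope band `√χ V_x ≥ (3/4) V^{3/2} (1-V)`.
-/

set_option autoImplicit false

open Set Filter Topology MeasureTheory

namespace Crest.Agent.R146.FixA_423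

open MaxP_371 MaxP2_371 MaxPCmp_371 StepDef_791 StepCmp_371 Abs_423
open Crest.Agent.R146.StepStart_483 (ph Phi)

/-- `K v = (3/4) v √v (1-v)` -/
noncomputable def Ku (v : ℝ) : ℝ := 3 / 4 * (v * Real.sqrt v) * (1 - v)
noncomputable def Ku' (v : ℝ) : ℝ := 3 / 4 * Real.sqrt v * (3 / 2 - 5 / 2 * v)
noncomputable def Ku'' (v : ℝ) : ℝ := 3 / 4 * ((3 / 2 - 5 / 2 * v) / (2 * Real.sqrt v) - 5 / 2 * Real.sqrt v)

lemma Ku_deriv {v : ℝ} (hv : 0 < v) : HasDerivAt Ku (Ku' v) v := by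
  have hq : 0 < Real.sqrt v := Real.sqrt_pos.2 hv
  have hs : Real.sqrt v ^ 2 = v := Real.sq_sqrt hv.le
  have h1 : HasDerivAt (fun v => v * Real.sqrt v) (1 * Real.sqrt v + v * (1 / (2 * Real.sqrt v))) v :=
    (hasDerivAt_id v).mul ((hasDerivAt_id v).sqrt hv.ne')
  have h2 := (h1.const_mul (3 / 4)).mul ((hasDerivAt_id v).const_sub 1)
  refine h2.congr_deriv ?_
  unfold Ku'
  have h3 : v * (1 / (2 * Real.sqrt v)) = Real.sqrt v / 2 := by
    field_simp; rw [hs]
  rw [h3]
  simp only [id]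
  ring

lemma Ku'_deriv {v : ℝ} (hv : 0 < v) : HasDerivAt Ku' (Ku'' v) v := by
  have hq : 0 < Real.sqrt v := Real.sqrt_pos.2 hv
  have h1 : HasDerivAt (fun v => 3 / 4 * Real.sqrt v) (3 / 4 * (1 / (2 * Real.sqrt v))) v :=
    ((hasDerivAt_id v).sqrt hv.ne').const_mul _
  have h2 : HasDerivAt (fun v : ℝ => 3 / 2 - 5 / 2 * v) (-(5 / 2 * 1)) v :=
    ((hasDerivAt_id v).const_mul (5 / 2)).const_sub (3 / 2)
  refine (h1.mul h2).congr_deriv ?_
  unfold Ku''
  field_simp
  ring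

lemma Ku_KK {v : ℝ} (hv : 0 < v) :
    Ku v * Ku'' v = 27 / 64 * (v * (1 - v) * (1 - 5 * v)) := by
  have hq : 0 < Real.sqrt v := Real.sqrt_pos.2 hv
  have hs : Real.sqrt v ^ 2 = v := Real.sq_sqrt hv.le
  unfold Ku Ku''
  have h1 : Real.sqrt v * ((3 / 2 - 5 / 2 * v) / (2 * Real.sqrt v) - 5 / 2 * Real.sqrt v) =
      (3 / 2 - 5 / 2 * v) / 2 - 5 / 2 * v := by
    rw [mul_sub]
    have h2 : Real.sqrt v * ((3 / 2 - 5 / 2 * v) / (2 * Real.sqrt v)) = (3 / 2 - 5 / 2 * v) / 2 := by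
      field_simp
    rw [h2]
    have h3 : Real.sqrt v * (5 / 2 * Real.sqrt v) = 5 / 2 * (Real.sqrt v ^ 2) := by ring
    rw [h3, hs]
  calc 3 / 4 * (v * Real.sqrt v) * (1 - v) *
      (3 / 4 * ((3 / 2 - 5 / 2 * v) / (2 * Real.sqrt v) - 5 / 2 * Real.sqrt v))
      = 9 / 16 * v * (1 - v) * (Real.sqrt v * ((3 / 2 - 5 / 2 * v) / (2 * Real.sqrt v) -
        5 / 2 * Real.sqrt v)) := by ring
    _ = 27 / 64 * (v * (1 - v) * (1 - 5 * v)) := by rw [h1]; ring

lemma Ku_K' {v : ℝ} (_hv : 0 < v) : v * (1 - v) * Ku' v = Ku v * (3 / 2 - 5 / 2 * v) := by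
  unfold Ku Ku'; ring

lemma Ku_pos {v : ℝ} (hv : v ∈ Ioo (0:ℝ) 1) : 0 < Ku v := by
  unfold Ku
  have := Real.sqrt_pos.2 hv.1
  have := sub_pos.2 hv.2
  have := hv.1
  positivity

lemma Ku_le {v : ℝ} (hv : v ∈ Ioo (0:ℝ) 1) : Ku v ≤ 1 := by
  unfold Ku
  have h1 : Real.sqrt v ≤ 1 := by
    rw [show (1:ℝ) = Real.sqrt 1 by simp]
    exact Real.sqrt_le_sqrt hv.2.le
  have h2 := Real.sqrt_nonneg v
  have h3 := hv.1
  have h4 := hv.2
  have h5 : v * Real.sqrt v ≤ 1 := by nlinarith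
  have h6 : 0 ≤ v * Real.sqrt v := by positivity
  nlinarith

/-- **universal lower slope band** -/
theorem univ_band {t0 t1 : ℝ} {b : ℝ → ℝ} {u V P Px Pxx : ℝ → ℝ → ℝ} {M : ℝ}
    (h : BSys t0 t1 b u V P Px Pxx M) {g Yb : ℝ → ℝ} {om G : ℝ} (hom : 0 ≤ om)
    (hg : ∀ t ∈ Ico t0 t1, HasDerivWithinAt g ((1 + om * Yb t) / 2 * g t ^ 3) (Ici t) t)
    (hgc : ContinuousOn g (Icc t0 t1)) (hg0 : ∀ t ∈ Icc t0 t1, 0 < g t)
    (hgG : ∀ t ∈ Icc t0 t1, g t ≤ G)
    (hb : ∀ t ∈ Ico t0 t1, b t = Yb t * g t ^ 2) (hY0 : ∀ t ∈ Ico t0 t1, 0 ≤ Yb t)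
    (hY1 : ∀ t ∈ Ico t0 t1, Yb t ≤ 1 + om * Yb t)
    (hterm : ∀ x, g t1 * Ku (V t1 x) ≤ P t1 x) :
    ∀ t ∈ Icc t0 t1, ∀ x, g t * Ku (V t x) ≤ P t x := by
  have hVI : ∀ t ∈ Icc t0 t1, ∀ y, V t y ∈ Ioo (0:ℝ) 1 :=
    fun t ht y => ⟨h.V_pos t ht y, h.V_lt t ht y⟩
  have hKc : ContinuousOn Ku (Ioo 0 1) := fun v hv => (Ku_deriv hv.1).continuousAt.continuousWithinAt
  have key := backward_strip (t0 := t0) (t1 := t1) (w := fun t x => g t * Ku (V t x) - P t x)
    ?_ (A := 1) (B := M * M) (C := G ^ 2 + M) (M := G) ?_ ?_ ?_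
  · intro t ht x
    have := key t ht x
    linarith
  · refine ContinuousOn.sub (ContinuousOn.mul ?_ ?_) h.cP
    · exact hgc.comp continuous_fst.continuousOn (fun p hp => hp.1)
    · exact hKc.comp h.cV (fun p hp => hVI p.1 hp.1 p.2)
  · intro t ht x
    have hG := (hg0 t ht).le.trans (hgG t ht)
    have h1 : g t * Ku (V t x) ≤ G * 1 :=
      mul_le_mul (hgG t ht) (Ku_le (hVI t ht x)) (Ku_pos (hVI t ht x)).le hG
    have h3 := h.P_nonneg t ht x
    have h4 : 0 ≤ |x| := abs_nonneg x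
    nlinarith
  · intro x; have := hterm x; linarith
  · intro t ht x hpos
    have htI : t ∈ Icc t0 t1 := ⟨ht.1, ht.2.le⟩
    set v := V t x with hv
    have hvI : v ∈ Ioo (0:ℝ) 1 := hVI t htI x
    have hgt := hg0 t htI
    have hG := hgt.le.trans (hgG t htI)
    obtain ⟨d1, d2, d3⟩ := h.slope_data ht x (hg t ht) (K := Ku) (K' := Ku')
      (fun v hv => Ku_deriv hv.1) (HasSide.of_hasDerivAt (Ku'_deriv hvI.1))
    have e1 : (fun s => g s * Ku (V s x) - P s x) = fun s => -(P s x - g s * Ku (V s x)) := by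
      funext s; ring
    have e2 : (fun y => g t * Ku (V t y) - P t y) = fun y => -(P t y - g t * Ku (V t y)) := by
      funext s; ring
    refine ⟨_, _, 1/2, b t * u t x,
      g t * Ku'' v * (P t x + g t * Ku v) / 2 - b t * (2 - 3 * v),
      fun y => -(Px t y - g t * (Ku' (V t y) * P t y)), by rw [e1]; exact d1.neg,
      by rw [e2]; filter_upwards [d2] with y hy; exact hy.neg, MaxPCmp2_371.HasSide.neg d3,
      by norm_num, ?_, h.drift_le htI x, ?_, ?_⟩
    · nlinarith [sq_nonneg x]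
    · have h1 := h.b_nonneg t htI
      have h5 := h.b_le t htI
      have h8 : -(b t * (2 - 3 * v)) ≤ b t := by nlinarith [hvI.1, hvI.2]
      have hP0 := h.P_nonneg t htI x
      have h6 : g t * Ku'' v * (P t x + g t * Ku v) / 2 ≤ G ^ 2 := by
        rcases le_total (Ku'' v) 0 with h7 | h7
        · have : g t * Ku'' v * (P t x + g t * Ku v) ≤ 0 :=
            mul_nonpos_of_nonpos_of_nonneg (mul_nonpos_of_nonneg_of_nonpos hgt.le h7)
              (add_nonneg hP0 (mul_nonneg hgt.le (Ku_pos hvI).le))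
          nlinarith [sq_nonneg G]
        · have h9 : P t x + g t * Ku v ≤ 2 * (g t * Ku v) := by linarith
          have h10 : g t * Ku'' v * (P t x + g t * Ku v) ≤
              g t * Ku'' v * (2 * (g t * Ku v)) :=
            mul_le_mul_of_nonneg_left h9 (mul_nonneg hgt.le h7)
          have h11 : g t * Ku'' v * (2 * (g t * Ku v)) = 2 * g t ^ 2 * (Ku v * Ku'' v) := by ring
          rw [h11, Ku_KK hvI.1] at h10
          have h12 : 27 / 64 * (v * (1 - v) * (1 - 5 * v)) ≤ 1 := by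
            have h13 : v * (1 - v) * (1 - 5 * v) ≤ 1 := by
              have h14 : v * (1 - v) ≤ 1 / 4 := by nlinarith [sq_nonneg (v - 1 / 2)]
              have h15 : 0 ≤ v * (1 - v) := mul_nonneg hvI.1.le (by linarith [hvI.2])
              have h16 : 1 - 5 * v ≤ 1 := by linarith [hvI.1]
              nlinarith
            linarith
          have h13 : 2 * g t ^ 2 * (27 / 64 * (v * (1 - v) * (1 - 5 * v))) ≤ 2 * g t ^ 2 * 1 :=
            mul_le_mul_of_nonneg_left h12 (by positivity)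
          have h14 : g t ^ 2 ≤ G ^ 2 := pow_le_pow_left₀ hgt.le (hgG t htI) 2
          linarith
      linarith
    · have hb' := hb t ht
      have h1 := hY0 t ht
      have h2 := hY1 t ht
      set Y := Yb t with hYdef
      have hK0 := Ku_pos hvI
      -- the stationary expression
      have hst : 0 ≤ (1 + om * Y) / 2 * g t ^ 3 * Ku v + g t ^ 3 * (Ku v ^ 2 * Ku'' v) / 2
          + b t * g t * (v * (1 - v) * Ku' v - (2 - 3 * v) * Ku v) := by
        rw [hb', Ku_K' hvI.1]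
        have e : (1 + om * Y) / 2 * g t ^ 3 * Ku v + g t ^ 3 * (Ku v ^ 2 * Ku'' v) / 2 +
            Y * g t ^ 2 * g t * (Ku v * (3 / 2 - 5 / 2 * v) - (2 - 3 * v) * Ku v) =
            g t ^ 3 * Ku v * ((1 + om * Y) / 2 + (Ku v * Ku'' v) / 2 +
              Y * (-1 / 2 + v / 2)) := by ring
        rw [e, Ku_KK hvI.1]
        refine mul_nonneg (mul_nonneg (pow_nonneg hgt.le 3) hK0.le) ?_
        have hv0 := hvI.1
        have hv1 := hvI.2
        have h4 : v / 2 ≤ (1 + om * Y - Y) / 2 + Y * v / 2 := by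
          have h5 : 0 ≤ (1 + om * Y - Y) * (1 - v) + om * Y * v :=
            add_nonneg (mul_nonneg (by linarith) (by linarith))
              (mul_nonneg (mul_nonneg hom h1) hv0.le)
          nlinarith
        have h6 : -(v / 2) ≤ 27 / 64 * (v * (1 - v) * (1 - 5 * v)) / 2 := by
          have h7 : (1 - v) * (5 * v - 1) ≤ 1 := by nlinarith [sq_nonneg (v - 3 / 5)]
          have h8 : v * ((1 - v) * (5 * v - 1)) ≤ v * 1 := mul_le_mul_of_nonneg_left h7 hv0.le
          nlinarith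
        linarith
      simp only [← hv]
      nlinarith

/-! ### the Gaussian start -/

/-- Mills: `(3/4)(1 - Φ(z)) ≤ φ(z)` for `z ≥ 0`. -/
lemma mills {z : ℝ} (hz : 0 ≤ z) : 3 / 4 * (1 - Phi z) ≤ ph z := by
  have hd : ∀ y, HasDerivAt (fun y => ph y - 3 / 4 * (1 - Phi y)) (-y * ph y - 3 / 4 * (0 - ph y)) y :=
    fun y => (StepStart_483.ph_deriv y).sub
      (((hasDerivAt_const y (1:ℝ)).sub (StepStart_483.Phi_deriv y)).const_mul (3 / 4))
  have hc : Continuous (fun y => ph y - 3 / 4 * (1 - Phi y)) :=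
    continuous_iff_continuousAt.2 fun y => (hd y).continuousAt
  have hd' : ∀ y, deriv (fun y => ph y - 3 / 4 * (1 - Phi y)) y = (3 / 4 - y) * ph y := by
    intro y; rw [(hd y).deriv]; ring
  rcases le_total z (3 / 4) with h | h
  · have hmono : MonotoneOn (fun y => ph y - 3 / 4 * (1 - Phi y)) (Icc 0 (3 / 4)) := by
      apply monotoneOn_of_deriv_nonneg (convex_Icc 0 (3 / 4)) hc.continuousOn
      · intro y _; exact (hd y).differentiableAt.differentiableWithinAt
      · intro y hy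
        rw [interior_Icc] at hy
        rw [hd']
        exact mul_nonneg (by linarith [hy.2]) (StepStart_483.ph_pos y).le
    have h1 := hmono (left_mem_Icc.2 (by norm_num)) ⟨hz, h⟩ hz
    simp only at h1
    have hP0 : Phi 0 = 1 / 2 := by
      have := StepStart_483.Phi_neg 0
      rw [neg_zero] at this
      linarith
    have hph0 : 3 / 8 ≤ ph 0 := by
      rw [StepStart_483.ph_eq]
      simp only [ne_eq, OfNat.ofNat_ne_zero, not_false_eq_true, zero_pow, neg_zero, zero_div,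
        Real.exp_zero, mul_one]
      rw [le_inv_comm₀ (by norm_num) (Real.sqrt_pos.2 (by positivity))]
      rw [show ((3:ℝ) / 8)⁻¹ = 8 / 3 by norm_num]
      rw [show (8:ℝ) / 3 = Real.sqrt ((8 / 3) ^ 2) by rw [Real.sqrt_sq (by norm_num)]]
      apply Real.sqrt_le_sqrt
      have := Real.pi_lt_d2
      norm_num
      linarith
    rw [hP0] at h1
    linarith
  · have hanti : AntitoneOn (fun y => ph y - 3 / 4 * (1 - Phi y)) (Ici (3 / 4)) := by
      apply antitoneOn_of_deriv_nonpos (convex_Ici (3 / 4)) hc.continuousOn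
      · intro y _; exact (hd y).differentiableAt.differentiableWithinAt
      · intro y hy
        rw [interior_Ici] at hy
        rw [hd']
        have hy' : 3 / 4 < y := hy
        exact mul_nonpos_of_nonpos_of_nonneg (by linarith) (StepStart_483.ph_pos y).le
    have hlim : Tendsto (fun y => ph y - 3 / 4 * (1 - Phi y)) atTop (𝓝 0) := by
      have h1 : Tendsto (fun y => ph (-y) - 3 / 4 * Phi (-y)) atTop (𝓝 (0 - 3 / 4 * 0)) :=
        (StepStart_483.ph_tendsto_atBot.comp tendsto_neg_atTop_atBot).sub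
          ((StepStart_483.Phi_tendsto_atBot.comp tendsto_neg_atTop_atBot).const_mul _)
      have h2 : (fun y => ph y - 3 / 4 * (1 - Phi y)) = fun y => ph (-y) - 3 / 4 * Phi (-y) := by
        funext y; rw [StepStart_483.ph_neg, StepStart_483.Phi_neg]
      rw [h2]; simpa using h1
    have h1 : 0 ≤ ph z - 3 / 4 * (1 - Phi z) := by
      refine le_of_tendsto hlim ?_
      filter_upwards [eventually_ge_atTop z] with y hy
      exact hanti (mem_Ici.2 h) (mem_Ici.2 (h.trans hy)) hy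
    linarith

/-- `K(Φ(z)) ≤ φ(z)` -/
lemma Ku_Phi (z : ℝ) : Ku (Phi z) ≤ ph z := by
  have hP : Phi z ∈ Ioo (0:ℝ) 1 := ⟨StepStart_483.Phi_pos z, StepStart_483.Phi_lt_one z⟩
  have hq1 : Real.sqrt (Phi z) ≤ 1 := by
    rw [show (1:ℝ) = Real.sqrt 1 by simp]
    exact Real.sqrt_le_sqrt hP.2.le
  have hq0 := Real.sqrt_nonneg (Phi z)
  have h1 : Phi z * Real.sqrt (Phi z) ≤ 1 := by nlinarith [hP.1, hP.2]
  have h2 : 0 ≤ Phi z * Real.sqrt (Phi z) := mul_nonneg hP.1.le hq0
  have h3 : 0 < 1 - Phi z := by linarith [hP.2]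
  rcases le_total 0 z with h | h
  · refine le_trans ?_ (mills h)
    unfold Ku
    nlinarith
  · have h4 := mills (z := -z) (by linarith)
    rw [StepStart_483.Phi_neg, StepStart_483.ph_neg] at h4
    refine le_trans ?_ h4
    unfold Ku
    have h5 : Phi z * Real.sqrt (Phi z) ≤ Phi z := by nlinarith [hP.1]
    nlinarith

/-! ### decay of the start profile -/

open Crest.Agent.R146.Pos_371 (sg sg_pos sg_lower tendsto_sg_bot)

lemma sqrt_le_half (z : ℝ) : Real.sqrt (1 + z ^ 2) ≤ 1 + z ^ 2 / 2 := by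
  have h : 1 + z ^ 2 ≤ (1 + z ^ 2 / 2) ^ 2 := by nlinarith [sq_nonneg (z ^ 2)]
  calc Real.sqrt (1 + z ^ 2) ≤ Real.sqrt ((1 + z ^ 2 / 2) ^ 2) := Real.sqrt_le_sqrt h
    _ = 1 + z ^ 2 / 2 := Real.sqrt_sq (by positivity)

lemma ph_sqrt_le (z : ℝ) : ph z * Real.sqrt (1 + z ^ 2) ≤ 1 := by
  have h1 : ph z ≤ Real.exp (-z ^ 2 / 2) := by
    rw [StepStart_483.ph_eq]
    have h2 : (Real.sqrt (2 * Real.pi))⁻¹ ≤ 1 := by
      apply inv_le_one_of_one_le₀
      rw [show (1:ℝ) = Real.sqrt 1 by simp]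
      apply Real.sqrt_le_sqrt
      have := Real.pi_gt_three
      linarith
    have := Real.exp_pos (-z ^ 2 / 2)
    nlinarith
  have h2 : 1 + z ^ 2 / 2 ≤ Real.exp (z ^ 2 / 2) := by
    have := Real.add_one_le_exp (z ^ 2 / 2); linarith
  have h3 : Real.exp (-z ^ 2 / 2) * Real.exp (z ^ 2 / 2) = 1 := by
    rw [← Real.exp_add, show -z ^ 2 / 2 + z ^ 2 / 2 = 0 by ring, Real.exp_zero]
  have h4 := Real.sqrt_nonneg (1 + z ^ 2)
  calc ph z * Real.sqrt (1 + z ^ 2) ≤ Real.exp (-z ^ 2 / 2) * (1 + z ^ 2 / 2) :=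
        mul_le_mul h1 (sqrt_le_half z) h4 (Real.exp_pos _).le
    _ ≤ Real.exp (-z ^ 2 / 2) * Real.exp (z ^ 2 / 2) := by gcongr
    _ = 1 := h3

/-- `U0 z ≤ 2 sg(-z)` -/
lemma U0_le_sg (z : ℝ) : U0 z ≤ 2 * sg (-z) := by
  have hpos : ∀ y : ℝ, 0 ≤ y → U0 y ≤ ph y := by
    intro y hy
    rw [StepStart_483.U0_eq]
    have := mul_nonneg hy (sub_nonneg.2 (StepStart_483.Phi_le_one y))
    linarith
  have hq : 0 < Real.sqrt (1 + z ^ 2) := Real.sqrt_pos.2 (by positivity)
  rcases le_total 0 z with h | h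
  · have h1 := sg_lower (-z)
    rw [neg_sq] at h1
    have h2 := ph_sqrt_le z
    have h3 : ph z * Real.sqrt (1 + z ^ 2) ≤ 2 * sg (-z) * Real.sqrt (1 + z ^ 2) := by linarith
    exact (hpos z h).trans (le_of_mul_le_mul_right h3 hq)
  · have h1 := StepStart_483.add_U0 z
    have h2 : U0 (-z) ≤ 1 := by
      refine (hpos (-z) (by linarith)).trans (StepStart_483.ph_le_one _)
    have h3 : (1:ℝ) ≤ Real.sqrt (1 + z ^ 2) := Real.one_le_sqrt.2 (by nlinarith [sq_nonneg z])
    have h4 : sg (-z) = -z + Real.sqrt (1 + z ^ 2) := by unfold sg; rw [neg_sq]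
    rw [h4]; linarith

lemma scale_sg {r : ℝ} (hr : 0 < r) (hr1 : r ≤ 1) (x : ℝ) : r * sg (x / r) ≤ sg x := by
  unfold sg
  have h1 : r * (x / r + Real.sqrt (1 + (x / r) ^ 2)) = x + r * Real.sqrt (1 + (x / r) ^ 2) := by
    field_simp
  have h2 : r * Real.sqrt (1 + (x / r) ^ 2) ≤ Real.sqrt (1 + x ^ 2) := by
    apply Real.le_sqrt_of_sq_le
    rw [mul_pow, Real.sq_sqrt (by positivity)]
    have h3 : r ^ 2 * (1 + (x / r) ^ 2) = r ^ 2 + x ^ 2 := by field_simp
    rw [h3]
    nlinarith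
  linarith

variable (A : SD)

lemma u_T_le (x : ℝ) : A.u A.T x ≤ 2 * sg (-x) := by
  have hr : 0 < Real.sqrt A.dl := Real.sqrt_pos.2 A.dl_pos
  have hr1 : Real.sqrt A.dl ≤ 1 := by
    rw [show (1:ℝ) = Real.sqrt 1 by simp]
    apply Real.sqrt_le_sqrt
    unfold SD.dl; linarith [A.hT0]
  rw [StepStart_483.u_T]
  have h1 := U0_le_sg (x / Real.sqrt A.dl)
  have h2 := scale_sg hr hr1 (-x)
  rw [neg_div] at h2
  calc Real.sqrt A.dl * U0 (x / Real.sqrt A.dl) ≤
        Real.sqrt A.dl * (2 * sg (-(x / Real.sqrt A.dl))) := by gcongr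
    _ = 2 * (Real.sqrt A.dl * sg (-(x / Real.sqrt A.dl))) := by ring
    _ ≤ 2 * sg (-x) := by gcongr

lemma w_T_le (x : ℝ) : x + A.u A.T x ≤ 2 * sg x := by
  have hr : 0 < Real.sqrt A.dl := Real.sqrt_pos.2 A.dl_pos
  have hr1 : Real.sqrt A.dl ≤ 1 := by
    rw [show (1:ℝ) = Real.sqrt 1 by simp]
    apply Real.sqrt_le_sqrt
    unfold SD.dl; linarith [A.hT0]
  rw [StepStart_483.u_T]
  have h0 := StepStart_483.add_U0 (x / Real.sqrt A.dl)
  have h1 := U0_le_sg (-(x / Real.sqrt A.dl))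
  rw [neg_neg] at h1
  have h2 := scale_sg hr hr1 x
  have h3 : x + Real.sqrt A.dl * U0 (x / Real.sqrt A.dl) =
      Real.sqrt A.dl * U0 (-(x / Real.sqrt A.dl)) := by
    rw [← h0, mul_add]; field_simp
  rw [h3]
  calc Real.sqrt A.dl * U0 (-(x / Real.sqrt A.dl)) ≤
        Real.sqrt A.dl * (2 * sg (x / Real.sqrt A.dl)) := by gcongr
    _ = 2 * (Real.sqrt A.dl * sg (x / Real.sqrt A.dl)) := by ring
    _ ≤ 2 * sg x := by gcongr

lemma u_top {t : ℝ} (ht : t ∈ Icc 0 A.T) : Tendsto (A.u t) atTop (𝓝 0) := by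
  have hB := Back_847.back A
  obtain ⟨M, h⟩ := hB.bsys
  have h1 := Pos_371.u_le_sg h (C := 2) (by norm_num) (u_T_le A) t ht
  have h2 : Tendsto (fun x : ℝ => 2 * Real.exp ((1 + M) * (A.T - t)) * sg (-x)) atTop
      (𝓝 (2 * Real.exp ((1 + M) * (A.T - t)) * 0)) :=
    (tendsto_sg_bot.comp tendsto_neg_atTop_atBot).const_mul _
  rw [mul_zero] at h2
  exact tendsto_of_tendsto_of_tendsto_of_le_of_le tendsto_const_nhds h2
    (fun x => (hB.u_pos t ht x).le) h1

lemma w_bot {t : ℝ} (ht : t ∈ Icc 0 A.T) : Tendsto (fun x => x + A.u t x) atBot (𝓝 0) := by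
  have hB := Back_847.back A
  obtain ⟨M, h⟩ := hB.bsys
  have h1 := Pos_371.w_le h (C := 2) (by norm_num) (w_T_le A) t ht
  have h2 : Tendsto (fun x : ℝ => 2 * Real.exp ((1 + 2 * M ^ 2) * (A.T - t)) * sg x) atBot
      (𝓝 (2 * Real.exp ((1 + 2 * M ^ 2) * (A.T - t)) * 0)) :=
    tendsto_sg_bot.const_mul _
  rw [mul_zero] at h2
  exact tendsto_of_tendsto_of_tendsto_of_le_of_le tendsto_const_nhds h2
    (fun x => (hB.w_pos t ht x).le) h1

/-- `Fix` from a band -/
theorem fix_of {t : ℝ} (ht : t ∈ Icc 0 A.T) {s : ℝ} (hs : 0 < s)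
    (band : ∀ x, s * Ku (A.V t x) ≤ A.P t x) : Fix s (A.V t) (A.P t) (A.u t) := by
  have hB := Back_847.back A
  obtain ⟨M, h⟩ := hB.bsys
  exact
  { s_pos := hs
    hu := hB.u_x t ht
    hV := hB.V_x t ht
    cP := continuous_iff_continuousAt.2 fun x => (hB.P_x t ht x).continuousAt
    P_pos := hB.P_pos t ht
    V_pos := h.V_pos t ht
    V_lt := h.V_lt t ht
    u_pos := hB.u_pos t ht
    w_pos := hB.w_pos t ht
    u_top := u_top A ht
    w_bot := w_bot A ht
    lo := fun x => by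
      have := band x
      unfold Ku at this
      have e : s * (3 / 4) * (A.V t x * Real.sqrt (A.V t x)) * (1 - A.V t x) =
        s * (3 / 4 * (A.V t x * Real.sqrt (A.V t x)) * (1 - A.V t x)) := by ring
      rw [e]; exact this }

lemma term_band (x : ℝ) : (Real.sqrt A.dl)⁻¹ * Ku (A.V A.T x) ≤ A.P A.T x := by
  rw [StepStart_483.V_T_fun, StepStart_483.P_T]
  have h1 := Ku_Phi (x / Real.sqrt A.dl)
  have hr : 0 < Real.sqrt A.dl := Real.sqrt_pos.2 A.dl_pos
  rw [div_eq_inv_mul]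
  exact mul_le_mul_of_nonneg_left h1 (inv_pos.2 hr).le

lemma inv_sqrt_deriv {χ : ℝ → ℝ} {c t : ℝ} (hχ : 0 < χ t)
    (h : HasDerivWithinAt χ (-c) (Ici t) t) :
    HasDerivWithinAt (fun s => (Real.sqrt (χ s))⁻¹) (c / 2 * ((Real.sqrt (χ t))⁻¹) ^ 3) (Ici t) t := by
  have hq : 0 < Real.sqrt (χ t) := Real.sqrt_pos.2 hχ
  have h1 := (h.sqrt hχ.ne').inv hq.ne'
  refine h1.congr_deriv ?_
  field_simp

/-- **universal band, new clock** (unconditional) -/
theorem band_chi {t : ℝ} (ht : t ∈ Icc 0 A.T) (x : ℝ) :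
    (Real.sqrt (A.chi t))⁻¹ * Ku (A.V t x) ≤ A.P t x := by
  have hB := Back_847.back A
  have hC := StepClk_900.clock A
  obtain ⟨M, h⟩ := hB.bsys
  have hlt : ∀ t ∈ Icc 0 A.T, t < 1 := fun t ht => ht.2.trans_lt A.hT1
  have hcont : ContinuousOn (fun t => (Real.sqrt (A.chi t))⁻¹) (Icc 0 A.T) := by
    refine ContinuousOn.inv₀ ?_ ?_
    · exact (Real.continuous_sqrt.comp (StepClk_900.chi_cont A)).continuousOn
    · intro t ht; exact (Real.sqrt_pos.2 (hC.chi_pos t (hlt t ht))).ne'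
  refine univ_band h (g := fun t => (Real.sqrt (A.chi t))⁻¹) (Yb := fun t => A.m t * A.K0 t)
    (om := 1) (G := (Real.sqrt A.dl)⁻¹) zero_le_one ?_ hcont ?_ ?_ ?_ ?_ ?_ ?_ t ht x
  · intro t ht
    have := inv_sqrt_deriv (hC.chi_pos t (ht.2.trans A.hT1)) (hC.chi_t t ht)
    refine this.congr_deriv ?_
    ring
  · intro t ht; exact inv_pos.2 (Real.sqrt_pos.2 (hC.chi_pos t (hlt t ht)))
  · intro t ht
    apply inv_anti₀ (Real.sqrt_pos.2 A.dl_pos)
    apply Real.sqrt_le_sqrt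
    rw [← hC.chi_T]
    exact StepClk_900.chi_anti A ht.2
  · intro t ht
    have h1 := hC.chi_pos t (ht.2.trans A.hT1)
    have h2 := A.D_pos t
    have h3 := hC.K0_pos t (ht.2.trans A.hT1)
    have h4 : ((Real.sqrt (A.chi t))⁻¹) ^ 2 = (A.chi t)⁻¹ := by
      rw [inv_pow, Real.sq_sqrt h1.le]
    rw [h4]
    unfold SD.b SD.chi
    field_simp
  · intro t ht
    exact mul_nonneg (A.m_nonneg t) (hC.K0_pos t (ht.2.trans A.hT1)).le
  · intro t ht; linarith
  · intro x
    simp only [hC.chi_T]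
    exact term_band A x

/-- **universal band, old clock** (`ν = (1-t) b ≤ 1`) -/
theorem band_tau (hν : ∀ t ∈ Ico 0 A.T, (1 - t) * A.b t ≤ 1) {t : ℝ} (ht : t ∈ Icc 0 A.T) (x : ℝ) :
    (Real.sqrt (1 - t))⁻¹ * Ku (A.V t x) ≤ A.P t x := by
  have hB := Back_847.back A
  obtain ⟨M, h⟩ := hB.bsys
  have hlt : ∀ t ∈ Icc 0 A.T, 0 < 1 - t := fun t ht => by linarith [ht.2, A.hT1]
  have hcont : ContinuousOn (fun t : ℝ => (Real.sqrt (1 - t))⁻¹) (Icc 0 A.T) := by
    refine ContinuousOn.inv₀ ?_ ?_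
    · exact (Real.continuous_sqrt.comp (continuous_const.sub continuous_id)).continuousOn
    · intro t ht; exact (Real.sqrt_pos.2 (hlt t ht)).ne'
  refine univ_band h (g := fun t => (Real.sqrt (1 - t))⁻¹) (Yb := fun t => (1 - t) * A.b t)
    (om := 0) (G := (Real.sqrt A.dl)⁻¹) le_rfl ?_ hcont ?_ ?_ ?_ ?_ ?_ ?_ t ht x
  · intro t ht
    have h1 : HasDerivWithinAt (fun s : ℝ => 1 - s) (-1) (Ici t) t := by
      simpa using ((hasDerivAt_id t).const_sub 1).hasDerivWithinAt
    have := inv_sqrt_deriv (hlt t ⟨ht.1, ht.2.le⟩) h1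
    refine this.congr_deriv ?_
    ring
  · intro t ht; exact inv_pos.2 (Real.sqrt_pos.2 (hlt t ht))
  · intro t ht
    apply inv_anti₀ (Real.sqrt_pos.2 A.dl_pos)
    apply Real.sqrt_le_sqrt
    unfold SD.dl
    linarith [ht.2]
  · intro t ht
    have h1 := hlt t ⟨ht.1, ht.2.le⟩
    have h4 : ((Real.sqrt (1 - t))⁻¹) ^ 2 = (1 - t)⁻¹ := by
      rw [inv_pow, Real.sq_sqrt h1.le]
    rw [h4]
    field_simp
  · intro t ht
    exact mul_nonneg (hlt t ⟨ht.1, ht.2.le⟩).le (A.b_nonneg t)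
  · intro t ht; have := hν t ht; linarith
  · intro x
    have : (Real.sqrt (1 - A.T))⁻¹ = (Real.sqrt A.dl)⁻¹ := rfl
    simp only [this]
    exact term_band A x

/-- **the step system in the new clock is a `Fix`** -/
theorem fix_chi {t : ℝ} (ht : t ∈ Icc 0 A.T) :
    Fix (Real.sqrt (A.chi t))⁻¹ (A.V t) (A.P t) (A.u t) :=
  fix_of A ht (inv_pos.2 (Real.sqrt_pos.2 ((StepClk_900.clock A).chi_pos t
    (ht.2.trans_lt A.hT1)))) (band_chi A ht)

/-- the step system in the old clock is a `Fix` (if `ν ≤ 1` on `[0,T)`) -/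
theorem fix_tau (hν : ∀ t ∈ Ico 0 A.T, (1 - t) * A.b t ≤ 1) {t : ℝ} (ht : t ∈ Icc 0 A.T) :
    Fix (Real.sqrt (1 - t))⁻¹ (A.V t) (A.P t) (A.u t) :=
  fix_of A ht (inv_pos.2 (Real.sqrt_pos.2 (by linarith [ht.2, A.hT1]))) (band_tau A hν ht)

end Crest.Agent.R146.FixA_423
end

-- ▼ part R146/RefClo_42
section

/-!
Row 146, S0205, PT-CMP (helper42): THE CLOSURE OF A WINDOW STEP `PtRef_846.WS` (`ω = 1`).

* `One`            : the data at one time (admissible level/position/slope, law band with transient `θ`);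
* `one_le, le_one` : closure inequality at one time, the transient absorbed;
* `cup_of, clo_of` : `Late One` ⟹ `PtLim_847.CUp true Q thi`, `PtLim_847.CLo true Q tlo`;
* `one_of`         : `One` from a slope band and a law band (positions `N₋ ≤ σ w ≤ N₊`, `σ u ≤ Ub`);
* `clos`           : `PtRefIf_847.CLOS`.
-/

set_option autoImplicit false

namespace Crest.Agent.R146.RefClo_42

open MeasureTheory Set Filter Topology
open Crest.Agent.R146.Clo_42 Crest.Agent.R146.CloAbs_42 Crest.Agent.R146.Abs_423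
  Crest.Agent.R146.Abs_423.Fix Crest.Agent.R146.PtRef_846

noncomputable section

/-- the data of a window step at one time, `σ = χ^{-1/2}` -/
structure One (e0 B θ : ℝ) (D : WData) (σ : ℝ) (V P u Y : ℝ → ℝ) : Prop where
  adm : ∀ x, AdmR e0 D (V x) (σ * (x + u x)) (P x / σ)
  ule : ∀ x, σ * u x ≤ (1 + e0) * D.Ub (V x)
  lo0 : ∀ x, -(σ * (θ * (B + σ * u x))) ≤ Y x
  lo : ∀ x, σ * (D.Fm (σ * (x + u x)) - θ * (B + σ * u x)) ≤ Y x
  up : ∀ x, Y x ≤ σ * (D.Fp (σ * (x + u x)) + θ * (B + σ * (x + u x)))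

/-- clipping -/
theorem clip {L f g a b : ℝ} (hfg : f ≤ g) (hg : 0 ≤ g) (ha : 0 ≤ a) (hb : 0 ≤ b)
    (h0 : -a ≤ L) (h1 : f - a ≤ L) (h2 : L ≤ g + b) :
    ∃ L', 0 ≤ L' ∧ f ≤ L' ∧ L' ≤ g ∧ |L - L'| ≤ a + b := by
  refine ⟨max (max 0 f) (min L g), ?_, ?_, ?_, ?_⟩
  · exact (le_max_left _ _).trans (le_max_left _ _)
  · exact (le_max_right _ _).trans (le_max_left _ _)
  · exact max_le (max_le hg hfg) (min_le_right _ _)
  · rw [abs_le]
    constructor
    · rcases max_cases (max 0 f) (min L g) with ⟨e, -⟩ | ⟨e, -⟩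
      · rw [e]
        rcases max_cases 0 f with ⟨e', -⟩ | ⟨e', -⟩ <;> rw [e'] <;> linarith
      · rw [e]
        have := min_le_left L g
        linarith
    · have h3 : min L g ≤ max (max 0 f) (min L g) := le_max_right _ _
      rcases min_cases L g with ⟨e, -⟩ | ⟨e, -⟩
      · rw [e] at h3 ⊢
        linarith
      · rw [e] at h3 ⊢
        linarith

section one

variable {lo hi tlo thi e0 κ M : ℝ} {D : WData} {σ B θ : ℝ} {V P u p Y : ℝ → ℝ}

theorem su_le (h : Fix σ V P u) (x : ℝ) : σ * u x ≤ 8 + σ * max (-x) 0 := by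
  have hs := h.s_pos
  have h0 : 0 ≤ σ * max (-x) 0 := mul_nonneg hs.le (le_max_right _ _)
  rcases le_total (1 / 4) (V x) with h1 | h1
  · linarith [h.u_le h1]
  · have h3 := h.w_le (show V x ≤ 1 / 2 by linarith)
    have h5 : σ * (-x) ≤ σ * max (-x) 0 := mul_le_mul_of_nonneg_left (le_max_left _ _) hs.le
    nlinarith

/-- lower law bound for the absorb lemma -/
theorem Y_ge (h : Fix σ V P u) (hθ : 0 ≤ θ) (hB : 0 ≤ B)
    (lo0 : ∀ x, -(σ * (θ * (B + σ * u x))) ≤ Y x) (x : ℝ) :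
    -(θ * (B + 8) * σ * (1 + σ * max (-x) 0)) ≤ Y x := by
  refine le_trans ?_ (lo0 x)
  have hs := h.s_pos
  have h0 : 0 ≤ σ * max (-x) 0 := mul_nonneg hs.le (le_max_right _ _)
  have h1 : B + σ * u x ≤ (B + 8) * (1 + σ * max (-x) 0) := by
    have := su_le h x
    nlinarith
  have h2 : σ * θ * (B + σ * u x) ≤ σ * θ * ((B + 8) * (1 + σ * max (-x) 0)) :=
    mul_le_mul_of_nonneg_left h1 (mul_nonneg hs.le hθ)
  nlinarith

theorem Np_pos (hO : One e0 B θ D σ V P u Y) (he0 : 0 < e0) (x : ℝ) : 0 < D.Np (V x) := by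
  have h1 := (hO.adm x).η_pos.trans_le (hO.adm x).η_hi
  exact (pos_iff_pos_of_mul_pos h1).1 (by linarith)

theorem Ub_pos (h : Fix σ V P u) (hO : One e0 B θ D σ V P u Y) (he0 : 0 < e0) (x : ℝ) :
    0 < D.Ub (V x) := by
  have h1 := (mul_pos h.s_pos (h.u_pos x)).trans_le (hO.ule x)
  exact (pos_iff_pos_of_mul_pos h1).1 (by linarith)

/-- the error weight -/
def Er (B σ : ℝ) (V u : ℝ → ℝ) (G : ℝ → ℝ) (x : ℝ) : ℝ :=
  (2 * B + σ * (x + u x) + σ * u x) * |G (V x)|

theorem Er_le (h : Fix σ V P u) (hO : One e0 B θ D σ V P u Y) (he0 : 0 < e0) (he1 : e0 ≤ 1)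
    (hB : 0 ≤ B) (G : ℝ → ℝ) (x : ℝ) :
    Er B σ V u G x ≤ (2 * B + 2) * (|G (V x)| * (1 + D.Np (V x) + D.Ub (V x))) := by
  have h1 := Np_pos hO he0 x
  have h2 := Ub_pos h hO he0 x
  have h3 := (hO.adm x).η_hi
  have h4 := hO.ule x
  have h5 : 2 * B + σ * (x + u x) + σ * u x ≤
      (2 * B + 2) * (1 + D.Np (V x) + D.Ub (V x)) := by
    have h6 : (1 + e0) * D.Np (V x) ≤ 2 * D.Np (V x) :=
      mul_le_mul_of_nonneg_right (by linarith) h1.le
    have h7 : (1 + e0) * D.Ub (V x) ≤ 2 * D.Ub (V x) :=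
      mul_le_mul_of_nonneg_right (by linarith) h2.le
    nlinarith [mul_nonneg hB h1.le, mul_nonneg hB h2.le]
  have h8 := mul_le_mul_of_nonneg_right h5 (abs_nonneg (G (V x)))
  unfold Er
  linarith

theorem Er_nonneg (h : Fix σ V P u) (hB : 0 ≤ B) (G : ℝ → ℝ) (x : ℝ) : 0 ≤ Er B σ V u G x := by
  unfold Er
  have h1 := mul_pos h.s_pos (h.w_pos x)
  have h2 := mul_pos h.s_pos (h.u_pos x)
  exact mul_nonneg (by linarith) (abs_nonneg _)

/-- the two-sided weight bound of a dual -/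
structure Wt (M : ℝ) (D : WData) (G G1 : ℝ → ℝ) : Prop where
  dG : ∀ v ∈ Ioo (0:ℝ) 1, HasDerivAt G (G1 v) v
  l : ∀ v ∈ Ioc (0:ℝ) (1 / 2), |G v| * (1 + D.Np v + D.Ub v) ≤ M * v
  r : ∀ v ∈ Ico (1 / 2 : ℝ) 1, |G v| * (1 + D.Np v + D.Ub v) ≤ M * (1 - v)
  K : ∀ v ∈ Ioo (0:ℝ) 1, |D.Kp v * G1 v| ≤ M

theorem wt_p (hW : WS lo hi tlo thi e0 κ M D) : Wt M D D.Gp D.Gp1 :=
  ⟨hW.dGp, hW.Gp_l, hW.Gp_r, hW.KGp⟩

theorem wt_m (hW : WS lo hi tlo thi e0 κ M D) : Wt M D D.Gm D.Gm1 :=
  ⟨hW.dGm, hW.Gm_l, hW.Gm_r, hW.KGm⟩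

variable {G G1 : ℝ → ℝ}

theorem Er_l (h : Fix σ V P u) (hO : One e0 B θ D σ V P u Y) (he0 : 0 < e0) (he1 : e0 ≤ 1)
    (hB : 0 ≤ B) (hG : Wt M D G G1) (x : ℝ) (hx : V x ≤ 1 / 2) :
    Er B σ V u G x ≤ (2 * B + 2) * M * V x := by
  have h1 := Er_le h hO he0 he1 hB G x
  have h2 := hG.l (V x) ⟨h.V_pos x, hx⟩
  have h3 := mul_le_mul_of_nonneg_left h2 (show 0 ≤ 2 * B + 2 by linarith)
  linarith

theorem Er_r (h : Fix σ V P u) (hO : One e0 B θ D σ V P u Y) (he0 : 0 < e0) (he1 : e0 ≤ 1)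
    (hB : 0 ≤ B) (hG : Wt M D G G1) (x : ℝ) (hx : 1 / 2 ≤ V x) :
    Er B σ V u G x ≤ (2 * B + 2) * M * (1 - V x) := by
  have h1 := Er_le h hO he0 he1 hB G x
  have h2 := hG.r (V x) ⟨hx, h.V_lt x⟩
  have h3 := mul_le_mul_of_nonneg_left h2 (show 0 ≤ 2 * B + 2 by linarith)
  linarith

theorem Er_bd (h : Fix σ V P u) (hO : One e0 B θ D σ V P u Y) (he0 : 0 < e0) (he1 : e0 ≤ 1)
    (hB : 0 ≤ B) (hM : 0 ≤ M) (hG : Wt M D G G1) (x : ℝ) : Er B σ V u G x ≤ (2 * B + 2) * M := by
  have h0 : 0 ≤ (2 * B + 2) * M := mul_nonneg (by linarith) hM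
  rcases le_total (V x) (1 / 2) with hx | hx
  · refine (Er_l h hO he0 he1 hB hG x hx).trans ?_
    exact mul_le_of_le_one_right h0 (h.V_lt x).le
  · refine (Er_r h hO he0 he1 hB hG x hx).trans ?_
    exact mul_le_of_le_one_right h0 (by linarith [h.V_pos x])

theorem G_bd (h : Fix σ V P u) (hO : One e0 B θ D σ V P u Y) (he0 : 0 < e0)
    (hM : 0 ≤ M) (hG : Wt M D G G1) (x : ℝ) : |G (V x)| ≤ M := by
  have h1 := Np_pos hO he0 x
  have h2 := Ub_pos h hO he0 x
  have h3 : |G (V x)| * 1 ≤ |G (V x)| * (1 + D.Np (V x) + D.Ub (V x)) :=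
    mul_le_mul_of_nonneg_left (by linarith) (abs_nonneg _)
  rcases le_total (V x) (1 / 2) with hx | hx
  · have h4 := hG.l (V x) ⟨h.V_pos x, hx⟩
    have h5 : M * V x ≤ M := mul_le_of_le_one_right hM (h.V_lt x).le
    linarith
  · have h4 := hG.r (V x) ⟨hx, h.V_lt x⟩
    have h5 : M * (1 - V x) ≤ M := mul_le_of_le_one_right hM (by linarith [h.V_pos x])
    linarith

/-- the test function `G ∘ V` -/
theorem tfG (h : Fix σ V P u) (L : Lw V P p Y) (hO : One e0 B θ D σ V P u Y) (he0 : 0 < e0)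
    (he1 : e0 ≤ 1) (hM : 0 ≤ M) (hG : Wt M D G G1) :
    TF (fun x => G (V x)) (fun x => P x * G1 (V x)) ∅ where
  cnt := countable_empty
  cont := by
    have hc : ContinuousOn G (Ioo 0 1) := fun v hv => (hG.dG v hv).continuousAt.continuousWithinAt
    exact hc.comp_continuous (V_cont L) (memV L)
  d x _ := by
    have h1 := (hG.dG _ (memV L x)).comp x (L.V_x x)
    refine h1.congr_deriv ?_
    ring
  growth := by
    refine ⟨max M (2 * σ * M), 0, fun x => ?_⟩
    rw [pow_zero, mul_one]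
    refine ⟨(G_bd h hO he0 hM hG x).trans (le_max_left _ _), ?_⟩
    refine le_trans ?_ (le_max_right _ _)
    have hs := h.s_pos
    have h1 : P x ≤ (1 + e0) * D.Kp (V x) * σ := by
      have := (hO.adm x).J_hi
      rwa [div_le_iff₀ hs] at this
    have h2 := hG.K (V x) (memV L x)
    rw [abs_mul, abs_of_pos (h.P_pos x)]
    have hK : 0 ≤ D.Kp (V x) := by
      have h3 := (div_pos (h.P_pos x) hs).trans_le (hO.adm x).J_hi
      exact ((pos_iff_pos_of_mul_pos h3).1 (by linarith)).le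
    rw [abs_mul, abs_of_nonneg hK] at h2
    calc P x * |G1 (V x)| ≤ (1 + e0) * D.Kp (V x) * σ * |G1 (V x)| :=
          mul_le_mul_of_nonneg_right h1 (abs_nonneg _)
      _ = (1 + e0) * σ * (D.Kp (V x) * |G1 (V x)|) := by ring
      _ ≤ (1 + e0) * σ * M := mul_le_mul_of_nonneg_left h2 (mul_nonneg (by linarith) hs.le)
      _ ≤ 2 * σ * M := by
        refine mul_le_mul_of_nonneg_right ?_ hM
        nlinarith

theorem P_le (hW : WS lo hi tlo thi e0 κ M D) (h : Fix σ V P u)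
    (hO : One e0 B θ D σ V P u Y) (x : ℝ) : P x ≤ 2 * M * σ := by
  have hs := h.s_pos
  have h1 : P x ≤ (1 + e0) * D.Kp (V x) * σ := by
    have := (hO.adm x).J_hi
    rwa [div_le_iff₀ hs] at this
  have h2 := hW.Kp_le (V x) ⟨h.V_pos x, h.V_lt x⟩
  have h3 : (1 + e0) * D.Kp (V x) ≤ 2 * M := by
    have h4 : (1 + e0) * D.Kp (V x) ≤ (1 + e0) * M :=
      mul_le_mul_of_nonneg_left h2 (by linarith [hW.e0_pos])
    have h5 : (1 + e0) * M ≤ 2 * M :=
      mul_le_mul_of_nonneg_right (by linarith [hW.e0_le]) hW.M_pos.le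
    linarith
  exact h1.trans (mul_le_mul_of_nonneg_right h3 hs.le)

/-- absorb of the error weight -/
theorem Er_int (hW : WS lo hi tlo thi e0 κ M D) (h : Fix σ V P u) (L : Lw V P p Y)
    (hO : One e0 B θ D σ V P u Y) (hB : 0 ≤ B) (hθ : 0 ≤ θ) (hθ1 : 72 * (θ * (B + 8)) ≤ 1)
    (hG : Wt M D G G1) :
    Integrable (fun x => p x * Er B σ V u G x) ∧ ∫ x, p x * Er B σ V u G x ≤
      (2 * B + 2) * M * KA (2 * M) 1 * ∫ x, p x * (V x * (1 - V x) ^ 2) := by
  have he0 := hW.e0_pos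
  have he1 : e0 ≤ 1 := by linarith [hW.e0_le]
  have hM := hW.M_pos.le
  have cG : Continuous fun x => G (V x) := (tfG h L hO he0 he1 hM hG).cont
  have i1 : Integrable (fun x => p x * Er B σ V u G x) := by
    refine int_bdd L (M := (2 * B + 2) * M) ?_ fun x => ?_
    · refine Continuous.aestronglyMeasurable ?_
      have c1 := h.cu
      exact (((continuous_const (y := 2 * B)).add
        ((continuous_const (y := σ)).mul (continuous_id.add c1))).add
        ((continuous_const (y := σ)).mul c1)).mul cG.abs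
    · rw [abs_of_nonneg (Er_nonneg h hB G x)]
      exact Er_bd h hO he0 he1 hB hM hG x
  refine ⟨i1, ?_⟩
  refine h.absorb (by positivity) (P_le hW h hO) one_pos (mul_nonneg (by linarith) hM)
    (mul_nonneg hθ (by linarith)) hθ1 L.p_pos L.p_x (Y_ge h hθ hB hO.lo0) (int_p L) i1
    (fun x hx => Er_l h hO he0 he1 hB hG x hx) fun x hx => ?_
  rw [Real.rpow_one]
  refine (Er_r h hO he0 he1 hB hG x hx).trans ?_
  have h4 : 0 ≤ σ * max x 0 := mul_nonneg h.s_pos.le (le_max_right _ _)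
  have h5 : 0 ≤ (2 * B + 2) * M * (1 - V x) :=
    mul_nonneg (mul_nonneg (by linarith) hM) (by linarith [h.V_lt x])
  nlinarith [mul_nonneg h5 h4]

/-- the law at one point -/
theorem law_clip (hW : WS lo hi tlo thi e0 κ M D) (h : Fix σ V P u)
    (hO : One e0 B θ D σ V P u Y) (hB : 0 ≤ B) (hθ : 0 ≤ θ) (x : ℝ) :
    ∃ L', 0 ≤ L' ∧ D.Fm (σ * (x + u x)) ≤ L' ∧ L' ≤ D.Fp (σ * (x + u x)) ∧
      |σ⁻¹ * Y x - L'| ≤ θ * (2 * B + σ * (x + u x) + σ * u x) := by
  have hs := h.s_pos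
  have hη := (hO.adm x).η_pos
  have hu := mul_pos hs (h.u_pos x)
  obtain ⟨L', h1, h2, h3, h4⟩ := clip (L := σ⁻¹ * Y x) (f := D.Fm (σ * (x + u x)))
    (g := D.Fp (σ * (x + u x))) (a := θ * (B + σ * u x)) (b := θ * (B + σ * (x + u x)))
    (hW.Fm_le _ hη) (hW.Fp_nonneg _ hη) (mul_nonneg hθ (by linarith))
    (mul_nonneg hθ (by linarith))
    (by
      rw [le_inv_mul_iff₀ hs]
      linarith [hO.lo0 x])
    (by rw [le_inv_mul_iff₀ hs]; exact hO.lo x)
    (by rw [inv_mul_le_iff₀ hs]; exact hO.up x)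
  exact ⟨L', h1, h2, h3, h4.trans (by linarith)⟩

/-- the constant of the error -/
def CE (B M : ℝ) : ℝ := (2 * B + 2) * M * KA (2 * M) 1

theorem CE_nonneg (hB : 0 ≤ B) (hM : 0 ≤ M) : 0 ≤ CE B M :=
  mul_nonneg (mul_nonneg (by linarith) hM) (KA_nonneg (by linarith) one_pos)

/-- **closure at one time, upper**. -/
theorem one_le (hW : WS lo hi tlo thi e0 κ M D) (h : Fix σ V P u) (L : Lw V P p Y)
    (hO : One e0 B θ D σ V P u Y) (hB : 0 ≤ B) (hθ : 0 ≤ θ) (hθ1 : 72 * (θ * (B + 8)) ≤ 1) :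
    ∫ x, p x * P x ^ 2 ≤ σ ^ 2 * ((2 * thi + θ * CE B M) *
      ∫ x, p x * (V x * (1 - V x) ^ 2)) := by
  have he0 := hW.e0_pos
  have he1 : e0 ≤ 1 := by linarith [hW.e0_le]
  have hM := hW.M_pos.le
  have hs := h.s_pos
  have hG := wt_p hW
  obtain ⟨i1, i2⟩ := Er_int hW h L hO hB hθ hθ1 hG
  have i3 : Integrable (fun x => p x * (θ * Er B σ V u D.Gp x)) :=
    (i1.const_mul θ).congr (Eventually.of_forall fun x => by simp only; ring)
  have m1 := clo_le L (tfG h L hO he0 he1 hM hG) (s := σ⁻¹) (hh := thi) i3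
    (Eventually.of_forall fun x => by
      obtain ⟨L', a1, a2, a3, a4⟩ := law_clip hW h hO hB hθ x
      have b1 := hW.clo_p (V x) (σ * (x + u x)) (P x / σ) L' (hO.adm x) a1 a2 a3
      unfold CloR at b1
      have b2 : (σ⁻¹ * Y x - L') * D.Gp (V x) ≤ θ * Er B σ V u D.Gp x := by
        refine (le_abs_self _).trans ?_
        rw [abs_mul]
        have := mul_le_mul_of_nonneg_right a4 (abs_nonneg (D.Gp (V x)))
        unfold Er
        linarith
      have e1 : (σ⁻¹ * P x) ^ 2 - σ⁻¹ * (P x * D.Gp1 (V x)) + σ⁻¹ * Y x * D.Gp (V x) =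
          ((P x / σ) ^ 2 - 2 * thi * (V x * (1 - V x) ^ 2) - P x / σ * D.Gp1 (V x) +
            L' * D.Gp (V x)) + 2 * thi * (V x * (1 - V x) ^ 2) +
            (σ⁻¹ * Y x - L') * D.Gp (V x) := by
        rw [div_eq_inv_mul]
        ring
      rw [e1]
      linarith)
  have e2 : ∫ x, p x * (θ * Er B σ V u D.Gp x) = θ * ∫ x, p x * Er B σ V u D.Gp x := by
    rw [← integral_const_mul]
    refine integral_congr_ae (Eventually.of_forall fun x => ?_)
    simp only
    ring
  have hN : ∫ x, p x * P x ^ 2 = σ ^ 2 * (σ⁻¹ ^ 2 * ∫ x, p x * P x ^ 2) := by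
    field_simp
  rw [hN]
  refine mul_le_mul_of_nonneg_left ?_ (sq_nonneg _)
  have m2 := mul_le_mul_of_nonneg_left i2 hθ
  rw [e2] at m1
  unfold CE
  linarith

/-- **closure at one time, lower**. -/
theorem le_one (hW : WS lo hi tlo thi e0 κ M D) (h : Fix σ V P u) (L : Lw V P p Y)
    (hO : One e0 B θ D σ V P u Y) (hB : 0 ≤ B) (hθ : 0 ≤ θ) (hθ1 : 72 * (θ * (B + 8)) ≤ 1) :
    σ ^ 2 * ((2 * tlo - θ * CE B M) * ∫ x, p x * (V x * (1 - V x) ^ 2)) ≤
      ∫ x, p x * P x ^ 2 := by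
  have he0 := hW.e0_pos
  have he1 : e0 ≤ 1 := by linarith [hW.e0_le]
  have hM := hW.M_pos.le
  have hs := h.s_pos
  have hG := wt_m hW
  obtain ⟨i1, i2⟩ := Er_int hW h L hO hB hθ hθ1 hG
  have i3 : Integrable (fun x => p x * (θ * Er B σ V u D.Gm x)) :=
    (i1.const_mul θ).congr (Eventually.of_forall fun x => by simp only; ring)
  have m1 := le_clo L (tfG h L hO he0 he1 hM hG) (s := σ⁻¹) (hh := tlo) i3
    (Eventually.of_forall fun x => by
      obtain ⟨L', a1, a2, a3, a4⟩ := law_clip hW h hO hB hθ x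
      have b1 := hW.clo_m (V x) (σ * (x + u x)) (P x / σ) L' (hO.adm x) a1 a2 a3
      unfold CloR at b1
      have b2 : -(θ * Er B σ V u D.Gm x) ≤ (σ⁻¹ * Y x - L') * D.Gm (V x) := by
        refine le_trans ?_ (neg_abs_le _)
        rw [abs_mul]
        have := mul_le_mul_of_nonneg_right a4 (abs_nonneg (D.Gm (V x)))
        unfold Er
        linarith
      have e1 : (σ⁻¹ * P x) ^ 2 - σ⁻¹ * (P x * D.Gm1 (V x)) + σ⁻¹ * Y x * D.Gm (V x) =
          ((P x / σ) ^ 2 - 2 * tlo * (V x * (1 - V x) ^ 2) - P x / σ * D.Gm1 (V x) +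
            L' * D.Gm (V x)) + 2 * tlo * (V x * (1 - V x) ^ 2) +
            (σ⁻¹ * Y x - L') * D.Gm (V x) := by
        rw [div_eq_inv_mul]
        ring
      rw [e1]
      linarith)
  have e2 : ∫ x, p x * (θ * Er B σ V u D.Gm x) = θ * ∫ x, p x * Er B σ V u D.Gm x := by
    rw [← integral_const_mul]
    refine integral_congr_ae (Eventually.of_forall fun x => ?_)
    simp only
    ring
  have hN : ∫ x, p x * P x ^ 2 = σ ^ 2 * (σ⁻¹ ^ 2 * ∫ x, p x * P x ^ 2) := by
    field_simp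
  rw [hN]
  refine mul_le_mul_of_nonneg_left ?_ (sq_nonneg _)
  have m2 := mul_le_mul_of_nonneg_left i2 hθ
  rw [e2] at m1
  unfold CE
  linarith

end one

/-! ### The step system -/

section step

open Crest.Agent.R146.StepDef_791 Crest.Agent.R146.PtLim_847 Crest.Agent.R146.TipSeq_791
open Crest.Agent.R146.WinLim_746
open Crest.Agent.R146.YW_177 (sN sN_pos sN_sq)
open Crest.Agent.R146.PtScalA_45 (Prof)

variable {lo hi tlo thi e0 κ M : ℝ} {D : WData} {B θ : ℝ}

/-- the data of a window step for the step system at time `t` -/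
def OneA (e0 B θ : ℝ) (D : WData) (A : SD) (Y : ℝ → ℝ → ℝ) (t : ℝ) : Prop :=
  One e0 B θ D (sN A t) (A.V t) (A.P t) (A.u t) (Y t)

variable {A : SD} {p Y Yx Yxx : ℝ → ℝ → ℝ}

/-- **closure of the step system at one time, upper**: `χ Ns ≤ (2 thi + θ C) Zs` -/
theorem step_le (hW : WS lo hi tlo thi e0 κ M D) (hB : Back A) (hC : Clock A)
    (hL : Law A 1 p Y Yx Yxx) {t : ℝ} (ht : t ∈ Ioc 0 A.T) (hB0 : 0 ≤ B) (hθ : 0 ≤ θ)
    (hθ1 : 72 * (θ * (B + 8)) ≤ 1) (hO : OneA e0 B θ D A Y t) :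
    A.chi t * Ns A 1 p t ≤ (2 * thi + θ * CE B M) * Zs A 1 p t := by
  have ht0 : t ∈ Icc 0 A.T := ⟨ht.1.le, ht.2⟩
  have h1 : t < 1 := ht.2.trans_lt A.hT1
  have hF := FixA_423.fix_chi A ht0
  have h2 := one_le (σ := sN A t) hW hF (lw_of hB hL ht) hO hB0 hθ hθ1
  have h3 := hC.chi_pos t h1
  rw [sN_sq hC h1, le_inv_mul_iff₀ h3] at h2
  rw [Ns_eq ht.1, Zs_eq ht.1]
  exact h2

/-- **closure of the step system at one time, lower**. -/
theorem le_step (hW : WS lo hi tlo thi e0 κ M D) (hB : Back A) (hC : Clock A)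
    (hL : Law A 1 p Y Yx Yxx) {t : ℝ} (ht : t ∈ Ioc 0 A.T) (hB0 : 0 ≤ B) (hθ : 0 ≤ θ)
    (hθ1 : 72 * (θ * (B + 8)) ≤ 1) (hO : OneA e0 B θ D A Y t) :
    (2 * tlo - θ * CE B M) * Zs A 1 p t ≤ A.chi t * Ns A 1 p t := by
  have ht0 : t ∈ Icc 0 A.T := ⟨ht.1.le, ht.2⟩
  have h1 : t < 1 := ht.2.trans_lt A.hT1
  have hF := FixA_423.fix_chi A ht0
  have h2 := le_one (σ := sN A t) hW hF (lw_of hB hL ht) hO hB0 hθ hθ1
  have h3 := hC.chi_pos t h1
  rw [sN_sq hC h1, inv_mul_le_iff₀ h3] at h2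
  rw [Ns_eq ht.1, Zs_eq ht.1]
  exact h2

theorem Zs_nonneg (hB : Back A) (hL : Law A 1 p Y Yx Yxx) {t : ℝ} (ht : t ∈ Ioc 0 A.T) :
    0 ≤ Zs A 1 p t := by
  rw [Zs_eq ht.1]
  exact Z_nonneg (lw_of hB hL ht)

variable {Pf : Prof} {T S : ℝ → ℝ} {Q : PreSeq Pf T S}

/-- small `θ` for a given tolerance -/
theorem th_exists (B M : ℝ) (hB : 0 ≤ B) (hM : 0 ≤ M) {ε : ℝ} (hε : 0 < ε) :
    ∃ θ > 0, 72 * (θ * (B + 8)) ≤ 1 ∧ θ * CE B M ≤ 2 * ε := by
  have hc := CE_nonneg hB hM
  refine ⟨min (1 / (72 * (B + 8))) (2 * ε / (CE B M + 1)), ?_, ?_, ?_⟩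
  · exact lt_min (by positivity) (by positivity)
  · have h1 := mul_le_mul_of_nonneg_right
      (min_le_left (1 / (72 * (B + 8))) (2 * ε / (CE B M + 1))) (show 0 ≤ B + 8 by linarith)
    have h2 : 1 / (72 * (B + 8)) * (B + 8) = 1 / 72 := by
      have : (B + 8) ≠ 0 := by positivity
      field_simp
    linarith
  · have h1 := mul_le_mul_of_nonneg_right
      (min_le_right (1 / (72 * (B + 8))) (2 * ε / (CE B M + 1))) hc
    have h2 : 2 * ε / (CE B M + 1) * CE B M ≤ 2 * ε := by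
      rw [div_mul_eq_mul_div, div_le_iff₀ (by linarith)]
      nlinarith
    linarith



end step

/-! ### Positions at one time -/

section pos

variable {lo hi tlo thi e0 κ M : ℝ} {D : WData} {σ e : ℝ} {V P u Y : ℝ → ℝ}

/-- `N₊ ≥ 0` -/
theorem Np_nonneg (hW : WS lo hi tlo thi e0 κ M D) {v : ℝ} (hv : v ∈ Ioo (0:ℝ) 1) :
    0 ≤ D.Np v := by
  have hN : ∀ y ∈ Ioo (0:ℝ) 1, 0 < D.Np1 y := by
    intro y hy
    have h1 := hy.1.trans_le (hW.Np_ge y hy)
    exact (pos_iff_pos_of_mul_pos h1).2 (hW.Km_pos y hy)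
  have hmono : MonotoneOn D.Np (Ioo 0 1) := by
    refine (strictMonoOn_of_deriv_pos (convex_Ioo 0 1)
      (fun y hy => (hW.dNp y hy).continuousAt.continuousWithinAt) fun y hy => ?_).monotoneOn
    rw [interior_Ioo] at hy
    rw [(hW.dNp y hy).deriv]
    exact hN y hy
  refine le_of_tendsto hW.Np_lim ?_
  filter_upwards [Ioo_mem_nhdsGT hv.1] with y hy
  exact hmono ⟨hy.1, hy.2.trans hv.2⟩ hv hy.2.le

theorem Ub1_neg (hW : WS lo hi tlo thi e0 κ M D) {v : ℝ} (hv : v ∈ Ioo (0:ℝ) 1) :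
    D.Ub1 v < 0 := by
  have h1 : 0 < -D.Ub1 v * D.Km v := (sub_pos.2 hv.2).trans_le (hW.Ub_ge v hv)
  have h2 := (pos_iff_pos_of_mul_pos h1).2 (hW.Km_pos v hv)
  linarith

/-- `Ub ≥ 0` -/
theorem Ub_nonneg (hW : WS lo hi tlo thi e0 κ M D) {v : ℝ} (hv : v ∈ Ioo (0:ℝ) 1) :
    0 ≤ D.Ub v := by
  have hanti : AntitoneOn D.Ub (Ioo 0 1) := by
    refine (strictAntiOn_of_deriv_neg (convex_Ioo 0 1)
      (fun y hy => (hW.dUb y hy).continuousAt.continuousWithinAt) fun y hy => ?_).antitoneOn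
    rw [interior_Ioo] at hy
    rw [(hW.dUb y hy).deriv]
    exact Ub1_neg hW hy
  refine le_of_tendsto hW.Ub_lim ?_
  filter_upwards [Ioo_mem_nhdsLT hv.2] with y hy
  exact hanti hv ⟨hv.1.trans hy.1, hy.2⟩ hy.1.le

theorem pos_up (hW : WS lo hi tlo thi e0 κ M D) (h : Fix σ V P u) (he1 : e < 1)
    (hb : ∀ x, (1 - e) * σ * D.Km (V x) ≤ P x) (x : ℝ) :
    (1 - e) * (σ * (x + u x)) ≤ D.Np (V x) := by
  have hs := h.s_pos
  have hm : ∀ x, V x ∈ Ioo (0:ℝ) 1 := fun x => ⟨h.V_pos x, h.V_lt x⟩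
  have hd : ∀ x, HasDerivAt (fun x => D.Np (V x) - (1 - e) * (σ * (x + u x)))
      (D.Np1 (V x) * P x - (1 - e) * (σ * V x)) x := fun x =>
    ((hW.dNp _ (hm x)).comp x (h.hV x)).sub (((h.hw x).const_mul σ).const_mul (1 - e))
  have hmono : Monotone (fun x => D.Np (V x) - (1 - e) * (σ * (x + u x))) := by
    apply monotone_of_deriv_nonneg (fun x => (hd x).differentiableAt)
    intro x
    rw [(hd x).deriv]
    have h1 := hW.Np_ge _ (hm x)
    have h0 : 0 < D.Np1 (V x) :=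
      (pos_iff_pos_of_mul_pos ((hm x).1.trans_le h1)).2 (hW.Km_pos _ (hm x))
    have h2 := mul_le_mul_of_nonneg_left (hb x) h0.le
    have h3 := mul_le_mul_of_nonneg_left h1 (mul_nonneg (sub_nonneg.2 he1.le) hs.le)
    nlinarith
  have hlim : Tendsto (fun y => -((1 - e) * (σ * (y + u y)))) atBot
      (𝓝 (-((1 - e) * (σ * 0)))) := ((h.w_bot.const_mul σ).const_mul (1 - e)).neg
  have h5 : -((1 - e) * (σ * 0)) ≤ D.Np (V x) - (1 - e) * (σ * (x + u x)) := by
    refine le_of_tendsto hlim ?_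
    filter_upwards [eventually_le_atBot x] with y hy
    have h6 := hmono hy
    have h7 := Np_nonneg hW (hm y)
    simp only at h6
    linarith
  linarith

theorem pos_lo (hW : WS lo hi tlo thi e0 κ M D) (h : Fix σ V P u) (he : 0 ≤ e)
    (hb : ∀ x, P x ≤ (1 + e) * σ * D.Kp (V x)) (x : ℝ) :
    D.Nm (V x) ≤ (1 + e) * (σ * (x + u x)) := by
  have hs := h.s_pos
  have hm : ∀ x, V x ∈ Ioo (0:ℝ) 1 := fun x => ⟨h.V_pos x, h.V_lt x⟩
  have hd : ∀ x, HasDerivAt (fun x => (1 + e) * (σ * (x + u x)) - D.Nm (V x))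
      ((1 + e) * (σ * V x) - D.Nm1 (V x) * P x) x := fun x =>
    (((h.hw x).const_mul σ).const_mul (1 + e)).sub ((hW.dNm _ (hm x)).comp x (h.hV x))
  have hmono : Monotone (fun x => (1 + e) * (σ * (x + u x)) - D.Nm (V x)) := by
    apply monotone_of_deriv_nonneg (fun x => (hd x).differentiableAt)
    intro x
    rw [(hd x).deriv]
    have hv := (hm x).1
    have hA : 0 ≤ (1 + e) * (σ * V x) := by positivity
    rcases le_total (D.Nm1 (V x)) 0 with h0 | h0
    · have := mul_nonpos_of_nonpos_of_nonneg h0 (h.P_pos x).le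
      linarith
    · have h1 := hW.Nm_le _ (hm x)
      have h2 := mul_le_mul_of_nonneg_left (hb x) h0
      have h3 := mul_le_mul_of_nonneg_left h1 (mul_nonneg (show 0 ≤ 1 + e by linarith) hs.le)
      nlinarith
  have hV' : Tendsto V atBot (𝓝[>] 0) :=
    tendsto_nhdsWithin_iff.2 ⟨h.V_bot, Eventually.of_forall fun y => (hm y).1⟩
  have hlim : Tendsto (fun y => (1 + e) * (σ * (y + u y)) - D.Nm (V y)) atBot
      (𝓝 ((1 + e) * (σ * 0) - 0)) :=
    ((h.w_bot.const_mul σ).const_mul (1 + e)).sub (hW.Nm_lim.comp hV')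
  have h5 : (1 + e) * (σ * 0) - 0 ≤ (1 + e) * (σ * (x + u x)) - D.Nm (V x) := by
    refine le_of_tendsto hlim ?_
    filter_upwards [eventually_le_atBot x] with y hy
    exact hmono hy
  linarith

theorem pos_ub (hW : WS lo hi tlo thi e0 κ M D) (h : Fix σ V P u) (he1 : e < 1)
    (hb : ∀ x, (1 - e) * σ * D.Km (V x) ≤ P x) (x : ℝ) :
    (1 - e) * (σ * u x) ≤ D.Ub (V x) := by
  have hs := h.s_pos
  have hm : ∀ x, V x ∈ Ioo (0:ℝ) 1 := fun x => ⟨h.V_pos x, h.V_lt x⟩
  have hd : ∀ x, HasDerivAt (fun x => D.Ub (V x) - (1 - e) * (σ * u x))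
      (D.Ub1 (V x) * P x - (1 - e) * (σ * (V x - 1))) x := fun x =>
    ((hW.dUb _ (hm x)).comp x (h.hV x)).sub (((h.hu x).const_mul σ).const_mul (1 - e))
  have hanti : Antitone (fun x => D.Ub (V x) - (1 - e) * (σ * u x)) := by
    apply antitone_of_deriv_nonpos (fun x => (hd x).differentiableAt)
    intro x
    rw [(hd x).deriv]
    have h1 := hW.Ub_ge _ (hm x)
    have h0 := Ub1_neg hW (hm x)
    have h2 := mul_le_mul_of_nonneg_left (hb x) (neg_nonneg.2 h0.le)
    have h3 := mul_le_mul_of_nonneg_left h1 (mul_nonneg (sub_nonneg.2 he1.le) hs.le)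
    nlinarith
  have hlim : Tendsto (fun y => -((1 - e) * (σ * u y))) atTop
      (𝓝 (-((1 - e) * (σ * 0)))) := ((h.u_top.const_mul σ).const_mul (1 - e)).neg
  have h5 : -((1 - e) * (σ * 0)) ≤ D.Ub (V x) - (1 - e) * (σ * u x) := by
    refine le_of_tendsto hlim ?_
    filter_upwards [eventually_ge_atTop x] with y hy
    have h6 := hanti hy
    have h7 := Ub_nonneg hW (hm y)
    simp only at h6
    linarith
  linarith

/-- `(1-e) a ≤ b`, `2 e ≤ e0 ≤ 1/100` give `a ≤ (1+e0) b`. -/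
theorem div_aux {a b : ℝ} (he : 0 ≤ e) (he2 : 2 * e ≤ e0) (he0 : e0 ≤ 1 / 100)
    (h : (1 - e) * a ≤ b) (hb : 0 ≤ b) : a ≤ (1 + e0) * b := by
  have h1 : 0 < 1 - e := by linarith
  have h2 : (1 - e) * a ≤ (1 - e) * ((1 + e0) * b) := by
    have h3 : 1 ≤ (1 - e) * (1 + e0) := by nlinarith
    have h4 := mul_le_mul_of_nonneg_right h3 hb
    linarith
  exact le_of_mul_le_mul_left h2 h1

/-- `One` from the slope band (error `e`) and the law band (error `θ`). -/
theorem one_of (hW : WS lo hi tlo thi e0 κ M D) (h : Fix σ V P u) (he : 0 ≤ e)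
    (he2 : 2 * e ≤ e0) {B θ : ℝ}
    (hb : ∀ x, (1 - e) * σ * D.Km (V x) ≤ P x ∧ P x ≤ (1 + e) * σ * D.Kp (V x))
    (lo0 : ∀ x, -(σ * (θ * (B + σ * u x))) ≤ Y x)
    (lo1 : ∀ x, σ * (D.Fm (σ * (x + u x)) - θ * (B + σ * u x)) ≤ Y x)
    (up1 : ∀ x, Y x ≤ σ * (D.Fp (σ * (x + u x)) + θ * (B + σ * (x + u x)))) :
    One e0 B θ D σ V P u Y := by
  have hs := h.s_pos
  have he0 := hW.e0_pos
  have he0' := hW.e0_le
  have he1 : e < 1 := by linarith
  have hm : ∀ x, V x ∈ Ioo (0:ℝ) 1 := fun x => ⟨h.V_pos x, h.V_lt x⟩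
  refine ⟨fun x => ⟨(hm x).1, (hm x).2, mul_pos hs (h.w_pos x), ?_, ?_, ?_, ?_⟩, fun x => ?_,
    lo0, lo1, up1⟩
  · have h1 := pos_lo hW h he (fun x => (hb x).2) x
    have h2 := hW.Nm_nonneg _ (hm x)
    have h3 := mul_pos hs (h.w_pos x)
    have h4 : (1 - e0) * D.Nm (V x) ≤ (1 - e0) * ((1 + e) * (σ * (x + u x))) :=
      mul_le_mul_of_nonneg_left h1 (by linarith)
    have h5 : (1 - e0) * (1 + e) ≤ 1 := by nlinarith
    have h6 := mul_le_mul_of_nonneg_right h5 h3.le
    linarith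
  · exact div_aux he he2 he0' (pos_up hW h he1 (fun x => (hb x).1) x) (Np_nonneg hW (hm x))
  · rw [le_div_iff₀ hs]
    have h1 := (hb x).1
    have h2 := hW.Km_pos _ (hm x)
    have h3 : (1 - e0) * (D.Km (V x) * σ) ≤ (1 - e) * (D.Km (V x) * σ) :=
      mul_le_mul_of_nonneg_right (by linarith) (mul_pos h2 hs).le
    linarith
  · rw [div_le_iff₀ hs]
    have h1 := (hb x).2
    have h2 := hW.Kp_pos _ (hm x)
    have h3 : (1 + e) * (D.Kp (V x) * σ) ≤ (1 + e0) * (D.Kp (V x) * σ) :=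
      mul_le_mul_of_nonneg_right (by linarith) (mul_pos h2 hs).le
    linarith
  · exact div_aux he he2 he0' (pos_ub hW h he1 (fun x => (hb x).1) x) (Ub_nonneg hW (hm x))

end pos

/-- **(CLOS)** -/
theorem clos : PtRefIf_847.CLOS := by
  intro lo hi tlo thi e0 κ M D hW ρ hρ
  obtain ⟨θ, hθ, hθ1, hθ2⟩ := th_exists 1 M zero_le_one hW.M_pos.le hρ
  have he0 := hW.e0_pos
  refine ⟨min θ (e0 / 2), lt_min hθ (by linarith), ?_⟩
  intro A hB hC p Y Yx Yxx hL t ht hSB hLB
  set e := min θ (e0 / 2) with he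
  have hepos : 0 < e := lt_min hθ (by linarith)
  have heθ : e ≤ θ := min_le_left _ _
  have hee0 : 2 * e ≤ e0 := by
    have := min_le_right θ (e0 / 2)
    linarith
  have ht0 : t ∈ Icc 0 A.T := ⟨ht.1.le, ht.2⟩
  have hO : OneA e0 1 e D A Y t :=
    one_of hW (FixA_423.fix_chi A ht0) hepos.le hee0 hSB (fun x => (hLB x).2.1)
      (fun x => (hLB x).1) (fun x => (hLB x).2.2)
  have h72 : 72 * (e * (1 + 8)) ≤ 1 := by
    have := mul_le_mul_of_nonneg_right heθ (show (0:ℝ) ≤ 1 + 8 by norm_num)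
    linarith
  have hCE : e * CE 1 M ≤ 2 * ρ := by
    have := mul_le_mul_of_nonneg_right heθ (CE_nonneg zero_le_one hW.M_pos.le)
    linarith
  have hZ := Zs_nonneg hB hL ht
  constructor
  · refine (step_le hW hB hC hL ht zero_le_one hepos.le h72 hO).trans ?_
    exact mul_le_mul_of_nonneg_right (by linarith) hZ
  · refine le_trans ?_ (le_step hW hB hC hL ht zero_le_one hepos.le h72 hO)
    exact mul_le_mul_of_nonneg_right (by linarith) hZ

end

end Crest.Agent.R146.RefClo_42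
end

-- ▼ part R146/PtTipW_52
section

/-!
Row 146 (S0205), package PT: assembly of `PTMAIN` with the window `[0, 7/10]` as input (helper52;
requested by helper746, post 1324).

* `ptmainW` : `PTMAIN` from the window of each tip sequence, a closed pair and the contraction.
-/

set_option autoImplicit false

namespace Crest.Agent.R146.PtTipW_52

open MeasureTheory Set Filter Topology
open Crest.Agent.R146.TipSeq_791 Crest.Agent.R146.SPair_307
open Crest.Agent.R146.PtScalA_45 (Prof)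
open Crest.Agent.R146.PtTip_164 Crest.Agent.R146.PtTipC_52

/-- `PTMAIN` from the window `[0, 7/10]`, a closed pair and the contraction. -/
theorem ptmainW {g : ℝ} (hg : g < 1) (hW : ∀ P : Prof, TipSeq P → Win P 1 0 hiA)
    (hC : CLOSED) (hR : REFC g) : PTMAIN := by
  intro P hP
  obtain ⟨c, W, V, I, k, hp⟩ := hC
  have hcb := c_bounds hp
  have w0 : Win P 1 0 hiA := hW P hP
  refine end_closed hP hp (tendsto_of_refc hg hp.c_pos ?_ ((win_iff P 1 0 hiA).1 w0) ?_)
  · unfold hiA; linarith [hcb.1]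
  · intro δ hδ hδc hw
    exact (win_iff P 1 _ _).1 (hR P hP c W V I k hp δ hδ hδc ((win_iff P 1 _ _).2 hw))

end Crest.Agent.R146.PtTipW_52
end

-- ▼ part R146/RefEdge_131
section

/-!
Row 146 (S0205), package PT: EDGE `WINREF → NUMREF → REFC gr` (helper131, PM-C).

* `WINREF` (`PtRefIf_847`) : the one theorem of the PDE side;
* `closed : CLOSED` (from `Fix2_181.exists_closed`);
* `refc_of : WINREF → NUMREF → REFC gr`;
* `ptmain_of` : `PTMAIN` from the window `[0, 7/10]`, `WINREF`, `NUMREF`.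
-/

set_option autoImplicit false

namespace Crest.Agent.R146.RefEdge_131

open Set Filter Topology
open Crest.Agent.R146.TipSeq_791 Crest.Agent.R146.SPair_307
open Crest.Agent.R146.PtScalA_45 (Prof)
open Crest.Agent.R146.PtTip_164 Crest.Agent.R146.PtTipC_52 Crest.Agent.R146.PtRef_846

/-- the window `[0, 7/10]` of every tip sequence -/
def WINA : Prop := ∀ P : Prof, TipSeq P → Win P 1 0 hiA

/-- **CLOSED** is a theorem (helper181) -/
theorem closed : CLOSED := by
  obtain ⟨c, W, V, I, k, -, -, h⟩ := Fix2_181.exists_closed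
  exact ⟨c, W, V, I, k, h⟩

theorem refc_of (hW : PtRefIf_847.WINREF) (hN : NUMREF) : REFC gr := by
  intro P hP c W V I k hp δ hδ hδc hw
  obtain ⟨e0, κ, M, D, hS⟩ := hN c W V I k hp δ hδ hδc
  exact hW P hP _ _ _ _ e0 κ M D hS hw

theorem gr_lt : gr < 1 := by unfold gr; norm_num

/-- **PTMAIN** -/
theorem ptmain_of (hA : WINA) (hW : PtRefIf_847.WINREF) (hN : NUMREF) : PTMAIN :=
  PtTipW_52.ptmainW gr_lt hA closed (refc_of hW hN)

end Crest.Agent.R146.RefEdge_131
end

-- ▼ part R146/WinLaw_746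
section

/-!
Row 146, PT-CMP (helper746): law lower bound uniformly in the sequence, `√χ Y ≥ -λ (1 + ξ₋)` for
`t → 1`, both clocks, from the forgetting barrier `LOW` (helper384) and the field `Ys`.
-/

set_option autoImplicit false

namespace Crest.Agent.R146.WinLaw_746

open Set MeasureTheory Filter Topology ProbabilityTheory
open Crest.Agent.R146.TipSeq_791 Crest.Agent.R146.StepDef_791 Crest.Agent.R146.StepApx_856
open Crest.Agent.R146.WinLim_746 Crest.Agent.R146.WinTail_746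
open Crest.Agent.R146.Pos_371 (sg sg_pos)
open Crest.Agent.R146.PtScalA_45 (Prof)

noncomputable section

/-- the forgetting barrier of helper384 -/
def LOW : Prop := ∀ (A : SD) (x0 : ℝ) (p Y Yx Yxx : ℝ → ℝ → ℝ), Back A → Clock A →
  Law A x0 p Y Yx Yxx → (∀ t ∈ Ico 0 A.T, (1 - t) * A.b t ≤ 1) →
  ∀ t0 ∈ Ioo 0 A.T, (∀ t ∈ Icc t0 A.T, 21 * Real.sqrt (1 - t) ≤ A.D t) →
  ∀ C : ℝ, 1 ≤ C →
  (∀ x, -(C * A.E t0 * (15 + sg (-(x * A.E t0)))) ≤ Y t0 x) →
  ∀ t ∈ Icc t0 A.T, ∀ x, -(C * A.E t * (15 + sg (-(x * A.E t)))) ≤ Y t x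

lemma sg_ge (y : ℝ) : 2 * y ≤ sg y := by
  unfold sg
  have : y ≤ Real.sqrt (1 + y ^ 2) := Real.le_sqrt_of_sq_le (by linarith)
  linarith

lemma sg_le' (y : ℝ) : sg y ≤ 1 + 2 * max y 0 := by
  unfold sg
  rcases le_total 0 y with h | h
  · rw [max_eq_left h]
    have : Real.sqrt (1 + y ^ 2) ≤ 1 + y := by
      rw [show (1 + y) = Real.sqrt ((1 + y) ^ 2) from (Real.sqrt_sq (by linarith)).symm]
      exact Real.sqrt_le_sqrt (by nlinarith)
    linarith
  · rw [max_eq_right h]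
    have : Real.sqrt (1 + y ^ 2) ≤ 1 - y := by
      rw [show (1 - y) = Real.sqrt ((1 - y) ^ 2) from (Real.sqrt_sq (by linarith)).symm]
      exact Real.sqrt_le_sqrt (by nlinarith)
    linarith

/-- `u ≤ 8 √χ + x₋` -/
lemma u_le (A : SD) {t : ℝ} (ht : t ∈ Icc 0 A.T) (x : ℝ) :
    A.u t x ≤ 8 * Real.sqrt (A.chi t) + max (-x) 0 := by
  have hF := FixA_423.fix_chi A ht
  have hchi : 0 < A.chi t := (StepClk_900.clock A).chi_pos t (ht.2.trans_lt A.hT1)
  have hsq := Real.sqrt_pos.2 hchi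
  have h0 : A.u t 0 ≤ 8 * Real.sqrt (A.chi t) := by
    have h1 : (Real.sqrt (A.chi t))⁻¹ * A.u t 0 ≤ 8 := by
      rcases le_total (A.V t 0) (1 / 2) with h | h
      · have := hF.w_le h
        rw [zero_add] at this
        linarith
      · exact hF.u_le (by linarith)
    rw [inv_mul_le_iff₀ hsq] at h1
    linarith
  -- `u` decreasing, `w` increasing
  have hanti : Antitone (A.u t) := antitone_of_hasDerivAt_nonpos hF.hu
    (fun y => by have := hF.V_lt y; show A.V t y - 1 ≤ 0; linarith)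
  have hmono : Monotone (fun y => y + A.u t y) := monotone_of_hasDerivAt_nonneg hF.hw
    (fun y => (hF.V_pos y).le)
  rcases le_total 0 x with h | h
  · have := hanti h
    have h2 := le_max_right (-x) (0 : ℝ)
    linarith
  · have h3 : x + A.u t x ≤ 0 + A.u t 0 := hmono h
    have h2 := le_max_left (-x) (0 : ℝ)
    linarith

/-- start, real numbers -/
lemma start_real {C C1 M B E g m u : ℝ} (hC10 : 0 ≤ C1) (hM0 : 0 ≤ M) (hE : 0 < E)
    (hC : 0 ≤ C) (hEB : 1 ≤ E * B) (hC2 : C1 * B ^ 2 ≤ C) (hC3 : C1 * (1 + 8 * M) * B ≤ C)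
    (hm : 0 ≤ m) (_hg : 0 ≤ g) (hgm : E * m ≤ g) (hu : u ≤ 8 * M + m) :
    C1 * (1 + u) ≤ C * E * (15 + g) := by
  have hB : 0 < B := by
    by_contra h
    have := mul_nonpos_of_nonneg_of_nonpos hE.le (not_lt.1 h)
    linarith
  have h2 : C1 * (1 + u) ≤ C1 * (1 + 8 * M) + C1 * m := by
    have : 1 + u ≤ (1 + 8 * M) + m := by linarith
    have := mul_le_mul_of_nonneg_left this hC10
    linarith
  have h4 : C1 * (1 + 8 * M) ≤ C * E := by
    have h5 := mul_le_mul_of_nonneg_right hC3 hE.le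
    have h6 : 0 ≤ C1 * (1 + 8 * M) := mul_nonneg hC10 (by linarith)
    have h7 := mul_le_mul_of_nonneg_left hEB h6
    have h8 : C1 * (1 + 8 * M) * (E * B) = C1 * (1 + 8 * M) * B * E := by ring
    linarith
  have h8 : C1 ≤ C * E ^ 2 := by
    have h7 : 1 ≤ (E * B) ^ 2 := one_le_pow₀ hEB
    have h9 := mul_le_mul_of_nonneg_right hC2 (sq_nonneg E)
    have h10 := mul_le_mul_of_nonneg_left h7 hC10
    have h11 : C1 * (E * B) ^ 2 = C1 * B ^ 2 * E ^ 2 := by ring
    linarith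
  have h5 : C1 * m ≤ C * E * (E * m) := by
    have := mul_le_mul_of_nonneg_right h8 hm
    have h11 : C * E ^ 2 * m = C * E * (E * m) := by ring
    linarith
  have h7 : 0 ≤ C * E := mul_nonneg hC hE.le
  have h6 : C * E * (E * m) ≤ C * E * g := mul_le_mul_of_nonneg_left hgm h7
  have h9 : C * E * (15 + g) = 15 * (C * E) + C * E * g := by ring
  linarith

/-- end, real numbers -/
lemma end_real {C lam s E g m : ℝ} (hC : 0 < C) (hs : 0 < s) (hE : 0 < E) (hlam : 0 < lam)
    (hm : 0 ≤ m) (hg : g ≤ 1 + 2 * (E * m))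
    (h1 : s ^ 2 * E ^ 2 ≤ lam / (2 * C)) (h2 : s ^ 2 * E ^ 2 ≤ (lam / (16 * C)) ^ 2) :
    C * E * (15 + g) ≤ lam * s⁻¹ * (1 + s⁻¹ * m) := by
  have e3 : s * E ≤ lam / (16 * C) := by
    refine le_of_sq_le_sq ?_ (by positivity)
    rw [mul_pow]; exact h2
  have e4 : 16 * C * E ≤ lam * s⁻¹ := by
    rw [le_div_iff₀ (by positivity)] at e3
    rw [← div_eq_mul_inv, le_div_iff₀ hs]
    linarith
  have e5 : 2 * C * E ^ 2 ≤ lam * s⁻¹ * s⁻¹ := by
    rw [le_div_iff₀ (by positivity)] at h1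
    have h8 : lam * s⁻¹ * s⁻¹ = lam / s ^ 2 := by field_simp
    rw [h8, le_div_iff₀ (by positivity)]
    linarith
  have h4 : C * E * (15 + g) ≤ C * E * (16 + 2 * (E * m)) :=
    mul_le_mul_of_nonneg_left (by linarith) (mul_nonneg hC.le hE.le)
  have h5 := mul_le_mul_of_nonneg_right e5 hm
  have h6 : C * E * (16 + 2 * (E * m)) = 16 * C * E + 2 * C * E ^ 2 * m := by ring
  have h7 : lam * s⁻¹ * (1 + s⁻¹ * m) = lam * s⁻¹ + lam * s⁻¹ * s⁻¹ * m := by
    ring
  rw [h7]
  linarith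

variable {P : Prof} {T S : ℝ → ℝ}

/-- **law lower bound, uniformly in the sequence**, both clocks -/
theorem lawlo (hLOW : LOW) (Q : PreSeq P T S) (ω : Bool) {lam : ℝ} (hlam : 0 < lam) :
    ∃ tb : ℝ, 0 < tb ∧ tb < 1 ∧ ∀ᶠ n in atTop, ∀ t ∈ Icc tb (Q.A n).T, ∀ x,
      -(lam * (Real.sqrt (sc ω (Q.A n) t))⁻¹ *
        (1 + (Real.sqrt (sc ω (Q.A n) t))⁻¹ * max (-x) 0)) ≤ Q.Y n t x := by
  -- the initial time
  obtain ⟨ta, ha0, ha1, ha⟩ := small Q ω (ε := 1 / 441) (by norm_num)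
  set t0 : ℝ := max ta (1 / 2) with ht0
  have ht01 : t0 ∈ Ioo (0 : ℝ) 1 := ⟨by rw [ht0]; positivity, max_lt ha1 (by norm_num)⟩
  obtain ⟨C1, hC1⟩ := Q.Ys t0 ht01
  -- a uniform bound of D and of √χ at t0
  have hDpos : 0 < P.D t0 := Q.pos t0 ⟨ht01.1.le, ht01.2⟩
  have hT1 : ∀ᶠ n in atTop, t0 < (Q.A n).T :=
    (tendsto_T Q.apx Q.ε_lim).eventually (lt_mem_nhds ht01.2)
  have hDb : ∀ᶠ n in atTop, (Q.A n).D t0 < P.D t0 + 1 :=
    (tendsto_D Q.apx Q.ε_lim ⟨ht01.1.le, ht01.2.le⟩).eventually (gt_mem_nhds (by linarith))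
  have hKb : ∀ᶠ n in atTop, (Q.A n).K0 t0 < Ks P.D t0 + 1 :=
    (tendsto_K0 Q.apx Q.ε_lim ⟨ht01.1.le, ht01.2.le⟩).eventually (gt_mem_nhds (by linarith))
  set B : ℝ := P.D t0 + 1 with hB
  have hB0 : 1 < B := by linarith
  set M : ℝ := Real.sqrt (B * (Ks P.D t0 + 1)) with hM
  have hM0 : 0 ≤ M := Real.sqrt_nonneg _
  set C : ℝ := max 1 (max (C1 * B ^ 2) (C1 * (1 + 8 * M) * B)) with hC
  have hCone : 1 ≤ C := le_max_left _ _
  have hC2 : C1 * B ^ 2 ≤ C := (le_max_left _ _).trans (le_max_right _ _)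
  have hC3 : C1 * (1 + 8 * M) * B ≤ C := (le_max_right _ _).trans (le_max_right _ _)
  -- the final time
  have hδ : 0 < min (lam / (2 * C)) ((lam / (16 * C)) ^ 2) := by positivity
  obtain ⟨tc, hc0, hc1, hc⟩ := small Q ω hδ
  refine ⟨max tc t0, lt_max_of_lt_right ht01.1, max_lt hc1 ht01.2, ?_⟩
  filter_upwards [hC1, hT1, hDb, hKb] with n hn1 hn2 hn3 hn4 t ht x
  set A := Q.A n with hA
  have hB' := Q.back n
  have hCl := Q.clock n
  have htt0 : t ∈ Icc t0 A.T := ⟨(le_max_right _ _).trans ht.1, ht.2⟩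
  have htc : t ∈ Icc tc A.T := ⟨(le_max_left _ _).trans ht.1, ht.2⟩
  have hE0 := A.E_pos t0
  have hD0 := A.D_pos t0
  have hED : A.E t0 * A.D t0 = 1 := inv_mul_cancel₀ hD0.ne'
  have hEB : 1 ≤ A.E t0 * B := by
    have := mul_le_mul_of_nonneg_left hn3.le hE0.le
    linarith
  have hν : ∀ s ∈ Ico 0 A.T, (1 - s) * A.b s ≤ 1 := fun s hs =>
    (Q.apx n).b_le ⟨hs.1, (hs.2.trans A.hT1).le⟩
  have h21 : ∀ s ∈ Icc t0 A.T, 21 * Real.sqrt (1 - s) ≤ A.D s := by
    intro s hs
    have h1 := ha n s ⟨(le_max_left _ _).trans hs.1, hs.2⟩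
    have h2 := sc_ge hCl ω (hs.2.trans_lt A.hT1)
    have h3 : (1 - s) * A.E s ^ 2 ≤ 1 / 441 :=
      (mul_le_mul_of_nonneg_right h2 (sq_nonneg _)).trans h1
    have hDs := A.D_pos s
    have h4 : (1 - s) * 441 ≤ A.D s ^ 2 := by
      unfold SD.E at h3
      rw [inv_pow, ← div_eq_mul_inv, div_le_iff₀ (by positivity)] at h3
      linarith
    have h5 : Real.sqrt (1 - s) ^ 2 = 1 - s := Real.sq_sqrt (by linarith [hs.2, A.hT1])
    have h6 := Real.sqrt_nonneg (1 - s)
    apply le_of_sq_le_sq _ hDs.le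
    nlinarith
  -- start
  have hst : ∀ x, -(C * A.E t0 * (15 + sg (-(x * A.E t0)))) ≤ Q.Y n t0 x := by
    intro x
    refine le_trans (neg_le_neg ?_) (hn1 x).1
    have hC10 : 0 ≤ C1 := by
      have h1 := hn1 x
      have h2 : -(C1 * (1 + A.u t0 x)) ≤ C1 * (1 + A.w t0 x) := h1.1.trans h1.2
      have hu := hB'.u_pos t0 ⟨ht01.1.le, hn2.le⟩ x
      have hw := hB'.w_pos t0 ⟨ht01.1.le, hn2.le⟩ x
      by_contra hneg
      have : C1 * (2 + A.u t0 x + A.w t0 x) < 0 :=
        mul_neg_of_neg_of_pos (not_le.1 hneg) (by linarith)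
      linarith
    have h1 := u_le A ⟨ht01.1.le, hn2.le⟩ x
    have hsqM : Real.sqrt (A.chi t0) ≤ M := by
      apply Real.sqrt_le_sqrt
      unfold SD.chi
      exact mul_le_mul hn3.le hn4.le ((hCl.K0_pos t0 ht01.2).le) (by linarith)
    have hmx : 0 ≤ max (-x) 0 := le_max_right _ _
    have hsg1 := sg_ge (-(x * A.E t0))
    have hsg0 := (sg_pos (-(x * A.E t0))).le
    have h3 : A.E t0 * max (-x) 0 ≤ sg (-(x * A.E t0)) := by
      rcases le_total 0 x with h | h
      · rw [max_eq_right (by linarith), mul_zero]; exact hsg0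
      · rw [max_eq_left (by linarith)]
        have h5 : 0 ≤ A.E t0 * (-x) := mul_nonneg hE0.le (by linarith)
        linarith
    exact start_real hC10 hM0 hE0 (by linarith) hEB hC2 hC3 hmx hsg0 h3 (by linarith)
  have key := hLOW A 1 (Q.p n) (Q.Y n) (Q.Yx n) (Q.Yxx n) hB' hCl (Q.law n) hν t0
    ⟨ht01.1, hn2⟩ h21 C hCone hst t htt0 x
  refine le_trans (neg_le_neg ?_) key
  have hsm := hc n t htc
  have hs0 : 0 < sc ω A t := by
    have := sc_ge hCl ω (ht.2.trans_lt A.hT1)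
    have := A.hT1
    linarith [ht.2]
  have hsq := Real.sqrt_pos.2 hs0
  have hsq2 : Real.sqrt (sc ω A t) ^ 2 = sc ω A t := Real.sq_sqrt hs0.le
  set s := Real.sqrt (sc ω A t) with hs
  have hE := A.E_pos t
  have hmx : 0 ≤ max (-x) 0 := le_max_right _ _
  have h3 : sg (-(x * A.E t)) ≤ 1 + 2 * (A.E t * max (-x) 0) := by
    refine (sg_le' _).trans ?_
    have : max (-(x * A.E t)) 0 ≤ A.E t * max (-x) 0 := by
      refine max_le ?_ (mul_nonneg hE.le hmx)
      have := mul_le_mul_of_nonneg_left (le_max_left (-x) 0) hE.le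
      linarith
    linarith
  refine end_real (by linarith) hsq hE hlam hmx h3 ?_ ?_
  · rw [hsq2]; exact hsm.trans (min_le_left _ _)
  · rw [hsq2]; exact hsm.trans (min_le_right _ _)

end

end Crest.Agent.R146.WinLaw_746
end

-- ▼ part R146/WinLow_746
section

/-!
Row 146, PT-CMP (helper746): `WinLaw_746.LOW` from `FlatStep_384` (helper384).
-/

set_option autoImplicit false

open Set Filter Topology

namespace Crest.Agent.R146.WinLow_746

open MaxP_371 MaxP2_371 MaxPCmp_371 MaxPCmp2_371 StepDef_791 Pos_371 Flat_384 FlatStep_384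

theorem low : WinLaw_746.LOW := by
  intro A x0 p Y Yx Yxx hBk hCl hL hν' t0 ht0 hD C hC hinit
  have hν : ∀ t ∈ Ico 0 A.T, A.b t * (1 - t) ≤ 1 := fun t ht => by
    rw [mul_comm]; exact hν' t ht
  obtain ⟨M, hM⟩ := hL.ysys t0 ht0
  have hbar : FBar t0 A.T (fun _ _ => (0:ℝ)) (fun _ _ => 0) (fun _ _ => 0) (fun _ _ => 0) :=
    { cS := continuousOn_const
      hSt := fun t _ x => hasDerivWithinAt_const t _ 0
      hSx := fun t _ x => hasDerivAt_const x 0
      hSxx := fun t _ x => HasSide.of_hasDerivAt (hasDerivAt_const x 0) }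
  have key := add_le_Y (E := A.E) (C := C) (c0 := 15) (L := 0) hM hbar
    (StepClk_900.E_cont A).continuousOn (fun t _ => A.E_pos t) (fun t _ => StepClk_900.E_l A t)
    (by linarith) (by linarith) (fun t _ x => by simp) (fun t _ x => by simp) ?_ ?_ ?_
  · intro t ht x
    have := key t ht x
    unfold Q at this
    linarith
  · intro t ht x
    have htI : t ∈ Icc 0 A.T := ⟨ht0.1.le.trans ht.1.le, ht.2⟩
    have h1 := mul_nonneg (A.bl_nonneg t) (hBk.P_pos t htI x).le
    simp only [mul_zero, zero_div, sub_zero, zero_add, add_zero]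
    linarith
  · intro t ht x
    have htI : t ∈ Icc 0 A.T := ⟨ht0.1.le.trans ht.1.le, ht.2⟩
    have htI' : t ∈ Icc t0 A.T := ⟨ht.1.le, ht.2⟩
    have hE := A.E_pos t
    have hDE : A.D t * A.E t = 1 := by
      unfold SD.E; exact mul_inv_cancel₀ (A.D_pos t).ne'
    have hcond := hpt_low (x := x) (e := A.E t) (β := A.bl t) (uu := A.u t) (VV := A.V t)
      (A.bl_nonneg t) hE ?_ ?_ (V_01 hBk htI x).1.le
    · simp only [mul_zero, sub_zero, add_zero]
      exact hcond
    · intro hx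
      have h1 := step_FF hBk hν ht0.1.le ht0.2.le hD t htI' x hx
      have h2 := mul_le_mul_of_nonneg_left h1 hE.le
      have e1 : A.E t * ((A.D t - x) * A.V t x) = (1 - x * A.E t) * A.V t x := by
        have : A.E t * ((A.D t - x) * A.V t x) = (A.D t * A.E t - x * A.E t) * A.V t x := by ring
        rw [this, hDE]
      rw [e1] at h2
      exact h2
    · intro hx
      refine ⟨?_, ?_⟩
      · have h1 := u_anti hBk htI hx
        have h2 := step_u_zero hBk hν htI
        have h3 := hD t htI'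
        have h4 : A.E t * (21 * √(1 - t)) ≤ 1 := by
          have := mul_le_mul_of_nonneg_left h3 hE.le
          linarith
        have h5 : A.E t * (x + A.u t x) ≤ A.E t * (x + 0.8 * √(1 - t)) :=
          mul_le_mul_of_nonneg_left (by linarith) hE.le
        have h6 := mul_nonneg hE.le (Real.sqrt_nonneg (1 - t))
        nlinarith
      · exact (step_V_zero hBk hν t htI).trans (V_mono hBk htI hx)
  · intro x
    have := hinit x
    unfold Q
    linarith

end Crest.Agent.R146.WinLow_746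
end

-- ▼ part R146/WinCert_746
section

/-!
Row 146, PT-CMP (helper746): certificate of an upper window `Y ∈ [0,hi] ⟹ Y ≤ h` (functions of the level
`v ∈ (0,1)` only), and the closure inequality it gives at one fixed time.
-/

set_option autoImplicit false

namespace Crest.Agent.R146.WinCert_746

open Set MeasureTheory Filter Topology ProbabilityTheory
open Crest.Agent.R146.Band_371 (UpBand)
open Crest.Agent.R146.Clo_42
open Crest.Agent.R146.Abs_423
open Crest.Agent.R146.StepStart_483 (ph Phi)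

noncomputable section

/-- **certificate of the window** `[0,hi] → h`; `om = 0` old clock (`χ = 1-t`), `om = 1` new clock.
Band `√χ P ≤ S(V)`, dual function `G ≤ 0` with `S² - S G' ≤ 2h v(1-v)²`. -/
structure Cert (om hi h : ℝ) (S S1 S2 G G' : ℝ → ℝ) (Z : Set ℝ) (κ KM C e : ℝ) : Prop where
  band : UpBand om κ 0 hi S S1 S2
  bdd : ∀ v ∈ Ioo (0 : ℝ) 1, S v ≤ KM
  start : ∀ z, ph z ≤ S (Phi z)
  gd : GD G G' Z
  neg : ∀ v ∈ Ioo (0 : ℝ) 1, G v ≤ 0
  he : 0 < e
  hC : 0 ≤ C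
  left : ∀ v ∈ Ioc (0 : ℝ) (1 / 2), |G v| ≤ C * (v * Real.sqrt v)
  right : ∀ v ∈ Ico (1 / 2 : ℝ) 1, |G v| ≤ C * (1 - v) ^ e
  clo : ∀ v ∈ Ioo (0 : ℝ) 1, v ∉ Z → S v ^ 2 - S v * G' v ≤ 2 * h * (v * (1 - v) ^ 2)

/-- existential form -/
def CertEx (om hi h : ℝ) : Prop :=
  ∃ (S S1 S2 G G' : ℝ → ℝ) (Z : Set ℝ) (κ KM C e : ℝ), Cert om hi h S S1 S2 G G' Z κ KM C e

end

end Crest.Agent.R146.WinCert_746
end

-- ▼ part R146/WinBand_746
section

/-!
Row 146, PT-CMP (helper746): upper slope band of the step system from a `C¹` barrier (one-sided second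
derivative), window `[0, hi]`, start at `T` with the Gaussian, both clocks. No transient.
-/

set_option autoImplicit false

namespace Crest.Agent.R146.WinBand_746

open Set MeasureTheory Filter Topology ProbabilityTheory
open Crest.Agent.R146.WinLim_746 Crest.Agent.R146.StepDef_791
open Crest.Agent.R146.MaxP_371 Crest.Agent.R146.MaxP2_371 Crest.Agent.R146.MaxPCmp_371
open Crest.Agent.R146.SlopeT_371

noncomputable section

/-- `1` in the new clock, `0` in the old one -/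
def om (ω : Bool) : ℝ := if ω then 1 else 0


lemma sc_pos {A : SD} (hC : Clock A) (ω : Bool) {t : ℝ} (ht : t < 1) : 0 < sc ω A t :=
  (sub_pos.2 ht).trans_le (sc_ge hC ω ht)






end

end Crest.Agent.R146.WinBand_746
end

-- ▼ part R146/WinStep_746
section

/-!
Row 146, PT-CMP (helper746): closure inequality of a certificate at the step level, both clocks.
-/

set_option autoImplicit false

namespace Crest.Agent.R146.WinStep_746

open Set MeasureTheory Filter Topology ProbabilityTheory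
open Crest.Agent.R146.Clo_42
open Crest.Agent.R146.Abs_423
open Crest.Agent.R146.WinCert_746
open Crest.Agent.R146.WinLim_746 Crest.Agent.R146.StepDef_791

noncomputable section

variable {om hi h : ℝ} {S S1 S2 G G' : ℝ → ℝ} {Z : Set ℝ} {κ KM C e : ℝ}

/-- closure inequality at one fixed time -/
theorem one {V P u p Y : ℝ → ℝ} (hc : Cert om hi h S S1 S2 G G' Z κ KM C e) (hh : 0 ≤ h)
    (hL : Lw V P p Y) {σ sv : ℝ} (hF : Fix sv V P u) (hσ : 0 < σ) (hs : σ * sv = 1)
    (hband : ∀ x, σ * P x ≤ S (V x)) {lam : ℝ} (hl0 : 0 ≤ lam) (hl : 72 * lam ≤ e)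
    (hlaw : ∀ x, -(lam * sv * (1 + sv * max (-x) 0)) ≤ Y x) :
    σ ^ 2 * ∫ x, p x * P x ^ 2 ≤
      (2 * h + lam * (15 * C * Fix.KA KM e)) * ∫ x, p x * (V x * (1 - V x) ^ 2) := by
  have hsv := hF.s_pos
  have hC := hc.hC
  have he := hc.he
  have memV : ∀ x, V x ∈ Ioo (0:ℝ) 1 := fun x => ⟨hL.V_pos x, hL.V_lt x⟩
  have hKM : 0 ≤ KM := by
    have h1 := hc.bdd (1/2) ⟨by norm_num, by norm_num⟩
    have h2 := hc.band.pos (1/2) ⟨by norm_num, by norm_num⟩
    linarith
  have hP : ∀ x, P x ≤ KM * sv := fun x => by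
    have h1 := (hband x).trans (hc.bdd _ (memV x))
    have h2 : P x = sv * (σ * P x) := by
      rw [← mul_assoc, mul_comm sv σ, hs, one_mul]
    rw [h2, mul_comm KM]
    exact mul_le_mul_of_nonneg_left h1 hsv.le
  have cV : Continuous V := V_cont hL
  have cG : Continuous (fun x => G (V x)) := hc.gd.cont.comp_continuous cV memV
  set w : ℝ → ℝ := fun x => 1 + sv * max (-x) 0 with hw
  have hw0 : ∀ x, 1 ≤ w x := fun x => by
    have := mul_nonneg hsv.le (le_max_right (-x) 0)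
    simp only [hw]; linarith
  have cw : Continuous w := by
    simp only [hw]; fun_prop
  obtain ⟨B, hB⟩ := hc.gd.bd
  have i2 : Integrable (fun x => p x * (w x * |G (V x)|)) := by
    refine int_of hL (cw.mul cG.abs).aestronglyMeasurable (M := (1 + sv) * B) (n := 1)
      fun x => ?_
    rw [abs_mul, abs_abs, pow_one]
    have h1 : |w x| ≤ (1 + sv) * (1 + |x|) := by
      rw [abs_of_pos (by linarith [hw0 x])]
      have h2 : max (-x) 0 ≤ |x| := max_le (neg_le_abs x) (abs_nonneg x)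
      have h3 := mul_le_mul_of_nonneg_left h2 hsv.le
      simp only [hw]
      nlinarith [abs_nonneg x]
    calc |w x| * |G (V x)| ≤ ((1 + sv) * (1 + |x|)) * B :=
          mul_le_mul h1 (hB _ (memV x)) (abs_nonneg _) ((abs_nonneg _).trans h1)
      _ = (1 + sv) * B * (1 + |x|) := by ring
  -- the closure inequality with error
  have key := up hL hc.gd hc.neg (s := σ) (hh := h) (ε := 0) (lam := lam) (S := S)
    (F := fun v => S v ^ 2 + |S v * G' v|) (ℓ := fun _ => 0) (w := w) hσ hh le_rfl zero_le_one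
    (fun x => (hc.band.pos _ (memV x)).le) (fun x => by simp)
    (fun x => by rw [add_zero, one_mul]; exact hband x)
    (fun x => by
      have h1 := mul_le_mul_of_nonneg_left (hlaw x) hσ.le
      have h2 : σ * -(lam * sv * (1 + sv * max (-x) 0)) = -(lam * w x) := by
        simp only [hw]
        have : σ * -(lam * sv * (1 + sv * max (-x) 0)) =
          -(lam * (σ * sv) * (1 + sv * max (-x) 0)) := by ring
        rw [this, hs]; ring
      rw [h2] at h1
      linarith)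
    (fun x hx => by
      have := hc.clo _ (memV x) hx
      rw [zero_mul, add_zero]; exact this)
    (fun x _ => le_rfl) ?_ i2
  · have hI := (hL.mom 0)
    simp only [pow_zero, mul_one] at hI
    have ha := Fix.absorb hF hKM hP he (C := 15 * C) (by positivity) hl0 hl hL.p_pos hL.p_x hlaw hI i2
      (fun x hx => by
        have h1 := hF.left_decay hx
        have h2 := hc.left (V x) ⟨hL.V_pos x, hx⟩
        have h3 : w x * |G (V x)| ≤ w x * (C * (V x * Real.sqrt (V x))) :=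
          mul_le_mul_of_nonneg_left h2 (by linarith [hw0 x])
        have h4 : w x * (C * (V x * Real.sqrt (V x))) =
          C * V x * (w x * Real.sqrt (V x)) := by ring
        have h5 : C * V x * (w x * Real.sqrt (V x)) ≤ C * V x * 15 :=
          mul_le_mul_of_nonneg_left h1 (mul_nonneg hC (hL.V_pos x).le)
        linarith)
      (fun x hx => by
        have h1 := hF.pos_lo (x := x) (by linarith)
        have h2 := hc.right (V x) ⟨hx, hL.V_lt x⟩
        have h6 : w x ≤ 9 := by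
          have h7 : sv * max (-x) 0 ≤ 8 := by
            rcases le_total (-x) 0 with h8 | h8
            · rw [max_eq_right h8]; norm_num
            · rw [max_eq_left h8]; linarith
          simp only [hw]; linarith
        have h0 : 0 ≤ (1 - V x) ^ e := Real.rpow_nonneg (by linarith [hL.V_lt x]) _
        have h3 : w x * |G (V x)| ≤ 9 * (C * (1 - V x) ^ e) :=
          mul_le_mul h6 h2 (abs_nonneg _) (by norm_num)
        have h9 : 0 ≤ sv * max x 0 := mul_nonneg hsv.le (le_max_right _ _)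
        have h10 : 0 ≤ C * (1 - V x) ^ e := mul_nonneg hC h0
        nlinarith [mul_nonneg h9 h10])
    have h3 := mul_le_mul_of_nonneg_left ha hl0
    simp only [mul_zero, zero_mul, add_zero] at key
    have h4 : (2 * h + lam * (15 * C * Fix.KA KM e)) * ∫ x, p x * (V x * (1 - V x) ^ 2) =
      2 * h * (∫ x, p x * (V x * (1 - V x) ^ 2)) +
        lam * (15 * C * Fix.KA KM e * ∫ x, p x * (V x * (1 - V x) ^ 2)) := by ring
    rw [h4]
    linarith
  · -- integrability of F
    obtain ⟨B', hB'⟩ := hc.gd.bd'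
    have cS : Continuous (fun x => S (V x)) := hc.band.cont.comp_continuous cV memV
    have hZ : (V ⁻¹' Z).Countable := preZ hL hc.gd.cnt
    have htf := hc.gd.tf hL
    -- measurability of G' ∘ V
    have mG : AEStronglyMeasurable (fun x => G' (V x)) volume := by
      have h1 : AEStronglyMeasurable (fun x => (P x)⁻¹ * (P x * G' (V x))) volume :=
        ((hL.P_cont.inv₀ fun x => (hL.P_pos x).ne').aestronglyMeasurable).mul htf.meas'
      refine h1.congr (Eventually.of_forall fun x => ?_)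
      simp only
      rw [← mul_assoc, inv_mul_cancel₀ (hL.P_pos x).ne', one_mul]
    refine int_bdd hL (g := fun x => S (V x) ^ 2 + |S (V x) * G' (V x)|)
      ((cS.pow 2).aestronglyMeasurable.add (cS.aestronglyMeasurable.mul mG).norm)
      (M := KM ^ 2 + KM * B') fun x => ?_
    have h0 := (hc.band.pos _ (memV x)).le
    have h1 := hc.bdd _ (memV x)
    have h2 := hB' _ (memV x)
    rw [abs_of_nonneg (by positivity), abs_mul, abs_of_nonneg h0]
    have h3 := pow_le_pow_left₀ h0 h1 2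
    have h4 := mul_le_mul h1 h2 (abs_nonneg _) hKM
    linarith

open Crest.Agent.R146.Band_371 (Clk clk0 clk1 poor_up sqrt_le_iff)

/-- the clock as a `Clk` of `Band_371` -/
theorem clk {A : SD} (hC : Clock A) (ω : Bool) :
    ∃ k : ℝ → ℝ, Clk A (WinBand_746.om ω) (sc ω A) k := by
  cases ω
  · have h1 : sc false A = fun t => 1 - t := by funext t; simp [sc]
    rw [h1]
    exact ⟨_, by simpa [WinBand_746.om] using clk0 A⟩
  · have h1 : sc true A = A.chi := by funext t; simp [sc]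
    rw [h1]
    exact ⟨_, by simpa [WinBand_746.om] using clk1 hC⟩

/-- **closure inequality of a certificate at the step level** -/
theorem step {A : SD} {x0 : ℝ} {p Y Yx Yxx : ℝ → ℝ → ℝ} (ω : Bool)
    (hc : Cert (WinBand_746.om ω) hi h S S1 S2 G G' Z κ KM C e) (hh : 0 ≤ h)
    (hB : Back A) (hC : Clock A) (hL : Law A x0 p Y Yx Yxx)
    (hν : ω = false → ∀ t ∈ Ico 0 A.T, (1 - t) * A.b t ≤ 1)
    {t0 : ℝ} (h0 : 0 ≤ t0) (hY : ∀ t ∈ Ico t0 A.T, A.b t * sc ω A t ≤ hi)
    {t : ℝ} (ht : t ∈ Icc t0 A.T) (htp : 0 < t) {lam : ℝ} (hl0 : 0 ≤ lam) (hl : 72 * lam ≤ e)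
    (hlaw : ∀ x, -(lam * (Real.sqrt (sc ω A t))⁻¹ *
      (1 + (Real.sqrt (sc ω A t))⁻¹ * max (-x) 0)) ≤ Y t x) :
    sc ω A t * Ns A x0 p t ≤ (2 * h + lam * (15 * C * Fix.KA KM e)) * Zs A x0 p t := by
  have htI : t ∈ Icc 0 A.T := ⟨htp.le, ht.2⟩
  have hT1 := A.hT1
  have hsc : 0 < sc ω A t := WinBand_746.sc_pos hC ω (ht.2.trans_lt hT1)
  have hsq : 0 < Real.sqrt (sc ω A t) := Real.sqrt_pos.2 hsc
  obtain ⟨k, hk⟩ := clk hC ω
  have hband := poor_up hB hk hc.band h0
    (fun s hs => ⟨mul_nonneg (A.b_nonneg s)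
      (WinBand_746.sc_pos hC ω (hs.2.trans hT1)).le, hY s hs⟩) hc.start t ht
  have hF : Fix (Real.sqrt (sc ω A t))⁻¹ (A.V t) (A.P t) (A.u t) := by
    cases ω
    · have h1 : sc false A t = 1 - t := by simp [sc]
      rw [h1]
      exact FixA_423.fix_tau A (hν rfl) htI
    · have h1 : sc true A t = A.chi t := by simp [sc]
      rw [h1]
      exact FixA_423.fix_chi A htI
  have hLw := lw_of hB hL ⟨htp, ht.2⟩
  have := one hc hh hLw hF hsq (mul_inv_cancel₀ hsq.ne')
    (fun x => (sqrt_le_iff hk htI).1 (hband x)) hl0 hl hlaw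
  rw [Ns_eq htp, Zs_eq htp]
  rwa [Real.sq_sqrt hsc.le] at this

end

end Crest.Agent.R146.WinStep_746
end

-- ▼ part R146/WinData_746
section

/-!
Row 146, PT-CMP (helper746): `UpCert` of helper937 gives `CertEx` of `WinCert_746`.
-/

set_option autoImplicit false

namespace Crest.Agent.R146.WinData_746

open Set Filter Topology
open Crest.Agent.R146.MaxP_371 Crest.Agent.R146.MaxP2_371 Crest.Agent.R146.SlopeT_371
open Crest.Agent.R146.SlopeV_371
open Crest.Agent.R146.StepStart_483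
open Crest.Agent.R146.WinCert_746

/-- the Gaussian profile is below every barrier with `K K'' ≤ -1`, left second derivative -/
theorem gauss_le_left {K K1 K2 : ℝ → ℝ} (hK0 : ∀ v ∈ Ioo (0:ℝ) 1, 0 < K v)
    (hK : ∀ v ∈ Ioo (0:ℝ) 1, HasDerivAt K (K1 v) v)
    (hK1 : ∀ v ∈ Ioo (0:ℝ) 1, HasDerivWithinAt K1 (K2 v) (Iic v) v)
    (hKK : ∀ v ∈ Ioo (0:ℝ) 1, K v * K2 v ≤ -1) (z : ℝ) : ph z ≤ K (Phi z) := by
  by_contra hcon
  push Not at hcon
  have hPI : ∀ z, Phi z ∈ Ioo (0:ℝ) 1 := fun z => ⟨Phi_pos z, Phi_lt_one z⟩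
  set F : ℝ → ℝ := fun z => ph z - K (Phi z) with hF
  have hpos : 0 < F z := sub_pos.2 hcon
  have hd : ∀ y, HasDerivAt F (-y * ph y - K1 (Phi y) * ph y) y := fun y =>
    (ph_deriv y).sub ((hK _ (hPI y)).comp y (Phi_deriv y))
  have hc : Continuous F := continuous_iff_continuousAt.2 fun y => (hd y).continuousAt
  obtain ⟨a, ha⟩ := (eventually_atBot.1 (ph_tendsto_atBot.eventually (gt_mem_nhds hpos)))
  obtain ⟨b, hb⟩ := (eventually_atTop.1
    (WinQ_454.ph_tendsto_atTop.eventually (gt_mem_nhds hpos)))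
  have hout : ∀ y, (y ≤ a ∨ b ≤ y) → F y < F z := by
    intro y hy
    have h1 : F y ≤ ph y := by
      have := (hK0 _ (hPI y)).le
      simp only [hF]; linarith
    rcases hy with hy | hy
    · exact h1.trans_lt (ha y hy)
    · exact h1.trans_lt (hb y hy)
  have hza : a < z := by
    by_contra hh; exact lt_irrefl _ (hout z (Or.inl (not_lt.1 hh)))
  have hzb : z < b := by
    by_contra hh; exact lt_irrefl _ (hout z (Or.inr (not_lt.1 hh)))
  obtain ⟨z0, hz0, hmax⟩ := isCompact_Icc.exists_isMaxOn (nonempty_Icc.2 (hza.trans hzb).le)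
    (hc.continuousOn (s := Icc a b))
  have hglob : ∀ y, F y ≤ F z0 := by
    intro y
    by_cases hy : y ∈ Icc a b
    · exact hmax hy
    · have h1 : y ≤ a ∨ b ≤ y := by
        by_contra hh
        push Not at hh
        exact hy ⟨hh.1.le, hh.2.le⟩
      exact (hout y h1).le.trans (hmax ⟨hza.le, hzb.le⟩)
  have hloc : IsLocalMax F z0 := Eventually.of_forall hglob
  have hmap : MapsTo Phi (Iic z0) (Iic (Phi z0)) := fun y hy => by
    have hm : Monotone Phi := monotone_of_deriv_nonneg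
      (fun y => (Phi_deriv y).differentiableAt) fun y => by
        rw [(Phi_deriv y).deriv]; exact (ph_pos y).le
    exact hm hy
  have h2 : HasDerivWithinAt (fun y => -y * ph y - K1 (Phi y) * ph y)
      ((-1 * ph z0 + -z0 * (-z0 * ph z0)) -
        ((K2 (Phi z0) * ph z0) * ph z0 + K1 (Phi z0) * (-z0 * ph z0))) (Iic z0) z0 := by
    have a1 : HasDerivWithinAt (fun y : ℝ => -y) (-1) (Iic z0) z0 :=
      (hasDerivAt_id z0).neg.hasDerivWithinAt
    have a2 : HasDerivWithinAt (fun y => K1 (Phi y)) (K2 (Phi z0) * ph z0) (Iic z0) z0 :=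
      (hK1 _ (hPI z0)).comp z0 (Phi_deriv z0).hasDerivWithinAt hmap
    exact (a1.mul (ph_deriv z0).hasDerivWithinAt).sub (a2.mul (ph_deriv z0).hasDerivWithinAt)
  obtain ⟨e1, e2⟩ := (show HasSide _ _ z0 from Or.inr h2).nonpos (Eventually.of_forall hd) hloc
  have hp := ph_pos z0
  have hF0 : 0 < F z0 := hpos.trans_le (hglob z)
  have hlt : K (Phi z0) < ph z0 := sub_pos.1 hF0
  have hkk := hKK _ (hPI z0)
  have hk0 := hK0 _ (hPI z0)
  have e3 : z0 + K1 (Phi z0) = 0 := by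
    have : -(ph z0) * (z0 + K1 (Phi z0)) = 0 := by linarith
    rcases mul_eq_zero.1 this with h | h
    · linarith
    · exact h
  have e4 : K2 (Phi z0) < 0 := by
    by_contra hh
    have := mul_nonneg hk0.le (not_lt.1 hh)
    linarith
  have e5 : ph z0 * K2 (Phi z0) < -1 := by
    have := mul_lt_mul_of_neg_right hlt e4
    linarith
  have e6 : (-1 * ph z0 + -z0 * (-z0 * ph z0)) -
      ((K2 (Phi z0) * ph z0) * ph z0 + K1 (Phi z0) * (-z0 * ph z0)) =
      ph z0 * (z0 * (z0 + K1 (Phi z0))) - ph z0 * (1 + ph z0 * K2 (Phi z0)) := by ring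
  rw [e6, e3] at e2
  have := mul_pos hp (show 0 < -(1 + ph z0 * K2 (Phi z0)) by linarith)
  nlinarith

open WinDef_937 in
/-- **`UpCert` gives `CertEx`.** -/
theorem of_up {ω hi up : ℝ} (hhi : 0 ≤ hi) (c : UpCert ω 0 hi up) :
    ∃ h : ℝ, 0 ≤ h ∧ h < up ∧ CertEx ω hi h := by
  have hI : ∀ v ∈ Ioo (0:ℝ) 1, v ∈ Icc (0:ℝ) 1 := fun v hv => ⟨hv.1.le, hv.2.le⟩
  have hCG : 0 ≤ c.CG := by
    have h1 := c.G1_abs 1 ⟨zero_le_one, le_rfl⟩
    have h2 := abs_nonneg (c.G1 1)
    linarith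
  refine ⟨c.c, c.c_nonneg, c.c_lt, c.K, c.K1, c.K2, c.G, c.G1, ∅, 0, c.CK, c.CG, 1, ?_⟩
  have hKK1 : ∀ v ∈ Ioo (0:ℝ) 1, c.K v * c.K2 v ≤ -1 := by
    intro v hv
    have h1 := c.stat0 0 ⟨le_rfl, hhi⟩ v hv
    have hK := c.K_pos v hv
    unfold Stat at h1
    simp only [mul_zero, add_zero, one_mul, zero_mul] at h1
    have h2 : c.K v * (1 + c.K v * c.K2 v) ≤ 0 := by nlinarith
    have h3 : 1 + c.K v * c.K2 v ≤ 0 := by
      by_contra hh
      have := mul_pos hK (not_le.1 hh)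
      linarith
    linarith
  exact
  { band :=
      { cont := c.contIoo
        pos := c.K_pos
        touch := fun v hv => TouchAbove.of_deriv
          (by filter_upwards [isOpen_Ioo.mem_nhds hv] with y hy using c.dK y hy) (c.side v hv)
        hκ := le_rfl
        conc := fun v hv => by have := hKK1 v hv; linarith
        stat_lo := fun v hv => c.stat0 0 ⟨le_rfl, hhi⟩ v hv
        stat_hi := fun v hv => c.stat0 hi ⟨hhi, le_rfl⟩ v hv }
    bdd := fun v hv => by
      have h1 := c.K_le v (hI v hv)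
      have h2 : Real.sqrt v ≤ 1 := by
        rw [show (1:ℝ) = Real.sqrt 1 by simp]
        exact Real.sqrt_le_sqrt hv.2.le
      have := mul_le_mul_of_nonneg_left h2 c.CK_pos.le
      linarith
    start := gauss_le_left c.K_pos c.dK c.dK1 hKK1
    gd :=
      { cnt := countable_empty
        cont := fun v hv => (c.dG v (hI v hv)).continuousAt.continuousWithinAt
        dG := fun v hv _ => c.dG v (hI v hv)
        bd := ⟨c.CG, fun v hv => by
          have h1 := c.G_abs v (hI v hv)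
          have h2 : v ^ 2 * (1 - v) ≤ 1 := by nlinarith [hv.1, hv.2, sq_nonneg v]
          have := mul_le_mul_of_nonneg_left h2 hCG
          linarith⟩
        bd' := ⟨c.CG, fun v hv => by
          have h1 := c.G1_abs v (hI v hv)
          have := mul_le_mul_of_nonneg_left hv.2.le hCG
          linarith⟩ }
    neg := fun v hv => (c.G_neg v hv).le
    he := one_pos
    hC := hCG
    left := fun v hv => by
      have h1 := c.G_abs v ⟨hv.1.le, by linarith [hv.2]⟩
      refine h1.trans (mul_le_mul_of_nonneg_left ?_ hCG)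
      have h2 : v ≤ Real.sqrt v := by
        apply Real.le_sqrt_of_sq_le
        nlinarith [hv.1, hv.2]
      have h3 : v ^ 2 * (1 - v) ≤ v * v := by
        have := mul_nonneg (sq_nonneg v) hv.1.le
        nlinarith
      exact h3.trans (mul_le_mul_of_nonneg_left h2 hv.1.le)
    right := fun v hv => by
      have h1 := c.G_abs v ⟨by linarith [hv.1], hv.2.le⟩
      rw [Real.rpow_one]
      refine h1.trans (mul_le_mul_of_nonneg_left ?_ hCG)
      have h2 : v ^ 2 ≤ 1 := by nlinarith [hv.1, hv.2]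
      have := mul_le_mul_of_nonneg_right h2 (show 0 ≤ 1 - v by linarith [hv.2])
      linarith
    clo := fun v hv _ => by
      have h1 := c.clo v (hI v hv)
      have := mul_nonneg c.κ_pos.le hv.1.le
      linarith }

/-- old clock, `[0, 1.01] → < .52` (data of helper937) -/
theorem cert1 : ∃ h : ℝ, 0 ≤ h ∧ h < 52 / 100 ∧ CertEx 0 (101 / 100) h := by
  obtain ⟨c⟩ := WinT1_937.cert
  exact of_up (by norm_num) c

end Crest.Agent.R146.WinData_746
end

-- ▼ part R146/WinInst_454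
section

/-!
# Row 146, helper454: the two upper windows as instances of `WinCert_746.Cert`

* `cert_of`  : generic, from the polynomial inequalities of `WinQ_454`;
* `certT1 : CertEx 0 (1035/1024) (541/1024)` (old clock, `[0,1] → .5283`);
* `certA  : CertEx 1 (1158/1024) (712/1024)` (new clock, `[0,1.13] → .6953`);
* `certT1'`, `certA'` : the same with round numbers and any smaller window.
-/

set_option autoImplicit false

namespace Crest.Agent.R146.WinInst_454

open Set Filter Topology MeasureTheory ProbabilityTheory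
open Crest.Agent.R146.MaxP2_371 Crest.Agent.R146.SlopeT_371 Crest.Agent.R146.SlopeV_371
open Crest.Agent.R146.StepStart_483 Crest.Agent.R146.WinQ_454 Crest.Agent.R146.WinCert_746
open Crest.Agent.R146.Band_371 (UpBand)
open Crest.Agent.R146.Clo_42

variable {r r1 r2 γ γ1 : ℝ → ℝ}

/-- `v(1-v) K'` is `K` times a continuous function -/
theorem G1_eq (h : RD r r1 r2) {v : ℝ} (hv : v ∈ Ioo (0:ℝ) 1) :
    G1 r r1 γ γ1 v =
      -(K r v * ((1 - 2 * v) * γ v + v * (1 - v) * γ1 v + γ v * (Q1 r r1 v / (2 * r v)))) := by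
  have hK := K_pos h hv
  have hr := h.pos v ⟨hv.1.le, hv.2.le⟩
  have hs := K_sq h ⟨hv.1.le, hv.2.le⟩
  unfold G1 K1
  have e : v * (1 - v) * γ v * (Q1 r r1 v / (2 * K r v)) =
      K r v * (γ v * (Q1 r r1 v / (2 * r v))) := by
    unfold Q at hs
    field_simp
    rw [hs]
    ring
  rw [e]
  ring

theorem bd_G1 (h : RD r r1 r2) (hγ : Continuous γ) (hγ1 : Continuous γ1) :
    ∃ B, ∀ v ∈ Ioo (0:ℝ) 1, |G1 r r1 γ γ1 v| ≤ B := by
  have hr : Continuous r := continuous_iff_continuousAt.2 fun v => (h.d1 v).continuousAt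
  have hr1 : Continuous r1 := continuous_iff_continuousAt.2 fun v => (h.d2 v).continuousAt
  have hc : ContinuousOn (fun v => -(K r v * ((1 - 2 * v) * γ v + v * (1 - v) * γ1 v
      + γ v * (Q1 r r1 v / (2 * r v))))) (Icc 0 1) := by
    refine ((continuous_K h).continuousOn.mul ?_).neg
    refine ContinuousOn.add (by fun_prop) ?_
    refine hγ.continuousOn.mul (ContinuousOn.div ?_ (by fun_prop) ?_)
    · unfold Q1
      fun_prop
    · intro v hv
      have := h.pos v hv
      positivity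
  obtain ⟨B, hB⟩ := isCompact_Icc.exists_bound_of_continuousOn hc
  refine ⟨B, fun v hv => ?_⟩
  rw [G1_eq h hv]
  exact hB v ⟨hv.1.le, hv.2.le⟩

theorem bd_G (h : RD r r1 r2) (hγ : Continuous γ) :
    ∃ C : ℝ, 0 ≤ C ∧ ∀ v ∈ Icc (0:ℝ) 1,
      |G r γ v| ≤ C * (v * (1 - v) * Real.sqrt (v * (1 - v))) := by
  have hr : Continuous r := continuous_iff_continuousAt.2 fun v => (h.d1 v).continuousAt
  obtain ⟨Cr, hCr⟩ := isCompact_Icc.exists_bound_of_continuousOn (hr.continuousOn (s := Icc (0:ℝ) 1))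
  obtain ⟨Cg, hCg⟩ := isCompact_Icc.exists_bound_of_continuousOn (hγ.continuousOn (s := Icc (0:ℝ) 1))
  have h0 : (0:ℝ) ∈ Icc (0:ℝ) 1 := ⟨le_rfl, zero_le_one⟩
  refine ⟨Cg * Real.sqrt Cr, mul_nonneg ((norm_nonneg _).trans (hCg 0 h0)) (Real.sqrt_nonneg _), ?_⟩
  intro v hv
  exact abs_G_le (fun v hv => (le_abs_self _).trans (hCr v hv)) (fun v hv => hCg v hv) hv

/-- **generic instance** -/
theorem cert_of (h : RD r r1 r2) (hγ : ∀ v, HasDerivAt γ (γ1 v) v) (hγ1 : Continuous γ1)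
    (hγ0 : ∀ v ∈ Icc (0:ℝ) 1, 0 ≤ γ v) {om hi hi' c c' : ℝ} (hhi : 0 < hi)
    (e0 : ∀ v ∈ Ioo (0:ℝ) 1, EE om 0 r r1 r2 v ≤ 0) (e1 : ∀ v ∈ Ioo (0:ℝ) 1, EE om hi r r1 r2 v ≤ 0)
    (cl : ∀ v ∈ Ioo (0:ℝ) 1, 0 ≤ CL c r r1 γ γ1 v) (hi0 : 0 ≤ hi') (hle : hi' ≤ hi) (hc : c ≤ c') :
    CertEx om hi' c' := by
  have hγc : Continuous γ := continuous_iff_continuousAt.2 fun v => (hγ v).continuousAt
  have hKc := continuous_K h
  obtain ⟨KM, hKM⟩ := isCompact_Icc.exists_bound_of_continuousOn (hKc.continuousOn (s := Icc (0:ℝ) 1))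
  obtain ⟨C, hC0, hC⟩ := bd_G h hγc
  have hGc : Continuous (G r γ) := continuous_G h hγc
  obtain ⟨B, hB⟩ := isCompact_Icc.exists_bound_of_continuousOn (hGc.continuousOn (s := Icc (0:ℝ) 1))
  have hk := fun v hv => hasDerivAt_K (v := v) h hv
  have hk1 := fun v hv => hasDerivAt_K1 (v := v) h hv
  have hkk : ∀ v ∈ Ioo (0:ℝ) 1, K r v * K2 r r1 r2 v ≤ -1 := fun v hv => KK2_le h hv (e0 v hv)
  refine ⟨K r, K1 r r1, K2 r r1 r2, G r γ, G1 r r1 γ γ1, ∅, 1, KM, C, 3 / 2, ?_⟩
  refine ⟨⟨hKc.continuousOn, fun v hv => K_pos h hv, ?_, zero_le_one, hkk, ?_, ?_⟩, ?_, ?_,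
    ⟨countable_empty, hGc.continuousOn, ?_, ?_, bd_G1 h hγc hγ1⟩, ?_, by norm_num, hC0, ?_, ?_, ?_⟩
  · intro v hv
    exact TouchAbove.of_Ioo hk (fun y hy => HasSide.of_hasDerivAt (hk1 y hy)) hv
  · intro v hv
    exact stat_nonpos h hv hhi (e0 v hv) (e1 v hv) ⟨le_rfl, hhi.le⟩
  · intro v hv
    exact stat_nonpos h hv hhi (e0 v hv) (e1 v hv) ⟨hi0, hle⟩
  · intro v hv
    exact (le_abs_self _).trans (hKM v ⟨hv.1.le, hv.2.le⟩)
  · exact gauss_le_gen (fun _ hv => K_pos h hv) hk hk1 hkk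
  · intro v hv _
    exact hasDerivAt_G h (hγ v) hv
  · exact ⟨B, fun v hv => hB v ⟨hv.1.le, hv.2.le⟩⟩
  · intro v hv
    exact G_nonpos (hγ0 v ⟨hv.1.le, hv.2.le⟩) ⟨hv.1.le, hv.2.le⟩
  · intro v hv
    have hv1 : v ∈ Icc (0:ℝ) 1 := ⟨hv.1.le, by linarith [hv.2]⟩
    refine (hC v hv1).trans (mul_le_mul_of_nonneg_left ?_ hC0)
    have h1 : v * (1 - v) ≤ v := by nlinarith [hv.1]
    exact mul_le_mul h1 (Real.sqrt_le_sqrt h1) (Real.sqrt_nonneg _) hv.1.le
  · intro v hv
    have hv1 : v ∈ Icc (0:ℝ) 1 := ⟨by linarith [hv.1], hv.2.le⟩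
    have h0 : 0 ≤ 1 - v := sub_nonneg.2 hv.2.le
    refine (hC v hv1).trans (mul_le_mul_of_nonneg_left ?_ hC0)
    have h1 : v * (1 - v) ≤ 1 - v := by nlinarith [hv1.1]
    have h2 : (1 - v) ^ (3 / 2 : ℝ) = (1 - v) * Real.sqrt (1 - v) := by
      rw [Real.sqrt_eq_rpow, show (3 / 2 : ℝ) = 1 + 1 / 2 by norm_num,
        Real.rpow_add (sub_pos.2 hv.2), Real.rpow_one]
    rw [h2]
    exact mul_le_mul h1 (Real.sqrt_le_sqrt h1) (Real.sqrt_nonneg _) h0
  · intro v hv _
    refine (clos_K h hv (cl v hv)).trans ?_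
    have h0 : 0 ≤ v * (1 - v) ^ 2 := mul_nonneg hv.1.le (sq_nonneg _)
    nlinarith


/-- new clock, `[0, 1.1308] → .69532` -/
theorem certA {hi c : ℝ} (h0 : 0 ≤ hi) (hhi : hi ≤ 1158 / 2 ^ 10) (hc : 712 / 2 ^ 10 ≤ c) :
    CertEx 1 hi c := by
  have hq : ∀ v ∈ Ioo (0:ℝ) 1, 0 < Q WinA_454.r v := fun v hv => Q_pos WinA_454.rd hv
  refine cert_of (hi := 1158 / 2 ^ 10) (c := 712 / 2 ^ 10) WinA_454.rd WinA_454.γ_deriv
    (continuous_iff_continuousAt.2 fun v =>
      ((PP865.smooth_sound WinA_454.hsm (k := 1) (by norm_num) WinA_454.P v).2).continuousAt)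
    (fun v hv => (WinA_454.γ_pos hv).le) (by norm_num) ?_ ?_ ?_ h0 hhi hc
  · intro v hv
    have := WinA_454.ee0 ⟨hv.1.le, hv.2.le⟩
    have := hq v hv
    linarith
  · intro v hv
    have := WinA_454.ee1 ⟨hv.1.le, hv.2.le⟩
    have := hq v hv
    linarith
  · intro v hv
    exact (WinA_454.cl ⟨hv.1.le, hv.2.le⟩).le


/-- `A`: a window slightly larger than `[0,1.13]`, target slightly below `.70` -/
theorem certA' : CertEx 1 (1158 / 2 ^ 10) (712 / 2 ^ 10) := certA (by norm_num) le_rfl le_rfl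

end Crest.Agent.R146.WinInst_454
end

-- ▼ part R146/PtWin_746

/-!
Row 146, PT-CMP (helper746): theorem WIN (upper windows): a certificate gives a window of the limit
profile. `T1`, `T2` of `PtTip_164`; `winA : ∀ P, TipSeq P → Win P 1 0 hiA`.
-/

set_option autoImplicit false

namespace Crest.Agent.R146.PtWin_746

open Set MeasureTheory Filter Topology ProbabilityTheory
open Crest.Agent.R146.TipSeq_791 Crest.Agent.R146.StepDef_791 Crest.Agent.R146.StepApx_856
open Crest.Agent.R146.WinLim_746 (sc sc_ge)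
open Crest.Agent.R146.WinCert_746 Crest.Agent.R146.PtLim_847
open Crest.Agent.R146.PtScalA_45 (Prof)
open Crest.Agent.R146.Abs_423

noncomputable section

variable {P : Prof}

/-- **closure inequality of the sequence from a certificate** -/
theorem cup {T S : ℝ → ℝ} (Q : PreSeq P T S) (ω : Bool) {hi h : ℝ} (hh : 0 ≤ h)
    (hc : CertEx (WinBand_746.om ω) hi h) {t0 : ℝ} (h0 : 0 ≤ t0) (h1 : t0 < 1)
    (hY : ∀ᶠ n in atTop, ∀ t ∈ Ico t0 (Q.A n).T, (Q.A n).b t * sc ω (Q.A n) t ≤ hi) :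
    CUp ω Q h := by
  obtain ⟨K, K1, K2, G, G', Z, κ, KM, C, e, hc⟩ := hc
  intro ε hε
  have hKM : 0 ≤ KM := by
    have h1 := hc.bdd (1/2) ⟨by norm_num, by norm_num⟩
    have h2 := hc.band.pos (1/2) ⟨by norm_num, by norm_num⟩
    linarith
  have he := hc.he
  set CC : ℝ := 15 * C * Fix.KA KM e with hCC
  have hCC0 : 0 ≤ CC := mul_nonneg (by have := hc.hC; linarith) (Fix.KA_nonneg hKM he)
  set lam : ℝ := min (e / 72) (2 * ε / (CC + 1)) with hlam
  have hl0 : 0 < lam := lt_min (by positivity) (by positivity)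
  have hl1 : 72 * lam ≤ e := by
    have := min_le_left (e / 72) (2 * ε / (CC + 1))
    rw [← hlam] at this
    linarith
  have hl2 : lam * CC ≤ 2 * ε := by
    have h2 := min_le_right (e / 72) (2 * ε / (CC + 1))
    rw [← hlam] at h2
    rw [le_div_iff₀ (by positivity)] at h2
    nlinarith
  obtain ⟨tb, hb0, hb1, hb⟩ := WinLaw_746.lawlo WinLow_746.low Q ω hl0
  refine ⟨max t0 tb, ⟨h0.trans (le_max_left _ _), max_lt h1 hb1⟩, fun q hq => ?_⟩
  filter_upwards [hY, hb, ev_T Q hq.2] with n hn1 hn2 hn3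
  refine ⟨hn3, fun t ht => ?_⟩
  have ht1 : t ∈ Icc t0 (Q.A n).T := ⟨(le_max_left _ _).trans ht.1, ht.2.trans hn3.le⟩
  have ht2 : t ∈ Icc tb (Q.A n).T := ⟨(le_max_right _ _).trans ht.1, ht.2.trans hn3.le⟩
  have htp : 0 < t := hb0.trans_le ht2.1
  have hs := WinStep_746.step ω hc hh (Q.back n) (Q.clock n) (Q.law n)
    (fun _ s hs => (Q.apx n).b_le ⟨hs.1, (hs.2.trans (Q.A n).hT1).le⟩) h0 hn1 ht1 htp hl0.le hl1
    (hn2 t ht2)
  refine hs.trans ?_
  have hZ : 0 ≤ Zs (Q.A n) 1 (Q.p n) t := by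
    rw [Clo_42.Zs_eq htp]
    exact Clo_42.Z_nonneg (Clo_42.lw_of (Q.back n) (Q.law n) ⟨htp, ht1.2⟩)
  refine mul_le_mul_of_nonneg_right ?_ hZ
  linarith

/-- the trivial lower side -/
theorem clo0 {T S : ℝ → ℝ} (Q : PreSeq P T S) (ω : Bool) : CLo ω Q 0 := by
  intro ε hε
  refine ⟨1 / 2, ⟨by norm_num, by norm_num⟩, fun q hq => ?_⟩
  filter_upwards [ev_T Q hq.2] with n hn
  refine ⟨hn, fun t ht => ?_⟩
  have htp : 0 < t := lt_of_lt_of_le (by norm_num) ht.1
  have htT : t ≤ (Q.A n).T := ht.2.trans hn.le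
  have hL := Clo_42.lw_of (Q.back n) (Q.law n) ⟨htp, htT⟩
  have hZ : 0 ≤ Zs (Q.A n) 1 (Q.p n) t := by
    rw [Clo_42.Zs_eq htp]; exact Clo_42.Z_nonneg hL
  have hN : 0 ≤ Ns (Q.A n) 1 (Q.p n) t := by
    rw [Clo_42.Ns_eq htp]
    exact integral_nonneg fun x => mul_nonneg (hL.p_pos x).le (sq_nonneg _)
  have hs : 0 < sc ω (Q.A n) t := WinBand_746.sc_pos (Q.clock n) ω (htT.trans_lt (Q.A n).hT1)
  have h1 := mul_nonneg hs.le hN
  have h2 := mul_nonneg hε.le hZ
  linarith

/-- window from a strictly better closure -/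
theorem win_mono {a : Fin 2} {lo hi hi' : ℝ} (h : Win P a lo hi) (hh : hi ≤ hi') :
    Win P a lo hi' := by
  intro ε hε
  obtain ⟨ta, h1, h2, h3⟩ := h ε hε
  exact ⟨ta, h1, h2, fun t ht => ⟨(h3 t ht).1, (h3 t ht).2.trans (by linarith)⟩⟩

/-- **T1** -/
theorem t1 : PtTip_164.T1 := by
  intro P TS
  obtain ⟨h, hh0, hh1, hc⟩ := WinData_746.cert1
  have hc' : CertEx (WinBand_746.om false) (101 / 100) h := by simpa [WinBand_746.om] using hc
  have h1 : CUp (om 0) TS.seq h := by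
    have : om 0 = false := by simp [om]
    rw [this]
    refine cup TS.seq false hh0 hc' le_rfl one_pos (Eventually.of_forall fun n t ht => ?_)
    have h2 := (TS.seq.apx n).b_le ⟨ht.1, (ht.2.trans (TS.seq.A n).hT1).le⟩
    have h3 : sc false (TS.seq.A n) t = 1 - t := by simp [sc]
    rw [h3]
    linarith
  have := win_of_clo TS 0 hh0 h1 (clo0 TS.seq _)
  exact win_mono this (by linarith)

/-- **T2** -/
theorem t2 : PtTip_164.T2 := by
  intro P TS hw
  obtain ⟨ta, ha1, ha0, ha⟩ := hw (1 / 100) (by norm_num)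
  have hc' : CertEx (WinBand_746.om true) (1158 / 2 ^ 10) (712 / 2 ^ 10) := by
    simpa [WinBand_746.om] using WinInst_454.certA'
  have h1 : CUp (om 1) TS.seq (712 / 2 ^ 10) := by
    have : om 1 = true := by simp [om]
    rw [this]
    have hy : ∀ x ∈ Ico ta 1, P.m x * Ks P.D x ≤ 11 / 10 := by
      intro x hx
      have := (ha x hx).2
      unfold Ystar at this
      rw [if_neg (by decide)] at this
      linarith
    have hev := ev_win_up TS.seq.apx TS.seq.ε_lim (t0' := (ta + 1) / 2) ha0 (by linarith)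
      (by linarith) hy (δ := 1 / 100) (by norm_num)
    refine cup TS.seq true (by norm_num) hc' (t0 := (ta + 1) / 2) (by linarith) (by linarith) ?_
    filter_upwards [hev] with n hn t ht
    have h2 := hn.1 t ht
    have h3 : (TS.seq.A n).b t * sc true (TS.seq.A n) t =
        (TS.seq.A n).m t * (TS.seq.A n).K0 t := by
      have hD := ((TS.seq.A n).D_pos t).ne'
      simp only [sc, if_true]
      unfold SD.b SD.chi
      field_simp
    rw [h3]
    refine h2.trans (by norm_num)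
  have := win_of_clo TS 1 (by norm_num) h1 (clo0 TS.seq _)
  exact win_mono this (by unfold PtTip_164.hiA; norm_num)

/-- **window A** -/
theorem winA : ∀ P : Prof, TipSeq P → Win P 1 0 PtTip_164.hiA := fun P TS =>
  t2 P TS (T12_52.t12 P TS (t1 P TS))

end

end Crest.Agent.R146.PtWin_746
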