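import Crest.Agent.R164.CavG6
import Crest.Agent.R164.CavG7

-- ▼ part R146/RowChain_874
section

/-!
Row 146, node ROWOBS (helper874), part 1: functions of the Gaussian field along the skeleton,
tested in `L¹(P × Gauss)`.  `App n a F c L e`: the system function `a ζ ω` is `e`-close to the
Lipschitz function `F` of the field point at depth `n`.  The predicate is stable under
conditional expectation (one depth more), Lipschitz functions and products; hence the tilted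
conditional expectations `tsk` converge to `gsk`.
-/

set_option autoImplicit false

namespace Crest.Agent.R146.RowChain_874

open MeasureTheory ProbabilityTheory Finset Crest.Agent.R141 Crest.Agent.R141.Fact
open Crest.Agent.R164.CavG

noncomputable section

/-- system data (no labels). -/
structure RS {Ω κ β : Type} [Fintype Ω] [Fintype κ] [Fintype β] [DecidableEq β]
    (P : Ω → ℝ) (r : ℕ → Setoid Ω) (J : ℕ) (kap : κ → β)
    (x : Ω → κ → ℝ) (Q : ℕ → β → ℝ) (C δ : ℝ) : Prop where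
  hP : IsProb P
  mono : ∀ n, n < J → r n ≤ r (n + 1)
  hC : ∀ ω, ∑ i, x ω i ^ 2 ≤ C
  hδ : 0 ≤ δ
  Q0 : ∀ n k, n ≤ J + 1 → 0 ≤ Q n k
  Qm : ∀ n k, n ≤ J → Q (n + 1) k ≤ Q n k
  ov : ∀ n ≤ J + 1, ∑ k, eE P (fun ω => |ip kap k (XX P r x n ω) (XX P r x n ω) - Q n k|) ≤ δ
  pr : ∀ n ≤ J, pur P (r n) x ≤ δ

/-- one-step error unit. -/
def s0 (β : Type) [Fintype β] (C δ : ℝ) : ℝ :=
  Real.sqrt (16 * (Fintype.card (β ⊕ (β ⊕ β))) *
    Real.sqrt ((Fintype.card (β ⊕ (β ⊕ β)) + 1) * etaB (Fintype.card β) C δ))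


section

variable {Ω κ β : Type} [Fintype Ω] [Fintype κ] [Fintype β] [DecidableEq β]
    {P : Ω → ℝ} {r : ℕ → Setoid Ω} {J : ℕ} {kap : κ → β}
    {x : Ω → κ → ℝ} {Q : ℕ → β → ℝ} {C δ : ℝ}

theorem RS.toCav (H : RS P r J kap x Q C δ) :
    Cav P (fun _ : Unit => (1 : ℝ)) r (fun _ => ⊤) J kap x Q (fun _ _ => 0) (fun _ => 0) C δ 0 := by
  have hU : IsProb (fun _ : Unit => (1 : ℝ)) := ⟨fun _ => one_pos, by simp⟩
  refine ⟨H.hP, hU, H.mono, H.hC, H.hδ, le_refl _, H.Q0, H.Qm, H.ov, H.pr, ?_, ?_⟩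
  · intro n _ L h _ _ l
    rw [cE_const hU]
    simp
  · intro L h _ _
    rw [eE_const hU]
    simp

/-- approximation of a system function by a function of the field point of depth `n`. -/
structure App (P : Ω → ℝ) (r : ℕ → Setoid Ω) (kap : κ → β) (x : Ω → κ → ℝ) (n : ℕ)
    (a : (κ → ℝ) → Ω → ℝ) (F : (β → ℝ) → ℝ) (c L e : ℝ) : Prop where
  meas : ∀ ω, Measurable fun ζ => a ζ ω
  ba : ∀ ζ ω, |a ζ ω| ≤ c
  bF : ∀ z, |F z| ≤ c
  hL : 0 ≤ L
  lip : Lip L F
  err : ∫ ζ, eE P (fun ω => |a ζ ω - F (zf kap (XX P r x n ω) ζ)|) ∂(gm κ) ≤ e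

omit [DecidableEq β] [Fintype β] in
theorem intE_le (hP : IsProb P) {Z : Type*} [MeasurableSpace Z] {μ : Measure Z}
    {f g : Z → Ω → ℝ} (hf : ∀ ω, Measurable fun z => f z ω)
    (h0 : ∀ z ω, 0 ≤ f z ω) (hg : ∀ ω, Integrable (fun z => g z ω) μ)
    (h : ∀ z ω, f z ω ≤ g z ω) : ∫ z, eE P (f z) ∂μ ≤ ∫ z, eE P (g z) ∂μ := by
  have hi : ∀ ω, Integrable (fun z => f z ω) μ := fun ω =>
    (hg ω).mono' (hf ω).aestronglyMeasurable (ae_of_all _ fun z => by
      rw [Real.norm_eq_abs, abs_of_nonneg (h0 z ω)]; exact h z ω)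
  exact integral_mono (integrable_eE hi) (integrable_eE hg) fun z => eE_mono hP fun ω => h z ω

namespace App

variable {n : ℕ} {a a1 a2 : (κ → ℝ) → Ω → ℝ} {F F1 F2 : (β → ℝ) → ℝ} {c L e c1 L1 e1 c2 L2 e2 : ℝ}

theorem c_nonneg (h : App P r kap x n a F c L e) : 0 ≤ c :=
  (abs_nonneg _).trans (h.bF 0)

theorem mF (h : App P r kap x n a F c L e) (m : ℕ) (ω : Ω) :
    Measurable fun ζ : κ → ℝ => F (zf kap (XX P r x m ω) ζ) :=
  h.lip.measurable.comp (measurable_zf kap _)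

theorem int_a (h : App P r kap x n a F c L e) (ω : Ω) : Integrable (fun ζ => a ζ ω) (gm κ) :=
  Integrable.of_bound (C := c) (h.meas ω).aestronglyMeasurable (ae_of_all _ fun ζ => by
    rw [Real.norm_eq_abs]; exact h.ba ζ ω)

theorem int_F (h : App P r kap x n a F c L e) (m : ℕ) (ω : Ω) :
    Integrable (fun ζ : κ → ℝ => F (zf kap (XX P r x m ω) ζ)) (gm κ) :=
  Integrable.of_bound (C := c) (h.mF m ω).aestronglyMeasurable (ae_of_all _ fun ζ => by
    rw [Real.norm_eq_abs]; exact h.bF _)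

theorem int_d (h : App P r kap x n a F c L e) (ω : Ω) :
    Integrable (fun ζ => |a ζ ω - F (zf kap (XX P r x n ω) ζ)|) (gm κ) :=
  ((h.int_a ω).sub (h.int_F n ω)).abs


/-- change of the constants. -/
theorem weaken (h : App P r kap x n a F c L e) {L' e' : ℝ} (hL : L ≤ L') (he : e ≤ e') :
    App P r kap x n a F c L' e' :=
  ⟨h.meas, h.ba, h.bF, h.hL.trans hL, h.lip.mono hL, h.err.trans he⟩

theorem bound (h : App P r kap x n a F c L e) {c' : ℝ} (h1 : ∀ ζ ω, |a ζ ω| ≤ c')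
    (h2 : ∀ z, |F z| ≤ c') : App P r kap x n a F c' L e :=
  ⟨h.meas, h1, h2, h.hL, h.lip, h.err⟩

/-- composition with a function which is Lipschitz on a set containing all values. -/
theorem comp (hP : IsProb P) (h : App P r kap x n a F c L e) (g : ℝ → ℝ) (hg : Measurable g)
    {S : Set ℝ} {l c' : ℝ} (hl : 0 ≤ l) (hS : ∀ s ∈ S, ∀ t ∈ S, |g s - g t| ≤ l * |s - t|)
    (ha : ∀ ζ ω, a ζ ω ∈ S) (hF : ∀ z, F z ∈ S) (hba : ∀ ζ ω, |g (a ζ ω)| ≤ c')
    (hbF : ∀ z, |g (F z)| ≤ c') :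
    App P r kap x n (fun ζ ω => g (a ζ ω)) (fun z => g (F z)) c' (l * L) (l * e) := by
  refine ⟨fun ω => hg.comp (h.meas ω), hba, hbF, mul_nonneg hl h.hL, ?_, ?_⟩
  · intro z z'
    refine (hS _ (hF z) _ (hF z')).trans ?_
    rw [mul_assoc]
    exact mul_le_mul_of_nonneg_left (h.lip z z') hl
  · refine (intE_le hP (g := fun ζ ω => l * |a ζ ω - F (zf kap (XX P r x n ω) ζ)|)
      (fun ω => continuous_abs.measurable.comp ((hg.comp (h.meas ω)).sub
        (hg.comp (h.mF n ω)))) (fun _ _ => abs_nonneg _) (fun ω => (h.int_d ω).const_mul l)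
      fun ζ ω => hS _ (ha ζ ω) _ (hF _)).trans ?_
    simp_rw [eE_smul]
    rw [integral_const_mul]
    exact mul_le_mul_of_nonneg_left h.err hl

/-- products. -/
theorem mul (hP : IsProb P) (h1 : App P r kap x n a1 F1 c1 L1 e1)
    (h2 : App P r kap x n a2 F2 c2 L2 e2) :
    App P r kap x n (fun ζ ω => a1 ζ ω * a2 ζ ω) (fun z => F1 z * F2 z) (c1 * c2)
      (c1 * L2 + c2 * L1) (c1 * e2 + c2 * e1) := by
  have hc1 := h1.c_nonneg
  have hc2 := h2.c_nonneg
  have key : ∀ s t s' t' : ℝ, |s| ≤ c1 → |t'| ≤ c2 →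
      |s * t - s' * t'| ≤ c1 * |t - t'| + c2 * |s - s'| := by
    intro s t s' t' hs ht'
    have e : s * t - s' * t' = s * (t - t') + t' * (s - s') := by ring
    rw [e]
    refine (abs_add_le _ _).trans ?_
    rw [abs_mul, abs_mul]
    exact add_le_add (mul_le_mul_of_nonneg_right hs (abs_nonneg _))
      (mul_le_mul_of_nonneg_right ht' (abs_nonneg _))
  refine ⟨fun ω => (h1.meas ω).mul (h2.meas ω), ?_, ?_, by
    have := h1.hL; have := h2.hL; positivity, ?_, ?_⟩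
  · intro ζ ω
    rw [abs_mul]
    exact mul_le_mul (h1.ba ζ ω) (h2.ba ζ ω) (abs_nonneg _) hc1
  · intro z
    rw [abs_mul]
    exact mul_le_mul (h1.bF z) (h2.bF z) (abs_nonneg _) hc1
  · intro z z'
    refine (key _ _ _ _ (h1.bF z) (h2.bF z')).trans ?_
    have e1 := mul_le_mul_of_nonneg_left (h2.lip z z') hc1
    have e2 := mul_le_mul_of_nonneg_left (h1.lip z z') hc2
    nlinarith
  · refine (intE_le hP (g := fun ζ ω => c1 * |a2 ζ ω - F2 (zf kap (XX P r x n ω) ζ)| +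
        c2 * |a1 ζ ω - F1 (zf kap (XX P r x n ω) ζ)|)
      (fun ω => continuous_abs.measurable.comp (((h1.meas ω).mul (h2.meas ω)).sub
          ((h1.mF n ω).mul (h2.mF n ω)))) (fun _ _ => abs_nonneg _)
      (fun ω => ((h2.int_d ω).const_mul c1).add ((h1.int_d ω).const_mul c2))
      fun ζ ω => key _ _ _ _ (h1.ba ζ ω) (h2.bF _)).trans ?_
    simp_rw [eE_add, eE_smul]
    rw [integral_add ((integrable_eE h2.int_d).const_mul c1)
        ((integrable_eE h1.int_d).const_mul c2), integral_const_mul, integral_const_mul]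
    exact add_le_add (mul_le_mul_of_nonneg_left h2.err hc1)
        (mul_le_mul_of_nonneg_left h1.err hc2)

end App

/-- first moment of the one-step error for a bounded Lipschitz function. -/
theorem step_err (H : RS P r J kap x Q C δ) {n : ℕ} (hn : n ≤ J) {F : (β → ℝ) → ℝ} {c L : ℝ}
    (hL : 0 ≤ L) (hF : Lip L F) (hc : ∀ z, |F z| ≤ c) :
    ∫ ζ, eE P (fun ω => |cE P (r n) (fun a => F (zf kap (XX P r x n a) ζ)) ω -
      sm (fun k => Q n k - Q (n + 1) k) F (zf kap (XX P r x (n + 1) ω) ζ)|) ∂(gm κ) ≤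
      Real.sqrt (c * L) * s0 β C δ := by
  have hP := H.hP
  have hc0 : 0 ≤ c := (abs_nonneg _).trans (hc 0)
  set v : β → ℝ := fun k => Q n k - Q (n + 1) k with hv
  set η := etaB (Fintype.card β) C δ with hη
  have h2 := second_moment hP kap (XX P r x n) (Q := Q n) (Qb := Q (n + 1))
    (fun k => H.Q0 (n + 1) k (by omega)) (fun k => H.Qm n k hn) hL hc0 hF hc
    (H.toCav.gdev_XX hn)
  rw [H.toCav.cEv_XX hn] at h2
  set B : ℝ := 16 * c * L * (Fintype.card (β ⊕ (β ⊕ β))) *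
    Real.sqrt ((Fintype.card (β ⊕ (β ⊕ β)) + 1) * η) with hB
  have hB0 : 0 ≤ B := by positivity
  have hBs : Real.sqrt B = Real.sqrt (c * L) * s0 β C δ := by
    unfold s0
    rw [← Real.sqrt_mul (by positivity), hB]
    congr 1
    ring
  rw [← hBs]
  set D : (κ → ℝ) → Ω → ℝ := fun ζ ω => cE P (r n) (fun a => F (zf kap (XX P r x n a) ζ)) ω -
      sm v F (zf kap (XX P r x (n + 1) ω) ζ) with hD
  have hDm : ∀ ω, Measurable fun ζ => D ζ ω := by
    intro ω
    refine Measurable.sub ?_ ?_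
    · exact measurable_cE (fun a => hF.measurable.comp (measurable_zf kap (XX P r x n a))) ω
    · exact (sm_lip v hF).measurable.comp (measurable_zf kap _)
  have hDb : ∀ ζ ω, |D ζ ω| ≤ 2 * c := by
    intro ζ ω
    have h3 : |cE P (r n) (fun a => F (zf kap (XX P r x n a) ζ)) ω| ≤ c :=
      abs_cE_le_of_le hP (fun a => hc _) ω
    have h4 := sm_bound v hc (zf kap (XX P r x (n + 1) ω) ζ)
    have h5 := abs_sub (cE P (r n) (fun a => F (zf kap (XX P r x n a) ζ)) ω)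
      (sm v F (zf kap (XX P r x (n + 1) ω) ζ))
    have h6 : |D ζ ω| = |cE P (r n) (fun a => F (zf kap (XX P r x n a) ζ)) ω -
      sm v F (zf kap (XX P r x (n + 1) ω) ζ)| := rfl
    linarith
  have hi1 : ∀ ω, Integrable (fun ζ => |D ζ ω|) (gm κ) := fun ω =>
    Integrable.of_bound (C := 2 * c) (hDm ω).norm.aestronglyMeasurable
      (ae_of_all _ fun ζ => by
        rw [Real.norm_eq_abs, abs_abs]; exact hDb ζ ω)
  have hi2 : ∀ ω, Integrable (fun ζ => (D ζ ω) ^ 2) (gm κ) := fun ω =>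
    Integrable.of_bound (C := (2 * c) ^ 2) ((hDm ω).pow_const 2).aestronglyMeasurable
      (ae_of_all _ fun ζ => by
        rw [Real.norm_eq_abs, abs_pow]
        exact pow_le_pow_left₀ (abs_nonneg _) (hDb ζ ω) 2)
  refine le_sqrt_of_forall hB0 fun t ht => ?_
  have h7 : ∫ ζ, eE P (fun ω => |D ζ ω|) ∂(gm κ) ≤
      ∫ ζ, eE P (fun ω => (1 / 2) * t + (1 / (2 * t)) * (D ζ ω) ^ 2) ∂(gm κ) := by
    refine integral_mono (integrable_eE hi1)
      (integrable_eE fun ω => (integrable_const _).add ((hi2 ω).const_mul _)) fun ζ => ?_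
    refine eE_mono hP fun ω => ?_
    have h8 : |D ζ ω| ^ 2 = D ζ ω ^ 2 := sq_abs _
    have h10 : 1 / 2 * t + 1 / (2 * t) * D ζ ω ^ 2 - |D ζ ω| = (t - |D ζ ω|) ^ 2 / (2 * t) := by
      rw [← h8]; field_simp; ring
    have h11 : 0 ≤ (t - |D ζ ω|) ^ 2 / (2 * t) := by positivity
    linarith
  refine h7.trans ?_
  have h12 : ∀ ζ, eE P (fun ω => (1 / 2) * t + (1 / (2 * t)) * (D ζ ω) ^ 2) =
      (1 / 2) * t + (1 / (2 * t)) * eE P (fun ω => (D ζ ω) ^ 2) := by
    intro ζ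
    rw [eE_add, eE_const hP, eE_smul]
  simp_rw [h12]
  rw [integral_add (integrable_const _) ((integrable_eE hi2).const_mul _)]
  have h15 : ∫ ζ, 1 / (2 * t) * eE P (fun ω => (D ζ ω) ^ 2) ∂(gm κ) =
      1 / (2 * t) * ∫ ζ, eE P (fun ω => (D ζ ω) ^ 2) ∂(gm κ) := integral_const_mul _ _
  rw [h15]
  have h13 : 1 / (2 * t) * ∫ ζ, eE P (fun ω => (D ζ ω) ^ 2) ∂(gm κ) ≤
      1 / (2 * t) * B := mul_le_mul_of_nonneg_left h2 (by positivity)
  have h14 : (t + B / t) / 2 = 1 / 2 * t + 1 / (2 * t) * B := by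
    field_simp
  rw [h14]
  simp only [integral_const, probReal_univ, one_smul]
  linarith

/-- conditional expectation: one depth more. -/
theorem App.cond (H : RS P r J kap x Q C δ) {n : ℕ} (hn : n ≤ J) {a : (κ → ℝ) → Ω → ℝ}
    {F : (β → ℝ) → ℝ} {c L e : ℝ} (h : App P r kap x n a F c L e) :
    App P r kap x (n + 1) (fun ζ ω => cE P (r n) (a ζ) ω)
      (sm (fun k => Q n k - Q (n + 1) k) F) c L (e + Real.sqrt (c * L) * s0 β C δ) := by
  have hP := H.hP
  refine ⟨fun ω => measurable_cE (fun a => h.meas a) ω, fun ζ ω =>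
    abs_cE_le_of_le hP (fun a => h.ba ζ a) ω, sm_bound _ h.bF, h.hL, sm_lip _ h.lip, ?_⟩
  set v : β → ℝ := fun k => Q n k - Q (n + 1) k with hv
  have hst := step_err H hn h.hL h.lip h.bF
  have hsm : ∀ ω, Measurable fun ζ : κ → ℝ => sm v F (zf kap (XX P r x (n + 1) ω) ζ) :=
    fun ω => (sm_lip v h.lip).measurable.comp (measurable_zf kap _)
  have hi3 : ∀ ω, Integrable (fun ζ => |cE P (r n) (fun a => F (zf kap (XX P r x n a) ζ)) ω -
      sm v F (zf kap (XX P r x (n + 1) ω) ζ)|) (gm κ) := by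
    intro ω
    refine (Integrable.sub (integrable_cE (fun a => h.int_F n a) ω) ?_).abs
    exact Integrable.of_bound (C := c) (hsm ω).aestronglyMeasurable (ae_of_all _ fun ζ => by
      rw [Real.norm_eq_abs]; exact sm_bound v h.bF _)
  have hi2 : ∀ ω, Integrable (fun ζ => cE P (r n) (fun b =>
      |a ζ b - F (zf kap (XX P r x n b) ζ)|) ω) (gm κ) := fun ω =>
    integrable_cE (fun b => h.int_d b) ω
  refine (intE_le hP (g := fun ζ ω => cE P (r n) (fun b =>
      |a ζ b - F (zf kap (XX P r x n b) ζ)|) ω +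
      |cE P (r n) (fun a => F (zf kap (XX P r x n a) ζ)) ω -
      sm v F (zf kap (XX P r x (n + 1) ω) ζ)|)
    (fun ω => continuous_abs.measurable.comp ((measurable_cE (fun b => h.meas b) ω).sub (hsm ω)))
    (fun _ _ => abs_nonneg _) (fun ω => (hi2 ω).add (hi3 ω)) fun ζ ω => ?_).trans ?_
  · refine (abs_sub_le _ (cE P (r n) (fun a => F (zf kap (XX P r x n a) ζ)) ω) _).trans ?_
    refine add_le_add ?_ le_rfl
    rw [← cE_sub]
    exact cE_abs_le hP _ _
  · simp_rw [eE_add, eE_cE hP]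
    rw [integral_add (integrable_eE h.int_d) (integrable_eE hi3)]
    exact add_le_add h.err hst

/-- the bottom: plain expectation. -/
theorem App.bottom (H : RS P r J kap x Q C δ) {a : (κ → ℝ) → Ω → ℝ}
    {F : (β → ℝ) → ℝ} {c L e : ℝ} (h : App P r kap x (J + 1) a F c L e) :
    |∫ ζ, eE P (a ζ) ∂(gm κ) - sm (Q (J + 1)) F 0| ≤
      e + L * ((Fintype.card β : ℝ) * Real.sqrt δ) := by
  have hP := H.hP
  have h1 : |∫ ζ, eE P (a ζ) ∂(gm κ) -
      ∫ ζ, eE P (fun ω => F (zf kap (XX P r x (J + 1) ω) ζ)) ∂(gm κ)| ≤ e := by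
    rw [← integral_sub (integrable_eE h.int_a) (integrable_eE fun ω => h.int_F (J + 1) ω)]
    refine abs_integral_le_integral_abs.trans (le_trans ?_ h.err)
    refine integral_mono ((integrable_eE h.int_a).sub
      (integrable_eE fun ω => h.int_F (J + 1) ω)).abs (integrable_eE h.int_d) fun ζ => ?_
    show |eE P _ - eE P _| ≤ _
    rw [← eE_sub]
    exact eE_abs_le hP _
  have h2 : |∫ ζ, eE P (fun ω => F (zf kap (XX P r x (J + 1) ω) ζ)) ∂(gm κ) -
      sm (Q (J + 1)) F 0| ≤ L * ((Fintype.card β : ℝ) * Real.sqrt δ) := by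
    rw [integral_eE fun ω => h.int_F (J + 1) ω]
    have e1 : sm (Q (J + 1)) F 0 = eE P (fun _ => sm (Q (J + 1)) F 0) := (eE_const hP _).symm
    rw [e1, ← eE_sub]
    refine (eE_abs_le hP _).trans ?_
    refine (eE_mono hP (g := fun ω => L * ∑ k, Real.sqrt
      |ip kap k (XX P r x (J + 1) ω) (XX P r x (J + 1) ω) - Q (J + 1) k|) fun ω =>
      block_int kap (XX P r x (J + 1) ω) (H.Q0 (J + 1) · le_rfl) h.hL h.lip).trans ?_
    rw [eE_smul, eE_sum]
    refine mul_le_mul_of_nonneg_left ?_ h.hL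
    have h3 : ∀ k, eE P (fun a => Real.sqrt
        |ip kap k (XX P r x (J + 1) a) (XX P r x (J + 1) a) - Q (J + 1) k|) ≤ Real.sqrt δ := by
      intro k
      have : Nonempty Ω := nonempty_of_isProb hP
      have h4 := eE_sq_le hP (fun a => Real.sqrt
        |ip kap k (XX P r x (J + 1) a) (XX P r x (J + 1) a) - Q (J + 1) k|)
      refine Real.le_sqrt_of_sq_le (h4.trans ?_)
      have h5 : (fun a => Real.sqrt
        |ip kap k (XX P r x (J + 1) a) (XX P r x (J + 1) a) - Q (J + 1) k| ^ 2) =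
        fun a => |ip kap k (XX P r x (J + 1) a) (XX P r x (J + 1) a) - Q (J + 1) k| := by
        funext a
        exact Real.sq_sqrt (abs_nonneg _)
      rw [h5]
      refine le_trans ?_ (H.ov (J + 1) le_rfl)
      exact Finset.single_le_sum (f := fun k => eE P (fun ω =>
        |ip kap k (XX P r x (J + 1) ω) (XX P r x (J + 1) ω) - Q (J + 1) k|))
        (fun k _ => eE_nonneg hP fun ω => abs_nonneg _) (Finset.mem_univ k)
    refine (Finset.sum_le_sum fun k _ => h3 k).trans (le_of_eq ?_)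
    simp
  refine (abs_sub_le _ _ _).trans (add_le_add h1 h2)

end

end

end Crest.Agent.R146.RowChain_874
end

-- ▼ part R146/RowChain2_874

/-!
Row 146, node ROWOBS (helper874), part 2: the tilted conditional expectations along the skeleton
converge to those of the nested Gaussian model.
-/

set_option autoImplicit false

namespace Crest.Agent.R146.RowChain_874

open MeasureTheory ProbabilityTheory Finset Crest.Agent.R141 Crest.Agent.R141.Fact
open Crest.Agent.R164.CavG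

noncomputable section

/-- variances of the nested Gaussian model. -/
def vQ {β : Type} (Q : ℕ → β → ℝ) (n : ℕ) (k : β) : ℝ := Q n k - Q (n + 1) k

/-- tilted backward conditional expectations of `h`, started at depth `n0`. -/
def tsk {Ω : Type} [Fintype Ω] (P : Ω → ℝ) (r : ℕ → Setoid Ω) (y : ℕ → ℝ) (U : Ω → ℝ) (n0 : ℕ)
    (h : Ω → ℝ) : ℕ → Ω → ℝ
  | 0 => h
  | i + 1 => fun ω =>
      cE P (r (n0 + i)) (fun a => Real.exp (y (n0 + i) * skelA P r y U (n0 + i) a) *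
        tsk P r y U n0 h i a) ω /
      cE P (r (n0 + i)) (fun a => Real.exp (y (n0 + i) * skelA P r y U (n0 + i) a)) ω

/-- the same in the Gaussian model. -/
def gsk {ι : Type} [Fintype ι] (y : ℕ → ℝ) (v : ℕ → ι → ℝ) (w : (ι → ℝ) → ℝ) (n0 : ℕ)
    (G : (ι → ℝ) → ℝ) : ℕ → (ι → ℝ) → ℝ
  | 0 => G
  | i + 1 => fun z =>
      sm (v (n0 + i)) (fun z => Real.exp (y (n0 + i) * th y v w (n0 + i) z) *
        gsk y v w n0 G i z) z /
      sm (v (n0 + i)) (fun z => Real.exp (y (n0 + i) * th y v w (n0 + i) z)) z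

section

variable {Ω κ β : Type} [Fintype Ω] [Fintype κ] [Fintype β] [DecidableEq β]
    {P : Ω → ℝ} {r : ℕ → Setoid Ω} {J : ℕ} {kap : κ → β}
    {x : Ω → κ → ℝ} {Q : ℕ → β → ℝ} {C δ : ℝ}

theorem exp_lip1 {c y : ℝ} (hy0 : 0 < y) (hy1 : y ≤ 1) {s t : ℝ} (hs : |s| ≤ c) (ht : |t| ≤ c) :
    |Real.exp (y * s) - Real.exp (y * t)| ≤ Real.exp c * |s - t| := by
  refine (exp_mul_sub_le hy0 hy1 s t hs ht).trans ?_
  have h1 : 0 ≤ Real.exp c * |s - t| := by positivity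
  nlinarith

theorem App.expo (hP : IsProb P) {n : ℕ} {a : (κ → ℝ) → Ω → ℝ} {F : (β → ℝ) → ℝ} {c L e y : ℝ}
    (hy0 : 0 < y) (hy1 : y ≤ 1) (h : App P r kap x n a F c L e) :
    App P r kap x n (fun ζ ω => Real.exp (y * a ζ ω)) (fun z => Real.exp (y * F z)) (Real.exp c)
      (Real.exp c * L) (Real.exp c * e) := by
  refine h.comp hP (fun s => Real.exp (y * s)) (by fun_prop) (S := Set.Icc (-c) c)
    (Real.exp_pos c).le ?_ (fun ζ ω => abs_le.1 (h.ba ζ ω)) (fun z => abs_le.1 (h.bF z)) ?_ ?_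
  · intro s hs t ht
    exact exp_lip1 hy0 hy1 (abs_le.2 hs) (abs_le.2 ht)
  · intro ζ ω
    rw [abs_of_pos (Real.exp_pos _)]
    exact (exp_bounds hy0.le hy1 (h.ba ζ ω)).2
  · intro z
    rw [abs_of_pos (Real.exp_pos _)]
    exact (exp_bounds hy0.le hy1 (h.bF z)).2

/-- one step of the free energies. -/
theorem App.stepA (H : RS P r J kap x Q C δ) {n : ℕ} (hn : n ≤ J) {a : (κ → ℝ) → Ω → ℝ}
    {F : (β → ℝ) → ℝ} {c L e y y0 : ℝ} (hy00 : 0 < y0) (hyy : y0 ≤ y) (hy1 : y ≤ 1)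
    (h : App P r kap x n a F c L e) :
    App P r kap x (n + 1) (fun ζ ω => pm P (r n) y (a ζ) ω) (gstep y (vQ Q n) F) c
      (y0⁻¹ * Real.exp c * (Real.exp c * L))
      (y0⁻¹ * Real.exp c * (Real.exp c * e +
        Real.sqrt (Real.exp c * (Real.exp c * L)) * s0 β C δ)) := by
  have hP := H.hP
  have hy0 : 0 < y := lt_of_lt_of_le hy00 hyy
  have hD := (h.expo hP hy0 hy1).cond H hn
  have hlow1 : ∀ ζ ω, Real.exp (-c) ≤ cE P (r n) (fun b => Real.exp (y * a ζ b)) ω := fun ζ ω =>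
    le_cE_of_le hP (fun b => (exp_bounds hy0.le hy1 (h.ba ζ b)).1) ω
  have hlow2 : ∀ z, Real.exp (-c) ≤ sm (vQ Q n) (fun z => Real.exp (y * F z)) z := fun z =>
    (sm_exp_bounds hy0.le hy1 h.hL h.lip h.bF _ z).1
  have hinv : y⁻¹ ≤ y0⁻¹ := inv_anti₀ hy00 hyy
  have h2 := hD.comp hP (fun s => (1 / y) * Real.log s)
    (Real.measurable_log.const_mul _) (S := Set.Ici (Real.exp (-c)))
    (l := y0⁻¹ * Real.exp c) (c' := c) (by positivity) ?_ (fun ζ ω => hlow1 ζ ω) hlow2 ?_ ?_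
  · exact h2
  · intro s hs t ht
    rw [← mul_sub, abs_mul, abs_of_pos (by positivity : (0 : ℝ) < 1 / y), one_div, mul_assoc]
    exact mul_le_mul hinv (abs_log_sub_le' hs ht) (abs_nonneg _) (by positivity)
  · intro ζ ω
    exact abs_le.2 ⟨(pm_const hP (r n) hy0 (-c) ω ▸ pm_mono hP hy0 ω fun b _ => (abs_le.1 (h.ba ζ b)).1),
      (pm_const hP (r n) hy0 c ω ▸ pm_mono hP hy0 ω fun b _ => (abs_le.1 (h.ba ζ b)).2)⟩
  · intro z
    exact gstep_bound hy0 h.hL h.lip h.bF _ hy1 z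

/-- Lipschitz constant after one tilted step. -/
def LT (c B L L' : ℝ) : ℝ :=
  Real.exp c * B * (Real.exp c ^ 2 * (Real.exp c * L)) +
    Real.exp c * (Real.exp c * L' + B * (Real.exp c * L))

/-- error coefficient after one tilted step. -/
def ET (c B L L' E E' : ℝ) : ℝ :=
  Real.exp c * B * (Real.exp c ^ 2 * (Real.exp c * E +
      Real.sqrt (Real.exp c * (Real.exp c * L)))) +
    Real.exp c * ((Real.exp c * E' + B * (Real.exp c * E)) +
      Real.sqrt (Real.exp c * B * (Real.exp c * L' + B * (Real.exp c * L))))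

/-- one tilted step. -/
theorem App.stepT (H : RS P r J kap x Q C δ) {n : ℕ} (hn : n ≤ J) {a h : (κ → ℝ) → Ω → ℝ}
    {F G : (β → ℝ) → ℝ} {c B L L' E E' y : ℝ} (hy0 : 0 < y) (hy1 : y ≤ 1)
    (ha : App P r kap x n a F c L (E * s0 β C δ)) (hh : App P r kap x n h G B L' (E' * s0 β C δ)) :
    App P r kap x (n + 1)
      (fun ζ ω => cE P (r n) (fun b => Real.exp (y * a ζ b) * h ζ b) ω /
        cE P (r n) (fun b => Real.exp (y * a ζ b)) ω)
      (fun z => sm (vQ Q n) (fun z => Real.exp (y * F z) * G z) z /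
        sm (vQ Q n) (fun z => Real.exp (y * F z)) z) B (LT c B L L')
      (ET c B L L' E E' * s0 β C δ) := by
  have hP := H.hP
  have hB := hh.c_nonneg
  have hE := ha.expo hP hy0 hy1
  have hN := (hE.mul hP hh).cond H hn
  have hD := hE.cond H hn
  have hlow1 : ∀ ζ ω, Real.exp (-c) ≤ cE P (r n) (fun b => Real.exp (y * a ζ b)) ω := fun ζ ω =>
    le_cE_of_le hP (fun b => (exp_bounds hy0.le hy1 (ha.ba ζ b)).1) ω
  have hlow2 : ∀ z, Real.exp (-c) ≤ sm (vQ Q n) (fun z => Real.exp (y * F z)) z := fun z =>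
    (sm_exp_bounds hy0.le hy1 ha.hL ha.lip ha.bF _ z).1
  have hec : Real.exp c * Real.exp (-c) = 1 := by rw [← Real.exp_add]; simp
  have hI := hD.comp hP (fun s => s⁻¹) measurable_inv (S := Set.Ici (Real.exp (-c)))
    (l := Real.exp c ^ 2) (c' := Real.exp c) (by positivity) (by
      intro s hs t ht
      have hs0 : 0 < s := lt_of_lt_of_le (Real.exp_pos _) hs
      have ht0 : 0 < t := lt_of_lt_of_le (Real.exp_pos _) ht
      have h1 : s⁻¹ - t⁻¹ = (t - s) * (s⁻¹ * t⁻¹) := by field_simp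
      have h2 : s⁻¹ ≤ Real.exp c := by
        rw [inv_le_comm₀ hs0 (Real.exp_pos _), ← Real.exp_neg]; exact hs
      have h3 : t⁻¹ ≤ Real.exp c := by
        rw [inv_le_comm₀ ht0 (Real.exp_pos _), ← Real.exp_neg]; exact ht
      rw [h1, abs_mul, abs_of_pos (by positivity : 0 < s⁻¹ * t⁻¹), abs_sub_comm, mul_comm, sq]
      exact mul_le_mul_of_nonneg_right (mul_le_mul h2 h3 (by positivity) (by positivity))
        (abs_nonneg _)) (fun ζ ω => hlow1 ζ ω) hlow2 (by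
      intro ζ ω
      have h0 : 0 < cE P (r n) (fun b => Real.exp (y * a ζ b)) ω :=
        lt_of_lt_of_le (Real.exp_pos _) (hlow1 ζ ω)
      rw [abs_of_pos (by positivity), inv_le_comm₀ h0 (Real.exp_pos _), ← Real.exp_neg]
      exact hlow1 ζ ω) (by
      intro z
      have h0 : 0 < sm (vQ Q n) (fun z => Real.exp (y * F z)) z :=
        lt_of_lt_of_le (Real.exp_pos _) (hlow2 z)
      show |(sm (vQ Q n) (fun z => Real.exp (y * F z)) z)⁻¹| ≤ _
      rw [abs_of_pos (by positivity), inv_le_comm₀ h0 (Real.exp_pos _), ← Real.exp_neg]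
      exact hlow2 z)
  have hM := hN.mul hP hI
  have hM2 := hM.bound (c' := B) (by
      intro ζ ω
      have h0 : 0 < cE P (r n) (fun b => Real.exp (y * a ζ b)) ω :=
        lt_of_lt_of_le (Real.exp_pos _) (hlow1 ζ ω)
      rw [← div_eq_mul_inv, abs_div, abs_of_pos h0, div_le_iff₀ h0]
      refine (cE_abs_le hP _ _).trans ?_
      rw [← cE_smul]
      refine cE_mono' hP (fun b => ?_) ω
      rw [abs_mul, abs_of_pos (Real.exp_pos _), mul_comm]
      exact mul_le_mul_of_nonneg_right (hh.ba ζ b) (Real.exp_pos _).le) (by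
      intro z
      have h0 : 0 < sm (vQ Q n) (fun z => Real.exp (y * F z)) z :=
        lt_of_lt_of_le (Real.exp_pos _) (hlow2 z)
      show |sm (vQ Q n) (fun z => Real.exp (y * F z) * G z) z *
        (sm (vQ Q n) (fun z => Real.exp (y * F z)) z)⁻¹| ≤ _
      rw [← div_eq_mul_inv, abs_div, abs_of_pos h0, div_le_iff₀ h0]
      unfold sm
      refine abs_integral_le_integral_abs.trans ?_
      rw [← integral_const_mul]
      refine integral_mono (integrable_shift _ (hE.mul hP hh).lip z).abs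
        ((integrable_shift _ hE.lip z).const_mul B) fun g => ?_
      show |Real.exp _ * G _| ≤ B * Real.exp _
      rw [abs_mul, abs_of_pos (Real.exp_pos _), mul_comm]
      exact mul_le_mul_of_nonneg_right (hh.bF _) (Real.exp_pos _).le)
  refine ⟨?_, ?_, ?_, ?_, ?_, ?_⟩
  · intro ω
    exact hM2.meas ω
  · intro ζ ω
    rw [div_eq_mul_inv]
    exact hM2.ba ζ ω
  · intro z
    rw [div_eq_mul_inv]
    exact hM2.bF z
  · exact hM2.hL
  · exact hM2.lip
  · refine hM2.err.trans (le_of_eq ?_)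
    unfold ET
    ring



/-- a function of the field point at the leaf. -/
theorem App.leaf {w : (β → ℝ) → ℝ} {L c : ℝ} (hP : IsProb P) (hL : 0 ≤ L) (hw : Lip L w)
    (hc : ∀ z, |w z| ≤ c) :
    App P r kap x 0 (fun ζ ω => w (zf kap (x ω) ζ)) w c L 0 := by
  refine ⟨fun ω => hw.measurable.comp (measurable_zf kap _), fun ζ ω => hc _, hc, hL, hw, ?_⟩
  have h1 : ∀ ζ ω, |w (zf kap (x ω) ζ) - w (zf kap (XX P r x 0 ω) ζ)| = 0 := by
    intro ζ ω
    show |w (zf kap (x ω) ζ) - w (zf kap (x ω) ζ)| = 0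
    simp
  simp_rw [h1, eE_const hP]
  simp

end

/-- the free energies along the skeleton. -/
theorem chainA (β : Type) [Fintype β] [DecidableEq β] (J : ℕ) (y : ℕ → ℝ) {y0 c L : ℝ} (C : ℝ)
    (hy0 : 0 < y0) (hy : ∀ n ≤ J, y0 ≤ y n) (hy1 : ∀ n ≤ J, y n ≤ 1) (hL : 0 ≤ L) :
    ∀ n ≤ J + 1, ∃ L' E' : ℝ, 0 ≤ L' ∧ 0 ≤ E' ∧
    ∀ {Ω κ : Type} [Fintype Ω] [Fintype κ] (P : Ω → ℝ) (r : ℕ → Setoid Ω) (kap : κ → β)
      (x : Ω → κ → ℝ) (Q : ℕ → β → ℝ) (δ : ℝ), RS P r J kap x Q C δ →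
      ∀ w : (β → ℝ) → ℝ, Lip L w → (∀ z, |w z| ≤ c) →
      App P r kap x n (fun ζ => skelA P r y (fun ω => w (zf kap (x ω) ζ)) n)
        (th y (vQ Q) w n) c L' (E' * s0 β C δ) := by
  intro n
  induction n with
  | zero =>
    intro _
    refine ⟨L, 0, hL, le_refl _, ?_⟩
    intro Ω κ _ _ P r kap x Q δ H w hw hc
    rw [zero_mul]
    exact App.leaf H.hP hL hw hc
  | succ n ih =>
    intro hn
    obtain ⟨L', E', h1, h2, h3⟩ := ih (by omega)
    refine ⟨y0⁻¹ * Real.exp c * (Real.exp c * L'), y0⁻¹ * Real.exp c * (Real.exp c * E' +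
        Real.sqrt (Real.exp c * (Real.exp c * L'))), by positivity, by positivity, ?_⟩
    intro Ω κ _ _ P r kap x Q δ H w hw hc
    have h4 := (h3 P r kap x Q δ H w hw hc).stepA H (by omega : n ≤ J) hy0 (hy n (by omega))
      (hy1 n (by omega))
    refine h4.weaken le_rfl (le_of_eq ?_)
    ring

/-- the tilted conditional expectations along the skeleton. -/
theorem chainT (β : Type) [Fintype β] [DecidableEq β] (J : ℕ) (y : ℕ → ℝ) {y0 c L : ℝ} (C : ℝ)
    (hy0 : 0 < y0) (hy : ∀ n ≤ J, y0 ≤ y n) (hy1 : ∀ n ≤ J, y n ≤ 1) (hL : 0 ≤ L)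
    {B L0 E0 : ℝ} (hB : 0 ≤ B) (hL0 : 0 ≤ L0) (hE0 : 0 ≤ E0) (n0 : ℕ) :
    ∀ i, n0 + i ≤ J + 1 → ∃ L' E' : ℝ, 0 ≤ L' ∧ 0 ≤ E' ∧
    ∀ {Ω κ : Type} [Fintype Ω] [Fintype κ] (P : Ω → ℝ) (r : ℕ → Setoid Ω) (kap : κ → β)
      (x : Ω → κ → ℝ) (Q : ℕ → β → ℝ) (δ : ℝ), RS P r J kap x Q C δ →
      ∀ w : (β → ℝ) → ℝ, Lip L w → (∀ z, |w z| ≤ c) →
      ∀ (h : (κ → ℝ) → Ω → ℝ) (G : (β → ℝ) → ℝ), App P r kap x n0 h G B L0 (E0 * s0 β C δ) →
      App P r kap x (n0 + i)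
        (fun ζ => tsk P r y (fun ω => w (zf kap (x ω) ζ)) n0 (h ζ) i)
        (gsk y (vQ Q) w n0 G i) B L' (E' * s0 β C δ) := by
  intro i
  induction i with
  | zero =>
    intro _
    exact ⟨L0, E0, hL0, hE0, fun P r kap x Q δ H w hw hc h G hh => hh⟩
  | succ i ih =>
    intro hn
    obtain ⟨L', E', h1, h2, h3⟩ := ih (by omega)
    obtain ⟨LA, EA, h4, h5, h6⟩ := chainA β J y C hy0 hy hy1 hL (c := c) (n0 + i) (by omega)
    refine ⟨LT c B LA L', ET c B LA L' EA E', ?_, ?_, ?_⟩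
    · unfold LT; positivity
    · unfold ET; positivity
    intro Ω κ _ _ P r kap x Q δ H w hw hc h G hh
    exact (h6 P r kap x Q δ H w hw hc).stepT H (by omega : n0 + i ≤ J)
      (lt_of_lt_of_le hy0 (hy _ (by omega))) (hy1 _ (by omega)) (h3 P r kap x Q δ H w hw hc h G hh)

/-- the error unit is small. -/
theorem s0_small (β : Type) [Fintype β] (C : ℝ) {ε : ℝ} (hε : 0 < ε) :
    ∃ d > 0, ∀ δ, 0 ≤ δ → δ ≤ d → s0 β C δ ≤ ε ∧ Real.sqrt δ ≤ ε := by
  have hc : Continuous fun δ : ℝ => s0 β C δ := by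
    unfold s0 etaB
    fun_prop
  have h0 : s0 β C 0 = 0 := by
    unfold s0 etaB
    simp
  have h1 : Filter.Tendsto (fun δ : ℝ => s0 β C δ) (nhds 0) (nhds 0) := by
    have := hc.tendsto 0
    simpa [h0] using this
  have h1' : Filter.Tendsto (fun δ : ℝ => Real.sqrt δ) (nhds 0) (nhds 0) := by
    have := Real.continuous_sqrt.tendsto 0
    simpa using this
  have h2 := (h1.eventually (gt_mem_nhds hε)).and (h1'.eventually (gt_mem_nhds hε))
  obtain ⟨d, hd, h3⟩ := Metric.eventually_nhds_iff.1 h2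
  refine ⟨d / 2, by positivity, fun δ h4 h5 => ?_⟩
  have h6 := h3 (y := δ) (by rw [Real.dist_eq, sub_zero, abs_of_nonneg h4]; linarith)
  exact ⟨h6.1.le, h6.2.le⟩

/-- **Pair expectations along the skeleton** converge to those of the nested Gaussian model. -/
theorem pair_limit (β : Type) [Fintype β] [DecidableEq β] (J : ℕ) (y : ℕ → ℝ)
    {y0 c L B1 B2 L1 L2 : ℝ} (C : ℝ)
    (hy0 : 0 < y0) (hy : ∀ n ≤ J, y0 ≤ y n) (hy1 : ∀ n ≤ J, y n ≤ 1) (hL : 0 ≤ L)
    (hB1 : 0 ≤ B1) (hB2 : 0 ≤ B2) (hL1 : 0 ≤ L1) (hL2 : 0 ≤ L2) {n0 : ℕ} (hn0 : n0 ≤ J + 1)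
    {ε : ℝ} (hε : 0 < ε) :
    ∃ d > 0, ∀ {Ω κ : Type} [Fintype Ω] [Fintype κ] (P : Ω → ℝ) (r : ℕ → Setoid Ω) (kap : κ → β)
      (x : Ω → κ → ℝ) (Q : ℕ → β → ℝ) (δ : ℝ), RS P r J kap x Q C δ → δ ≤ d →
      ∀ w φ1 φ2 : (β → ℝ) → ℝ, Lip L w → (∀ z, |w z| ≤ c) → Lip L1 φ1 → (∀ z, |φ1 z| ≤ B1) →
      Lip L2 φ2 → (∀ z, |φ2 z| ≤ B2) →
      |∫ ζ, eE P (tsk P r y (fun ω => w (zf kap (x ω) ζ)) n0 (fun ω =>
          tsk P r y (fun ω => w (zf kap (x ω) ζ)) 0 (fun ω => φ1 (zf kap (x ω) ζ)) n0 ω *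
          tsk P r y (fun ω => w (zf kap (x ω) ζ)) 0 (fun ω => φ2 (zf kap (x ω) ζ)) n0 ω)
          (J + 1 - n0)) ∂(gm κ) -
        sm (Q (J + 1)) (gsk y (vQ Q) w n0 (fun z => gsk y (vQ Q) w 0 φ1 n0 z *
          gsk y (vQ Q) w 0 φ2 n0 z) (J + 1 - n0)) 0| ≤ ε := by
  obtain ⟨LL1, EE1, h1, h2, h3⟩ := chainT β J y (c := c) C hy0 hy hy1 hL hB1 hL1 (le_refl 0) 0
    n0 (by omega)
  obtain ⟨LL2, EE2, h4, h5, h6⟩ := chainT β J y (c := c) C hy0 hy hy1 hL hB2 hL2 (le_refl 0) 0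
    n0 (by omega)
  obtain ⟨LL, EE, h7, h8, h9⟩ := chainT β J y (c := c) C hy0 hy hy1 hL
    (B := B1 * B2) (L0 := B1 * LL2 + B2 * LL1) (E0 := B1 * EE2 + B2 * EE1)
    (by positivity) (by positivity) (by positivity) n0 (J + 1 - n0) (by omega)
  obtain ⟨d, hd, h10⟩ := s0_small β C (ε := ε / (EE + LL * Fintype.card β + 1)) (by positivity)
  refine ⟨d, hd, ?_⟩
  intro Ω κ _ _ P r kap x Q δ H hδ w φ1 φ2 hw hc hφ1 hb1 hφ2 hb2
  have a1 := h3 P r kap x Q δ H w hw hc (fun ζ ω => φ1 (zf kap (x ω) ζ)) φ1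
    (by rw [zero_mul]; exact App.leaf H.hP hL1 hφ1 hb1)
  have a2 := h6 P r kap x Q δ H w hw hc (fun ζ ω => φ2 (zf kap (x ω) ζ)) φ2
    (by rw [zero_mul]; exact App.leaf H.hP hL2 hφ2 hb2)
  rw [zero_add] at a1 a2
  have a3 := (a1.mul H.hP a2).weaken (L' := B1 * LL2 + B2 * LL1)
    (e' := (B1 * EE2 + B2 * EE1) * s0 β C δ) le_rfl (le_of_eq (by ring))
  have a4 := h9 P r kap x Q δ H w hw hc _ _ a3
  have e1 : n0 + (J + 1 - n0) = J + 1 := by omega
  rw [e1] at a4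
  have a5 := a4.bottom H
  refine a5.trans ?_
  obtain ⟨h11, h12⟩ := h10 δ H.hδ hδ
  have h13 : EE * s0 β C δ ≤ EE * (ε / (EE + LL * Fintype.card β + 1)) :=
    mul_le_mul_of_nonneg_left h11 h8
  have h14 : LL * ((Fintype.card β : ℝ) * Real.sqrt δ) ≤
      LL * ((Fintype.card β : ℝ) * (ε / (EE + LL * Fintype.card β + 1))) :=
    mul_le_mul_of_nonneg_left (mul_le_mul_of_nonneg_left h12 (by positivity)) h7
  have h15 : EE * (ε / (EE + LL * Fintype.card β + 1)) +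
      LL * ((Fintype.card β : ℝ) * (ε / (EE + LL * Fintype.card β + 1))) ≤ ε := by
    have h16 : 0 < EE + LL * Fintype.card β + 1 := by positivity
    rw [← mul_div_assoc, ← mul_div_assoc, ← mul_div_assoc, ← add_div, div_le_iff₀ h16]
    nlinarith
  linarith

end

end Crest.Agent.R146.RowChain_874
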