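import Crest.Agent.R146.RowDef_874
import Crest.Agent.R146.RowChain2_874
import Crest.Agent.R146.S6L_988
import Crest.Agent.R146.CavInc_769
import Crest.Agent.R146.Cav5_47
import Crest.Agent.R146.LimIbp_290
import Crest.Agent.R146.CavAsm_769
import Crest.Agent.R146.S6Trans_944

-- ▼ part R146/RowFact_874
section

/-!
Row 146, node ROWOBS (helper874), part 5: for functions which are sums/products over the blocks,
the nested Gaussian model with equal variances factorises into copies of the one-row limit model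
of `RowDef_874`.
-/

set_option autoImplicit false

namespace Crest.Agent.R146.RowFact_874

open Finset MeasureTheory ProbabilityTheory Crest.Agent.R141 Crest.Agent.R141.Fact
open Crest.Agent.R164.CavG Crest.Agent.R146.RowChain_874 Crest.Agent.R146.RowDef_874
open Crest.Agent.R146.S6Def_988
open Crest.ProbabilityR.InvariantGlass (gaussOp)

noncomputable section

section

variable {β : Type} [Fintype β]

theorem sm_prod (v : β → ℝ) (F : β → ℝ → ℝ) (z : β → ℝ) :
    sm v (fun z => ∏ k, F k (z k)) z = ∏ k, Crest.Agent.R164.GC.H (Real.sqrt (v k)) (F k) (z k) := by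
  unfold sm Crest.Agent.R164.GC.H
  exact integral_fintype_prod_eq_prod (fun k g => F k (z k + Real.sqrt (v k) * g))

end

theorem lip_unit {L : ℝ} {f : ℝ → ℝ} (hf : ∀ x y, |f x - f y| ≤ L * |x - y|) :
    Lip L (fun z : Unit → ℝ => f (z ())) := by
  intro z z'
  simpa using hf (z ()) (z' ())

theorem gaussOp_eq_gstep {y : ℝ} (hy : y ≠ 0) (v : ℝ) (f : ℝ → ℝ) (x : ℝ) :
    gaussOp y v f x = gstep y (fun _ : Unit => v) (fun z => f (z ())) (fun _ => x) := by
  unfold gaussOp
  rw [if_neg hy]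
  have h1 := sm_prod (β := Unit) (fun _ => v) (fun _ s => Real.exp (y * f s)) (fun _ => x)
  simp only [univ_unique, prod_singleton] at h1
  rw [gstep_eq_sm, one_div]
  congr 2
  exact h1.symm

/-- `gaussOp` preserves bounded Lipschitz functions. -/
theorem gaussOp_BL {y K L : ℝ} (hy0 : 0 < y) (hy1 : y ≤ 1) (hL : 0 ≤ L) (v : ℝ) {f : ℝ → ℝ}
    (hf : BL K L f) : BL K L (gaussOp y v f) := by
  constructor
  · intro x
    rw [gaussOp_eq_gstep hy0.ne']
    exact gstep_bound hy0 hL (lip_unit hf.lip) (fun z => hf.bd _) _ hy1 _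
  · intro x x'
    rw [gaussOp_eq_gstep hy0.ne', gaussOp_eq_gstep hy0.ne']
    have h := gstep_lip hy0 hy1 hL (lip_unit hf.lip) (fun z => hf.bd _) (fun _ : Unit => v)
      (fun _ => x) (fun _ => x')
    simpa using h

theorem mJ_pos {J j : ℕ} (hj : 1 ≤ j) : 0 < mJ J j := by
  unfold mJ
  have : (0 : ℝ) < j := by exact_mod_cast hj
  positivity

theorem mJ_le_one {J j : ℕ} (hj : j ≤ J + 1) : mJ J j ≤ 1 := by
  unfold mJ
  rw [div_le_one (by positivity)]
  exact_mod_cast hj

theorem mJ_eq_ySk {J n : ℕ} (hn : n ≤ J + 1) : mJ J (J + 1 - n) = ySk J n := by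
  unfold mJ ySk
  rw [Nat.cast_sub hn]
  push_cast
  rfl

/-- the value functions are bounded Lipschitz (`j ≥ 1`). -/
theorem Psi_BL {J : ℕ} {f : ℝ → ℝ} {K L : ℝ} (hL : 0 ≤ L) (hf : BL K L f) (P : ℕ → ℝ) :
    ∀ n ≤ J + 1, BL K L (Psi J f P (J + 2 - n)) := by
  intro n
  induction n with
  | zero => intro _; rw [Nat.sub_zero, Psi_last]; exact hf
  | succ n ih =>
    intro hn
    have h1 : J + 2 - (n + 1) < J + 2 := by omega
    rw [Psi_step J f P h1]
    have h2 : J + 2 - (n + 1) + 1 = J + 2 - n := by omega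
    rw [h2]
    exact gaussOp_BL (mJ_pos (by omega)) (mJ_le_one (by omega)) hL _ (ih (by omega))

section

variable {β : Type} [Fintype β]

/-- levels of the model at the depths. -/
def Qd (β : Type) (J : ℕ) (P : ℕ → ℝ) (n : ℕ) (_ : β) : ℝ := tP J P (J + 2 - n)

/-- the value functions of a sum factorise. -/
theorem th_sum (J : ℕ) {f : ℝ → ℝ} {K L : ℝ} (hL : 0 ≤ L) (hf : BL K L f) (P : ℕ → ℝ) :
    ∀ n ≤ J + 1, ∀ z : β → ℝ,
    th (ySk J) (vQ (Qd β J P)) (fun z => ∑ k, f (z k)) n z = ∑ k, Psi J f P (J + 2 - n) (z k) := by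
  intro n
  induction n with
  | zero => intro _ z; rw [th_zero, Nat.sub_zero, Psi_last]
  | succ n ih =>
    intro hn z
    have ih' : th (ySk J) (vQ (Qd β J P)) (fun z => ∑ k, f (z k)) n =
        fun z => ∑ k, Psi J f P (J + 2 - n) (z k) := funext (ih (by omega))
    rw [th_succ, ih', gstep_eq_sm]
    have hy : 0 < ySk J n := ySk_pos (by omega)
    have e1 : (fun z : β → ℝ => Real.exp (ySk J n * ∑ k, Psi J f P (J + 2 - n) (z k))) =
        fun z => ∏ k, Real.exp (ySk J n * Psi J f P (J + 2 - n) (z k)) := by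
      funext z
      rw [Finset.mul_sum, Real.exp_sum]
    rw [e1, sm_prod _ (fun _ s => Real.exp (ySk J n * Psi J f P (J + 2 - n) s)), Real.log_prod]
    · rw [Finset.mul_sum]
      refine Finset.sum_congr rfl fun k _ => ?_
      have h1 : J + 2 - (n + 1) < J + 2 := by omega
      rw [Psi_step J f P h1]
      have h2 : J + 2 - (n + 1) + 1 = J + 2 - n := by omega
      have h3 : J + 2 - (n + 1) = J + 1 - n := by omega
      rw [h2, h3, mJ_eq_ySk (by omega)]
      unfold gaussOp
      rw [if_neg hy.ne', one_div]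
      congr 2
      unfold vQ Qd
      rw [show J + 2 - (n + 1) = J + 1 - n by omega]
      rfl
    · intro k _
      have hbl := Psi_BL (J := J) hL hf P n (by omega)
      have hc : Continuous (Psi J f P (J + 2 - n)) := by
        have := cont_of_lip1 hbl.lip
        exact this
      have heg : Crest.Agent.R164.GC.EG (fun s => Real.exp (ySk J n * Psi J f P (J + 2 - n) s)) :=
        Crest.Agent.R164.GC.EG.of_bdd (by fun_prop) (K := Real.exp K) (fun s => by
          rw [abs_of_pos (Real.exp_pos _)]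
          exact (exp_bounds hy.le (ySk_le_one J n) (hbl.bd s)).2)
      exact (Crest.Agent.R164.GC.H_pos heg (fun s => Real.exp_pos _) _ _).ne'

/-- the tilted conditional expectations of a product factorise. -/
theorem gsk_prod (J : ℕ) {f : ℝ → ℝ} {K L : ℝ} (hL : 0 ≤ L) (hf : BL K L f) (P : ℕ → ℝ)
    {n0 : ℕ} (h : β → ℝ → ℝ) : ∀ i, n0 + i ≤ J + 1 → ∀ z : β → ℝ,
    gsk (ySk J) (vQ (Qd β J P)) (fun z => ∑ k, f (z k)) n0 (fun z => ∏ k, h k (z k)) i z =
      ∏ k, cX J f P (J + 2 - n0) (h k) (J + 2 - n0 - i) (z k) := by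
  intro i
  induction i with
  | zero =>
    intro _ z
    show ∏ k, h k (z k) = _
    refine Finset.prod_congr rfl fun k _ => ?_
    rw [Nat.sub_zero, cX_self]
  | succ i ih =>
    intro hi z
    have ih' : gsk (ySk J) (vQ (Qd β J P)) (fun z => ∑ k, f (z k)) n0 (fun z => ∏ k, h k (z k)) i =
        fun z => ∏ k, cX J f P (J + 2 - n0) (h k) (J + 2 - n0 - i) (z k) :=
      funext (ih (by omega))
    have hth : th (ySk J) (vQ (Qd β J P)) (fun z => ∑ k, f (z k)) (n0 + i) =
        fun z => ∑ k, Psi J f P (J + 2 - (n0 + i)) (z k) :=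
      funext (th_sum J hL hf P (n0 + i) (by omega))
    show sm (vQ (Qd β J P) (n0 + i)) (fun z => Real.exp (ySk J (n0 + i) *
        th (ySk J) (vQ (Qd β J P)) (fun z => ∑ k, f (z k)) (n0 + i) z) *
        gsk (ySk J) (vQ (Qd β J P)) (fun z => ∑ k, f (z k)) n0 (fun z => ∏ k, h k (z k)) i z) z /
      sm (vQ (Qd β J P) (n0 + i)) (fun z => Real.exp (ySk J (n0 + i) *
        th (ySk J) (vQ (Qd β J P)) (fun z => ∑ k, f (z k)) (n0 + i) z)) z = _
    rw [ih', hth]
    have e1 : (fun z : β → ℝ => Real.exp (ySk J (n0 + i) *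
        ∑ k, Psi J f P (J + 2 - (n0 + i)) (z k)) *
        ∏ k, cX J f P (J + 2 - n0) (h k) (J + 2 - n0 - i) (z k)) =
        fun z => ∏ k, (fun s => cX J f P (J + 2 - n0) (h k) (J + 2 - n0 - i) s *
          Real.exp (ySk J (n0 + i) * Psi J f P (J + 2 - (n0 + i)) s)) (z k) := by
      funext z
      rw [Finset.mul_sum, Real.exp_sum, ← Finset.prod_mul_distrib]
      exact Finset.prod_congr rfl fun k _ => mul_comm _ _
    have e2 : (fun z : β → ℝ => Real.exp (ySk J (n0 + i) *
        ∑ k, Psi J f P (J + 2 - (n0 + i)) (z k))) =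
        fun z => ∏ k, (fun s => Real.exp (ySk J (n0 + i) * Psi J f P (J + 2 - (n0 + i)) s))
          (z k) := by
      funext z
      rw [Finset.mul_sum, Real.exp_sum]
    rw [e1, e2, sm_prod _ (fun k s => cX J f P (J + 2 - n0) (h k) (J + 2 - n0 - i) s *
          Real.exp (ySk J (n0 + i) * Psi J f P (J + 2 - (n0 + i)) s)),
      sm_prod _ (fun _ s => Real.exp (ySk J (n0 + i) * Psi J f P (J + 2 - (n0 + i)) s)),
      ← Finset.prod_div_distrib]
    refine Finset.prod_congr rfl fun k _ => ?_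
    have h1 : J + 2 - n0 - (i + 1) < J + 2 - n0 := by omega
    rw [cX_step J f P (h k) h1]
    have h2 : J + 2 - n0 - (i + 1) + 1 = J + 2 - n0 - i := by omega
    have h3 : J + 2 - n0 - (i + 1) = J + 1 - (n0 + i) := by omega
    have h4 : J + 2 - n0 - i = J + 2 - (n0 + i) := by omega
    have h5 : J + 1 - (n0 + i) + 1 = J + 2 - (n0 + i) := by omega
    rw [h3, mJ_eq_ySk (n := n0 + i) (by omega), h4, h5]
    unfold Crest.Agent.R164.GC.tE
    have h6 : vQ (Qd β J P) (n0 + i) k = tP J P (J + 2 - (n0 + i)) - tP J P (J + 1 - (n0 + i)) := by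
      unfold vQ Qd
      rw [show J + 2 - (n0 + i + 1) = J + 1 - (n0 + i) by omega]
    rw [h6]

/-- **Factorisation** of the limit of the pair expectations. -/
theorem pair_value (J : ℕ) {f : ℝ → ℝ} {K L : ℝ} (hL : 0 ≤ L) (hf : BL K L f) (P : ℕ → ℝ)
    {n0 : ℕ} (hn0 : n0 ≤ J + 1) (φ ψ : β → ℝ → ℝ) :
    sm (Qd β J P (J + 1)) (gsk (ySk J) (vQ (Qd β J P)) (fun z => ∑ k, f (z k)) n0
      (fun z => gsk (ySk J) (vQ (Qd β J P)) (fun z => ∑ k, f (z k)) 0
          (fun z => ∏ k, φ k (z k)) n0 z *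
        gsk (ySk J) (vQ (Qd β J P)) (fun z => ∑ k, f (z k)) 0
          (fun z => ∏ k, ψ k (z k)) n0 z) (J + 1 - n0)) 0 =
      ∏ k, kapX J f P (J + 1 - n0) (φ k) (ψ k) := by
  have e1 : (fun z => gsk (ySk J) (vQ (Qd β J P)) (fun z => ∑ k, f (z k)) 0
          (fun z => ∏ k, φ k (z k)) n0 z *
        gsk (ySk J) (vQ (Qd β J P)) (fun z => ∑ k, f (z k)) 0
          (fun z => ∏ k, ψ k (z k)) n0 z) =
      fun z : β → ℝ => ∏ k, (fun s => cX J f P (J + 2) (φ k) (J + 2 - n0) s *
        cX J f P (J + 2) (ψ k) (J + 2 - n0) s) (z k) := by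
    funext z
    rw [gsk_prod J hL hf P φ n0 (by omega) z, gsk_prod J hL hf P ψ n0 (by omega) z,
      ← Finset.prod_mul_distrib]
    rfl
  rw [e1]
  have e2 : gsk (ySk J) (vQ (Qd β J P)) (fun z => ∑ k, f (z k)) n0
      (fun z : β → ℝ => ∏ k, (fun s => cX J f P (J + 2) (φ k) (J + 2 - n0) s *
        cX J f P (J + 2) (ψ k) (J + 2 - n0) s) (z k)) (J + 1 - n0) =
      fun z => ∏ k, cX J f P (J + 2 - n0) (fun s => cX J f P (J + 2) (φ k) (J + 2 - n0) s *
        cX J f P (J + 2) (ψ k) (J + 2 - n0) s) 1 (z k) := by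
    funext z
    rw [gsk_prod J hL hf P (fun k s => cX J f P (J + 2) (φ k) (J + 2 - n0) s *
        cX J f P (J + 2) (ψ k) (J + 2 - n0) s) (J + 1 - n0) (by omega) z,
      show J + 2 - n0 - (J + 1 - n0) = 1 by omega]
  rw [e2, sm_prod _ (fun k => cX J f P (J + 2 - n0)
    (fun s => cX J f P (J + 2) (φ k) (J + 2 - n0) s *
        cX J f P (J + 2) (ψ k) (J + 2 - n0) s) 1)]
  refine Finset.prod_congr rfl fun k _ => ?_
  unfold kapX
  have h1 : J + 1 - n0 + 1 = J + 2 - n0 := by omega
  rw [h1, cX_step J f P _ (by omega : 0 < J + 2 - n0)]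
  have h2 : mJ J 0 = 0 := by unfold mJ; simp
  rw [h2, Crest.Agent.R164.GC.tE_zero]
  have h3 : Qd β J P (J + 1) k = tP J P (0 + 1) - tP J P 0 := by
    unfold Qd
    rw [show J + 2 - (J + 1) = 0 + 1 by omega]
    have : tP J P 0 = 0 := by unfold tP; simp
    rw [this, sub_zero]
  rw [h3]
  rfl

end

end

end Crest.Agent.R146.RowFact_874
end

-- ▼ part R146/RowDef2_874
section

/-!
Row 146, statement S0206, node ROWOBS (helper874): exact Props of the last pieces.

* `ROb`    : `S6L_988.RO` for BOUNDED `ψ`;   `RO` follows by truncation (helper130).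
* `rep`    : replacement of two rows;  `RESAMP` : Fubini for the replacement.
* `SECM`   : second moment argument (two rows ⇒ the empirical mean over the rows).
-/

set_option autoImplicit false

namespace Crest.Agent.R146.RowDef2_874

open Finset MeasureTheory ProbabilityTheory Crest.Agent.R141
open Crest.Agent.R146.S6Def_988 Crest.Agent.R146.S6U_988 Crest.Agent.R146.S6L_988
open Crest.Agent.R146.RowDef_874

noncomputable section

/-- (ROb) `RO` for bounded `ψ`. -/
def ROb : Prop := ∀ (αm K L B ε : ℝ), 0 < ε → ∃ J0 : ℕ, ∀ J : ℕ, J0 ≤ J →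
  ∃ ε1 : ℝ, 0 < ε1 ∧ ∃ N0 : ℕ, ∀ (wc nc : ℕ), 2 ≤ wc → nc + 1 = (J + 1) * wc →
  ∀ N, N0 ≤ N → 0 < N → ∀ n, 0 < n → ∀ (C : Cfg N) (f φ ψ : ℝ → ℝ), BL K L f → BL B B φ →
  BL B B ψ →
  ∀ (M : ℕ) (s : Fin nc → ℝ) (τ : ℕ → ℕ), (M : ℝ) ≤ αm * N →
  Skel C nc n (fun _ => f) M s J wc τ ε1 →
  (∀ b ≤ J, ∫ G, pE (QQ C nc n (M := M) (fun _ => f) G s) ((fil C nc n).F (τ b))
      (fun u v => |RS C nc n φ ψ G u v -
        (M : ℝ) / N * kapX J f (PR C nc n f M s τ) b φ ψ|) ∂(gam M N) ≤ ε) ∧
  ∫ G, eE (QQ C nc n (M := M) (fun _ => f) G s) (fun u => |RS C nc n φ ψ G u u -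
      (M : ℝ) / N * kapX J f (PR C nc n f M s τ) (J + 1) φ ψ|) ∂(gam M N) ≤ ε

/-- replacement of the rows `a`, `b` by `ζ (0, ·)`, `ζ (1, ·)`. -/
def rep {M N : ℕ} (a b : Fin M) (G : Fin M → Fin N → ℝ) (ζ : Fin 2 × Fin N → ℝ) :
    Fin M → Fin N → ℝ :=
  fun c => if c = a then (fun i => ζ (0, i)) else if c = b then (fun i => ζ (1, i)) else G c

/-- (RESAMP) Fubini for the replacement of two rows. -/
def RESAMP : Prop := ∀ (M N : ℕ) (a b : Fin M), a ≠ b →
  MeasurePreserving (fun p : (Fin M → Fin N → ℝ) × (Fin 2 × Fin N → ℝ) => rep a b p.1 p.2)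
    ((gam M N).prod (Measure.pi fun _ => gaussianReal 0 1)) (gam M N)

/-- averaged product of two row observables -/
def two {N : ℕ} (C : Cfg N) (nc n : ℕ) (f φ ψ : ℝ → ℝ) {M : ℕ} (s : Fin nc → ℝ) (k : ℕ)
    (a b : Fin M) : ℝ :=
  ∫ G, pE (QQ C nc n (M := M) (fun _ => f) G s) ((fil C nc n).F k)
    (fun u v => (φ (hh G a (C.x u.1)) * ψ (hh G a (C.x v.1))) *
      (φ (hh G b (C.x u.1)) * ψ (hh G b (C.x v.1)))) ∂(gam M N)

/-- averaged row observable -/
def one {N : ℕ} (C : Cfg N) (nc n : ℕ) (f φ ψ : ℝ → ℝ) {M : ℕ} (s : Fin nc → ℝ) (k : ℕ)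
    (a : Fin M) : ℝ :=
  ∫ G, pE (QQ C nc n (M := M) (fun _ => f) G s) ((fil C nc n).F k)
    (fun u v => φ (hh G a (C.x u.1)) * ψ (hh G a (C.x v.1))) ∂(gam M N)


end

end Crest.Agent.R146.RowDef2_874
end

-- ▼ part R146/RowRes_679
section

/-!
Row 146, statement S0206, node ROWOBS: `RowDef2_874.RESAMP` (replacement of two rows by two fresh
Gaussian rows preserves the law of the patterns).
-/

set_option autoImplicit false

namespace Crest.Agent.R146.RowRes_679

open Finset MeasureTheory ProbabilityTheory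
open Crest.Agent.R146.S6Def_988
open Crest.Agent.R146.RowDef2_874

noncomputable section

theorem measurable_rep {M N : ℕ} (a b : Fin M) :
    Measurable (fun p : (Fin M → Fin N → ℝ) × (Fin 2 × Fin N → ℝ) => rep a b p.1 p.2) := by
  refine measurable_pi_lambda _ fun c => ?_
  unfold rep
  by_cases h1 : c = a
  · simp only [h1, if_true]
    exact measurable_pi_lambda _ fun i => (measurable_pi_apply _).comp measurable_snd
  · by_cases h2 : c = b
    · simp only [h2, if_true]
      by_cases h3 : b = a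
      · exact absurd (h2.trans h3) h1
      · simp only [h3, if_false]
        exact measurable_pi_lambda _ fun i => (measurable_pi_apply _).comp measurable_snd
    · simp only [h1, h2, if_false]
      exact (measurable_pi_apply _).comp measurable_fst

theorem resamp : RESAMP := by
  intro M N a b hab
  classical
  have hba : b ≠ a := fun h => hab h.symm
  refine ⟨measurable_rep a b, ?_⟩
  unfold gam
  symm
  refine Measure.pi_eq fun s hs => ?_
  rw [Measure.map_apply (measurable_rep a b) (MeasurableSet.univ_pi hs)]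
  have hset : (fun p : (Fin M → Fin N → ℝ) × (Fin 2 × Fin N → ℝ) => rep a b p.1 p.2) ⁻¹'
      Set.univ.pi s = (Set.univ.pi fun c => if c = a ∨ c = b then Set.univ else s c) ×ˢ
        ((MeasurableEquiv.curry (Fin 2) (Fin N) ℝ) ⁻¹'
          (Set.univ.pi fun j : Fin 2 => if j = 0 then s a else s b)) := by
    ext ⟨G, ζ⟩
    simp only [Set.mem_preimage, Set.mem_univ_pi, Set.mem_prod, MeasurableEquiv.coe_curry]
    constructor
    · intro h
      refine ⟨fun c => ?_, fun j => ?_⟩
      · by_cases hc : c = a ∨ c = b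
        · rw [if_pos hc]; exact Set.mem_univ _
        · rw [if_neg hc]
          have := h c
          unfold rep at this
          rw [if_neg (fun h => hc (Or.inl h)), if_neg (fun h => hc (Or.inr h))] at this
          exact this
      · by_cases hj : j = 0
        · rw [if_pos hj, hj]
          have := h a
          unfold rep at this
          rw [if_pos rfl] at this
          exact this
        · have hj1 : j = 1 := by omega
          rw [if_neg hj, hj1]
          have := h b
          unfold rep at this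
          rw [if_neg hba, if_pos rfl] at this
          exact this
    · rintro ⟨h1, h2⟩ c
      unfold rep
      by_cases hc : c = a
      · rw [if_pos hc, hc]
        have := h2 0
        rw [if_pos rfl] at this
        exact this
      · rw [if_neg hc]
        by_cases hc2 : c = b
        · rw [if_pos hc2, hc2]
          have := h2 1
          rw [if_neg (by decide)] at this
          exact this
        · rw [if_neg hc2]
          have := h1 c
          rw [if_neg (by tauto)] at this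
          exact this
  have hm2 : MeasurableSet (Set.univ.pi fun j : Fin 2 => if j = 0 then s a else s b) := by
    refine MeasurableSet.univ_pi fun j => ?_
    by_cases hj : j = 0
    · rw [if_pos hj]; exact hs a
    · rw [if_neg hj]; exact hs b
  have hcur := (Cav5_47.gm_curry (Fin 2) (Fin N)).measure_preimage hm2.nullMeasurableSet
  rw [hset, Measure.prod_prod, Measure.pi_pi]
  have e1 : (Measure.pi fun _ : Fin 2 × Fin N => gaussianReal 0 1)
      ((MeasurableEquiv.curry (Fin 2) (Fin N) ℝ) ⁻¹'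
          (Set.univ.pi fun j : Fin 2 => if j = 0 then s a else s b)) =
      (Measure.pi fun _ : Fin N => gaussianReal 0 1) (s a) *
        (Measure.pi fun _ : Fin N => gaussianReal 0 1) (s b) := by
    refine hcur.trans ?_
    rw [Measure.pi_pi, Fin.prod_univ_two]
    rfl
  rw [e1]
  have hb : b ∈ univ.erase a := Finset.mem_erase.2 ⟨hba, mem_univ _⟩
  rw [← Finset.mul_prod_erase univ _ (mem_univ a), ← Finset.mul_prod_erase (univ.erase a) _ hb,
    ← Finset.mul_prod_erase univ (fun c => (Measure.pi fun _ : Fin N => gaussianReal 0 1) (s c))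
      (mem_univ a), ← Finset.mul_prod_erase (univ.erase a)
      (fun c => (Measure.pi fun _ : Fin N => gaussianReal 0 1) (s c)) hb]
  rw [if_pos (Or.inl rfl), if_pos (Or.inr rfl)]
  have e2 : ∏ x ∈ (univ.erase a).erase b, (Measure.pi fun _ : Fin N => gaussianReal 0 1)
      (if x = a ∨ x = b then Set.univ else s x) =
      ∏ x ∈ (univ.erase a).erase b, (Measure.pi fun _ : Fin N => gaussianReal 0 1) (s x) := by
    refine Finset.prod_congr rfl fun x hx => ?_
    have h1 := (Finset.mem_erase.1 hx).1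
    have h2 := (Finset.mem_erase.1 (Finset.mem_erase.1 hx).2).1
    rw [if_neg (by tauto)]
  rw [e2, measure_univ, one_mul, one_mul]
  ring

end

end Crest.Agent.R146.RowRes_679
end

-- ▼ part R146/RoTruncA_130
section

/-!
Row 146, statement S0206, part of (RO) (helper130): the limit model with test functions of
polynomial growth.  For a bounded Lipschitz row function `f`:

* `cXg`, `cXm`, `cXa`  : exponential growth, monotonicity, additivity of `cX`;
* `cX_tower`           : tower property;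
* `cX_one_sq`          : `E[1 + X_1²] ≤ 2 exp (4 K)` in the limit model, uniformly in the levels;
* `kapX_change`        : `kapX` depends continuously on the second test function in the weighted norm
                         `sup |ψ - ψ'| / (1 + y²)`.
-/

set_option autoImplicit false

namespace Crest.Agent.R146.RoTruncA_130

open MeasureTheory ProbabilityTheory Filter Topology Set
open Crest.ProbabilityR.InvariantGlass
open Crest.Agent.R146.S6Def_988 Crest.Agent.R164.GC Crest.Agent.R146.RowDef_874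
open Crest.Agent.R146.LimIbp_290 (EE tE_EG dJ)

noncomputable section

variable {J : ℕ} {f : ℝ → ℝ} {P : ℕ → ℝ} {K L : ℝ}

theorem BL_cont {K L : ℝ} {f : ℝ → ℝ} (h : BL K L f) : Continuous f := by
  have hL : 0 ≤ L := by
    have h1 := (abs_nonneg _).trans (h.lip 1 0)
    simpa using h1
  refine (LipschitzWith.of_dist_le_mul (K := ⟨L, hL⟩) fun x y => ?_).continuous
  rw [Real.dist_eq, Real.dist_eq]
  exact h.lip x y

theorem BL_L {K L : ℝ} {f : ℝ → ℝ} (h : BL K L f) : 0 ≤ L := by
  have h1 := (abs_nonneg _).trans (h.lip 1 0)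
  simpa using h1

theorem BL_K {K L : ℝ} {f : ℝ → ℝ} (h : BL K L f) : 0 ≤ K := (abs_nonneg _).trans (h.bd 0)

/-- the value functions are bounded and continuous -/
theorem Psi_bc (hf : BL K L f) (P : ℕ → ℝ) {j : ℕ} (h1 : 1 ≤ j) (h2 : j ≤ J + 2) :
    BC (Psi J f P j) K := by
  have h := Crest.Agent.R146.RowFact_874.Psi_BL (J := J) (BL_L hf) hf P (J + 2 - j) (by omega)
  have e : J + 2 - (J + 2 - j) = j := by omega
  rw [e] at h
  exact ⟨BL_cont h, h.bd⟩

theorem ee (hf : BL K L f) (P : ℕ → ℝ) {j : ℕ} (h1 : 1 ≤ j) (h2 : j ≤ J + 2) :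
    EE (Psi J f P j) := EE.of_bdd (Psi_bc hf P h1 h2).cont (Psi_bc hf P h1 h2).bd

theorem stp {k j : ℕ} (g : ℝ → ℝ) (hj : j < k) : cX J f P k g j =
    tE (mJ J j) (tP J P (j + 1) - tP J P j) (Psi J f P (j + 1)) (cX J f P k g (j + 1)) :=
  cX_step J f P g hj

theorem cXg (hf : BL K L f) {k : ℕ} (hk : k ≤ J + 2) {g : ℝ → ℝ} (hg : EG g) :
    ∀ i, i ≤ k → EG (cX J f P k g (k - i)) := by
  intro i
  induction i with
  | zero => intro _; rw [Nat.sub_zero, cX_self]; exact hg
  | succ i ih =>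
    intro hi
    have e : k - (i + 1) + 1 = k - i := by omega
    rw [stp g (by omega : k - (i + 1) < k), e]
    have hb := Psi_bc (J := J) hf P (j := k - i) (by omega) (by omega)
    exact tE_EG hb.cont hb.bd _ _ (ih (by omega))

theorem cXg' (hf : BL K L f) {k : ℕ} (hk : k ≤ J + 2) {g : ℝ → ℝ} (hg : EG g) {j : ℕ}
    (hj : j ≤ k) : EG (cX J f P k g j) := by
  have h := cXg (P := P) hf hk hg (k - j) (by omega)
  have e : k - (k - j) = j := by omega
  rwa [e] at h

theorem cXm (hf : BL K L f) {k : ℕ} (hk : k ≤ J + 2) {g g' : ℝ → ℝ} (hg : EG g) (hg' : EG g')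
    (h : ∀ y, g y ≤ g' y) : ∀ i, i ≤ k → ∀ x, cX J f P k g (k - i) x ≤ cX J f P k g' (k - i) x := by
  intro i
  induction i with
  | zero => intro _ x; rw [Nat.sub_zero, cX_self, cX_self]; exact h x
  | succ i ih =>
    intro hi x
    have e : k - (i + 1) + 1 = k - i := by omega
    rw [stp g (by omega : k - (i + 1) < k), stp g' (by omega : k - (i + 1) < k), e]
    exact Crest.Agent.R146.LimIbp_290.tE_mono (ee hf P (by omega) (by omega)) _ _
      (cXg hf hk hg i (by omega)) (cXg hf hk hg' i (by omega)) (ih (by omega)) x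

theorem cXm' (hf : BL K L f) {k : ℕ} (hk : k ≤ J + 2) {g g' : ℝ → ℝ} (hg : EG g) (hg' : EG g')
    (h : ∀ y, g y ≤ g' y) {j : ℕ} (hj : j ≤ k) (x : ℝ) :
    cX J f P k g j x ≤ cX J f P k g' j x := by
  have h := cXm (P := P) hf hk hg hg' h (k - j) (by omega) x
  have e : k - (k - j) = j := by omega
  rwa [e] at h

theorem cXa (hf : BL K L f) {k : ℕ} (hk : k ≤ J + 2) {g g' : ℝ → ℝ} (hg : EG g) (hg' : EG g') :
    ∀ i, i ≤ k → ∀ x, cX J f P k (fun y => g y + g' y) (k - i) x =
      cX J f P k g (k - i) x + cX J f P k g' (k - i) x := by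
  intro i
  induction i with
  | zero => intro _ x; rw [Nat.sub_zero, cX_self, cX_self, cX_self]
  | succ i ih =>
    intro hi x
    have e : k - (i + 1) + 1 = k - i := by omega
    rw [stp _ (by omega : k - (i + 1) < k), stp g (by omega : k - (i + 1) < k),
      stp g' (by omega : k - (i + 1) < k), e]
    have h2 : cX J f P k (fun y => g y + g' y) (k - i) =
        fun x => cX J f P k g (k - i) x + cX J f P k g' (k - i) x := funext (ih (by omega))
    rw [h2]
    exact Crest.Agent.R146.LimIbp_290.tE_add (ee hf P (by omega) (by omega)) _ _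
      (cXg hf hk hg i (by omega)) (cXg hf hk hg' i (by omega)) x

theorem cXa' (hf : BL K L f) {k : ℕ} (hk : k ≤ J + 2) {g g' : ℝ → ℝ} (hg : EG g) (hg' : EG g')
    {j : ℕ} (hj : j ≤ k) (x : ℝ) : cX J f P k (fun y => g y + g' y) j x =
      cX J f P k g j x + cX J f P k g' j x := by
  have h := cXa (P := P) hf hk hg hg' (k - j) (by omega) x
  have e : k - (k - j) = j := by omega
  rwa [e] at h

theorem cXs {k : ℕ} {g : ℝ → ℝ} (c : ℝ) {j : ℕ} (hj : j ≤ k) (x : ℝ) :
    cX J f P k (fun y => c * g y) j x = c * cX J f P k g j x := by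
  have h := Crest.Agent.R146.LimIbp_290.cX_smul (J := J) (f := f) (P := P) (k := k) (g := g) c
    (k - j) (by omega) x
  have e : k - (k - j) = j := by omega
  rwa [e] at h

theorem cXc (hf : BL K L f) {k : ℕ} (hk : k ≤ J + 2) (c : ℝ) :
    ∀ i, i ≤ k → ∀ x, cX J f P k (fun _ => c) (k - i) x = c := by
  intro i
  induction i with
  | zero => intro _ x; rw [Nat.sub_zero, cX_self]
  | succ i ih =>
    intro hi x
    have e : k - (i + 1) + 1 = k - i := by omega
    rw [stp _ (by omega : k - (i + 1) < k), e]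
    have h2 : cX J f P k (fun _ => c) (k - i) = fun _ => c := funext (ih (by omega))
    rw [h2]
    exact Crest.Agent.R146.LimIbp_290.tE_const (ee hf P (by omega) (by omega)) _ _ _ x

theorem cXb (hf : BL K L f) {k : ℕ} (hk : k ≤ J + 2) {g : ℝ → ℝ} {B : ℝ} (hg : BC g B) {j : ℕ}
    (hj : j ≤ k) (x : ℝ) : |cX J f P k g j x| ≤ B := by
  have e : k - (k - j) = j := by omega
  have hc : ∀ c : ℝ, cX J f P k (fun _ => c) j x = c := fun c => by
    have := cXc (P := P) hf hk c (k - j) (by omega) x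
    rwa [e] at this
  rw [abs_le]
  constructor
  · have := cXm' (P := P) hf hk (EG.const (-B)) hg.eg (fun y => (abs_le.1 (hg.bd y)).1) hj x
    rwa [hc] at this
  · have := cXm' (P := P) hf hk hg.eg (EG.const B) (fun y => (abs_le.1 (hg.bd y)).2) hj x
    rwa [hc] at this

/-- tower property -/
theorem cX_tower {k l : ℕ} (hkl : k ≤ l) (h : ℝ → ℝ) : ∀ i, i ≤ k →
    cX J f P k (cX J f P l h k) (k - i) = cX J f P l h (k - i) := by
  intro i
  induction i with
  | zero => intro _; rw [Nat.sub_zero, cX_self]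
  | succ i ih =>
    intro hi
    have e : k - (i + 1) + 1 = k - i := by omega
    rw [stp _ (by omega : k - (i + 1) < k), stp _ (by omega : k - (i + 1) < l), e,
      ih (by omega)]

theorem cX_tower' {k l : ℕ} (hkl : k ≤ l) (h : ℝ → ℝ) {j : ℕ} (hj : j ≤ k) :
    cX J f P k (cX J f P l h k) j = cX J f P l h j := by
  have h := cX_tower (J := J) (f := f) (P := P) hkl h (k - j) (by omega)
  have e : k - (k - j) = j := by omega
  rwa [e] at h

/-! ### second moments -/

theorem EG_sq (c : ℝ) : EG (fun y : ℝ => 1 + y ^ 2 + c) :=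
  ((EG.const 1).add (Crest.Agent.R146.LimIbp_290.EG_id.pow 2)).add (EG.const c)

theorem int_sq : ∫ g : ℝ, g ^ 2 ∂gaussianReal 0 1 = 1 := by
  have h := ProbabilityTheory.variance_id_gaussianReal (μ := 0) (v := 1)
  have h2 : MemLp id 2 (gaussianReal 0 1) := memLp_id_gaussianReal 2
  rw [ProbabilityTheory.variance_eq_sub h2] at h
  have h3 : ∫ x, (id : ℝ → ℝ) x ∂gaussianReal 0 1 = 0 := integral_id_gaussianReal
  rw [h3] at h
  simpa using h

theorem H_sq (c t x : ℝ) : H t (fun y => 1 + y ^ 2 + c) x = 1 + x ^ 2 + t ^ 2 + c := by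
  have h1 : Integrable (fun g : ℝ => g) (gaussianReal 0 1) :=
    (memLp_id_gaussianReal 1).integrable le_rfl
  have h2 : Integrable (fun g : ℝ => g ^ 2) (gaussianReal 0 1) :=
    (memLp_id_gaussianReal 2).integrable_sq
  have h3 : ∫ g : ℝ, g ∂gaussianReal 0 1 = 0 := integral_id_gaussianReal
  unfold H
  have e : ∀ g : ℝ, 1 + (x + t * g) ^ 2 + c = (1 + x ^ 2 + c) + (2 * x * t) * g + t ^ 2 * g ^ 2 :=
    fun g => by ring
  simp_rw [e]
  have hA : Integrable (fun g : ℝ => (1 + x ^ 2 + c) + (2 * x * t) * g) (gaussianReal 0 1) :=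
    (integrable_const _).add (h1.const_mul _)
  have hB : Integrable (fun g : ℝ => t ^ 2 * g ^ 2) (gaussianReal 0 1) := h2.const_mul _
  rw [integral_add hA hB, integral_add (integrable_const _) (h1.const_mul _), integral_const_mul,
    integral_const_mul, int_sq, h3]
  simp
  ring

theorem mJ_mono {i j : ℕ} (h : i ≤ j) : mJ J i ≤ mJ J j := by
  unfold mJ
  have : (i : ℝ) ≤ j := by exact_mod_cast h
  gcongr

theorem mJ_nonneg (j : ℕ) : 0 ≤ mJ J j := by unfold mJ; positivity

/-- the exponential of the value function is a Gaussian average. -/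
theorem exp_Psi (hf : BL K L f) {j : ℕ} (hj : j < J + 2) (x : ℝ) :
    Real.exp (mJ J j * Psi J f P j x) = H (Real.sqrt (tP J P (j + 1) - tP J P j))
      (fun y => Real.exp (mJ J j * Psi J f P (j + 1) y)) x := by
  rcases Nat.eq_zero_or_pos j with h0 | h0
  · subst h0
    have hm : mJ J 0 = 0 := by unfold mJ; simp
    rw [hm]
    simp only [zero_mul, Real.exp_zero]
    rw [H_const]
  · have hm : mJ J j ≠ 0 := (Crest.Agent.R146.RowFact_874.mJ_pos h0).ne'
    rw [Psi_step J f P hj, gaussOp_ne hm]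
    have hp := Crest.Agent.R146.LimIbp_290.den_pos
      (ee hf P (J := J) (j := j + 1) (by omega) (by omega)) (mJ J j)
      (Real.sqrt (tP J P (j + 1) - tP J P j)) x
    rw [← mul_assoc, mul_inv_cancel₀ hm, one_mul]
    exact Real.exp_log hp

/-- density bound for second moments, backward induction. -/
theorem dens_sq (hf : BL K L f) (hP : Lev J P) {k : ℕ} (hk : k ≤ J + 2) :
    ∀ i, i ≤ k → ∀ x, Real.exp (mJ J (k - i) * Psi J f P (k - i) x) *
      cX J f P k (fun y => 1 + y ^ 2 + 0) (k - i) x ≤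
      Real.exp ((2 * mJ J k - mJ J (k - i)) * K) *
        (1 + x ^ 2 + (tP J P k - tP J P (k - i))) := by
  have hK : 0 ≤ K := BL_K hf
  intro i
  induction i with
  | zero =>
    intro _ x
    rw [Nat.sub_zero, cX_self]
    have h1 : mJ J k * Psi J f P k x ≤ (2 * mJ J k - mJ J k) * K := by
      have h2 : 2 * mJ J k - mJ J k = mJ J k := by ring
      rw [h2]
      rcases Nat.eq_zero_or_pos k with h0 | h0
      · subst h0
        have hm : mJ J 0 = 0 := by unfold mJ; simp
        rw [hm]; simp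
      · exact mul_le_mul_of_nonneg_left ((abs_le.1 ((Psi_bc hf P h0 hk).bd x)).2) (mJ_nonneg _)
    have h3 : (1 + x ^ 2 + 0 : ℝ) = 1 + x ^ 2 + (tP J P k - tP J P k) := by ring
    rw [h3]
    refine mul_le_mul_of_nonneg_right (Real.exp_le_exp.2 h1) ?_
    rw [sub_self]; positivity
  | succ i ih =>
    intro hi x
    obtain ⟨j, hj⟩ : ∃ j, j = k - (i + 1) := ⟨_, rfl⟩
    have e : k - i = j + 1 := by omega
    have hjk : j < k := by omega
    rw [← hj]
    have ih' := ih (by omega)
    rw [e] at ih'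
    set d := tP J P (j + 1) - tP J P j with hd
    have hd0 : 0 ≤ d := Crest.Agent.R146.LimIbp_290.tP_le hP j
    have hee := ee hf P (J := J) (j := j + 1) (by omega) (by omega)
    have hg : EG (cX J f P k (fun y => 1 + y ^ 2 + 0) (j + 1)) :=
      cXg' hf hk (EG_sq 0) (by omega)
    have hpos := Crest.Agent.R146.LimIbp_290.den_pos hee (mJ J j) (Real.sqrt d) x
    have h1 : Real.exp (mJ J j * Psi J f P j x) *
        cX J f P k (fun y => 1 + y ^ 2 + 0) j x = H (Real.sqrt d)
          (fun y => cX J f P k (fun y => 1 + y ^ 2 + 0) (j + 1) y *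
            Real.exp (mJ J j * Psi J f P (j + 1) y)) x := by
      rw [exp_Psi hf (by omega : j < J + 2) x, stp _ hjk, ← hd]
      unfold tE
      rw [mul_div_cancel₀ _ hpos.ne']
    rw [h1]
    have h2 : ∀ y, cX J f P k (fun y => 1 + y ^ 2 + 0) (j + 1) y *
        Real.exp (mJ J j * Psi J f P (j + 1) y) ≤ Real.exp ((2 * mJ J k - mJ J j) * K) *
          (1 + y ^ 2 + (tP J P k - tP J P (j + 1))) := by
      intro y
      have a1 := ih' y
      have a2 : Real.exp (mJ J j * Psi J f P (j + 1) y) =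
          Real.exp (-(mJ J (j + 1) - mJ J j) * Psi J f P (j + 1) y) *
            Real.exp (mJ J (j + 1) * Psi J f P (j + 1) y) := by
        rw [← Real.exp_add]; congr 1; ring
      have a3 : Real.exp (-(mJ J (j + 1) - mJ J j) * Psi J f P (j + 1) y) ≤
          Real.exp ((mJ J (j + 1) - mJ J j) * K) := by
        refine Real.exp_le_exp.2 ?_
        have h3 : 0 ≤ mJ J (j + 1) - mJ J j := sub_nonneg.2 (mJ_mono (by omega))
        have h4 := (abs_le.1 ((Psi_bc hf P (J := J) (j := j + 1) (by omega) (by omega)).bd y)).1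
        nlinarith
      have a4 : Real.exp ((2 * mJ J k - mJ J j) * K) = Real.exp ((mJ J (j + 1) - mJ J j) * K) *
          Real.exp ((2 * mJ J k - mJ J (j + 1)) * K) := by
        rw [← Real.exp_add]; congr 1; ring
      have a5 : 0 ≤ Real.exp ((2 * mJ J k - mJ J (j + 1)) * K) *
          (1 + y ^ 2 + (tP J P k - tP J P (j + 1))) := by
        refine mul_nonneg (Real.exp_pos _).le ?_
        have h5 : tP J P (j + 1) ≤ tP J P k := by
          have : ∀ l, tP J P (j + 1) ≤ tP J P (j + 1 + l) := by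
            intro l
            induction l with
            | zero => exact le_rfl
            | succ l ihl => exact ihl.trans (sub_nonneg.1
                (Crest.Agent.R146.LimIbp_290.tP_le hP (j + 1 + l)))
          have h6 := this (k - (j + 1))
          have e6 : j + 1 + (k - (j + 1)) = k := by omega
          rwa [e6] at h6
        have := sq_nonneg y
        linarith
      rw [a2, a4]
      calc cX J f P k (fun y => 1 + y ^ 2 + 0) (j + 1) y *
            (Real.exp (-(mJ J (j + 1) - mJ J j) * Psi J f P (j + 1) y) *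
              Real.exp (mJ J (j + 1) * Psi J f P (j + 1) y))
          = Real.exp (-(mJ J (j + 1) - mJ J j) * Psi J f P (j + 1) y) *
            (Real.exp (mJ J (j + 1) * Psi J f P (j + 1) y) *
              cX J f P k (fun y => 1 + y ^ 2 + 0) (j + 1) y) := by ring
        _ ≤ Real.exp (-(mJ J (j + 1) - mJ J j) * Psi J f P (j + 1) y) *
            (Real.exp ((2 * mJ J k - mJ J (j + 1)) * K) *
              (1 + y ^ 2 + (tP J P k - tP J P (j + 1)))) :=
            mul_le_mul_of_nonneg_left a1 (Real.exp_pos _).le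
        _ ≤ Real.exp ((mJ J (j + 1) - mJ J j) * K) *
            (Real.exp ((2 * mJ J k - mJ J (j + 1)) * K) *
              (1 + y ^ 2 + (tP J P k - tP J P (j + 1)))) :=
            mul_le_mul_of_nonneg_right a3 a5
        _ = _ := by ring
    have h3 := H_mono (hg.mul (hee (mJ J j))) ((EG_sq (tP J P k - tP J P (j + 1))).const_mul
      (Real.exp ((2 * mJ J k - mJ J j) * K))) h2 (Real.sqrt d) x
    refine h3.trans (le_of_eq ?_)
    rw [H_const_mul, H_sq, Real.sq_sqrt hd0, hd]
    ring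

theorem tP_le_one (hP : Lev J P) {k : ℕ} : tP J P k ≤ 1 := by
  unfold tP
  split_ifs with h1 h2
  · exact zero_le_one
  · exact (hP.mono (k - 1) J (by omega) le_rfl).trans hP.le_one
  · exact le_rfl

/-- second moment in the limit model -/
theorem cX_one_sq (hf : BL K L f) (hP : Lev J P) :
    cX J f P (J + 2) (fun y => 1 + y ^ 2) 0 0 ≤ 2 * Real.exp (4 * K) := by
  have hK : 0 ≤ K := BL_K hf
  have h := dens_sq hf hP (k := J + 2) le_rfl (J + 2) le_rfl 0
  rw [Nat.sub_self] at h
  have hm : mJ J 0 = 0 := by unfold mJ; simp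
  rw [hm, zero_mul, Real.exp_zero, one_mul, sub_zero] at h
  have e : (fun y : ℝ => 1 + y ^ 2 + 0) = fun y : ℝ => 1 + y ^ 2 := by funext y; ring
  rw [e] at h
  have ht0 : tP J P 0 = 0 := by unfold tP; simp
  have ht := tP_le_one hP (k := J + 2)
  have hm2 : mJ J (J + 2) ≤ 2 := by
    unfold mJ
    rw [div_le_iff₀ (by positivity)]
    push_cast
    have : (0 : ℝ) ≤ J := Nat.cast_nonneg J
    linarith
  have h1 : Real.exp (2 * mJ J (J + 2) * K) ≤ Real.exp (4 * K) := by
    refine Real.exp_le_exp.2 ?_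
    nlinarith
  calc cX J f P (J + 2) (fun y => 1 + y ^ 2) 0 0
      ≤ Real.exp (2 * mJ J (J + 2) * K) * (1 + 0 ^ 2 + (tP J P (J + 2) - tP J P 0)) := h
    _ ≤ Real.exp (4 * K) * 2 := by
        refine mul_le_mul h1 ?_ ?_ (Real.exp_pos _).le
        · rw [ht0]; nlinarith
        · rw [ht0]
          have : 0 ≤ tP J P (J + 2) := by
            unfold tP
            rw [if_neg (by omega), if_neg (by omega)]
            exact zero_le_one
          nlinarith
    _ = _ := by ring

/-- change of the second test function in the pair expectation -/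
theorem kapX_le (hf : BL K L f) (hP : Lev J P) {b : ℕ} (hb : b ≤ J + 1) {φ ψ ψ' : ℝ → ℝ} {B η : ℝ}
    (hφ : BC φ B) (hψ : EG ψ) (hψ' : EG ψ') (hη : 0 ≤ η)
    (h : ∀ y, |ψ y - ψ' y| ≤ η * (1 + y ^ 2)) :
    kapX J f P b φ ψ ≤ kapX J f P b φ ψ' + 2 * B * η * Real.exp (4 * K) := by
  have hB : 0 ≤ B := hφ.nonneg
  have hq : EG (fun y : ℝ => 1 + y ^ 2) := by
    have := EG_sq 0
    have e : (fun y : ℝ => 1 + y ^ 2 + 0) = fun y : ℝ => 1 + y ^ 2 := by funext y; ring
    rwa [e] at this
  set u := cX J f P (J + 2) φ (b + 1) with hu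
  set v := cX J f P (J + 2) ψ (b + 1) with hv
  set v' := cX J f P (J + 2) ψ' (b + 1) with hv'
  set w := cX J f P (J + 2) (fun y => 1 + y ^ 2) (b + 1) with hw
  have egu : EG u := cXg' hf le_rfl hφ.eg (by omega)
  have egv : EG v := cXg' hf le_rfl hψ (by omega)
  have egv' : EG v' := cXg' hf le_rfl hψ' (by omega)
  have egw : EG w := cXg' hf le_rfl hq (by omega)
  have hub : ∀ x, |u x| ≤ B := fun x => cXb hf le_rfl hφ (by omega) x
  have d1 : ∀ x, v x ≤ v' x + η * w x := by
    intro x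
    have h1 := cXm' (P := P) hf (le_refl (J + 2)) hψ (hψ'.add (hq.const_mul η))
      (fun y => by have := (abs_le.1 (h y)).2; linarith) (j := b + 1) (by omega) x
    rw [cXa' hf (le_refl (J + 2)) hψ' (hq.const_mul η) (by omega) x, cXs η (by omega) x] at h1
    exact h1
  have d2 : ∀ x, v' x ≤ v x + η * w x := by
    intro x
    have h1 := cXm' (P := P) hf (le_refl (J + 2)) hψ' (hψ.add (hq.const_mul η))
      (fun y => by have := (abs_le.1 (h y)).1; linarith) (j := b + 1) (by omega) x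
    rw [cXa' hf (le_refl (J + 2)) hψ (hq.const_mul η) (by omega) x, cXs η (by omega) x] at h1
    exact h1
  have d3 : ∀ x, u x * v x ≤ u x * v' x + (B * η) * w x := by
    intro x
    have h1 : |v x - v' x| ≤ η * w x := by
      rw [abs_le]; constructor <;> linarith [d1 x, d2 x]
    have h2 : u x * v x - u x * v' x ≤ |u x| * |v x - v' x| := by
      rw [← mul_sub, ← abs_mul]; exact le_abs_self _
    have h3 : |u x| * |v x - v' x| ≤ B * (η * w x) :=
      mul_le_mul (hub x) h1 (abs_nonneg _) hB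
    nlinarith
  have hb1 : b + 1 ≤ J + 2 := by omega
  have h4 := cXm' (P := P) hf hb1 (egu.mul egv) ((egu.mul egv').add (egw.const_mul (B * η))) d3
    (j := 0) (by omega) 0
  rw [cXa' hf hb1 (egu.mul egv') (egw.const_mul (B * η)) (by omega) 0, cXs _ (by omega) 0] at h4
  have h5 : cX J f P (b + 1) w 0 = cX J f P (J + 2) (fun y => 1 + y ^ 2) 0 :=
    cX_tower' hb1 _ (by omega)
  rw [h5] at h4
  have h6 := cX_one_sq hf hP
  have h7 : 0 ≤ B * η := mul_nonneg hB hη
  have h8 := mul_le_mul_of_nonneg_left h6 h7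
  show cX J f P (b + 1) (fun x => u x * v x) 0 0 ≤ cX J f P (b + 1) (fun x => u x * v' x) 0 0 + _
  linarith

theorem kapX_change (hf : BL K L f) (hP : Lev J P) {b : ℕ} (hb : b ≤ J + 1) {φ ψ ψ' : ℝ → ℝ}
    {B η : ℝ} (hφ : BC φ B) (hψ : EG ψ) (hψ' : EG ψ') (hη : 0 ≤ η)
    (h : ∀ y, |ψ y - ψ' y| ≤ η * (1 + y ^ 2)) :
    |kapX J f P b φ ψ - kapX J f P b φ ψ'| ≤ 2 * B * η * Real.exp (4 * K) := by
  rw [abs_le]
  constructor
  · have := kapX_le hf hP hb hφ hψ' hψ hη (fun y => by rw [abs_sub_comm]; exact h y)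
    linarith
  · have := kapX_le hf hP hb hφ hψ hψ' hη h
    linarith

end

end Crest.Agent.R146.RoTruncA_130
end

-- ▼ part R146/RoTrunc_130

/-!
Row 146, statement S0206, part of (RO) (helper130): TRUNCATION.
`ro_of : ROb → MOM → RO` : the row observables for test functions `ψ` of linear growth from the
bounded case.
-/

set_option autoImplicit false

namespace Crest.Agent.R146.RoTrunc_130

open Finset MeasureTheory ProbabilityTheory Crest.Agent.R141
open Crest.Agent.R146.S6Def_988 Crest.Agent.R146.S6U_988 Crest.Agent.R146.S6L_988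
open Crest.Agent.R146.RowDef_874 Crest.Agent.R146.RowDef2_874 Crest.Agent.R164.GC
open Crest.Agent.R146.RoTruncA_130
open Crest.Agent.R146.CavInc_769 (meas_QQ meas_cE meas_eE QQ_isProb)

noncomputable section

/-! ### the truncated test function -/

/-- truncation at the level `r` -/
def tr (r : ℝ) (ψ : ℝ → ℝ) (y : ℝ) : ℝ := max (-r) (min r (ψ y))

theorem tr_bd {r : ℝ} (hr : 0 ≤ r) (ψ : ℝ → ℝ) (y : ℝ) : |tr r ψ y| ≤ r := by
  unfold tr
  rw [abs_le]
  exact ⟨le_max_left _ _, max_le (by linarith) (min_le_left _ _)⟩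

theorem tr_lip {r : ℝ} (ψ : ℝ → ℝ) (x y : ℝ) : |tr r ψ x - tr r ψ y| ≤ |ψ x - ψ y| := by
  unfold tr
  have h1 := abs_max_sub_max_le_max (-r) (min r (ψ x)) (-r) (min r (ψ y))
  have h2 := abs_min_sub_min_le_max r (ψ x) r (ψ y)
  simp only [sub_self, abs_zero] at h1 h2
  rw [max_eq_right (abs_nonneg (min r (ψ x) - min r (ψ y)))] at h1
  rw [max_eq_right (abs_nonneg (ψ x - ψ y))] at h2
  exact h1.trans h2

theorem tr_err {r : ℝ} (hr : 0 < r) (ψ : ℝ → ℝ) (y : ℝ) : |ψ y - tr r ψ y| ≤ ψ y ^ 2 / r := by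
  rw [le_div_iff₀ hr]
  unfold tr
  rcases le_total (ψ y) r with h1 | h1
  · rw [min_eq_right h1]
    rcases le_total (-r) (ψ y) with h2 | h2
    · rw [max_eq_right h2, sub_self, abs_zero, zero_mul]; positivity
    · rw [max_eq_left h2, abs_of_nonpos (by linarith)]
      nlinarith
  · rw [min_eq_left h1, max_eq_right (by linarith), abs_of_nonneg (by linarith)]
    nlinarith

/-- linear growth -/
theorem growth {ψ : ℝ → ℝ} {B : ℝ} (h1 : ∀ x y, |ψ x - ψ y| ≤ B * |x - y|) (h0 : |ψ 0| ≤ B)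
    (y : ℝ) : |ψ y| ≤ B * (1 + |y|) := by
  have h2 := h1 y 0
  rw [sub_zero] at h2
  have h3 : |ψ y| ≤ |ψ y - ψ 0| + |ψ 0| := by
    have := abs_add_le (ψ y - ψ 0) (ψ 0)
    simpa using this
  linarith

theorem growth_sq {ψ : ℝ → ℝ} {B : ℝ} (h1 : ∀ x y, |ψ x - ψ y| ≤ B * |x - y|) (h0 : |ψ 0| ≤ B)
    (y : ℝ) : ψ y ^ 2 ≤ 2 * B ^ 2 * (1 + y ^ 2) := by
  have hB : 0 ≤ B := (abs_nonneg _).trans h0
  have h2 := growth h1 h0 y
  have h3 : ψ y ^ 2 ≤ (B * (1 + |y|)) ^ 2 := by
    rw [← sq_abs (ψ y)]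
    exact pow_le_pow_left₀ (abs_nonneg _) h2 2
  have h4 : (B * (1 + |y|)) ^ 2 = B ^ 2 * (1 + 2 * |y| + y ^ 2) := by
    rw [mul_pow, add_sq, sq_abs]; ring
  have h5 : 2 * |y| ≤ 1 + y ^ 2 := by
    have := sq_nonneg (|y| - 1)
    rw [sub_sq, sq_abs] at this
    linarith
  have h6 : 0 ≤ B ^ 2 := sq_nonneg B
  nlinarith

theorem eg_of_growth {ψ : ℝ → ℝ} {B : ℝ} (h1 : ∀ x y, |ψ x - ψ y| ≤ B * |x - y|)
    (h0 : |ψ 0| ≤ B) : EG ψ := by
  have hB : 0 ≤ B := (abs_nonneg _).trans h0
  have hc : Continuous ψ := by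
    refine (LipschitzWith.of_dist_le_mul (K := ⟨B, hB⟩) fun x y => ?_).continuous
    rw [Real.dist_eq, Real.dist_eq]
    exact h1 x y
  refine ⟨hc, B, 1, hB, zero_le_one, fun x => (growth h1 h0 x).trans ?_⟩
  refine mul_le_mul_of_nonneg_left ?_ hB
  rw [one_mul, add_comm]
  exact Real.add_one_le_exp _

theorem int_Fsq : ∫ y : ℝ, (1 + y ^ 2) ∂gaussianReal 0 1 = 2 := by
  have h := H_sq 0 1 0
  unfold H at h
  have e : ∀ g : ℝ, (1 + (0 + 1 * g) ^ 2 + 0 : ℝ) = 1 + g ^ 2 := fun g => by ring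
  simp_rw [e] at h
  rw [h]; norm_num

theorem integrable_Fsq : Integrable (fun y : ℝ => 1 + y ^ 2) (gaussianReal 0 1) :=
  (integrable_const _).add (memLp_id_gaussianReal 2).integrable_sq

/-! ### the system side -/

section sys

variable {N nc n : ℕ} {C : Cfg N}

theorem meas_hh {M : ℕ} (a : Fin M) (x : Fin N → ℝ) :
    Measurable fun G : Fin M → Fin N → ℝ => hh G a x := by
  unfold hh
  refine Finset.measurable_sum _ fun i _ => ?_
  exact ((measurable_pi_apply i).comp (measurable_pi_apply a)).mul_const _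

theorem meas_RS {M : ℕ} {φ ψ : ℝ → ℝ} (hφ : Measurable φ) (hψ : Measurable ψ) (u v : Om C nc n) :
    Measurable fun G : Fin M → Fin N → ℝ => RS C nc n φ ψ G u v := by
  unfold RS
  refine (Finset.measurable_sum _ fun a _ => ?_).const_mul _
  exact (hφ.comp (meas_hh a _)).mul (hψ.comp (meas_hh a _))

/-- a pair expectation: the two cases (conditionally independent pair, diagonal) -/
structure PairE {M : ℕ} (C : Cfg N) (nc n : ℕ) (Q : (Fin M → Fin N → ℝ) → Om C nc n → ℝ)
    (E : (Fin M → Fin N → ℝ) → (Om C nc n → Om C nc n → ℝ) → ℝ) : Prop where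
  mono : ∀ G g g', (∀ u v, g u v ≤ g' u v) → E G g ≤ E G g'
  add : ∀ G g g', E G (fun u v => g u v + g' u v) = E G g + E G g'
  cst : ∀ G c, E G (fun _ _ => c) = c
  snd : ∀ G h, E G (fun _ v => h v) = eE (Q G) h
  meas : ∀ g : (Fin M → Fin N → ℝ) → Om C nc n → Om C nc n → ℝ,
    (∀ u v, Measurable fun G => g G u v) → Measurable fun G => E G (g G)

theorem pairE_pE {M : ℕ} {f : ℕ → ℝ → ℝ} (hf : ∀ a, Measurable (f a)) (s : Fin nc → ℝ)
    (r : Setoid (Om C nc n)) :
    PairE (M := M) C nc n (fun G => QQ C nc n f G s) (fun G g => pE (QQ C nc n f G s) r g) where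
  mono G _ _ h := S6Trans_944.pE_mono (QQ_isProb f G s) fun u v _ => h u v
  add _ g g' := S6Trans_944.pE_add g g'
  cst G c := S6Trans_944.pE_const (QQ_isProb f G s) c
  snd G h := S6Trans_944.pE_snd (QQ_isProb f G s) h
  meas g hg := by
    unfold pE
    refine meas_eE (fun ω => meas_QQ hf s ω) fun u => ?_
    exact meas_cE (f := fun G v => g G u v) (fun ω => meas_QQ hf s ω) (fun v => hg u v) _ _

theorem pairE_eE {M : ℕ} {f : ℕ → ℝ → ℝ} (hf : ∀ a, Measurable (f a)) (s : Fin nc → ℝ) :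
    PairE (M := M) C nc n (fun G => QQ C nc n f G s)
      (fun G g => eE (QQ C nc n f G s) (fun u => g u u)) where
  mono G _ _ h := eE_mono (QQ_isProb f G s) fun u => h u u
  add _ _ _ := eE_add _ _ _
  cst G c := eE_const (QQ_isProb f G s) c
  snd _ _ := rfl
  meas g hg := meas_eE (f := fun G u => g G u u) (fun ω => meas_QQ hf s ω) (fun u => hg u u)

theorem core (hM : MOM) (hN : 0 < N) (hn : 0 < n) {K L : ℝ} {f : ℝ → ℝ} (hf : BL K L f) {M : ℕ}
    (s : Fin nc → ℝ) {E : (Fin M → Fin N → ℝ) → (Om C nc n → Om C nc n → ℝ) → ℝ}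
    (hE : PairE C nc n (fun G => QQ C nc n (fun _ => f) G s) E) {φ ψ ψ' : ℝ → ℝ} {B B' η κ κ' δ : ℝ}
    (hφ : BC φ B) (hψ' : BC ψ' B') (hη : 0 ≤ η)
    (hd : ∀ y, |ψ y - ψ' y| ≤ η * (1 + y ^ 2)) (hκ : |κ - κ'| ≤ δ) :
    ∫ G, E G (fun u v => |RS C nc n φ ψ G u v - (M : ℝ) / N * κ|) ∂(gam M N) ≤
      ∫ G, E G (fun u v => |RS C nc n φ ψ' G u v - (M : ℝ) / N * κ'|) ∂(gam M N) +
        (M : ℝ) / N * (2 * B * η * Real.exp (4 * K) + δ) := by
  have hB : 0 ≤ B := hφ.nonneg
  have hN0 : (0 : ℝ) < N := by exact_mod_cast hN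
  have hcm : Measurable f := (BL_cont hf).measurable
  have : IsProbabilityMeasure (gam M N) := by unfold gam; infer_instance
  obtain ⟨F, hF⟩ : ∃ F : ℝ → ℝ, F = fun y => 1 + y ^ 2 := ⟨_, rfl⟩
  have hFm : Measurable F := by rw [hF]; fun_prop
  have hF0 : ∀ x, 0 ≤ F x := fun x => by rw [hF]; positivity
  have hFi : Integrable F (gaussianReal 0 1) := by rw [hF]; exact integrable_Fsq
  have hF2 : ∫ x, F x ∂gaussianReal 0 1 = 2 := by rw [hF]; exact int_Fsq
  have mom := fun a : Fin M => hM K N nc n hN hn C (fun _ => f) M s (fun _ => hcm)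
    (fun _ => hf.bd) a F hFm hF0 hFi
  -- the error function
  set w : (Fin M → Fin N → ℝ) → Om C nc n → ℝ := fun G v =>
    (N : ℝ)⁻¹ * ∑ a : Fin M, (B * η) * F (hh G a (C.x v.1)) with hw
  have hW : ∀ G, eE (QQ C nc n (fun _ => f) G s) (w G) = (N : ℝ)⁻¹ * ∑ a : Fin M, (B * η) *
      eE (QQ C nc n (fun _ => f) G s) (fun v => F (hh G a (C.x v.1))) := by
    intro G
    rw [hw]
    simp only
    rw [eE_smul, eE_sum]
    congr 1
    exact Finset.sum_congr rfl fun a _ => eE_smul _ _ _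
  have hWi : Integrable (fun G => eE (QQ C nc n (fun _ => f) G s) (w G)) (gam M N) := by
    simp_rw [hW]
    exact (integrable_finsetSum _ fun a _ => (mom a).1.const_mul _).const_mul _
  have hWint : ∫ G, eE (QQ C nc n (fun _ => f) G s) (w G) ∂(gam M N) ≤
      (M : ℝ) / N * (2 * B * η * Real.exp (4 * K)) := by
    simp_rw [hW]
    rw [integral_const_mul, integral_finsetSum _ fun a _ => (mom a).1.const_mul _]
    have h1 : ∑ a : Fin M, ∫ G, (B * η) *
        eE (QQ C nc n (fun _ => f) G s) (fun v => F (hh G a (C.x v.1))) ∂(gam M N) ≤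
        ∑ _a : Fin M, (B * η) * (Real.exp (4 * K) * 2) := by
      refine Finset.sum_le_sum fun a _ => ?_
      rw [integral_const_mul]
      refine mul_le_mul_of_nonneg_left ?_ (mul_nonneg hB hη)
      have := (mom a).2
      rwa [hF2] at this
    rw [Finset.sum_const, Finset.card_univ, Fintype.card_fin, nsmul_eq_mul] at h1
    calc (N : ℝ)⁻¹ * ∑ a : Fin M, ∫ G, (B * η) *
          eE (QQ C nc n (fun _ => f) G s) (fun v => F (hh G a (C.x v.1))) ∂(gam M N)
        ≤ (N : ℝ)⁻¹ * (M * ((B * η) * (Real.exp (4 * K) * 2))) :=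
          mul_le_mul_of_nonneg_left h1 (inv_nonneg.2 hN0.le)
      _ = _ := by rw [div_eq_mul_inv]; ring
  -- pointwise comparison
  have hpt : ∀ (G : Fin M → Fin N → ℝ) (u v : Om C nc n),
      |RS C nc n φ ψ G u v - (M : ℝ) / N * κ| ≤
        (|RS C nc n φ ψ' G u v - (M : ℝ) / N * κ'| + w G v) + (M : ℝ) / N * δ := by
    intro G u v
    have h1 : |RS C nc n φ ψ G u v - RS C nc n φ ψ' G u v| ≤ w G v := by
      have e : RS C nc n φ ψ G u v - RS C nc n φ ψ' G u v = (N : ℝ)⁻¹ * ∑ a : Fin M,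
          φ (hh G a (C.x u.1)) * (ψ (hh G a (C.x v.1)) - ψ' (hh G a (C.x v.1))) := by
        unfold RS
        rw [← mul_sub, ← Finset.sum_sub_distrib]
        congr 1
        exact Finset.sum_congr rfl fun a _ => by ring
      rw [e, abs_mul, abs_of_nonneg (inv_nonneg.2 hN0.le)]
      refine mul_le_mul_of_nonneg_left ?_ (inv_nonneg.2 hN0.le)
      refine (Finset.abs_sum_le_sum_abs _ _).trans (Finset.sum_le_sum fun a _ => ?_)
      rw [abs_mul, mul_assoc]
      refine mul_le_mul (hφ.bd _) ?_ (abs_nonneg _) hB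
      rw [hF]
      exact hd _
    have h2 : |(M : ℝ) / N * κ - (M : ℝ) / N * κ'| ≤ (M : ℝ) / N * δ := by
      rw [← mul_sub, abs_mul, abs_of_nonneg (by positivity)]
      exact mul_le_mul_of_nonneg_left hκ (by positivity)
    have h3 : RS C nc n φ ψ G u v - (M : ℝ) / N * κ =
        (RS C nc n φ ψ G u v - RS C nc n φ ψ' G u v) +
        (RS C nc n φ ψ' G u v - (M : ℝ) / N * κ') - ((M : ℝ) / N * κ - (M : ℝ) / N * κ') := by
      ring
    rw [h3]
    have h4 := abs_sub ((RS C nc n φ ψ G u v - RS C nc n φ ψ' G u v) +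
        (RS C nc n φ ψ' G u v - (M : ℝ) / N * κ')) ((M : ℝ) / N * κ - (M : ℝ) / N * κ')
    have h5 := abs_add_le (RS C nc n φ ψ G u v - RS C nc n φ ψ' G u v)
      (RS C nc n φ ψ' G u v - (M : ℝ) / N * κ')
    linarith
  have hEpt : ∀ G, E G (fun u v => |RS C nc n φ ψ G u v - (M : ℝ) / N * κ|) ≤
      (E G (fun u v => |RS C nc n φ ψ' G u v - (M : ℝ) / N * κ'|) +
        eE (QQ C nc n (fun _ => f) G s) (w G)) + (M : ℝ) / N * δ := by
    intro G
    have h1 := hE.mono G _ _ (hpt G)
    rw [hE.add G (fun u v => |RS C nc n φ ψ' G u v - (M : ℝ) / N * κ'| + w G v)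
      (fun _ _ => (M : ℝ) / N * δ), hE.cst,
      hE.add G (fun u v => |RS C nc n φ ψ' G u v - (M : ℝ) / N * κ'|) (fun _ v => w G v),
      hE.snd] at h1
    exact h1
  -- integrability of the truncated quantity
  have hX : Integrable (fun G => E G (fun u v => |RS C nc n φ ψ' G u v - (M : ℝ) / N * κ'|))
      (gam M N) := by
    have hb : ∀ (G : Fin M → Fin N → ℝ) (u v : Om C nc n),
        |RS C nc n φ ψ' G u v - (M : ℝ) / N * κ'| ≤
          (N : ℝ)⁻¹ * (M * (B * B')) + |(M : ℝ) / N * κ'| := by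
      intro G u v
      refine (abs_sub _ _).trans (add_le_add ?_ le_rfl)
      unfold RS
      rw [abs_mul, abs_of_nonneg (inv_nonneg.2 hN0.le)]
      refine mul_le_mul_of_nonneg_left ?_ (inv_nonneg.2 hN0.le)
      refine (Finset.abs_sum_le_sum_abs _ _).trans ?_
      calc ∑ a : Fin M, |φ (hh G a (C.x u.1)) * ψ' (hh G a (C.x v.1))|
          ≤ ∑ _a : Fin M, B * B' := Finset.sum_le_sum fun a _ => by
            rw [abs_mul]
            exact mul_le_mul (hφ.bd _) (hψ'.bd _) (abs_nonneg _) hB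
        _ = _ := by rw [Finset.sum_const, Finset.card_univ, Fintype.card_fin, nsmul_eq_mul]
    refine Integrable.of_bound (C := (N : ℝ)⁻¹ * (M * (B * B')) + |(M : ℝ) / N * κ'|)
      (hE.meas _ fun u v => ?_).aestronglyMeasurable (ae_of_all _ fun G => ?_)
    · exact ((meas_RS hφ.cont.measurable hψ'.cont.measurable u v).sub_const _).abs
    · have h1 := hE.mono G _ _ (hb G)
      rw [hE.cst] at h1
      have h2 := hE.mono G (fun _ _ => 0)
        (fun u v => |RS C nc n φ ψ' G u v - (M : ℝ) / N * κ'|) fun _ _ => abs_nonneg _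
      rw [hE.cst] at h2
      rw [Real.norm_eq_abs, abs_of_nonneg h2]
      exact h1
  have h0 : ∀ G, 0 ≤ E G (fun u v => |RS C nc n φ ψ G u v - (M : ℝ) / N * κ|) := by
    intro G
    have h2 := hE.mono G (fun _ _ => 0)
      (fun u v => |RS C nc n φ ψ G u v - (M : ℝ) / N * κ|) fun _ _ => abs_nonneg _
    rwa [hE.cst] at h2
  have hfin := integral_mono_of_nonneg (μ := gam M N) (ae_of_all _ h0)
    ((hX.add hWi).add (integrable_const ((M : ℝ) / N * δ))) (ae_of_all _ hEpt)
  rw [integral_add' (hX.add hWi) (integrable_const _), integral_add' hX hWi, integral_const] at hfin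
  simp only [probReal_univ, one_smul] at hfin
  linarith

end sys

/-- (RO) from the bounded case and the moments. -/
theorem ro_of (hR : ROb) (hM : MOM) : RO := by
  intro αm K L B ε hε
  -- the level of the truncation
  obtain ⟨r, hr⟩ : ∃ r : ℝ, r = 1 + |B| + 16 * |αm| * |B| ^ 3 * Real.exp (4 * K) / ε := ⟨_, rfl⟩
  have hr1 : 1 ≤ r := by
    rw [hr]
    have : 0 ≤ 16 * |αm| * |B| ^ 3 * Real.exp (4 * K) / ε := by positivity
    have := abs_nonneg B
    linarith
  have hrB : B ≤ r := by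
    rw [hr]
    have : 0 ≤ 16 * |αm| * |B| ^ 3 * Real.exp (4 * K) / ε := by positivity
    have := le_abs_self B
    linarith
  have hr0 : 0 < r := by linarith
  have hre : 8 * |αm| * |B| ^ 3 * Real.exp (4 * K) / r ≤ ε / 2 := by
    rw [div_le_iff₀ hr0]
    have h1 : ε / 2 * (16 * |αm| * |B| ^ 3 * Real.exp (4 * K) / ε) =
        8 * |αm| * |B| ^ 3 * Real.exp (4 * K) := by
      field_simp; ring
    rw [hr, mul_add, h1]
    have := abs_nonneg B
    nlinarith
  obtain ⟨J0, hJ0⟩ := hR αm K L r (ε / 2) (by linarith)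
  refine ⟨J0, fun J hJ => ?_⟩
  obtain ⟨ε1, hε1, N0, hN0⟩ := hJ0 J hJ
  refine ⟨ε1, hε1, N0, ?_⟩
  intro wc nc hwc hnc N hN hNpos n hn C f φ ψ hf hφ hψ hψ0 M s τ hMα hsk
  have hB : 0 ≤ B := BL_K hφ
  have hNr : (0 : ℝ) < N := by exact_mod_cast hNpos
  have hφr : BL r r φ := ⟨fun x => (hφ.bd x).trans hrB, fun x y => (hφ.lip x y).trans
    (mul_le_mul_of_nonneg_right hrB (abs_nonneg _))⟩
  have hψr : BL r r (tr r ψ) := ⟨fun x => tr_bd hr0.le ψ x, fun x y => (tr_lip ψ x y).trans
    ((hψ x y).trans (mul_le_mul_of_nonneg_right hrB (abs_nonneg _)))⟩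
  obtain ⟨h1, h2⟩ := hN0 wc nc hwc hnc N hN hNpos n hn C f φ (tr r ψ) hf hφr hψr M s τ hMα hsk
  have hcm : Measurable f := (BL_cont hf).measurable
  have hlev : Lev J (PR C nc n f M s τ) :=
    CavAsm_769.lev_Rk hNpos (fun _ => hcm) M s (CavAsm_769.tau_mono (by omega) hsk.blk)
  have hα0 : (M : ℝ) / N ≤ |αm| := by
    rw [div_le_iff₀ hNr]
    exact hMα.trans (mul_le_mul_of_nonneg_right (le_abs_self _) hNr.le)
  have hη : 0 ≤ 2 * B ^ 2 / r := by positivity
  have hd : ∀ y, |ψ y - tr r ψ y| ≤ 2 * B ^ 2 / r * (1 + y ^ 2) := by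
    intro y
    refine (tr_err hr0 ψ y).trans ?_
    rw [div_mul_eq_mul_div]
    exact div_le_div_of_nonneg_right (growth_sq hψ hψ0 y) hr0.le
  have hψc : EG ψ := eg_of_growth hψ hψ0
  have hφb : BC φ B := ⟨BL_cont hφ, hφ.bd⟩
  have hψb : BC (tr r ψ) r := ⟨BL_cont hψr, hψr.bd⟩
  have herr : (M : ℝ) / N * (2 * B * (2 * B ^ 2 / r) * Real.exp (4 * K) +
      2 * B * (2 * B ^ 2 / r) * Real.exp (4 * K)) ≤ ε / 2 := by
    have e : 2 * B * (2 * B ^ 2 / r) * Real.exp (4 * K) +
      2 * B * (2 * B ^ 2 / r) * Real.exp (4 * K) = 8 * |B| ^ 3 * Real.exp (4 * K) / r := by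
      rw [abs_of_nonneg hB]; field_simp; ring
    rw [e]
    calc (M : ℝ) / N * (8 * |B| ^ 3 * Real.exp (4 * K) / r)
        ≤ |αm| * (8 * |B| ^ 3 * Real.exp (4 * K) / r) :=
          mul_le_mul_of_nonneg_right hα0 (by positivity)
      _ = 8 * |αm| * |B| ^ 3 * Real.exp (4 * K) / r := by ring
      _ ≤ ε / 2 := hre
  constructor
  · intro b hb
    have h3 := core hM hNpos hn hf s (pairE_pE (M := M) (fun _ => hcm) s ((fil C nc n).F (τ b)))
      hφb hψb hη hd (kapX_change hf hlev (by omega : b ≤ J + 1) hφb hψc hψb.eg hη hd)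
    have h4 := h1 b hb
    linarith
  · have h3 := core hM hNpos hn hf s (pairE_eE (M := M) (C := C) (n := n) (fun _ => hcm) s)
      hφb hψb hη hd (kapX_change hf hlev (le_refl (J + 1)) hφb hψc hψb.eg hη hd)
    linarith

end

end Crest.Agent.R146.RoTrunc_130
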