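import Crest.Agent.R146.RowTilt_874
import Crest.Agent.R146.RowChain2_874
import Crest.Agent.R146.RoTrunc_130_Mg
import Crest.Agent.R146.Cav5_47
import Crest.Agent.R146.LimIbp_290
import Crest.Agent.R146.CavAsm_769
import Crest.Agent.R146.S6Trans_944
import Crest.Agent.R146.Noise2_143

-- ▼ part R146/RowTilt2_874
section

/-!
Row 146, node ROWOBS (helper874), part 4: **the limit of the pair expectations of the tilted law**
of the full system (`row_limit`).
-/

set_option autoImplicit false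

namespace Crest.Agent.R146.RowTilt_874

open Finset MeasureTheory ProbabilityTheory Crest.Agent.R141 Crest.Agent.R141.Fact
open Crest.Agent.R141.Skel31 Crest.Agent.R164.CavG Crest.Agent.R146.RowChain_874

noncomputable section

/-- level of the depth `n`: depth `0` is the leaf. -/
def lev (J : ℕ) (t : ℕ → ℕ) (L : ℕ) : ℕ → ℕ
  | 0 => L
  | n + 1 => t (J - n)

/-- exponents adapted to the skeleton levels. -/
structure Lvl (xe : ℕ → ℝ) (J : ℕ) (t : ℕ → ℕ) (δ : ℝ) : Prop where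
  expo : IsExpo xe
  nonneg : 0 ≤ δ
  mono : Monotone t
  low : ∀ l, l ≤ t 0 → xe l ≤ δ
  mid : ∀ j, 1 ≤ j → j ≤ J → ∀ l, t (j - 1) < l → l ≤ t j →
      |xe l - (j : ℝ) / ((J : ℝ) + 1)| ≤ δ
  top : ∀ l, t J < l → 1 - xe l ≤ δ

theorem Lvl.close {xe : ℕ → ℝ} {J : ℕ} {t : ℕ → ℕ} {δ : ℝ} (h : Lvl xe J t δ) :
    ∀ k, t 0 < k → |xe k - xsk J t k| ≤ δ := by
  intro k hk
  by_cases hkJ : t J < k
  · have e1 : xsk J t k = 1 := by
      unfold xsk
      rw [cnt_top h.mono hkJ, max_eq_right (by omega)]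
      push_cast
      field_simp
    rw [e1]
    have := h.top k hkJ
    have := h.expo.le_one k
    rw [abs_le]; constructor <;> linarith
  · have hex : ∃ j, k ≤ t j := ⟨J, not_lt.1 hkJ⟩
    classical
    set j := Nat.find hex with hj
    have hj1 : k ≤ t j := Nat.find_spec hex
    have hj0 : j ≠ 0 := by
      intro h0
      rw [h0] at hj1
      omega
    have hjJ : j ≤ J := Nat.find_le (n := J) (h := hex) (not_lt.1 hkJ)
    have hj2 : t (j - 1) < k := by
      have := Nat.find_min hex (m := j - 1) (by omega)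
      omega
    have e1 : xsk J t k = (j : ℝ) / ((J : ℝ) + 1) := by
      unfold xsk
      rw [cnt_mid h.mono hjJ (by omega) hj2 hj1, max_eq_right (by omega)]
    rw [e1]
    exact h.mid j (by omega) hjJ k hj2 hj1

theorem lev_anti {J : ℕ} {t : ℕ → ℕ} (ht : Monotone t) {L : ℕ} (hL : t J ≤ L) (m : ℕ) :
    lev J t L (m + 1) ≤ lev J t L m := by
  cases m with
  | zero => exact hL
  | succ m => exact ht (by omega)

theorem t0_le_lev {J : ℕ} {t : ℕ → ℕ} (ht : Monotone t) {L : ℕ} (hL : t J ≤ L) (m : ℕ) :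
    t 0 ≤ lev J t L m := by
  cases m with
  | zero => exact (ht (Nat.zero_le J)).trans hL
  | succ m => exact ht (Nat.zero_le _)

theorem xsk_lev {J : ℕ} {t : ℕ → ℕ} (ht : Monotone t) {L : ℕ} {m : ℕ} (hm : m ≤ J) :
    ∀ j, lev J t L (m + 1) < j → j ≤ lev J t L m → xsk J t j = ySk J m := by
  intro j h1 h2
  cases m with
  | zero =>
    have h1' : t J < j := h1
    unfold xsk
    rw [cnt_top ht h1', max_eq_right (by omega), ySk_zero]
    push_cast
    field_simp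
  | succ m =>
    have h1' : t (J - (m + 1)) < j := h1
    have h2' : j ≤ t (J - m) := h2
    have hc : cnt J t j = J - m := cnt_mid ht (by omega) (by omega)
      (by rwa [show J - m - 1 = J - (m + 1) by omega]) h2'
    unfold xsk ySk
    rw [hc, max_eq_right (by omega), Nat.cast_sub (by omega)]
    push_cast
    congr 1
    ring

section

variable {Ω : Type} [Fintype Ω] {P : Ω → ℝ} {𝓕 : Filt Ω}

theorem skelA_lev (hP : IsProb P) (U : Ω → ℝ) {J : ℕ} {t : ℕ → ℕ} (ht : Monotone t)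
    (htL : t J ≤ 𝓕.L) {m : ℕ} (hm : m ≤ J) :
    skelA P (fun n => 𝓕.F (t (J - n))) (ySk J) U m = A P 𝓕 (xsk J t) U (lev J t 𝓕.L m) := by
  cases m with
  | zero => exact (A_of_ge U (le_refl _)).symm
  | succ m => exact funext (skelA_eq_A hP U ht htL m (by omega))

/-- `tsk` is the tilted conditional expectation for the skeleton exponents. -/
theorem tsk_eq (hP : IsProb P) (V : Ω → ℝ) {J : ℕ} {t : ℕ → ℕ} (ht : Monotone t)
    (htL : t J ≤ 𝓕.L) {n0 : ℕ} {h : Ω → ℝ} (hh : RMeas (𝓕.F (lev J t 𝓕.L n0)) h) :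
    ∀ i, n0 + i ≤ J + 1 →
    tsk P (fun n => 𝓕.F (t (J - n))) (ySk J) V n0 h i =
      cE (tl P 𝓕 (xsk J t) V) (𝓕.F (lev J t 𝓕.L (n0 + i))) h := by
  have hx := xsk_expo J t
  have hT := tl_isProb (𝓕 := 𝓕) hP hx.pos V
  intro i
  induction i with
  | zero =>
    intro _
    funext ω
    exact (cE_of_meas hT hh ω).symm
  | succ i ih =>
    intro hi
    have ih' := ih (by omega)
    have hm : n0 + i ≤ J := by omega
    funext ω
    have e1 : tsk P (fun n => 𝓕.F (t (J - n))) (ySk J) V n0 h (i + 1) ω =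
        cE P (𝓕.F (t (J - (n0 + i)))) (fun a => Real.exp (ySk J (n0 + i) *
          skelA P (fun n => 𝓕.F (t (J - n))) (ySk J) V (n0 + i) a) *
          tsk P (fun n => 𝓕.F (t (J - n))) (ySk J) V n0 h i a) ω /
        cE P (𝓕.F (t (J - (n0 + i)))) (fun a => Real.exp (ySk J (n0 + i) *
          skelA P (fun n => 𝓕.F (t (J - n))) (ySk J) V (n0 + i) a)) ω := rfl
    rw [e1, skelA_lev hP V ht htL hm, ih']
    have hle : lev J t 𝓕.L (n0 + i + 1) ≤ lev J t 𝓕.L (n0 + i) := lev_anti ht htL _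
    have e2 := cE_block (𝓕 := 𝓕) hP hx V hle (ySk_pos hm) (xsk_lev ht hm)
      (g := cE (tl P 𝓕 (xsk J t) V) (𝓕.F (lev J t 𝓕.L (n0 + i))) h) (cE_meas _ _ _) ω
    have e3 : cE (tl P 𝓕 (xsk J t) V) (𝓕.F (lev J t 𝓕.L (n0 + i + 1)))
        (cE (tl P 𝓕 (xsk J t) V) (𝓕.F (lev J t 𝓕.L (n0 + i))) h) ω =
        cE (tl P 𝓕 (xsk J t) V) (𝓕.F (lev J t 𝓕.L (n0 + i + 1))) h ω :=
      cE_tower hT (𝓕.anti' hle) h ω
    rw [← add_assoc, ← e3, e2]
    rfl

/-! ### measurability in the disorder -/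

variable {Z : Type*} [MeasurableSpace Z]

theorem measurable_A {x : ℕ → ℝ} (hP : IsProb P) (hx : ∀ k, 0 < x k) {f : Z → Ω → ℝ}
    (hf : ∀ a, Measurable fun z => f z a) (k : ℕ) (ω : Ω) :
    Measurable fun z => A P 𝓕 x (f z) k ω := by
  revert ω
  refine back_induction 𝓕 (Q := fun k => ∀ ω : Ω, Measurable fun z => A P 𝓕 x (f z) k ω) ?_ ?_ k
  · intro k hk ω
    have : (fun z => A P 𝓕 x (f z) k ω) = fun z => f z ω := by
      funext z; rw [A_of_ge _ hk]
    rw [this]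
    exact hf ω
  · intro k ih ω
    have : (fun z => A P 𝓕 x (f z) k ω) = fun z => pm P (𝓕.F k) (x (k + 1))
        (A P 𝓕 x (f z) (k + 1)) ω := by
      funext z; exact congrFun (A_step hP hx _ k) ω
    rw [this]
    exact measurable_pm (fun a => ih a) _ _

theorem measurable_S {x : ℕ → ℝ} (hP : IsProb P) (hx : ∀ k, 0 < x k) {f : Z → Ω → ℝ}
    (hf : ∀ a, Measurable fun z => f z a) (k m : ℕ) (ω : Ω) :
    Measurable fun z => S P 𝓕 x (f z) k m ω := by
  unfold S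
  exact Finset.measurable_sum _ fun l _ => ((measurable_A hP hx hf (l + 1) ω).sub
    (measurable_A hP hx hf l ω)).const_mul _

theorem measurable_tl {x : ℕ → ℝ} (hP : IsProb P) (hx : ∀ k, 0 < x k) {f : Z → Ω → ℝ}
    (hf : ∀ a, Measurable fun z => f z a) (ω : Ω) :
    Measurable fun z => tl P 𝓕 x (f z) ω := by
  unfold tl
  exact (Real.measurable_exp.comp (measurable_S hP hx hf 0 𝓕.L ω)).const_mul _

theorem measurable_cE_tl {x : ℕ → ℝ} (hP : IsProb P) (hx : ∀ k, 0 < x k) {f g : Z → Ω → ℝ}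
    (hf : ∀ a, Measurable fun z => f z a) (hg : ∀ a, Measurable fun z => g z a) (k : ℕ) (ω : Ω) :
    Measurable fun z => cE (tl P 𝓕 x (f z)) (𝓕.F k) (g z) ω := by
  have : (fun z => cE (tl P 𝓕 x (f z)) (𝓕.F k) (g z) ω) = fun z =>
      cE P (𝓕.F k) (fun w => Real.exp (S P 𝓕 x (f z) k 𝓕.L w) * g z w) ω := by
    funext z
    exact cE_tl hP hx _ _ _ _
  rw [this]
  exact measurable_cE (fun a => (Real.measurable_exp.comp
    (measurable_S hP hx hf k 𝓕.L a)).mul (hg a)) ω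

theorem measurable_eE_tl {x : ℕ → ℝ} (hP : IsProb P) (hx : ∀ k, 0 < x k) {f g : Z → Ω → ℝ}
    (hf : ∀ a, Measurable fun z => f z a) (hg : ∀ a, Measurable fun z => g z a) :
    Measurable fun z => eE (tl P 𝓕 x (f z)) (g z) := by
  unfold eE
  exact Finset.measurable_sum _ fun a _ => (measurable_tl hP hx hf a).mul (hg a)

end

/-- **Pair expectations of the tilted law**: `d` new rows (`β`), pairs at the depth `n0`. -/
theorem row_limit (β : Type) [Fintype β] [DecidableEq β] (J : ℕ)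
    {a L B1 B2 L1 L2 : ℝ} (C : ℝ) (hL : 0 ≤ L)
    (hB1 : 0 < B1) (hB2 : 0 < B2) (hL1 : 0 ≤ L1) (hL2 : 0 ≤ L2) {n0 : ℕ} (hn0 : n0 ≤ J + 1)
    {ε : ℝ} (hε : 0 < ε) :
    ∃ d > 0, ∀ {Ω κ : Type} [Fintype Ω] [Fintype κ] (P : Ω → ℝ) (𝓕 : Filt Ω) (xe : ℕ → ℝ)
      (t : ℕ → ℕ) (kap : κ → β) (x : Ω → κ → ℝ) (Q : ℕ → β → ℝ) (δ s : ℝ),
      Lvl xe J t (s ^ 2) → t J ≤ 𝓕.L → 𝓕.F 0 = ⊤ → 0 < s → s ≤ 1 →
      RS P (fun n => 𝓕.F (t (J - n))) J kap x Q C δ → δ ≤ d →
      ∀ w φ1 φ2 : (β → ℝ) → ℝ, Lip L w → (∀ z, |w z| ≤ a) → Lip L1 φ1 → (∀ z, |φ1 z| ≤ B1) →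
      Lip L2 φ2 → (∀ z, |φ2 z| ≤ B2) →
      |∫ ζ, eE (tl P 𝓕 xe (fun ω => w (zf kap (x ω) ζ))) (fun ω =>
          cE (tl P 𝓕 xe (fun ω => w (zf kap (x ω) ζ))) (𝓕.F (lev J t 𝓕.L n0))
            (fun ω => φ1 (zf kap (x ω) ζ)) ω *
          cE (tl P 𝓕 xe (fun ω => w (zf kap (x ω) ζ))) (𝓕.F (lev J t 𝓕.L n0))
            (fun ω => φ2 (zf kap (x ω) ζ)) ω) ∂(gm κ) -
        sm (Q (J + 1)) (gsk (ySk J) (vQ Q) w n0 (fun z => gsk (ySk J) (vQ Q) w 0 φ1 n0 z *
          gsk (ySk J) (vQ Q) w 0 φ2 n0 z) (J + 1 - n0)) 0| ≤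
        ε + B1 * B2 * ((2 * Real.exp (2 * a) + 1) * CT a) * s := by
  obtain ⟨d, hd, hmain⟩ := pair_limit β J (ySk J) (y0 := ySk J J) (c := a) C (ySk_pos le_rfl)
    (fun n hn => by
      unfold ySk
      have : (n : ℝ) ≤ J := by exact_mod_cast hn
      gcongr) (fun n _ => ySk_le_one J n) hL hB1.le hB2.le hL1 hL2 hn0 hε
  refine ⟨d, hd, ?_⟩
  intro Ω κ _ _ P 𝓕 xe t kap x Q δ s hlv htL hF0 hs0 hs1 H hδ w φ1 φ2 hw hc hφ1 hb1 hφ2 hb2
  have h1 := hmain P (fun n => 𝓕.F (t (J - n))) kap x Q δ H hδ w φ1 φ2 hw hc hφ1 hb1 hφ2 hb2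
  have hP := H.hP
  have hxk := xsk_expo J t
  have hmz : ∀ ω, Measurable (fun ζ : κ → ℝ => zf kap (x ω) ζ) := fun ω => measurable_zf kap _
  have hmw : ∀ ω, Measurable (fun ζ : κ → ℝ => w (zf kap (x ω) ζ)) :=
    fun ω => hw.measurable.comp (hmz ω)
  have hm1 : ∀ ω, Measurable (fun ζ : κ → ℝ => φ1 (zf kap (x ω) ζ)) :=
    fun ω => hφ1.measurable.comp (hmz ω)
  have hm2 : ∀ ω, Measurable (fun ζ : κ → ℝ => φ2 (zf kap (x ω) ζ)) :=
    fun ω => hφ2.measurable.comp (hmz ω)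
  -- the two sides, pointwise in `ζ`
  have hpt : ∀ ζ : κ → ℝ, |eE (tl P 𝓕 xe (fun ω => w (zf kap (x ω) ζ))) (fun ω =>
          cE (tl P 𝓕 xe (fun ω => w (zf kap (x ω) ζ))) (𝓕.F (lev J t 𝓕.L n0))
            (fun ω => φ1 (zf kap (x ω) ζ)) ω *
          cE (tl P 𝓕 xe (fun ω => w (zf kap (x ω) ζ))) (𝓕.F (lev J t 𝓕.L n0))
            (fun ω => φ2 (zf kap (x ω) ζ)) ω) -
      eE P (tsk P (fun n => 𝓕.F (t (J - n))) (ySk J) (fun ω => w (zf kap (x ω) ζ)) n0 (fun ω =>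
          tsk P (fun n => 𝓕.F (t (J - n))) (ySk J) (fun ω => w (zf kap (x ω) ζ)) 0
            (fun ω => φ1 (zf kap (x ω) ζ)) n0 ω *
          tsk P (fun n => 𝓕.F (t (J - n))) (ySk J) (fun ω => w (zf kap (x ω) ζ)) 0
            (fun ω => φ2 (zf kap (x ω) ζ)) n0 ω)
          (J + 1 - n0))| ≤ B1 * B2 * ((2 * Real.exp (2 * a) + 1) * CT a) * s := by
    intro ζ
    have hbot : RMeas (𝓕.F (lev J t 𝓕.L 0)) (fun ω => φ1 (zf kap (x ω) ζ)) :=
      rmeas_of_ge (le_refl _) _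
    have hbot2 : RMeas (𝓕.F (lev J t 𝓕.L 0)) (fun ω => φ2 (zf kap (x ω) ζ)) :=
      rmeas_of_ge (le_refl _) _
    have e1 := tsk_eq hP (fun ω => w (zf kap (x ω) ζ)) hlv.mono htL hbot n0 (by omega)
    have e2 := tsk_eq hP (fun ω => w (zf kap (x ω) ζ)) hlv.mono htL hbot2 n0 (by omega)
    rw [zero_add] at e1 e2
    rw [e1, e2]
    have hm : RMeas (𝓕.F (lev J t 𝓕.L n0)) (fun ω =>
        cE (tl P 𝓕 (xsk J t) (fun ω => w (zf kap (x ω) ζ))) (𝓕.F (lev J t 𝓕.L n0))
          (fun ω => φ1 (zf kap (x ω) ζ)) ω *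
        cE (tl P 𝓕 (xsk J t) (fun ω => w (zf kap (x ω) ζ))) (𝓕.F (lev J t 𝓕.L n0))
          (fun ω => φ2 (zf kap (x ω) ζ)) ω) := by
      intro p q hpq
      have g1 := cE_meas (tl P 𝓕 (xsk J t) (fun ω => w (zf kap (x ω) ζ)))
        (𝓕.F (lev J t 𝓕.L n0)) (fun ω => φ1 (zf kap (x ω) ζ)) p q hpq
      have g2 := cE_meas (tl P 𝓕 (xsk J t) (fun ω => w (zf kap (x ω) ζ)))
        (𝓕.F (lev J t 𝓕.L n0)) (fun ω => φ2 (zf kap (x ω) ζ)) p q hpq
      show _ * _ = _ * _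
      rw [g1, g2]
    rw [tsk_eq hP (fun ω => w (zf kap (x ω) ζ)) hlv.mono htL hm (J + 1 - n0) (by omega)]
    have e3 : lev J t 𝓕.L (n0 + (J + 1 - n0)) = t 0 := by
      rw [show n0 + (J + 1 - n0) = J + 1 by omega]
      show t (J - J) = t 0
      rw [Nat.sub_self]
    rw [e3]
    exact pair_change hP hlv.expo hxk hF0 (fun ω => hc _) hB1 hB2 (fun ω => hb1 _)
      (fun ω => hb2 _) (t0_le_lev hlv.mono htL n0) hlv.close hlv.low hs0 hs1
  -- integrability
  have hb12 : ∀ s t : ℝ, |s| ≤ B1 → |t| ≤ B2 → |s * t| ≤ B1 * B2 := fun s t h1 h2 => by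
    rw [abs_mul]; exact mul_le_mul h1 h2 (abs_nonneg _) hB1.le
  have hi1 : Integrable (fun ζ : κ → ℝ => eE (tl P 𝓕 xe (fun ω => w (zf kap (x ω) ζ))) (fun ω =>
          cE (tl P 𝓕 xe (fun ω => w (zf kap (x ω) ζ))) (𝓕.F (lev J t 𝓕.L n0))
            (fun ω => φ1 (zf kap (x ω) ζ)) ω *
          cE (tl P 𝓕 xe (fun ω => w (zf kap (x ω) ζ))) (𝓕.F (lev J t 𝓕.L n0))
            (fun ω => φ2 (zf kap (x ω) ζ)) ω)) (gm κ) := by
    refine Integrable.of_bound (C := B1 * B2) (measurable_eE_tl hP hlv.expo.pos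
      hmw (fun ω => (measurable_cE_tl hP hlv.expo.pos hmw hm1 _ ω).mul
        (measurable_cE_tl hP hlv.expo.pos hmw hm2 _ ω))).aestronglyMeasurable
      (ae_of_all _ fun ζ => ?_)
    have hT := tl_isProb (𝓕 := 𝓕) hP hlv.expo.pos (fun ω => w (zf kap (x ω) ζ))
    rw [Real.norm_eq_abs]
    refine (eE_abs_le hT _).trans (eE_le_of_le hT fun ω => hb12 _ _ ?_ ?_)
    · exact abs_cE_le_of_le hT (fun ω => hb1 _) ω
    · exact abs_cE_le_of_le hT (fun ω => hb2 _) ω
  have hmt : ∀ (n0 : ℕ) (h : (κ → ℝ) → Ω → ℝ), (∀ ω, Measurable fun ζ => h ζ ω) → ∀ i ω,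
      Measurable fun ζ : κ → ℝ => tsk P (fun n => 𝓕.F (t (J - n))) (ySk J)
        (fun ω => w (zf kap (x ω) ζ)) n0 (h ζ) i ω := by
    intro n0 h hh i
    induction i with
    | zero => exact hh
    | succ i ih =>
      intro ω
      have hA : ∀ a, Measurable fun ζ : κ → ℝ => Real.exp (ySk J (n0 + i) *
          skelA P (fun n => 𝓕.F (t (J - n))) (ySk J) (fun ω => w (zf kap (x ω) ζ)) (n0 + i) a) :=
        fun a => Real.measurable_exp.comp ((measurable_skelA hmw (n0 + i) a).const_mul _)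
      exact (measurable_cE (fun a => (hA a).mul (ih a)) ω).div (measurable_cE hA ω)
  have hbt : ∀ (n0 : ℕ) (h : (κ → ℝ) → Ω → ℝ) (B : ℝ), (∀ ζ ω, |h ζ ω| ≤ B) → ∀ i ζ ω,
      |tsk P (fun n => 𝓕.F (t (J - n))) (ySk J)
        (fun ω => w (zf kap (x ω) ζ)) n0 (h ζ) i ω| ≤ B := by
    intro n0 h B hh i
    induction i with
    | zero => exact hh
    | succ i ih =>
      intro ζ ω
      have h0 : 0 < cE P (𝓕.F (t (J - (n0 + i)))) (fun a => Real.exp (ySk J (n0 + i) *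
          skelA P (fun n => 𝓕.F (t (J - n))) (ySk J) (fun ω => w (zf kap (x ω) ζ)) (n0 + i) a))
          ω := cE_pos hP (fun a => Real.exp_pos _) ω
      show |_ / _| ≤ _
      rw [abs_div, abs_of_pos h0, div_le_iff₀ h0]
      refine (cE_abs_le hP _ _).trans ?_
      rw [← cE_smul]
      refine cE_mono' hP (fun b => ?_) ω
      rw [abs_mul, abs_of_pos (Real.exp_pos _), mul_comm]
      exact mul_le_mul_of_nonneg_right (ih ζ b) (Real.exp_pos _).le
  have hi2 : Integrable (fun ζ : κ → ℝ =>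
      eE P (tsk P (fun n => 𝓕.F (t (J - n))) (ySk J) (fun ω => w (zf kap (x ω) ζ)) n0 (fun ω =>
          tsk P (fun n => 𝓕.F (t (J - n))) (ySk J) (fun ω => w (zf kap (x ω) ζ)) 0
            (fun ω => φ1 (zf kap (x ω) ζ)) n0 ω *
          tsk P (fun n => 𝓕.F (t (J - n))) (ySk J) (fun ω => w (zf kap (x ω) ζ)) 0
            (fun ω => φ2 (zf kap (x ω) ζ)) n0 ω)
          (J + 1 - n0))) (gm κ) := by
    refine Integrable.of_bound (C := B1 * B2) (measurable_eE (hmt n0 _ (fun ω =>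
      (hmt 0 _ hm1 n0 ω).mul (hmt 0 _ hm2 n0 ω)) _)).aestronglyMeasurable
      (ae_of_all _ fun ζ => ?_)
    rw [Real.norm_eq_abs]
    refine (eE_abs_le hP _).trans (eE_le_of_le hP fun ω => ?_)
    exact hbt n0 (fun ζ ω =>
          tsk P (fun n => 𝓕.F (t (J - n))) (ySk J) (fun ω => w (zf kap (x ω) ζ)) 0
            (fun ω => φ1 (zf kap (x ω) ζ)) n0 ω *
          tsk P (fun n => 𝓕.F (t (J - n))) (ySk J) (fun ω => w (zf kap (x ω) ζ)) 0
            (fun ω => φ2 (zf kap (x ω) ζ)) n0 ω) (B1 * B2) (fun ζ ω => hb12 _ _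
              (hbt 0 (fun ζ ω => φ1 (zf kap (x ω) ζ)) B1 (fun ζ ω => hb1 _) n0 ζ ω)
              (hbt 0 (fun ζ ω => φ2 (zf kap (x ω) ζ)) B2 (fun ζ ω => hb2 _) n0 ζ ω)) _ ζ ω
  refine (abs_sub_le _ _ _).trans ((add_le_add (?_ : _ ≤ B1 * B2 * ((2 * Real.exp (2 * a) + 1) *
    CT a) * s) h1).trans (le_of_eq (add_comm _ _)))
  rw [← integral_sub hi1 hi2]
  refine abs_integral_le_integral_abs.trans ?_
  refine (integral_mono (hi1.sub hi2).abs (integrable_const _) hpt).trans ?_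
  simp

end

end Crest.Agent.R146.RowTilt_874
end

-- ▼ part R146/RowSys_874
section

/-!
Row 146, node ROWOBS (helper874), part 6: the instance of `row_limit` for `S6Def_988`, two new rows
acting on any law `Q` of the system, error expressed by `Cav5_47.DevN`.
-/

set_option autoImplicit false

namespace Crest.Agent.R146.RowSys_874

open Finset MeasureTheory ProbabilityTheory Crest.Agent.R141 Crest.Agent.R141.Fact
open Crest.Agent.R164.CavG
open Crest.Agent.R164.GC (BC)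
open Crest.Agent.R146.RowChain_874 Crest.Agent.R146.RowTilt_874
open Crest.Agent.R146.RowDef_874 Crest.Agent.R146.RowFact_874
open Crest.Agent.R146.S6Def_988 hiding zf
open Crest.Agent.R146.Cav5_47 (DevS DevN xn levels_xs zf_prod DevS_eq_DevN sum_xn_sq)


noncomputable section

/-! ### bounds in the limit model -/

/-- bounded functions stay bounded. -/
theorem cX_BCb {J : ℕ} {f : ℝ → ℝ} {K L : ℝ} (hL : 0 ≤ L) (hf : BL K L f) (P : ℕ → ℝ) {k : ℕ}
    (hk : k ≤ J + 2) {g : ℝ → ℝ} {B : ℝ} (hg : BC g B) :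
    ∀ i, i ≤ k → BC (cX J f P k g (k - i)) B := by
  intro i
  induction i with
  | zero => intro _; rw [Nat.sub_zero, cX_self]; exact hg
  | succ i ih =>
    intro hi
    rw [cX_step J f P g (show k - (i + 1) < k by omega)]
    have e : k - (i + 1) + 1 = k - i := by omega
    rw [e]
    have hbl := Psi_BL (J := J) hL hf P (J + 2 - (k - i)) (by omega)
    rw [show J + 2 - (J + 2 - (k - i)) = k - i by omega] at hbl
    exact LimIbp_290.tE_BC (LimIbp_290.EE.of_bdd (cont_of_lip1 hbl.lip) hbl.bd) _ _ (ih (by omega))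

theorem kapX_abs_le {J : ℕ} {f : ℝ → ℝ} {K L : ℝ} (hL : 0 ≤ L) (hf : BL K L f) (P : ℕ → ℝ)
    {b : ℕ} (hb : b ≤ J + 1) {φ ψ : ℝ → ℝ} {B B' : ℝ} (hφ : BC φ B)
    (hψ : BC ψ B') : |kapX J f P b φ ψ| ≤ B * B' := by
  unfold kapX
  have h1 := cX_BCb hL hf P (le_refl (J + 2)) hφ (J + 2 - (b + 1)) (by omega)
  have h2 := cX_BCb hL hf P (le_refl (J + 2)) hψ (J + 2 - (b + 1)) (by omega)
  rw [show J + 2 - (J + 2 - (b + 1)) = b + 1 by omega] at h1 h2
  have h3 := cX_BCb hL hf P (show b + 1 ≤ J + 2 by omega) (h1.mul h2) (b + 1) le_rfl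
  rw [Nat.sub_self] at h3
  exact h3.bd 0

theorem BL_BC {f : ℝ → ℝ} {K L : ℝ} (hf : BL K L f) : BC f K := ⟨cont_of_lip1 hf.lip, hf.bd⟩

/-! ### one law -/

variable {N : ℕ} {C : Cfg N} {nc n : ℕ}

/-- the skeleton steps of `S6Def_988` as `Lvl`. -/
theorem lvl_xs {J wc : ℕ} (hn : 0 < n) (hwc : 2 ≤ wc) (hnc : nc + 1 = (J + 1) * wc)
    {τ : ℕ → ℕ} (hτ : ∀ b ≤ J, st n (b * wc) ≤ τ b ∧ τ b < st n (b * wc + wc - 1)) :
    Lvl (xs nc n) J (fun j => τ (min j J)) (1 / ((J : ℝ) + 1)) := by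
  have h := levels_xs nc n hn hwc hnc hτ
  refine ⟨h.expo, h.nonneg, h.mono, h.low, h.mid, ?_⟩
  intro l hl
  by_cases hle : l ≤ Lv nc n
  · exact h.top l hl hle
  · have e : xs nc n l = 1 := by
      unfold xs
      refine min_eq_left ?_
      rw [le_div_iff₀ (by positivity), one_mul]
      have h1 : nc ≤ (l - 1) / n := by
        rw [Nat.le_div_iff_mul_le hn]
        unfold Lv at hle
        omega
      exact_mod_cast Nat.succ_le_succ h1
    rw [e, sub_self]
    positivity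

/-- pair expectation of two new rows acting on the law `Q` -/
def pairV (C : Cfg N) (nc n : ℕ) (Q : Om C nc n → ℝ) (f : ℝ → ℝ) (φ ψ : Fin 2 → ℝ → ℝ) (k : ℕ)
    (ζ : Fin 2 × Fin N → ℝ) : ℝ :=
  eE (tl Q (fil C nc n) (xs nc n) (fun ω => ∑ r, f (∑ i, ζ (r, i) * (C.x ω.1 i / Real.sqrt N))))
    (fun ω => cE (tl Q (fil C nc n) (xs nc n)
        (fun ω => ∑ r, f (∑ i, ζ (r, i) * (C.x ω.1 i / Real.sqrt N)))) ((fil C nc n).F k)
        (fun ω => ∏ r, φ r (∑ i, ζ (r, i) * (C.x ω.1 i / Real.sqrt N))) ω *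
      cE (tl Q (fil C nc n) (xs nc n)
        (fun ω => ∑ r, f (∑ i, ζ (r, i) * (C.x ω.1 i / Real.sqrt N)))) ((fil C nc n).F k)
        (fun ω => ∏ r, ψ r (∑ i, ζ (r, i) * (C.x ω.1 i / Real.sqrt N))) ω)

/-- the step of the level `b` (`b = J + 1`: the leaf) -/
def stp (nc n J : ℕ) (τ : ℕ → ℕ) (b : ℕ) : ℕ := if b ≤ J then τ b else Lv nc n

theorem stp_eq (nc n J : ℕ) (τ : ℕ → ℕ) {b : ℕ} (hb : b ≤ J + 1) :
    stp nc n J τ b = lev J (fun j => τ (min j J)) (Lv nc n) (J + 1 - b) := by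
  unfold stp
  by_cases h : b ≤ J
  · rw [if_pos h, show J + 1 - b = (J - b) + 1 by omega]
    show τ b = τ (min (J - (J - b)) J)
    congr 1
    omega
  · rw [if_neg h, show J + 1 - b = 0 by omega]
    rfl

theorem prod_bd {B : ℝ} (φ : Fin 2 → ℝ → ℝ) (h : ∀ r, BL B B (φ r)) (z : Fin 2 → ℝ) :
    |∏ r, φ r (z r)| ≤ B ^ 2 := by
  rw [Fin.prod_univ_two, abs_mul, sq]
  exact mul_le_mul ((h 0).bd _) ((h 1).bd _) (abs_nonneg _) ((abs_nonneg _).trans ((h 0).bd 0))

theorem prod_lip {B : ℝ} (φ : Fin 2 → ℝ → ℝ) (h : ∀ r, BL B B (φ r)) :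
    Lip (B ^ 2) (fun z : Fin 2 → ℝ => ∏ r, φ r (z r)) := by
  intro y y'
  simp only [Fin.prod_univ_two, Fin.sum_univ_two]
  have hB : 0 ≤ B := (abs_nonneg _).trans ((h 0).bd 0)
  have e : φ 0 (y 0) * φ 1 (y 1) - φ 0 (y' 0) * φ 1 (y' 1) =
      φ 0 (y 0) * (φ 1 (y 1) - φ 1 (y' 1)) + φ 1 (y' 1) * (φ 0 (y 0) - φ 0 (y' 0)) := by ring
  rw [e]
  refine (abs_add_le _ _).trans ?_
  rw [abs_mul, abs_mul]
  have h1 := mul_le_mul ((h 0).bd (y 0)) ((h 1).lip (y 1) (y' 1)) (abs_nonneg _) hB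
  have h2 := mul_le_mul ((h 1).bd (y' 1)) ((h 0).lip (y 0) (y' 0)) (abs_nonneg _) hB
  nlinarith

theorem abs_zf_eq (ω : Om C nc n) (ζ : Fin 2 × Fin N → ℝ) :
    (zf (Prod.fst : Fin 2 × Fin N → Fin 2) (fun p => xn C nc n ω p.2) ζ) =
      fun r => ∑ i, ζ (r, i) * (C.x ω.1 i / Real.sqrt N) := by
  funext r
  rw [zf_prod]
  refine Finset.sum_congr rfl fun i _ => ?_
  unfold xn
  ring

theorem Qd_eq (J : ℕ) (P : ℕ → ℝ) {m : ℕ} (hm : m ≤ J + 1) (k : Fin 2) :
    RowFact_874.Qd (Fin 2) J P m k = Cav5_47.Qd J P m := by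
  unfold RowFact_874.Qd Cav5_47.Qd tP
  by_cases h0 : m = 0
  · subst h0
    rw [if_neg (by omega), if_neg (by omega), if_pos rfl]
  · rw [if_neg (by omega), if_pos (by omega), if_neg h0]
    congr 1
    omega

/-- **Two new rows acting on any law `Q`.** -/
theorem sys2 (J : ℕ) {K L B : ℝ} (hL : 0 ≤ L) (hB : 0 < B) {b : ℕ} (hb : b ≤ J + 1)
    {ε : ℝ} (hε : 0 < ε) :
    ∃ D : ℝ, 0 ≤ D ∧ ∀ (wc nc : ℕ), 2 ≤ wc → nc + 1 = (J + 1) * wc →
      ∀ (N n : ℕ), 0 < N → 0 < n → ∀ (C : Cfg N) (Q : Om C nc n → ℝ), IsProb Q →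
      ∀ (f : ℝ → ℝ), BL K L f → ∀ φ ψ : Fin 2 → ℝ → ℝ, (∀ r, BL B B (φ r)) → (∀ r, BL B B (ψ r)) →
      ∀ τ : ℕ → ℕ, (∀ b ≤ J, st n (b * wc) ≤ τ b ∧ τ b < st n (b * wc + wc - 1)) →
      ∀ P : ℕ → ℝ, Lev J P →
      |∫ ζ, pairV C nc n Q f φ ψ (stp nc n J τ b) ζ ∂(gm (Fin 2 × Fin N)) -
          ∏ r, kapX J f P b (φ r) (ψ r)| ≤
        ε + D * DevN C nc n Q J τ P +
          B ^ 2 * B ^ 2 * ((2 * Real.exp (2 * (2 * K)) + 1) * CT (2 * K)) *
            Real.sqrt (1 / ((J : ℝ) + 1)) := by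
  have hB2 : 0 < B ^ 2 := by positivity
  obtain ⟨d, hd, hmain⟩ := row_limit (Fin 2) J (a := 2 * K) (L := L) (B1 := B ^ 2) (B2 := B ^ 2)
    (L1 := B ^ 2) (L2 := B ^ 2) 2 hL hB2 hB2 hB2.le hB2.le
    (n0 := J + 1 - b) (by omega) hε
  refine ⟨2 * (B ^ 2 * B ^ 2) / d * (2 + 2 ^ 2), by positivity, ?_⟩
  intro wc nc hwc hnc N n hN hn C Q hQ f hf φ ψ hφ hψ τ hτ P hP
  have hlv := lvl_xs (nc := nc) hn hwc hnc hτ
  have hJ : (0 : ℝ) < (J : ℝ) + 1 := by positivity
  have hnn := levels_xs nc n hn hwc hnc hτ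
  set t : ℕ → ℕ := fun j => τ (min j J) with ht
  set s : ℝ := Real.sqrt (1 / ((J : ℝ) + 1)) with hs
  have hs0 : 0 < s := Real.sqrt_pos.2 (by positivity)
  have hs1 : s ≤ 1 := by
    rw [hs, Real.sqrt_le_one]
    rw [div_le_one hJ]
    linarith [(Nat.cast_nonneg J : (0 : ℝ) ≤ J)]
  have hs2 : s ^ 2 = 1 / ((J : ℝ) + 1) := by rw [hs, Real.sq_sqrt (by positivity)]
  have hK0 : 0 ≤ K := (abs_nonneg _).trans (hf.bd 0)
  have hDprod := Cav5_47.Dev_prod (β := Fin 2) hQ (fil C nc n) J t (xn C nc n)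
    (sum_xn_sq C nc n hN) P
  rw [DevS_eq_DevN C nc n hN Q J τ P] at hDprod
  rw [Fintype.card_fin] at hDprod
  push_cast at hDprod
  set Dv := Dev Q (fun n' => (fil C nc n).F (t (J - n'))) J (Prod.fst : Fin 2 × Fin N → Fin 2)
      (fun ω p => xn C nc n ω p.2) (fun n _ => Cav5_47.Qd J P n) with hDv
  have hDv0 : 0 ≤ Dv := by
    rw [hDv]
    unfold Dev
    exact add_nonneg (Finset.sum_nonneg fun _ _ => Finset.sum_nonneg fun _ _ =>
      eE_nonneg hQ fun _ => abs_nonneg _) (Finset.sum_nonneg fun _ _ => pur_nonneg hQ _)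
  have hDN0 : 0 ≤ DevN C nc n Q J τ P := by
    by_contra hneg
    rw [not_le] at hneg
    nlinarith
  have hCT : 0 ≤ CT (2 * K) := CT_nonneg _
  by_cases hDd : Dv ≤ d
  · -- main case
    have H : RowChain_874.RS Q (fun n' => (fil C nc n).F (t (J - n'))) J
        (Prod.fst : Fin 2 × Fin N → Fin 2) (fun ω p => xn C nc n ω p.2)
        (RowFact_874.Qd (Fin 2) J P) 2 Dv := by
      refine ⟨hQ, ?_, ?_, hDv0, ?_, ?_, ?_, ?_⟩
      · intro n' _
        exact (fil C nc n).antitone (hlv.mono (by omega))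
      · intro ω
        rw [Fintype.sum_prod_type, Fin.sum_univ_two]
        simp only [sum_xn_sq C nc n hN ω]
        norm_num
      · intro n' k hn'
        rw [Qd_eq J P hn' k]
        exact Cav5_47.Qd_nonneg hP hn'
      · intro n' k hn'
        rw [Qd_eq J P (show n' ≤ J + 1 by omega) k, Qd_eq J P (show n' + 1 ≤ J + 1 by omega) k]
        exact Cav5_47.Qd_anti hP hn'
      · intro n' hn'
        have h0 := ov_le_Dev (J := J) (kap := (Prod.fst : Fin 2 × Fin N → Fin 2))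
          (x := fun ω p => xn C nc n ω p.2) (Q := fun n _ => Cav5_47.Qd J P n)
          (r := fun n' => (fil C nc n).F (t (J - n'))) hQ hn'
        refine le_trans (le_of_eq ?_) h0
        refine Finset.sum_congr rfl fun k _ => ?_
        rw [Qd_eq J P hn' k]
      · intro n' hn'
        exact pur_le_Dev (J := J) (kap := (Prod.fst : Fin 2 × Fin N → Fin 2))
          (x := fun ω p => xn C nc n ω p.2) (Q := fun n _ => Cav5_47.Qd J P n)
          (r := fun n' => (fil C nc n).F (t (J - n'))) hQ hn'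
    have h1 := hmain Q (fil C nc n) (xs nc n) t (Prod.fst : Fin 2 × Fin N → Fin 2)
      (fun ω p => xn C nc n ω p.2) (RowFact_874.Qd (Fin 2) J P) Dv s (by rw [hs2]; exact hlv)
      hnn.le (Cav5_47.fil_zero C nc n) hs0 hs1 H hDd (fun z => ∑ r, f (z r))
      (fun z => ∏ r, φ r (z r)) (fun z => ∏ r, ψ r (z r))
      (by
        intro y y'
        rw [← Finset.sum_sub_distrib]
        refine (Finset.abs_sum_le_sum_abs _ _).trans ?_
        rw [Finset.mul_sum]
        exact Finset.sum_le_sum fun r _ => hf.lip _ _)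
      (by
        intro z
        rw [Fin.sum_univ_two]
        refine (abs_add_le _ _).trans ?_
        have := hf.bd (z 0)
        have := hf.bd (z 1)
        linarith)
      (prod_lip φ hφ) (prod_bd φ hφ) (prod_lip ψ hψ) (prod_bd ψ hψ)
    rw [pair_value J hL hf P (show J + 1 - b ≤ J + 1 by omega) φ ψ,
      show J + 1 - (J + 1 - b) = b by omega] at h1
    have e1 : ∀ ζ : Fin 2 × Fin N → ℝ, pairV C nc n Q f φ ψ (stp nc n J τ b) ζ =
        eE (tl Q (fil C nc n) (xs nc n) (fun ω => (fun z : Fin 2 → ℝ => ∑ r, f (z r))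
          (zf (Prod.fst : Fin 2 × Fin N → Fin 2) (fun p => xn C nc n ω p.2) ζ))) (fun ω =>
          cE (tl Q (fil C nc n) (xs nc n) (fun ω => (fun z : Fin 2 → ℝ => ∑ r, f (z r))
          (zf (Prod.fst : Fin 2 × Fin N → Fin 2) (fun p => xn C nc n ω p.2) ζ)))
            ((fil C nc n).F (lev J t (fil C nc n).L (J + 1 - b)))
            (fun ω => (fun z : Fin 2 → ℝ => ∏ r, φ r (z r))
              (zf (Prod.fst : Fin 2 × Fin N → Fin 2) (fun p => xn C nc n ω p.2) ζ)) ω *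
          cE (tl Q (fil C nc n) (xs nc n) (fun ω => (fun z : Fin 2 → ℝ => ∑ r, f (z r))
          (zf (Prod.fst : Fin 2 × Fin N → Fin 2) (fun p => xn C nc n ω p.2) ζ)))
            ((fil C nc n).F (lev J t (fil C nc n).L (J + 1 - b)))
            (fun ω => (fun z : Fin 2 → ℝ => ∏ r, ψ r (z r))
              (zf (Prod.fst : Fin 2 × Fin N → Fin 2) (fun p => xn C nc n ω p.2) ζ)) ω) := by
      intro ζ
      unfold pairV
      rw [stp_eq nc n J τ hb]
      simp only [abs_zf_eq]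
      rfl
    simp_rw [← e1] at h1
    refine h1.trans ?_
    have : 0 ≤ 2 * (B ^ 2 * B ^ 2) / d * (2 + 2 ^ 2) * DevN C nc n Q J τ P := by positivity
    linarith
  · -- trivial bound
    rw [not_le] at hDd
    have hT : ∀ ζ : Fin 2 × Fin N → ℝ, |pairV C nc n Q f φ ψ (stp nc n J τ b) ζ| ≤ B ^ 2 * B ^ 2 := by
      intro ζ
      unfold pairV
      have hTP := tl_isProb (𝓕 := fil C nc n) hQ (Cav5_47.xs_expo nc n).pos
        (fun ω => ∑ r, f (∑ i, ζ (r, i) * (C.x ω.1 i / Real.sqrt N)))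
      refine (eE_abs_le hTP _).trans (eE_le_of_le hTP fun ω => ?_)
      rw [abs_mul]
      refine mul_le_mul ?_ ?_ (abs_nonneg _) hB2.le
      · exact abs_cE_le_of_le hTP (fun ω => prod_bd φ hφ _) ω
      · exact abs_cE_le_of_le hTP (fun ω => prod_bd ψ hψ _) ω
    have hI : |∫ ζ, pairV C nc n Q f φ ψ (stp nc n J τ b) ζ ∂(gm (Fin 2 × Fin N))| ≤
        B ^ 2 * B ^ 2 := by
      have h0 := norm_integral_le_of_norm_le_const (μ := gm (Fin 2 × Fin N))
        (f := fun ζ => pairV C nc n Q f φ ψ (stp nc n J τ b) ζ) (C := B ^ 2 * B ^ 2)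
        (ae_of_all _ fun ζ => by rw [Real.norm_eq_abs]; exact hT ζ)
      rw [Real.norm_eq_abs, probReal_univ, mul_one] at h0
      exact h0
    have hk : |∏ r, kapX J f P b (φ r) (ψ r)| ≤ B ^ 2 * B ^ 2 := by
      rw [Fin.prod_univ_two, abs_mul]
      have k0 := kapX_abs_le (J := J) hL hf P hb (BL_BC (hφ 0)) (BL_BC (hψ 0))
      have k1 := kapX_abs_le (J := J) hL hf P hb (BL_BC (hφ 1)) (BL_BC (hψ 1))
      rw [sq]
      exact mul_le_mul k0 k1 (abs_nonneg _) (by positivity)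
    have h1 : 2 * (B ^ 2 * B ^ 2) ≤ 2 * (B ^ 2 * B ^ 2) / d * (2 + 2 ^ 2) * DevN C nc n Q J τ P := by
      have h2 : d ≤ (2 + 2 ^ 2) * DevN C nc n Q J τ P := hDd.le.trans hDprod
      have e : 2 * (B ^ 2 * B ^ 2) = 2 * (B ^ 2 * B ^ 2) / d * d := by field_simp
      calc 2 * (B ^ 2 * B ^ 2) = 2 * (B ^ 2 * B ^ 2) / d * d := e
        _ ≤ 2 * (B ^ 2 * B ^ 2) / d * ((2 + 2 ^ 2) * DevN C nc n Q J τ P) :=
          mul_le_mul_of_nonneg_left h2 (by positivity)
        _ = _ := by ring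
    have h3 : 0 ≤ B ^ 2 * B ^ 2 * ((2 * Real.exp (2 * (2 * K)) + 1) * CT (2 * K)) * s := by
      positivity
    have h4 := abs_sub (∫ ζ, pairV C nc n Q f φ ψ (stp nc n J τ b) ζ ∂(gm (Fin 2 × Fin N)))
      (∏ r, kapX J f P b (φ r) (ψ r))
    linarith

end

end Crest.Agent.R146.RowSys_874
end

-- ▼ part R146/RowObs_874
section

/-!
Row 146, node ROWOBS (helper874), part 7: transfer from the system to the system without two rows,
resampling of the two rows; the averaged one-row and two-row observables.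
-/

set_option autoImplicit false

namespace Crest.Agent.R146.RowObs_874

open Finset MeasureTheory ProbabilityTheory Crest.Agent.R141
open Crest.Agent.R146.S6Def_988 Crest.Agent.R146.S6U_988 Crest.Agent.R146.S6L_988
open Crest.Agent.R146.RowDef_874 Crest.Agent.R146.RowDef2_874 Crest.Agent.R146.RowSys_874
open Crest.Agent.R164.CavG (gm pur)
open Crest.Agent.R146.CavInc_769 (prior_isProb xs_pos xs_expo QQ_isProb meas_QQ)

noncomputable section

section pE

variable {Ω : Type} [Fintype Ω] {Q : Ω → ℝ} {r : Setoid Ω}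

/-- product form of the pair expectation. -/
theorem pE_prod (hQ : IsProb Q) (Φ Ψ : Ω → ℝ) :
    pE Q r (fun u v => Φ u * Ψ v) = eE Q (fun ω => cE Q r Φ ω * cE Q r Ψ ω) := by
  unfold pE
  have h1 : ∀ a, cE Q r (fun b => Φ a * Ψ b) a = Φ a * cE Q r Ψ a := fun a => cE_smul _ _ _ _ _
  simp_rw [h1]
  rw [← eE_cE hQ r (fun a => Φ a * cE Q r Ψ a)]
  congr 1
  funext ω
  rw [cE_mul_right (cE_meas Q r Ψ)]

end pE

variable {N : ℕ} {C : Cfg N} {nc n : ℕ}

/-- the row functions without the rows `a`, `b` -/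
def fz (a b : ℕ) (f : ℝ → ℝ) : ℕ → ℝ → ℝ := fun c x => if c = a ∨ c = b then 0 else f x


theorem sum_two {M : ℕ} {a b : Fin M} (hab : a ≠ b) (F : Fin M → ℝ) :
    ∑ c, F c = ∑ c, (if c = a ∨ c = b then 0 else F c) + (F a + F b) := by
  have h1 : ∀ c, F c = (if c = a ∨ c = b then 0 else F c) +
      ((if c = a then F c else 0) + (if c = b then F c else 0)) := by
    intro c
    by_cases h1 : c = a
    · have h2 : c ≠ b := fun h => hab (h1.symm.trans h)
      rw [if_pos (Or.inl h1), if_pos h1, if_neg h2]; ring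
    · by_cases h2 : c = b
      · rw [if_pos (Or.inr h2), if_neg h1, if_pos h2]; ring
      · rw [if_neg (by tauto), if_neg h1, if_neg h2]; ring
  rw [Finset.sum_congr rfl fun c _ => h1 c, Finset.sum_add_distrib, Finset.sum_add_distrib]
  simp

theorem coe_eq_iff {M : ℕ} (c a : Fin M) : ((c : ℕ) = (a : ℕ)) ↔ c = a := Fin.val_inj

/-- the potential = potential without the two rows + the two rows. -/
theorem UU_two {M : ℕ} {a b : Fin M} (hab : a ≠ b) (f : ℝ → ℝ) (G : Fin M → Fin N → ℝ)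
    (s : Fin nc → ℝ) (ω : Om C nc n) :
    UU (fun _ => f) G s ω = UU (fz a b f) G s ω + (f (hh G a (C.x ω.1)) + f (hh G b (C.x ω.1))) := by
  unfold S6Def_988.UU rowE
  rw [sum_two hab]
  have : ∀ c : Fin M, (if c = a ∨ c = b then 0 else f (∑ i, G c i * (C.x ω.1 i / Real.sqrt N))) =
      fz a b f c (∑ i, G c i * (C.x ω.1 i / Real.sqrt N)) := by
    intro c
    unfold fz
    simp only [coe_eq_iff]
  simp_rw [this]
  unfold hh
  ring

/-- the potential after the replacement of the two rows. -/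
theorem UU_rep {M : ℕ} {a b : Fin M} (hab : a ≠ b) (f : ℝ → ℝ) (G : Fin M → Fin N → ℝ)
    (ζ : Fin 2 × Fin N → ℝ) (s : Fin nc → ℝ) (ω : Om C nc n) :
    UU (fun _ => f) (rep a b G ζ) s ω = UU (fz a b f) G s ω +
      ∑ r, f (∑ i, ζ (r, i) * (C.x ω.1 i / Real.sqrt N)) := by
  rw [UU_two hab, Fin.sum_univ_two]
  have h1 : UU (fz a b f) (rep a b G ζ) s ω = UU (fz a b f) G s ω := by
    unfold S6Def_988.UU rowE
    congr 1
    refine Finset.sum_congr rfl fun c _ => ?_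
    unfold fz rep
    simp only [coe_eq_iff]
    by_cases h : c = a ∨ c = b
    · rw [if_pos h, if_pos h]
    · rw [if_neg h, if_neg h]
      rw [not_or] at h
      simp only [if_neg h.1, if_neg h.2]
  have h2 : hh (rep a b G ζ) a (C.x ω.1) = ∑ i, ζ (0, i) * (C.x ω.1 i / Real.sqrt N) := by
    unfold hh rep
    simp
  have h3 : hh (rep a b G ζ) b (C.x ω.1) = ∑ i, ζ (1, i) * (C.x ω.1 i / Real.sqrt N) := by
    unfold hh rep
    simp [hab.symm]
  rw [h1, h2, h3]

theorem hh_rep_a {M : ℕ} (a b : Fin M) (G : Fin M → Fin N → ℝ)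
    (ζ : Fin 2 × Fin N → ℝ) (x : Fin N → ℝ) :
    hh (rep a b G ζ) a x = ∑ i, ζ (0, i) * (x i / Real.sqrt N) := by
  unfold hh rep
  simp

theorem hh_rep_b {M : ℕ} {a b : Fin M} (hab : a ≠ b) (G : Fin M → Fin N → ℝ)
    (ζ : Fin 2 × Fin N → ℝ) (x : Fin N → ℝ) :
    hh (rep a b G ζ) b x = ∑ i, ζ (1, i) * (x i / Real.sqrt N) := by
  unfold hh rep
  simp [hab.symm]

theorem QQ_rep {M : ℕ} {a b : Fin M} (hab : a ≠ b) (f : ℝ → ℝ) (G : Fin M → Fin N → ℝ)
    (ζ : Fin 2 × Fin N → ℝ) (s : Fin nc → ℝ) :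
    QQ C nc n (fun _ => f) (rep a b G ζ) s = tl (QQ C nc n (fz a b f) G s) (fil C nc n) (xs nc n)
      (fun ω => ∑ r, f (∑ i, ζ (r, i) * (C.x ω.1 i / Real.sqrt N))) := by
  unfold QQ
  rw [← tl_add (prior_isProb C nc n) (xs_pos nc n)]
  congr 1
  funext ω
  exact UU_rep hab f G ζ s ω

theorem QQ_two {M : ℕ} {a b : Fin M} (hab : a ≠ b) (f : ℝ → ℝ) (G : Fin M → Fin N → ℝ)
    (s : Fin nc → ℝ) :
    QQ C nc n (fun _ => f) G s = tl (QQ C nc n (fz a b f) G s) (fil C nc n) (xs nc n)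
      (fun ω => f (hh G a (C.x ω.1)) + f (hh G b (C.x ω.1))) := by
  unfold QQ
  rw [← tl_add (prior_isProb C nc n) (xs_pos nc n)]
  congr 1
  funext ω
  exact UU_two hab f G s ω

/-- the pair observable of two rows -/
def XV {M : ℕ} (C : Cfg N) (nc n : ℕ) (f : ℝ → ℝ) (φ ψ : Fin 2 → ℝ → ℝ) (a b : Fin M)
    (s : Fin nc → ℝ) (k : ℕ) (G : Fin M → Fin N → ℝ) : ℝ :=
  pE (QQ C nc n (fun _ => f) G s) ((fil C nc n).F k)
    (fun u v => (φ 0 (hh G a (C.x u.1)) * φ 1 (hh G b (C.x u.1))) *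
      (ψ 0 (hh G a (C.x v.1)) * ψ 1 (hh G b (C.x v.1))))

theorem XV_rep {M : ℕ} {a b : Fin M} (hab : a ≠ b) (f : ℝ → ℝ) (φ ψ : Fin 2 → ℝ → ℝ)
    (s : Fin nc → ℝ) (k : ℕ) (G : Fin M → Fin N → ℝ) (ζ : Fin 2 × Fin N → ℝ) :
    XV C nc n f φ ψ a b s k (rep a b G ζ) = pairV C nc n (QQ C nc n (fz a b f) G s) f φ ψ k ζ := by
  unfold XV
  rw [pE_prod (QQ_isProb _ _ _) (fun u => φ 0 (hh (rep a b G ζ) a (C.x u.1)) *
    φ 1 (hh (rep a b G ζ) b (C.x u.1))) (fun v => ψ 0 (hh (rep a b G ζ) a (C.x v.1)) *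
    ψ 1 (hh (rep a b G ζ) b (C.x v.1))), QQ_rep hab]
  unfold pairV
  simp only [hh_rep_a, hh_rep_b hab, Fin.prod_univ_two]

/-! ### measurability -/

theorem meas_hh {M : ℕ} (a : Fin M) (x : Fin N → ℝ) :
    Measurable fun G : Fin M → Fin N → ℝ => hh G a x := by
  unfold hh
  refine Finset.measurable_sum _ fun i _ => ?_
  exact ((measurable_pi_apply i).comp (measurable_pi_apply a)).mul_const _

theorem meas_XV {M : ℕ} {f : ℝ → ℝ} (hf : Measurable f) {φ ψ : Fin 2 → ℝ → ℝ}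
    (hφ : ∀ r, Measurable (φ r)) (hψ : ∀ r, Measurable (ψ r)) (a b : Fin M)
    (s : Fin nc → ℝ) (k : ℕ) : Measurable (XV C nc n f φ ψ a b s k) := by
  unfold XV pE
  have hq : ∀ ω, Measurable fun G : Fin M → Fin N → ℝ => QQ C nc n (fun _ => f) G s ω :=
    meas_QQ (fun _ => hf) s
  refine CavInc_769.meas_eE hq fun u => ?_
  refine CavInc_769.meas_cE hq (fun v => ?_) _ u
  exact (((hφ 0).comp (meas_hh a _)).mul ((hφ 1).comp (meas_hh b _))).mul
    (((hψ 0).comp (meas_hh a _)).mul ((hψ 1).comp (meas_hh b _)))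

theorem XV_bd {M : ℕ} {f : ℝ → ℝ} {B : ℝ} {φ ψ : Fin 2 → ℝ → ℝ}
    (hφ : ∀ r, BL B B (φ r)) (hψ : ∀ r, BL B B (ψ r)) (a b : Fin M)
    (s : Fin nc → ℝ) (k : ℕ) (G : Fin M → Fin N → ℝ) : |XV C nc n f φ ψ a b s k G| ≤ B ^ 2 * B ^ 2 := by
  have hQ := QQ_isProb (C := C) (nc := nc) (n := n) (fun _ => f) G s
  have hB : 0 ≤ B := (abs_nonneg _).trans ((hφ 0).bd 0)
  unfold XV pE
  refine (eE_abs_le hQ _).trans (eE_le_of_le hQ fun u => ?_)
  refine abs_cE_le_of_le hQ (fun v => ?_) u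
  rw [abs_mul, abs_mul, abs_mul]
  have := mul_le_mul ((hφ 0).bd (hh G a (C.x u.1))) ((hφ 1).bd (hh G b (C.x u.1))) (abs_nonneg _) hB
  have := mul_le_mul ((hψ 0).bd (hh G a (C.x v.1))) ((hψ 1).bd (hh G b (C.x v.1))) (abs_nonneg _) hB
  rw [sq]
  exact mul_le_mul (by assumption) (by assumption) (by positivity) (by positivity)

/-! ### transfer of the deviation -/


/-- the skeleton deviation of the system without the two rows. -/
theorem DevN_le {M : ℕ} {a b : Fin M} (hab : a ≠ b) (hN : 0 < N) {f : ℝ → ℝ} {K : ℝ}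
    (hK : ∀ x, |f x| ≤ K) (G : Fin M → Fin N → ℝ) (s : Fin nc → ℝ) (J : ℕ) (τ : ℕ → ℕ)
    (P : ℕ → ℝ) :
    Cav5_47.DevN C nc n (QQ C nc n (fz a b f) G s) J τ P ≤
      17 * Real.exp (8 * K) * ∑ j ∈ range (J + 1),
        pE (QQ C nc n (fun _ => f) G s) ((fil C nc n).F (τ j)) (fun u v => |ovl C nc n u v - P j|) := by
  have hQ := QQ_isProb (C := C) (nc := nc) (n := n) (fz a b f) G s
  have hV : ∀ ω : Om C nc n, |f (hh G a (C.x ω.1)) + f (hh G b (C.x ω.1))| ≤ 2 * K := by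
    intro ω
    refine (abs_add_le _ _).trans ?_
    have := hK (hh G a (C.x ω.1))
    have := hK (hh G b (C.x ω.1))
    linarith
  unfold Cav5_47.DevN
  rw [Finset.mul_sum]
  refine Finset.sum_le_sum fun j _ => ?_
  have h1 := S6Trans_944.msq_sub_le_tl (𝓕 := fil C nc n) hQ (xs_expo nc n) hV
    (S6Trans_944.xN C nc n) (P j) (τ j)
  have h2 := S6Trans_944.pur_le_tl (𝓕 := fil C nc n) hQ (xs_expo nc n) hV
    (x := S6Trans_944.xN C nc n) (D := 1)
    (fun ω => (S6Trans_944.xN_sq C nc n hN ω).le) (P j) (τ j)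
  rw [← QQ_two hab] at h1 h2
  have e1 : ∀ u v, S6Trans_944.ov (S6Trans_944.xN C nc n) u v = ovl C nc n u v := fun u v =>
    (S6Trans_944.ovl_eq C nc n u v).symm
  simp only [e1] at h1 h2
  have e2 : ∀ ω, (N : ℝ)⁻¹ * ∑ i, (cE (QQ C nc n (fz a b f) G s) ((fil C nc n).F (τ j))
      (fun w => C.x w.1 i) ω) ^ 2 = S6Trans_944.msq (QQ C nc n (fz a b f) G s)
        ((fil C nc n).F (τ j)) (S6Trans_944.xN C nc n) ω := fun ω =>
    S6Trans_944.msq_eq C nc n _ _ ω
  simp_rw [e2]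
  have e3 : (4 : ℝ) * (2 * K) = 8 * K := by ring
  rw [e3] at h1 h2
  have e4 : pur (QQ C nc n (fz a b f) G s) ((fil C nc n).F (τ j)) (Cav5_47.xn C nc n) =
    pur (QQ C nc n (fz a b f) G s) ((fil C nc n).F (τ j)) (S6Trans_944.xN C nc n) := rfl
  rw [e4]
  linarith

/-! ### the averaged two-row observable -/

theorem integral_rep {M : ℕ} {a b : Fin M} (hab : a ≠ b) {F : (Fin M → Fin N → ℝ) → ℝ}
    (hF : Measurable F) {c : ℝ} (hc : ∀ G, |F G| ≤ c) :
    ∫ G, F G ∂(gam M N) = ∫ G, ∫ ζ, F (rep a b G ζ) ∂(gm (Fin 2 × Fin N)) ∂(gam M N) := by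
  have hmp := RowRes_679.resamp M N a b hab
  have hi : Integrable (fun p : (Fin M → Fin N → ℝ) × (Fin 2 × Fin N → ℝ) =>
      F (rep a b p.1 p.2)) ((gam M N).prod (Measure.pi fun _ => gaussianReal 0 1)) :=
    Integrable.of_bound (C := c) (hF.comp hmp.measurable).aestronglyMeasurable
      (ae_of_all _ fun p => by rw [Real.norm_eq_abs]; exact hc _)
  rw [← hmp.map_eq, integral_map hmp.measurable.aemeasurable
    (by rw [hmp.map_eq]; exact hF.aestronglyMeasurable), hmp.map_eq]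
  exact integral_prod _ hi

/-- **The averaged observable of two rows of the system.** -/
theorem two_bound (J : ℕ) {K L B : ℝ} (hL : 0 ≤ L) (hB : 0 < B) {b : ℕ} (hb : b ≤ J + 1)
    {ε : ℝ} (hε : 0 < ε) :
    ∃ D : ℝ, 0 ≤ D ∧ ∀ (ε1 : ℝ) (wc nc : ℕ), 2 ≤ wc → nc + 1 = (J + 1) * wc →
      ∀ (N n : ℕ), 0 < N → 0 < n → ∀ (C : Cfg N) (f : ℝ → ℝ), BL K L f →
      ∀ φ ψ : Fin 2 → ℝ → ℝ, (∀ r, BL B B (φ r)) → (∀ r, BL B B (ψ r)) →
      ∀ (M : ℕ) (s : Fin nc → ℝ) (τ : ℕ → ℕ), Skel C nc n (fun _ => f) M s J wc τ ε1 →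
      ∀ x y : Fin M, x ≠ y →
      |∫ G, XV C nc n f φ ψ x y s (stp nc n J τ b) G ∂(gam M N) -
          ∏ r, kapX J f (PR C nc n f M s τ) b (φ r) (ψ r)| ≤
        ε + D * ε1 + B ^ 2 * B ^ 2 *
          ((2 * Real.exp (2 * (2 * K)) + 1) * RowTilt_874.CT (2 * K)) *
            Real.sqrt (1 / ((J : ℝ) + 1)) := by
  obtain ⟨D, hD, hmain⟩ := sys2 J (K := K) hL hB hb hε
  refine ⟨D * (17 * Real.exp (8 * K) * ((J : ℝ) + 1)), by positivity, ?_⟩
  intro ε1 wc nc hwc hnc N n hN hn C f hf φ ψ hφ hψ M s τ hS x y hxy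
  set P := PR C nc n f M s τ with hP
  set cst := B ^ 2 * B ^ 2 * ((2 * Real.exp (2 * (2 * K)) + 1) * RowTilt_874.CT (2 * K)) *
            Real.sqrt (1 / ((J : ℝ) + 1)) with hcst
  have hfm : Measurable f := (RowSys_874.BL_BC hf).cont.measurable
  have hlev : Lev J P := CavAsm_769.lev_Rk hN (fun _ => hfm) M s
    (CavAsm_769.tau_mono (by omega) hS.blk)
  have hXm := meas_XV (C := C) (nc := nc) (n := n) hfm (φ := φ) (ψ := ψ)
    (fun r => (RowSys_874.BL_BC (hφ r)).cont.measurable)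
    (fun r => (RowSys_874.BL_BC (hψ r)).cont.measurable) x y s (stp nc n J τ b)
  have hXb := XV_bd (C := C) (nc := nc) (n := n) (f := f) hφ hψ x y s (stp nc n J τ b)
  rw [integral_rep hxy hXm hXb]
  have e1 : ∀ (G : Fin M → Fin N → ℝ) (ζ : Fin 2 × Fin N → ℝ),
      XV C nc n f φ ψ x y s (stp nc n J τ b) (rep x y G ζ) =
      pairV C nc n (QQ C nc n (fz x y f) G s) f φ ψ (stp nc n J τ b) ζ := fun G ζ =>
    XV_rep hxy f φ ψ s _ G ζ
  simp_rw [e1]
  set κ := ∏ r, kapX J f P b (φ r) (ψ r) with hκ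
  set I : (Fin M → Fin N → ℝ) → ℝ := fun G =>
    ∫ ζ, pairV C nc n (QQ C nc n (fz x y f) G s) f φ ψ (stp nc n J τ b) ζ ∂(gm (Fin 2 × Fin N))
    with hI
  have hpw : ∀ G, |I G - κ| ≤ ε + D * (17 * Real.exp (8 * K) * ∑ j ∈ range (J + 1),
      CavAsm_769.pf C nc n (fun _ => f) s (τ j) (P j) G) + cst := by
    intro G
    have h1 := hmain wc nc hwc hnc N n hN hn C (QQ C nc n (fz x y f) G s) (QQ_isProb _ _ _) f hf φ ψ
      hφ hψ τ hS.blk P hlev
    have h2 := DevN_le (C := C) (nc := nc) (n := n) hxy hN hf.bd G s J τ P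
    have h3 := mul_le_mul_of_nonneg_left h2 hD
    refine h1.trans ?_
    unfold CavAsm_769.pf
    linarith
  have hpi : ∀ j, Integrable (CavAsm_769.pf (M := M) C nc n (fun _ => f) s (τ j) (P j))
      (gam M N) := fun j => CavAsm_769.integrable_pf (fun _ => hfm) s (τ j) (P j)
  have hgi : Integrable (fun G : Fin M → Fin N → ℝ => ε + D * (17 * Real.exp (8 * K) *
      ∑ j ∈ range (J + 1), CavAsm_769.pf C nc n (fun _ => f) s (τ j) (P j) G) + cst)
      (gam M N) := by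
    refine ((integrable_const ε).add (Integrable.const_mul (Integrable.const_mul ?_ _) _)).add
      (integrable_const cst)
    exact integrable_finset_sum _ fun j _ => hpi j
  have hXi : Integrable (fun p : (Fin M → Fin N → ℝ) × (Fin 2 × Fin N → ℝ) =>
      XV C nc n f φ ψ x y s (stp nc n J τ b) (rep x y p.1 p.2))
      ((gam M N).prod (gm (Fin 2 × Fin N))) := by
    have hmp := RowRes_679.resamp M N x y hxy
    exact Integrable.of_bound (C := B ^ 2 * B ^ 2) (hXm.comp hmp.measurable).aestronglyMeasurable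
      (ae_of_all _ fun p => by rw [Real.norm_eq_abs]; exact hXb _)
  have hIi : Integrable I (gam M N) := by
    have := hXi.integral_prod_left
    simpa only [e1] using this
  have h4 : ∫ G, I G ∂(gam M N) - κ = ∫ G, (I G - κ) ∂(gam M N) := by
    rw [integral_sub hIi (integrable_const _), integral_const, probReal_univ, one_smul]
  rw [h4]
  have h5 := norm_integral_le_of_norm_le hgi (ae_of_all _ fun G => by
    rw [Real.norm_eq_abs]; exact hpw G)
  rw [Real.norm_eq_abs] at h5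
  refine h5.trans ?_
  rw [integral_add (by
      refine (integrable_const ε).add (Integrable.const_mul (Integrable.const_mul ?_ _) _)
      exact integrable_finset_sum _ fun j _ => hpi j) (integrable_const _),
    integral_add (integrable_const _) (Integrable.const_mul (Integrable.const_mul
      (integrable_finset_sum _ fun j _ => hpi j) _) _), integral_const, integral_const,
    integral_const_mul, integral_const_mul, integral_finset_sum _ fun j _ => hpi j]
  simp only [probReal_univ, one_smul]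
  have h6 : ∑ j ∈ range (J + 1), ∫ G, CavAsm_769.pf (M := M) C nc n (fun _ => f) s (τ j) (P j) G
      ∂(gam M N) ≤ ((J : ℝ) + 1) * ε1 := by
    calc ∑ j ∈ range (J + 1), ∫ G, CavAsm_769.pf (M := M) C nc n (fun _ => f) s (τ j) (P j) G
          ∂(gam M N) ≤ ∑ _j ∈ range (J + 1), ε1 := by
          refine Finset.sum_le_sum fun j hj => ?_
          exact hS.pair j (by rw [Finset.mem_range] at hj; omega)
      _ = ((J : ℝ) + 1) * ε1 := by simp
  have h7 : D * (17 * Real.exp (8 * K) * ∑ j ∈ range (J + 1),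
      ∫ G, CavAsm_769.pf (M := M) C nc n (fun _ => f) s (τ j) (P j) G ∂(gam M N)) ≤
      D * (17 * Real.exp (8 * K) * (((J : ℝ) + 1) * ε1)) :=
    mul_le_mul_of_nonneg_left (mul_le_mul_of_nonneg_left h6 (by positivity)) hD
  linarith

end

end Crest.Agent.R146.RowObs_874
end

-- ▼ part R146/RoTwo_143

/-!
Row 146, S0206, node ROWOBS (helper143): from the values of the one-row and two-row observables
(`TWO`) to the concentration of the row statistics (`RowDef2_874.ROb`, bounded test functions), by the second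
moment.
-/

set_option autoImplicit false

namespace Crest.Agent.R146.RoTwo_143

open Finset MeasureTheory ProbabilityTheory Crest.Agent.R141
open Crest.Agent.R146.S6Def_988 Crest.Agent.R146.S6U_988 Crest.Agent.R146.S6L_988
open Crest.Agent.R146.RowDef_874 Crest.Agent.R146.Noise2_143

noncomputable section

/-! ### Abstract second moment argument -/

/-- a family of positive normalised linear functionals. -/
structure Fam {Z S : Type*} [MeasurableSpace Z] (E : Z → (S → ℝ) → ℝ) : Prop where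
  add : ∀ z f g, E z (fun s => f s + g s) = E z f + E z g
  smul : ∀ z c f, E z (fun s => c * f s) = c * E z f
  mono : ∀ z f g, (∀ s, f s ≤ g s) → E z f ≤ E z g
  one : ∀ z, E z (fun _ => 1) = 1
  meas : ∀ F : Z → S → ℝ, (∀ s, Measurable fun z => F z s) → Measurable fun z => E z (F z)

section abstract

variable {Z S : Type*} [MeasurableSpace Z] {E : Z → (S → ℝ) → ℝ}

theorem Fam.const (h : Fam E) (z : Z) (c : ℝ) : E z (fun _ => c) = c := by
  have := h.smul z c (fun _ => 1)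
  simpa [h.one] using this

theorem Fam.abs_bd (h : Fam E) {D : ℝ} {z : Z} {f : S → ℝ} (hf : ∀ s, |f s| ≤ D) :
    |E z f| ≤ D := by
  rw [abs_le]
  constructor
  · rw [← h.const z (-D)]
    exact h.mono z _ _ fun s => (abs_le.1 (hf s)).1
  · rw [← h.const z D]
    exact h.mono z _ _ fun s => (abs_le.1 (hf s)).2

theorem Fam.sq_abs_le (h : Fam E) (z : Z) (f : S → ℝ) :
    (E z (fun s => |f s|)) ^ 2 ≤ E z (fun s => f s ^ 2) := by
  set t := E z (fun s => |f s|) with ht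
  have h1 : E z (fun s => (2 * t) * |f s| + -(t ^ 2)) ≤ E z (fun s => f s ^ 2) :=
    h.mono z _ _ fun s => by nlinarith [sq_nonneg (|f s| - t), sq_abs (f s)]
  rw [h.add, h.smul, h.const, ← ht] at h1
  nlinarith

theorem Fam.sum (h : Fam E) {ι : Type*} (T : Finset ι) (z : Z) (f : ι → S → ℝ) :
    E z (fun s => ∑ i ∈ T, f i s) = ∑ i ∈ T, E z (f i) := by
  classical
  induction T using Finset.induction_on with
  | empty => simpa using h.const z 0
  | insert a T ha ih =>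
    simp only [Finset.sum_insert ha]
    rw [h.add, ih]

theorem Fam.int (h : Fam E) (μ : Measure Z) [IsProbabilityMeasure μ] {F : Z → S → ℝ} {D : ℝ}
    (hF : ∀ s, Measurable fun z => F z s) (hD : ∀ z s, |F z s| ≤ D) :
    Integrable (fun z => E z (F z)) μ := by
  refine Integrable.of_bound (C := D) (h.meas F hF).aestronglyMeasurable ?_
  refine Filter.Eventually.of_forall fun z => ?_
  rw [Real.norm_eq_abs]
  exact h.abs_bd (hD z)

theorem int4 (μ : Measure Z) [IsProbabilityMeasure μ] {a b c : Z → ℝ} (ha : Integrable a μ)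
    (hb : Integrable b μ) (hc : Integrable c μ) (p q k : ℝ) :
    ∫ z, (a z + p * b z + q * c z + k) ∂μ = ∫ z, a z ∂μ + p * ∫ z, b z ∂μ + q * ∫ z, c z ∂μ + k := by
  have h1 : Integrable (fun z => a z + p * b z) μ := ha.add (hb.const_mul p)
  have h2 : Integrable (fun z => a z + p * b z + q * c z) μ := h1.add (hc.const_mul q)
  rw [integral_add h2 (integrable_const k), integral_add h1 (hc.const_mul q),
    integral_add ha (hb.const_mul p), integral_const_mul, integral_const_mul]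
  simp

/-- second moment bound. -/
theorem Fam.conc (h : Fam E) (μ : Measure Z) [IsProbabilityMeasure μ] {M : ℕ}
    {X : Fin M → Z → S → ℝ} {D κ e : ℝ} (he : 0 ≤ e) (he1 : e ≤ 1) (hD0 : 0 ≤ D)
    (hX : ∀ a s, Measurable fun z => X a z s) (hD : ∀ a z s, |X a z s| ≤ D)
    (h1 : ∀ a, |∫ z, E z (X a z) ∂μ - κ| ≤ e)
    (h2 : ∀ a a', a ≠ a' → |∫ z, E z (fun s => X a z s * X a' z s) ∂μ - κ ^ 2| ≤ e) (N : ℕ) :
    (∫ z, E z (fun s => |(N : ℝ)⁻¹ * ∑ a, X a z s - (M : ℝ) / N * κ|) ∂μ) ^ 2 ≤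
      ((M : ℝ) / N) ^ 2 * (e * (2 * D + 3)) + (M : ℝ) / N / N * (2 * D + 1) ^ 2 := by
  classical
  rcases Nat.eq_zero_or_pos M with hM | hM
  · subst hM
    have e0 : (fun z => E z (fun s => |(N : ℝ)⁻¹ * ∑ a, X a z s - ((0 : ℕ) : ℝ) / N * κ|)) =
        fun _ => 0 := by
      funext z
      have : (fun s => |(N : ℝ)⁻¹ * ∑ a, X a z s - ((0 : ℕ) : ℝ) / N * κ|) =
          fun _ => (0 : ℝ) := by
        funext s
        simp
      rw [this, h.const]
    rw [e0]
    simp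
  have ha0 : Fin M := ⟨0, hM⟩
  -- bound of κ
  have hκ : |κ| ≤ D + 1 := by
    have b1 : |∫ z, E z (X ha0 z) ∂μ| ≤ D := by
      rw [← Real.norm_eq_abs]
      refine (norm_integral_le_of_norm_le_const (C := D)
        (Filter.Eventually.of_forall fun z => ?_)).trans ?_
      · rw [Real.norm_eq_abs]
        exact h.abs_bd (hD ha0 z)
      · simp
    have b2 := h1 ha0
    calc |κ| = |∫ z, E z (X ha0 z) ∂μ - (∫ z, E z (X ha0 z) ∂μ - κ)| := by
          congr 1; ring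
      _ ≤ |∫ z, E z (X ha0 z) ∂μ| + |∫ z, E z (X ha0 z) ∂μ - κ| := abs_sub _ _
      _ ≤ D + 1 := by linarith
  set Y : Fin M → Z → S → ℝ := fun a z s => X a z s - κ with hY
  have hYm : ∀ a s, Measurable fun z => Y a z s := fun a s => (hX a s).sub_const _
  have hYb : ∀ a z s, |Y a z s| ≤ 2 * D + 1 := by
    intro a z s
    calc |X a z s - κ| ≤ |X a z s| + |κ| := abs_sub _ _
      _ ≤ 2 * D + 1 := by linarith [hD a z s]
  have e1 : ∀ z s, (N : ℝ)⁻¹ * ∑ a, X a z s - (M : ℝ) / N * κ = (N : ℝ)⁻¹ * ∑ a, Y a z s := by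
    intro z s
    simp only [hY, Finset.sum_sub_distrib, Finset.sum_const, Finset.card_univ, Fintype.card_fin,
      nsmul_eq_mul]
    ring
  simp only [e1]
  -- Cauchy-Schwarz
  have hTm : ∀ s, Measurable fun z => (N : ℝ)⁻¹ * ∑ a, Y a z s := fun s =>
    (Finset.measurable_sum _ fun a _ => hYm a s).const_mul _
  have hTb : ∀ z s, |(N : ℝ)⁻¹ * ∑ a, Y a z s| ≤ (N : ℝ)⁻¹ * (M * (2 * D + 1)) := by
    intro z s
    rw [abs_mul, abs_of_nonneg (by positivity : (0 : ℝ) ≤ (N : ℝ)⁻¹)]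
    refine mul_le_mul_of_nonneg_left ?_ (by positivity)
    refine (Finset.abs_sum_le_sum_abs _ _).trans ?_
    refine (Finset.sum_le_sum fun a _ => hYb a z s).trans (le_of_eq ?_)
    rw [Finset.sum_const, Finset.card_univ, Fintype.card_fin, nsmul_eq_mul]
  set c : ℝ := (N : ℝ)⁻¹ * (M * (2 * D + 1)) with hc
  have i1 : Integrable (fun z => E z (fun s => |(N : ℝ)⁻¹ * ∑ a, Y a z s|)) μ :=
    h.int μ (D := c) (fun s => (hTm s).abs) fun z s => by rw [abs_abs]; exact hTb z s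
  have i2 : Integrable (fun z => E z (fun s => ((N : ℝ)⁻¹ * ∑ a, Y a z s) ^ 2)) μ :=
    h.int μ (D := c ^ 2) (fun s => (hTm s).pow_const 2) fun z s => by
      rw [abs_pow]
      exact pow_le_pow_left₀ (abs_nonneg _) (hTb z s) 2
  have cs : (∫ z, E z (fun s => |(N : ℝ)⁻¹ * ∑ a, Y a z s|) ∂μ) ^ 2 ≤
      ∫ z, E z (fun s => ((N : ℝ)⁻¹ * ∑ a, Y a z s) ^ 2) ∂μ := by
    set t := ∫ z, E z (fun s => |(N : ℝ)⁻¹ * ∑ a, Y a z s|) ∂μ with ht
    have k1 : ∫ z, ((2 * t) * E z (fun s => |(N : ℝ)⁻¹ * ∑ a, Y a z s|) - t ^ 2) ∂μ ≤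
        ∫ z, E z (fun s => ((N : ℝ)⁻¹ * ∑ a, Y a z s) ^ 2) ∂μ := by
      refine integral_mono ((i1.const_mul _).sub (integrable_const _)) i2 fun z => ?_
      have := h.sq_abs_le z (fun s => (N : ℝ)⁻¹ * ∑ a, Y a z s)
      show _ ≤ _
      nlinarith [sq_nonneg (E z (fun s => |(N : ℝ)⁻¹ * ∑ a, Y a z s|) - t)]
    rw [integral_sub (i1.const_mul _) (integrable_const _), integral_const_mul, ← ht] at k1
    simp at k1
    nlinarith
  refine cs.trans ?_
  -- expansion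
  have e2 : ∀ z, E z (fun s => ((N : ℝ)⁻¹ * ∑ a, Y a z s) ^ 2) =
      ((N : ℝ)⁻¹) ^ 2 * ∑ a, ∑ a', E z (fun s => Y a z s * Y a' z s) := by
    intro z
    have : (fun s => ((N : ℝ)⁻¹ * ∑ a, Y a z s) ^ 2) =
        fun s => ((N : ℝ)⁻¹) ^ 2 * ∑ a, ∑ a', Y a z s * Y a' z s := by
      funext s
      rw [mul_pow, pow_two (∑ a, Y a z s), Finset.sum_mul_sum]
    rw [this, h.smul, h.sum]
    congr 1
    refine Finset.sum_congr rfl fun a _ => ?_
    rw [h.sum]
  have i3 : ∀ a a', Integrable (fun z => E z (fun s => Y a z s * Y a' z s)) μ := fun a a' =>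
    h.int μ (D := (2 * D + 1) * (2 * D + 1)) (fun s => (hYm a s).mul (hYm a' s)) fun z s => by
      rw [abs_mul]
      exact mul_le_mul (hYb a z s) (hYb a' z s) (abs_nonneg _) (by linarith)
  simp only [e2]
  rw [integral_const_mul, integral_finsetSum _ fun a _ => integrable_finsetSum _ fun a' _ =>
    i3 a a']
  simp only [fun a => integral_finsetSum (μ := μ) univ (fun a' _ => i3 a a')]
  have hb : ∀ a a', ∫ z, E z (fun s => Y a z s * Y a' z s) ∂μ ≤
      if a = a' then (2 * D + 1) ^ 2 else e * (2 * D + 3) := by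
    intro a a'
    split_ifs with haa
    · refine (integral_mono (i3 a a') (integrable_const ((2 * D + 1) ^ 2)) fun z => ?_).trans
        (by simp)
      have : E z (fun s => Y a z s * Y a' z s) ≤ E z (fun _ => (2 * D + 1) ^ 2) := by
        refine h.mono z _ _ fun s => ?_
        have k := abs_le.1 (le_of_eq_of_le (abs_mul (Y a z s) (Y a' z s))
          (mul_le_mul (hYb a z s) (hYb a' z s) (abs_nonneg _) (by linarith)))
        nlinarith [k.2]
      rw [h.const] at this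
      exact this
    · have e3 : ∀ z, E z (fun s => Y a z s * Y a' z s) =
          E z (fun s => X a z s * X a' z s) + -κ * E z (X a z) + -κ * E z (X a' z) + κ ^ 2 := by
        intro z
        have : (fun s => Y a z s * Y a' z s) = fun s => ((X a z s * X a' z s + -κ * X a z s) +
            -κ * X a' z s) + κ ^ 2 := by
          funext s
          simp only [hY]
          ring
        rw [this, h.add, h.add, h.add, h.const, h.smul, h.smul]
      have j0 : Integrable (fun z => E z (fun s => X a z s * X a' z s)) μ :=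
        h.int μ (D := D * D) (fun s => (hX a s).mul (hX a' s)) fun z s => by
          rw [abs_mul]
          exact mul_le_mul (hD a z s) (hD a' z s) (abs_nonneg _) hD0
      have j1 : ∀ a, Integrable (fun z => E z (X a z)) μ := fun a => h.int μ (hX a) (hD a)
      simp only [e3]
      rw [int4 μ j0 (j1 a) (j1 a')]
      have q0 := abs_le.1 (h2 a a' haa)
      have q1 : |κ * (∫ z, E z (X a z) ∂μ - κ)| ≤ (D + 1) * e := by
        rw [abs_mul]
        exact mul_le_mul hκ (h1 a) (abs_nonneg _) (by linarith)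
      have q2 : |κ * (∫ z, E z (X a' z) ∂μ - κ)| ≤ (D + 1) * e := by
        rw [abs_mul]
        exact mul_le_mul hκ (h1 a') (abs_nonneg _) (by linarith)
      have q1' := abs_le.1 q1
      have q2' := abs_le.1 q2
      nlinarith [q0.2, q1'.1, q2'.1]
  have hs : ∑ a : Fin M, ∑ a' : Fin M, ∫ z, E z (fun s => Y a z s * Y a' z s) ∂μ ≤
      (M : ℝ) ^ 2 * (e * (2 * D + 3)) + M * (2 * D + 1) ^ 2 := by
    have : ∀ a : Fin M, ∑ a' : Fin M, ∫ z, E z (fun s => Y a z s * Y a' z s) ∂μ ≤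
        (M : ℝ) * (e * (2 * D + 3)) + (2 * D + 1) ^ 2 := by
      intro a
      refine (Finset.sum_le_sum fun a' _ => (hb a a').trans (?_ : _ ≤
        e * (2 * D + 3) + if a = a' then (2 * D + 1) ^ 2 else 0)).trans (le_of_eq ?_)
      · split_ifs
        · have : 0 ≤ e * (2 * D + 3) := by positivity
          linarith
        · linarith
      · rw [Finset.sum_add_distrib]
        simp
    refine (Finset.sum_le_sum fun a _ => this a).trans (le_of_eq ?_)
    simp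
    ring
  refine (mul_le_mul_of_nonneg_left hs (by positivity)).trans (le_of_eq ?_)
  ring

end abstract

/-! ### The two families -/

section fam

variable {Z : Type*} {Ω : Type} [MeasurableSpace Z] [Fintype Ω]

theorem fam_eE {Q : Z → Ω → ℝ} (hQ : ∀ z, IsProb (Q z)) (hm : ∀ ω, Measurable fun z => Q z ω) :
    Fam (fun z (F : Ω → ℝ) => eE (Q z) F) where
  add z f g := eE_add _ f g
  smul z c f := by
    unfold eE
    rw [Finset.mul_sum]
    exact Finset.sum_congr rfl fun ω _ => by ring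
  mono z f g h := by
    unfold eE
    exact Finset.sum_le_sum fun ω _ => mul_le_mul_of_nonneg_left (h ω) ((hQ z).pos ω).le
  one z := by
    unfold eE
    simp [(hQ z).sum]
  meas F hF := meas_eE hm hF

theorem fam_pE {Q : Z → Ω → ℝ} (hQ : ∀ z, IsProb (Q z)) (hm : ∀ ω, Measurable fun z => Q z ω)
    (r : Setoid Ω) :
    Fam (fun z (F : Ω × Ω → ℝ) => pE (Q z) r (fun (u v : Ω) => F (u, v))) where
  add z f g := by
    unfold pE
    rw [← (fam_eE hQ hm).add]
    congr 1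
    funext a
    exact cE_add _ _ _ _ _
  smul z c f := by
    unfold pE
    rw [← (fam_eE hQ hm).smul]
    congr 1
    funext a
    exact cE_smul _ _ _ _ _
  mono z f g h := by
    unfold pE
    exact (fam_eE hQ hm).mono z _ _ fun a => cE_mono' (hQ z) (fun b => h (a, b)) a
  one z := by
    unfold pE
    have : (fun a : Ω => cE (Q z) r (fun _ => (1 : ℝ)) a) = fun _ => 1 := by
      funext a
      exact cE_const (hQ z) r 1 a
    rw [this]
    exact (fam_eE hQ hm).one z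
  meas F hF := by
    unfold pE
    exact meas_eE hm fun a => meas_cE hm (fun b => hF (a, b)) r a

end fam

/-! ### The statements -/

/-- values of the one-row and two-row observables. -/
def TWO : Prop := ∀ (αm K L B ε : ℝ), 0 < ε → ∃ J0 : ℕ, ∀ J : ℕ, J0 ≤ J →
  ∃ ε1 : ℝ, 0 < ε1 ∧ ∃ N0 : ℕ, ∀ (wc nc : ℕ), 2 ≤ wc → nc + 1 = (J + 1) * wc →
  ∀ N, N0 ≤ N → 0 < N → ∀ n, 0 < n → ∀ (C : Cfg N) (f φ ψ : ℝ → ℝ), BL K L f → BL B B φ →
  BL B B ψ →
  ∀ (M : ℕ) (s : Fin nc → ℝ) (τ : ℕ → ℕ), (M : ℝ) ≤ αm * N →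
  Skel C nc n (fun _ => f) M s J wc τ ε1 →
  (2 ≤ M → ∀ b ≤ J, ∀ a : Fin M,
    |∫ G, pE (QQ C nc n (M := M) (fun _ => f) G s) ((fil C nc n).F (τ b))
      (fun u v => φ (hh G a (C.x u.1)) * ψ (hh G a (C.x v.1))) ∂(gam M N) -
        kapX J f (PR C nc n f M s τ) b φ ψ| ≤ ε) ∧
  (∀ b ≤ J, ∀ a a' : Fin M, a ≠ a' →
    |∫ G, pE (QQ C nc n (M := M) (fun _ => f) G s) ((fil C nc n).F (τ b))
      (fun u v => φ (hh G a (C.x u.1)) * ψ (hh G a (C.x v.1)) *
        (φ (hh G a' (C.x u.1)) * ψ (hh G a' (C.x v.1)))) ∂(gam M N) -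
        kapX J f (PR C nc n f M s τ) b φ ψ ^ 2| ≤ ε) ∧
  (2 ≤ M → ∀ a : Fin M, |∫ G, eE (QQ C nc n (M := M) (fun _ => f) G s)
      (fun u => φ (hh G a (C.x u.1)) * ψ (hh G a (C.x u.1))) ∂(gam M N) -
        kapX J f (PR C nc n f M s τ) (J + 1) φ ψ| ≤ ε) ∧
  (∀ a a' : Fin M, a ≠ a' →
    |∫ G, eE (QQ C nc n (M := M) (fun _ => f) G s)
      (fun u => φ (hh G a (C.x u.1)) * ψ (hh G a (C.x u.1)) *
        (φ (hh G a' (C.x u.1)) * ψ (hh G a' (C.x u.1)))) ∂(gam M N) -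
        kapX J f (PR C nc n f M s τ) (J + 1) φ ψ ^ 2| ≤ ε)

/-- at a level where the partition is trivial, the two replicas coincide. -/
theorem pE_bot {Ω : Type} [Fintype Ω] {Q : Ω → ℝ} (hQ : IsProb Q) {r : Setoid Ω} (hr : r = ⊥)
    (Ψ : Ω → Ω → ℝ) : pE Q r Ψ = eE Q (fun u => Ψ u u) := by
  classical
  subst hr
  unfold pE
  congr 1
  funext u
  unfold cE
  have : (univ.filter fun ω' => (⊥ : Setoid Ω) u ω') = {u} := by
    ext v
    simp only [mem_filter, mem_univ, true_and, mem_singleton]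
    exact ⟨fun h => h.symm, fun h => h.symm⟩
  rw [this, Finset.sum_singleton, Finset.sum_singleton]
  exact mul_div_cancel_left₀ _ (hQ.pos u).ne'

theorem measurable_of_lip {L : ℝ} {φ : ℝ → ℝ} (h : ∀ x y, |φ x - φ y| ≤ L * |x - y|) :
    Measurable φ := by
  have : Continuous φ := by
    refine continuous_iff_continuousAt.2 fun x => ?_
    rw [ContinuousAt, tendsto_iff_dist_tendsto_zero]
    have h1 : Filter.Tendsto (fun y => L * |y - x|) (nhds x) (nhds (L * |x - x|)) :=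
      (Continuous.tendsto (by fun_prop) x)
    rw [sub_self, abs_zero, mul_zero] at h1
    exact squeeze_zero (fun y => dist_nonneg) (fun y => by rw [Real.dist_eq]; exact h y x) h1
  exact this.measurable

theorem measurable_hh {M N : ℕ} (a : Fin M) (x : Fin N → ℝ) :
    Measurable fun G : Fin M → Fin N → ℝ => hh G a x := by
  unfold hh
  exact Finset.measurable_sum _ fun i _ => by fun_prop

/-! ### The limit model for bounded Lipschitz `f` -/

section lim

open Crest.Agent.R146.LimIbp_290 Crest.Agent.R164.GC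

theorem cont_of_lip {L : ℝ} {φ : ℝ → ℝ} (h : ∀ x y, |φ x - φ y| ≤ L * |x - y|) :
    Continuous φ := by
  refine continuous_iff_continuousAt.2 fun x => ?_
  rw [ContinuousAt, tendsto_iff_dist_tendsto_zero]
  have h1 : Filter.Tendsto (fun y => L * |y - x|) (nhds x) (nhds (L * |x - x|)) :=
    (Continuous.tendsto (by fun_prop) x)
  rw [sub_self, abs_zero, mul_zero] at h1
  exact squeeze_zero (fun y => dist_nonneg) (fun y => by rw [Real.dist_eq]; exact h y x) h1

theorem BL.nonneg_L {K L : ℝ} {f : ℝ → ℝ} (h : BL K L f) : 0 ≤ L := by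
  have := (abs_nonneg _).trans (h.lip 1 0)
  simpa using this

theorem Psi_EE {J : ℕ} {f : ℝ → ℝ} {K L : ℝ} (hf : BL K L f) (P : ℕ → ℝ) {j : ℕ} (h1 : 1 ≤ j)
    (h2 : j ≤ J + 2) : EE (Psi J f P j) := by
  have h := Crest.Agent.R146.RowFact_874.Psi_BL (J := J) (BL.nonneg_L hf) hf P (J + 2 - j) (by omega)
  rw [show J + 2 - (J + 2 - j) = j by omega] at h
  exact EE.of_bdd (cont_of_lip h.lip) h.bd

/-- conditional expectations of bounded continuous functions (`f` bounded Lipschitz). -/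
theorem cX_BC_bl {J : ℕ} {f : ℝ → ℝ} {K L : ℝ} (hf : BL K L f) (P : ℕ → ℝ) {k : ℕ}
    (hk : k ≤ J + 2) {g : ℝ → ℝ} {D : ℝ} (hg : BC g D) : ∀ i ≤ k, BC (cX J f P k g (k - i)) D := by
  intro i
  induction i with
  | zero => intro _; rw [Nat.sub_zero, cX_self]; exact hg
  | succ i ih =>
    intro hi
    rw [cX_step J f P g (show k - (i + 1) < k by omega)]
    have e1 : k - (i + 1) + 1 = k - i := by omega
    rw [e1]
    exact tE_BC (Psi_EE hf P (by omega) (by omega)) _ _ (ih (by omega))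

theorem kapX_abs_le {J : ℕ} {f : ℝ → ℝ} {K L : ℝ} (hf : BL K L f) (P : ℕ → ℝ) {b : ℕ}
    (hb : b ≤ J + 1) {φ ψ : ℝ → ℝ} {B B' : ℝ} (hφ : BC φ B) (hψ : BC ψ B') :
    |kapX J f P b φ ψ| ≤ B * B' := by
  have c1 : BC (cX J f P (J + 2) φ (b + 1)) B := by
    have := cX_BC_bl hf P (le_refl (J + 2)) hφ (J + 2 - (b + 1)) (by omega)
    rwa [show J + 2 - (J + 2 - (b + 1)) = b + 1 by omega] at this
  have c2 : BC (cX J f P (J + 2) ψ (b + 1)) B' := by
    have := cX_BC_bl hf P (le_refl (J + 2)) hψ (J + 2 - (b + 1)) (by omega)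
    rwa [show J + 2 - (J + 2 - (b + 1)) = b + 1 by omega] at this
  have c3 := cX_BC_bl hf P (show b + 1 ≤ J + 2 by omega) (c1.mul c2) (b + 1) (le_refl _)
  rw [Nat.sub_self] at c3
  exact c3.bd 0

end lim

/-- **second moments: TWO gives ROb.** -/
theorem rob_of (h : TWO) : RowDef2_874.ROb := by
  intro αm K L B ε hε
  set α : ℝ := max αm 0 with hα
  have hα0 : 0 ≤ α := le_max_right _ _
  set D : ℝ := B * B with hD
  have hD0 : 0 ≤ D := mul_self_nonneg B
  set c1 : ℝ := α ^ 2 * (2 * D + 3) with hc1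
  set c2 : ℝ := α * (2 * D + 1) ^ 2 with hc2
  have hc10 : 0 ≤ c1 := by positivity
  have hc20 : 0 ≤ c2 := by positivity
  set e : ℝ := min 1 (ε ^ 2 / (2 * (c1 + 1))) with he
  have he0 : 0 < e := lt_min one_pos (by positivity)
  have he1 : e ≤ 1 := min_le_left _ _
  have hec : c1 * e ≤ ε ^ 2 / 2 := by
    have : e ≤ ε ^ 2 / (2 * (c1 + 1)) := min_le_right _ _
    rw [le_div_iff₀ (by positivity)] at this
    nlinarith
  obtain ⟨J0, hJ0⟩ := h αm K L B e he0
  refine ⟨J0, fun J hJ => ?_⟩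
  obtain ⟨ε1, hε1, N0, hN0⟩ := hJ0 J hJ
  obtain ⟨N1, hN1⟩ := exists_nat_ge (2 * c2 / ε ^ 2)
  obtain ⟨N2, hN2⟩ := exists_nat_ge (2 * D / ε)
  refine ⟨ε1, hε1, max N0 (max N1 N2), ?_⟩
  intro wc nc hwc hnc N hN hNpos n hn C f φ ψ hf hφ hψ M s τ hM hS
  obtain ⟨t1, t2, t3, t4⟩ := hN0 wc nc hwc hnc N ((le_max_left _ _).trans hN) hNpos n hn C f φ ψ
    hf hφ hψ M s τ hM hS
  have hB0 : 0 ≤ B := (abs_nonneg _).trans (hφ.bd 0)
  have hNr : (0 : ℝ) < N := by exact_mod_cast hNpos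
  have hMN : (M : ℝ) / N ≤ α := by
    rw [div_le_iff₀ hNr]
    exact hM.trans (mul_le_mul_of_nonneg_right (le_max_left _ _) hNr.le)
  have hMN0 : (0 : ℝ) ≤ (M : ℝ) / N := by positivity
  have hcN : c2 / N ≤ ε ^ 2 / 2 := by
    have h1 : (N1 : ℝ) ≤ N := by
      exact_mod_cast (le_max_left _ _).trans ((le_max_right _ _).trans hN)
    have h2 : 2 * c2 / ε ^ 2 ≤ N := hN1.trans h1
    rw [div_le_iff₀ (by positivity)] at h2
    rw [div_le_iff₀ hNr]
    linarith
  have key : ∀ t : ℝ, t ^ 2 ≤ ((M : ℝ) / N) ^ 2 * (e * (2 * D + 3)) +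
      (M : ℝ) / N / N * (2 * D + 1) ^ 2 → t ≤ ε := by
    intro t ht
    have a1 : ((M : ℝ) / N) ^ 2 * (e * (2 * D + 3)) ≤ c1 * e := by
      have : ((M : ℝ) / N) ^ 2 ≤ α ^ 2 := pow_le_pow_left₀ hMN0 hMN 2
      calc ((M : ℝ) / N) ^ 2 * (e * (2 * D + 3)) ≤ α ^ 2 * (e * (2 * D + 3)) :=
            mul_le_mul_of_nonneg_right this (by positivity)
        _ = c1 * e := by rw [hc1]; ring
    have a2 : (M : ℝ) / N / N * (2 * D + 1) ^ 2 ≤ c2 / N := by
      calc (M : ℝ) / N / N * (2 * D + 1) ^ 2 ≤ α / N * (2 * D + 1) ^ 2 :=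
            mul_le_mul_of_nonneg_right (div_le_div_of_nonneg_right hMN hNr.le) (by positivity)
        _ = c2 / N := by rw [hc2]; ring
    have a3 : t ^ 2 ≤ ε ^ 2 := by linarith
    exact (le_abs_self t).trans (abs_le_of_sq_le_sq a3 hε.le)
  have hfm : ∀ a : ℕ, Measurable ((fun _ => f) a : ℝ → ℝ) := fun _ => measurable_of_lip hf.lip
  have hφm := measurable_of_lip hφ.lip
  have hψm := measurable_of_lip hψ.lip
  have hQ : ∀ G : Fin M → Fin N → ℝ, IsProb (QQ C nc n (M := M) (fun _ => f) G s) := fun G =>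
    QQ_isProb C (nc := nc) (n := n) _ G s
  have hQm : ∀ ω, Measurable fun G : Fin M → Fin N → ℝ => QQ C nc n (fun _ => f) G s ω :=
    fun ω => meas_QQ C hfm s ω
  have hb : ∀ x y, |φ x * ψ y| ≤ D := fun x y => by
    rw [abs_mul]
    exact mul_le_mul (hφ.bd x) (hψ.bd y) (abs_nonneg _) hB0
  have hφc : Crest.Agent.R164.GC.BC φ B := ⟨cont_of_lip hφ.lip, hφ.bd⟩
  have hψc : Crest.Agent.R164.GC.BC ψ B := ⟨cont_of_lip hψ.lip, hψ.bd⟩
  rcases Nat.lt_or_ge M 2 with hM2 | hM2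
  · -- at most one row
    have hcN2 : 2 * D / N ≤ ε := by
      have h1 : (N2 : ℝ) ≤ N := by
        exact_mod_cast (le_max_right _ _).trans ((le_max_right _ _).trans hN)
      have h2 : 2 * D / ε ≤ N := hN2.trans h1
      rw [div_le_iff₀ hε] at h2
      rw [div_le_iff₀ hNr]
      linarith
    have hM1 : (M : ℝ) ≤ 1 := by exact_mod_cast Nat.lt_succ_iff.1 hM2
    have hpt : ∀ (κ : ℝ), |κ| ≤ D → ∀ (G : Fin M → Fin N → ℝ) (u v : Om C nc n),
        |RS C nc n φ ψ G u v - (M : ℝ) / N * κ| ≤ ε := by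
      intro κ hκ G u v
      have a1 : |RS C nc n φ ψ G u v| ≤ (N : ℝ)⁻¹ * (M * D) := by
        unfold RS
        rw [abs_mul, abs_of_nonneg (by positivity : (0 : ℝ) ≤ (N : ℝ)⁻¹)]
        refine mul_le_mul_of_nonneg_left ?_ (by positivity)
        refine (Finset.abs_sum_le_sum_abs _ _).trans ?_
        refine (Finset.sum_le_sum fun a _ => hb _ _).trans (le_of_eq ?_)
        rw [Finset.sum_const, Finset.card_univ, Fintype.card_fin, nsmul_eq_mul]
      have a2 : |(M : ℝ) / N * κ| ≤ (M : ℝ) / N * D := by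
        rw [abs_mul, abs_of_nonneg hMN0]
        exact mul_le_mul_of_nonneg_left hκ hMN0
      have a3 : (M : ℝ) / N * D ≤ D / N := by
        rw [div_mul_eq_mul_div]
        refine div_le_div_of_nonneg_right ?_ hNr.le
        nlinarith
      have a4 : (N : ℝ)⁻¹ * (M * D) = (M : ℝ) / N * D := by ring
      have a5 : 2 * D / N = D / N + D / N := by ring
      calc |RS C nc n φ ψ G u v - (M : ℝ) / N * κ|
          ≤ |RS C nc n φ ψ G u v| + |(M : ℝ) / N * κ| := abs_sub _ _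
        _ ≤ ε := by linarith
    have hint : ∀ (g : (Fin M → Fin N → ℝ) → ℝ), (∀ G, g G ≤ ε) → (∀ G, 0 ≤ g G) →
        ∫ G, g G ∂(gam M N) ≤ ε := by
      intro g hg hg0
      have := norm_integral_le_of_norm_le_const (μ := gam M N) (C := ε) (f := g)
        (Filter.Eventually.of_forall fun G => by
          rw [Real.norm_eq_abs, abs_of_nonneg (hg0 G)]; exact hg G)
      rw [probReal_univ, mul_one, Real.norm_eq_abs] at this
      exact (le_abs_self _).trans this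
    constructor
    · intro b hb'
      have hκ := kapX_abs_le hf (PR C nc n f M s τ) (show b ≤ J + 1 by omega) hφc hψc
      refine hint _ (fun G => ?_) (fun G => ?_)
      · have := (fam_pE hQ hQm ((fil C nc n).F (τ b))).mono G
          (fun uv => |RS C nc n φ ψ G uv.1 uv.2 -
            (M : ℝ) / N * kapX J f (PR C nc n f M s τ) b φ ψ|) (fun _ => ε)
          (fun uv => hpt _ hκ G uv.1 uv.2)
        rw [(fam_pE hQ hQm ((fil C nc n).F (τ b))).const G ε] at this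
        exact this
      · have := (fam_pE hQ hQm ((fil C nc n).F (τ b))).mono G (fun _ => 0)
          (fun uv => |RS C nc n φ ψ G uv.1 uv.2 -
            (M : ℝ) / N * kapX J f (PR C nc n f M s τ) b φ ψ|)
          (fun uv => abs_nonneg _)
        rw [(fam_pE hQ hQm ((fil C nc n).F (τ b))).const G 0] at this
        exact this
    · have hκ := kapX_abs_le hf (PR C nc n f M s τ) (le_refl (J + 1)) hφc hψc
      refine hint _ (fun G => ?_) (fun G => ?_)
      · have := (fam_eE hQ hQm).mono G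
          (fun u => |RS C nc n φ ψ G u u -
            (M : ℝ) / N * kapX J f (PR C nc n f M s τ) (J + 1) φ ψ|) (fun _ => ε)
          (fun u => hpt _ hκ G u u)
        rw [(fam_eE hQ hQm).const G ε] at this
        exact this
      · have := (fam_eE hQ hQm).mono G (fun _ => 0)
          (fun u => |RS C nc n φ ψ G u u -
            (M : ℝ) / N * kapX J f (PR C nc n f M s τ) (J + 1) φ ψ|)
          (fun u => abs_nonneg _)
        rw [(fam_eE hQ hQm).const G 0] at this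
        exact this
  constructor
  · intro b hb'
    refine key _ ?_
    have := (fam_pE hQ hQm ((fil C nc n).F (τ b))).conc (gam M N) (M := M)
      (X := fun a G uv => φ (hh G a (C.x uv.1.1)) * ψ (hh G a (C.x uv.2.1))) he0.le he1 hD0
      (fun a uv => (hφm.comp (measurable_hh a _)).mul (hψm.comp (measurable_hh a _)))
      (fun a G uv => hb _ _) (t1 hM2 b hb') (t2 b hb') N
    exact this
  · refine key _ ?_
    have := (fam_eE hQ hQm).conc (gam M N) (M := M)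
      (X := fun a G u => φ (hh G a (C.x u.1)) * ψ (hh G a (C.x u.1))) he0.le he1 hD0
      (fun a u => (hφm.comp (measurable_hh a _)).mul (hψm.comp (measurable_hh a _)))
      (fun a G u => hb _ _) (t3 hM2) t4 N
    exact this

end

end Crest.Agent.R146.RoTwo_143
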