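import Crest.Agent.R146.L2Alg_36
import Crest.Agent.R164.GCalc2
import Crest.Agent.R146.S6L_988
import Crest.Agent.R146.LimRel_290
import Crest.Agent.R146.CavAsm_769
import Crest.Agent.R146.Cav5_47
import Crest.Agent.R146.PLim_857

-- ▼ part R146/L3Val_36
section

/-!
Row 146, S0206, lower bound, node (L3), value of the nested Gaussian recursion on a truncated
quadratic (helper36).

`value_ge`: the recursion `S6Def.recV` with positions `0, T_0, ..., T_{J+1}` and exponents
`j/(J+1)`, applied to a bounded function `f ≥ min (z²/(2B) - log B/2) L - ε`,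
`B = 1 - Q + T_{J+1}`, is at least `Theta J P T - 3 (1+Tm)² Tm²/(16 L) - ε`, uniformly in `J`.
-/

set_option autoImplicit false

namespace Crest.Agent.R146.L3Val_36

open MeasureTheory ProbabilityTheory Filter Topology
open Crest.ProbabilityR.InvariantGlass Crest.Agent.R164.GC Crest.Agent.R146.S6Def_988
open Crest.Agent.R146.L2Alg_36

noncomputable section

/-! ### Gaussian moments -/

theorem EG_id : EG (fun x : ℝ => x) :=
  ⟨continuous_id, 1, 1, zero_le_one, zero_le_one, fun x => by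
    have := Real.add_one_le_exp |x|
    simp only [one_mul]
    linarith⟩

theorem int_pow (n : ℕ) : Integrable (fun g : ℝ => g ^ n) (gaussianReal 0 1) := by
  have h := (EG_id.pow n).int 1 0
  have e : (fun g : ℝ => g ^ n) = fun g => (0 + 1 * g) ^ n := by funext g; ring_nf
  rw [e]
  exact h

theorem mom1 : ∫ g : ℝ, g ∂gaussianReal 0 1 = 0 := by
  have h := stein (φ := fun _ => (1 : ℝ)) (φ1 := fun _ => 0) (EG.const 1) (EG.const 0)
    (fun x => hasDerivAt_const x 1) 1 0
  simpa [H] using h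

theorem mom2 : ∫ g : ℝ, g ^ 2 ∂gaussianReal 0 1 = 1 := by
  have h := stein (φ := fun x => x) (φ1 := fun _ => 1) EG_id (EG.const 1)
    (fun x => hasDerivAt_id' x) 1 0
  have e : (fun g : ℝ => g ^ 2) = fun g => g * (0 + 1 * g) := by funext g; ring
  rw [e, h]
  simp [H]

theorem mom3 : ∫ g : ℝ, g ^ 3 ∂gaussianReal 0 1 = 0 := by
  have h := stein (φ := fun x => x ^ 2) (φ1 := fun x => 2 * x) (EG_id.pow 2) (EG_id.const_mul 2)
    (fun x => by simpa using hasDerivAt_pow 2 x) 1 0
  have e : (fun g : ℝ => g ^ 3) = fun g => g * (0 + 1 * g) ^ 2 := by funext g; ring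
  rw [e, h]
  unfold H
  have e2 : (fun g : ℝ => 2 * (0 + 1 * g)) = fun g => 2 * g := by funext g; ring
  rw [e2, integral_const_mul, mom1]
  ring

theorem mom4 : ∫ g : ℝ, g ^ 4 ∂gaussianReal 0 1 = 3 := by
  have h := stein (φ := fun x => x ^ 3) (φ1 := fun x => 3 * x ^ 2) (EG_id.pow 3)
    ((EG_id.pow 2).const_mul 3) (fun x => by simpa using hasDerivAt_pow 3 x) 1 0
  have e : (fun g : ℝ => g ^ 4) = fun g => g * (0 + 1 * g) ^ 3 := by funext g; ring
  rw [e, h]
  unfold H
  have e2 : (fun g : ℝ => 3 * (0 + 1 * g) ^ 2) = fun g => 3 * g ^ 2 := by funext g; ring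
  rw [e2, integral_const_mul, mom2]
  ring

theorem avg_sq (u s : ℝ) : ∫ g : ℝ, (u + s * g) ^ 2 ∂gaussianReal 0 1 = u ^ 2 + s ^ 2 := by
  have e : (fun g : ℝ => (u + s * g) ^ 2) =
      fun g => (u ^ 2 + (2 * u * s) * g ^ 1) + s ^ 2 * g ^ 2 := by funext g; ring
  have i0 : Integrable (fun _ : ℝ => u ^ 2) (gaussianReal 0 1) := integrable_const _
  have i1 : Integrable (fun g : ℝ => (2 * u * s) * g ^ 1) (gaussianReal 0 1) :=
    (int_pow 1).const_mul (2 * u * s)
  have i2 : Integrable (fun g : ℝ => s ^ 2 * g ^ 2) (gaussianReal 0 1) := (int_pow 2).const_mul _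
  have j1 : Integrable (fun g : ℝ => u ^ 2 + (2 * u * s) * g ^ 1) (gaussianReal 0 1) := i0.add i1
  rw [e, integral_add j1 i2, integral_add i0 i1, integral_const_mul, integral_const_mul, mom2]
  simp only [pow_one, mom1, integral_const, probReal_univ, smul_eq_mul]
  ring

theorem avg_quart (u s : ℝ) : ∫ g : ℝ, (u + s * g) ^ 4 ∂gaussianReal 0 1 =
    u ^ 4 + 6 * u ^ 2 * s ^ 2 + 3 * s ^ 4 := by
  have e : (fun g : ℝ => (u + s * g) ^ 4) =
      fun g => ((((u ^ 4 + (4 * u ^ 3 * s) * g ^ 1) + (6 * u ^ 2 * s ^ 2) * g ^ 2) +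
        (4 * u * s ^ 3) * g ^ 3) + s ^ 4 * g ^ 4) := by funext g; ring
  have i0 : Integrable (fun _ : ℝ => u ^ 4) (gaussianReal 0 1) := integrable_const _
  have i1 := (int_pow 1).const_mul (4 * u ^ 3 * s)
  have i2 := (int_pow 2).const_mul (6 * u ^ 2 * s ^ 2)
  have i3 := (int_pow 3).const_mul (4 * u * s ^ 3)
  have i4 := (int_pow 4).const_mul (s ^ 4)
  have j1 : Integrable (fun g : ℝ => u ^ 4 + (4 * u ^ 3 * s) * g ^ 1) (gaussianReal 0 1) := i0.add i1
  have j2 : Integrable (fun g : ℝ => u ^ 4 + (4 * u ^ 3 * s) * g ^ 1 + (6 * u ^ 2 * s ^ 2) * g ^ 2)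
    (gaussianReal 0 1) := j1.add i2
  have j3 : Integrable (fun g : ℝ => u ^ 4 + (4 * u ^ 3 * s) * g ^ 1 + (6 * u ^ 2 * s ^ 2) * g ^ 2 +
    (4 * u * s ^ 3) * g ^ 3) (gaussianReal 0 1) := j2.add i3
  rw [e, integral_add j3 i4, integral_add j2 i3, integral_add j1 i2, integral_add i0 i1,
    integral_const_mul, integral_const_mul, integral_const_mul, integral_const_mul,
    mom2, mom3, mom4]
  simp only [pow_one, mom1, integral_const, probReal_univ, smul_eq_mul]
  ring

/-! ### The error function -/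

/-- error function at a time where the exact value is `y²/(2β) + c`. -/
def err (κ S β y : ℝ) : ℝ := κ * ((y / β) ^ 4 + 6 * S * (y / β) ^ 2 + 3 * S ^ 2)


theorem err_EG (κ S β : ℝ) : EG (err κ S β) := by
  have h : (fun y => err κ S β y) = fun y => κ * ((((1 / β) * y) ^ 4 + (6 * S) * ((1 / β) * y) ^ 2) +
      3 * S ^ 2) := by
    funext y; unfold err
    have : y / β = 1 / β * y := by ring
    rw [this]
  have h2 : err κ S β = fun y => κ * ((((1 / β) * y) ^ 4 + (6 * S) * ((1 / β) * y) ^ 2) +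
      3 * S ^ 2) := h
  rw [h2]
  exact ((((EG_id.const_mul (1 / β)).pow 4).add (((EG_id.const_mul (1 / β)).pow 2).const_mul
    (6 * S))).add (EG.const (3 * S ^ 2))).const_mul κ

/-- average of the error function after one Gaussian step -/
theorem err_avg {κ S β β' v : ℝ} (hβ : 0 < β) (hβ' : 0 < β') (hv : 0 ≤ v) (y : ℝ) :
    ∫ g : ℝ, err κ S β' (y * β' / β + Real.sqrt (v * β' / β) * g) ∂gaussianReal 0 1 =
      err κ (S + v / (β * β')) β y := by
  set s := Real.sqrt (v * β' / β) / β' with hs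
  have hs2 : s ^ 2 = v / (β * β') := by
    rw [hs, div_pow, Real.sq_sqrt (by positivity)]
    field_simp
  have e : (fun g : ℝ => err κ S β' (y * β' / β + Real.sqrt (v * β' / β) * g)) =
      fun g => κ * (((y / β + s * g) ^ 4 + (6 * S) * (y / β + s * g) ^ 2) + 3 * S ^ 2) := by
    funext g
    unfold err
    have : (y * β' / β + Real.sqrt (v * β' / β) * g) / β' = y / β + s * g := by
      rw [hs]; field_simp
    rw [this]
  have i4 : Integrable (fun g : ℝ => (y / β + s * g) ^ 4) (gaussianReal 0 1) :=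
    (EG_id.pow 4).int s (y / β)
  have i2 : Integrable (fun g : ℝ => (6 * S) * (y / β + s * g) ^ 2) (gaussianReal 0 1) :=
    ((EG_id.pow 2).int s (y / β)).const_mul _
  have j1 : Integrable (fun g : ℝ => (y / β + s * g) ^ 4 + (6 * S) * (y / β + s * g) ^ 2)
    (gaussianReal 0 1) := i4.add i2
  rw [e, integral_const_mul, integral_add j1 (integrable_const _), integral_add i4 i2,
    integral_const_mul, avg_quart, avg_sq]
  simp only [integral_const, probReal_univ, smul_eq_mul]
  have e4 : s ^ 4 = (v / (β * β')) ^ 2 := by rw [← hs2]; ring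
  unfold err
  rw [e4, hs2]
  ring

/-! ### Gaussian tilt by a quadratic -/

theorem pdf_tilt {a v c2 : ℝ} (hv : 0 ≤ v) (hc : 0 < c2) (hc2 : c2 = 1 - a * v) (y g : ℝ) :
    gaussianPDFReal 0 1 g * Real.exp (a * (y + Real.sqrt v * g) ^ 2 / 2) =
      ((Real.sqrt c2)⁻¹ * Real.exp (a * y ^ 2 / (2 * c2))) *
        gaussianPDFReal (a * Real.sqrt v * y / c2) (Real.toNNReal c2⁻¹) g := by
  have hv2 : Real.sqrt v ^ 2 = v := Real.sq_sqrt hv
  set w := Real.sqrt v with hw
  have hcoe : ((Real.toNNReal c2⁻¹ : NNReal) : ℝ) = c2⁻¹ := Real.coe_toNNReal _ (by positivity)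
  unfold gaussianPDFReal
  rw [hcoe]
  have e1 : (Real.sqrt c2)⁻¹ * (Real.sqrt (2 * Real.pi * c2⁻¹))⁻¹ =
      (Real.sqrt (2 * Real.pi * ((1 : NNReal) : ℝ)))⁻¹ := by
    rw [← mul_inv, ← Real.sqrt_mul hc.le]
    congr 2
    push_cast
    field_simp
  have e2 : -(g - 0) ^ 2 / (2 * ((1 : NNReal) : ℝ)) + a * (y + w * g) ^ 2 / 2 =
      a * y ^ 2 / (2 * c2) + -(g - a * w * y / c2) ^ 2 / (2 * c2⁻¹) := by
    push_cast
    have h1 : a * v = 1 - c2 := by linarith
    have h2 : a * w ^ 2 = 1 - c2 := by rw [hv2]; exact h1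
    field_simp
    linear_combination (c2 * g ^ 2 + a * y ^ 2) * h2
  calc (Real.sqrt (2 * Real.pi * ((1 : NNReal) : ℝ)))⁻¹ * Real.exp (-(g - 0) ^ 2 / (2 * ((1 : NNReal) : ℝ))) *
        Real.exp (a * (y + w * g) ^ 2 / 2)
      = (Real.sqrt (2 * Real.pi * ((1 : NNReal) : ℝ)))⁻¹ *
        Real.exp (-(g - 0) ^ 2 / (2 * ((1 : NNReal) : ℝ)) + a * (y + w * g) ^ 2 / 2) := by
        rw [Real.exp_add]; ring
    _ = ((Real.sqrt c2)⁻¹ * (Real.sqrt (2 * Real.pi * c2⁻¹))⁻¹) *
        Real.exp (a * y ^ 2 / (2 * c2) + -(g - a * w * y / c2) ^ 2 / (2 * c2⁻¹)) := by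
        rw [e2, e1]
    _ = _ := by rw [Real.exp_add]; ring

theorem tilt {a v c2 : ℝ} (hv : 0 ≤ v) (hc : 0 < c2) (hc2 : c2 = 1 - a * v) (y : ℝ)
    {h : ℝ → ℝ} (hm : Measurable h) :
    ∫ g : ℝ, Real.exp (a * (y + Real.sqrt v * g) ^ 2 / 2) * h (y + Real.sqrt v * g)
      ∂gaussianReal 0 1 =
      ((Real.sqrt c2)⁻¹ * Real.exp (a * y ^ 2 / (2 * c2))) *
        ∫ g : ℝ, h (y / c2 + Real.sqrt (v / c2) * g) ∂gaussianReal 0 1 := by
  have hne : (Real.toNNReal c2⁻¹) ≠ 0 := by
    intro h0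
    have : ((Real.toNNReal c2⁻¹ : NNReal) : ℝ) = c2⁻¹ := Real.coe_toNNReal _ (by positivity)
    rw [h0] at this
    have h1 : 0 < c2⁻¹ := by positivity
    rw [← this] at h1
    exact absurd h1 (by simp)
  have h1 : ∫ g : ℝ, Real.exp (a * (y + Real.sqrt v * g) ^ 2 / 2) * h (y + Real.sqrt v * g)
      ∂gaussianReal 0 1 = ((Real.sqrt c2)⁻¹ * Real.exp (a * y ^ 2 / (2 * c2))) *
      ∫ g : ℝ, h (y + Real.sqrt v * g) ∂gaussianReal (a * Real.sqrt v * y / c2) (Real.toNNReal c2⁻¹) := by
    rw [integral_gaussianReal_eq_integral_smul one_ne_zero,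
      integral_gaussianReal_eq_integral_smul hne, ← integral_const_mul]
    apply integral_congr_ae
    filter_upwards with g
    simp only [smul_eq_mul]
    have := pdf_tilt hv hc hc2 y g
    calc gaussianPDFReal 0 1 g * (Real.exp (a * (y + Real.sqrt v * g) ^ 2 / 2) * h (y + Real.sqrt v * g))
        = (gaussianPDFReal 0 1 g * Real.exp (a * (y + Real.sqrt v * g) ^ 2 / 2)) *
          h (y + Real.sqrt v * g) := by ring
      _ = _ := by rw [this]; ring
  have h2 : gaussianReal (a * Real.sqrt v * y / c2) (Real.toNNReal c2⁻¹) =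
      (gaussianReal 0 1).map (fun g => a * Real.sqrt v * y / c2 + Real.sqrt c2⁻¹ * g) := by
    have e1 : (gaussianReal 0 1).map (fun g => Real.sqrt c2⁻¹ * g) =
        gaussianReal 0 (Real.toNNReal c2⁻¹) := by
      rw [gaussianReal_map_const_mul]
      congr 1
      · ring
      · rw [mul_one]
        ext
        rw [NNReal.coe_mk, Real.sq_sqrt (by positivity), Real.coe_toNNReal _ (by positivity)]
    have e2 : (fun g : ℝ => a * Real.sqrt v * y / c2 + Real.sqrt c2⁻¹ * g) =
        (fun g => a * Real.sqrt v * y / c2 + g) ∘ (fun g => Real.sqrt c2⁻¹ * g) := rfl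
    rw [e2, ← Measure.map_map (by fun_prop) (by fun_prop), e1, gaussianReal_map_const_add]
    congr 1
    ring
  rw [h1, h2, integral_map (by fun_prop) (by
    exact (hm.comp (by fun_prop : Measurable fun g : ℝ => y + Real.sqrt v * g)).aestronglyMeasurable)]
  congr 1
  apply integral_congr_ae
  filter_upwards with g
  congr 1
  have hv2 : Real.sqrt v ^ 2 = v := Real.sq_sqrt hv
  have hs : Real.sqrt v * Real.sqrt c2⁻¹ = Real.sqrt (v / c2) := by
    rw [← Real.sqrt_mul hv, div_eq_mul_inv]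
  have h3 : y + Real.sqrt v * (a * Real.sqrt v * y / c2) = y / c2 := by
    have h4 : a * Real.sqrt v ^ 2 = 1 - c2 := by rw [hv2]; linarith
    field_simp
    linear_combination y * h4
  rw [← hs]
  linear_combination h3

/-! ### Bounded continuous functions under the recursion -/

theorem gaussOp_cb {W : ℝ → ℝ} (hW : Continuous W) {K : ℝ} (hK : ∀ z, |W z| ≤ K) {x : ℝ}
    (hx : 0 ≤ x) (v : ℝ) :
    Continuous (gaussOp x v W) ∧ ∀ z, |gaussOp x v W z| ≤ K := by
  have hEW : EG W := EG.of_bdd hW hK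
  rcases hx.eq_or_lt with rfl | hx
  · have e : gaussOp 0 v W = fun z => H (Real.sqrt v) W z := by
      funext z; exact gaussOp_zero v W z
    rw [e]
    refine ⟨(H_continuous hEW).comp (continuous_const.prodMk continuous_id), fun z => ?_⟩
    have h1 := H_mono hEW (EG.const K) (fun y => (abs_le.1 (hK y)).2) (Real.sqrt v) z
    have h2 := H_mono (EG.const (-K)) hEW (fun y => (abs_le.1 (hK y)).1) (Real.sqrt v) z
    rw [H_const] at h1 h2
    exact abs_le.2 ⟨h2, h1⟩
  · have hE : EG (fun y => Real.exp (x * W y)) := by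
      refine EG.of_bdd (by fun_prop) (K := Real.exp (x * K)) fun y => ?_
      rw [abs_of_pos (Real.exp_pos _)]
      exact Real.exp_le_exp.2 (mul_le_mul_of_nonneg_left (abs_le.1 (hK y)).2 hx.le)
    have hpos : ∀ z, 0 < H (Real.sqrt v) (fun y => Real.exp (x * W y)) z :=
      fun z => H_pos hE (fun _ => Real.exp_pos _) _ z
    have e : gaussOp x v W = fun z => x⁻¹ * Real.log (H (Real.sqrt v) (fun y => Real.exp (x * W y)) z) := by
      funext z; exact gaussOp_ne hx.ne' v W z
    rw [e]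
    refine ⟨continuous_const.mul (Continuous.log
      ((H_continuous hE).comp (continuous_const.prodMk continuous_id)) fun z => (hpos z).ne'),
      fun z => ?_⟩
    have h1 := H_mono hE (EG.const (Real.exp (x * K)))
      (fun y => Real.exp_le_exp.2 (mul_le_mul_of_nonneg_left (abs_le.1 (hK y)).2 hx.le))
      (Real.sqrt v) z
    have h2 := H_mono (EG.const (Real.exp (x * (-K)))) hE
      (fun y => Real.exp_le_exp.2 (mul_le_mul_of_nonneg_left (abs_le.1 (hK y)).1 hx.le))
      (Real.sqrt v) z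
    rw [H_const] at h1 h2
    have h3 := Real.log_le_log (hpos z) h1
    have h4 := Real.log_le_log (Real.exp_pos _) h2
    rw [Real.log_exp] at h3 h4
    have hxi : x⁻¹ * (x * K) = K := by field_simp
    have hxi' : x⁻¹ * (x * (-K)) = -K := by field_simp
    rw [abs_le]
    constructor
    · calc -K = x⁻¹ * (x * (-K)) := hxi'.symm
        _ ≤ _ := mul_le_mul_of_nonneg_left h4 (by positivity)
    · calc x⁻¹ * Real.log (H (Real.sqrt v) (fun y => Real.exp (x * W y)) z) ≤ x⁻¹ * (x * K) :=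
            mul_le_mul_of_nonneg_left h3 (by positivity)
        _ = K := hxi

/-! ### One step -/

theorem step_pos {x v β β' κ S c' K : ℝ} (hx : 0 < x) (hv : 0 ≤ v) (hβ : 0 < β)
    (hβ' : β = β' - x * v) {W : ℝ → ℝ} (hW : Continuous W) (hK : ∀ z, |W z| ≤ K)
    (hlow : ∀ z, z ^ 2 / (2 * β') + c' - err κ S β' z ≤ W z) (y : ℝ) :
    y ^ 2 / (2 * β) + (c' + 1 / (2 * x) * Real.log (β' / β)) - err κ (S + v / (β * β')) β y ≤
      gaussOp x v W y := by
  have hb : 0 < β' := by nlinarith [mul_nonneg hx.le hv]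
  set a := x / β' with ha
  set c2 := β / β' with hc2
  have hc2p : 0 < c2 := by positivity
  have hc2e : c2 = 1 - a * v := by rw [hc2, ha, hβ']; field_simp
  have hE : EG (fun y => Real.exp (x * W y)) := by
    refine EG.of_bdd (by fun_prop) (K := Real.exp (x * K)) fun y => ?_
    rw [abs_of_pos (Real.exp_pos _)]
    exact Real.exp_le_exp.2 (mul_le_mul_of_nonneg_left (abs_le.1 (hK y)).2 hx.le)
  set h : ℝ → ℝ := fun z => Real.exp (-(x * err κ S β' z)) with hh
  have hcont : Continuous h := by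
    have := (err_EG κ S β').cont
    fun_prop
  have hpt : ∀ z, Real.exp (x * c') * (Real.exp (a * z ^ 2 / 2) * h z) ≤ Real.exp (x * W z) := by
    intro z
    simp only [hh]
    rw [← Real.exp_add, ← Real.exp_add]
    apply Real.exp_le_exp.2
    have h1 := mul_le_mul_of_nonneg_left (hlow z) hx.le
    have h2 : x * (z ^ 2 / (2 * β') + c' - err κ S β' z) =
        x * c' + (a * z ^ 2 / 2 + -(x * err κ S β' z)) := by
      rw [ha]; field_simp; ring
    linarith
  have hint : Integrable (fun g : ℝ => Real.exp (a * (y + Real.sqrt v * g) ^ 2 / 2) *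
      h (y + Real.sqrt v * g)) (gaussianReal 0 1) := by
    refine Integrable.mono' ((hE.int (Real.sqrt v) y).const_mul (Real.exp (-(x * c'))))
      (by fun_prop) (Eventually.of_forall fun g => ?_)
    have h1 := hpt (y + Real.sqrt v * g)
    have h0 : 0 ≤ Real.exp (a * (y + Real.sqrt v * g) ^ 2 / 2) * h (y + Real.sqrt v * g) := by
      simp only [hh]; positivity
    rw [Real.norm_eq_abs, abs_of_nonneg h0]
    have h2 := mul_le_mul_of_nonneg_left h1 (Real.exp_pos (-(x * c'))).le
    rw [← mul_assoc, ← Real.exp_add] at h2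
    simpa using h2
  have hstep : Real.exp (x * c') * (((Real.sqrt c2)⁻¹ * Real.exp (a * y ^ 2 / (2 * c2))) *
      ∫ g : ℝ, h (y / c2 + Real.sqrt (v / c2) * g) ∂gaussianReal 0 1) ≤
      H (Real.sqrt v) (fun y => Real.exp (x * W y)) y := by
    rw [← tilt hv hc2p hc2e y hcont.measurable, ← integral_const_mul]
    exact integral_mono (hint.const_mul _) (hE.int _ _) fun g => hpt _
  have hr : y / c2 = y * β' / β := by rw [hc2]; field_simp
  have hs : v / c2 = v * β' / β := by rw [hc2]; field_simp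
  have havg : ∫ g : ℝ, err κ S β' (y / c2 + Real.sqrt (v / c2) * g) ∂gaussianReal 0 1 =
      err κ (S + v / (β * β')) β y := by
    rw [hr, hs]; exact err_avg hβ hb hv y
  set E := err κ (S + v / (β * β')) β y with hEdef
  have hi1 : Integrable (fun g : ℝ => err κ S β' (y / c2 + Real.sqrt (v / c2) * g))
      (gaussianReal 0 1) := (err_EG κ S β').int _ _
  -- Jensen
  have hJ : Real.exp (-(x * E)) ≤ ∫ g : ℝ, h (y / c2 + Real.sqrt (v / c2) * g) ∂gaussianReal 0 1 := by
    by_cases hi2 : Integrable (fun g : ℝ => h (y / c2 + Real.sqrt (v / c2) * g)) (gaussianReal 0 1)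
    · have hle : ∀ g : ℝ, Real.exp (-(x * E)) * (1 + (-(x * err κ S β' (y / c2 + Real.sqrt (v / c2) * g)) +
          x * E)) ≤ h (y / c2 + Real.sqrt (v / c2) * g) := by
        intro g
        simp only [hh]
        have h1 := Real.add_one_le_exp (-(x * err κ S β' (y / c2 + Real.sqrt (v / c2) * g)) + x * E)
        have h2 := mul_le_mul_of_nonneg_left h1 (Real.exp_pos (-(x * E))).le
        rw [← Real.exp_add] at h2
        have h3 : -(x * E) + (-(x * err κ S β' (y / c2 + Real.sqrt (v / c2) * g)) + x * E) =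
            -(x * err κ S β' (y / c2 + Real.sqrt (v / c2) * g)) := by ring
        rw [h3] at h2
        linarith
      have hint2 : Integrable (fun g : ℝ => Real.exp (-(x * E)) *
          (1 + (-(x * err κ S β' (y / c2 + Real.sqrt (v / c2) * g)) + x * E))) (gaussianReal 0 1) := by
        refine Integrable.const_mul ?_ _
        exact (integrable_const _).add (((hi1.const_mul x).neg).add (integrable_const _))
      have h4 := integral_mono hint2 hi2 hle
      have h5 : ∫ g : ℝ, Real.exp (-(x * E)) *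
          (1 + (-(x * err κ S β' (y / c2 + Real.sqrt (v / c2) * g)) + x * E)) ∂gaussianReal 0 1 =
          Real.exp (-(x * E)) := by
        rw [integral_const_mul]
        have i1 : Integrable (fun _ : ℝ => (1 : ℝ)) (gaussianReal 0 1) := integrable_const _
        have i2 : Integrable (fun g : ℝ => -(x * err κ S β' (y / c2 + Real.sqrt (v / c2) * g)))
            (gaussianReal 0 1) := (hi1.const_mul x).neg
        have i3 : Integrable (fun _ : ℝ => x * E) (gaussianReal 0 1) := integrable_const _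
        have j1 : Integrable (fun g : ℝ => -(x * err κ S β' (y / c2 + Real.sqrt (v / c2) * g)) + x * E)
            (gaussianReal 0 1) := i2.add i3
        rw [integral_add i1 j1, integral_add i2 i3, integral_neg, integral_const_mul, havg]
        simp
      rw [h5] at h4
      exact h4
    · exfalso
      apply hi2
      -- h is bounded above by exp of a constant only if err ≥ ... ; use hint and tilt: instead
      -- use that the integrand is dominated: exp(-x err) ≤ exp(-x c') * exp(x W) * exp(-a z²/2)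
      refine Integrable.mono' ((hE.int (Real.sqrt (v / c2)) (y / c2)).const_mul
        (Real.exp (-(x * c')))) (by fun_prop) (Eventually.of_forall fun g => ?_)
      have h1 := hpt (y / c2 + Real.sqrt (v / c2) * g)
      have h0 : 0 ≤ h (y / c2 + Real.sqrt (v / c2) * g) := by simp only [hh]; positivity
      rw [Real.norm_eq_abs, abs_of_nonneg h0]
      have ha0 : 0 < a := by rw [ha]; positivity
      have h3 : 1 ≤ Real.exp (a * (y / c2 + Real.sqrt (v / c2) * g) ^ 2 / 2) :=
        Real.one_le_exp (by positivity)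
      have h4 : h (y / c2 + Real.sqrt (v / c2) * g) ≤
          Real.exp (a * (y / c2 + Real.sqrt (v / c2) * g) ^ 2 / 2) *
            h (y / c2 + Real.sqrt (v / c2) * g) := le_mul_of_one_le_left h0 h3
      have h2 := mul_le_mul_of_nonneg_left h1 (Real.exp_pos (-(x * c'))).le
      rw [← mul_assoc, ← Real.exp_add] at h2
      have h5 : -(x * c') + x * c' = 0 := by ring
      rw [h5, Real.exp_zero, one_mul] at h2
      exact h4.trans h2
  have hZ : Real.exp (x * c' + a * y ^ 2 / (2 * c2) - x * E) * (Real.sqrt c2)⁻¹ ≤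
      H (Real.sqrt v) (fun y => Real.exp (x * W y)) y := by
    refine le_trans ?_ hstep
    have h1 : Real.exp (x * c' + a * y ^ 2 / (2 * c2) - x * E) * (Real.sqrt c2)⁻¹ =
        Real.exp (x * c') * (((Real.sqrt c2)⁻¹ * Real.exp (a * y ^ 2 / (2 * c2))) *
          Real.exp (-(x * E))) := by
      rw [sub_eq_add_neg, Real.exp_add, Real.exp_add]; ring
    rw [h1]
    gcongr
  have hpos : 0 < Real.exp (x * c' + a * y ^ 2 / (2 * c2) - x * E) * (Real.sqrt c2)⁻¹ := by
    have := Real.sqrt_pos.2 hc2p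
    positivity
  have hlog := Real.log_le_log hpos hZ
  rw [Real.log_mul (Real.exp_pos _).ne' (inv_ne_zero (Real.sqrt_pos.2 hc2p).ne'), Real.log_exp,
    Real.log_inv, Real.log_sqrt hc2p.le] at hlog
  rw [gaussOp_ne hx.ne']
  have hfin := mul_le_mul_of_nonneg_left hlog (by positivity : (0 : ℝ) ≤ x⁻¹)
  refine le_trans (le_of_eq ?_) hfin
  have hlc : Real.log c2 = -Real.log (β' / β) := by
    rw [hc2, ← Real.log_inv, inv_div]
  rw [hlc]
  have h6 : a * y ^ 2 / (2 * c2) = x * (y ^ 2 / (2 * β)) := by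
    rw [ha, hc2]; field_simp
  rw [h6]
  field_simp
  ring

theorem step_zero {v β' κ S c' K : ℝ} (hv : 0 ≤ v) (hb : 0 < β') {W : ℝ → ℝ}
    (hW : Continuous W) (hK : ∀ z, |W z| ≤ K)
    (hlow : ∀ z, z ^ 2 / (2 * β') + c' - err κ S β' z ≤ W z) (y : ℝ) :
    y ^ 2 / (2 * β') + (c' + v / (2 * β')) - err κ (S + v / (β' * β')) β' y ≤ gaussOp 0 v W y := by
  rw [gaussOp_zero]
  have hEW : EG W := EG.of_bdd hW hK
  have hsq : Real.sqrt v ^ 2 = v := Real.sq_sqrt hv
  have havg := err_avg (κ := κ) (S := S) hb hb hv y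
  have e1 : y * β' / β' = y := by field_simp
  have e2 : v * β' / β' = v := by field_simp
  rw [e1, e2] at havg
  have i1 : Integrable (fun g : ℝ => (y + Real.sqrt v * g) ^ 2 / (2 * β') + c') (gaussianReal 0 1) :=
    (((EG_id.pow 2).int _ _).div_const _).add (integrable_const _)
  have i2 : Integrable (fun g : ℝ => err κ S β' (y + Real.sqrt v * g)) (gaussianReal 0 1) :=
    (err_EG κ S β').int _ _
  have i3 : Integrable (fun g : ℝ => (y + Real.sqrt v * g) ^ 2 / (2 * β') + c' -
      err κ S β' (y + Real.sqrt v * g)) (gaussianReal 0 1) := i1.sub i2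
  have h := integral_mono i3 (hEW.int (Real.sqrt v) y) fun g => hlow (y + Real.sqrt v * g)
  have h2 : ∫ g : ℝ, ((y + Real.sqrt v * g) ^ 2 / (2 * β') + c' -
      err κ S β' (y + Real.sqrt v * g)) ∂gaussianReal 0 1 =
      y ^ 2 / (2 * β') + (c' + v / (2 * β')) - err κ (S + v / (β' * β')) β' y := by
    rw [integral_sub i1 i2, havg, integral_add (((EG_id.pow 2).int _ _).div_const _)
      (integrable_const _), integral_div, avg_sq, hsq]
    simp only [integral_const, probReal_univ, smul_eq_mul]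
    ring
  rw [h2] at h
  exact h

/-! ### The recursion -/

theorem recV_cb {f : ℝ → ℝ} (hf : Continuous f) {K : ℝ} (hK : ∀ z, |f z| ≤ K) (t m : ℕ → ℝ) (k : ℕ)
    (hm : ∀ i, 0 ≤ m i) (j : ℕ) :
    Continuous (recV f t m k j) ∧ ∀ z, |recV f t m k j z| ≤ K := by
  induction j with
  | zero => exact ⟨hf, hK⟩
  | succ j ih => exact gaussOp_cb ih.1 ih.2 (hm _) _

/-- the increment of the constant over the step `(t_i, t_{i+1})`. -/
def ell (t m β : ℕ → ℝ) (i : ℕ) : ℝ :=
  if m i = 0 then (t (i + 1) - t i) / (2 * β (i + 1)) else 1 / (2 * m i) * Real.log (β (i + 1) / β i)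

theorem recV_ge {f : ℝ → ℝ} (hf : Continuous f) {K : ℝ} (hK : ∀ z, |f z| ≤ K) {t m β : ℕ → ℝ}
    {k : ℕ} {κ c0 : ℝ} (hm : ∀ i, 0 ≤ m i) (ht : ∀ i < k, t i ≤ t (i + 1))
    (hβ : ∀ i ≤ k, 0 < β i) (hβs : ∀ i < k, β i = β (i + 1) - m i * (t (i + 1) - t i))
    (hlow : ∀ z, z ^ 2 / (2 * β k) + c0 - err κ 0 (β k) z ≤ f z) {j : ℕ} (hj : j ≤ k) (y : ℝ) :
    y ^ 2 / (2 * β (k - j)) + (c0 + ∑ i ∈ Finset.Ico (k - j) k, ell t m β i) -
      err κ (∑ i ∈ Finset.Ico (k - j) k, (t (i + 1) - t i) / (β i * β (i + 1))) (β (k - j)) y ≤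
      recV f t m k j y := by
  induction j generalizing y with
  | zero =>
    have h := hlow y
    simp only [Nat.sub_zero, Finset.Ico_self, Finset.sum_empty, add_zero]
    exact h
  | succ j ih =>
    have ih' := fun z => ih (by omega) z
    have hcb := recV_cb hf hK t m k hm j
    have hi : k - (j + 1) < k := by omega
    set i := k - (j + 1) with hidef
    have hi1 : k - j = i + 1 := by omega
    have hi2 : k - 1 - j = i := by omega
    rw [hi1] at ih'
    rw [Finset.sum_eq_sum_Ico_succ_bot hi, Finset.sum_eq_sum_Ico_succ_bot hi]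
    have hrec : recV f t m k (j + 1) = gaussOp (m i) (t (i + 1) - t i) (recV f t m k j) := by
      show gaussOp (m (k - 1 - j)) (t (k - j) - t (k - 1 - j)) (recV f t m k j) = _
      rw [hi1, hi2]
    rw [hrec]
    have hv : 0 ≤ t (i + 1) - t i := by have := ht i hi; linarith
    have hb' := hβ (i + 1) (by omega)
    have hb := hβ i (by omega)
    by_cases h0 : m i = 0
    · have hbe : β i = β (i + 1) := by rw [hβs i hi, h0]; ring
      have h := step_zero hv hb' hcb.1 hcb.2 ih' y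
      have hell : ell t m β i = (t (i + 1) - t i) / (2 * β (i + 1)) := by
        unfold ell; rw [if_pos h0]
      rw [h0, hell, hbe]
      refine le_trans (le_of_eq ?_) h
      have e1 : c0 + ((t (i + 1) - t i) / (2 * β (i + 1)) + ∑ k ∈ Finset.Ico (i + 1) k, ell t m β k) =
        c0 + ∑ i ∈ Finset.Ico (i + 1) k, ell t m β i + (t (i + 1) - t i) / (2 * β (i + 1)) := by ring
      have e2 : (t (i + 1) - t i) / (β (i + 1) * β (i + 1)) +
          ∑ k ∈ Finset.Ico (i + 1) k, (t (k + 1) - t k) / (β k * β (k + 1)) =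
          ∑ k ∈ Finset.Ico (i + 1) k, (t (k + 1) - t k) / (β k * β (k + 1)) +
          (t (i + 1) - t i) / (β (i + 1) * β (i + 1)) := by ring
      rw [e1, e2]
    · have hmi : 0 < m i := lt_of_le_of_ne (hm i) (Ne.symm h0)
      have h := step_pos hmi hv hb (hβs i hi) hcb.1 hcb.2 ih' y
      have hell : ell t m β i = 1 / (2 * m i) * Real.log (β (i + 1) / β i) := by
        unfold ell; rw [if_neg h0]
      rw [hell]
      refine le_trans (le_of_eq ?_) h
      have e1 : c0 + (1 / (2 * m i) * Real.log (β (i + 1) / β i) +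
          ∑ k ∈ Finset.Ico (i + 1) k, ell t m β k) =
        c0 + ∑ i ∈ Finset.Ico (i + 1) k, ell t m β i + 1 / (2 * m i) * Real.log (β (i + 1) / β i) := by
        ring
      have e2 : (t (i + 1) - t i) / (β i * β (i + 1)) +
          ∑ k ∈ Finset.Ico (i + 1) k, (t (k + 1) - t k) / (β k * β (k + 1)) =
          ∑ k ∈ Finset.Ico (i + 1) k, (t (k + 1) - t k) / (β k * β (k + 1)) +
          (t (i + 1) - t i) / (β i * β (i + 1)) := by ring
      rw [e1, e2]

/-! ### The statement for the lower bound -/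

/-- positions `0, T_0, ..., T_{J+1}` -/
def tT (T : ℕ → ℝ) (i : ℕ) : ℝ := if i = 0 then 0 else T (i - 1)

/-- the coefficients -/
def bB (J : ℕ) (P T : ℕ → ℝ) (i : ℕ) : ℝ :=
  if i = 0 then bT J P T 0 else if i ≤ J + 1 then bT J P T (i - 1) else 1 - QT J P T + T (J + 1)

/-- the truncation inequality -/
theorem trunc_le {B L : ℝ} (hB : 1 ≤ B) (hL : 0 < L) (z : ℝ) :
    z ^ 2 / (2 * B) + (-(1 / 2 * Real.log B)) - err (B ^ 2 / (16 * L)) 0 B z ≤
      min (z ^ 2 / (2 * B) - 1 / 2 * Real.log B) L := by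
  have hlog : 0 ≤ Real.log B := Real.log_nonneg hB
  have hB0 : 0 < B := by linarith
  have herr : err (B ^ 2 / (16 * L)) 0 B z = (z ^ 2 / (2 * B)) ^ 2 / (4 * L) := by
    unfold err; field_simp; ring
  rw [herr]
  set w := z ^ 2 / (2 * B) with hw
  have h1 : 0 ≤ w ^ 2 / (4 * L) := by positivity
  have h2 : w - L ≤ w ^ 2 / (4 * L) := by
    rw [le_div_iff₀ (by positivity)]
    nlinarith [sq_nonneg (w - 2 * L)]
  apply le_min
  · linarith
  · linarith

/-- **(L3), value.** -/
theorem value_ge {J : ℕ} {P T : ℕ → ℝ} {Tm L ε K : ℝ} (h : PT J P T Tm) (h1 : T J ≤ T (J + 1))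
    (h2 : T (J + 1) ≤ Tm) (hL : 0 < L) {f : ℝ → ℝ} (hf : Continuous f) (hK : ∀ z, |f z| ≤ K)
    (hlow : ∀ z, min (z ^ 2 / (2 * (1 - QT J P T + T (J + 1))) -
      1 / 2 * Real.log (1 - QT J P T + T (J + 1))) L - ε ≤ f z) :
    Theta J P T - 3 * (1 + Tm) ^ 2 * Tm ^ 2 / (16 * L) - ε ≤
      recV f (tT T) (fun j => (j : ℝ) / ((J : ℝ) + 1)) (J + 2) (J + 2) 0 := by
  have hJ : (0 : ℝ) < (J : ℝ) + 1 := by positivity
  have hTm := h.Tm_nonneg
  set B := 1 - QT J P T + T (J + 1) with hB
  have hbJ := bT_J (J := J) (P := P) (T := T)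
  have hB1 : 1 ≤ B := by
    have := h.one_le_bT (le_refl J)
    rw [hbJ] at this
    linarith
  have hB2 : B ≤ 1 + Tm := by
    have := h.QT_nonneg
    rw [hB]; linarith
  set m : ℕ → ℝ := fun j => (j : ℝ) / ((J : ℝ) + 1) with hm
  have hm0 : ∀ i, 0 ≤ m i := fun i => by simp only [hm]; positivity
  have ht : ∀ i < J + 2, tT T i ≤ tT T (i + 1) := by
    intro i hi
    unfold tT
    rcases Nat.eq_zero_or_pos i with rfl | hi0
    · simp [h.T0]
    · rw [if_neg (by omega), if_neg (by omega)]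
      simp only [Nat.add_sub_cancel]
      rcases Nat.lt_or_ge i (J + 1) with h3 | h3
      · exact h.Tmono (i - 1) i (by omega) (by omega)
      · have : i = J + 1 := by omega
        subst this
        simpa using h1
  have hβ1 : ∀ i ≤ J + 2, 1 ≤ bB J P T i := by
    intro i hi
    unfold bB
    split_ifs with h3 h4
    · exact h.one_le_bT (by omega)
    · exact h.one_le_bT (by omega)
    · exact hB1
  have hβ : ∀ i ≤ J + 2, 0 < bB J P T i := fun i hi => by have := hβ1 i hi; linarith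
  have hβs : ∀ i < J + 2, bB J P T i = bB J P T (i + 1) - m i * (tT T (i + 1) - tT T i) := by
    intro i hi
    rcases Nat.eq_zero_or_pos i with rfl | hi0
    · simp [bB, hm]
    · have e1 : tT T (i + 1) = T i := by simp [tT]
      have e2 : tT T i = T (i - 1) := by unfold tT; rw [if_neg (by omega)]
      rw [e1, e2]
      rcases Nat.lt_or_ge i (J + 1) with h3 | h3
      · have e3 : bB J P T i = bT J P T (i - 1) := by
          unfold bB; rw [if_neg (by omega), if_pos (by omega)]
        have e4 : bB J P T (i + 1) = bT J P T i := by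
          unfold bB; rw [if_neg (by omega), if_pos (by omega)]; simp
        rw [e3, e4]
        exact bT_step hi0 (by omega)
      · have : i = J + 1 := by omega
        subst this
        have e3 : bB J P T (J + 1) = bT J P T J := by
          unfold bB; rw [if_neg (by omega), if_pos (by omega)]; simp
        have e4 : bB J P T (J + 1 + 1) = B := by
          unfold bB; rw [if_neg (by omega), if_neg (by omega)]
        rw [e3, e4, hbJ]
        simp only [hm, Nat.add_sub_cancel]
        push_cast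
        rw [div_self hJ.ne', hB]
        ring
  have hlow' : ∀ z, z ^ 2 / (2 * bB J P T (J + 2)) + (-(1 / 2 * Real.log B) - ε) -
      err (B ^ 2 / (16 * L)) 0 (bB J P T (J + 2)) z ≤ f z := by
    intro z
    have e4 : bB J P T (J + 2) = B := by
      unfold bB; rw [if_neg (by omega), if_neg (by omega)]
    rw [e4]
    have h3 := trunc_le hB1 hL z
    have h4 := hlow z
    linarith
  have key := recV_ge (k := J + 2) hf hK hm0 ht hβ hβs hlow' (le_refl (J + 2)) 0
  rw [Nat.sub_self] at key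
  -- the constant
  have hc : -(1 / 2 * Real.log B) + ∑ i ∈ Finset.Ico 0 (J + 2), ell (tT T) m (bB J P T) i =
      Theta J P T := by
    rw [Finset.sum_Ico_succ_top (show 0 ≤ J + 1 by omega),
      Finset.sum_eq_sum_Ico_succ_bot (show 0 < J + 1 by omega)]
    have l0 : ell (tT T) m (bB J P T) 0 = T 0 / (2 * bT J P T 0) := by
      unfold ell
      rw [if_pos (by simp [hm])]
      simp [tT, bB]
    have lJ : ell (tT T) m (bB J P T) (J + 1) = 1 / 2 * (Real.log B - Real.log (bT J P T J)) := by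
      unfold ell
      have hm1 : m (J + 1) = 1 := by
        simp only [hm]; push_cast; exact div_self hJ.ne'
      rw [hm1, if_neg one_ne_zero]
      have e3 : bB J P T (J + 1) = bT J P T J := by
        unfold bB; rw [if_neg (by omega), if_pos (by omega)]; simp
      have e4 : bB J P T (J + 1 + 1) = B := by
        unfold bB; rw [if_neg (by omega), if_neg (by omega)]
      have hb0 : 0 < bT J P T J := by have := h.one_le_bT (le_refl J); linarith
      rw [e3, e4, Real.log_div (by linarith) hb0.ne']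
      ring
    have lm : ∑ i ∈ Finset.Ico (0 + 1) (J + 1), ell (tT T) m (bB J P T) i =
        1 / 2 * ∑ j ∈ Finset.Ico 1 (J + 1), (((J : ℝ) + 1) / j) *
          Real.log (bT J P T j / bT J P T (j - 1)) := by
      rw [Finset.mul_sum]
      apply Finset.sum_congr rfl
      intro j hj
      rw [Finset.mem_Ico] at hj
      have hj0 : (0 : ℝ) < j := by exact_mod_cast (show 0 < j by omega)
      unfold ell
      have hmj : m j ≠ 0 := by simp only [hm]; positivity
      rw [if_neg hmj]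
      have e3 : bB J P T j = bT J P T (j - 1) := by
        unfold bB; rw [if_neg (by omega), if_pos (by omega)]
      have e4 : bB J P T (j + 1) = bT J P T j := by
        unfold bB; rw [if_neg (by omega), if_pos (by omega)]; simp
      rw [e3, e4]
      simp only [hm]
      field_simp
    rw [l0, lJ, lm]
    unfold Theta
    have hb0 : 0 < bT J P T 0 := by have := h.one_le_bT (Nat.zero_le J); linarith
    field_simp
    ring
  -- the error
  have hS : ∑ i ∈ Finset.Ico 0 (J + 2), (tT T (i + 1) - tT T i) / (bB J P T i * bB J P T (i + 1)) ≤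
      Tm := by
    calc ∑ i ∈ Finset.Ico 0 (J + 2), (tT T (i + 1) - tT T i) / (bB J P T i * bB J P T (i + 1))
        ≤ ∑ i ∈ Finset.Ico 0 (J + 2), (tT T (i + 1) - tT T i) := by
          apply Finset.sum_le_sum
          intro i hi
          rw [Finset.mem_Ico] at hi
          have a1 := hβ1 i (by omega)
          have a2 := hβ1 (i + 1) (by omega)
          have a3 := ht i (by omega)
          apply div_le_self (by linarith)
          nlinarith
      _ = tT T (J + 2) - tT T 0 := by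
          rw [← Finset.range_eq_Ico]
          exact Finset.sum_range_sub (tT T) (J + 2)
      _ ≤ Tm := by simp [tT, h2]
  have hS0 : 0 ≤ ∑ i ∈ Finset.Ico 0 (J + 2),
      (tT T (i + 1) - tT T i) / (bB J P T i * bB J P T (i + 1)) := by
    apply Finset.sum_nonneg
    intro i hi
    rw [Finset.mem_Ico] at hi
    have a1 := hβ i (by omega)
    have a2 := hβ (i + 1) (by omega)
    have a3 := ht i (by omega)
    exact div_nonneg (by linarith) (by positivity)
  set S := ∑ i ∈ Finset.Ico 0 (J + 2),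
      (tT T (i + 1) - tT T i) / (bB J P T i * bB J P T (i + 1)) with hSdef
  have herr : err (B ^ 2 / (16 * L)) S (bB J P T 0) 0 ≤ 3 * (1 + Tm) ^ 2 * Tm ^ 2 / (16 * L) := by
    unfold err
    have e1 : B ^ 2 / (16 * L) * ((0 / bB J P T 0) ^ 4 + 6 * S * (0 / bB J P T 0) ^ 2 + 3 * S ^ 2) =
        3 * B ^ 2 * S ^ 2 / (16 * L) := by
      rw [zero_div]; ring
    rw [e1]
    apply div_le_div_of_nonneg_right _ (by positivity)
    have a1 : B ^ 2 ≤ (1 + Tm) ^ 2 := by nlinarith
    have a2 : S ^ 2 ≤ Tm ^ 2 := by nlinarith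
    have a3 : B ^ 2 * S ^ 2 ≤ (1 + Tm) ^ 2 * Tm ^ 2 :=
      mul_le_mul a1 a2 (sq_nonneg _) (sq_nonneg _)
    nlinarith
  have hfin : (0 : ℝ) ^ 2 / (2 * bB J P T 0) = 0 := by simp
  rw [hfin] at key
  linarith

end

end Crest.Agent.R146.L3Val_36
end

-- ▼ part R146/VTrunc_762
section

/-!
Row 146, S0206, lower bound, node VTRUNC (helper762), from helper36's `value_ge`.

* `ThT_eq_recV`  : `ThT J h T` as the recursion `recV` with positions `tT T`;
* `lam_unif`     : `Lam k d y ≥ y²/(2(1-d)) - log(1-d)/2 - ε` for `|y| ≤ Y`, `-D ≤ d ≤ 0`, `k ≥ k0`;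
* `result`       : `S6L_988.VTRUNC`.
-/

set_option autoImplicit false

namespace Crest.Agent.R146.VTrunc_762

open Finset MeasureTheory ProbabilityTheory
open Crest.Agent.R141.Fact (ySk)
open Crest.ProbabilityR.InvariantGlass (gaussOp)
open Crest.Agent.R146.S6Def_988 Crest.Agent.R146.S6L_988 Crest.Agent.R146.CavW_47
open Crest.Agent.R146.L2Alg_36 Crest.Agent.R146.L3Val_36 Crest.Agent.R146.Cav5_47

noncomputable section

/-! ### `ThT` as a recursion from the left -/

theorem recV_eq_rcT (J : ℕ) (h : ℝ → ℝ) (T : ℕ → ℝ) : ∀ n ≤ J + 1,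
    recV h (tT T) (fun j => (j : ℝ) / ((J : ℝ) + 1)) (J + 2) n = rc (ySk J) (vT J T) h n := by
  intro n
  induction n with
  | zero => intro _; rfl
  | succ n ih =>
    intro hn
    have hJn : n ≤ J := by omega
    unfold recV rc
    rw [ih (by omega)]
    have e1 : ((J + 2 - 1 - n : ℕ) : ℝ) / ((J : ℝ) + 1) = ySk J n := by
      unfold ySk
      rw [show J + 2 - 1 - n = J + 1 - n by omega, Nat.cast_sub (by omega)]
      push_cast
      rfl
    have e2 : tT T (J + 2 - n) - tT T (J + 2 - 1 - n) = vT J T n := by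
      unfold tT vT
      rw [if_pos hJn, if_neg (show ¬ (J + 2 - n = 0) by omega),
        if_neg (show ¬ (J + 2 - 1 - n = 0) by omega)]
      congr 2
      omega
    rw [e1, e2]

theorem ThT_eq_recV (J : ℕ) (h : ℝ → ℝ) (T : ℕ → ℝ) :
    ThT J h T = recV h (tT T) (fun j => (j : ℝ) / ((J : ℝ) + 1)) (J + 2) (J + 2) 0 := by
  unfold ThT
  rw [show J + 2 = (J + 1) + 1 from rfl]
  conv_rhs => unfold recV
  rw [recV_eq_rcT J h T (J + 1) le_rfl]
  have e1 : ((J + 1 + 1 - 1 - (J + 1) : ℕ) : ℝ) / ((J : ℝ) + 1) = 0 := by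
    rw [show J + 1 + 1 - 1 - (J + 1) = 0 by omega]
    simp
  have e2 : tT T (J + 1 + 1 - (J + 1)) - tT T (J + 1 + 1 - 1 - (J + 1)) = vT J T (J + 1) := by
    rw [show J + 1 + 1 - (J + 1) = 1 by omega, show J + 1 + 1 - 1 - (J + 1) = 0 by omega]
    unfold tT vT
    rw [if_neg (show ¬ (J + 1 ≤ J) by omega), if_neg one_ne_zero, if_pos rfl]
    simp
  rw [e1, e2]
  unfold gaussOp
  rw [if_pos rfl]
  simp

/-! ### The truncated Gaussian integral -/

/-- the integral inside `Lam` -/
def Ik (k d y : ℝ) : ℝ := ∫ t in (-k)..k, gaussianPDFReal 0 1 t * Real.exp (t * y + d * t ^ 2 / 2)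

theorem cont_int (d y : ℝ) :
    Continuous (fun t : ℝ => gaussianPDFReal 0 1 t * Real.exp (t * y + d * t ^ 2 / 2)) := by
  have : Continuous (gaussianPDFReal 0 1) := by
    unfold gaussianPDFReal
    fun_prop
  fun_prop

theorem Ik_pos {k : ℝ} (hk : 0 < k) (d y : ℝ) : 0 < Ik k d y := by
  unfold Ik
  apply intervalIntegral.intervalIntegral_pos_of_pos
  · exact (cont_int d y).intervalIntegrable _ _
  · intro t
    exact mul_pos (gaussianPDFReal_pos 0 1 t one_ne_zero) (Real.exp_pos _)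
  · linarith

theorem Ik_cont (k d : ℝ) : Continuous (Ik k d) := by
  unfold Ik
  apply intervalIntegral.continuous_parametric_intervalIntegral_of_continuous'
  have : Continuous (gaussianPDFReal 0 1) := by
    unfold gaussianPDFReal
    fun_prop
  fun_prop

theorem pdf_neg (t : ℝ) : gaussianPDFReal 0 1 (-t) = gaussianPDFReal 0 1 t := by
  unfold gaussianPDFReal
  simp

/-- symmetric form -/
theorem Ik_cosh (k d y : ℝ) : Ik k d y =
    ∫ t in (-k)..k, gaussianPDFReal 0 1 t * Real.exp (d * t ^ 2 / 2) * Real.cosh (t * y) := by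
  have h1 : Ik k d y =
      ∫ t in (-k)..k, gaussianPDFReal 0 1 t * Real.exp (-(t * y) + d * t ^ 2 / 2) := by
    unfold Ik
    have h := intervalIntegral.integral_comp_neg (a := -k) (b := k)
      (fun t : ℝ => gaussianPDFReal 0 1 t * Real.exp (t * y + d * t ^ 2 / 2))
    rw [neg_neg] at h
    rw [← h]
    apply intervalIntegral.integral_congr
    intro t _
    simp only [pdf_neg]
    congr 2
    ring
  have hc1 := (cont_int d y).intervalIntegrable (μ := volume) (-k) k
  have hc2 : IntervalIntegrable (fun t : ℝ => gaussianPDFReal 0 1 t *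
      Real.exp (-(t * y) + d * t ^ 2 / 2)) volume (-k) k := by
    have := (cont_int d (-y)).intervalIntegrable (μ := volume) (-k) k
    refine this.congr ?_
    intro t _
    simp only
    congr 2
    ring
  have h2 : Ik k d y + Ik k d y = 2 *
      ∫ t in (-k)..k, gaussianPDFReal 0 1 t * Real.exp (d * t ^ 2 / 2) * Real.cosh (t * y) := by
    nth_rewrite 2 [h1]
    unfold Ik
    rw [← intervalIntegral.integral_add hc1 hc2, ← intervalIntegral.integral_const_mul]
    apply intervalIntegral.integral_congr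
    intro t _
    simp only
    rw [Real.exp_add, Real.exp_add, Real.cosh_eq]
    ring
  linarith

/-- monotonicity in `|y|` -/
theorem Ik_mono {k : ℝ} (hk : 0 < k) (d : ℝ) {y z : ℝ} (h : |y| ≤ |z|) : Ik k d y ≤ Ik k d z := by
  rw [Ik_cosh, Ik_cosh]
  have hpdf : Continuous (gaussianPDFReal 0 1) := by
    unfold gaussianPDFReal
    fun_prop
  apply intervalIntegral.integral_mono_on (by linarith)
  · apply Continuous.intervalIntegrable
    fun_prop
  · apply Continuous.intervalIntegrable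
    fun_prop
  · intro t _
    apply mul_le_mul_of_nonneg_left
    · rw [Real.cosh_le_cosh, abs_mul, abs_mul]
      exact mul_le_mul_of_nonneg_left h (abs_nonneg t)
    · exact mul_nonneg (gaussianPDFReal_nonneg 0 1 t) (Real.exp_pos _).le

/-- as a Gaussian integral -/
theorem Ik_gauss {k : ℝ} (hk : 0 < k) (d y : ℝ) : Ik k d y =
    ∫ t in Set.Ioc (-k) k, Real.exp (t * y + d * t ^ 2 / 2) ∂(gaussianReal 0 1) := by
  unfold Ik
  rw [intervalIntegral.integral_of_le (by linarith), gaussianReal_of_var_ne_zero 0 one_ne_zero]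
  rw [restrict_withDensity measurableSet_Ioc]
  unfold gaussianPDF
  rw [integral_withDensity_eq_integral_toReal_smul]
  · apply integral_congr_ae
    filter_upwards with t
    simp only [smul_eq_mul]
    rw [ENNReal.toReal_ofReal (gaussianPDFReal_nonneg 0 1 t)]
  · exact (measurable_gaussianPDFReal 0 1).ennreal_ofReal
  · filter_upwards with t
    exact ENNReal.ofReal_lt_top

theorem exp_int (u : ℝ) : Integrable (fun t : ℝ => Real.exp (t * u)) (gaussianReal 0 1) := by
  have := integrable_exp_mul_gaussianReal (μ := 0) (v := 1) u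
  refine this.congr ?_
  filter_upwards with t
  rw [mul_comm]

theorem exp_val (u : ℝ) : ∫ t, Real.exp (t * u) ∂(gaussianReal 0 1) = Real.exp (u ^ 2 / 2) := by
  have h := congrFun (mgf_id_gaussianReal (μ := 0) (v := 1)) u
  unfold mgf at h
  simp only [id, NNReal.coe_one, zero_mul, one_mul, zero_add] at h
  rw [← h]
  congr 1
  funext t
  rw [mul_comm]

theorem full_int {d : ℝ} (hd : d ≤ 0) (y : ℝ) :
    Integrable (fun t : ℝ => Real.exp (t * y + d * t ^ 2 / 2)) (gaussianReal 0 1) := by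
  refine Integrable.mono' (exp_int y) (by fun_prop) (Filter.Eventually.of_forall fun t => ?_)
  rw [Real.norm_eq_abs, abs_of_pos (Real.exp_pos _)]
  apply Real.exp_le_exp.mpr
  nlinarith [sq_nonneg t]

theorem full_val {d : ℝ} (hd : d ≤ 0) (y : ℝ) :
    ∫ t, Real.exp (t * y + d * t ^ 2 / 2) ∂(gaussianReal 0 1) =
      (Real.sqrt (1 - d))⁻¹ * Real.exp (y ^ 2 / (2 * (1 - d))) := by
  have hc : 0 < 1 - d := by linarith
  have h := tilt (a := d) (v := 1) (c2 := 1 - d) zero_le_one hc (by ring) 0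
    (h := fun z => Real.exp (z * y)) (by fun_prop)
  simp only [Real.sqrt_one, zero_add, one_mul, zero_div] at h
  have e0 : d * (0:ℝ) ^ 2 / (2 * (1 - d)) = 0 := by simp
  rw [e0, Real.exp_zero, mul_one] at h
  have e1 : ∫ g : ℝ, Real.exp (Real.sqrt (1 / (1 - d)) * g * y) ∂gaussianReal 0 1 =
      Real.exp (y ^ 2 / (2 * (1 - d))) := by
    have h2 := exp_val (Real.sqrt (1 / (1 - d)) * y)
    have e2 : (Real.sqrt (1 / (1 - d)) * y) ^ 2 / 2 = y ^ 2 / (2 * (1 - d)) := by
      rw [mul_pow, Real.sq_sqrt (by positivity)]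
      field_simp
    rw [e2] at h2
    rw [← h2]
    congr 1
    funext t
    congr 1
    ring
  rw [e1] at h
  rw [← h]
  congr 1
  funext t
  rw [← Real.exp_add]
  congr 1
  ring

/-- tail bound -/
theorem tail_le {k : ℝ} (hk : 0 < k) {d Y y : ℝ} (hd : d ≤ 0) (hy : |y| ≤ Y) :
    (Real.sqrt (1 - d))⁻¹ * Real.exp (y ^ 2 / (2 * (1 - d))) -
      2 * Real.exp (-k) * Real.exp ((Y + 1) ^ 2 / 2) ≤ Ik k d y := by
  rw [← full_val hd, Ik_gauss hk]
  have hi := full_int hd y
  have hsplit := integral_add_compl (s := Set.Ioc (-k) k) measurableSet_Ioc hi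
  have htail : ∫ t in (Set.Ioc (-k) k)ᶜ, Real.exp (t * y + d * t ^ 2 / 2) ∂(gaussianReal 0 1) ≤
      2 * Real.exp (-k) * Real.exp ((Y + 1) ^ 2 / 2) := by
    have i1 := exp_int (y + 1)
    have i2 := exp_int (y - 1)
    have hG : Integrable (fun t : ℝ => Real.exp (-k) * (Real.exp (t * (y + 1)) + Real.exp (t * (y - 1))))
        (gaussianReal 0 1) := (i1.add i2).const_mul _
    calc ∫ t in (Set.Ioc (-k) k)ᶜ, Real.exp (t * y + d * t ^ 2 / 2) ∂(gaussianReal 0 1)
        ≤ ∫ t in (Set.Ioc (-k) k)ᶜ, Real.exp (-k) * (Real.exp (t * (y + 1)) + Real.exp (t * (y - 1)))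
            ∂(gaussianReal 0 1) := by
          apply setIntegral_mono_on hi.integrableOn hG.integrableOn measurableSet_Ioc.compl
          intro t ht
          have h1 : Real.exp (t * y + d * t ^ 2 / 2) ≤ Real.exp (t * y) := by
            apply Real.exp_le_exp.mpr
            nlinarith [sq_nonneg t]
          refine h1.trans ?_
          rw [mul_add, ← Real.exp_add, ← Real.exp_add]
          rcases le_or_gt t (-k) with h | h
          · have : Real.exp (t * y) ≤ Real.exp (-k + t * (y - 1)) :=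
              Real.exp_le_exp.mpr (by linarith)
            have := Real.exp_pos (-k + t * (y + 1))
            linarith
          · have h' : k < t := by
              by_contra hcon
              exact ht ⟨h, not_lt.mp hcon⟩
            have : Real.exp (t * y) ≤ Real.exp (-k + t * (y + 1)) :=
              Real.exp_le_exp.mpr (by linarith)
            have := Real.exp_pos (-k + t * (y - 1))
            linarith
      _ ≤ ∫ t, Real.exp (-k) * (Real.exp (t * (y + 1)) + Real.exp (t * (y - 1)))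
            ∂(gaussianReal 0 1) := by
          apply setIntegral_le_integral hG
          filter_upwards with t
          positivity
      _ = Real.exp (-k) * (Real.exp ((y + 1) ^ 2 / 2) + Real.exp ((y - 1) ^ 2 / 2)) := by
          rw [integral_const_mul, integral_add i1 i2, exp_val, exp_val]
      _ ≤ Real.exp (-k) * (Real.exp ((Y + 1) ^ 2 / 2) + Real.exp ((Y + 1) ^ 2 / 2)) := by
          apply mul_le_mul_of_nonneg_left _ (Real.exp_pos _).le
          have a1 := abs_le.mp hy
          apply add_le_add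
          · apply Real.exp_le_exp.mpr
            nlinarith
          · apply Real.exp_le_exp.mpr
            nlinarith
      _ = _ := by ring
  linarith

/-- **uniform lower bound of `Lam`.** -/
theorem lam_unif (D Y ε : ℝ) (hD : 0 ≤ D) (hY : 0 ≤ Y) (hε : 0 < ε) : ∃ k0 : ℝ, 0 < k0 ∧
    ∀ d : ℝ, -D ≤ d → d ≤ 0 → ∀ y : ℝ, |y| ≤ Y →
    y ^ 2 / (2 * (1 - d)) - 1 / 2 * Real.log (1 - d) - ε ≤ Lam k0 d y := by
  -- choose k
  set m0 : ℝ := (Real.sqrt (1 + D))⁻¹ with hm0
  have hm0p : 0 < m0 := by positivity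
  have he1 : 0 < 1 - Real.exp (-ε) := by
    have : Real.exp (-ε) < 1 := by rw [Real.exp_lt_one_iff]; linarith
    linarith
  set q : ℝ := (1 - Real.exp (-ε)) * m0 / (2 * Real.exp ((Y + 1) ^ 2 / 2)) with hq
  have hqp : 0 < q := by positivity
  refine ⟨max 1 (-Real.log q), by positivity, fun d hd1 hd2 y hy => ?_⟩
  set k := max 1 (-Real.log q) with hk
  have hkp : 0 < k := lt_of_lt_of_le one_pos (le_max_left _ _)
  have hkq : Real.exp (-k) ≤ q := by
    have h1 : -k ≤ Real.log q := by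
      have := le_max_right 1 (-Real.log q)
      linarith
    calc Real.exp (-k) ≤ Real.exp (Real.log q) := Real.exp_le_exp.mpr h1
      _ = q := Real.exp_log hqp
  have hc : 0 < 1 - d := by linarith
  set V := (Real.sqrt (1 - d))⁻¹ * Real.exp (y ^ 2 / (2 * (1 - d))) with hV
  have hVp : 0 < V := by
    have := Real.sqrt_pos.mpr hc
    positivity
  have hVm : m0 ≤ V := by
    have h1 : m0 ≤ (Real.sqrt (1 - d))⁻¹ := by
      rw [hm0]
      apply inv_anti₀ (Real.sqrt_pos.mpr hc)
      exact Real.sqrt_le_sqrt (by linarith)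
    have h2 : 1 ≤ Real.exp (y ^ 2 / (2 * (1 - d))) := Real.one_le_exp (by positivity)
    have h3 : 0 ≤ (Real.sqrt (1 - d))⁻¹ := by positivity
    calc m0 ≤ (Real.sqrt (1 - d))⁻¹ := h1
      _ ≤ V := le_mul_of_one_le_right h3 h2
  have htail := tail_le hkp hd2 hy
  have h4 : 2 * Real.exp (-k) * Real.exp ((Y + 1) ^ 2 / 2) ≤ (1 - Real.exp (-ε)) * V := by
    calc 2 * Real.exp (-k) * Real.exp ((Y + 1) ^ 2 / 2)
        ≤ 2 * q * Real.exp ((Y + 1) ^ 2 / 2) := by gcongr
      _ = (1 - Real.exp (-ε)) * m0 := by rw [hq]; field_simp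
      _ ≤ (1 - Real.exp (-ε)) * V := mul_le_mul_of_nonneg_left hVm he1.le
  have h5 : Real.exp (-ε) * V ≤ Ik k d y := by
    have : V - (1 - Real.exp (-ε)) * V = Real.exp (-ε) * V := by ring
    linarith
  have h6 := Real.log_le_log (by positivity) h5
  rw [Real.log_mul (Real.exp_pos _).ne' hVp.ne', Real.log_exp, hV,
    Real.log_mul (inv_ne_zero (Real.sqrt_pos.mpr hc).ne') (Real.exp_pos _).ne', Real.log_exp,
    Real.log_inv, Real.log_sqrt hc.le] at h6
  show _ ≤ Real.log (Ik k d y)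
  linarith

/-! ### The truncated function -/

theorem Lam_cont {k : ℝ} (hk : 0 < k) (d : ℝ) : Continuous (Lam k d) := by
  have h : Lam k d = fun y => Real.log (Ik k d y) := rfl
  rw [h]
  exact (Ik_cont k d).log fun y => (Ik_pos hk d y).ne'

theorem Lam_mono {k : ℝ} (hk : 0 < k) (d : ℝ) {y z : ℝ} (h : |y| ≤ |z|) : Lam k d y ≤ Lam k d z :=
  Real.log_le_log (Ik_pos hk d y) (Ik_mono hk d h)

theorem LamT_cont {k : ℝ} (hk : 0 < k) (d L : ℝ) : Continuous (LamT k d L) := by
  have h : LamT k d L = fun y => min (Lam k d y) L := rfl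
  rw [h]
  exact (Lam_cont hk d).min continuous_const

theorem LamT_bd {k : ℝ} (hk : 0 < k) (d : ℝ) {L : ℝ} (hL : 0 ≤ L) (y : ℝ) :
    |LamT k d L y| ≤ |Lam k d 0| + L := by
  have h1 : Lam k d 0 ≤ Lam k d y := Lam_mono hk d (by simp)
  have h2 : LamT k d L y ≤ L := min_le_right _ _
  have h3 : min (Lam k d 0) L ≤ LamT k d L y := min_le_min_right L h1
  have h4 : -(|Lam k d 0| + L) ≤ min (Lam k d 0) L := by
    apply le_min
    · have := neg_abs_le (Lam k d 0); linarith
    · have := abs_nonneg (Lam k d 0); linarith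
  rw [abs_le]
  have := abs_nonneg (Lam k d 0)
  constructor <;> linarith

/-- **VTRUNC** -/
theorem result : VTRUNC := by
  intro Tm ε hTm hε
  set L : ℝ := 3 * (1 + Tm) ^ 2 * Tm ^ 2 / (8 * ε) + 1 with hL
  have hL1 : 1 ≤ L := by
    have : 0 ≤ 3 * (1 + Tm) ^ 2 * Tm ^ 2 / (8 * ε) := by positivity
    linarith
  have hLp : 0 < L := by linarith
  set Y : ℝ := Real.sqrt (2 * (1 + Tm) * (L + 1 / 2 * Real.log (1 + Tm))) with hY
  have hlogT : 0 ≤ Real.log (1 + Tm) := Real.log_nonneg (by linarith)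
  have hYsq : Y ^ 2 = 2 * (1 + Tm) * (L + 1 / 2 * Real.log (1 + Tm)) :=
    Real.sq_sqrt (by positivity)
  have hY0 : 0 ≤ Y := Real.sqrt_nonneg _
  obtain ⟨k, hk, hlam⟩ := lam_unif Tm Y (ε / 2) hTm hY0 (by linarith)
  refine ⟨k, L, hk, hLp.le, fun J P T hP hT => ?_⟩
  have hPT : PT J P T Tm := ⟨hP, hT.nonneg, fun i j hij hj => hT.mono i j hij (by omega),
    (hT.mono J (J + 1) (by omega) le_rfl).trans hT.le⟩
  set d := QT J P T - T (J + 1) with hd
  have hbJ := bT_J (J := J) (P := P) (T := T)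
  have hTJ : T J ≤ T (J + 1) := hT.mono J (J + 1) (by omega) le_rfl
  have hd0 : d ≤ 0 := by
    have := hPT.one_le_bT (le_refl J)
    rw [hbJ] at this
    linarith
  have hd1 : -Tm ≤ d := by
    have := hPT.QT_nonneg
    have := hT.le
    linarith
  have hB : 1 - QT J P T + T (J + 1) = 1 - d := by rw [hd]; ring
  have key := value_ge (J := J) (P := P) (T := T) (Tm := Tm) (L := L) (ε := ε / 2)
    (K := |Lam k d 0| + L) hPT hTJ hT.le hLp (f := LamT k d L) (LamT_cont hk d L)
    (LamT_bd hk d hLp.le) ?_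
  · rw [ThT_eq_recV]
    have h1 : 3 * (1 + Tm) ^ 2 * Tm ^ 2 / (16 * L) ≤ ε / 2 := by
      rw [div_le_iff₀ (by positivity)]
      have h2 : 3 * (1 + Tm) ^ 2 * Tm ^ 2 = (L - 1) * (8 * ε) := by
        rw [hL]; field_simp; ring
      rw [h2]
      nlinarith
    linarith
  · intro z
    rw [hB]
    show _ ≤ min (Lam k d z) L
    rcases le_or_gt |z| Y with h | h
    · have h1 := hlam d hd1 hd0 z h
      apply le_min
      · have := min_le_left (z ^ 2 / (2 * (1 - d)) - 1 / 2 * Real.log (1 - d)) L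
        linarith
      · have := min_le_right (z ^ 2 / (2 * (1 - d)) - 1 / 2 * Real.log (1 - d)) L
        linarith
    · have h1 := hlam d hd1 hd0 Y (by rw [abs_of_nonneg hY0])
      have h2 : Lam k d Y ≤ Lam k d z := Lam_mono hk d (by rw [abs_of_nonneg hY0]; exact h.le)
      have h3 : L ≤ Y ^ 2 / (2 * (1 - d)) - 1 / 2 * Real.log (1 - d) := by
        have h4 : Real.log (1 - d) ≤ Real.log (1 + Tm) :=
          Real.log_le_log (by linarith) (by linarith)
        have h5 : L + 1 / 2 * Real.log (1 + Tm) ≤ Y ^ 2 / (2 * (1 - d)) := by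
          rw [le_div_iff₀ (by linarith), hYsq]
          have h6 : 0 ≤ L + 1 / 2 * Real.log (1 + Tm) := by positivity
          nlinarith
        linarith
      have h7 := min_le_right (z ^ 2 / (2 * (1 - d)) - 1 / 2 * Real.log (1 - d)) L
      apply le_min
      · linarith
      · linarith

end

end Crest.Agent.R146.VTrunc_762
end

-- ▼ part R146/L2Ibp_18
section

/-!
Row 146, node (L2IBP) of `S6L_988` (helper18): Gaussian integration by parts in the limit model,
glue of `LimIbp_290` / `LimRel_290` (helper290).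
-/

set_option autoImplicit false

namespace Crest.Agent.R146.L2Ibp_18

open Finset MeasureTheory ProbabilityTheory
open Crest.Agent.R146.S6Def_988 Crest.Agent.R146.S6U_988 Crest.Agent.R146.RowDef_874
open Crest.Agent.R146.CavW_47 Crest.Agent.R146.L2Alg_36 Crest.Agent.R146.S6L_988
open Crest.Agent.R146.LimIbp_290 Crest.Agent.R146.LimRel_290

noncomputable section

/-- a function with `|g x - g y| ≤ K |x - y|` is continuous. -/
theorem cont_of_lip {K : ℝ} {g : ℝ → ℝ} (h : ∀ x y, |g x - g y| ≤ K * |x - y|) :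
    Continuous g := by
  have hK : ∀ x y, dist (g x) (g y) ≤ (Real.toNNReal K) * dist x y := by
    intro x y
    rw [Real.dist_eq, Real.dist_eq]
    refine (h x y).trans ?_
    exact mul_le_mul_of_nonneg_right (Real.le_coe_toNNReal K) (abs_nonneg _)
  exact (LipschitzWith.of_dist_le_mul hK).continuous

theorem toS2 {K : ℝ} {f f1 f2 : ℝ → ℝ} (h : S3 K f f1 f2) : S2 f f1 f2 K :=
  ⟨h.d1, h.d2, cont_of_lip h.l2, h.b0, h.b1, h.b2⟩

variable {J : ℕ} {f f1 f2 : ℝ → ℝ} {P : ℕ → ℝ}

theorem kapX_mono' {C : ℝ} (h : S2 f f1 f2 C) {i j : ℕ} (hij : i ≤ j) (hj : j ≤ J + 1) :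
    kapX J f P i f1 f1 ≤ kapX J f P j f1 f1 := by
  rw [kapX_tau, kapX_tau]
  induction j, hij using Nat.le_induction with
  | base => exact le_rfl
  | succ j _ ih => exact (ih (by omega)).trans (tau_succ h (by omega))

theorem kapX_top (φ ψ : ℝ → ℝ) :
    kapX J f P (J + 1) φ ψ = EX J f P (J + 2) (fun x => φ x * ψ x) := by
  rw [kapX_eq, cX_self, cX_self]

theorem SX_top {C : ℝ} (h : S2 f f1 f2 C) :
    SX J f f1 f2 P = kapX J f P (J + 1) f2 (fun _ => 1) + kapX J f P (J + 1) f1 f1 := by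
  rw [kapX_top, kapX_top]
  have e : (fun x => f2 x * (1 : ℝ)) = f2 := by funext x; ring
  rw [e, ← EX_add h le_rfl h.B2.eg (h.B1.eg.mul h.B1.eg)]
  show EX J f P (J + 2) (fun x => f2 x + f1 x ^ 2) = _
  congr 1
  funext x
  ring

/-- **node (L2IBP)**. -/
theorem l2ibp : L2IBP := by
  intro K f f1 f2 h3 J P hP
  have h := toS2 h3
  refine ⟨⟨kapX_nonneg h (Nat.zero_le J), fun i j hij hj => kapX_mono' h hij hj, ?_⟩, ?_, ?_⟩
  · show kapX J f P (J + 1) f1 f1 ≤ K ^ 2
    rw [kapX_tau]
    exact tau_le h le_rfl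
  · rw [kapX_top f1 (fun x => x)]
    have := kap_star (J := J) (P := P) h hP
    have e : EX J f P (J + 2) (fun x => f1 x * x) = cX J f P (J + 2) (fun x => f1 x * x) 0 0 := rfl
    rw [e, this, SX_top h, one_div]
  · intro b hb
    rw [kapX_id h hP hb, sum_swap_b _ hb, SX_top h, one_div]
    ring

end

end Crest.Agent.R146.L2Ibp_18
end

-- ▼ part R146/S6Col_674

/-!
Row 146, S0206, lower bound, node COL (helper674): the new coordinate gives at least the entropy of
the levels, from `RO`, `REL`, `VTRUNC`, `THC`, `NEWC`, `TAYC` (and `L2IBP`, `L2Alg_36.main`,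
`CavW_47.cav_W_one` from main).

The cavity limit is applied with a COARSE skeleton (`J1 + 1` steps, fixed), the row observables and
the relations with the FINE skeleton (`J + 1 = (J1 + 1) r` steps, `r` large).
-/

set_option autoImplicit false

namespace Crest.Agent.R146.S6Col_674

open Finset MeasureTheory ProbabilityTheory Crest.Agent.R141
open Crest.Agent.R146.S6Def_988 Crest.Agent.R146.S6U_988 Crest.Agent.R146.S6L_988
open Crest.Agent.R146.RowDef_874 Crest.Agent.R146.CavW_47 Crest.Agent.R146.L2Alg_36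

noncomputable section

/-! ### the truncated potential -/

theorem Lam_lip {k : ℝ} (hk : 0 < k) (d y z : ℝ) : |Lam k d y - Lam k d z| ≤ k * |y - z| := by
  have key : ∀ y z : ℝ, Lam k d y ≤ Lam k d z + k * |y - z| := by
    intro y z
    have hy : 0 < ∫ t in (-k)..k, gaussianPDFReal 0 1 t * Real.exp (t * y + d * t ^ 2 / 2) :=
      VTrunc_762.Ik_pos hk d y
    have hz : 0 < ∫ t in (-k)..k, gaussianPDFReal 0 1 t * Real.exp (t * z + d * t ^ 2 / 2) :=
      VTrunc_762.Ik_pos hk d z
    have h1 : (∫ t in (-k)..k, gaussianPDFReal 0 1 t * Real.exp (t * y + d * t ^ 2 / 2)) ≤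
        (∫ t in (-k)..k, gaussianPDFReal 0 1 t * Real.exp (t * z + d * t ^ 2 / 2)) *
          Real.exp (k * |y - z|) := by
      rw [← intervalIntegral.integral_mul_const]
      refine intervalIntegral.integral_mono_on (by linarith)
        ((VTrunc_762.cont_int d y).intervalIntegrable _ _)
        (((VTrunc_762.cont_int d z).mul_const _).intervalIntegrable _ _) fun t ht => ?_
      rw [mul_assoc, ← Real.exp_add]
      refine mul_le_mul_of_nonneg_left (Real.exp_le_exp.2 ?_) (gaussianPDFReal_nonneg _ _ _)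
      have ht' : |t| ≤ k := abs_le.2 ht
      have h2 : t * (y - z) ≤ k * |y - z| :=
        (le_abs_self _).trans (by rw [abs_mul]; exact mul_le_mul_of_nonneg_right ht' (abs_nonneg _))
      linarith
    unfold Lam
    have h3 := Real.log_le_log hy h1
    rwa [Real.log_mul hz.ne' (Real.exp_pos _).ne', Real.log_exp] at h3
  rw [abs_le]
  constructor
  · have := key z y
    rw [abs_sub_comm z y] at this
    linarith
  · have := key y z
    linarith

theorem Lam0_bd {k : ℝ} (hk : 0 < k) {d D : ℝ} (hd : d ≤ 0) (hD : -D ≤ d) :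
    |Lam k d 0| ≤ |Lam k 0 0| + D * k ^ 2 / 2 := by
  have h0 : 0 < ∫ t in (-k)..k, gaussianPDFReal 0 1 t * Real.exp (t * 0 + 0 * t ^ 2 / 2) :=
    VTrunc_762.Ik_pos hk 0 0
  have hd0 : 0 < ∫ t in (-k)..k, gaussianPDFReal 0 1 t * Real.exp (t * 0 + d * t ^ 2 / 2) :=
    VTrunc_762.Ik_pos hk d 0
  have h1 : Lam k d 0 ≤ Lam k 0 0 := by
    unfold Lam
    refine Real.log_le_log hd0 (intervalIntegral.integral_mono_on (by linarith)
        ((VTrunc_762.cont_int d 0).intervalIntegrable _ _)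
        ((VTrunc_762.cont_int 0 0).intervalIntegrable _ _) fun t _ => ?_)
    refine mul_le_mul_of_nonneg_left (Real.exp_le_exp.2 ?_) (gaussianPDFReal_nonneg _ _ _)
    have := mul_nonneg (neg_nonneg.2 hd) (sq_nonneg t)
    linarith
  have h2 : Lam k 0 0 ≤ Lam k d 0 + D * k ^ 2 / 2 := by
    unfold Lam
    have h3 : (∫ t in (-k)..k, gaussianPDFReal 0 1 t * Real.exp (t * 0 + 0 * t ^ 2 / 2)) ≤
        (∫ t in (-k)..k, gaussianPDFReal 0 1 t * Real.exp (t * 0 + d * t ^ 2 / 2)) *
          Real.exp (D * k ^ 2 / 2) := by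
      rw [← intervalIntegral.integral_mul_const]
      refine intervalIntegral.integral_mono_on (by linarith)
        ((VTrunc_762.cont_int 0 0).intervalIntegrable _ _)
        (((VTrunc_762.cont_int d 0).mul_const _).intervalIntegrable _ _) fun t ht => ?_
      rw [mul_assoc, ← Real.exp_add]
      refine mul_le_mul_of_nonneg_left (Real.exp_le_exp.2 ?_) (gaussianPDFReal_nonneg _ _ _)
      have ht2 : t ^ 2 ≤ k ^ 2 := sq_le_sq' ht.1 ht.2
      have h4 : 0 ≤ (d + D) * t ^ 2 := mul_nonneg (by linarith) (sq_nonneg t)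
      have h5 : D * t ^ 2 ≤ D * k ^ 2 := mul_le_mul_of_nonneg_left ht2 (by linarith)
      nlinarith
    have h6 := Real.log_le_log h0 h3
    rwa [Real.log_mul hd0.ne' (Real.exp_pos _).ne', Real.log_exp] at h6
  have h3 : 0 ≤ D * k ^ 2 / 2 := by
    have : 0 ≤ D := by linarith
    positivity
  rw [abs_le]
  constructor
  · have := neg_abs_le (Lam k 0 0)
    linarith
  · have := le_abs_self (Lam k 0 0)
    linarith

theorem LamT_lip {k : ℝ} (hk : 0 < k) (d L y z : ℝ) :
    |LamT k d L y - LamT k d L z| ≤ k * |y - z| := by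
  refine le_trans ?_ (Lam_lip hk d y z)
  unfold LamT
  have h := abs_min_sub_min_le_max (Lam k d y) L (Lam k d z) L
  rw [sub_self, abs_zero, max_eq_left (abs_nonneg _)] at h
  exact h

theorem LamT_bl {k : ℝ} (hk : 0 < k) {d D L : ℝ} (hd : d ≤ 0) (hD : -D ≤ d) (hL : 0 ≤ L) :
    BL (|Lam k 0 0| + D * k ^ 2 / 2 + L) k (LamT k d L) :=
  ⟨fun y => (VTrunc_762.LamT_bd hk d hL y).trans (by linarith [Lam0_bd hk hd hD]),
    LamT_lip hk d L⟩

/-! ### regular functions -/

theorem lip_of_deriv {K : ℝ} {g g1 : ℝ → ℝ} (hd : ∀ x, HasDerivAt g (g1 x) x)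
    (hb : ∀ x, |g1 x| ≤ K) (x y : ℝ) : |g x - g y| ≤ K * |x - y| := by
  have h1 := Convex.norm_image_sub_le_of_norm_hasDerivWithin_le (f := g) (f' := g1) (C := K)
    (s := Set.univ) (x := y) (y := x) (fun z _ => (hd z).hasDerivWithinAt)
    (fun z _ => by rw [Real.norm_eq_abs]; exact hb z) convex_univ (Set.mem_univ _)
    (Set.mem_univ _)
  rwa [Real.norm_eq_abs, Real.norm_eq_abs] at h1

theorem meas_of_lip {K : ℝ} {g : ℝ → ℝ} (h : ∀ x y, |g x - g y| ≤ K * |x - y|) : Measurable g := by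
  have hc : Continuous g := by
    have hK : LipschitzWith (Real.toNNReal K) g := by
      refine LipschitzWith.of_dist_le_mul fun x y => ?_
      rw [Real.dist_eq, Real.dist_eq, Real.coe_toNNReal']
      exact (h x y).trans (mul_le_mul_of_nonneg_right (le_max_left _ _) (abs_nonneg _))
    exact hK.continuous
  exact hc.measurable

theorem eE_abs_le' {Ω : Type} [Fintype Ω] {P : Ω → ℝ} (hP : IsProb P) {f : Ω → ℝ} {c : ℝ}
    (h : ∀ a, |f a| ≤ c) : |eE P f| ≤ c := by
  have h1 : eE P f ≤ c := eE_le_of_le hP fun a => (abs_le.mp (h a)).2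
  have h2 : eE P (fun a => - f a) ≤ c := eE_le_of_le hP fun a => by
    have := (abs_le.mp (h a)).1; linarith
  have h3 : eE P (fun a => - f a) = - eE P f := by unfold eE; simp
  rw [h3] at h2
  exact abs_le.mpr ⟨by linarith, h1⟩

theorem int_lin {α : Type*} [MeasurableSpace α] {μ : Measure α} [IsProbabilityMeasure μ]
    {X : α → ℝ} (hX : Integrable X μ) (a D c : ℝ) :
    ∫ G, (a - D * X G - c) ∂μ = a - D * ∫ G, X G ∂μ - c := by
  have h : (fun G => a - D * X G - c) = fun G => (a - c) - D * X G := by funext G; ring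
  rw [h, integral_sub (integrable_const _) (hX.const_mul D), integral_const, integral_const_mul]
  simp only [probReal_univ, smul_eq_mul, one_mul]
  ring

/-! ### measurability and integrability in the rows -/

section rows

variable {N : ℕ} (C : Cfg N) (nc n : ℕ) {M : ℕ}

instance gam_prob (M N : ℕ) : IsProbabilityMeasure (gam M N) := by unfold gam; infer_instance

theorem meas_hh (a : Fin M) (x : Fin N → ℝ) :
    Measurable fun G : Fin M → Fin N → ℝ => hh G a x := by
  unfold hh
  refine Finset.measurable_sum _ fun i _ => Measurable.mul_const ?_ _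
  exact (measurable_pi_apply i).comp (measurable_pi_apply a)

theorem int_hh (a : Fin M) (x : Fin N → ℝ) :
    Integrable (fun G : Fin M → Fin N → ℝ => hh G a x) (gam M N) := by
  unfold hh
  refine integrable_finsetSum _ fun i _ => Integrable.mul_const ?_ _
  have h := (PLim857.integrable_abs_entry M N a i).1
  have hm : Measurable fun G : Fin M → Fin N → ℝ => G a i :=
    (measurable_pi_apply i).comp (measurable_pi_apply a)
  exact (integrable_norm_iff hm.aestronglyMeasurable).1 h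

theorem meas_RS {φ ψ : ℝ → ℝ} (hφ : Measurable φ) (hψ : Measurable ψ) (u v : Om C nc n) :
    Measurable fun G : Fin M → Fin N → ℝ => RS C nc n φ ψ G u v := by
  unfold RS
  refine Measurable.const_mul (Finset.measurable_sum _ fun a _ => ?_) _
  exact (hφ.comp (meas_hh a _)).mul (hψ.comp (meas_hh a _))

theorem int_RS {φ ψ : ℝ → ℝ} {B : ℝ} (hφ : Measurable φ) (hφB : ∀ x, |φ x| ≤ B)
    (hψ : Measurable ψ) (hψB : ∀ x, |ψ x| ≤ B + B * |x|) (u v : Om C nc n) :
    Integrable (fun G : Fin M → Fin N → ℝ => RS C nc n φ ψ G u v) (gam M N) := by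
  unfold RS
  refine Integrable.const_mul (integrable_finsetSum _ fun a _ => ?_) _
  have hψi : Integrable (fun G : Fin M → Fin N → ℝ => ψ (hh G a (C.x v.1))) (gam M N) := by
    have h1 : Integrable (fun G : Fin M → Fin N → ℝ => B + B * |hh G a (C.x v.1)|) (gam M N) :=
      (integrable_const B).add ((int_hh a (C.x v.1)).abs.const_mul B)
    refine h1.mono (hψ.comp (meas_hh a _)).aestronglyMeasurable
      (Filter.Eventually.of_forall fun G => ?_)
    rw [Real.norm_eq_abs, Real.norm_eq_abs]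
    exact (hψB _).trans (le_abs_self _)
  exact hψi.bdd_mul (hφ.comp (meas_hh a _)).aestronglyMeasurable
    (Filter.Eventually.of_forall fun G => by rw [Real.norm_eq_abs]; exact hφB _)

theorem QQ_le_one {f : ℕ → ℝ → ℝ} (G : Fin M → Fin N → ℝ) (s : Fin nc → ℝ) (ω : Om C nc n) :
    |QQ C nc n f G s ω| ≤ 1 := by
  have h := CavInc_769.QQ_isProb (C := C) (nc := nc) (n := n) f G s
  rw [abs_of_pos (h.pos ω), ← h.sum]
  exact Finset.single_le_sum (f := QQ C nc n f G s) (fun w _ => (h.pos w).le) (Finset.mem_univ ω)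

/-- the tilted mean of an integrable family is integrable. -/
theorem int_eE {f : ℕ → ℝ → ℝ} (hf : ∀ a, Measurable (f a)) (s : Fin nc → ℝ)
    {h : (Fin M → Fin N → ℝ) → Om C nc n → ℝ} (hi : ∀ ω, Integrable (fun G => h G ω) (gam M N)) :
    Integrable (fun G : Fin M → Fin N → ℝ => eE (QQ C nc n f G s) (h G)) (gam M N) := by
  unfold eE
  refine integrable_finsetSum _ fun ω _ => ?_
  exact (hi ω).bdd_mul (CavInc_769.meas_QQ hf s ω).aestronglyMeasurable
    (Filter.Eventually.of_forall fun G => by rw [Real.norm_eq_abs]; exact QQ_le_one C nc n G s ω)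

/-- the tilted pair mean of a bounded measurable family is integrable. -/
theorem int_pE {f : ℕ → ℝ → ℝ} (hf : ∀ a, Measurable (f a)) (s : Fin nc → ℝ)
    (r : Setoid (Om C nc n)) {h : (Fin M → Fin N → ℝ) → Om C nc n → Om C nc n → ℝ} {B : ℝ}
    (hm : ∀ u v, Measurable fun G => h G u v) (hB : ∀ G u v, |h G u v| ≤ B) :
    Integrable (fun G : Fin M → Fin N → ℝ => pE (QQ C nc n f G s) r (h G)) (gam M N) := by
  have hmeas : Measurable fun G : Fin M → Fin N → ℝ => pE (QQ C nc n f G s) r (h G) := by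
    unfold pE
    refine CavInc_769.meas_eE (fun ω => CavInc_769.meas_QQ hf s ω) fun u => ?_
    exact CavInc_769.meas_cE (fun ω => CavInc_769.meas_QQ hf s ω) (fun v => hm u v) r u
  refine Integrable.of_bound hmeas.aestronglyMeasurable B (Filter.Eventually.of_forall fun G => ?_)
  rw [Real.norm_eq_abs]
  have hp := CavInc_769.QQ_isProb (C := C) (nc := nc) (n := n) f G s
  unfold pE
  exact eE_abs_le' hp fun u => abs_cE_le_of_le hp (fun v => hB G u v) u

/-! ### the cavity average -/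

theorem RS_eq_Wv {f1 : ℝ → ℝ} (G : Fin M → Fin N → ℝ) (u v : Om C nc n) :
    ∑ a, Wv C nc n f1 G u a * Wv C nc n f1 G v a = RS C nc n f1 f1 G u v := by
  unfold Wv RS
  rw [Finset.mul_sum]
  refine Finset.sum_congr rfl fun a _ => ?_
  have h : (N : ℝ)⁻¹ = (Real.sqrt N)⁻¹ * (Real.sqrt N)⁻¹ := by
    rw [← mul_inv, Real.mul_self_sqrt (Nat.cast_nonneg N)]
  rw [h, div_eq_mul_inv, div_eq_mul_inv]
  ring

theorem RS_abs_le (hN : 0 < N) {αm K : ℝ} {f1 : ℝ → ℝ} (hM : (M : ℝ) ≤ αm * N)
    (h1 : ∀ x, |f1 x| ≤ K) (G : Fin M → Fin N → ℝ) (u v : Om C nc n) :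
    |RS C nc n f1 f1 G u v| ≤ αm * K ^ 2 := by
  have hN' : (0 : ℝ) < N := by exact_mod_cast hN
  have hK : 0 ≤ K := (abs_nonneg _).trans (h1 0)
  unfold RS
  rw [abs_mul, abs_of_nonneg (by positivity : (0 : ℝ) ≤ (N : ℝ)⁻¹), inv_mul_le_iff₀ hN']
  have h2 : ∀ a ∈ (Finset.univ : Finset (Fin M)),
      |f1 (hh G a (C.x u.1)) * f1 (hh G a (C.x v.1))| ≤ K ^ 2 := fun a _ => by
    rw [abs_mul, sq]
    exact mul_le_mul (h1 _) (h1 _) (abs_nonneg _) hK
  refine (Finset.abs_sum_le_sum_abs _ _).trans ((Finset.sum_le_sum h2).trans ?_)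
  rw [Finset.sum_const, Finset.card_univ, Fintype.card_fin, nsmul_eq_mul]
  have := mul_le_mul_of_nonneg_right hM (sq_nonneg K)
  linarith

theorem Wv_sq_le (hN : 0 < N) {αm K : ℝ} {f1 : ℝ → ℝ} (hM : (M : ℝ) ≤ αm * N)
    (h1 : ∀ x, |f1 x| ≤ K) (G : Fin M → Fin N → ℝ) (u : Om C nc n) :
    ∑ a, Wv C nc n f1 G u a ^ 2 ≤ αm * K ^ 2 := by
  have h := RS_eq_Wv C nc n (f1 := f1) G u u
  have h2 : ∑ a, Wv C nc n f1 G u a ^ 2 = ∑ a, Wv C nc n f1 G u a * Wv C nc n f1 G u a :=
    Finset.sum_congr rfl fun a _ => sq _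
  rw [h2, h]
  exact (le_abs_self _).trans (RS_abs_le C nc n hN hM h1 G u u)

/-- the cavity average at fixed rows -/
def XA (f : ℕ → ℝ → ℝ) (f1 h : ℝ → ℝ) (s : Fin nc → ℝ) (G : Fin M → Fin N → ℝ) : ℝ :=
  ∫ g0, eE (QQ C nc n (M := M) f G s)
      (Crest.Agent.R141.A (QQ C nc n (M := M) f G s) (fil C nc n) (xs nc n)
        (fun ω => h (∑ a, Wv C nc n f1 G ω a * g0 a)) 0) ∂(gv M)

instance gv_prob (M : ℕ) : IsProbabilityMeasure (gv M) := by unfold gv; infer_instance

theorem int_XA {f : ℕ → ℝ → ℝ} (hf : ∀ a, Measurable (f a)) {f1 h : ℝ → ℝ} {c : ℝ}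
    (hf1 : Measurable f1) (hh' : Measurable h) (hc : ∀ x, |h x| ≤ c) (s : Fin nc → ℝ) :
    Integrable (fun G : Fin M → Fin N → ℝ => XA C nc n f f1 h s G) (gam M N) := by
  have hm : Measurable fun p : (Fin M → Fin N → ℝ) × (Fin M → ℝ) =>
      eE (QQ C nc n (M := M) f p.1 s)
      (Crest.Agent.R141.A (QQ C nc n (M := M) f p.1 s) (fil C nc n) (xs nc n)
        (fun ω => h (∑ a, Wv C nc n f1 p.1 ω a * p.2 a)) 0) := by
    have hQm : ∀ ω, Measurable fun p : (Fin M → Fin N → ℝ) × (Fin M → ℝ) =>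
        QQ C nc n (M := M) f p.1 s ω := fun ω => (CavInc_769.meas_QQ hf s ω).comp measurable_fst
    have hU : ∀ ω : Om C nc n, Measurable fun p : (Fin M → Fin N → ℝ) × (Fin M → ℝ) =>
        h (∑ a, Wv C nc n f1 p.1 ω a * p.2 a) := by
      intro ω
      refine hh'.comp (Finset.measurable_sum _ fun a _ => Measurable.mul ?_ ?_)
      · unfold Wv
        exact (hf1.comp ((meas_hh a _).comp measurable_fst)).div_const _
      · exact (measurable_pi_apply a).comp measurable_snd
    have hp : ∀ p : (Fin M → Fin N → ℝ) × (Fin M → ℝ), IsProb (QQ C nc n (M := M) f p.1 s) :=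
      fun p => CavInc_769.QQ_isProb f p.1 s
    have hA := CavInc_769.meas_A (𝓕 := fil C nc n) hp (CavInc_769.xs_pos (nc := nc) (n := n))
      hQm hU 0
    exact CavInc_769.meas_eE hQm hA
  have hb : ∀ (G : Fin M → Fin N → ℝ) (g0 : Fin M → ℝ), |eE (QQ C nc n (M := M) f G s)
      (Crest.Agent.R141.A (QQ C nc n (M := M) f G s) (fil C nc n) (xs nc n)
        (fun ω => h (∑ a, Wv C nc n f1 G ω a * g0 a)) 0)| ≤ c := fun G g0 =>
    eE_abs_le' (CavInc_769.QQ_isProb f G s) fun ω =>
      A_abs_le (CavInc_769.QQ_isProb f G s) (CavInc_769.xs_pos (nc := nc) (n := n))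
        (fun ω => hc _) 0 ω
  refine Integrable.of_bound (C := c) ?_ (Filter.Eventually.of_forall fun G => ?_)
  · exact (hm.stronglyMeasurable.integral_prod_right' (ν := gv M)).aestronglyMeasurable
  · unfold XA
    have h1 := norm_integral_le_of_norm_le_const (μ := gv M) (C := c)
      (Filter.Eventually.of_forall fun g0 => by
        rw [Real.norm_eq_abs]; exact hb G g0)
    simpa using h1

end rows

/-- **the coarse cavity average** along a fine skeleton. -/
theorem cav_avg (J1 : ℕ) {Tm c k ε : ℝ} (hTm : 0 ≤ Tm) (hc : 0 ≤ c) (hk : 0 ≤ k) (hε : 0 < ε) :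
    ∃ D : ℝ, 0 ≤ D ∧ ∀ (N : ℕ), 0 < N → ∀ (C : Cfg N) (nc n : ℕ), 0 < n → ∀ (M : ℕ)
      (f : ℕ → ℝ → ℝ), (∀ a, Measurable (f a)) → ∀ (f1 h : ℝ → ℝ) (αm K : ℝ), (M : ℝ) ≤ αm * N →
      Measurable f1 → (∀ x, |f1 x| ≤ K) → αm * K ^ 2 ≤ Tm → BL c k h → ∀ (s : Fin nc → ℝ)
      (r wc J : ℕ), 0 < r → 2 ≤ wc → nc + 1 = (J + 1) * wc → J + 1 = (J1 + 1) * r →
      ∀ τ : ℕ → ℕ, (∀ b ≤ J, st n (b * wc) ≤ τ b ∧ τ b < st n (b * wc + wc - 1)) →
      ∀ T : ℕ → ℝ, LevT J Tm T → ∀ e : ℝ,
      (∀ b ≤ J, ∫ G, pE (QQ C nc n (M := M) f G s) ((fil C nc n).F (τ b))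
        (fun u v => |RS C nc n f1 f1 G u v - T b|) ∂(gam M N) ≤ e) →
      (∫ G, eE (QQ C nc n (M := M) f G s) (fun u => |RS C nc n f1 f1 G u u - T (J + 1)|)
        ∂(gam M N) ≤ e) →
      ThT J1 h (fun b => if b ≤ J1 then T (b * r) else T (J + 1)) - ε -
        D * (((J1 : ℝ) + 2) * e) - 15 * c ^ 2 * Real.exp (4 * c) * (1 / ((J1 : ℝ) + 1)) ≤
        ∫ G, XA C nc n (M := M) f f1 h s G ∂(gam M N) := by
  obtain ⟨D, hD, hmain⟩ := cav_W_one J1 hTm hc (fun _ => k) (fun _ _ => hk) hε
  refine ⟨D, hD, ?_⟩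
  intro N hN C nc n hn M f hf f1 h αm K hM hf1 hf1K hTm' hh s r wc J hr hwc hnc hJ τ hτ T hT e
    hpair hleaf
  have hhm : Measurable h := meas_of_lip hh.lip
  set T' : ℕ → ℝ := fun b => if b ≤ J1 then T (b * r) else T (J + 1) with hT'
  have hbr : ∀ b ≤ J1, b * r ≤ J := by
    intro b hb
    have h1 : (b + 1) * r ≤ (J1 + 1) * r := Nat.mul_le_mul_right r (by omega)
    rw [add_mul, one_mul] at h1
    omega
  have hT'0 : ∀ b ≤ J1, T' b = T (b * r) := fun b hb => if_pos hb
  have hT'1 : T' (J1 + 1) = T (J + 1) := if_neg (by omega)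
  have hLT : LevT J1 Tm T' := by
    refine ⟨?_, ?_, ?_⟩
    · rw [hT'0 0 (Nat.zero_le _), Nat.zero_mul]
      exact hT.nonneg
    · intro i j hij hj
      rcases Nat.lt_or_ge J1 j with h1 | h1
      · obtain rfl : j = J1 + 1 := by omega
        rw [hT'1]
        rcases Nat.lt_or_ge J1 i with h2 | h2
        · obtain rfl : i = J1 + 1 := by omega
          rw [hT'1]
        · rw [hT'0 i h2]
          exact hT.mono _ _ ((hbr i h2).trans (Nat.le_succ J)) le_rfl
      · rw [hT'0 i (hij.trans h1), hT'0 j h1]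
        exact hT.mono _ _ (Nat.mul_le_mul_right r hij) ((hbr j h1).trans (Nat.le_succ J))
    · rw [hT'1]; exact hT.le
  have hrwc : wc ≤ r * wc := Nat.le_mul_of_pos_left wc hr
  have hlev := Cav5_47.levels_xs nc n (J := J1) (wc := r * wc) hn (hwc.trans hrwc)
    (by rw [hnc, hJ, mul_assoc]) (τ := fun b => τ (b * r)) (fun b hb => by
      have h1 := hτ (b * r) (hbr b hb)
      rw [← mul_assoc]
      refine ⟨h1.1, h1.2.trans_le (CavAsm_769.st_mono ?_)⟩
      omega)
  -- the deviation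
  set DV : (Fin M → Fin N → ℝ) → ℝ := fun G =>
    DevW (QQ C nc n (M := M) f G s) (fil C nc n) J1 (fun j => τ (min j J1 * r))
      (Wv C nc n f1 G) T' with hDV
  have hDVeq : ∀ G, DV G = eE (QQ C nc n (M := M) f G s)
      (fun u => |RS C nc n f1 f1 G u u - T (J + 1)|) +
      ∑ b ∈ range (J1 + 1), pE (QQ C nc n (M := M) f G s) ((fil C nc n).F (τ (b * r)))
        (fun u v => |RS C nc n f1 f1 G u v - T (b * r)|) := by
    intro G
    rw [hDV]
    unfold DevW
    beta_reduce
    congr 1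
    · congr 1
      funext u
      rw [hT'1, ← RS_eq_Wv]
      congr 2
      exact Finset.sum_congr rfl fun a _ => sq _
    · refine Finset.sum_congr rfl fun b hb => ?_
      rw [Finset.mem_range] at hb
      rw [min_eq_left (show b ≤ J1 by omega), hT'0 b (by omega)]
      simp_rw [RS_eq_Wv]
  have hBd : ∀ (T0 : ℝ), |T0| ≤ Tm → ∀ (G : Fin M → Fin N → ℝ) (u v : Om C nc n),
      |(|RS C nc n f1 f1 G u v - T0|)| ≤ 2 * Tm := by
    intro T0 hT0 G u v
    rw [abs_abs]
    refine (abs_sub _ _).trans ?_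
    have := RS_abs_le C nc n hN hM hf1K G u v
    linarith
  have hTb : ∀ b ≤ J + 1, |T b| ≤ Tm := by
    intro b hb
    rw [abs_of_nonneg (hT.nonneg' hb)]
    exact (hT.mono b (J + 1) hb le_rfl).trans hT.le
  have hmeasA : ∀ (T0 : ℝ) (u v : Om C nc n), Measurable fun G : Fin M → Fin N → ℝ =>
      |RS C nc n f1 f1 G u v - T0| := fun T0 u v =>
    ((meas_RS C nc n hf1 hf1 u v).sub_const T0).abs
  have hi1 : Integrable (fun G : Fin M → Fin N → ℝ => eE (QQ C nc n (M := M) f G s)
      (fun u => |RS C nc n f1 f1 G u u - T (J + 1)|)) (gam M N) := by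
    refine int_eE C nc n hf s fun u => ?_
    exact Integrable.of_bound (hmeasA _ u u).aestronglyMeasurable (2 * Tm)
      (Filter.Eventually.of_forall fun G => by
        rw [Real.norm_eq_abs]; exact hBd _ (hTb _ le_rfl) G u u)
  have hi2 : ∀ b ∈ range (J1 + 1), Integrable (fun G : Fin M → Fin N → ℝ =>
      pE (QQ C nc n (M := M) f G s) ((fil C nc n).F (τ (b * r)))
        (fun u v => |RS C nc n f1 f1 G u v - T (b * r)|)) (gam M N) := by
    intro b hb
    rw [Finset.mem_range] at hb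
    exact int_pE C nc n hf s _ (hmeasA _) (hBd _ (hTb _ ((hbr b (by omega)).trans (Nat.le_succ J))))
  have hDVi : Integrable DV (gam M N) := by
    have h1 := hi1.add (integrable_finsetSum _ hi2)
    refine h1.congr (Filter.Eventually.of_forall fun G => ?_)
    rw [hDVeq G]
    rfl
  have hDVle : ∫ G, DV G ∂(gam M N) ≤ ((J1 : ℝ) + 2) * e := by
    have h1 : ∫ G, DV G ∂(gam M N) = ∫ G, eE (QQ C nc n (M := M) f G s)
        (fun u => |RS C nc n f1 f1 G u u - T (J + 1)|) ∂(gam M N) +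
        ∑ b ∈ range (J1 + 1), ∫ G, pE (QQ C nc n (M := M) f G s) ((fil C nc n).F (τ (b * r)))
        (fun u v => |RS C nc n f1 f1 G u v - T (b * r)|) ∂(gam M N) := by
      rw [← integral_finsetSum _ hi2, ← integral_add hi1 (integrable_finsetSum _ hi2)]
      exact integral_congr_ae (Filter.Eventually.of_forall hDVeq)
    rw [h1]
    have h2 : ∑ b ∈ range (J1 + 1), ∫ G, pE (QQ C nc n (M := M) f G s)
        ((fil C nc n).F (τ (b * r))) (fun u v => |RS C nc n f1 f1 G u v - T (b * r)|) ∂(gam M N) ≤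
        ∑ _b ∈ range (J1 + 1), e := Finset.sum_le_sum fun b hb => by
      rw [Finset.mem_range] at hb
      exact hpair _ (hbr b (by omega))
    rw [Finset.sum_const, Finset.card_range, nsmul_eq_mul] at h2
    push_cast at h2
    linarith
  have hXi := int_XA C nc n hf hf1 hhm hh.bd s (M := M)
  have hpt : ∀ G : Fin M → Fin N → ℝ, ThT J1 h T' - ε - D * DV G -
      15 * c ^ 2 * Real.exp (4 * c) * (1 / ((J1 : ℝ) + 1)) ≤ XA C nc n (M := M) f f1 h s G := by
    intro G
    have h1 := hmain (κ := Fin M) (QQ C nc n (M := M) f G s) (fil C nc n) (xs nc n)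
      (fun j => τ (min j J1 * r)) (1 / ((J1 : ℝ) + 1)) (Wv C nc n f1 G) T' h
      (CavInc_769.QQ_isProb f G s) (CavInc_769.fil_zero C nc n) hlev
      (fun ω => (Wv_sq_le C nc n hN hM hf1K G ω).trans hTm') hLT hh.bd (fun _ _ a b _ _ => hh.lip a b)
    have h2 := (abs_le.1 h1).1
    have h3 : XA C nc n (M := M) f f1 h s G = ∫ g, eE (QQ C nc n (M := M) f G s)
        (Crest.Agent.R141.A (QQ C nc n (M := M) f G s) (fil C nc n) (xs nc n)
          (fun ω => h (∑ i, Wv C nc n f1 G ω i * g i)) 0) ∂(Crest.Agent.R164.CavG.gm (Fin M)) := rfl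
    rw [h3]
    have h4 : DV G = DevW (QQ C nc n (M := M) f G s) (fil C nc n) J1
      (fun j => τ (min j J1 * r)) (Wv C nc n f1 G) T' := rfl
    rw [h4]
    linarith
  have h5 : Integrable (fun G => ThT J1 h T' - ε - D * DV G -
      15 * c ^ 2 * Real.exp (4 * c) * (1 / ((J1 : ℝ) + 1))) (gam M N) :=
    ((integrable_const _).sub (hDVi.const_mul D)).sub (integrable_const _)
  have h6 := integral_mono h5 hXi hpt
  have h7 : ∫ G, (ThT J1 h T' - ε - D * DV G -
      15 * c ^ 2 * Real.exp (4 * c) * (1 / ((J1 : ℝ) + 1))) ∂(gam M N) =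
      ThT J1 h T' - ε - D * ∫ G, DV G ∂(gam M N) -
        15 * c ^ 2 * Real.exp (4 * c) * (1 / ((J1 : ℝ) + 1)) := int_lin hDVi _ _ _
  rw [h7] at h6
  have h8 := mul_le_mul_of_nonneg_left hDVle hD
  linarith

/-- error of the Taylor step. -/
theorem tay_err {N : ℕ} (C : Cfg N) (nc n M : ℕ) {f f1 f2 : ℝ → ℝ} {K : ℝ}
    (hS : S3 K f f1 f2) (s : Fin nc → ℝ) {a b d e : ℝ} (hd : d = a - b)
    (h1 : ∫ G, eE (QQ C nc n (M := M) (fun _ => f) G s)
      (fun u => |RS C nc n f2 (fun _ => 1) G u u - a|) ∂(gam M N) ≤ e)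
    (h2 : ∫ G, eE (QQ C nc n (M := M) (fun _ => f) G s)
      (fun u => |RS C nc n f1 (fun x => x) G u u - b|) ∂(gam M N) ≤ e) :
    ∫ G, eE (QQ C nc n (M := M) (fun _ => f) G s)
      (fun u => |RS C nc n f2 (fun _ => 1) G u u - RS C nc n f1 (fun x => x) G u u - d|)
        ∂(gam M N) ≤ 2 * e := by
  have hK : 0 ≤ K := (abs_nonneg _).trans (hS.b0 0)
  have hfm : ∀ a : ℕ, Measurable ((fun _ => f : ℕ → ℝ → ℝ) a) := fun _ =>
    meas_of_lip (lip_of_deriv hS.d1 hS.b1)
  have hf1m : Measurable f1 := meas_of_lip (lip_of_deriv hS.d2 hS.b2)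
  have hf2m : Measurable f2 := meas_of_lip hS.l2
  set B : ℝ := max K 1 with hB
  have hB1 : 1 ≤ B := le_max_right _ _
  have hBK : K ≤ B := le_max_left _ _
  have hA : ∀ u : Om C nc n, Integrable (fun G : Fin M → Fin N → ℝ =>
      |RS C nc n f2 (fun _ => 1) G u u - a|) (gam M N) := fun u =>
    ((int_RS C nc n (B := B) hf2m (fun x => (hS.b2 x).trans hBK) measurable_const (fun x => by
      rw [abs_one]
      have := mul_nonneg (zero_le_one.trans hB1) (abs_nonneg x)
      linarith) u u).sub (integrable_const a)).abs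
  have hA2 : ∀ u : Om C nc n, Integrable (fun G : Fin M → Fin N → ℝ =>
      |RS C nc n f1 (fun x => x) G u u - b|) (gam M N) := fun u =>
    ((int_RS C nc n (B := B) hf1m (fun x => (hS.b1 x).trans hBK) measurable_id (fun x => by
      have := mul_le_mul_of_nonneg_right hB1 (abs_nonneg x)
      show |x| ≤ _
      linarith) u u).sub (integrable_const b)).abs
  have hi1 := int_eE C nc n hfm s hA
  have hi2 := int_eE C nc n hfm s hA2
  refine (integral_mono_of_nonneg (Filter.Eventually.of_forall fun G =>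
    eE_nonneg (CavInc_769.QQ_isProb _ G s) fun _ => abs_nonneg _) (hi1.add hi2)
    (Filter.Eventually.of_forall fun G => ?_)).trans ?_
  · show eE _ _ ≤ eE _ _ + eE _ _
    rw [← eE_add]
    refine eE_mono (CavInc_769.QQ_isProb _ G s) fun u => ?_
    have h3 : RS C nc n f2 (fun _ => 1) G u u - RS C nc n f1 (fun x => x) G u u - d =
        (RS C nc n f2 (fun _ => 1) G u u - a) - (RS C nc n f1 (fun x => x) G u u - b) := by
      rw [hd]; ring
    rw [h3]
    exact abs_sub _ _
  · have h4 : ∫ G, ((fun G => eE (QQ C nc n (M := M) (fun _ => f) G s)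
        (fun u => |RS C nc n f2 (fun _ => 1) G u u - a|)) +
        (fun G => eE (QQ C nc n (M := M) (fun _ => f) G s)
        (fun u => |RS C nc n f1 (fun x => x) G u u - b|))) G ∂(gam M N) =
        ∫ G, eE (QQ C nc n (M := M) (fun _ => f) G s)
      (fun u => |RS C nc n f2 (fun _ => 1) G u u - a|) ∂(gam M N) +
        ∫ G, eE (QQ C nc n (M := M) (fun _ => f) G s)
      (fun u => |RS C nc n f1 (fun x => x) G u u - b|) ∂(gam M N) := integral_add hi1 hi2
    rw [h4]
    linarith

theorem near_mono {N : ℕ} {C : Cfg N} {δ δ' : ℝ} (h : Near C δ) (hδ : δ ≤ δ') : Near C δ' :=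
  fun F hF => (h F hF).trans hδ

theorem skel_mono {N : ℕ} {C : Cfg N} {nc n : ℕ} {f : ℕ → ℝ → ℝ} {M : ℕ} {s : Fin nc → ℝ}
    {J wc : ℕ} {τ : ℕ → ℕ} {ε ε' : ℝ} (h : Skel C nc n f M s J wc τ ε) (hε : ε ≤ ε') :
    Skel C nc n f M s J wc τ ε' :=
  ⟨h.blk, fun b hb => (h.pair b hb).trans hε⟩

set_option maxHeartbeats 1600000 in
/-- **node COL** from the open nodes. -/
theorem col_of (hRO : RO) (hREL : REL) (hVT : VTRUNC) (hTHC : THC) (hNEWC : NEWC) (hTAYC : TAYC) :
    COL := by
  intro αm K ε f f1 f2 J0 hαm hε hS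
  have hK0 : 0 ≤ K := (abs_nonneg _).trans (hS.b0 0)
  have hlipf := lip_of_deriv hS.d1 hS.b1
  have hlipf1 := lip_of_deriv hS.d2 hS.b2
  have hfm : ∀ a : ℕ, Measurable ((fun _ => f : ℕ → ℝ → ℝ) a) := fun _ => meas_of_lip hlipf
  have hf1m : Measurable f1 := meas_of_lip hlipf1
  set Tm : ℝ := αm * K ^ 2 with hTmdef
  have hTm : 0 ≤ Tm := by positivity
  set e8 : ℝ := ε / 8 with he8def
  have he8 : 0 < e8 := by positivity
  obtain ⟨k, L, hk, hL, hvt⟩ := hVT Tm e8 hTm he8
  set c : ℝ := |Lam k 0 0| + Tm * k ^ 2 / 2 + L with hcdef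
  have hc : 0 ≤ c := by positivity
  obtain ⟨CT, hCT, htay⟩ := hTAYC αm K k L Tm hk hL hTm
  -- the coarse skeleton
  obtain ⟨J1, hJ1⟩ := exists_nat_ge ((k ^ 2 * Tm + 15 * c ^ 2 * Real.exp (4 * c)) / e8)
  have hJ1' : k ^ 2 * Tm + 15 * c ^ 2 * Real.exp (4 * c) ≤ e8 * ((J1 : ℝ) + 1) := by
    rw [div_le_iff₀ he8] at hJ1
    nlinarith
  have hq1 : 0 ≤ k ^ 2 * Tm := by positivity
  have hq2 : 0 ≤ 15 * c ^ 2 * Real.exp (4 * c) := by positivity
  have hJ1a : k ^ 2 * Tm / ((J1 : ℝ) + 1) ≤ e8 := by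
    rw [div_le_iff₀ (by positivity)]; linarith
  have hJ1b : 15 * c ^ 2 * Real.exp (4 * c) * (1 / ((J1 : ℝ) + 1)) ≤ e8 := by
    rw [mul_one_div, div_le_iff₀ (by positivity)]; linarith
  obtain ⟨D, hD, hcav⟩ := cav_avg J1 hTm hc hk.le he8
  set eO : ℝ := e8 / (2 * CT + D * ((J1 : ℝ) + 2) + 1) with heOdef
  have heO : 0 < eO := by positivity
  have heO1 : CT * (2 * eO) + D * (((J1 : ℝ) + 2) * eO) ≤ e8 := by
    have h1 : eO * (2 * CT + D * ((J1 : ℝ) + 2) + 1) = e8 := div_mul_cancel₀ _ (by positivity)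
    linarith
  set B : ℝ := max K 1 with hBdef
  have hB1 : 1 ≤ B := le_max_right _ _
  have hBK : K ≤ B := le_max_left _ _
  obtain ⟨Ja, hro⟩ := hRO αm K K B eO heO
  obtain ⟨CR, hCR, hrel⟩ := hREL αm K
  set eR : ℝ := min (1 / 16) (e8 / (2 * (8 + 10 * Tm))) with heRdef
  have heR : 0 < eR := lt_min (by norm_num) (by positivity)
  have heR1 : eR ≤ 1 / 16 := min_le_left _ _
  have heR2 : (8 + 10 * Tm) * (2 * eR) ≤ e8 := by
    have h1 : eR ≤ e8 / (2 * (8 + 10 * Tm)) := min_le_right _ _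
    rw [le_div_iff₀ (by positivity)] at h1
    linarith
  obtain ⟨Jb, hrel⟩ := hrel eR heR
  -- the fine skeleton
  set r : ℕ := max (max J0 Ja) Jb + 1 with hrdef
  have hr : 0 < r := Nat.succ_pos _
  set J : ℕ := (J1 + 1) * r - 1 with hJdef
  have hJpos : 1 ≤ (J1 + 1) * r := Nat.mul_pos (Nat.succ_pos _) hr
  have hJ : J + 1 = (J1 + 1) * r := by omega
  have hrJ : r ≤ J + 1 := by
    rw [hJ]; exact Nat.le_mul_of_pos_left r (Nat.succ_pos _)
  have hJ0 : J0 ≤ J := by
    have : J0 ≤ max (max J0 Ja) Jb := (le_max_left _ _).trans (le_max_left _ _)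
    omega
  have hJa : Ja ≤ J := by
    have : Ja ≤ max (max J0 Ja) Jb := (le_max_right _ _).trans (le_max_left _ _)
    omega
  have hJb : Jb ≤ J := by
    have : Jb ≤ max (max J0 Ja) Jb := le_max_right _ _
    omega
  obtain ⟨ε1a, hε1a, Na, hro⟩ := hro J hJa
  obtain ⟨ε1b, hε1b, Nb, hrel⟩ := hrel J hJb
  refine ⟨J, hJ0, min ε1a ε1b, lt_min hε1a hε1b, ?_⟩
  intro wc nc hwc hnc
  -- the strengths
  have hnc0 : (0 : ℝ) < (nc : ℝ) + 1 := by positivity
  set A0 : ℝ := min (1 / ((nc : ℝ) + 1)) (min (eR / (((nc : ℝ) + 1) * (CR + 1)))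
    (e8 / (((nc : ℝ) + 1) * (CT + 1)))) with hA0def
  have hA0 : 0 < A0 := by
    rw [hA0def]
    refine lt_min (by positivity) (lt_min ?_ ?_) <;> positivity
  have hA1 : ((nc : ℝ) + 1) * A0 ≤ 1 := by
    have h1 : A0 ≤ 1 / ((nc : ℝ) + 1) := min_le_left _ _
    rw [le_div_iff₀ hnc0] at h1
    linarith
  have hA2 : ((nc : ℝ) + 1) * A0 * (CR + 1) ≤ eR := by
    have h1 : A0 ≤ eR / (((nc : ℝ) + 1) * (CR + 1)) := (min_le_right _ _).trans (min_le_left _ _)
    rw [le_div_iff₀ (by positivity)] at h1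
    linarith
  have hA3 : ((nc : ℝ) + 1) * A0 * (CT + 1) ≤ e8 := by
    have h1 : A0 ≤ e8 / (((nc : ℝ) + 1) * (CT + 1)) := (min_le_right _ _).trans (min_le_right _ _)
    rw [le_div_iff₀ (by positivity)] at h1
    linarith
  have hncA : (nc : ℝ) * A0 ≤ 1 := by linarith
  have hncA0 : 0 ≤ (nc : ℝ) * A0 := by positivity
  have hCRA : CR * ((nc : ℝ) * A0) ≤ eR := by
    have h1 : CR * ((nc : ℝ) * A0) ≤ (CR + 1) * (((nc : ℝ) + 1) * A0) :=
      mul_le_mul (by linarith) (by linarith) hncA0 (by linarith)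
    linarith
  have hCTA : CT * ((nc : ℝ) * A0) ≤ e8 := by
    have h1 : CT * ((nc : ℝ) * A0) ≤ (CT + 1) * (((nc : ℝ) + 1) * A0) :=
      mul_le_mul (by linarith) (by linarith) hncA0 (by linarith)
    linarith
  obtain ⟨Nc, hnew⟩ := hNEWC k K K A0 (ε / 16) hk (by positivity)
  obtain ⟨Nd, htay⟩ := htay (ε / 16) (by positivity)
  refine ⟨A0, hA0, max (max Na Nb) (max Nc Nd), ?_⟩
  intro N hNN hN n hn M hM
  have hNa : Na ≤ N := (le_max_left _ _).trans ((le_max_left _ _).trans hNN)
  have hNb : Nb ≤ N := (le_max_right _ _).trans ((le_max_left _ _).trans hNN)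
  have hNc : Nc ≤ N := (le_max_left _ _).trans ((le_max_right _ _).trans hNN)
  have hNd : Nd ≤ N := (le_max_right _ _).trans ((le_max_right _ _).trans hNN)
  obtain ⟨δa, hδa, hrel⟩ := hrel wc nc hwc hnc N hNb hN n hn M hM A0 hncA
  obtain ⟨δb, hδb, hnew⟩ := hnew N hNc hN nc n M hn
  refine ⟨min δa δb, lt_min hδa hδb, ?_⟩
  intro C C1 hC hC1 s hs τ hτ
  have hN' : (0 : ℝ) < N := by exact_mod_cast hN
  set P : ℕ → ℝ := PR C nc n f M s τ with hP
  set α : ℝ := (M : ℝ) / N with hα
  have hα0 : 0 ≤ α := by positivity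
  have hααm : α ≤ αm := by rw [hα, div_le_iff₀ hN']; exact hM
  set T : ℕ → ℝ := TR J f f1 P α with hT
  have hLev : Lev J P := CavAsm_769.lev_Rk hN hfm M s (CavAsm_769.tau_mono (by omega) hτ.blk)
  obtain ⟨hLT0, hibp, -⟩ := L2Ibp_18.l2ibp K f f1 f2 hS J P hLev
  have hTb : ∀ b, T b = α * kapX J f P b f1 f1 := fun b => rfl
  have hLT : LevT J Tm T := by
    refine ⟨?_, ?_, ?_⟩
    · rw [hTb]; exact mul_nonneg hα0 hLT0.nonneg
    · intro i j hij hj
      rw [hTb, hTb]
      exact mul_le_mul_of_nonneg_left (hLT0.mono i j hij hj) hα0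
    · rw [hTb]
      exact mul_le_mul hααm hLT0.le (hLT0.nonneg' le_rfl) hαm.le
  -- the relations
  have hrelb : ∀ b ≤ J, |rel J P T b| ≤ 2 * eR := by
    intro b hb
    have h1 := hrel C (near_mono hC (min_le_left _ _)) f f1 f2 hS s hs τ
      (skel_mono hτ (min_le_right _ _)) b hb
    linarith
  have hPT : PT J P T Tm := ⟨hLev, hLT.nonneg, fun i j hij hj => hLT.mono i j hij (by omega),
    (hLT.mono J (J + 1) (Nat.le_succ J) le_rfl).trans hLT.le⟩
  obtain ⟨hPJ, hTS⟩ := L2Alg_36.main hPT (by linarith) hrelb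
  refine ⟨?_, ?_⟩
  · refine le_trans ?_ hPJ
    rw [div_le_div_iff₀ (by positivity) (by positivity)]
    nlinarith
  -- the row observables
  have hBLf : BL K K f := ⟨hS.b0, hlipf⟩
  have hBLf1 : BL B B f1 := ⟨fun x => (hS.b1 x).trans hBK, fun x y =>
    (hlipf1 x y).trans (mul_le_mul_of_nonneg_right hBK (abs_nonneg _))⟩
  have hBLf2 : BL B B f2 := ⟨fun x => (hS.b2 x).trans hBK, fun x y =>
    (hS.l2 x y).trans (mul_le_mul_of_nonneg_right hBK (abs_nonneg _))⟩
  have hτa : Skel C nc n (fun _ => f) M s J wc τ ε1a := skel_mono hτ (min_le_left _ _)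
  have hro1 := hro wc nc hwc hnc N hNa hN n hn C f f1 f1 hBLf hBLf1 hBLf1.lip (hBLf1.bd 0) M s τ
    hM hτa
  have hro2 := (hro wc nc hwc hnc N hNa hN n hn C f f2 (fun _ => 1) hBLf hBLf2
    (fun x y => by
      rw [sub_self, abs_zero]
      exact mul_nonneg (zero_le_one.trans hB1) (abs_nonneg _))
    (by rw [abs_one]; exact hB1) M s τ hM hτa).2
  have hro3 := (hro wc nc hwc hnc N hNa hN n hn C f f1 (fun x => x) hBLf hBLf1
    (fun x y => by
      have := mul_le_mul_of_nonneg_right hB1 (abs_nonneg (x - y))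
      linarith)
    (by rw [abs_zero]; linarith) M s τ hM hτa).2
  -- the quadratic coefficient
  set d : ℝ := QT J P T - T (J + 1) with hd
  have hd0 : d ≤ 0 := by
    have h1 : QT J P T ≤ T (J + 1) := by
      unfold QT
      have h2 : ∑ l ∈ range (J + 1), P l * T l ≤ ∑ _l ∈ range (J + 1), T (J + 1) := by
        refine Finset.sum_le_sum fun l hl => ?_
        rw [Finset.mem_range] at hl
        have h3 := hLT.nonneg' (show l ≤ J + 1 by omega)
        have h4 := hPT.P_le (show l ≤ J by omega)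
        have h5 := hLT.mono l (J + 1) (by omega) le_rfl
        have h6 := mul_le_mul_of_nonneg_right h4 h3
        linarith
      rw [Finset.sum_const, Finset.card_range, nsmul_eq_mul] at h2
      push_cast at h2
      rw [one_div, inv_mul_le_iff₀ (by positivity)]
      exact h2
    linarith
  have hdD : -Tm ≤ d := by
    have h1 := hPT.QT_nonneg
    have h2 := hLT.le
    linarith
  have hdab : d = α * kapX J f P (J + 1) f2 (fun _ => 1) -
      α * kapX J f P (J + 1) f1 (fun x => x) := by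
    have h1 : QT J P T = α * (1 / ((J : ℝ) + 1) *
        ∑ l ∈ range (J + 1), P l * kapX J f P l f1 f1) := by
      unfold QT
      have h2 : ∑ l ∈ range (J + 1), P l * T l =
          α * ∑ l ∈ range (J + 1), P l * kapX J f P l f1 f1 := by
        rw [Finset.mul_sum]
        refine Finset.sum_congr rfl fun l _ => ?_
        rw [hTb]; ring
      rw [h2]; ring
    rw [hd, h1, hTb, hibp]
    ring
  have herr := tay_err C nc n M hS s hdab hro2 hro3
  -- the chain of inequalities
  have hBLh : BL c k (LamT k d L) := LamT_bl hk hd0 hdD hL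
  have h1 := hnew C C1 (near_mono hC (min_le_right _ _)) (near_mono hC1 (min_le_right _ _)) f hBLf
    s hs
  have h2 := htay N hNd hN nc n hn C f f1 f2 hS M A0 s hM hs hncA d hdD hd0
  have h3 := hcav N hN C nc n hn M (fun _ => f) hfm f1 (LamT k d L) αm K hM hf1m hS.b1 le_rfl hBLh
    s r wc J hr hwc hnc hJ τ hτ.blk T hLT eO hro1.1 hro1.2
  have h3' : ∫ G, XA C nc n (M := M) (fun _ => f) f1 (LamT k d L) s G ∂(gam M N) =
      ∫ G, (∫ g0, eE (QQ C nc n (M := M) (fun _ => f) G s)
      (Crest.Agent.R141.A (QQ C nc n (M := M) (fun _ => f) G s) (fil C nc n) (xs nc n)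
        (fun ω => LamT k d L (∑ a, Wv C nc n f1 G ω a * g0 a)) 0) ∂(gv M)) ∂(gam M N) := rfl
  rw [h3'] at h3
  have h4 := hTHC c k Tm (LamT k d L) hBLh J1 r J T hr hJ hLT
  have h5 := hvt J P T hLev hLT
  have h6 := (abs_le.1 h4).1
  have h7 := (abs_le.1 hTS).1
  have h8 := mul_le_mul_of_nonneg_left herr hCT
  have h9 : ε = e8 + e8 + e8 + e8 + e8 + e8 + e8 + (ε / 16 + ε / 16) := by
    rw [he8def]; ring
  rw [← hd] at h5
  linarith

end

end Crest.Agent.R146.S6Col_674
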