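import Crest.Agent.R146.S6L_988
import Crest.Agent.R146.MonF_422_Mg
import Crest.Agent.R146.S6StrF_649

/-!
Row 146, S0206, lower bound, node INCL (helper53): the increment for good strengths
(one new coordinate and `m ≤ m1` new rows) from `COL`, `CAV`, `SKADD`, `STR`, `LIP`, `SPC`.
-/

set_option autoImplicit false

namespace Crest.Agent.R146.S6Incl_53

open Finset MeasureTheory ProbabilityTheory Crest.Agent.R141
open Crest.Agent.R146.S6Def_988 Crest.Agent.R146.S6U_988 Crest.Agent.R146.S6L_988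

noncomputable section

/-! ### Small facts -/

theorem near_mono {N : ℕ} {C : Cfg N} {δ δ' : ℝ} (h : Near C δ) (hδ : δ ≤ δ') : Near C δ' :=
  fun F hF => (h F hF).trans hδ

theorem skel_mono {N : ℕ} {C : Cfg N} {nc n : ℕ} {f : ℕ → ℝ → ℝ} {M : ℕ} {s : Fin nc → ℝ}
    {J wc : ℕ} {τ : ℕ → ℕ} {ε ε' : ℝ} (h : Skel C nc n f M s J wc τ ε) (hε : ε ≤ ε') :
    Skel C nc n f M s J wc τ ε' :=
  ⟨h.blk, fun b hb => (h.pair b hb).trans hε⟩

theorem S3.K_nonneg {K : ℝ} {f f1 f2 : ℝ → ℝ} (h : S3 K f f1 f2) : 0 ≤ K :=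
  (abs_nonneg _).trans (h.b0 0)

theorem S3.lip {K : ℝ} {f f1 f2 : ℝ → ℝ} (h : S3 K f f1 f2) (x y : ℝ) :
    |f x - f y| ≤ K * |x - y| := by
  have h1 := Convex.norm_image_sub_le_of_norm_hasDerivWithin_le (f := f) (f' := f1) (C := K)
    (s := Set.univ) (x := y) (y := x) (fun z _ => (h.d1 z).hasDerivWithinAt)
    (fun z _ => by rw [Real.norm_eq_abs]; exact h.b1 z) convex_univ (Set.mem_univ _)
    (Set.mem_univ _)
  rwa [Real.norm_eq_abs, Real.norm_eq_abs] at h1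

theorem S3.bl {K : ℝ} {f f1 f2 : ℝ → ℝ} (h : S3 K f f1 f2) : BL K K f := ⟨h.b0, S3.lip h⟩

theorem S3.meas {K : ℝ} {f f1 f2 : ℝ → ℝ} (h : S3 K f f1 f2) : Measurable f :=
  (continuous_iff_continuousAt.2 fun x => (h.d1 x).continuousAt).measurable

/-! ### The skeleton survives `m ≤ k` new rows -/

theorem skadd_iter (hSK : SKADD) (K : ℝ) (k : ℕ) (ε : ℝ) (hε : 0 < ε) :
    ∃ ε1 : ℝ, 0 < ε1 ∧ ε1 ≤ ε ∧ ∀ (J wc nc N n : ℕ), 0 < N → 0 < n → ∀ (C : Cfg N)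
      (f : ℕ → ℝ → ℝ) (M : ℕ), (∀ a, Measurable (f a)) → (∀ a x, |f a x| ≤ K) →
      ∀ (s : Fin nc → ℝ) (τ : ℕ → ℕ), Skel C nc n f M s J wc τ ε1 → ∀ m ≤ k,
      Skel C nc n f (M + m) s J wc τ ε ∧
      ∀ b ≤ J, |Rk C nc n f (M + m) s (τ b) - Rk C nc n f M s (τ b)| ≤ m * ε := by
  induction k generalizing ε with
  | zero =>
    refine ⟨ε, hε, le_refl _, ?_⟩
    intro J wc nc N n _ _ C f M _ _ s τ hs m hm
    obtain rfl : m = 0 := by omega
    exact ⟨hs, fun b _ => by simp⟩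
  | succ k ih =>
    obtain ⟨e1, he1, he1', h1⟩ := ih ε hε
    obtain ⟨e2, he2, he2', h2⟩ := hSK K e1 he1
    refine ⟨e2, he2, he2'.trans he1', ?_⟩
    intro J wc nc N n hN hn C f M hf hK s τ hs m hm
    rcases m with _ | m
    · exact ⟨skel_mono hs (he2'.trans he1'), fun b _ => by simp⟩
    · obtain ⟨ha, hb⟩ := h2 J wc nc N n hN hn C f M hf hK s τ hs
      obtain ⟨hc, hd⟩ := h1 J wc nc N n hN hn C f (M + 1) hf hK s τ ha m (by omega)
      have e : M + (m + 1) = M + 1 + m := by ring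
      rw [e]
      refine ⟨hc, fun b hbJ => ?_⟩
      have h3 := hd b hbJ
      have h4 := (hb b hbJ).trans he1'
      push_cast
      calc |Rk C nc n f (M + 1 + m) s (τ b) - Rk C nc n f M s (τ b)|
          ≤ |Rk C nc n f (M + 1 + m) s (τ b) - Rk C nc n f (M + 1) s (τ b)| +
            |Rk C nc n f (M + 1) s (τ b) - Rk C nc n f M s (τ b)| := abs_sub_le _ _ _
        _ ≤ m * ε + ε := add_le_add h3 h4
        _ = (m + 1) * ε := by ring

/-- a common closeness for finitely many conditions -/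
theorem exists_common {p : ℕ → ℝ → Prop} (hp : ∀ m δ δ', δ' ≤ δ → p m δ → p m δ') (k : ℕ)
    (h : ∀ m ≤ k, ∃ δ : ℝ, 0 < δ ∧ p m δ) : ∃ δ : ℝ, 0 < δ ∧ ∀ m ≤ k, p m δ := by
  induction k with
  | zero =>
    obtain ⟨δ, hδ, h1⟩ := h 0 (le_refl _)
    exact ⟨δ, hδ, fun m hm => by obtain rfl : m = 0 := by omega
                                 exact h1⟩
  | succ k ih =>
    obtain ⟨δ, hδ, h1⟩ := ih fun m hm => h m (by omega)
    obtain ⟨δ2, hδ2, h2⟩ := h (k + 1) (le_refl _)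
    refine ⟨min δ δ2, lt_min hδ hδ2, fun m hm => ?_⟩
    rcases Nat.lt_or_ge m (k + 1) with h3 | h3
    · exact hp m _ _ (min_le_left _ _) (h1 m (by omega))
    · obtain rfl : m = k + 1 := by omega
      exact hp _ _ _ (min_le_right _ _) h2

/-- the normalised and the unnormalised free energies -/
theorem PhE_sub {N : ℕ} (hN : 0 < N) (C : Cfg N) (nc n : ℕ) (f : ℕ → ℝ → ℝ) (M M' : ℕ)
    (s : Fin nc → ℝ) :
    (N : ℝ) * (FN C nc n f M' s - FN C nc n f M s) = PhE C nc n f M' s - PhE C nc n f M s := by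
  have h : (N : ℝ) ≠ 0 := by positivity
  unfold FN PhE
  field_simp
  ring

/-- `m` new rows, sum of the cavity increments. -/
theorem rows_sum {N : ℕ} (C : Cfg N) (nc n : ℕ) (f : ℕ → ℝ → ℝ) (M : ℕ) (s : Fin nc → ℝ) (v : ℝ)
    (m : ℕ) (h : ∀ i < m, v ≤ PhE C nc n f (M + i + 1) s - PhE C nc n f (M + i) s) :
    m * v ≤ PhE C nc n f (M + m) s - PhE C nc n f M s := by
  induction m with
  | zero => simp
  | succ m ih =>
    have h1 := ih fun i hi => h i (by omega)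
    have h2 := h m (by omega)
    have e : M + (m + 1) = M + m + 1 := by ring
    rw [e]
    push_cast
    linarith

/-! ### INCL -/

theorem incl_of (hCOL : COL) (hCAV : CAV) (hSK : SKADD) (hSTR : STR) (hLIP : LIP) (hSPC : SPC) :
    INCL := by
  intro αm K ε f f1 f2 m1 hαm hε hS
  have hK0 : 0 ≤ K := S3.K_nonneg hS
  have hBL : BL K K f := S3.bl hS
  have hfm : ∀ a : ℕ, Measurable ((fun _ => f : ℕ → ℝ → ℝ) a) := fun _ => S3.meas hS
  have hfK : ∀ (a : ℕ) (x : ℝ), |(fun _ => f : ℕ → ℝ → ℝ) a x| ≤ K := fun _ => hBL.bd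
  -- the number of levels
  set c0 : ℝ := 60 * K ^ 2 * Real.exp (4 * K) with hc0
  have hc00 : 0 ≤ c0 := by positivity
  have hm1 : (0 : ℝ) < (m1 : ℝ) + 1 := by positivity
  obtain ⟨J0, hJ0⟩ := exists_nat_ge (((m1 : ℝ) + 1) * c0 / (ε / 6))
  have hε6 : 0 < ε / 6 := by positivity
  obtain ⟨J, hJ0J, ε1, hε1, hcol⟩ := hCOL (αm + 1) K (ε / 6) f f1 f2 J0 (by linarith) hε6 hS
  have hJ1 : ((m1 : ℝ) + 1) * (c0 / ((J : ℝ) + 1)) ≤ ε / 6 := by
    have h1 : ((m1 : ℝ) + 1) * c0 / (ε / 6) ≤ (J : ℝ) + 1 :=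
      hJ0.trans (by have : (J0 : ℝ) ≤ J := by exact_mod_cast hJ0J
                    linarith)
    rw [div_le_iff₀ hε6] at h1
    rw [mul_div_assoc', div_le_iff₀ (by positivity)]
    linarith
  -- constants
  set κ : ℝ := 1 / (2 * (1 + (αm + 1) * K ^ 2)) with hκ
  have hκ0 : 0 < κ := by positivity
  obtain ⟨εA, hεA, hcav⟩ := hCAV J K K (ε / 6 / ((m1 : ℝ) + 1)) (by positivity)
  obtain ⟨εS, hεS, hspc⟩ := hSPC J κ (ε / 6) hκ0 hε6
  set e0 : ℝ := min (min ε1 εA) (min (εS / ((m1 : ℝ) + 1))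
    (ε / 6 / (((m1 : ℝ) + 1) ^ 2 * (K ^ 2 + 1)))) with he0
  have he00 : 0 < e0 := by
    rw [he0]
    refine lt_min (lt_min hε1 hεA) (lt_min ?_ ?_) <;> positivity
  have he1 : e0 ≤ ε1 := (min_le_left _ _).trans (min_le_left _ _)
  have heA : e0 ≤ εA := (min_le_left _ _).trans (min_le_right _ _)
  have heS : ((m1 : ℝ) + 1) * e0 ≤ εS := by
    have h : e0 ≤ εS / ((m1 : ℝ) + 1) := (min_le_right _ _).trans (min_le_left _ _)
    rw [le_div_iff₀ hm1] at h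
    linarith
  have heK : ((m1 : ℝ) + 1) ^ 2 * (K ^ 2 + 1) * e0 ≤ ε / 6 := by
    have h : e0 ≤ ε / 6 / (((m1 : ℝ) + 1) ^ 2 * (K ^ 2 + 1)) :=
      (min_le_right _ _).trans (min_le_right _ _)
    rw [le_div_iff₀ (by positivity)] at h
    linarith
  obtain ⟨ε2, hε2, hε20, hsk⟩ := skadd_iter hSK K (m1 + 1) e0 he00
  obtain ⟨wc0, hstr⟩ := hSTR J ε2 hε2
  set wc : ℕ := max wc0 2 with hwc
  have hwc2 : 2 ≤ wc := le_max_right _ _
  set nc : ℕ := (J + 1) * wc - 1 with hnc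
  have hnc1 : nc + 1 = (J + 1) * wc := by
    have : 1 ≤ (J + 1) * wc := Nat.mul_pos (by omega) (by omega)
    omega
  obtain ⟨A0, hA0, NC, hcol2⟩ := hcol wc nc hwc2 hnc1
  refine ⟨J, nc, (A0 / 2) ^ 2, by positivity, ?_⟩
  intro η hη hηle
  have hsη : 0 < Real.sqrt η := Real.sqrt_pos.2 hη
  have hsη2 : 2 * Real.sqrt η ≤ A0 := by
    have h : Real.sqrt η ≤ A0 / 2 := by
      rw [show A0 / 2 = Real.sqrt ((A0 / 2) ^ 2) from (Real.sqrt_sq (by positivity)).symm]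
      exact Real.sqrt_le_sqrt hηle
    linarith
  obtain ⟨δ', hδ', NS, n0, hstr2⟩ := hstr wc (le_max_left _ _) nc hnc1 (Real.sqrt η)
    (2 * Real.sqrt η) K αm hsη (by linarith)
  refine ⟨δ', hδ', max (max NC NS) m1, n0, ?_⟩
  intro N hNN hN n hnn hn M hM
  have hNC : NC ≤ N := (le_max_left _ _).trans ((le_max_left _ _).trans hNN)
  have hNS : NS ≤ N := (le_max_right _ _).trans ((le_max_left _ _).trans hNN)
  have hNm : m1 ≤ N := (le_max_right _ _).trans hNN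
  have hMm : ∀ m ≤ m1, ((M + m : ℕ) : ℝ) ≤ (αm + 1) * N := by
    intro m hm
    have h1 : (m : ℝ) ≤ N := by exact_mod_cast hm.trans hNm
    push_cast
    linarith
  -- the closeness
  obtain ⟨δ, hδ, hcol3⟩ := exists_common (p := fun m δ => ∀ (C : Cfg N) (C1 : Cfg (N + 1)),
      Near C δ → Near C1 δ → ∀ (s : Fin nc → ℝ), (∀ g, |s g| ≤ A0) → ∀ τ : ℕ → ℕ,
      Skel C nc n (fun _ => f) (M + m) s J wc τ ε1 →
      1 / (2 * (1 + (αm + 1) * K ^ 2)) ≤ 1 - PR C nc n f (M + m) s τ J ∧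
      SP J (PR C nc n f (M + m) s τ) - ε / 6 ≤
        PhE C1 nc n (fun _ => f) (M + m) s - PhE C nc n (fun _ => f) (M + m) s)
    (fun m δ δ' hle h C C1 hC hC1 => h C C1 (near_mono hC hle) (near_mono hC1 hle)) m1
    (fun m hm => hcol2 N hNC hN n hn (M + m) (hMm m hm))
  refine ⟨δ, hδ, ?_⟩
  intro C C1 hC hC1 s hs hD
  have hs0 : ∀ g, |s g| ≤ A0 := fun g => by
    rw [abs_of_nonneg (hsη.le.trans (hs g).1)]
    exact (hs g).2.trans hsη2
  obtain ⟨τ, hτ⟩ := hstr2 N hNS n hnn C (fun _ => f) M hM hfm hfK s hs hD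
  have hskm : ∀ m ≤ m1 + 1, Skel C nc n (fun _ => f) (M + m) s J wc τ e0 ∧
      ∀ b ≤ J, |Rk C nc n (fun _ => f) (M + m) s (τ b) - Rk C nc n (fun _ => f) M s (τ b)| ≤
        m * e0 := hsk J wc nc N n hN hn C (fun _ => f) M hfm hfK s τ hτ
  have hcm : ∀ m ≤ m1, κ ≤ 1 - PR C nc n f (M + m) s τ J ∧
      SP J (PR C nc n f (M + m) s τ) - ε / 6 ≤
        PhE C1 nc n (fun _ => f) (M + m) s - PhE C nc n (fun _ => f) (M + m) s :=
    fun m hm => hcol3 m hm C C1 hC hC1 s hs0 τ (skel_mono (hskm m (by omega)).1 he1)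
  have hlev : ∀ m, Lev J (PR C nc n f m s τ) := fun m =>
    CavAsm_769.lev_Rk hN hfm m s (CavAsm_769.tau_mono (by omega) hτ.blk)
  have hd : ∀ m ≤ m1 + 1, ∀ b ≤ J, |PR C nc n f (M + m) s τ b - PR C nc n f M s τ b| ≤ m * e0 :=
    fun m hm b hb => (hskm m hm).2 b hb
  have hκM : κ ≤ 1 - PR C nc n f M s τ J := (hcm 0 (Nat.zero_le _)).1
  refine ⟨PR C nc n f M s τ, hlev M, by linarith, ?_⟩
  intro m hm
  have hmR : (m : ℝ) ≤ m1 := by exact_mod_cast hm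
  -- the new coordinate
  have hcoord := (hcm m hm).2
  have hSPm : |SP J (PR C nc n f (M + m) s τ) - SP J (PR C nc n f M s τ)| ≤ ε / 6 := by
    refine hspc _ _ (hlev _) (hlev _) (hcm m hm).1 hκM fun j hj => ?_
    refine (hd m (by omega) j hj).trans (le_trans ?_ heS)
    exact mul_le_mul_of_nonneg_right (by linarith) he00.le
  -- the new rows
  set v : ℝ := Th J f (PR C nc n f M s τ) - (c0 / ((J : ℝ) + 1) + ε / 6 / ((m1 : ℝ) + 1) +
    K ^ 2 * (((m1 : ℝ) + 1) * e0)) with hv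
  have hrow : ∀ i < m, v ≤ PhE C nc n (fun _ => f) (M + i + 1) s -
      PhE C nc n (fun _ => f) (M + i) s := by
    intro i hi
    have h1 := hcav wc nc hwc2 hnc1 N n hN hn C (fun _ => f) (M + i) (fun _ => hBL) s τ
      (skel_mono (hskm (i + 1) (by omega)).1 heA)
    rw [PhE_sub hN] at h1
    have h2 : |Th J f (PR C nc n f (M + (i + 1)) s τ) - Th J f (PR C nc n f M s τ)| ≤
        K ^ 2 * (((m1 : ℝ) + 1) * e0) := by
      refine (hLIP J K K f hBL _ _ (hlev _) (hlev _)).trans ?_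
      have h3 : ∑ j ∈ range (J + 1), |PR C nc n f (M + (i + 1)) s τ j - PR C nc n f M s τ j| ≤
          ∑ _j ∈ range (J + 1), ((m1 : ℝ) + 1) * e0 := by
        refine Finset.sum_le_sum fun j hj => ?_
        refine (hd (i + 1) (by omega) j (by have := Finset.mem_range.1 hj; omega)).trans ?_
        refine mul_le_mul_of_nonneg_right ?_ he00.le
        have : ((i + 1 : ℕ) : ℝ) ≤ m1 := by exact_mod_cast (by omega : i + 1 ≤ m1)
        linarith
      rw [Finset.sum_const, Finset.card_range, nsmul_eq_mul] at h3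
      push_cast at h3
      have h4 : K ^ 2 / ((J : ℝ) + 1) * ∑ j ∈ range (J + 1),
          |PR C nc n f (M + (i + 1)) s τ j - PR C nc n f M s τ j| ≤
          K ^ 2 / ((J : ℝ) + 1) * (((J : ℝ) + 1) * (((m1 : ℝ) + 1) * e0)) :=
        mul_le_mul_of_nonneg_left h3 (by positivity)
      refine h4.trans (le_of_eq ?_)
      have : ((J : ℝ) + 1) ≠ 0 := by positivity
      field_simp
    have h5 := abs_le.1 h1
    have h6 := abs_le.1 h2
    have h7 : (fun b => Rk C nc n (fun _ => f) (M + i + 1) s (τ b)) =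
        PR C nc n f (M + (i + 1)) s τ := rfl
    rw [h7] at h5
    rw [hv, hc0]
    linarith [h5.1, h6.1]
  have hrows := rows_sum C nc n (fun _ => f) M s v m hrow
  -- conclusion
  have hm0 : (0 : ℝ) ≤ m := by positivity
  have hX : (m : ℝ) * (c0 / ((J : ℝ) + 1) + ε / 6 / ((m1 : ℝ) + 1) +
      K ^ 2 * (((m1 : ℝ) + 1) * e0)) ≤ ε / 6 + ε / 6 + ε / 6 := by
    have hq : 0 ≤ c0 / ((J : ℝ) + 1) + ε / 6 / ((m1 : ℝ) + 1) +
        K ^ 2 * (((m1 : ℝ) + 1) * e0) := by positivity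
    have h1 : (m : ℝ) * (c0 / ((J : ℝ) + 1) + ε / 6 / ((m1 : ℝ) + 1) +
        K ^ 2 * (((m1 : ℝ) + 1) * e0)) ≤ ((m1 : ℝ) + 1) * (c0 / ((J : ℝ) + 1) +
        ε / 6 / ((m1 : ℝ) + 1) + K ^ 2 * (((m1 : ℝ) + 1) * e0)) :=
      mul_le_mul_of_nonneg_right (by linarith) hq
    have h2 : ((m1 : ℝ) + 1) * (ε / 6 / ((m1 : ℝ) + 1)) = ε / 6 := by
      field_simp
    have h3 : ((m1 : ℝ) + 1) * (K ^ 2 * (((m1 : ℝ) + 1) * e0)) ≤ ε / 6 := by
      refine le_trans ?_ heK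
      have : ((m1 : ℝ) + 1) * (K ^ 2 * (((m1 : ℝ) + 1) * e0)) =
          ((m1 : ℝ) + 1) ^ 2 * K ^ 2 * e0 := by ring
      rw [this]
      refine mul_le_mul_of_nonneg_right ?_ he00.le
      exact mul_le_mul_of_nonneg_left (by linarith) (by positivity)
    calc (m : ℝ) * (c0 / ((J : ℝ) + 1) + ε / 6 / ((m1 : ℝ) + 1) +
        K ^ 2 * (((m1 : ℝ) + 1) * e0)) ≤ _ := h1
      _ = ((m1 : ℝ) + 1) * (c0 / ((J : ℝ) + 1)) + ((m1 : ℝ) + 1) * (ε / 6 / ((m1 : ℝ) + 1)) +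
          ((m1 : ℝ) + 1) * (K ^ 2 * (((m1 : ℝ) + 1) * e0)) := by ring
      _ ≤ ε / 6 + ε / 6 + ε / 6 := by rw [h2]; linarith
  have hvm : (m : ℝ) * v = m * Th J f (PR C nc n f M s τ) - m * (c0 / ((J : ℝ) + 1) +
      ε / 6 / ((m1 : ℝ) + 1) + K ^ 2 * (((m1 : ℝ) + 1) * e0)) := by rw [hv]; ring
  have h8 := abs_le.1 hSPm
  linarith [h8.1]

/-- `INCL` from the nodes of the lower bound that are still open. -/
theorem incl_open (hCOL : COL) (hSK : SKADD) (hSPC : SPC) : INCL :=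
  incl_of hCOL S6Cavity_769.cav hSK S6StrF_649.str MonF_422.lip hSPC

end

end Crest.Agent.R146.S6Incl_53
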