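import Mathlib
import Crest.Agent.R146.S6L_988
import Crest.Agent.R146.FobL_998
import Crest.Agent.R146.CavAsm_769

-- ▼ part R146/L3TayA_663
section

/-!
Row 146, S0206, lower bound, new coordinate (L3), helper663.
Part A: deterministic one-row Taylor bound.
-/

set_option autoImplicit false

namespace Crest.Agent.R146.L3Tay_663

open Finset MeasureTheory ProbabilityTheory

/-- `f` with two derivatives, everything bounded by `K`, `f''` `K`-Lipschitz -/
structure S3 (K : ℝ) (f f1 f2 : ℝ → ℝ) : Prop where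
  d1 : ∀ x, HasDerivAt f (f1 x) x
  d2 : ∀ x, HasDerivAt f1 (f2 x) x
  b0 : ∀ x, |f x| ≤ K
  b1 : ∀ x, |f1 x| ≤ K
  b2 : ∀ x, |f2 x| ≤ K
  l2 : ∀ x y, |f2 x - f2 y| ≤ K * |x - y|

theorem S3.nK {K : ℝ} {f f1 f2 : ℝ → ℝ} (h : S3 K f f1 f2) : 0 ≤ K :=
  (abs_nonneg _).trans (h.b0 0)

theorem mvt_abs {g g' : ℝ → ℝ} (hg : ∀ x, HasDerivAt g (g' x) x) {B u : ℝ}
    (hB : ∀ v, |v| ≤ |u| → |g' v| ≤ B) : |g u - g 0| ≤ B * |u| := by
  have h1 : ∀ x ∈ Set.uIcc 0 u, HasDerivWithinAt g (g' x) (Set.uIcc 0 u) x :=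
    fun x _ => (hg x).hasDerivWithinAt
  have h2 : ∀ x ∈ Set.uIcc 0 u, ‖g' x‖ ≤ B := by
    intro x hx
    rw [Real.norm_eq_abs]
    apply hB
    rcases le_total 0 u with h | h
    · rw [Set.uIcc_of_le h] at hx
      rw [abs_of_nonneg hx.1, abs_of_nonneg h]; exact hx.2
    · rw [Set.uIcc_of_ge h] at hx
      rw [abs_of_nonpos hx.2, abs_of_nonpos h]; linarith [hx.1]
  have h3 := (convex_uIcc (𝕜 := ℝ) 0 u).norm_image_sub_le_of_norm_hasDerivWithin_le h1 h2
    Set.left_mem_uIcc Set.right_mem_uIcc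
  simpa [Real.norm_eq_abs] using h3

theorem taylor3 {K : ℝ} {f f1 f2 : ℝ → ℝ} (h : S3 K f f1 f2) (x u : ℝ) :
    |f (x + u) - f x - u * f1 x - u ^ 2 / 2 * f2 x| ≤ K * |u| ^ 3 := by
  have hK := h.nK
  have e1 : ∀ v, |f1 (x + v) - f1 x - v * f2 x| ≤ K * |v| * |v| := by
    intro v
    have := mvt_abs (g := fun v => f1 (x + v) - f1 x - v * f2 x)
      (g' := fun v => f2 (x + v) - f2 x) (u := v) (B := K * |v|) (fun w => by
        have a1 : HasDerivAt (fun w => f1 (x + w)) (f2 (x + w)) w := by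
          simpa using (h.d2 (x + w)).comp_const_add x w
        have a2 : HasDerivAt (fun w : ℝ => w * f2 x) (f2 x) w := by
          simpa using (hasDerivAt_id w).mul_const (f2 x)
        exact (a1.sub_const (f1 x)).sub a2) (fun w hw => by
        have := h.l2 (x + w) x
        rw [add_sub_cancel_left] at this
        exact this.trans (mul_le_mul_of_nonneg_left hw hK))
    simpa using this
  have := mvt_abs (g := fun v => f (x + v) - f x - v * f1 x - v ^ 2 / 2 * f2 x)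
    (g' := fun v => f1 (x + v) - f1 x - v * f2 x) (u := u) (B := K * |u| * |u|) (fun w => by
      have a1 : HasDerivAt (fun w => f (x + w)) (f1 (x + w)) w := by
        simpa using (h.d1 (x + w)).comp_const_add x w
      have a2 : HasDerivAt (fun w : ℝ => w * f1 x) (f1 x) w := by
        simpa using (hasDerivAt_id w).mul_const (f1 x)
      have a3 : HasDerivAt (fun w : ℝ => w ^ 2 / 2 * f2 x) (w * f2 x) w := by
        have := (((hasDerivAt_id w).pow 2).div_const 2).mul_const (f2 x)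
        refine this.congr_deriv ?_
        simp
      exact ((a1.sub_const (f x)).sub a2).sub a3) (fun w hw => by
      refine (e1 w).trans ?_
      gcongr)
  have e2 : K * |u| ^ 3 = K * |u| * |u| * |u| := by ring
  rw [e2]
  simpa using this

/-- the scale factor of the old row argument -/
noncomputable def cN (n t : ℝ) : ℝ := Real.sqrt ((n + 1 - t ^ 2) / (n + 1))

/-- the scale factor of the old coordinates -/
noncomputable def rN (n t : ℝ) : ℝ := Real.sqrt ((n + 1 - t ^ 2) / n)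

theorem cN_bounds {n t : ℝ} (hn : 1 ≤ n) (ht : t ^ 2 ≤ n) :
    0 ≤ 1 - cN n t ∧ 1 - cN n t ≤ t ^ 2 / (n + 1) ∧
      |1 - cN n t - t ^ 2 / (n + 1) / 2| ≤ (t ^ 2 / (n + 1)) ^ 2 / 2 := by
  set w : ℝ := t ^ 2 / (n + 1) with hw
  have hn1 : 0 < n + 1 := by linarith
  have hw0 : 0 ≤ w := by positivity
  have hw1 : w ≤ 1 := by rw [hw, div_le_one hn1]; linarith
  have hc : cN n t = Real.sqrt (1 - w) := by
    unfold cN; congr 1; rw [hw]; field_simp
  have hc0 : 0 ≤ cN n t := Real.sqrt_nonneg _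
  have hc2 : cN n t ^ 2 = 1 - w := by rw [hc, Real.sq_sqrt (by linarith)]
  have hc1 : cN n t ≤ 1 := by nlinarith
  refine ⟨by linarith, ?_, ?_⟩
  · nlinarith
  · have h3 : 0 ≤ 1 - cN n t - w / 2 := by nlinarith
    rw [abs_of_nonneg h3]
    -- 1 - c - w/2 with w = 1 - c^2 : = (1-c) - (1-c^2)/2 = (1-c)^2/2
    nlinarith [sq_nonneg (1 - cN n t), mul_nonneg hw0 (sub_nonneg.2 hc1)]

theorem rN_bounds {n t : ℝ} (hn : 1 ≤ n) (ht : t ^ 2 ≤ n) :
    |rN n t - 1| ≤ (1 + t ^ 2) / n := by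
  have hn0 : 0 < n := by linarith
  set a : ℝ := (1 - t ^ 2) / n with ha
  have hr : rN n t = Real.sqrt (1 + a) := by
    unfold rN; congr 1; rw [ha]; field_simp; ring
  have h1a : 0 ≤ 1 + a := by
    have : 1 + a = (n + 1 - t ^ 2) / n := by rw [ha]; field_simp; ring
    rw [this]; apply div_nonneg <;> linarith
  have hr0 : 0 ≤ rN n t := Real.sqrt_nonneg _
  have hr2 : rN n t ^ 2 = 1 + a := by rw [hr, Real.sq_sqrt h1a]
  have h1 : |rN n t - 1| ≤ |a| := by
    have h2 : (rN n t - 1) * (rN n t + 1) = a := by nlinarith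
    have h3 : |rN n t - 1| * (rN n t + 1) = |a| := by
      rw [← h2, abs_mul, abs_of_nonneg (by linarith : 0 ≤ rN n t + 1)]
    nlinarith [abs_nonneg (rN n t - 1), abs_nonneg a]
  refine h1.trans ?_
  rw [ha, abs_div, abs_of_pos hn0]
  apply div_le_div_of_nonneg_right _ hn0.le
  rw [abs_le]; constructor <;> nlinarith [sq_nonneg t]

/-- the linear part of the displacement -/
theorem lin_bound {p q c t T x g : ℝ} (hq0 : 0 < q) (hp0 : 0 < p) (hq1 : q ≤ 1) (hpq : p ≤ q)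
    (hT : 1 ≤ T) (htT : |t| ≤ T) (hqp2 : q ^ 2 - p ^ 2 ≤ q ^ 4) (hqp : q - p ≤ q ^ 3)
    (hc2 : |1 - c - t ^ 2 * p ^ 2 / 2| ≤ (t ^ 2 * p ^ 2) ^ 2 / 2) :
    |(-(1 - c) * x + g * t * p) - (t * q * g - t ^ 2 * q ^ 2 / 2 * x)| ≤
      q ^ 3 * T ^ 4 * (|x| + |g|) := by
  have hT0 : 0 ≤ T := by linarith
  have ht2 : t ^ 2 ≤ T ^ 2 := by
    rw [← sq_abs t]; gcongr
  have hpq2 : p ^ 2 ≤ q ^ 2 := by gcongr
  have hT24 : T ^ 2 ≤ T ^ 4 := pow_le_pow_right₀ hT (by norm_num)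
  have hT14 : T ≤ T ^ 4 := by
    calc T = T ^ 1 := by ring
      _ ≤ T ^ 4 := pow_le_pow_right₀ hT (by norm_num)
  have e : (-(1 - c) * x + g * t * p) - (t * q * g - t ^ 2 * q ^ 2 / 2 * x) =
      -((1 - c - t ^ 2 * p ^ 2 / 2) * x) + (t ^ 2 * (q ^ 2 - p ^ 2) / 2 * x) -
        t * g * (q - p) := by
    ring
  rw [e]
  have b1 : |(1 - c - t ^ 2 * p ^ 2 / 2) * x| ≤ q ^ 3 * T ^ 4 / 2 * |x| := by
    rw [abs_mul]
    refine mul_le_mul_of_nonneg_right (hc2.trans ?_) (abs_nonneg _)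
    have : (t ^ 2 * p ^ 2) ^ 2 ≤ q ^ 3 * T ^ 4 := by
      calc (t ^ 2 * p ^ 2) ^ 2 ≤ (T ^ 2 * q ^ 2) ^ 2 := by gcongr
        _ = q ^ 3 * T ^ 4 * q := by ring
        _ ≤ q ^ 3 * T ^ 4 * 1 := by gcongr
        _ = _ := by ring
    linarith
  have b2 : |t ^ 2 * (q ^ 2 - p ^ 2) / 2 * x| ≤ q ^ 3 * T ^ 4 / 2 * |x| := by
    rw [abs_mul]
    refine mul_le_mul_of_nonneg_right ?_ (abs_nonneg _)
    rw [abs_of_nonneg (by
      have : 0 ≤ q ^ 2 - p ^ 2 := by linarith
      positivity)]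
    have : t ^ 2 * (q ^ 2 - p ^ 2) ≤ q ^ 3 * T ^ 4 := by
      calc t ^ 2 * (q ^ 2 - p ^ 2) ≤ T ^ 4 * q ^ 4 := by
            apply mul_le_mul (ht2.trans hT24) hqp2 (by linarith) (by positivity)
        _ = q ^ 3 * T ^ 4 * q := by ring
        _ ≤ q ^ 3 * T ^ 4 * 1 := by gcongr
        _ = _ := by ring
    linarith
  have b3 : |t * g * (q - p)| ≤ q ^ 3 * T ^ 4 * |g| := by
    rw [abs_mul, abs_mul, abs_of_nonneg (by linarith : 0 ≤ q - p)]
    calc |t| * |g| * (q - p) ≤ T ^ 4 * |g| * q ^ 3 := by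
          gcongr
          exact htT.trans hT14
      _ = _ := by ring
  calc |-((1 - c - t ^ 2 * p ^ 2 / 2) * x) + (t ^ 2 * (q ^ 2 - p ^ 2) / 2 * x) -
        t * g * (q - p)|
      ≤ |-((1 - c - t ^ 2 * p ^ 2 / 2) * x) + (t ^ 2 * (q ^ 2 - p ^ 2) / 2 * x)| +
        |t * g * (q - p)| := abs_sub _ _
    _ ≤ (|-((1 - c - t ^ 2 * p ^ 2 / 2) * x)| + |t ^ 2 * (q ^ 2 - p ^ 2) / 2 * x|) +
        |t * g * (q - p)| := add_le_add (abs_add_le _ _) le_rfl
    _ ≤ q ^ 3 * T ^ 4 / 2 * |x| + q ^ 3 * T ^ 4 / 2 * |x| + q ^ 3 * T ^ 4 * |g| := by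
        rw [abs_neg]; linarith
    _ = _ := by ring

/-- the quadratic part of the displacement -/
theorem quad_bound {p q c t T x g : ℝ} (hq0 : 0 < q) (hp0 : 0 < p) (hq1 : q ≤ 1) (hpq : p ≤ q)
    (hT : 1 ≤ T) (htT : |t| ≤ T) (hqp2 : q ^ 2 - p ^ 2 ≤ q ^ 4)
    (hc0 : 0 ≤ 1 - c) (hc3 : 1 - c ≤ T ^ 2 * q ^ 2) :
    |(-(1 - c) * x + g * t * p) ^ 2 - t ^ 2 * q ^ 2 * g ^ 2| ≤
      q ^ 3 * T ^ 4 * (|x| + |g|) ^ 2 := by
  have hT0 : 0 ≤ T := by linarith
  have ht2 : t ^ 2 ≤ T ^ 2 := by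
    rw [← sq_abs t]; gcongr
  have hpq2 : p ^ 2 ≤ q ^ 2 := by gcongr
  have hTT : T ^ 2 ≤ T ^ 4 := pow_le_pow_right₀ hT (by norm_num)
  have hTT3 : T ^ 3 ≤ T ^ 4 := pow_le_pow_right₀ hT (by norm_num)
  have hgt : |g * t * p| ≤ T * q * |g| := by
    rw [abs_mul, abs_mul, abs_of_pos hp0]
    calc |g| * |t| * p ≤ |g| * T * q := by gcongr
      _ = T * q * |g| := by ring
  have e : (-(1 - c) * x + g * t * p) ^ 2 - t ^ 2 * q ^ 2 * g ^ 2 =
      -(t ^ 2 * g ^ 2 * (q ^ 2 - p ^ 2)) - 2 * (g * t * p) * ((1 - c) * x) +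
        ((1 - c) * x) ^ 2 := by
    ring
  rw [e]
  have b1 : |t ^ 2 * g ^ 2 * (q ^ 2 - p ^ 2)| ≤ q ^ 3 * T ^ 4 * |g| ^ 2 := by
    rw [abs_of_nonneg (by
      have : 0 ≤ q ^ 2 - p ^ 2 := by linarith
      positivity), ← sq_abs g]
    calc t ^ 2 * |g| ^ 2 * (q ^ 2 - p ^ 2) ≤ T ^ 4 * |g| ^ 2 * (q ^ 4) := by
          gcongr
          exact ht2.trans hTT
      _ = q ^ 3 * T ^ 4 * |g| ^ 2 * q := by ring
      _ ≤ q ^ 3 * T ^ 4 * |g| ^ 2 * 1 := by gcongr
      _ = _ := by ring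
  have b2 : |2 * (g * t * p) * ((1 - c) * x)| ≤ q ^ 3 * T ^ 4 * (2 * |g| * |x|) := by
    rw [abs_mul, abs_mul, abs_two, abs_mul (1 - c), abs_of_nonneg hc0]
    calc 2 * |g * t * p| * ((1 - c) * |x|) ≤ 2 * (T * q * |g|) * ((T ^ 2 * q ^ 2) * |x|) := by
          gcongr
      _ = q ^ 3 * T ^ 3 * (2 * |g| * |x|) := by ring
      _ ≤ q ^ 3 * T ^ 4 * (2 * |g| * |x|) := by gcongr
  have b3 : |((1 - c) * x) ^ 2| ≤ q ^ 3 * T ^ 4 * |x| ^ 2 := by
    rw [abs_of_nonneg (sq_nonneg _), mul_pow, ← sq_abs x]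
    calc (1 - c) ^ 2 * |x| ^ 2 ≤ (T ^ 2 * q ^ 2) ^ 2 * |x| ^ 2 := by gcongr
      _ = q ^ 3 * T ^ 4 * |x| ^ 2 * q := by ring
      _ ≤ q ^ 3 * T ^ 4 * |x| ^ 2 * 1 := by gcongr
      _ = _ := by ring
  calc |-(t ^ 2 * g ^ 2 * (q ^ 2 - p ^ 2)) - 2 * (g * t * p) * ((1 - c) * x) +
        ((1 - c) * x) ^ 2|
      ≤ |-(t ^ 2 * g ^ 2 * (q ^ 2 - p ^ 2)) - 2 * (g * t * p) * ((1 - c) * x)| +
        |((1 - c) * x) ^ 2| := abs_add_le _ _
    _ ≤ (|-(t ^ 2 * g ^ 2 * (q ^ 2 - p ^ 2))| + |2 * (g * t * p) * ((1 - c) * x)|) +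
        |((1 - c) * x) ^ 2| := add_le_add (abs_sub _ _) le_rfl
    _ ≤ q ^ 3 * T ^ 4 * |g| ^ 2 + q ^ 3 * T ^ 4 * (2 * |g| * |x|) +
        q ^ 3 * T ^ 4 * |x| ^ 2 := by rw [abs_neg]; linarith
    _ = _ := by ring

/-- the size of the displacement -/
theorem disp_bound {p q c t T x g : ℝ} (hq0 : 0 < q) (hp0 : 0 < p) (hq1 : q ≤ 1) (hpq : p ≤ q)
    (hT : 1 ≤ T) (htT : |t| ≤ T) (hc0 : 0 ≤ 1 - c) (hc3 : 1 - c ≤ T ^ 2 * q ^ 2) :
    |(-(1 - c) * x + g * t * p)| ≤ T ^ 2 * q * (|x| + |g|) := by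
  have hT0 : 0 ≤ T := by linarith
  have hc4 : 1 - c ≤ T ^ 2 * q := by
    refine hc3.trans ?_
    calc T ^ 2 * q ^ 2 = T ^ 2 * q * q := by ring
      _ ≤ T ^ 2 * q * 1 := by gcongr
      _ = _ := by ring
  have hT12 : T ≤ T ^ 2 := by nlinarith
  have hgt : |g * t * p| ≤ T ^ 2 * q * |g| := by
    rw [abs_mul, abs_mul, abs_of_pos hp0]
    calc |g| * |t| * p ≤ |g| * T ^ 2 * q := by
          gcongr
          exact htT.trans hT12
      _ = T ^ 2 * q * |g| := by ring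
  have hcx : |-(1 - c) * x| ≤ T ^ 2 * q * |x| := by
    rw [neg_mul, abs_neg, abs_mul, abs_of_nonneg hc0]; gcongr
  calc |(-(1 - c) * x + g * t * p)| ≤ |-(1 - c) * x| + |g * t * p| := abs_add_le _ _
    _ ≤ T ^ 2 * q * |x| + T ^ 2 * q * |g| := add_le_add hcx hgt
    _ = _ := by ring

/-- abstract assembly of the Taylor bound -/
theorem taylor_assemble {K : ℝ} {f f1 f2 : ℝ → ℝ} (h : S3 K f f1 f2) {q t T x g u : ℝ}
    (hq0 : 0 < q) (hT : 1 ≤ T)
    (hu : |u| ≤ T ^ 2 * q * (|x| + |g|))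
    (hlin : |u - (t * q * g - t ^ 2 * q ^ 2 / 2 * x)| ≤ q ^ 3 * T ^ 4 * (|x| + |g|))
    (hquad : |u ^ 2 - t ^ 2 * q ^ 2 * g ^ 2| ≤ q ^ 3 * T ^ 4 * (|x| + |g|) ^ 2) :
    |f (x + u) - f x - (t * q * (g * f1 x) + t ^ 2 * q ^ 2 / 2 * (g ^ 2 * f2 x - x * f1 x))| ≤
      12 * K * T ^ 6 * q ^ 3 * (1 + |x| ^ 3 + |g| ^ 3) := by
  have hK := h.nK
  have hTay := taylor3 h x u
  set a : ℝ := |x| + |g| with ha
  have ha0 : 0 ≤ a := by positivity
  have hu3 : |u| ^ 3 ≤ T ^ 6 * q ^ 3 * a ^ 3 := by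
    calc |u| ^ 3 ≤ (T ^ 2 * q * a) ^ 3 := by gcongr
      _ = _ := by ring
  have hT46 : T ^ 4 ≤ T ^ 6 := pow_le_pow_right₀ hT (by norm_num)
  have e0 : f (x + u) - f x - (t * q * (g * f1 x) + t ^ 2 * q ^ 2 / 2 * (g ^ 2 * f2 x - x * f1 x)) =
      (f (x + u) - f x - u * f1 x - u ^ 2 / 2 * f2 x) +
      (u - (t * q * g - t ^ 2 * q ^ 2 / 2 * x)) * f1 x +
      (u ^ 2 - t ^ 2 * q ^ 2 * g ^ 2) / 2 * f2 x := by
    ring
  rw [e0]
  have c1 : |(u - (t * q * g - t ^ 2 * q ^ 2 / 2 * x)) * f1 x| ≤ q ^ 3 * T ^ 4 * a * K := by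
    rw [abs_mul]
    exact mul_le_mul hlin (h.b1 x) (abs_nonneg _) (by positivity)
  have c2 : |(u ^ 2 - t ^ 2 * q ^ 2 * g ^ 2) / 2 * f2 x| ≤ q ^ 3 * T ^ 4 * a ^ 2 / 2 * K := by
    rw [abs_mul, abs_div, abs_two]
    exact mul_le_mul (by linarith) (h.b2 x) (abs_nonneg _) (by positivity)
  have hpoly : a ^ 3 + a + a ^ 2 / 2 ≤ 3 * (1 + a ^ 3) := by
    have s1 := mul_nonneg ha0 (sq_nonneg (a - 1))
    have s2 := sq_nonneg (a - 1)
    nlinarith
  have ha3 : a ^ 3 ≤ 4 * (|x| ^ 3 + |g| ^ 3) := by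
    rw [ha]
    have s1 := mul_nonneg (add_nonneg (abs_nonneg x) (abs_nonneg g)) (sq_nonneg (|x| - |g|))
    nlinarith
  calc |(f (x + u) - f x - u * f1 x - u ^ 2 / 2 * f2 x) +
      (u - (t * q * g - t ^ 2 * q ^ 2 / 2 * x)) * f1 x +
      (u ^ 2 - t ^ 2 * q ^ 2 * g ^ 2) / 2 * f2 x|
      ≤ |f (x + u) - f x - u * f1 x - u ^ 2 / 2 * f2 x| +
        |(u - (t * q * g - t ^ 2 * q ^ 2 / 2 * x)) * f1 x| +
        |(u ^ 2 - t ^ 2 * q ^ 2 * g ^ 2) / 2 * f2 x| :=
        (abs_add_le _ _).trans (add_le_add (abs_add_le _ _) le_rfl)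
    _ ≤ K * (T ^ 6 * q ^ 3 * a ^ 3) + q ^ 3 * T ^ 6 * a * K + q ^ 3 * T ^ 6 * a ^ 2 / 2 * K := by
        have d1 : K * |u| ^ 3 ≤ K * (T ^ 6 * q ^ 3 * a ^ 3) := by gcongr
        have d2 : q ^ 3 * T ^ 4 * a * K ≤ q ^ 3 * T ^ 6 * a * K := by gcongr
        have d3 : q ^ 3 * T ^ 4 * a ^ 2 / 2 * K ≤ q ^ 3 * T ^ 6 * a ^ 2 / 2 * K := by gcongr
        linarith
    _ = K * T ^ 6 * q ^ 3 * (a ^ 3 + a + a ^ 2 / 2) := by ring
    _ ≤ K * T ^ 6 * q ^ 3 * (3 * (1 + a ^ 3)) := by gcongr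
    _ ≤ K * T ^ 6 * q ^ 3 * (3 * (4 * (1 + |x| ^ 3 + |g| ^ 3))) := by
        gcongr
        have h0 : 0 ≤ |x| ^ 3 + |g| ^ 3 := by positivity
        linarith
    _ = _ := by ring

/-- **one-row Taylor bound** -/
theorem row_taylor {K : ℝ} {f f1 f2 : ℝ → ℝ} (h : S3 K f f1 f2) {n T t x g : ℝ} (hn : 1 ≤ n)
    (hT : 1 ≤ T) (htT : |t| ≤ T) (ht : t ^ 2 ≤ n) :
    |f (cN n t * x + g * t / Real.sqrt (n + 1)) - f x -
      (t / Real.sqrt n * (g * f1 x) + t ^ 2 / (2 * n) * (g ^ 2 * f2 x - x * f1 x))| ≤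
      12 * K * T ^ 6 * ((Real.sqrt n)⁻¹) ^ 3 * (1 + |x| ^ 3 + |g| ^ 3) := by
  have hn0 : 0 < n := by linarith
  have hn1 : 0 < n + 1 := by linarith
  have hsn : 0 < Real.sqrt n := Real.sqrt_pos.2 hn0
  have hsn1 : 0 < Real.sqrt (n + 1) := Real.sqrt_pos.2 hn1
  obtain ⟨q, hq⟩ : ∃ q, q = (Real.sqrt n)⁻¹ := ⟨_, rfl⟩
  obtain ⟨p, hp⟩ : ∃ p, p = (Real.sqrt (n + 1))⁻¹ := ⟨_, rfl⟩
  have hq0 : 0 < q := by rw [hq]; exact inv_pos.2 hsn
  have hp0 : 0 < p := by rw [hp]; exact inv_pos.2 hsn1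
  have hq2 : q ^ 2 = 1 / n := by
    rw [hq, inv_pow, Real.sq_sqrt hn0.le, one_div]
  have hp2 : p ^ 2 = 1 / (n + 1) := by
    rw [hp, inv_pow, Real.sq_sqrt hn1.le, one_div]
  have hq1 : q ≤ 1 := by
    rw [hq]; apply inv_le_one_of_one_le₀
    rw [Real.one_le_sqrt]; exact hn
  have hpq : p ≤ q := by
    rw [hp, hq]; apply inv_anti₀ hsn
    exact Real.sqrt_le_sqrt (by linarith)
  have hqp2 : q ^ 2 - p ^ 2 ≤ q ^ 4 := by
    have e1 : q ^ 4 = (1 / n) ^ 2 := by rw [← hq2]; ring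
    rw [e1, hq2, hp2]
    have : 1 / n - 1 / (n + 1) = 1 / (n * (n + 1)) := by field_simp; ring
    rw [this, one_div_pow]
    apply one_div_le_one_div_of_le (by positivity)
    nlinarith
  have hqp : q - p ≤ q ^ 3 := by
    have h1 : (q - p) * q ≤ q ^ 3 * q := by nlinarith
    exact le_of_mul_le_mul_right h1 hq0
  obtain ⟨hc0, hc1, hc2⟩ := cN_bounds hn ht
  obtain ⟨c, hc⟩ : ∃ c, c = cN n t := ⟨_, rfl⟩
  rw [← hc] at hc0 hc1 hc2 ⊢
  have hw : t ^ 2 / (n + 1) = t ^ 2 * p ^ 2 := by rw [hp2]; ring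
  rw [hw] at hc1 hc2
  have hT0 : 0 ≤ T := by linarith
  have ht2 : t ^ 2 ≤ T ^ 2 := by
    rw [← sq_abs t]; gcongr
  have hpq2 : p ^ 2 ≤ q ^ 2 := by gcongr
  have hc3 : 1 - c ≤ T ^ 2 * q ^ 2 := hc1.trans (by gcongr)
  have hxu : c * x + g * t / Real.sqrt (n + 1) = x + (-(1 - c) * x + g * t * p) := by
    rw [hp]; ring
  have e1 : t / Real.sqrt n = t * q := by rw [hq]; ring
  have e2 : t ^ 2 / (2 * n) = t ^ 2 * q ^ 2 / 2 := by rw [hq2]; field_simp
  rw [hxu, e1, e2, ← hq]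
  exact taylor_assemble h hq0 hT (disp_bound hq0 hp0 hq1 hpq hT htT hc0 hc3)
    (lin_bound hq0 hp0 hq1 hpq hT htT hqp2 hqp hc2)
    (quad_bound hq0 hp0 hq1 hpq hT htT hqp2 hc0 hc3)

end Crest.Agent.R146.L3Tay_663
end

-- ▼ part R146/L3TayB_663
section

/-!
Row 146, S0206, lower bound, new coordinate (L3), helper663.
Part B: pointwise inequality `dV ≥ Lam - err` and its hierarchical form.
-/

set_option autoImplicit false

namespace Crest.Agent.R146.L3Tay_663

open Finset MeasureTheory ProbabilityTheory Crest.Agent.R141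
open Crest.Agent.R146.S6Def_988 Crest.Agent.R146.S6U_988 Crest.Agent.R146.S6L_988

theorem S3.of {K : ℝ} {f f1 f2 : ℝ → ℝ} (h : S6L_988.S3 K f f1 f2) : L3Tay_663.S3 K f f1 f2 :=
  ⟨h.d1, h.d2, h.b0, h.b1, h.b2, h.l2⟩

noncomputable section

variable {N : ℕ} {C : Cfg N} {nc n M : ℕ}

/-- fluctuation of the squares of the new column -/
def E1 (f2 : ℝ → ℝ) (G : Fin M → Fin N → ℝ) (g0 : Fin M → ℝ) (ω : Om C nc n) : ℝ :=
  (N : ℝ)⁻¹ * ∑ a : Fin M, f2 (hh G a (C.x ω.1)) * (g0 a ^ 2 - 1)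

/-- deviation of the quadratic coefficient -/
def E2 (f1 f2 : ℝ → ℝ) (d : ℝ) (G : Fin M → Fin N → ℝ) (ω : Om C nc n) : ℝ :=
  RS C nc n f2 (fun _ => 1) G ω ω - RS C nc n f1 (fun x => x) G ω ω - d

/-- cubic remainder -/
def E3 (G : Fin M → Fin N → ℝ) (g0 : Fin M → ℝ) (ω : Om C nc n) : ℝ :=
  ∑ a : Fin M, (1 + |hh G a (C.x ω.1)| ^ 3 + |g0 a| ^ 3)

/-- the total error -/
def err (k K : ℝ) (f1 f2 : ℝ → ℝ) (d : ℝ) (G : Fin M → Fin N → ℝ) (g0 : Fin M → ℝ)
    (s : Fin nc → ℝ) (ω : Om C nc n) : ℝ :=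
  k ^ 2 / 2 * |E1 f2 G g0 ω| + k ^ 2 / 2 * |E2 f1 f2 d G ω| +
    12 * K * (max k 1) ^ 6 * ((Real.sqrt N)⁻¹) ^ 3 * E3 G g0 ω + (1 + k ^ 2) / N * |fieldE s ω|

theorem E3_nonneg (G : Fin M → Fin N → ℝ) (g0 : Fin M → ℝ) (ω : Om C nc n) : 0 ≤ E3 G g0 ω :=
  Finset.sum_nonneg fun a _ => by positivity

theorem err_nonneg {k K : ℝ} (hK : 0 ≤ K) (f1 f2 : ℝ → ℝ) (d : ℝ) (G : Fin M → Fin N → ℝ)
    (g0 : Fin M → ℝ) (s : Fin nc → ℝ) (ω : Om C nc n) : 0 ≤ err k K f1 f2 d G g0 s ω := by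
  unfold err
  have := E3_nonneg G g0 ω
  have h1 : (0:ℝ) ≤ max k 1 := le_trans zero_le_one (le_max_right _ _)
  positivity

/-- pointwise lower bound of the exponent -/
theorem dE_ge {K k : ℝ} {f f1 f2 : ℝ → ℝ} (h : S6L_988.S3 K f f1 f2) (hN : 0 < N)
    (hkN : k ^ 2 ≤ N) (d : ℝ) (G : Fin M → Fin N → ℝ) (g0 : Fin M → ℝ) (s : Fin nc → ℝ)
    (ω : Om C nc n) {t : ℝ} (ht : |t| ≤ k) :
    t * (∑ a, Wv C nc n f1 G ω a * g0 a) + d * t ^ 2 / 2 - err k K f1 f2 d G g0 s ω ≤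
      dE C nc n f G g0 s ω t := by
  have h3 := S3.of h
  have hn : (1:ℝ) ≤ N := by exact_mod_cast hN
  have hn0 : (0:ℝ) < N := by linarith
  have hk0 : 0 ≤ k := (abs_nonneg t).trans ht
  have htk : t ^ 2 ≤ k ^ 2 := by rw [← sq_abs t]; gcongr
  have ht2 : t ^ 2 ≤ N := htk.trans hkN
  have htT : |t| ≤ max k 1 := ht.trans (le_max_left _ _)
  have hT : 1 ≤ max k 1 := le_max_right _ _
  -- rows
  have hrow : ∀ a : Fin M, t / Real.sqrt N * (g0 a * f1 (hh G a (C.x ω.1))) +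
      t ^ 2 / (2 * N) * (g0 a ^ 2 * f2 (hh G a (C.x ω.1)) -
        hh G a (C.x ω.1) * f1 (hh G a (C.x ω.1))) -
      12 * K * (max k 1) ^ 6 * ((Real.sqrt N)⁻¹) ^ 3 *
        (1 + |hh G a (C.x ω.1)| ^ 3 + |g0 a| ^ 3) ≤
      f (Real.sqrt (((N : ℝ) + 1 - t ^ 2) / ((N : ℝ) + 1)) * hh G a (C.x ω.1) +
        t / Real.sqrt ((N : ℝ) + 1) * g0 a) - f (hh G a (C.x ω.1)) := by
    intro a
    have := row_taylor h3 (x := hh G a (C.x ω.1)) (g := g0 a) hn hT htT ht2
    have e : g0 a * t / Real.sqrt ((N : ℝ) + 1) = t / Real.sqrt ((N : ℝ) + 1) * g0 a := by ring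
    rw [e] at this
    have := (abs_le.1 this).1
    unfold cN at this
    linarith
  have hsum := Finset.sum_le_sum fun a (_ : a ∈ (univ : Finset (Fin M))) => hrow a
  -- field
  have hfield : -((1 + k ^ 2) / N * |fieldE s ω|) ≤
      (Real.sqrt (((N : ℝ) + 1 - t ^ 2) / N) - 1) * fieldE s ω := by
    have h1 := rN_bounds (n := (N:ℝ)) hn ht2
    unfold rN at h1
    have h2 : |(Real.sqrt (((N : ℝ) + 1 - t ^ 2) / N) - 1) * fieldE s ω| ≤
        (1 + k ^ 2) / N * |fieldE s ω| := by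
      rw [abs_mul]
      refine mul_le_mul_of_nonneg_right (h1.trans ?_) (abs_nonneg _)
      gcongr
    exact (abs_le.1 h2).1
  unfold dE
  -- algebra of the main terms
  have e1 : ∑ a : Fin M, (t / Real.sqrt N * (g0 a * f1 (hh G a (C.x ω.1))) +
      t ^ 2 / (2 * N) * (g0 a ^ 2 * f2 (hh G a (C.x ω.1)) -
        hh G a (C.x ω.1) * f1 (hh G a (C.x ω.1))) -
      12 * K * (max k 1) ^ 6 * ((Real.sqrt N)⁻¹) ^ 3 *
        (1 + |hh G a (C.x ω.1)| ^ 3 + |g0 a| ^ 3)) =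
      t * (∑ a, Wv C nc n f1 G ω a * g0 a) +
        t ^ 2 / 2 * (E1 f2 G g0 ω + E2 f1 f2 d G ω + d) -
        12 * K * (max k 1) ^ 6 * ((Real.sqrt N)⁻¹) ^ 3 * E3 G g0 ω := by
    unfold E1 E2 E3 RS Wv
    simp only [Finset.sum_sub_distrib, Finset.sum_add_distrib, ← Finset.mul_sum]
    have a1 : ∑ a : Fin M, f2 (hh G a (C.x ω.1)) * (g0 a ^ 2 - 1) =
        (∑ a : Fin M, g0 a ^ 2 * f2 (hh G a (C.x ω.1))) - ∑ a : Fin M, f2 (hh G a (C.x ω.1)) * 1 := by
      rw [← Finset.sum_sub_distrib]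
      exact Finset.sum_congr rfl fun a _ => by ring
    have a2 : ∑ a : Fin M, f1 (hh G a (C.x ω.1)) / Real.sqrt N * g0 a =
        (Real.sqrt N)⁻¹ * ∑ a : Fin M, g0 a * f1 (hh G a (C.x ω.1)) := by
      rw [Finset.mul_sum]
      exact Finset.sum_congr rfl fun a _ => by ring
    have a3 : ∑ a : Fin M, f1 (hh G a (C.x ω.1)) * hh G a (C.x ω.1) =
        ∑ a : Fin M, hh G a (C.x ω.1) * f1 (hh G a (C.x ω.1)) :=
      Finset.sum_congr rfl fun a _ => by ring
    rw [a1, a2, a3]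
    field_simp
    ring
  rw [e1] at hsum
  have hq : -(k ^ 2 / 2 * |E1 f2 G g0 ω| + k ^ 2 / 2 * |E2 f1 f2 d G ω|) ≤
      t ^ 2 / 2 * (E1 f2 G g0 ω + E2 f1 f2 d G ω) := by
    have b : |t ^ 2 / 2 * (E1 f2 G g0 ω + E2 f1 f2 d G ω)| ≤
        k ^ 2 / 2 * |E1 f2 G g0 ω| + k ^ 2 / 2 * |E2 f1 f2 d G ω| := by
      rw [abs_mul, abs_of_nonneg (by positivity : 0 ≤ t ^ 2 / 2), ← mul_add]
      exact mul_le_mul (by linarith) (abs_add_le _ _) (abs_nonneg _) (by positivity)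
    exact (abs_le.1 b).1
  unfold err
  linarith

theorem continuous_dE {f : ℝ → ℝ} (hf : Continuous f) (G : Fin M → Fin N → ℝ) (g0 : Fin M → ℝ)
    (s : Fin nc → ℝ) (ω : Om C nc n) : Continuous fun t => dE C nc n f G g0 s ω t := by
  unfold dE
  have h1 : Continuous fun t : ℝ => Real.sqrt (((N : ℝ) + 1 - t ^ 2) / ((N : ℝ) + 1)) := by
    fun_prop
  have h2 : Continuous fun t : ℝ => Real.sqrt (((N : ℝ) + 1 - t ^ 2) / N) := by
    fun_prop
  refine Continuous.add ?_ ((h2.sub continuous_const).mul continuous_const)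
  refine continuous_finsetSum _ fun a _ => ?_
  refine Continuous.sub (hf.comp ?_) continuous_const
  exact (h1.mul continuous_const).add ((continuous_id.div_const _).mul continuous_const)

theorem continuous_pdf : Continuous (gaussianPDFReal 0 1) := by
  unfold gaussianPDFReal
  fun_prop

theorem intg_pos {k : ℝ} (hk : 0 < k) {u : ℝ → ℝ} (hu : Continuous u) :
    0 < ∫ t in (-k)..k, gaussianPDFReal 0 1 t * Real.exp (u t) := by
  apply intervalIntegral.intervalIntegral_pos_of_pos_on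
  · exact (continuous_pdf.mul (Real.continuous_exp.comp hu)).intervalIntegrable _ _
  · intro x _
    exact mul_pos (gaussianPDFReal_pos 0 1 x one_ne_zero) (Real.exp_pos _)
  · linarith

/-- comparison of the one-dimensional log-integrals -/
theorem logint_mono {k c : ℝ} (hk : 0 < k) {u v : ℝ → ℝ} (hu : Continuous u) (hv : Continuous v)
    (h : ∀ t, |t| ≤ k → u t - c ≤ v t) :
    Real.log (∫ t in (-k)..k, gaussianPDFReal 0 1 t * Real.exp (u t)) - c ≤
      Real.log (∫ t in (-k)..k, gaussianPDFReal 0 1 t * Real.exp (v t)) := by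
  have h1 : Real.exp (-c) * ∫ t in (-k)..k, gaussianPDFReal 0 1 t * Real.exp (u t) ≤
      ∫ t in (-k)..k, gaussianPDFReal 0 1 t * Real.exp (v t) := by
    rw [← intervalIntegral.integral_const_mul]
    apply intervalIntegral.integral_mono_on (by linarith)
    · exact (continuous_const.mul (continuous_pdf.mul
        (Real.continuous_exp.comp hu))).intervalIntegrable _ _
    · exact (continuous_pdf.mul (Real.continuous_exp.comp hv)).intervalIntegrable _ _
    · intro t ht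
      have := h t (abs_le.2 ⟨ht.1, ht.2⟩)
      calc Real.exp (-c) * (gaussianPDFReal 0 1 t * Real.exp (u t)) =
          gaussianPDFReal 0 1 t * Real.exp (u t - c) := by
            rw [sub_eq_add_neg, Real.exp_add]; ring
        _ ≤ gaussianPDFReal 0 1 t * Real.exp (v t) :=
            mul_le_mul_of_nonneg_left (Real.exp_le_exp.2 this) (gaussianPDFReal_nonneg _ _ _)
  have h2 := Real.log_le_log (mul_pos (Real.exp_pos _) (intg_pos hk hu)) h1
  rw [Real.log_mul (Real.exp_pos _).ne' (intg_pos hk hu).ne', Real.log_exp] at h2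
  linarith

theorem continuous_Lexp (d y : ℝ) : Continuous fun t : ℝ => t * y + d * t ^ 2 / 2 := by
  fun_prop

/-- **the potential of the new coordinate from below** -/
theorem dV_ge {K k : ℝ} (hk : 0 < k) {f f1 f2 : ℝ → ℝ} (h : S6L_988.S3 K f f1 f2) (hN : 0 < N)
    (hkN : k ^ 2 ≤ N) (d : ℝ) (G : Fin M → Fin N → ℝ) (g0 : Fin M → ℝ) (s : Fin nc → ℝ)
    (ω : Om C nc n) :
    Lam k d (∑ a, Wv C nc n f1 G ω a * g0 a) - err k K f1 f2 d G g0 s ω ≤
      dV C nc n k f G g0 s ω := by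
  have hf : Continuous f := continuous_iff_continuousAt.2 fun x => (h.d1 x).continuousAt
  unfold Lam dV
  exact logint_mono hk (continuous_Lexp _ _) (continuous_dE hf _ _ _ _)
    fun t ht => dE_ge h hN hkN d G g0 s ω ht

/-- mass of the window -/
def kap (k : ℝ) : ℝ := ∫ t in (-k)..k, gaussianPDFReal 0 1 t

theorem kap_pos {k : ℝ} (hk : 0 < k) : 0 < kap k := by
  have := intg_pos hk (u := fun _ => 0) continuous_const
  simpa [kap] using this

theorem kap_le_one {k : ℝ} (hk : 0 < k) : kap k ≤ 1 := by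
  unfold kap
  rw [intervalIntegral.integral_of_le (by linarith)]
  have h1 : ∫ t in Set.Ioc (-k) k, gaussianPDFReal 0 1 t ≤ ∫ t, gaussianPDFReal 0 1 t := by
    apply setIntegral_le_integral (integrable_gaussianPDFReal 0 1)
    exact Filter.Eventually.of_forall fun x => gaussianPDFReal_nonneg 0 1 x
  rwa [integral_gaussianPDFReal_eq_one 0 one_ne_zero] at h1

theorem odd_int (k : ℝ) : ∫ t in (-k)..k, gaussianPDFReal 0 1 t * t = 0 := by
  have h := intervalIntegral.integral_comp_neg (a := -k) (b := k)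
    (fun t => gaussianPDFReal 0 1 t * t)
  rw [neg_neg] at h
  have h2 : ∫ x in (-k)..k, gaussianPDFReal 0 1 (-x) * (-x) =
      - ∫ x in (-k)..k, gaussianPDFReal 0 1 x * x := by
    rw [← intervalIntegral.integral_neg]
    apply intervalIntegral.integral_congr
    intro x _
    simp only
    have : gaussianPDFReal 0 1 (-x) = gaussianPDFReal 0 1 x := by
      unfold gaussianPDFReal
      simp
    rw [this]; ring
  rw [h2] at h
  linarith

/-- lower bound of `Lam` -/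
theorem Lam_ge {k : ℝ} (hk : 0 < k) {d D : ℝ} (hd : -D ≤ d) (hD : 0 ≤ D) (y : ℝ) :
    Real.log (kap k) - D * k ^ 2 / 2 ≤ Lam k d y := by
  have h1 : Real.log (∫ t in (-k)..k, gaussianPDFReal 0 1 t * Real.exp (t * y)) - D * k ^ 2 / 2 ≤
      Lam k d y := by
    unfold Lam
    apply logint_mono hk (by fun_prop) (continuous_Lexp _ _)
    intro t ht
    have ht2 : t ^ 2 ≤ k ^ 2 := by rw [← sq_abs t]; gcongr
    nlinarith [sq_nonneg t]
  refine le_trans (sub_le_sub_right ?_ _) h1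
  apply Real.log_le_log (kap_pos hk)
  have h2 : kap k = ∫ t in (-k)..k, (gaussianPDFReal 0 1 t + gaussianPDFReal 0 1 t * t * y) := by
    have i1 : IntervalIntegrable (fun t => gaussianPDFReal 0 1 t) volume (-k) k :=
      continuous_pdf.intervalIntegrable _ _
    have i2 : IntervalIntegrable (fun t => gaussianPDFReal 0 1 t * t * y) volume (-k) k :=
      ((continuous_pdf.mul continuous_id).mul continuous_const).intervalIntegrable _ _
    rw [intervalIntegral.integral_add i1 i2, intervalIntegral.integral_mul_const, odd_int]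
    simp [kap]
  rw [h2]
  apply intervalIntegral.integral_mono_on (by linarith)
  · exact (continuous_pdf.add ((continuous_pdf.mul continuous_id).mul
      continuous_const)).intervalIntegrable _ _
  · exact (continuous_pdf.mul (Real.continuous_exp.comp
      (continuous_id.mul continuous_const))).intervalIntegrable _ _
  · intro t _
    have := Real.add_one_le_exp (t * y)
    have h0 := gaussianPDFReal_nonneg 0 1 t
    nlinarith

/-- `Lam` is `k`-Lipschitz -/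
theorem Lam_lip {k : ℝ} (hk : 0 < k) (d y y' : ℝ) : |Lam k d y - Lam k d y'| ≤ k * |y - y'| := by
  have key : ∀ a b : ℝ, Lam k d a - k * |a - b| ≤ Lam k d b := by
    intro a b
    unfold Lam
    apply logint_mono hk (continuous_Lexp _ _) (continuous_Lexp _ _)
    intro t ht
    have h1 : t * (a - b) ≤ k * |a - b| := by
      calc t * (a - b) ≤ |t * (a - b)| := le_abs_self _
        _ = |t| * |a - b| := abs_mul _ _
        _ ≤ _ := by gcongr
    nlinarith
  have h1 := key y y'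
  have h2 := key y' y
  rw [abs_sub_comm y' y] at h2
  rw [abs_le]; constructor <;> linarith

theorem continuous_Lam {k : ℝ} (hk : 0 < k) (d : ℝ) : Continuous (Lam k d) := by
  have : LipschitzWith (Real.toNNReal k) (Lam k d) := by
    apply LipschitzWith.of_dist_le_mul
    intro a b
    rw [Real.dist_eq, Real.dist_eq, Real.coe_toNNReal _ hk.le]
    exact Lam_lip hk d a b
  exact this.continuous

/-- the bound of the truncated potential -/
def cV (k L D : ℝ) : ℝ := max L (D * k ^ 2 / 2 - Real.log (kap k))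

theorem LamT_abs {k : ℝ} (hk : 0 < k) {d D L : ℝ} (hd : -D ≤ d) (hD : 0 ≤ D) (hL : 0 ≤ L) (y : ℝ) :
    |LamT k d L y| ≤ cV k L D := by
  have h1 := Lam_ge hk hd hD y
  have h2 : Real.log (kap k) ≤ 0 := Real.log_nonpos (kap_pos hk).le (kap_le_one hk)
  unfold LamT cV
  rw [abs_le]
  constructor
  · apply le_min
    · have := le_max_right L (D * k ^ 2 / 2 - Real.log (kap k))
      linarith
    · have := le_max_left L (D * k ^ 2 / 2 - Real.log (kap k))
      linarith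
  · exact (min_le_right _ _).trans (le_max_left _ _)

theorem cV_nonneg {k L D : ℝ} (hL : 0 ≤ L) : 0 ≤ cV k L D := hL.trans (le_max_left _ _)

/-- hierarchical comparison: a lower bound of the potential up to an error -/
theorem eE_A_ge {Ω : Type} [Fintype Ω] {P : Ω → ℝ} (hP : IsProb P) {𝓕 : Filt Ω} (h0 : 𝓕.F 0 = ⊤)
    {x : ℕ → ℝ} (hx : IsExpo x) (hx0 : ∀ k, 0 < x k) {V W e : Ω → ℝ} {c : ℝ}
    (hV : ∀ ω, |V ω| ≤ c) (he : ∀ ω, 0 ≤ e ω) (h : ∀ ω, V ω - e ω ≤ W ω) :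
    eE P (A P 𝓕 x V 0) - Real.exp (2 * c) * eE P e ≤ eE P (A P 𝓕 x W 0) := by
  have h1 : ∀ ω, A P 𝓕 x V 0 ω - Real.exp (2 * c) * eE P e ≤ A P 𝓕 x W 0 ω := by
    intro ω
    have a1 : A P 𝓕 x (fun w => V w + (- e w)) 0 ω ≤ A P 𝓕 x W 0 ω :=
      A_mono hP hx0 (fun w => by have := h w; linarith) 0 ω
    rw [A_cocycle hP hx0 V (fun w => - e w) 0 ω] at a1
    have hT := tl_isProb (𝓕 := 𝓕) hP hx0 V
    have a2 := cE_le_A (P := tl P 𝓕 x V) (𝓕 := 𝓕) hT hx0 (fun w => - e w) 0 ω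
    rw [h0, eE_top hT] at a2
    have a3 : eE (tl P 𝓕 x V) (fun w => - e w) = - eE (tl P 𝓕 x V) e := by
      have := eE_smul (tl P 𝓕 x V) (-1) e
      simpa using this
    have a4 := eE_tl_le (𝓕 := 𝓕) hP hx hV he
    rw [a3] at a2
    linarith
  have h2 := eE_mono hP h1
  rw [eE_sub, eE_const hP] at h2
  exact h2

end

end Crest.Agent.R146.L3Tay_663
end

-- ▼ part R146/L3TayC_663
section

/-!
Row 146, S0206, lower bound, new coordinate (L3), helper663.
Part C: the new column at fixed rows.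
-/

set_option autoImplicit false

namespace Crest.Agent.R146.L3Tay_663

open Finset MeasureTheory ProbabilityTheory Crest.Agent.R141
open Crest.Agent.R146.S6Def_988 Crest.Agent.R146.S6U_988 Crest.Agent.R146.S6L_988
open Crest.Agent.R146.FobL_998

noncomputable section

instance gv_prob (M : ℕ) : IsProbabilityMeasure (gv M) := by
  unfold gv; infer_instance

/-- the third absolute moment -/
def c3 : ℝ := ∫ x, |x| ^ 3 ∂(gaussianReal 0 1)

/-- variance of the square -/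
def c4 : ℝ := Var[fun x => x ^ 2 - 1; gaussianReal 0 1]

theorem c3_nonneg : 0 ≤ c3 := integral_nonneg fun _ => by positivity
theorem c4_nonneg : 0 ≤ c4 := variance_nonneg _ _

theorem integrable_pow_gauss (p : ℕ) : Integrable (fun x : ℝ => |x| ^ p) (gaussianReal 0 1) := by
  have h := memLp_id_gaussianReal (μ := 0) (v := 1) (p : NNReal)
  have := h.integrable_norm_pow'
  simpa using this

theorem memLp_sq : MemLp (fun x : ℝ => x ^ 2 - 1) 2 (gaussianReal 0 1) := by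
  have h1 : MemLp (fun x : ℝ => x ^ 2) 2 (gaussianReal 0 1) := by
    rw [memLp_two_iff_integrable_sq (by fun_prop)]
    have := integrable_pow_gauss 4
    refine this.congr (Filter.Eventually.of_forall fun x => ?_)
    simp only
    rw [show (4:ℕ) = 2 * 2 by norm_num, pow_mul, sq_abs]
  exact h1.sub (memLp_const 1)

theorem integral_sq_sub : ∫ x, (x ^ 2 - 1) ∂(gaussianReal 0 1) = 0 := by
  have h2 : Integrable (fun x : ℝ => x ^ 2) (gaussianReal 0 1) := by
    have := integrable_pow_gauss 2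
    simpa using this
  rw [integral_sub h2 (integrable_const _)]
  have h := variance_fun_id_gaussianReal (μ := 0) (v := 1)
  rw [variance_of_integral_eq_zero (by fun_prop) (by simp)] at h
  rw [h]
  simp

section col

variable {N M : ℕ}

/-- fluctuation of a weighted sum of centred squares -/
theorem int_abs_sq_sum {r K : ℝ} (hr : 0 < r) (w : Fin M → ℝ) (hw : ∀ a, |w a| ≤ K) :
    Integrable (fun g0 : Fin M → ℝ => |∑ a, w a * (g0 a ^ 2 - 1)|) (gv M) ∧
    ∫ g0, |∑ a, w a * (g0 a ^ 2 - 1)| ∂(gv M) ≤ (M * K ^ 2 * c4 / r + r) / 2 := by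
  have hX : ∀ a : Fin M, MemLp (fun x : ℝ => w a * (x ^ 2 - 1)) 2 (gaussianReal 0 1) :=
    fun a => memLp_sq.const_mul (w a)
  have hXi : ∀ a : Fin M, MemLp (fun g0 : Fin M → ℝ => w a * (g0 a ^ 2 - 1)) 2 (gv M) :=
    fun a => (hX a).comp_measurePreserving (measurePreserving_eval (fun _ => gaussianReal 0 1) a)
  have hS : MemLp (fun g0 : Fin M → ℝ => ∑ a, w a * (g0 a ^ 2 - 1)) 2 (gv M) :=
    memLp_finsetSum _ fun a _ => hXi a
  have hSi := hS.integrable one_le_two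
  have hmean : ∫ g0, (∑ a, w a * (g0 a ^ 2 - 1)) ∂(gv M) = 0 := by
    rw [integral_finsetSum _ fun a _ => (hXi a).integrable one_le_two]
    apply Finset.sum_eq_zero
    intro a _
    have h1 : ∫ g0 : Fin M → ℝ, w a * (g0 a ^ 2 - 1) ∂(gv M) =
        ∫ x, w a * (x ^ 2 - 1) ∂(gaussianReal 0 1) := by
      unfold gv
      exact integral_comp_eval (μ := fun _ : Fin M => gaussianReal 0 1) (i := a)
        (f := fun x => w a * (x ^ 2 - 1)) (by fun_prop)
    rw [h1, integral_const_mul, integral_sq_sub, mul_zero]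
  have hvar : ∫ g0, (∑ a, w a * (g0 a ^ 2 - 1)) ^ 2 ∂(gv M) ≤ M * K ^ 2 * c4 := by
    have h1 : Var[∑ a, fun g0 : Fin M → ℝ => w a * (g0 a ^ 2 - 1); Measure.pi fun _ : Fin M => gaussianReal 0 1] =
        ∑ a, Var[fun x : ℝ => w a * (x ^ 2 - 1); gaussianReal 0 1] :=
      variance_sum_pi (μ := fun _ : Fin M => gaussianReal 0 1)
        (X := fun a x => w a * (x ^ 2 - 1)) hX
    have h2 : (∑ a, fun g0 : Fin M → ℝ => w a * (g0 a ^ 2 - 1)) =
        fun g0 : Fin M → ℝ => ∑ a, w a * (g0 a ^ 2 - 1) := by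
      ext g0; simp
    rw [h2] at h1
    have h3 : Var[fun g0 : Fin M → ℝ => ∑ a, w a * (g0 a ^ 2 - 1); gv M] =
        ∫ g0, (∑ a, w a * (g0 a ^ 2 - 1)) ^ 2 ∂(gv M) :=
      variance_of_integral_eq_zero hS.aestronglyMeasurable.aemeasurable hmean
    rw [← h3]
    unfold gv
    rw [h1]
    calc ∑ a, Var[fun x : ℝ => w a * (x ^ 2 - 1); gaussianReal 0 1]
        ≤ ∑ _a : Fin M, K ^ 2 * c4 := by
          apply Finset.sum_le_sum
          intro a _
          rw [variance_const_mul]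
          refine mul_le_mul_of_nonneg_right ?_ c4_nonneg
          rw [← sq_abs (w a)]
          have := hw a
          gcongr
      _ = _ := by rw [Finset.sum_const, card_univ, Fintype.card_fin, nsmul_eq_mul]; ring
  refine ⟨hSi.abs, ?_⟩
  have hsq := hS.integrable_sq
  have hpt : ∀ g0 : Fin M → ℝ, |∑ a, w a * (g0 a ^ 2 - 1)| ≤
      ((∑ a, w a * (g0 a ^ 2 - 1)) ^ 2 / r + r) / 2 := by
    intro g0
    set S := ∑ a, w a * (g0 a ^ 2 - 1)
    have h1 : 0 ≤ (|S| - r) ^ 2 / r := by positivity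
    have h2 : (|S| - r) ^ 2 / r = S ^ 2 / r - 2 * |S| + r := by
      rw [← sq_abs S]; field_simp; ring
    linarith
  calc ∫ g0, |∑ a, w a * (g0 a ^ 2 - 1)| ∂(gv M)
      ≤ ∫ g0, ((∑ a, w a * (g0 a ^ 2 - 1)) ^ 2 / r + r) / 2 ∂(gv M) := by
        apply integral_mono hSi.abs (((hsq.div_const _).add (integrable_const _)).div_const _)
        exact hpt
    _ = ((∫ g0, (∑ a, w a * (g0 a ^ 2 - 1)) ^ 2 ∂(gv M)) / r + r) / 2 := by
        rw [integral_div, integral_add (hsq.div_const _) (integrable_const _), integral_div]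
        simp
    _ ≤ _ := by gcongr

theorem int_cube (b : Fin M → ℝ) :
    Integrable (fun g0 : Fin M → ℝ => ∑ a, (1 + b a + |g0 a| ^ 3)) (gv M) ∧
    ∫ g0, ∑ a, (1 + b a + |g0 a| ^ 3) ∂(gv M) = ∑ a, (1 + b a) + M * c3 := by
  have h1 : ∀ a : Fin M, Integrable (fun g0 : Fin M → ℝ => |g0 a| ^ 3) (gv M) := by
    intro a
    exact (measurePreserving_eval (fun _ : Fin M => gaussianReal 0 1) a).integrable_comp_of_integrable
      (integrable_pow_gauss 3)
  have h2 : ∀ a : Fin M, Integrable (fun g0 : Fin M → ℝ => 1 + b a + |g0 a| ^ 3) (gv M) :=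
    fun a => (integrable_const _).add (h1 a)
  refine ⟨integrable_finsetSum _ fun a _ => h2 a, ?_⟩
  rw [integral_finsetSum _ fun a _ => h2 a]
  have h3 : ∀ a : Fin M, ∫ g0 : Fin M → ℝ, (1 + b a + |g0 a| ^ 3) ∂(gv M) = (1 + b a) + c3 := by
    intro a
    rw [integral_add (integrable_const _) (h1 a)]
    congr 1
    · simp
    · unfold gv c3
      exact integral_comp_eval (μ := fun _ : Fin M => gaussianReal 0 1) (i := a)
        (f := fun x : ℝ => |x| ^ 3) (by fun_prop)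
  rw [Finset.sum_congr rfl fun a _ => h3 a, Finset.sum_add_distrib, Finset.sum_const, card_univ,
    Fintype.card_fin, nsmul_eq_mul]

end col

section meas

variable {Θ : Type*} [MeasurableSpace Θ] {Ω : Type} [Fintype Ω]

theorem A_tl_eq {P : Ω → ℝ} (hP : IsProb P) {𝓕 : Filt Ω} {x : ℕ → ℝ} (hx : ∀ k, 0 < x k)
    (U V : Ω → ℝ) (k : ℕ) (ω : Ω) : A (tl P 𝓕 x U) 𝓕 x V k ω =
      A P 𝓕 x (fun w => U w + V w) k ω - A P 𝓕 x U k ω := by
  rw [A_cocycle hP hx]; ring

theorem meas_eA {P : Ω → ℝ} (hP : IsProb P) {𝓕 : Filt Ω} {x : ℕ → ℝ} (hx : ∀ k, 0 < x k)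
    {U V : Θ → Ω → ℝ} (hU : ∀ ω, Measurable fun θ => U θ ω) (hV : ∀ ω, Measurable fun θ => V θ ω) :
    Measurable fun θ => eE (tl P 𝓕 x (U θ)) (A (tl P 𝓕 x (U θ)) 𝓕 x (V θ) 0) := by
  apply meas_eE (fun ω => meas_tl hP hx hU ω)
  intro ω
  have : (fun θ => A (tl P 𝓕 x (U θ)) 𝓕 x (V θ) 0 ω) = fun θ =>
      A P 𝓕 x (fun w => U θ w + V θ w) 0 ω - A P 𝓕 x (U θ) 0 ω := by
    ext θ; exact A_tl_eq hP hx _ _ _ _
  rw [this]
  exact (meas_A hP hx (fun ω => (hU ω).add (hV ω)) 0 ω).sub (meas_A hP hx hU 0 ω)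

theorem eE_A_abs {P : Ω → ℝ} (hP : IsProb P) {𝓕 : Filt Ω} {x : ℕ → ℝ} (hx : ∀ k, 0 < x k)
    {V : Ω → ℝ} {B : ℝ} (hV : ∀ ω, |V ω| ≤ B) : |eE P (A P 𝓕 x V 0)| ≤ B :=
  (eE_abs_le hP _).trans (eE_le_of_le hP fun ω => A_abs_le hP hx hV 0 ω)

end meas

section sys

variable {N : ℕ} {C : Cfg N} {nc n M : ℕ}


theorem QQ_isProb (f : ℕ → ℝ → ℝ) (G : Fin M → Fin N → ℝ) (s : Fin nc → ℝ) :
    IsProb (QQ C nc n f G s) :=
  tl_isProb (prior_isProb C nc n) (xs_isExpo nc n).pos _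

theorem meas_hh (a : Fin M) (x : Fin N → ℝ) : Measurable fun G : Fin M → Fin N → ℝ => hh G a x := by
  unfold hh; fun_prop

/-- measurability of the hierarchical functional in the rows and in the new column -/
theorem meas_F {f : ℕ → ℝ → ℝ} (hf : ∀ a, Measurable (f a)) (s : Fin nc → ℝ)
    {V : (Fin M → Fin N → ℝ) → (Fin M → ℝ) → Om C nc n → ℝ}
    (hV : ∀ ω, Measurable fun p : (Fin M → Fin N → ℝ) × (Fin M → ℝ) => V p.1 p.2 ω) :
    Measurable fun p : (Fin M → Fin N → ℝ) × (Fin M → ℝ) =>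
      eE (QQ C nc n f p.1 s) (A (QQ C nc n f p.1 s) (fil C nc n) (xs nc n) (V p.1 p.2) 0) := by
  unfold QQ
  apply meas_eA (prior_isProb C nc n) (xs_isExpo nc n).pos
  · intro ω
    have := measurable_UU (C := C) (nc := nc) (n := n) (M := M) hf ω
    exact this.comp (measurable_const.prodMk measurable_fst)
  · exact hV

theorem integrable_F {f : ℕ → ℝ → ℝ} (hf : ∀ a, Measurable (f a)) (s : Fin nc → ℝ)
    {V : (Fin M → Fin N → ℝ) → (Fin M → ℝ) → Om C nc n → ℝ}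
    (hV : ∀ ω, Measurable fun p : (Fin M → Fin N → ℝ) × (Fin M → ℝ) => V p.1 p.2 ω) {B : ℝ}
    (hB : ∀ G g0 ω, |V G g0 ω| ≤ B) :
    (∀ G, Integrable (fun g0 => eE (QQ C nc n f G s)
      (A (QQ C nc n f G s) (fil C nc n) (xs nc n) (V G g0) 0)) (gv M)) ∧
    Integrable (fun G => ∫ g0, eE (QQ C nc n f G s)
      (A (QQ C nc n f G s) (fil C nc n) (xs nc n) (V G g0) 0) ∂(gv M)) (gam M N) := by
  have hm := meas_F hf s hV
  have hb : ∀ G g0, |eE (QQ C nc n f G s)
      (A (QQ C nc n f G s) (fil C nc n) (xs nc n) (V G g0) 0)| ≤ B := fun G g0 =>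
    eE_A_abs (QQ_isProb f G s) (xs_isExpo nc n).pos (hB G g0)
  constructor
  · intro G
    exact Integrable.of_bound (hm.comp measurable_prodMk_left).aestronglyMeasurable B
      (Filter.Eventually.of_forall fun g0 => by rw [Real.norm_eq_abs]; exact hb G g0)
  · have hi : Integrable (fun p : (Fin M → Fin N → ℝ) × (Fin M → ℝ) =>
        eE (QQ C nc n f p.1 s) (A (QQ C nc n f p.1 s) (fil C nc n) (xs nc n) (V p.1 p.2) 0))
        ((gam M N).prod (gv M)) :=
      Integrable.of_bound hm.aestronglyMeasurable B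
        (Filter.Eventually.of_forall fun p => by rw [Real.norm_eq_abs]; exact hb p.1 p.2)
    exact hi.integral_prod_left

/-- measurability of the potential of the new coordinate -/
theorem meas_dV {k : ℝ} (hk : 0 < k) {f : ℝ → ℝ} (hf : Continuous f) (s : Fin nc → ℝ)
    (ω : Om C nc n) : Measurable fun p : (Fin M → Fin N → ℝ) × (Fin M → ℝ) =>
      dV C nc n k f p.1 p.2 s ω := by
  unfold dV
  apply Real.measurable_log.comp
  have h1 : Continuous (Function.uncurry fun (p : (Fin M → Fin N → ℝ) × (Fin M → ℝ)) (t : ℝ) =>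
      gaussianPDFReal 0 1 t * Real.exp (dE C nc n f p.1 p.2 s ω t)) := by
    refine Continuous.mul (continuous_pdf.comp continuous_snd) (Real.continuous_exp.comp ?_)
    unfold dE hh
    refine Continuous.add (continuous_finsetSum _ fun a _ => ?_) ?_
    · refine Continuous.sub (hf.comp ?_) (hf.comp ?_)
      · refine Continuous.add (Continuous.mul ?_ ?_) (Continuous.mul ?_ ?_)
        · apply Real.continuous_sqrt.comp
          fun_prop
        · fun_prop
        · fun_prop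
        · fun_prop
      · fun_prop
    · refine Continuous.mul (Continuous.sub ?_ continuous_const) continuous_const
      apply Real.continuous_sqrt.comp
      fun_prop
  have h2 : (fun p : (Fin M → Fin N → ℝ) × (Fin M → ℝ) => ∫ t in (-k)..k,
      gaussianPDFReal 0 1 t * Real.exp (dE C nc n f p.1 p.2 s ω t)) = fun p =>
      ∫ t, gaussianPDFReal 0 1 t * Real.exp (dE C nc n f p.1 p.2 s ω t)
        ∂(volume.restrict (Set.Ioc (-k) k)) := by
    ext p; rw [intervalIntegral.integral_of_le (by linarith)]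
  rw [h2]
  exact (h1.stronglyMeasurable.integral_prod_right).measurable

theorem dV_abs {K k : ℝ} (hk : 0 < k) {f f1 f2 : ℝ → ℝ} (h : S6L_988.S3 K f f1 f2) (hN : 0 < N)
    (hkN : k ^ 2 ≤ N) (G : Fin M → Fin N → ℝ) (g0 : Fin M → ℝ) (s : Fin nc → ℝ) (ω : Om C nc n) :
    |dV C nc n k f G g0 s ω| ≤
      (2 * M * K + (1 + k ^ 2) / N * fB C nc n s) - Real.log (kap k) := by
  have hn : (1:ℝ) ≤ N := by exact_mod_cast hN
  have hf : Continuous f := continuous_iff_continuousAt.2 fun x => (h.d1 x).continuousAt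
  set B : ℝ := 2 * M * K + (1 + k ^ 2) / N * fB C nc n s with hB
  have hdE : ∀ t, |t| ≤ k → |dE C nc n f G g0 s ω t| ≤ B := by
    intro t ht
    have htk : t ^ 2 ≤ k ^ 2 := by rw [← sq_abs t]; gcongr
    have h1 := rN_bounds (n := (N:ℝ)) hn (htk.trans hkN)
    unfold rN at h1
    unfold dE
    refine (abs_add_le _ _).trans ?_
    rw [hB]
    apply add_le_add
    · refine (Finset.abs_sum_le_sum_abs _ _).trans ?_
      calc _ ≤ ∑ _a : Fin M, (2 * K) := by
            apply Finset.sum_le_sum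
            intro a _
            refine (abs_sub _ _).trans ?_
            have := h.b0 (Real.sqrt (((N : ℝ) + 1 - t ^ 2) / ((N : ℝ) + 1)) * hh G a (C.x ω.1) +
              t / Real.sqrt ((N : ℝ) + 1) * g0 a)
            have := h.b0 (hh G a (C.x ω.1))
            linarith
        _ = _ := by rw [Finset.sum_const, card_univ, Fintype.card_fin, nsmul_eq_mul]; ring
    · rw [abs_mul]
      refine mul_le_mul (h1.trans ?_) (abs_fieldE_le s ω) (abs_nonneg _) (by positivity)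
      gcongr
  have hl : Real.log (kap k) ≤ 0 := Real.log_nonpos (kap_pos hk).le (kap_le_one hk)
  have hk1 : Real.log (∫ t in (-k)..k, gaussianPDFReal 0 1 t * Real.exp ((fun _ => (0:ℝ)) t)) =
      Real.log (kap k) := by simp [kap]
  have u1 := logint_mono hk (u := fun _ => (0:ℝ)) (v := fun t => dE C nc n f G g0 s ω t) (c := B)
    continuous_const (continuous_dE hf G g0 s ω) (fun t ht => by
      have := (abs_le.1 (hdE t ht)).1; linarith)
  have u2 := logint_mono hk (v := fun _ => (0:ℝ)) (u := fun t => dE C nc n f G g0 s ω t) (c := B)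
    (continuous_dE hf G g0 s ω) continuous_const (fun t ht => by
      have := (abs_le.1 (hdE t ht)).2; linarith)
  rw [hk1] at u1 u2
  unfold dV
  rw [abs_le]
  constructor <;> linarith

theorem meas_LamT {k : ℝ} (hk : 0 < k) (d L : ℝ) {f1 : ℝ → ℝ} (hf1 : Continuous f1)
    (ω : Om C nc n) : Measurable fun p : (Fin M → Fin N → ℝ) × (Fin M → ℝ) =>
      LamT k d L (∑ a, Wv C nc n f1 p.1 ω a * p.2 a) := by
  unfold LamT
  apply Measurable.min _ measurable_const
  apply (continuous_Lam hk d).measurable.comp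
  unfold Wv
  apply Finset.measurable_sum
  intro a _
  refine Measurable.mul (Measurable.div_const ?_ _) ?_
  · exact hf1.measurable.comp ((meas_hh a (C.x ω.1)).comp measurable_fst)
  · exact (measurable_pi_apply a).comp measurable_snd

/-- the error at fixed rows, integrated over the new column -/
def RG (k K : ℝ) (f1 f2 : ℝ → ℝ) (d : ℝ) (G : Fin M → Fin N → ℝ) (s : Fin nc → ℝ)
    (ω : Om C nc n) : ℝ :=
  k ^ 2 / 2 * (((M : ℝ) * (K ^ 2) * c4 / N + 1) / (2 * Real.sqrt N)) +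
    k ^ 2 / 2 * |E2 f1 f2 d G ω| +
    12 * K * (max k 1) ^ 6 * ((Real.sqrt N)⁻¹) ^ 3 *
      (∑ a : Fin M, (1 + |hh G a (C.x ω.1)| ^ 3) + M * c3) + (1 + k ^ 2) / N * |fieldE s ω|

theorem int_err {k K : ℝ} (_hK : 0 ≤ K) {f1 f2 : ℝ → ℝ} (h2 : ∀ x, |f2 x| ≤ K) (hN : 0 < N)
    (d : ℝ) (G : Fin M → Fin N → ℝ) (s : Fin nc → ℝ) (ω : Om C nc n) :
    Integrable (fun g0 => err k K f1 f2 d G g0 s ω) (gv M) ∧
    ∫ g0, err k K f1 f2 d G g0 s ω ∂(gv M) ≤ RG k K f1 f2 d G s ω := by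
  have hn : (0:ℝ) < N := by exact_mod_cast hN
  have hsn : 0 < Real.sqrt N := Real.sqrt_pos.2 hn
  have hE1 : ∀ g0 : Fin M → ℝ, |E1 f2 G g0 ω| =
      (N:ℝ)⁻¹ * |∑ a, f2 (hh G a (C.x ω.1)) * (g0 a ^ 2 - 1)| := by
    intro g0
    unfold E1
    rw [abs_mul, abs_of_pos (inv_pos.2 hn)]
  obtain ⟨i1, b1⟩ := int_abs_sq_sum (r := Real.sqrt N) hsn (fun a => f2 (hh G a (C.x ω.1)))
    (fun a => h2 _)
  obtain ⟨i3, b3⟩ := int_cube (M := M) (fun a => |hh G a (C.x ω.1)| ^ 3)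
  have j1 : Integrable (fun g0 : Fin M → ℝ => k ^ 2 / 2 * |E1 f2 G g0 ω|) (gv M) := by
    simp only [hE1]
    exact (i1.const_mul _).const_mul _
  have j3 : Integrable (fun g0 : Fin M → ℝ => 12 * K * (max k 1) ^ 6 * ((Real.sqrt N)⁻¹) ^ 3 *
      E3 G g0 ω) (gv M) := by
    unfold E3
    exact i3.const_mul _
  have j12 : Integrable (fun g0 : Fin M → ℝ => k ^ 2 / 2 * |E1 f2 G g0 ω| +
      k ^ 2 / 2 * |E2 f1 f2 d G ω|) (gv M) := j1.add (integrable_const _)
  have j123 : Integrable (fun g0 : Fin M → ℝ => k ^ 2 / 2 * |E1 f2 G g0 ω| +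
      k ^ 2 / 2 * |E2 f1 f2 d G ω| + 12 * K * (max k 1) ^ 6 * ((Real.sqrt N)⁻¹) ^ 3 *
      E3 G g0 ω) (gv M) := j12.add j3
  have jj : Integrable (fun g0 => err k K f1 f2 d G g0 s ω) (gv M) := by
    unfold err
    exact j123.add (integrable_const _)
  refine ⟨jj, ?_⟩
  unfold err RG
  rw [integral_add j123 (integrable_const _),
    integral_add j12 j3, integral_add j1 (integrable_const _),
    integral_const, integral_const, integral_const_mul, integral_const_mul]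
  simp only [probReal_univ, smul_eq_mul, one_mul]
  have e3 : ∫ g0, E3 G g0 ω ∂(gv M) = ∑ a : Fin M, (1 + |hh G a (C.x ω.1)| ^ 3) + M * c3 := b3
  rw [e3]
  have e1 : ∫ g0, |E1 f2 G g0 ω| ∂(gv M) ≤
      (((M : ℝ) * (K ^ 2) * c4 / N + 1) / (2 * Real.sqrt N)) := by
    simp only [hE1]
    rw [integral_const_mul]
    refine (mul_le_mul_of_nonneg_left b1 (by positivity)).trans (le_of_eq ?_)
    have hs2 : Real.sqrt N ^ 2 = N := Real.sq_sqrt hn.le
    have hs0 : Real.sqrt N ≠ 0 := hsn.ne'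
    have hN' : (N:ℝ) ≠ 0 := hn.ne'
    have e : (N:ℝ)⁻¹ = ((Real.sqrt N) ^ 2)⁻¹ := by rw [hs2]
    rw [e, div_eq_mul_inv ((M:ℝ) * K ^ 2 * c4) (N:ℝ), e]
    field_simp
  have hkk : (0:ℝ) ≤ k ^ 2 / 2 := by positivity
  have := mul_le_mul_of_nonneg_left e1 hkk
  linarith

end sys

end

end Crest.Agent.R146.L3Tay_663
end

-- ▼ part R146/L3Tay_663
section

/-!
Row 146, S0206, lower bound, node TAYC of `S6L_988` (helper663):
`tayc_of : MOM → FLD → TAYC`.
-/

set_option autoImplicit false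

namespace Crest.Agent.R146.L3Tay_663

open Finset MeasureTheory ProbabilityTheory Crest.Agent.R141
open Crest.Agent.R146.S6Def_988 Crest.Agent.R146.S6U_988 Crest.Agent.R146.S6L_988
open Crest.Agent.R146.FobL_998

noncomputable section

variable {N : ℕ} {C : Cfg N} {nc n M : ℕ}

theorem eE_integral {Ω : Type} [Fintype Ω] (P : Ω → ℝ) {Θ : Type*} [MeasurableSpace Θ]
    (μ : Measure Θ) {e : Θ → Ω → ℝ} (he : ∀ ω, Integrable (fun θ => e θ ω) μ) :
    Integrable (fun θ => eE P (e θ)) μ ∧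
    ∫ θ, eE P (e θ) ∂μ = eE P (fun ω => ∫ θ, e θ ω ∂μ) := by
  unfold eE
  refine ⟨integrable_finsetSum _ fun ω _ => (he ω).const_mul _, ?_⟩
  rw [integral_finsetSum _ fun ω _ => (he ω).const_mul _]
  exact Finset.sum_congr rfl fun ω _ => integral_const_mul _ _

/-- integration over the new column at fixed rows -/
theorem col_ge {K k L D d : ℝ} (hk : 0 < k) (hL : 0 ≤ L) (hD : 0 ≤ D) (hd : -D ≤ d)
    {f f1 f2 : ℝ → ℝ} (h : S6L_988.S3 K f f1 f2) (hN : 0 < N) (hkN : k ^ 2 ≤ N)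
    (G : Fin M → Fin N → ℝ) (s : Fin nc → ℝ) :
    (∫ g0, eE (QQ C nc n (fun _ => f) G s) (A (QQ C nc n (fun _ => f) G s) (fil C nc n) (xs nc n)
        (fun ω => LamT k d L (∑ a, Wv C nc n f1 G ω a * g0 a)) 0) ∂(gv M)) -
      Real.exp (2 * cV k L D) * eE (QQ C nc n (fun _ => f) G s) (RG k K f1 f2 d G s) ≤
    ∫ g0, eE (QQ C nc n (fun _ => f) G s) (A (QQ C nc n (fun _ => f) G s) (fil C nc n) (xs nc n)
        (dV C nc n k f G g0 s) 0) ∂(gv M) := by
  have hK : 0 ≤ K := (abs_nonneg _).trans (h.b0 0)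
  have hfc : Continuous f := continuous_iff_continuousAt.2 fun x => (h.d1 x).continuousAt
  have hf1c : Continuous f1 := continuous_iff_continuousAt.2 fun x => (h.d2 x).continuousAt
  have hQ := QQ_isProb (C := C) (nc := nc) (n := n) (fun _ => f) G s
  have hfm : ∀ _ : ℕ, Measurable f := fun _ => hfc.measurable
  have iV := (integrable_F (C := C) (nc := nc) (n := n) (M := M) (f := fun _ => f) hfm s
    (V := fun G g0 ω => dV C nc n k f G g0 s ω) (meas_dV hk hfc s)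
    (B := (2 * M * K + (1 + k ^ 2) / N * fB C nc n s) - Real.log (kap k))
    (fun G g0 ω => dV_abs hk h hN hkN G g0 s ω)).1 G
  have iL := (integrable_F (C := C) (nc := nc) (n := n) (M := M) (f := fun _ => f) hfm s
    (V := fun G g0 ω => LamT k d L (∑ a, Wv C nc n f1 G ω a * g0 a)) (meas_LamT hk d L hf1c)
    (B := cV k L D) (fun G g0 ω => LamT_abs hk hd hD hL _)).1 G
  obtain ⟨iE, eE1⟩ := eE_integral (QQ C nc n (fun _ => f) G s) (gv M)
    (e := fun g0 ω => err k K f1 f2 d G g0 s ω)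
    (fun ω => (int_err hK h.b2 hN d G s ω).1)
  have hpt : ∀ g0, eE (QQ C nc n (fun _ => f) G s) (A (QQ C nc n (fun _ => f) G s) (fil C nc n)
      (xs nc n) (fun ω => LamT k d L (∑ a, Wv C nc n f1 G ω a * g0 a)) 0) -
      Real.exp (2 * cV k L D) * eE (QQ C nc n (fun _ => f) G s) (err k K f1 f2 d G g0 s) ≤
      eE (QQ C nc n (fun _ => f) G s) (A (QQ C nc n (fun _ => f) G s) (fil C nc n) (xs nc n)
        (dV C nc n k f G g0 s) 0) := by
    intro g0
    apply eE_A_ge hQ (fil_zero C nc n) (xs_isExpo nc n) (xs_isExpo nc n).pos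
    · intro ω; exact LamT_abs hk hd hD hL _
    · intro ω; exact err_nonneg hK f1 f2 d G g0 s ω
    · intro ω
      have h1 := dV_ge hk h hN hkN d G g0 s ω
      have h2 : LamT k d L (∑ a, Wv C nc n f1 G ω a * g0 a) ≤
          Lam k d (∑ a, Wv C nc n f1 G ω a * g0 a) := min_le_left _ _
      linarith
  have iS : Integrable (fun g0 => eE (QQ C nc n (fun _ => f) G s)
      (A (QQ C nc n (fun _ => f) G s) (fil C nc n)
      (xs nc n) (fun ω => LamT k d L (∑ a, Wv C nc n f1 G ω a * g0 a)) 0) -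
      Real.exp (2 * cV k L D) * eE (QQ C nc n (fun _ => f) G s) (err k K f1 f2 d G g0 s))
      (gv M) := iL.sub (iE.const_mul (Real.exp (2 * cV k L D)))
  have h1 := integral_mono (μ := gv M) iS iV hpt
  rw [integral_sub iL (iE.const_mul _), integral_const_mul] at h1
  have h2 : ∫ g0, eE (QQ C nc n (fun _ => f) G s) (err k K f1 f2 d G g0 s) ∂(gv M) ≤
      eE (QQ C nc n (fun _ => f) G s) (RG k K f1 f2 d G s) := by
    refine (le_of_eq eE1).trans (eE_mono hQ fun ω => ?_)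
    exact (int_err hK h.b2 hN d G s ω).2
  have h3 := mul_le_mul_of_nonneg_left h2 (Real.exp_pos (2 * cV k L D)).le
  linarith

/-- the field part -/
theorem eE_field_le {f : ℕ → ℝ → ℝ} (G : Fin M → Fin N → ℝ) {s : Fin nc → ℝ} {A CF : ℝ}
    (hs : ∀ g, |s g| ≤ A)
    (hF : ∀ g : Fin nc, eE (QQ C nc n f G s) (fun ω => ∑ i, zf ω.2 g i ^ 2) ≤ CF * N) :
    eE (QQ C nc n f G s) (fun ω => |fieldE s ω|) ≤ (nc : ℝ) * A * ((CF + 1) / 2) * N := by
  have hQ := QQ_isProb (C := C) (nc := nc) (n := n) f G s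
  have h1 : ∀ ω : Om C nc n, |fieldE s ω| ≤
      ∑ g : Fin nc, A * ((1 / 2) * (∑ i, zf ω.2 g i ^ 2) + N / 2) := by
    intro ω
    unfold fieldE
    refine (Finset.abs_sum_le_sum_abs _ _).trans (Finset.sum_le_sum fun g _ => ?_)
    rw [abs_mul]
    have hA : 0 ≤ A := (abs_nonneg _).trans (hs g)
    refine mul_le_mul (hs g) ?_ (abs_nonneg _) hA
    have hx := C.hx ω.1
    calc |∑ i, zf ω.2 g i * C.x ω.1 i| ≤ ∑ i, |zf ω.2 g i * C.x ω.1 i| :=
          Finset.abs_sum_le_sum_abs _ _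
      _ ≤ ∑ i, (1 / 2 * zf ω.2 g i ^ 2 + 1 / 2 * C.x ω.1 i ^ 2) := by
          refine Finset.sum_le_sum fun i _ => ?_
          rw [abs_mul, ← sq_abs (zf ω.2 g i), ← sq_abs (C.x ω.1 i)]
          nlinarith [sq_nonneg (|zf ω.2 g i| - |C.x ω.1 i|)]
      _ = (1 / 2) * (∑ i, zf ω.2 g i ^ 2) + N / 2 := by
          rw [Finset.sum_add_distrib, ← Finset.mul_sum, ← Finset.mul_sum, hx]; ring
  refine (eE_mono hQ h1).trans ?_
  rw [eE_sum]
  calc ∑ g : Fin nc, eE (QQ C nc n f G s)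
        (fun ω => A * ((1 / 2) * (∑ i, zf ω.2 g i ^ 2) + N / 2))
      ≤ ∑ _g : Fin nc, A * ((CF + 1) / 2) * N := by
        refine Finset.sum_le_sum fun g _ => ?_
        have hA : 0 ≤ A := (abs_nonneg _).trans (hs g)
        rw [eE_smul, eE_add, eE_smul, eE_const hQ]
        have := hF g
        have h3 : (1 / 2) * eE (QQ C nc n f G s) (fun ω => ∑ i, zf ω.2 g i ^ 2) + N / 2 ≤
            ((CF + 1) / 2) * N := by linarith
        calc A * ((1 / 2) * eE (QQ C nc n f G s) (fun ω => ∑ i, zf ω.2 g i ^ 2) + N / 2)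
            ≤ A * (((CF + 1) / 2) * N) := mul_le_mul_of_nonneg_left h3 hA
          _ = _ := by ring
    _ = _ := by rw [Finset.sum_const, card_univ, Fintype.card_fin, nsmul_eq_mul]; ring

theorem meas_QQ {f : ℕ → ℝ → ℝ} (hf : ∀ a, Measurable (f a)) (s : Fin nc → ℝ) (ω : Om C nc n) :
    Measurable fun G : Fin M → Fin N → ℝ => QQ C nc n f G s ω := by
  unfold QQ
  apply meas_tl (prior_isProb C nc n) (xs_isExpo nc n).pos
  intro ω
  have := measurable_UU (C := C) (nc := nc) (n := n) (M := M) hf ω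
  exact this.comp (measurable_const.prodMk measurable_id)

/-- integrability of the deviation of the quadratic coefficient -/
theorem integrable_E2 (hMOM : MOM) {K : ℝ} {f f1 f2 : ℝ → ℝ} (h : S6L_988.S3 K f f1 f2)
    (hN : 0 < N) (hn : 0 < n) (s : Fin nc → ℝ) (d : ℝ) :
    Integrable (fun G : Fin M → Fin N → ℝ => eE (QQ C nc n (fun _ => f) G s)
      (fun ω => |E2 f1 f2 d G ω|)) (gam M N) := by
  have hK : 0 ≤ K := (abs_nonneg _).trans (h.b0 0)
  have hfc : Continuous f := continuous_iff_continuousAt.2 fun x => (h.d1 x).continuousAt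
  have hf1c : Continuous f1 := continuous_iff_continuousAt.2 fun x => (h.d2 x).continuousAt
  have hf2c : Continuous f2 := by
    have : LipschitzWith (Real.toNNReal K) f2 := by
      apply LipschitzWith.of_dist_le_mul
      intro a b
      rw [Real.dist_eq, Real.dist_eq, Real.coe_toNNReal _ hK]
      exact h.l2 a b
    exact this.continuous
  have hn0 : (0:ℝ) < N := by exact_mod_cast hN
  have hi : ∀ a : Fin M, Integrable (fun G : Fin M → Fin N → ℝ =>
      eE (QQ C nc n (fun _ => f) G s) (fun ω => |hh G a (C.x ω.1)|)) (gam M N) := fun a =>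
    (hMOM K N nc n hN hn C (fun _ => f) M s (fun _ => hfc.measurable) (fun _ => h.b0) a
      (fun x => |x|) (by fun_prop) (fun x => abs_nonneg x) (by
        have := integrable_pow_gauss 1
        simpa using this)).1
  have hbig : Integrable (fun G : Fin M → Fin N → ℝ =>
      (N:ℝ)⁻¹ * (∑ a : Fin M, (K + K * eE (QQ C nc n (fun _ => f) G s)
        (fun ω => |hh G a (C.x ω.1)|))) + |d|) (gam M N) :=
    ((integrable_finsetSum _ fun a _ => (integrable_const _).add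
      ((hi a).const_mul _)).const_mul _).add (integrable_const _)
  refine hbig.mono' ?_ ?_
  · apply Measurable.aestronglyMeasurable
    apply meas_eE (fun ω => meas_QQ (fun _ => hfc.measurable) s ω)
    intro ω
    unfold E2 RS
    have m1 : ∀ a : Fin M, Measurable fun G : Fin M → Fin N → ℝ => hh G a (C.x ω.1) :=
      fun a => meas_hh a _
    apply Measurable.comp measurable_abs
    refine Measurable.sub (Measurable.sub ?_ ?_) measurable_const
    · refine Measurable.const_mul (Finset.measurable_sum _ fun a _ => ?_) _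
      exact (hf2c.measurable.comp (m1 a)).mul measurable_const
    · refine Measurable.const_mul (Finset.measurable_sum _ fun a _ => ?_) _
      exact (hf1c.measurable.comp (m1 a)).mul (m1 a)
  · refine Filter.Eventually.of_forall fun G => ?_
    have hQ := QQ_isProb (C := C) (nc := nc) (n := n) (fun _ => f) G s
    rw [Real.norm_eq_abs, abs_of_nonneg (eE_nonneg hQ fun ω => abs_nonneg _)]
    have h1 : ∀ ω : Om C nc n, |E2 f1 f2 d G ω| ≤
        (N:ℝ)⁻¹ * (∑ a : Fin M, (K + K * |hh G a (C.x ω.1)|)) + |d| := by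
      intro ω
      unfold E2 RS
      refine (abs_sub _ _).trans (add_le_add ?_ le_rfl)
      rw [← mul_sub, ← Finset.sum_sub_distrib, abs_mul, abs_of_pos (inv_pos.2 hn0)]
      refine mul_le_mul_of_nonneg_left ?_ (inv_pos.2 hn0).le
      refine (Finset.abs_sum_le_sum_abs _ _).trans (Finset.sum_le_sum fun a _ => ?_)
      refine (abs_sub _ _).trans ?_
      rw [mul_one, abs_mul]
      exact add_le_add (h.b2 _) (mul_le_mul_of_nonneg_right (h.b1 _) (abs_nonneg _))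
    refine (eE_mono hQ h1).trans (le_of_eq ?_)
    rw [eE_add, eE_smul, eE_sum, eE_const hQ]
    congr 2
    refine Finset.sum_congr rfl fun a _ => ?_
    rw [eE_add, eE_const hQ, eE_smul]

/-- the integrated error -/
theorem int_RG (hMOM : MOM) {k K αp A CF : ℝ} {f f1 f2 : ℝ → ℝ} (h : S6L_988.S3 K f f1 f2)
    (hN : 0 < N) (hn : 0 < n) {s : Fin nc → ℝ} (d : ℝ) (hαp : (M : ℝ) ≤ αp * N)
    (hF : ∀ G : Fin M → Fin N → ℝ, eE (QQ C nc n (fun _ => f) G s) (fun ω => |fieldE s ω|) ≤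
      (nc : ℝ) * A * ((CF + 1) / 2) * N) :
    ∃ R' : (Fin M → Fin N → ℝ) → ℝ, Integrable R' (gam M N) ∧
      (∀ G, eE (QQ C nc n (fun _ => f) G s) (RG k K f1 f2 d G s) ≤ R' G) ∧
      ∫ G, R' G ∂(gam M N) ≤
        k ^ 2 / 2 * ∫ G, eE (QQ C nc n (M := M) (fun _ => f) G s) (fun ω => |E2 f1 f2 d G ω|)
          ∂(gam M N) + (1 + k ^ 2) * ((CF + 1) / 2) * ((nc : ℝ) * A) +
        (k ^ 2 / 2 * ((αp * K ^ 2 * c4 + 1) / 2) +
          12 * K * (max k 1) ^ 6 * (αp * (1 + Real.exp (4 * K) * c3 + c3))) / Real.sqrt N := by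
  have hK : 0 ≤ K := (abs_nonneg _).trans (h.b0 0)
  have hfc : Continuous f := continuous_iff_continuousAt.2 fun x => (h.d1 x).continuousAt
  have hn0 : (0:ℝ) < N := by exact_mod_cast hN
  have hsn : 0 < Real.sqrt N := Real.sqrt_pos.2 hn0
  have hs2 : Real.sqrt N ^ 2 = N := Real.sq_sqrt hn0.le
  have hM3 : ∀ a : Fin M, _ := fun a =>
    hMOM K N nc n hN hn C (fun _ => f) M s (fun _ => hfc.measurable) (fun _ => h.b0) a
      (fun x => |x| ^ 3) (by fun_prop) (fun x => by positivity) (integrable_pow_gauss 3)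
  have hE2 := integrable_E2 (C := C) (M := M) hMOM h hN hn s d
  set q3 : ℝ := 12 * K * (max k 1) ^ 6 * ((Real.sqrt N)⁻¹) ^ 3 with hq3
  have hT : (0:ℝ) ≤ max k 1 := le_trans zero_le_one (le_max_right _ _)
  have hq30 : 0 ≤ q3 := by rw [hq3]; positivity
  refine ⟨fun G => k ^ 2 / 2 * (((M : ℝ) * (K ^ 2) * c4 / N + 1) / (2 * Real.sqrt N)) +
    k ^ 2 / 2 * eE (QQ C nc n (fun _ => f) G s) (fun ω => |E2 f1 f2 d G ω|) +
    q3 * (∑ a : Fin M, (1 + eE (QQ C nc n (fun _ => f) G s) (fun ω => |hh G a (C.x ω.1)| ^ 3)) +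
      M * c3) + (1 + k ^ 2) * ((CF + 1) / 2) * ((nc : ℝ) * A), ?_, ?_, ?_⟩
  · refine Integrable.add (Integrable.add ((integrable_const _).add (hE2.const_mul _)) ?_)
      (integrable_const _)
    exact ((integrable_finsetSum _ fun a _ => (integrable_const _).add (hM3 a).1).add
      (integrable_const _)).const_mul _
  · intro G
    have hQ := QQ_isProb (C := C) (nc := nc) (n := n) (fun _ => f) G s
    unfold RG
    rw [eE_add, eE_add, eE_add, eE_const hQ, eE_smul, eE_smul, eE_smul, eE_add, eE_const hQ,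
      eE_sum]
    have e1 : ∑ a : Fin M, eE (QQ C nc n (fun _ => f) G s)
        (fun ω => 1 + |hh G a (C.x ω.1)| ^ 3) =
        ∑ a : Fin M, (1 + eE (QQ C nc n (fun _ => f) G s) (fun ω => |hh G a (C.x ω.1)| ^ 3)) :=
      Finset.sum_congr rfl fun a _ => by rw [eE_add, eE_const hQ]
    rw [e1]
    have h1 := mul_le_mul_of_nonneg_left (hF G) (by positivity : (0:ℝ) ≤ (1 + k ^ 2) / N)
    have h2 : (1 + k ^ 2) / N * ((nc : ℝ) * A * ((CF + 1) / 2) * N) =
        (1 + k ^ 2) * ((CF + 1) / 2) * ((nc : ℝ) * A) := by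
      field_simp
    rw [h2] at h1
    linarith
  · have i0 : Integrable (fun G : Fin M → Fin N → ℝ =>
        k ^ 2 / 2 * (((M : ℝ) * (K ^ 2) * c4 / N + 1) / (2 * Real.sqrt N)) +
        k ^ 2 / 2 * eE (QQ C nc n (fun _ => f) G s) (fun ω => |E2 f1 f2 d G ω|)) (gam M N) :=
      (integrable_const _).add (hE2.const_mul _)
    have i1a : ∀ a : Fin M, Integrable (fun G : Fin M → Fin N → ℝ =>
        1 + eE (QQ C nc n (fun _ => f) G s)
          (fun ω => |hh G a (C.x ω.1)| ^ 3)) (gam M N) :=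
      fun a => (integrable_const _).add (hM3 a).1
    have i1 : Integrable (fun G : Fin M → Fin N → ℝ =>
        ∑ a : Fin M, (1 + eE (QQ C nc n (fun _ => f) G s)
          (fun ω => |hh G a (C.x ω.1)| ^ 3))) (gam M N) :=
      integrable_finsetSum _ fun a _ => i1a a
    have i2 : Integrable (fun G : Fin M → Fin N → ℝ => q3 *
        (∑ a : Fin M, (1 + eE (QQ C nc n (fun _ => f) G s)
          (fun ω => |hh G a (C.x ω.1)| ^ 3)) + M * c3)) (gam M N) :=
      (i1.add (integrable_const _)).const_mul _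
    have i3 : Integrable (fun G : Fin M → Fin N → ℝ =>
        k ^ 2 / 2 * (((M : ℝ) * (K ^ 2) * c4 / N + 1) / (2 * Real.sqrt N)) +
        k ^ 2 / 2 * eE (QQ C nc n (fun _ => f) G s) (fun ω => |E2 f1 f2 d G ω|) + q3 *
        (∑ a : Fin M, (1 + eE (QQ C nc n (fun _ => f) G s)
          (fun ω => |hh G a (C.x ω.1)| ^ 3)) + M * c3)) (gam M N) := i0.add i2
    have t2 : ∫ G : Fin M → Fin N → ℝ, q3 *
        (∑ a : Fin M, (1 + eE (QQ C nc n (fun _ => f) G s)
          (fun ω => |hh G a (C.x ω.1)| ^ 3)) + M * c3) ∂(gam M N) =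
        q3 * (∑ a : Fin M, ∫ G : Fin M → Fin N → ℝ, (1 + eE (QQ C nc n (fun _ => f) G s)
        (fun ω => |hh G a (C.x ω.1)| ^ 3)) ∂(gam M N) + M * c3) := by
      rw [integral_const_mul, integral_add i1 (integrable_const _),
        integral_finsetSum _ fun a _ => i1a a]
      simp only [integral_const, probReal_univ, smul_eq_mul, one_mul]
    have t0 : ∫ G : Fin M → Fin N → ℝ,
        (k ^ 2 / 2 * (((M : ℝ) * (K ^ 2) * c4 / N + 1) / (2 * Real.sqrt N)) +
        k ^ 2 / 2 * eE (QQ C nc n (fun _ => f) G s) (fun ω => |E2 f1 f2 d G ω|)) ∂(gam M N) =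
        k ^ 2 / 2 * (((M : ℝ) * (K ^ 2) * c4 / N + 1) / (2 * Real.sqrt N)) +
        k ^ 2 / 2 * ∫ G, eE (QQ C nc n (M := M) (fun _ => f) G s) (fun ω => |E2 f1 f2 d G ω|)
          ∂(gam M N) := by
      rw [integral_add (integrable_const _) (hE2.const_mul _), integral_const_mul (k ^ 2 / 2)
        (fun G => eE (QQ C nc n (M := M) (fun _ => f) G s) (fun ω => |E2 f1 f2 d G ω|)),
        integral_const]
      simp only [probReal_univ, smul_eq_mul, one_mul]
    rw [integral_add i3 (integrable_const _), integral_add i0 i2, t0, t2, integral_const]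
    simp only [probReal_univ, smul_eq_mul, one_mul]
    have e2 : ∀ a : Fin M, ∫ G : Fin M → Fin N → ℝ, (1 + eE (QQ C nc n (fun _ => f) G s)
        (fun ω => |hh G a (C.x ω.1)| ^ 3)) ∂(gam M N) ≤ 1 + Real.exp (4 * K) * c3 := by
      intro a
      rw [integral_add (integrable_const _) (hM3 a).1]
      have := (hM3 a).2
      simp only [integral_const, probReal_univ, smul_eq_mul, one_mul]
      unfold c3
      linarith
    have e3 : ∑ a : Fin M, ∫ G : Fin M → Fin N → ℝ, (1 + eE (QQ C nc n (fun _ => f) G s)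
        (fun ω => |hh G a (C.x ω.1)| ^ 3)) ∂(gam M N) ≤ M * (1 + Real.exp (4 * K) * c3) := by
      refine (Finset.sum_le_sum fun a _ => e2 a).trans (le_of_eq ?_)
      rw [Finset.sum_const, card_univ, Fintype.card_fin, nsmul_eq_mul]
    have hc3 := c3_nonneg
    have hc4 := c4_nonneg
    -- row part
    have e4 : q3 * (∑ a : Fin M, ∫ G : Fin M → Fin N → ℝ, (1 + eE (QQ C nc n (fun _ => f) G s)
        (fun ω => |hh G a (C.x ω.1)| ^ 3)) ∂(gam M N) + M * c3) ≤
        12 * K * (max k 1) ^ 6 * (αp * (1 + Real.exp (4 * K) * c3 + c3)) / Real.sqrt N := by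
      calc q3 * (∑ a : Fin M, ∫ G : Fin M → Fin N → ℝ, (1 + eE (QQ C nc n (fun _ => f) G s)
            (fun ω => |hh G a (C.x ω.1)| ^ 3)) ∂(gam M N) + M * c3)
          ≤ q3 * (M * (1 + Real.exp (4 * K) * c3) + M * c3) := by gcongr
        _ = q3 * (M * (1 + Real.exp (4 * K) * c3 + c3)) := by ring
        _ ≤ q3 * ((αp * N) * (1 + Real.exp (4 * K) * c3 + c3)) := by
            apply mul_le_mul_of_nonneg_left _ hq30
            apply mul_le_mul_of_nonneg_right hαp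
            positivity
        _ = _ := by
            rw [hq3]
            have : ((Real.sqrt N)⁻¹) ^ 3 * (N:ℝ) = (Real.sqrt N)⁻¹ := by
              calc ((Real.sqrt N)⁻¹) ^ 3 * (N:ℝ) = ((Real.sqrt N)⁻¹) ^ 3 * (Real.sqrt N ^ 2) := by
                    rw [hs2]
                _ = (Real.sqrt N)⁻¹ := by field_simp
            calc 12 * K * max k 1 ^ 6 * ((Real.sqrt N)⁻¹) ^ 3 *
                  (αp * N * (1 + Real.exp (4 * K) * c3 + c3))
                = 12 * K * max k 1 ^ 6 * (αp * (1 + Real.exp (4 * K) * c3 + c3)) *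
                  (((Real.sqrt N)⁻¹) ^ 3 * (N:ℝ)) := by ring
              _ = _ := by rw [this]; ring
    have e5 : k ^ 2 / 2 * (((M : ℝ) * (K ^ 2) * c4 / N + 1) / (2 * Real.sqrt N)) ≤
        k ^ 2 / 2 * ((αp * K ^ 2 * c4 + 1) / 2) / Real.sqrt N := by
      have h1 : (M : ℝ) * (K ^ 2) * c4 / N ≤ αp * K ^ 2 * c4 := by
        rw [div_le_iff₀ hn0]
        have : 0 ≤ K ^ 2 * c4 := by positivity
        nlinarith
      have h2 : ((M : ℝ) * (K ^ 2) * c4 / N + 1) / (2 * Real.sqrt N) ≤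
          (αp * K ^ 2 * c4 + 1) / (2 * Real.sqrt N) := by gcongr
      calc k ^ 2 / 2 * (((M : ℝ) * (K ^ 2) * c4 / N + 1) / (2 * Real.sqrt N))
          ≤ k ^ 2 / 2 * ((αp * K ^ 2 * c4 + 1) / (2 * Real.sqrt N)) := by gcongr
        _ = _ := by field_simp
    have e6 := add_div (k ^ 2 / 2 * ((αp * K ^ 2 * c4 + 1) / 2))
      (12 * K * (max k 1) ^ 6 * (αp * (1 + Real.exp (4 * K) * c3 + c3))) (Real.sqrt N)
    rw [e6]
    linarith

/-- **(TAYC)** from (MOM) and (FLD). -/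
theorem tayc_of (hMOM : MOM) (hFLD : FLD) : TAYC := by
  intro αm K k L D hk hL hD
  obtain ⟨CF, hCF0, hCF⟩ := hFLD αm K
  set E : ℝ := Real.exp (2 * cV k L D) with hE
  have hE0 : 0 < E := Real.exp_pos _
  refine ⟨E * (k ^ 2 / 2 + (1 + k ^ 2) * ((CF + 1) / 2)), by positivity, ?_⟩
  intro ε hε
  set αp : ℝ := max αm 0 with hαp
  have hαp0 : 0 ≤ αp := le_max_right _ _
  set Q : ℝ := E * (k ^ 2 / 2 * ((αp * K ^ 2 * c4 + 1) / 2) +
    12 * |K| * (max k 1) ^ 6 * (αp * (1 + Real.exp (4 * |K|) * c3 + c3))) with hQdef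
  have hc3 := c3_nonneg
  have hc4 := c4_nonneg
  have hT : (0:ℝ) ≤ max k 1 := le_trans zero_le_one (le_max_right _ _)
  have hQ0 : 0 ≤ Q := by rw [hQdef]; positivity
  refine ⟨⌈k ^ 2⌉₊ + ⌈(Q / ε) ^ 2⌉₊ + 1, ?_⟩
  intro N hNN hN nc n hn C f f1 f2 h M A' s hM hs hA d hd1 hd2
  have hK : 0 ≤ K := (abs_nonneg _).trans (h.b0 0)
  have hKa : |K| = K := abs_of_nonneg hK
  have hfc : Continuous f := continuous_iff_continuousAt.2 fun x => (h.d1 x).continuousAt
  have hf1c : Continuous f1 := continuous_iff_continuousAt.2 fun x => (h.d2 x).continuousAt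
  have hn0 : (0:ℝ) < N := by exact_mod_cast hN
  have hsn : 0 < Real.sqrt N := Real.sqrt_pos.2 hn0
  have hcast : ((⌈k ^ 2⌉₊ + ⌈(Q / ε) ^ 2⌉₊ + 1 : ℕ) : ℝ) ≤ N := by exact_mod_cast hNN
  push_cast at hcast
  have hkN : k ^ 2 ≤ N := by
    have h1 := Nat.le_ceil (k ^ 2)
    have h2 : (0:ℝ) ≤ ⌈(Q / ε) ^ 2⌉₊ := by positivity
    linarith
  have hQN : Q / Real.sqrt N ≤ ε := by
    have h1 := Nat.le_ceil ((Q / ε) ^ 2)
    have h2 : (0:ℝ) ≤ ⌈k ^ 2⌉₊ := by positivity
    have h3 : (Q / ε) ^ 2 ≤ N := by linarith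
    have h4 : Q / ε ≤ Real.sqrt N := Real.le_sqrt_of_sq_le h3
    rw [div_le_iff₀ hsn]
    rw [div_le_iff₀ hε] at h4
    linarith
  have hMp : (M : ℝ) ≤ αp * N := hM.trans (by rw [hαp]; gcongr; exact le_max_left _ _)
  have hncA : 0 ≤ (nc : ℝ) * A' := by
    rcases Nat.eq_zero_or_pos nc with h0 | h0
    · rw [h0]; simp
    · have : 0 ≤ A' := (abs_nonneg _).trans (hs ⟨0, h0⟩)
      positivity
  have hF : ∀ G : Fin M → Fin N → ℝ, eE (QQ C nc n (fun _ => f) G s) (fun ω => |fieldE s ω|) ≤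
      (nc : ℝ) * A' * ((CF + 1) / 2) * N := fun G =>
    eE_field_le (f := fun _ => f) G hs fun g =>
      hCF N nc n hN hn C (fun _ => f) M G A' s hM (fun _ => h.b0) hs hA g
  obtain ⟨R', hR'i, hR'le, hR'int⟩ := int_RG (C := C) (M := M) (k := k) hMOM h hN hn d hMp hF
  have hcol : ∀ G : Fin M → Fin N → ℝ, _ := fun G =>
    col_ge (C := C) (nc := nc) (n := n) hk hL hD hd1 h hN hkN G s
  have iV := (integrable_F (C := C) (nc := nc) (n := n) (M := M) (f := fun _ => f)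
    (fun _ => hfc.measurable) s
    (V := fun G g0 ω => dV C nc n k f G g0 s ω) (meas_dV hk hfc s)
    (B := (2 * M * K + (1 + k ^ 2) / N * fB C nc n s) - Real.log (kap k))
    (fun G g0 ω => dV_abs hk h hN hkN G g0 s ω)).2
  have iL := (integrable_F (C := C) (nc := nc) (n := n) (M := M) (f := fun _ => f)
    (fun _ => hfc.measurable) s
    (V := fun G g0 ω => LamT k d L (∑ a, Wv C nc n f1 G ω a * g0 a)) (meas_LamT hk d L hf1c)
    (B := cV k L D) (fun G g0 ω => LamT_abs hk hd1 hD hL _)).2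
  have hpt : ∀ G : Fin M → Fin N → ℝ, (∫ g0, eE (QQ C nc n (fun _ => f) G s)
      (A (QQ C nc n (fun _ => f) G s) (fil C nc n) (xs nc n)
        (fun ω => LamT k d L (∑ a, Wv C nc n f1 G ω a * g0 a)) 0) ∂(gv M)) - E * R' G ≤
      ∫ g0, eE (QQ C nc n (fun _ => f) G s) (A (QQ C nc n (fun _ => f) G s) (fil C nc n)
        (xs nc n) (dV C nc n k f G g0 s) 0) ∂(gv M) := by
    intro G
    have h1 := hcol G
    have h2 := mul_le_mul_of_nonneg_left (hR'le G) hE0.le
    linarith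
  have iS : Integrable (fun G : Fin M → Fin N → ℝ => (∫ g0, eE (QQ C nc n (fun _ => f) G s)
      (A (QQ C nc n (fun _ => f) G s) (fil C nc n) (xs nc n)
        (fun ω => LamT k d L (∑ a, Wv C nc n f1 G ω a * g0 a)) 0) ∂(gv M)) - E * R' G)
      (gam M N) := iL.sub (hR'i.const_mul E)
  have hint := integral_mono (μ := gam M N) iS iV hpt
  rw [integral_sub iL (hR'i.const_mul E), integral_const_mul] at hint
  have h5 := mul_le_mul_of_nonneg_left hR'int hE0.le
  set X : ℝ := ∫ G, eE (QQ C nc n (M := M) (fun _ => f) G s) (fun ω => |E2 f1 f2 d G ω|)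
    ∂(gam M N) with hX
  have hX0 : 0 ≤ X := integral_nonneg fun G =>
    eE_nonneg (QQ_isProb (fun _ => f) G s) fun ω => abs_nonneg _
  have h6 : E * ((k ^ 2 / 2 * ((αp * K ^ 2 * c4 + 1) / 2) +
      12 * K * (max k 1) ^ 6 * (αp * (1 + Real.exp (4 * K) * c3 + c3))) / Real.sqrt N) ≤ ε := by
    have : E * ((k ^ 2 / 2 * ((αp * K ^ 2 * c4 + 1) / 2) +
      12 * K * (max k 1) ^ 6 * (αp * (1 + Real.exp (4 * K) * c3 + c3))) / Real.sqrt N) =
      Q / Real.sqrt N := by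
      rw [hQdef, hKa]; ring
    rw [this]; exact hQN
  have h7 : E * (k ^ 2 / 2 * X + (1 + k ^ 2) * ((CF + 1) / 2) * ((nc : ℝ) * A')) ≤
      E * (k ^ 2 / 2 + (1 + k ^ 2) * ((CF + 1) / 2)) * X +
      E * (k ^ 2 / 2 + (1 + k ^ 2) * ((CF + 1) / 2)) * ((nc : ℝ) * A') := by
    have a1 : 0 ≤ E * ((1 + k ^ 2) * ((CF + 1) / 2)) * X := by positivity
    have a2 : 0 ≤ E * (k ^ 2 / 2) * ((nc : ℝ) * A') := by positivity
    nlinarith
  have hXe : X = ∫ G, eE (QQ C nc n (M := M) (fun _ => f) G s)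
      (fun ω => |RS C nc n f2 (fun _ => 1) G ω ω - RS C nc n f1 (fun x => x) G ω ω - d|)
        ∂(gam M N) := rfl
  rw [← hXe]
  rw [mul_add, mul_add] at h5
  rw [mul_add] at h7
  linarith

end

end Crest.Agent.R146.L3Tay_663
end

-- ▼ part R146/Crude_663
section

/-!
Row 146, S0206, lower bound, node CRUDE of `S6L_988` (helper663):
`crude_of : NEWC → MOM → FLD → CRUDE`.
-/

set_option autoImplicit false

namespace Crest.Agent.R146.Crude_663

open Finset MeasureTheory ProbabilityTheory Crest.Agent.R141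
open Crest.Agent.R146.S6Def_988 Crest.Agent.R146.S6U_988 Crest.Agent.R146.S6L_988
open Crest.Agent.R146.FobL_998 Crest.Agent.R146.L3Tay_663

noncomputable section

/-- the first absolute moment -/
def c1 : ℝ := ∫ x, |x| ∂(gaussianReal 0 1)

theorem c1_nonneg : 0 ≤ c1 := integral_nonneg fun _ => abs_nonneg _

/-- mean of the quadratic coefficient -/
theorem int_E2_le (hMOM : MOM) {N : ℕ} {C : Cfg N} {nc n M : ℕ} {K : ℝ} {f f1 f2 : ℝ → ℝ}
    (h : S6L_988.S3 K f f1 f2) (hN : 0 < N) (hn : 0 < n) (s : Fin nc → ℝ) {αp : ℝ}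
    (hM : (M : ℝ) ≤ αp * N) :
    ∫ G, eE (QQ C nc n (M := M) (fun _ => f) G s) (fun ω => |E2 f1 f2 0 G ω|) ∂(gam M N) ≤
      αp * (K + K * (Real.exp (4 * K) * c1)) := by
  have hK : 0 ≤ K := (abs_nonneg _).trans (h.b0 0)
  have hfc : Continuous f := continuous_iff_continuousAt.2 fun x => (h.d1 x).continuousAt
  have hn0 : (0:ℝ) < N := by exact_mod_cast hN
  have hi : ∀ a : Fin M, _ := fun a =>
    hMOM K N nc n hN hn C (fun _ => f) M s (fun _ => hfc.measurable) (fun _ => h.b0) a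
      (fun x => |x|) (by fun_prop) (fun x => abs_nonneg x) (by
        have := integrable_pow_gauss 1
        simpa using this)
  have ia : ∀ a : Fin M, Integrable (fun G : Fin M → Fin N → ℝ =>
      K + K * eE (QQ C nc n (fun _ => f) G s) (fun ω => |hh G a (C.x ω.1)|)) (gam M N) :=
    fun a => (integrable_const _).add ((hi a).1.const_mul _)
  have is : Integrable (fun G : Fin M → Fin N → ℝ =>
      (N:ℝ)⁻¹ * ∑ a : Fin M, (K + K * eE (QQ C nc n (fun _ => f) G s)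
        (fun ω => |hh G a (C.x ω.1)|))) (gam M N) :=
    (integrable_finsetSum _ fun a _ => ia a).const_mul _
  have hpt : ∀ G : Fin M → Fin N → ℝ, eE (QQ C nc n (fun _ => f) G s)
      (fun ω => |E2 f1 f2 0 G ω|) ≤ (N:ℝ)⁻¹ * ∑ a : Fin M, (K + K *
        eE (QQ C nc n (fun _ => f) G s) (fun ω => |hh G a (C.x ω.1)|)) := by
    intro G
    have hQ := QQ_isProb (C := C) (nc := nc) (n := n) (fun _ => f) G s
    have h1 : ∀ ω : Om C nc n, |E2 f1 f2 0 G ω| ≤
        (N:ℝ)⁻¹ * (∑ a : Fin M, (K + K * |hh G a (C.x ω.1)|)) := by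
      intro ω
      unfold E2 RS
      rw [sub_zero, ← mul_sub, ← Finset.sum_sub_distrib, abs_mul, abs_of_pos (inv_pos.2 hn0)]
      refine mul_le_mul_of_nonneg_left ?_ (inv_pos.2 hn0).le
      refine (Finset.abs_sum_le_sum_abs _ _).trans (Finset.sum_le_sum fun a _ => ?_)
      refine (abs_sub _ _).trans ?_
      rw [mul_one, abs_mul]
      exact add_le_add (h.b2 _) (mul_le_mul_of_nonneg_right (h.b1 _) (abs_nonneg _))
    refine (eE_mono hQ h1).trans (le_of_eq ?_)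
    rw [eE_smul, eE_sum]
    congr 1
    refine Finset.sum_congr rfl fun a _ => ?_
    rw [eE_add, eE_const hQ, eE_smul]
  refine (integral_mono (integrable_E2 hMOM h hN hn s 0) is hpt).trans ?_
  rw [integral_const_mul, integral_finsetSum _ fun a _ => ia a]
  have e1 : ∀ a : Fin M, ∫ G : Fin M → Fin N → ℝ, (K + K * eE (QQ C nc n (fun _ => f) G s)
      (fun ω => |hh G a (C.x ω.1)|)) ∂(gam M N) ≤ K + K * (Real.exp (4 * K) * c1) := by
    intro a
    rw [integral_add (integrable_const _) ((hi a).1.const_mul _), integral_const_mul,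
      integral_const]
    simp only [probReal_univ, smul_eq_mul, one_mul]
    have := mul_le_mul_of_nonneg_left (hi a).2 hK
    unfold c1
    linarith
  have e2 := Finset.sum_le_sum fun a (_ : a ∈ (univ : Finset (Fin M))) => e1 a
  rw [Finset.sum_const, card_univ, Fintype.card_fin, nsmul_eq_mul] at e2
  have hc := c1_nonneg
  have hpos : 0 ≤ K + K * (Real.exp (4 * K) * c1) := by positivity
  calc (N:ℝ)⁻¹ * ∑ a : Fin M, ∫ G : Fin M → Fin N → ℝ, (K + K *
        eE (QQ C nc n (fun _ => f) G s) (fun ω => |hh G a (C.x ω.1)|)) ∂(gam M N)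
      ≤ (N:ℝ)⁻¹ * (M * (K + K * (Real.exp (4 * K) * c1))) := by gcongr
    _ ≤ (N:ℝ)⁻¹ * ((αp * N) * (K + K * (Real.exp (4 * K) * c1))) := by gcongr
    _ = _ := by field_simp

theorem crude_of (hNEWC : NEWC) (hMOM : MOM) (hFLD : FLD) : CRUDE := by
  intro αm K
  have hTAYC := tayc_of hMOM hFLD
  obtain ⟨Cst, hCst, hT⟩ := hTAYC αm K 1 0 0 one_pos le_rfl le_rfl
  obtain ⟨N1, hT⟩ := hT 1 one_pos
  obtain ⟨N2, hNw⟩ := hNEWC 1 K K 1 1 one_pos one_pos
  set αp : ℝ := max αm 0 with hαp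
  have hαp0 : 0 ≤ αp := le_max_right _ _
  have hc := c1_nonneg
  refine ⟨cV 1 0 0 + Cst * (αp * (|K| + |K| * (Real.exp (4 * |K|) * c1))) + Cst + 2, ?_,
    max N1 N2, ?_⟩
  · have := cV_nonneg (k := 1) (L := 0) (D := 0) le_rfl
    positivity
  intro N hNN hN nc n M hn hM A hA
  obtain ⟨δ, hδ, hNw⟩ := hNw N ((le_max_right _ _).trans hNN) hN nc n M hn
  refine ⟨δ, hδ, ?_⟩
  intro C C1 hC hC1 f f1 f2 h s hs
  have hK : 0 ≤ K := (abs_nonneg _).trans (h.b0 0)
  have hKa : |K| = K := abs_of_nonneg hK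
  have hf1c : Continuous f1 := continuous_iff_continuousAt.2 fun x => (h.d2 x).continuousAt
  have hfc : Continuous f := continuous_iff_continuousAt.2 fun x => (h.d1 x).continuousAt
  have hBL : BL K K f := by
    refine ⟨h.b0, fun x y => ?_⟩
    have := Convex.norm_image_sub_le_of_norm_hasDerivWithin_le (f := f) (f' := f1) (C := K)
      (s := Set.univ) (x := y) (y := x) (fun z _ => (h.d1 z).hasDerivWithinAt)
      (fun z _ => by rw [Real.norm_eq_abs]; exact h.b1 z) convex_univ (Set.mem_univ _)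
      (Set.mem_univ _)
    simpa [Real.norm_eq_abs] using this
  have hs1 : ∀ g, |s g| ≤ 1 := by
    intro g
    have hnc : 1 ≤ (nc : ℝ) := by
      have : 0 < nc := lt_of_le_of_lt (Nat.zero_le _) g.2
      exact_mod_cast this
    have hA0 : 0 ≤ A := (abs_nonneg _).trans (hs g)
    have : A ≤ 1 := by nlinarith
    exact (hs g).trans this
  have hncA : 0 ≤ (nc : ℝ) * A := by
    rcases Nat.eq_zero_or_pos nc with h0 | h0
    · rw [h0]; simp
    · have : 0 ≤ A := (abs_nonneg _).trans (hs ⟨0, h0⟩)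
      positivity
  have h1 := hNw C C1 hC hC1 f hBL s hs1
  have h2 := hT N ((le_max_left _ _).trans hNN) hN nc n hn C f f1 f2 h M A s hM hs hA 0
    (by simp) le_rfl
  have hMp : (M : ℝ) ≤ αp * N := hM.trans (by rw [hαp]; gcongr; exact le_max_left _ _)
  have h3 := int_E2_le (C := C) (nc := nc) hMOM h hN hn s hMp
  have h3' : ∫ G, eE (QQ C nc n (M := M) (fun _ => f) G s)
      (fun ω => |RS C nc n f2 (fun _ => 1) G ω ω - RS C nc n f1 (fun x => x) G ω ω - 0|)
        ∂(gam M N) ≤ αp * (K + K * (Real.exp (4 * K) * c1)) := h3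
  have iL := (integrable_F (C := C) (nc := nc) (n := n) (M := M) (f := fun _ => f)
    (fun _ => hfc.measurable) s
    (V := fun G g0 ω => LamT 1 0 0 (∑ a, Wv C nc n f1 G ω a * g0 a))
    (meas_LamT one_pos 0 0 hf1c)
    (B := cV 1 0 0) (fun G g0 ω => LamT_abs one_pos (by simp) le_rfl le_rfl _))
  have h4 : -cV 1 0 0 ≤ ∫ G, (∫ g0, eE (QQ C nc n (M := M) (fun _ => f) G s)
      (Crest.Agent.R141.A (QQ C nc n (M := M) (fun _ => f) G s) (fil C nc n) (xs nc n)
        (fun ω => LamT 1 0 0 (∑ a, Wv C nc n f1 G ω a * g0 a)) 0) ∂(gv M)) ∂(gam M N) := by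
    have a1 : ∀ G : Fin M → Fin N → ℝ, -cV 1 0 0 ≤
        ∫ g0, eE (QQ C nc n (M := M) (fun _ => f) G s)
        (Crest.Agent.R141.A (QQ C nc n (M := M) (fun _ => f) G s) (fil C nc n) (xs nc n)
        (fun ω => LamT 1 0 0 (∑ a, Wv C nc n f1 G ω a * g0 a)) 0) ∂(gv M) := by
      intro G
      have a2 : ∀ g0 : Fin M → ℝ, -cV 1 0 0 ≤ eE (QQ C nc n (M := M) (fun _ => f) G s)
          (Crest.Agent.R141.A (QQ C nc n (M := M) (fun _ => f) G s) (fil C nc n) (xs nc n)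
          (fun ω => LamT 1 0 0 (∑ a, Wv C nc n f1 G ω a * g0 a)) 0) := fun g0 =>
        (abs_le.1 (eE_A_abs (QQ_isProb (fun _ => f) G s) (xs_isExpo nc n).pos
          (fun ω => LamT_abs one_pos (by simp) le_rfl le_rfl _))).1
      have a3 := integral_mono (μ := gv M) (integrable_const (-cV 1 0 0)) (iL.1 G) a2
      simpa using a3
    have a4 := integral_mono (μ := gam M N) (integrable_const (-cV 1 0 0)) iL.2 a1
    simpa using a4
  have h5 : Cst * ∫ G, eE (QQ C nc n (M := M) (fun _ => f) G s)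
      (fun ω => |RS C nc n f2 (fun _ => 1) G ω ω - RS C nc n f1 (fun x => x) G ω ω - 0|)
        ∂(gam M N) ≤ Cst * (αp * (K + K * (Real.exp (4 * K) * c1))) :=
    mul_le_mul_of_nonneg_left h3' hCst
  have h6 : Cst * ((nc : ℝ) * A) ≤ Cst * 1 := mul_le_mul_of_nonneg_left hA hCst
  rw [hKa]
  linarith

end

end Crest.Agent.R146.Crude_663
end

-- ▼ part R146/S6Spc_311
section

/-!
Row 146, statement S0206: node `S6L_988.SPC` (continuity of the entropy in the levels), helper311.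
-/

set_option autoImplicit false

namespace Crest.Agent.R146.S6Spc_311

open Finset Crest.Agent.R146.S6Def_988 Crest.Agent.R146.S6L_988

theorem DP_ge {J : ℕ} {P : ℕ → ℝ} (h : Lev J P) {κ : ℝ} (hκ : κ ≤ 1 - P J) (j : ℕ) :
    κ ≤ DP J P j := by
  unfold DP
  have : 0 ≤ ∑ k ∈ Ico (j + 1) (J + 1), ((k : ℝ) / ((J : ℝ) + 1)) * (P k - P (k - 1)) := by
    apply Finset.sum_nonneg
    intro k hk
    rw [Finset.mem_Ico] at hk
    have := h.mono (k - 1) k (by omega) (by omega)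
    apply mul_nonneg (by positivity)
    linarith
  linarith

theorem DP_diff {J : ℕ} {P P' : ℕ → ℝ} {e : ℝ} (he : 0 ≤ e) (hd : ∀ j ≤ J, |P j - P' j| ≤ e)
    (j : ℕ) : |DP J P j - DP J P' j| ≤ (2 * (J : ℝ) + 1) * e := by
  have h1 : DP J P j - DP J P' j = -(P J - P' J) + ∑ k ∈ Ico (j + 1) (J + 1),
      ((k : ℝ) / ((J : ℝ) + 1)) * ((P k - P' k) - (P (k - 1) - P' (k - 1))) := by
    have h2 : ∑ k ∈ Ico (j + 1) (J + 1),
        ((k : ℝ) / ((J : ℝ) + 1)) * ((P k - P' k) - (P (k - 1) - P' (k - 1))) =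
        ∑ k ∈ Ico (j + 1) (J + 1), ((k : ℝ) / ((J : ℝ) + 1)) * (P k - P (k - 1)) -
        ∑ k ∈ Ico (j + 1) (J + 1), ((k : ℝ) / ((J : ℝ) + 1)) * (P' k - P' (k - 1)) := by
      rw [← Finset.sum_sub_distrib]
      exact Finset.sum_congr rfl fun k _ => by ring
    rw [h2]
    unfold DP
    ring
  have h3 : |∑ k ∈ Ico (j + 1) (J + 1),
      ((k : ℝ) / ((J : ℝ) + 1)) * ((P k - P' k) - (P (k - 1) - P' (k - 1)))| ≤
      (J : ℝ) * (2 * e) := by
    refine (Finset.abs_sum_le_sum_abs _ _).trans ?_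
    refine (Finset.sum_le_sum (g := fun _ => 2 * e) fun k hk => ?_).trans ?_
    · rw [Finset.mem_Ico] at hk
      rw [abs_mul]
      have h4 : |(k : ℝ) / ((J : ℝ) + 1)| ≤ 1 := by
        rw [abs_of_nonneg (by positivity), div_le_one (by positivity)]
        have : k ≤ J + 1 := by omega
        exact_mod_cast this
      have h5 : |(P k - P' k) - (P (k - 1) - P' (k - 1))| ≤ 2 * e := by
        have a1 := abs_le.1 (hd k (by omega))
        have a2 := abs_le.1 (hd (k - 1) (by omega))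
        rw [abs_le]
        constructor <;> linarith [a1.1, a1.2, a2.1, a2.2]
      calc |(k : ℝ) / ((J : ℝ) + 1)| * |(P k - P' k) - (P (k - 1) - P' (k - 1))| ≤ 1 * (2 * e) :=
            mul_le_mul h4 h5 (abs_nonneg _) zero_le_one
        _ = 2 * e := one_mul _
    · rw [Finset.sum_const, Nat.card_Ico, nsmul_eq_mul]
      apply mul_le_mul_of_nonneg_right _ (by positivity)
      have : J + 1 - (j + 1) ≤ J := by omega
      exact_mod_cast this
  rw [h1]
  have h6 := hd J le_rfl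
  calc _ ≤ |-(P J - P' J)| + _ := abs_add_le _ _
    _ ≤ e + (J : ℝ) * (2 * e) := by rw [abs_neg]; exact add_le_add h6 h3
    _ = (2 * (J : ℝ) + 1) * e := by ring

theorem log_diff {κ a b : ℝ} (hκ : 0 < κ) (ha : κ ≤ a) (hb : κ ≤ b) :
    |Real.log a - Real.log b| ≤ |a - b| / κ := by
  have key : ∀ x y : ℝ, κ ≤ x → κ ≤ y → Real.log x - Real.log y ≤ |x - y| / κ := by
    intro x y hx hy
    have hx0 : 0 < x := hκ.trans_le hx
    have hy0 : 0 < y := hκ.trans_le hy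
    rw [← Real.log_div hx0.ne' hy0.ne']
    calc Real.log (x / y) ≤ x / y - 1 := Real.log_le_sub_one_of_pos (by positivity)
      _ = (x - y) / y := by field_simp
      _ ≤ |x - y| / y := by gcongr; exact le_abs_self _
      _ ≤ |x - y| / κ := by gcongr
  rw [abs_le]
  constructor
  · have := key b a hb ha
    rw [abs_sub_comm] at this
    linarith
  · exact key a b ha hb

/-- (SPC): continuity of the entropy in the levels. -/
theorem spc : SPC := by
  intro J κ ε hκ hε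
  set c : ℝ := 2 * (J : ℝ) + 1 with hc
  set Q : ℝ := 1 / κ + c / κ ^ 2 + (J : ℝ) * (((J : ℝ) + 1) * (2 * c / κ)) + c / κ with hQ
  have hc0 : 0 < c := by positivity
  have hQ0 : 0 < Q := by positivity
  refine ⟨ε / Q, by positivity, ?_⟩
  intro P P' hP hP' hk hk' hd
  set e : ℝ := ε / Q with he
  have he0 : 0 ≤ e := by positivity
  have hD := DP_ge hP hk
  have hD' := DP_ge hP' hk'
  have hdiff := DP_diff he0 hd
  have hlog : ∀ j, |Real.log (DP J P j) - Real.log (DP J P' j)| ≤ c * e / κ := fun j =>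
    (log_diff hκ (hD j) (hD' j)).trans (by gcongr; exact hdiff j)
  -- first term
  have hT1 : |P 0 / DP J P 0 - P' 0 / DP J P' 0| ≤ e / κ + c * e / κ ^ 2 := by
    have hD0 : 0 < DP J P 0 := hκ.trans_le (hD 0)
    have hD0' : 0 < DP J P' 0 := hκ.trans_le (hD' 0)
    have hid : P 0 / DP J P 0 - P' 0 / DP J P' 0 =
        (P 0 - P' 0) / DP J P 0 + P' 0 * ((DP J P' 0 - DP J P 0) / (DP J P 0 * DP J P' 0)) := by
      field_simp
      ring
    rw [hid]
    refine (abs_add_le _ _).trans (add_le_add ?_ ?_)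
    · rw [abs_div, abs_of_pos hD0]
      exact div_le_div₀ he0 (hd 0 (Nat.zero_le _)) hκ (hD 0)
    · rw [abs_mul, abs_div, abs_of_nonneg hP'.nonneg, abs_of_pos (mul_pos hD0 hD0')]
      have hP1 : P' 0 ≤ 1 := (hP'.mono 0 J (Nat.zero_le _) le_rfl).trans hP'.le_one
      have h7 : |DP J P' 0 - DP J P 0| / (DP J P 0 * DP J P' 0) ≤ c * e / κ ^ 2 := by
        rw [abs_sub_comm]
        refine div_le_div₀ (by positivity) (hdiff 0) (by positivity) ?_
        rw [pow_two]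
        exact mul_le_mul (hD 0) (hD' 0) hκ.le (by linarith)
      calc P' 0 * (|DP J P' 0 - DP J P 0| / (DP J P 0 * DP J P' 0)) ≤ 1 * (c * e / κ ^ 2) :=
            mul_le_mul hP1 h7 (by positivity) zero_le_one
        _ = c * e / κ ^ 2 := one_mul _
  -- the sum
  have hT2 : |∑ j ∈ Ico 1 (J + 1), (((J : ℝ) + 1) / j) * Real.log (DP J P (j - 1) / DP J P j) -
      ∑ j ∈ Ico 1 (J + 1), (((J : ℝ) + 1) / j) * Real.log (DP J P' (j - 1) / DP J P' j)| ≤
      (J : ℝ) * (((J : ℝ) + 1) * (2 * (c * e / κ))) := by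
    rw [← Finset.sum_sub_distrib]
    refine (Finset.abs_sum_le_sum_abs _ _).trans ?_
    refine (Finset.sum_le_sum (g := fun _ => ((J : ℝ) + 1) * (2 * (c * e / κ))) fun j hj => ?_).trans
      ?_
    · rw [Finset.mem_Ico] at hj
      have hj0 : (1 : ℝ) ≤ j := by exact_mod_cast hj.1
      rw [← mul_sub, abs_mul]
      have h8 : |((J : ℝ) + 1) / j| ≤ (J : ℝ) + 1 := by
        rw [abs_of_nonneg (by positivity)]
        exact div_le_self (by positivity) hj0
      have h9 : |Real.log (DP J P (j - 1) / DP J P j) - Real.log (DP J P' (j - 1) / DP J P' j)| ≤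
          2 * (c * e / κ) := by
        rw [Real.log_div (hκ.trans_le (hD _)).ne' (hκ.trans_le (hD _)).ne',
          Real.log_div (hκ.trans_le (hD' _)).ne' (hκ.trans_le (hD' _)).ne']
        have b1 := abs_le.1 (hlog (j - 1))
        have b2 := abs_le.1 (hlog j)
        rw [abs_le]
        constructor <;> linarith [b1.1, b1.2, b2.1, b2.2]
      exact mul_le_mul h8 h9 (abs_nonneg _) (by positivity)
    · rw [Finset.sum_const, Nat.card_Ico, nsmul_eq_mul]
      apply le_of_eq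
      simp
  have hT3 := hlog J
  have hfin : |SP J P - SP J P'| ≤ 1 / 2 * (e / κ + c * e / κ ^ 2 +
      (J : ℝ) * (((J : ℝ) + 1) * (2 * (c * e / κ))) + c * e / κ) := by
    unfold SP
    rw [← mul_sub, abs_mul, abs_of_pos (by norm_num : (0 : ℝ) < 1 / 2)]
    refine mul_le_mul_of_nonneg_left ?_ (by norm_num)
    have c1 := abs_le.1 hT1
    have c2 := abs_le.1 hT2
    have c3 := abs_le.1 hT3
    rw [abs_le]
    constructor <;> linarith [c1.1, c1.2, c2.1, c2.2, c3.1, c3.2]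
  have hsum : e / κ + c * e / κ ^ 2 +
      (J : ℝ) * (((J : ℝ) + 1) * (2 * (c * e / κ))) + c * e / κ = Q * e := by
    rw [hQ]; ring
  rw [hsum] at hfin
  have hQe : Q * e = ε := by rw [he]; field_simp
  rw [hQe] at hfin
  linarith

end Crest.Agent.R146.S6Spc_311
end

-- ▼ part R146/S6Skadd_495

/-!
Row 146, S0206, lower bound, node SKADD (helper495): a skeleton stays a skeleton when a row is added.
-/

set_option autoImplicit false

namespace Crest.Agent.R146.S6Skadd_495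

open Finset MeasureTheory ProbabilityTheory Crest.Agent.R141
open Crest.Agent.R146.S6Def_988 Crest.Agent.R146.S6U_988 Crest.Agent.R146.S6L_988
open Crest.Agent.R146.CavInc_769 Crest.Agent.R146.CavAsm_769

noncomputable section

section abs

variable {Ω : Type} [Fintype Ω] {P : Ω → ℝ} {𝓕 : Filt Ω} {x : ℕ → ℝ}

/-- the pair form of a nonnegative function under a bounded tilt. -/
theorem pE_tl_le (hP : IsProb P) (hx : IsExpo x) {V : Ω → ℝ} {a : ℝ} (h : ∀ ω, |V ω| ≤ a)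
    {Ψ : Ω → Ω → ℝ} (hΨ : ∀ u v, 0 ≤ Ψ u v) (k : ℕ) :
    pE (tl P 𝓕 x V) (𝓕.F k) Ψ ≤ Real.exp (4 * a) * pE P (𝓕.F k) Ψ := by
  unfold pE
  have hQ : IsProb (tl P 𝓕 x V) := tl_isProb hP hx.pos V
  have h1 : eE (tl P 𝓕 x V) (fun u => cE (tl P 𝓕 x V) (𝓕.F k) (fun v => Ψ u v) u) ≤
      eE (tl P 𝓕 x V) (fun u => Real.exp (2 * a) * cE P (𝓕.F k) (fun v => Ψ u v) u) :=
    eE_mono hQ fun u => cE_tl_le hP hx h (fun v => hΨ u v) k u
  have h2 := eE_tl_le (𝓕 := 𝓕) hP hx h (f := fun u => cE P (𝓕.F k) (fun v => Ψ u v) u)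
    (fun u => cE_nonneg hP (fun v => hΨ u v) u)
  rw [eE_smul] at h1
  refine h1.trans ((mul_le_mul_of_nonneg_left h2 (Real.exp_pos _).le).trans (le_of_eq ?_))
  rw [← mul_assoc, ← Real.exp_add]
  congr 2
  ring

theorem pE_sub (P : Ω → ℝ) (r : Setoid Ω) (Ψ Ψ' : Ω → Ω → ℝ) :
    pE P r (fun u v => Ψ u v - Ψ' u v) = pE P r Ψ - pE P r Ψ' := by
  unfold pE
  rw [← eE_sub]
  congr 1
  funext u
  exact cE_sub P r _ _ u

theorem pE_const (hP : IsProb P) (r : Setoid Ω) (c : ℝ) : pE P r (fun _ _ => c) = c := by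
  unfold pE
  have : (fun a : Ω => cE P r (fun _ => c) a) = fun _ => c := by
    funext a; exact cE_const hP r c a
  rw [this, eE_const hP]

theorem pE_abs_le (hP : IsProb P) (r : Setoid Ω) (Ψ : Ω → Ω → ℝ) :
    |pE P r Ψ| ≤ pE P r (fun u v => |Ψ u v|) := by
  unfold pE
  exact (eE_abs_le hP _).trans (eE_mono hP fun u => cE_abs_le hP _ u)

theorem pE_mono (hP : IsProb P) (r : Setoid Ω) {Ψ Ψ' : Ω → Ω → ℝ} (h : ∀ u v, Ψ u v ≤ Ψ' u v) :
    pE P r Ψ ≤ pE P r Ψ' := by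
  unfold pE
  exact eE_mono hP fun u => cE_mono' hP (fun v => h u v) u

theorem pE_add (P : Ω → ℝ) (r : Setoid Ω) (Ψ Ψ' : Ω → Ω → ℝ) :
    pE P r (fun u v => Ψ u v + Ψ' u v) = pE P r Ψ + pE P r Ψ' := by
  unfold pE
  rw [← eE_add]
  congr 1
  funext u
  exact cE_add P r _ _ u

/-- the overlap of two conditionally independent copies = squared norm of the conditional mean. -/
theorem pE_ip {κ : Type} [Fintype κ] (hP : IsProb P) (r : Setoid Ω) (y : Ω → κ → ℝ) :
    pE P r (fun u v => ∑ i, y u i * y v i) =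
      eE P (fun ω => ∑ i, (cE P r (fun a => y a i) ω) ^ 2) := by
  unfold pE
  have h1 : (fun u : Ω => cE P r (fun v => ∑ i, y u i * y v i) u) =
      fun u => ∑ i, y u i * cE P r (fun a => y a i) u := by
    funext u
    rw [cE_sum]
    refine Finset.sum_congr rfl fun i _ => ?_
    rw [cE_smul]
  rw [h1, eE_sum, eE_sum]
  refine Finset.sum_congr rfl fun i _ => ?_
  rw [← eE_cE hP r (fun u => y u i * cE P r (fun a => y a i) u)]
  congr 1
  funext u
  have := cE_mul_right (P := P) (cE_meas P r (fun a => y a i)) (fun a => y a i) u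
  rw [this, sq]

end abs

section

variable {N : ℕ} {C : Cfg N} {nc n : ℕ}

theorem pf_snoc_le {K : ℝ} {M : ℕ} {f : ℕ → ℝ → ℝ} (hK : ∀ a x, |f a x| ≤ K) (s : Fin nc → ℝ)
    (k : ℕ) (c : ℝ) (G : Fin M → Fin N → ℝ) (g : Fin N → ℝ) :
    pf C nc n f s k c (Fin.snoc (α := fun _ => Fin N → ℝ) G g : Fin (M + 1) → Fin N → ℝ) ≤
      Real.exp (4 * K) * pf C nc n f s k c G := by
  unfold pf
  rw [QQ_snoc]
  exact pE_tl_le (QQ_isProb f G s) (xs_expo nc n) (fun ω => hK _ _) (fun _ _ => abs_nonneg _) k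

theorem int_pf_succ_le {K : ℝ} {f : ℕ → ℝ → ℝ} (hf : ∀ a, Measurable (f a))
    (hK : ∀ a x, |f a x| ≤ K) (M : ℕ) (s : Fin nc → ℝ) (k : ℕ) (c : ℝ) :
    ∫ G, pf (M := M + 1) C nc n f s k c G ∂(gam (M + 1) N) ≤
      Real.exp (4 * K) * ∫ G, pf (M := M) C nc n f s k c G ∂(gam M N) := by
  have hi := integrable_pf (C := C) (nc := nc) (n := n) (M := M + 1) hf s k c
  rw [integral_gam_succ hi, ← integral_const_mul]
  refine integral_mono ?_ ((integrable_pf hf s k c).const_mul _) fun G => ?_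
  · exact (integrable_gam_succ hi).integral_prod_left
  · have h1 : ∀ g : Fin N → ℝ, pf C nc n f s k c
        (Fin.snoc (α := fun _ => Fin N → ℝ) G g : Fin (M + 1) → Fin N → ℝ) ≤
        Real.exp (4 * K) * pf C nc n f s k c G := fun g => pf_snoc_le hK s k c G g
    have h0 : ∀ g : Fin N → ℝ, 0 ≤ pf C nc n f s k c
        (Fin.snoc (α := fun _ => Fin N → ℝ) G g : Fin (M + 1) → Fin N → ℝ) :=
      fun g => pf_nonneg f s k c _
    have h2 := integral_mono_of_nonneg (μ := Measure.pi fun _ : Fin N => gaussianReal 0 1)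
      (ae_of_all _ h0) (integrable_const (Real.exp (4 * K) * pf C nc n f s k c G))
      (ae_of_all _ h1)
    simpa using h2

theorem rk_eq_pE {M : ℕ} (f : ℕ → ℝ → ℝ) (G : Fin M → Fin N → ℝ) (s : Fin nc → ℝ) (k : ℕ) :
    rk C nc n f G s k =
      pE (QQ C nc n f G s) ((fil C nc n).F k) (fun a b => ovl C nc n a b) := by
  unfold rk
  simp_rw [ovl_eq]
  exact (pE_ip (QQ_isProb f G s) _ (xn C nc n)).symm

theorem rk_sub_le {M : ℕ} (f : ℕ → ℝ → ℝ) (G : Fin M → Fin N → ℝ) (s : Fin nc → ℝ) (k : ℕ)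
    (c : ℝ) : |rk C nc n f G s k - c| ≤ pf C nc n f s k c G := by
  have hQ := QQ_isProb (C := C) (n := n) f G s
  rw [rk_eq_pE]
  have h := pE_sub (QQ C nc n f G s) ((fil C nc n).F k) (fun a b => ovl C nc n a b) (fun _ _ => c)
  rw [pE_const hQ] at h
  rw [← h]
  exact pE_abs_le hQ _ _

theorem Rk_sub_le (hN : 0 < N) {f : ℕ → ℝ → ℝ} (hf : ∀ a, Measurable (f a)) (M : ℕ)
    (s : Fin nc → ℝ) (k : ℕ) (c : ℝ) :
    |Rk C nc n f M s k - c| ≤ ∫ G, pf (M := M) C nc n f s k c G ∂(gam M N) := by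
  rw [Rk_eq]
  have h1 : ∫ G, rk (M := M) C nc n f G s k ∂(gam M N) - c =
      ∫ G, (rk (M := M) C nc n f G s k - c) ∂(gam M N) := by
    rw [integral_sub (integrable_rk hN hf s k) (integrable_const c)]
    simp
  rw [h1]
  refine (abs_integral_le_integral_abs).trans ?_
  refine integral_mono ((integrable_rk hN hf s k).sub (integrable_const c)).abs
    (integrable_pf hf s k c) fun G => rk_sub_le f G s k c

theorem pf_shift {M : ℕ} (f : ℕ → ℝ → ℝ) (G : Fin M → Fin N → ℝ) (s : Fin nc → ℝ) (k : ℕ)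
    (c c' : ℝ) : pf C nc n f s k c' G ≤ pf C nc n f s k c G + |c - c'| := by
  have hQ := QQ_isProb (C := C) (n := n) f G s
  unfold pf
  have h := pE_add (QQ C nc n f G s) ((fil C nc n).F k) (fun a b => |ovl C nc n a b - c|)
    (fun _ _ => |c - c'|)
  rw [pE_const hQ] at h
  rw [← h]
  refine pE_mono hQ _ fun u v => ?_
  have e : ovl C nc n u v - c' = (ovl C nc n u v - c) + (c - c') := by ring
  rw [e]
  exact abs_add_le _ _

theorem int_pf_shift {f : ℕ → ℝ → ℝ} (hf : ∀ a, Measurable (f a)) (M : ℕ)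
    (s : Fin nc → ℝ) (k : ℕ) (c c' : ℝ) :
    ∫ G, pf (M := M) C nc n f s k c' G ∂(gam M N) ≤
      ∫ G, pf (M := M) C nc n f s k c G ∂(gam M N) + |c - c'| := by
  have h1 : ∫ G, pf (M := M) C nc n f s k c G ∂(gam M N) + |c - c'| =
      ∫ G, (pf (M := M) C nc n f s k c G + |c - c'|) ∂(gam M N) := by
    rw [integral_add (integrable_pf hf s k c) (integrable_const _)]
    simp
  rw [h1]
  exact integral_mono (integrable_pf hf s k c')
    ((integrable_pf hf s k c).add (integrable_const _)) fun G => pf_shift f G s k c c'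

end

/-- **SKADD**: a skeleton stays a skeleton when a row is added. -/
theorem skadd : SKADD := by
  intro K ε hε
  have hE1 : 1 ≤ Real.exp (4 * |K|) := by
    rw [← Real.exp_zero]
    exact Real.exp_le_exp.mpr (by positivity)
  have hE0 : 0 < Real.exp (4 * |K|) := Real.exp_pos _
  refine ⟨ε / (2 * Real.exp (4 * |K|)), by positivity, ?_, ?_⟩
  · rw [div_le_iff₀ (by positivity)]
    nlinarith
  · intro J wc nc N n hN hn C f M hf hK s τ hS
    have hK' : ∀ a x, |f a x| ≤ |K| := fun a x => (hK a x).trans (le_abs_self K)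
    have key : ∀ b ≤ J, ∫ G, pf (M := M + 1) C nc n f s (τ b) (Rk C nc n f M s (τ b)) G
        ∂(gam (M + 1) N) ≤ ε / 2 := by
      intro b hb
      refine (int_pf_succ_le hf hK' M s (τ b) _).trans ?_
      have h1 : ∫ G, pf (M := M) C nc n f s (τ b) (Rk C nc n f M s (τ b)) G ∂(gam M N) ≤
          ε / (2 * Real.exp (4 * |K|)) := hS.pair b hb
      calc Real.exp (4 * |K|) * ∫ G, pf (M := M) C nc n f s (τ b) (Rk C nc n f M s (τ b)) G
            ∂(gam M N) ≤ Real.exp (4 * |K|) * (ε / (2 * Real.exp (4 * |K|))) :=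
            mul_le_mul_of_nonneg_left h1 hE0.le
        _ = ε / 2 := by field_simp
    have hR : ∀ b ≤ J, |Rk C nc n f (M + 1) s (τ b) - Rk C nc n f M s (τ b)| ≤ ε / 2 :=
      fun b hb => (Rk_sub_le hN hf (M + 1) s (τ b) _).trans (key b hb)
    refine ⟨⟨hS.blk, fun b hb => ?_⟩, fun b hb => (hR b hb).trans (by linarith)⟩
    have h1 := int_pf_shift (C := C) (nc := nc) (n := n) hf (M + 1) s (τ b)
      (Rk C nc n f M s (τ b)) (Rk C nc n f (M + 1) s (τ b))
    have h2 := key b hb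
    have h3 := hR b hb
    rw [abs_sub_comm] at h3
    have h4 : ∫ G, pf (M := M + 1) C nc n f s (τ b) (Rk C nc n f (M + 1) s (τ b)) G
        ∂(gam (M + 1) N) ≤ ε := by linarith
    exact h4

end

end Crest.Agent.R146.S6Skadd_495
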