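import Crest.Agent.R167.Sph
import Crest.Prelude.Def_SphericalPressure
import Crest.Agent.R146.S6U_988
import Crest.Agent.R146.OvcA_679
import Crest.Agent.R146.S6L_988
import Crest.Agent.R146.LimRel_290
import Crest.Agent.R146.S6Trans_944
import Crest.Agent.R146.S6Ovl_382
import Crest.Agent.R146.Rev_649
import Crest.Agent.R146.Mon_422

-- ▼ part R146/SphDiv_290
section

/-!
Row 146, node SD1/SD2 (helper290): divergence theorem on the unit sphere for the tangential
projection of a constant vector field, and the Schwinger-Dyson identity for Gibbs measures on the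
sphere.
-/

set_option autoImplicit false
open MeasureTheory

namespace Crest.Agent.R146.SphDiv_290

open Crest.Agent.R167 Crest.ProbabilityR.Perceptron

variable {n : ℕ}

/-- generator of the rotation in the plane `(k,l)`. -/
noncomputable def gen (k l : Fin n) (x : EuclideanSpace ℝ (Fin n)) : EuclideanSpace ℝ (Fin n) :=
  WithLp.toLp 2 fun i => if i = k then - x l else if i = l then x k else 0

theorem hasDerivAt_rotV {k l : Fin n} (h : k ≠ l) (θ : ℝ) (x : EuclideanSpace ℝ (Fin n)) :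
    HasDerivAt (fun θ => rotV k l θ x) (gen k l (rotV k l θ x)) θ := by
  rw [hasDerivAt_iff_hasFDerivAt, ← hasFDerivWithinAt_univ, hasFDerivWithinAt_euclidean]
  intro i
  rw [hasFDerivWithinAt_univ]
  have key : HasDerivAt (fun θ => rotV k l θ x i) (gen k l (rotV k l θ x) i) θ := by
    by_cases h1 : i = k
    · subst h1
      have e : (fun θ => rotV i l θ x i) = fun θ => Real.cos θ * x i - Real.sin θ * x l := by
        funext θ; rw [rotV_apply_k]
      rw [e]
      have e2 : gen i l (rotV i l θ x) i = (-Real.sin θ) * x i - Real.cos θ * x l := by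
        simp only [gen, if_true]
        rw [rotV_apply_l h]; ring
      rw [e2]
      exact ((Real.hasDerivAt_cos θ).mul_const _).sub ((Real.hasDerivAt_sin θ).mul_const _)
    · by_cases h2 : i = l
      · subst h2
        have e : (fun θ => rotV k i θ x i) = fun θ => Real.sin θ * x k + Real.cos θ * x i := by
          funext θ; rw [rotV_apply_l h]
        rw [e]
        have e2 : gen k i (rotV k i θ x) i = Real.cos θ * x k + (-Real.sin θ) * x i := by
          simp only [gen, if_neg h1, if_true]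
          rw [rotV_apply_k]; ring
        rw [e2]
        exact ((Real.hasDerivAt_sin θ).mul_const _).add ((Real.hasDerivAt_cos θ).mul_const _)
      · have e : (fun θ => rotV k l θ x i) = fun _ => x i := by
          funext θ; rw [rotV_apply_of_ne h1 h2]
        rw [e]
        have e2 : gen k l (rotV k l θ x) i = 0 := by
          simp only [gen, if_neg h1, if_neg h2]
        rw [e2]
        exact hasDerivAt_const _ _
  have h3 := key.hasFDerivAt
  refine h3.congr_fderiv ?_
  ext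
  simp

theorem continuous_gen (k l : Fin n) : Continuous (gen k l) := by
  unfold gen
  refine (PiLp.continuous_toLp 2 _).comp (continuous_pi fun i => ?_)
  split_ifs <;> fun_prop

instance isFinite_sphereLaw : IsFiniteMeasure (sphereLaw n) := by
  unfold sphereLaw; infer_instance

theorem integrable_sphere {F : UnitSphere n → ℝ} (hF : Continuous F) :
    Integrable F (sphereLaw n) := by
  obtain ⟨C, hC⟩ := (isCompact_univ.image hF.norm).bddAbove
  exact Integrable.of_bound hF.aestronglyMeasurable C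
    (Filter.Eventually.of_forall fun y => hC ⟨y, Set.mem_univ _, rfl⟩)

theorem integral_rotS [NeZero n] {k l : Fin n} (h : k ≠ l) (θ : ℝ) {F : UnitSphere n → ℝ}
    (hF : Continuous F) :
    ∫ y, F (rotS h θ y) ∂sphereLaw n = ∫ y, F y ∂sphereLaw n := by
  have hmp : MeasurePreserving (rotS h θ) (sphereLaw n) (sphereLaw n) := by
    rw [rotS_eq_isoS]; exact mp_isoS_toSphere _
  have e1 : ∫ y, F (rotS h θ y) ∂sphereLaw n
      = ∫ y : UnitSphere n, F y ∂(Measure.map (rotS h θ) (sphereLaw n)) :=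
    (integral_map hmp.measurable.aemeasurable hF.aestronglyMeasurable).symm
  rw [e1, hmp.map_eq]

theorem continuous_rotS' {k l : Fin n} (h : k ≠ l) (θ : ℝ) :
    Continuous fun y : UnitSphere n => rotS h θ y := by
  have h1 : (fun y : UnitSphere n => rotS h θ y) = isoS (rotE h θ) := rotS_eq_isoS h θ
  rw [h1]
  exact continuous_isoS _

/-- rotation invariance differentiated -/
theorem integral_gen {k l : Fin n} (h : k ≠ l) (F : EuclideanSpace ℝ (Fin n) → ℝ)
    (F' : EuclideanSpace ℝ (Fin n) → EuclideanSpace ℝ (Fin n) →L[ℝ] ℝ)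
    (hF : ∀ y ∈ Metric.sphere (0 : EuclideanSpace ℝ (Fin n)) 1, HasFDerivAt F (F' y) y)
    (hF' : ContinuousOn F' (Metric.sphere (0 : EuclideanSpace ℝ (Fin n)) 1)) :
    ∫ y : UnitSphere n, F' y (gen k l y) ∂sphereLaw n = 0 := by
  have hn : 0 < n := lt_of_le_of_lt (Nat.zero_le _) k.2
  have : NeZero n := ⟨hn.ne'⟩
  have hcF : ContinuousOn F (Metric.sphere (0 : EuclideanSpace ℝ (Fin n)) 1) :=
    fun y hy => (hF y hy).continuousAt.continuousWithinAt
  have hcFS : Continuous fun y : UnitSphere n => F y :=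
    continuousOn_iff_continuous_domRestrict.1 hcF
  have hcF'S : Continuous fun y : UnitSphere n => F' y :=
    continuousOn_iff_continuous_domRestrict.1 hF'
  have hcG : Continuous fun y : UnitSphere n => F' y (gen k l y) :=
    hcF'S.clm_apply ((continuous_gen k l).comp continuous_subtype_val)
  -- bounds
  obtain ⟨C, hC⟩ : ∃ C : ℝ, ∀ y : UnitSphere n, ‖F' y (gen k l y)‖ ≤ C := by
    obtain ⟨C, hC⟩ := (isCompact_univ.image hcG.norm).bddAbove
    exact ⟨C, fun y => hC ⟨y, Set.mem_univ _, rfl⟩⟩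
  have m1 : ∀ᶠ θ in nhds (0:ℝ), AEStronglyMeasurable (fun y : UnitSphere n => F (rotS h θ y))
      (sphereLaw n) :=
    Filter.Eventually.of_forall fun θ => (hcFS.comp (continuous_rotS' h θ)).aestronglyMeasurable
  have m2 : Integrable (fun y : UnitSphere n => F (rotS h 0 y)) (sphereLaw n) :=
    integrable_sphere (hcFS.comp (continuous_rotS' h 0))
  have m3 : AEStronglyMeasurable (fun y : UnitSphere n => F' (rotS h 0 y) (gen k l (rotS h 0 y)))
      (sphereLaw n) :=
    (hcG.comp (continuous_rotS' h 0)).aestronglyMeasurable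
  have m4 : ∀ᵐ (y : UnitSphere n) ∂sphereLaw n, ∀ θ ∈ (Set.univ : Set ℝ),
      ‖F' (rotS h θ y) (gen k l (rotS h θ y))‖ ≤ C :=
    Filter.Eventually.of_forall fun y θ _ => hC (rotS h θ y)
  have m5 : ∀ᵐ (y : UnitSphere n) ∂sphereLaw n, ∀ θ ∈ (Set.univ : Set ℝ),
      HasDerivAt (fun θ => F (rotS h θ y)) (F' (rotS h θ y) (gen k l (rotS h θ y))) θ := by
    refine Filter.Eventually.of_forall fun y θ _ => ?_
    have h1 := hasDerivAt_rotV h θ (y : EuclideanSpace ℝ (Fin n))
    have h2 := hF (rotV k l θ y) (by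
      have := (rotS h θ y).2
      rwa [coe_rotS] at this)
    exact h2.comp_hasDerivAt θ h1
  have key := hasDerivAt_integral_of_dominated_loc_of_deriv_le
    (μ := sphereLaw n) (F := fun θ (y : UnitSphere n) => F (rotS h θ y))
    (F' := fun θ (y : UnitSphere n) => F' (rotS h θ y) (gen k l (rotS h θ y)))
    (x₀ := (0 : ℝ)) (s := Set.univ) (bound := fun _ => C) Filter.univ_mem
    m1 m2 m3 m4 (integrable_const _) m5
  have h2 := key.2
  have hconst : (fun θ => ∫ y, F (rotS h θ y) ∂sphereLaw n)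
      = fun _ => ∫ y : UnitSphere n, F y ∂sphereLaw n := by
    funext θ
    exact integral_rotS h θ (F := fun y => F y) hcFS
  rw [hconst] at h2
  have h3 := h2.unique (hasDerivAt_const (0:ℝ) (∫ y : UnitSphere n, F y ∂sphereLaw n))
  rw [← h3]
  refine integral_congr_ae (Filter.Eventually.of_forall fun y => ?_)
  show F' y (gen k l y) = F' (rotS h 0 y) (gen k l (rotS h 0 y))
  rw [rotS_zero]

theorem sum_sq_eq_one {y : EuclideanSpace ℝ (Fin n)}
    (hy : y ∈ Metric.sphere (0 : EuclideanSpace ℝ (Fin n)) 1) : ∑ i, y i ^ 2 = 1 := by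
  have h1 : ‖y‖ = 1 := by simpa using hy
  have h2 := EuclideanSpace.real_norm_sq_eq y
  rw [h1] at h2
  linarith

theorem single_sub_eq {y : EuclideanSpace ℝ (Fin n)}
    (hy : y ∈ Metric.sphere (0 : EuclideanSpace ℝ (Fin n)) 1) (k : Fin n) :
    EuclideanSpace.single k (1 : ℝ) - y k • y
      = ∑ l ∈ Finset.univ.erase k, (- y l) • gen k l y := by
  ext i
  have hs : (∑ l ∈ Finset.univ.erase k, (- y l) • gen k l y) i
      = ∑ l ∈ Finset.univ.erase k, (- y l) * (gen k l y i) := by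
    simp
  rw [hs]
  by_cases hi : i = k
  · subst hi
    have h1 : ∑ l ∈ Finset.univ.erase i, (- y l) * (gen i l y i)
        = ∑ l ∈ Finset.univ.erase i, y l ^ 2 := by
      refine Finset.sum_congr rfl fun l _ => ?_
      simp only [gen, if_true]; ring
    rw [h1]
    have h2 := Finset.add_sum_erase Finset.univ (fun l => y l ^ 2) (Finset.mem_univ i)
    rw [sum_sq_eq_one hy] at h2
    have h3 : (EuclideanSpace.single i (1 : ℝ) - y i • y) i = 1 - y i * y i := by
      simp
    rw [h3]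
    dsimp only at h2
    linarith [sq (y i)]
  · have h1 : ∑ l ∈ Finset.univ.erase k, (- y l) * (gen k l y i)
        = ∑ l ∈ Finset.univ.erase k, if i = l then - y l * y k else 0 := by
      refine Finset.sum_congr rfl fun l _ => ?_
      simp only [gen, if_neg hi]
      split_ifs <;> ring
    rw [h1, Finset.sum_ite_eq]
    simp [hi]
    ring

/-- **Divergence theorem** on the sphere for the tangential projection of a constant field. -/
theorem sphere_div_single (F : EuclideanSpace ℝ (Fin n) → ℝ)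
    (F' : EuclideanSpace ℝ (Fin n) → EuclideanSpace ℝ (Fin n) →L[ℝ] ℝ)
    (hF : ∀ y ∈ Metric.sphere (0 : EuclideanSpace ℝ (Fin n)) 1, HasFDerivAt F (F' y) y)
    (hF' : ContinuousOn F' (Metric.sphere (0 : EuclideanSpace ℝ (Fin n)) 1)) (k : Fin n) :
    ∫ y : UnitSphere n, F' y (EuclideanSpace.single k (1 : ℝ)
        - (y : EuclideanSpace ℝ (Fin n)) k • (y : EuclideanSpace ℝ (Fin n))) ∂sphereLaw n
      = ((n : ℝ) - 1) * ∫ y : UnitSphere n, (y : EuclideanSpace ℝ (Fin n)) k * F y ∂sphereLaw n := by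
  have hcF : ContinuousOn F (Metric.sphere (0 : EuclideanSpace ℝ (Fin n)) 1) :=
    fun y hy => (hF y hy).continuousAt.continuousWithinAt
  have hcFS : Continuous fun y : UnitSphere n => F y :=
    continuousOn_iff_continuous_domRestrict.1 hcF
  have hcF'S : Continuous fun y : UnitSphere n => F' y :=
    continuousOn_iff_continuous_domRestrict.1 hF'
  have hco : ∀ l : Fin n, Continuous fun y : UnitSphere n => (y : EuclideanSpace ℝ (Fin n)) l :=
    fun l => by fun_prop
  have hstep : ∀ l ∈ Finset.univ.erase k, ∫ y : UnitSphere n,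
      (- (y : EuclideanSpace ℝ (Fin n)) l) * F' y (gen k l y) ∂sphereLaw n
      = ∫ y : UnitSphere n, (y : EuclideanSpace ℝ (Fin n)) k * F y ∂sphereLaw n := by
    intro l hl
    have hkl : k ≠ l := (Finset.ne_of_mem_erase hl).symm
    have hG := integral_gen hkl (fun y => y l * F y)
      (fun y => y l • F' y + F y • (EuclideanSpace.proj l : EuclideanSpace ℝ (Fin n) →L[ℝ] ℝ))
      (fun y hy => by
        have h1 : HasFDerivAt (fun y : EuclideanSpace ℝ (Fin n) => y l)
            (EuclideanSpace.proj l : EuclideanSpace ℝ (Fin n) →L[ℝ] ℝ) y :=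
          (EuclideanSpace.proj l : EuclideanSpace ℝ (Fin n) →L[ℝ] ℝ).hasFDerivAt
        exact h1.mul (hF y hy))
      (by
        have hc1 : ContinuousOn (fun y : EuclideanSpace ℝ (Fin n) => y l)
            (Metric.sphere (0 : EuclideanSpace ℝ (Fin n)) 1) :=
          (by fun_prop : Continuous fun y : EuclideanSpace ℝ (Fin n) => y l).continuousOn
        exact ContinuousOn.add (ContinuousOn.fun_smul hc1 hF')
          (ContinuousOn.fun_smul hcF continuousOn_const))
    have e1 : ∀ y : UnitSphere n, ((y : EuclideanSpace ℝ (Fin n)) l • F' y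
        + F y • (EuclideanSpace.proj l : EuclideanSpace ℝ (Fin n) →L[ℝ] ℝ)) (gen k l y)
        = (y : EuclideanSpace ℝ (Fin n)) l * F' y (gen k l y)
          + (y : EuclideanSpace ℝ (Fin n)) k * F y := by
      intro y
      have : gen k l (y : EuclideanSpace ℝ (Fin n)) l = (y : EuclideanSpace ℝ (Fin n)) k := by
        simp [gen, hkl.symm]
      simp [this]
      ring
    simp only [e1] at hG
    have i1 : Integrable (fun y : UnitSphere n =>
        (y : EuclideanSpace ℝ (Fin n)) l * F' y (gen k l y)) (sphereLaw n) :=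
      integrable_sphere ((hco l).mul
        (hcF'S.clm_apply ((continuous_gen k l).comp continuous_subtype_val)))
    have i2 : Integrable (fun y : UnitSphere n =>
        (y : EuclideanSpace ℝ (Fin n)) k * F y) (sphereLaw n) :=
      integrable_sphere ((hco k).mul hcFS)
    rw [integral_add i1 i2] at hG
    have e2 : ∫ y : UnitSphere n, (- (y : EuclideanSpace ℝ (Fin n)) l) * F' y (gen k l y)
        ∂sphereLaw n = - ∫ y : UnitSphere n, (y : EuclideanSpace ℝ (Fin n)) l * F' y (gen k l y)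
        ∂sphereLaw n := by
      rw [← integral_neg]
      refine integral_congr_ae (Filter.Eventually.of_forall fun y => ?_)
      dsimp only; ring
    rw [e2]; linarith
  have e3 : ∀ y : UnitSphere n, F' y (EuclideanSpace.single k (1 : ℝ)
        - (y : EuclideanSpace ℝ (Fin n)) k • (y : EuclideanSpace ℝ (Fin n)))
      = ∑ l ∈ Finset.univ.erase k,
        (- (y : EuclideanSpace ℝ (Fin n)) l) * F' y (gen k l y) := by
    intro y
    rw [single_sub_eq y.2 k, map_sum]
    refine Finset.sum_congr rfl fun l _ => ?_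
    rw [map_smul]; rfl
  simp only [e3]
  rw [integral_finsetSum]
  · rw [Finset.sum_congr rfl hstep, Finset.sum_const, nsmul_eq_mul]
    congr 1
    rw [Finset.card_erase_of_mem (Finset.mem_univ k), Finset.card_univ, Fintype.card_fin]
    have hn : 1 ≤ n := lt_of_le_of_lt (Nat.zero_le _) k.2
    push_cast [Nat.cast_sub hn]
    ring
  · intro l _
    exact integrable_sphere ((hco l).neg.mul
        (hcF'S.clm_apply ((continuous_gen k l).comp continuous_subtype_val)))

/-- **Divergence theorem** on the sphere for the tangential projection of a constant field `w`. -/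
theorem sphere_div (F : EuclideanSpace ℝ (Fin n) → ℝ)
    (F' : EuclideanSpace ℝ (Fin n) → EuclideanSpace ℝ (Fin n) →L[ℝ] ℝ)
    (hF : ∀ y ∈ Metric.sphere (0 : EuclideanSpace ℝ (Fin n)) 1, HasFDerivAt F (F' y) y)
    (hF' : ContinuousOn F' (Metric.sphere (0 : EuclideanSpace ℝ (Fin n)) 1))
    (w : EuclideanSpace ℝ (Fin n)) :
    ∫ y : UnitSphere n, F' y (w - (∑ i, w i * (y : EuclideanSpace ℝ (Fin n)) i)
        • (y : EuclideanSpace ℝ (Fin n))) ∂sphereLaw n
      = ((n : ℝ) - 1) * ∫ y : UnitSphere n,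
          (∑ i, w i * (y : EuclideanSpace ℝ (Fin n)) i) * F y ∂sphereLaw n := by
  have hcF : ContinuousOn F (Metric.sphere (0 : EuclideanSpace ℝ (Fin n)) 1) :=
    fun y hy => (hF y hy).continuousAt.continuousWithinAt
  have hcFS : Continuous fun y : UnitSphere n => F y :=
    continuousOn_iff_continuous_domRestrict.1 hcF
  have hcF'S : Continuous fun y : UnitSphere n => F' y :=
    continuousOn_iff_continuous_domRestrict.1 hF'
  have hco : ∀ l : Fin n, Continuous fun y : UnitSphere n => (y : EuclideanSpace ℝ (Fin n)) l :=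
    fun l => by fun_prop
  have e1 : ∀ y : UnitSphere n, F' y (w - (∑ i, w i * (y : EuclideanSpace ℝ (Fin n)) i)
        • (y : EuclideanSpace ℝ (Fin n)))
      = ∑ k, w k * F' y (EuclideanSpace.single k (1 : ℝ)
        - (y : EuclideanSpace ℝ (Fin n)) k • (y : EuclideanSpace ℝ (Fin n))) := by
    intro y
    have hw : w = ∑ k, w k • EuclideanSpace.single k (1 : ℝ) := by
      ext i
      simp [Finset.sum_apply, Pi.single_apply]
    have h2 : w - (∑ i, w i * (y : EuclideanSpace ℝ (Fin n)) i)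
        • (y : EuclideanSpace ℝ (Fin n)) = ∑ k, w k • (EuclideanSpace.single k (1 : ℝ)
        - (y : EuclideanSpace ℝ (Fin n)) k • (y : EuclideanSpace ℝ (Fin n))) := by
      simp only [smul_sub, Finset.sum_sub_distrib, smul_smul, ← Finset.sum_smul]
      congr 1
    rw [h2, map_sum]
    refine Finset.sum_congr rfl fun l _ => ?_
    rw [map_smul]; rfl
  simp only [e1]
  rw [integral_finsetSum]
  · have e2 : ∀ k : Fin n, ∫ y : UnitSphere n, w k * F' y (EuclideanSpace.single k (1 : ℝ)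
        - (y : EuclideanSpace ℝ (Fin n)) k • (y : EuclideanSpace ℝ (Fin n))) ∂sphereLaw n
        = ((n : ℝ) - 1) * ∫ y : UnitSphere n,
          w k * (y : EuclideanSpace ℝ (Fin n)) k * F y ∂sphereLaw n := by
      intro k
      rw [integral_const_mul, sphere_div_single F F' hF hF' k]
      simp only [mul_assoc]
      rw [integral_const_mul]
      ring
    simp only [e2]
    rw [← Finset.mul_sum, ← integral_finsetSum]
    · simp only [Finset.sum_mul]
    · intro k _
      exact integrable_sphere ((continuous_const.mul (hco k)).mul hcFS)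
  · intro k _
    refine integrable_sphere (continuous_const.mul (hcF'S.clm_apply ?_))
    exact continuous_const.sub ((hco k).smul continuous_subtype_val)

end Crest.Agent.R146.SphDiv_290
end

-- ▼ part R146/S6Sd_290
section

/-!
Row 146, node (L2)/SD (helper290): Schwinger-Dyson identity for fine configuration spaces.

* `Near.onS`      : `Near C δ` tests functions which are `ℓ¹`-Lipschitz on the sphere only;
* `Sm K f f'`     : `f` has derivative `f'`, `|f|, |f'| ≤ K`, `f'` is `K`-Lipschitz;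
* `Psi`           : the Schwinger-Dyson function;
* `sd_exact`      : `∫ exp U · Psi(·, w) = 0` on the sphere.
-/

set_option autoImplicit false

namespace Crest.Agent.R146.S6Sd_290

open Finset MeasureTheory ProbabilityTheory Crest.Agent.R141
open Crest.Agent.R146.S6Def_988 Crest.Agent.R146.S6U_988
open Crest.ProbabilityR.Perceptron

noncomputable section

variable {N : ℕ}

/-- the sphere of radius `√N` in coordinates -/
def SS (N : ℕ) : Set (Fin N → ℝ) := {u | ∑ i, u i ^ 2 = N}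

/-- `ℓ¹` distance -/
def d1 (u v : Fin N → ℝ) : ℝ := ∑ i, |u i - v i|

theorem d1_nonneg (u v : Fin N → ℝ) : 0 ≤ d1 u v := sum_nonneg fun _ _ => abs_nonneg _

theorem d1_self (u : Fin N → ℝ) : d1 u u = 0 := by simp [d1]

theorem d1_comm (u v : Fin N → ℝ) : d1 u v = d1 v u := by
  unfold d1
  exact sum_congr rfl fun i _ => abs_sub_comm _ _

theorem d1_tri (u v w : Fin N → ℝ) : d1 u w ≤ d1 u v + d1 v w := by
  unfold d1
  rw [← sum_add_distrib]
  exact sum_le_sum fun i _ => abs_sub_le _ _ _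

theorem SS_nonempty (N : ℕ) : (SS N).Nonempty := by
  refine ⟨fun _ => 1, ?_⟩
  simp [SS]

/-- McShane extension for the `ℓ¹` distance. -/
theorem mcshane {F : (Fin N → ℝ) → ℝ} {L : ℝ} (hL : 0 ≤ L)
    (hF : ∀ u ∈ SS N, ∀ v ∈ SS N, |F u - F v| ≤ L * d1 u v) :
    ∃ F' : (Fin N → ℝ) → ℝ, (∀ u v, |F' u - F' v| ≤ L * d1 u v) ∧ ∀ u ∈ SS N, F' u = F u := by
  obtain ⟨v0, hv0⟩ := SS_nonempty N
  have : Nonempty (SS N) := ⟨⟨v0, hv0⟩⟩
  have hbd : ∀ u, BddBelow (Set.range fun v : SS N => F (v : Fin N → ℝ) + L * d1 u (v : Fin N → ℝ)) := by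
    intro u
    refine ⟨F v0 - L * d1 u v0, ?_⟩
    rintro _ ⟨v, rfl⟩
    have h1 := (abs_le.1 (hF v v.2 v0 hv0)).1
    have h2 := d1_tri (v : Fin N → ℝ) u v0
    rw [d1_comm (v : Fin N → ℝ) u] at h2
    have h3 := mul_le_mul_of_nonneg_left h2 hL
    dsimp only
    linarith
  refine ⟨fun u => ⨅ v : SS N, (F (v : Fin N → ℝ) + L * d1 u (v : Fin N → ℝ)), ?_, ?_⟩
  · have key : ∀ u v, (⨅ w : SS N, (F (w : Fin N → ℝ) + L * d1 u (w : Fin N → ℝ))) ≤
        (⨅ w : SS N, (F (w : Fin N → ℝ) + L * d1 v (w : Fin N → ℝ)))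
        + L * d1 u v := by
      intro u v
      rw [← sub_le_iff_le_add]
      refine le_ciInf fun w => ?_
      have h1 := ciInf_le (hbd u) w
      have h2 := mul_le_mul_of_nonneg_left (d1_tri u v (w : Fin N → ℝ)) hL
      linarith
    intro u v
    rw [abs_le]
    constructor
    · have := key v u; rw [d1_comm v u] at this; linarith
    · have := key u v; linarith
  · intro u hu
    refine le_antisymm ?_ ?_
    · have := ciInf_le (hbd u) ⟨u, hu⟩
      simpa [d1_self] using this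
    · refine le_ciInf fun v => ?_
      have := (abs_le.1 (hF u hu v v.2)).2
      linarith

theorem sqrt_smul_mem_SS (y : UnitSphere N) :
    (fun i => Real.sqrt N * (y : EuclideanSpace ℝ (Fin N)) i) ∈ SS N := by
  have h := SphDiv_290.sum_sq_eq_one y.2
  simp only [SS, Set.mem_ofPred_eq, mul_pow, Real.sq_sqrt (Nat.cast_nonneg N), ← mul_sum]
  rw [h, mul_one]

/-- `Near` tests functions which are Lipschitz on the sphere only. -/
theorem near_onS {C : Cfg N} {δ : ℝ} (hC : Near C δ)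
    {F : (Fin N → ℝ) → ℝ} {L : ℝ} (hL : 0 < L)
    (hF : ∀ u ∈ SS N, ∀ v ∈ SS N, |F u - F v| ≤ L * d1 u v) :
    |∑ y, C.q y * F (C.x y) -
      ∫ y, F (fun i => Real.sqrt N * (y : EuclideanSpace ℝ (Fin N)) i) ∂(sph N)| ≤ L * δ := by
  obtain ⟨F', h1, h2⟩ := mcshane hL.le hF
  have h3 := hC (fun u => L⁻¹ * F' u) (fun u v => by
    rw [← mul_sub, abs_mul, abs_of_pos (inv_pos.2 hL), inv_mul_le_iff₀ hL]
    exact h1 u v)
  have e1 : ∑ y, C.q y * (L⁻¹ * F' (C.x y)) = L⁻¹ * ∑ y, C.q y * F (C.x y) := by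
    rw [mul_sum]
    refine sum_congr rfl fun y _ => ?_
    rw [h2 _ (C.hx y)]; ring
  have e2 : ∫ y, L⁻¹ * F' (fun i => Real.sqrt N * (y : EuclideanSpace ℝ (Fin N)) i) ∂(sph N)
      = L⁻¹ * ∫ y, F (fun i => Real.sqrt N * (y : EuclideanSpace ℝ (Fin N)) i) ∂(sph N) := by
    rw [integral_const_mul]
    congr 1
    refine integral_congr_ae (Filter.Eventually.of_forall fun y => ?_)
    exact h2 _ (sqrt_smul_mem_SS y)
  rw [e1, e2, ← mul_sub, abs_mul, abs_of_pos (inv_pos.2 hL), inv_mul_le_iff₀ hL] at h3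
  exact h3

/-! ### bounded Lipschitz functions on the sphere -/

/-- `F` is bounded by `B` and `L`-Lipschitz on the sphere (in `ℓ¹`). -/
structure BLS (F : (Fin N → ℝ) → ℝ) (B L : ℝ) : Prop where
  bd : ∀ u ∈ SS N, |F u| ≤ B
  lip : ∀ u ∈ SS N, ∀ v ∈ SS N, |F u - F v| ≤ L * d1 u v
  nL : 0 ≤ L

theorem SS_coord {u : Fin N → ℝ} (hu : u ∈ SS N) (i : Fin N) : |u i| ≤ Real.sqrt N := by
  refine Real.abs_le_sqrt ?_
  have h1 : u i ^ 2 ≤ ∑ j, u j ^ 2 :=
    single_le_sum (f := fun j => u j ^ 2) (fun j _ => sq_nonneg _) (mem_univ i)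
  exact h1.trans hu.le

theorem BLS.nB {F : (Fin N → ℝ) → ℝ} {B L : ℝ} (h : BLS F B L) : 0 ≤ B := by
  obtain ⟨v0, hv0⟩ := SS_nonempty N
  exact (abs_nonneg _).trans (h.bd v0 hv0)

theorem BLS.add {F G : (Fin N → ℝ) → ℝ} {B L B' L' : ℝ} (h : BLS F B L) (h' : BLS G B' L') :
    BLS (fun u => F u + G u) (B + B') (L + L') where
  bd u hu := (abs_add_le _ _).trans (add_le_add (h.bd u hu) (h'.bd u hu))
  lip u hu v hv := by
    have e : F u + G u - (F v + G v) = (F u - F v) + (G u - G v) := by ring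
    rw [e, add_mul]
    exact (abs_add_le _ _).trans (add_le_add (h.lip u hu v hv) (h'.lip u hu v hv))
  nL := add_nonneg h.nL h'.nL

theorem BLS.neg {F : (Fin N → ℝ) → ℝ} {B L : ℝ} (h : BLS F B L) :
    BLS (fun u => - F u) B L where
  bd u hu := by rw [abs_neg]; exact h.bd u hu
  lip u hu v hv := by
    have e : - F u - (- F v) = - (F u - F v) := by ring
    rw [e, abs_neg]
    exact h.lip u hu v hv
  nL := h.nL

theorem BLS.sub {F G : (Fin N → ℝ) → ℝ} {B L B' L' : ℝ} (h : BLS F B L) (h' : BLS G B' L') :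
    BLS (fun u => F u - G u) (B + B') (L + L') := by
  have := h.add h'.neg
  simpa only [sub_eq_add_neg] using this

theorem BLS.mul {F G : (Fin N → ℝ) → ℝ} {B L B' L' : ℝ} (h : BLS F B L)
    (h' : BLS G B' L') : BLS (fun u => F u * G u) (B * B') (B * L' + B' * L) where
  bd u hu := by
    rw [abs_mul]
    exact mul_le_mul (h.bd u hu) (h'.bd u hu) (abs_nonneg _) (h.nB)
  lip u hu v hv := by
    have e : F u * G u - F v * G v = F u * (G u - G v) + G v * (F u - F v) := by ring
    rw [e]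
    refine (abs_add_le _ _).trans ?_
    rw [abs_mul, abs_mul]
    have h1 := mul_le_mul (h.bd u hu) (h'.lip u hu v hv) (abs_nonneg _) (h.nB)
    have h2 := mul_le_mul (h'.bd v hv) (h.lip u hu v hv) (abs_nonneg _) (h'.nB)
    linarith
  nL := add_nonneg (mul_nonneg (h.nB) h'.nL) (mul_nonneg (h'.nB) h.nL)

theorem BLS.const (c : ℝ) : BLS (N := N) (fun _ => c) |c| 0 where
  bd _ _ := le_rfl
  lip u _ v _ := by simp
  nL := le_rfl

theorem BLS.const_mul {F : (Fin N → ℝ) → ℝ} {B L : ℝ} (c : ℝ) (h : BLS F B L) :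
    BLS (fun u => c * F u) (|c| * B) (|c| * L) where
  bd u hu := by rw [abs_mul]; exact mul_le_mul_of_nonneg_left (h.bd u hu) (abs_nonneg _)
  lip u hu v hv := by
    rw [← mul_sub, abs_mul, mul_assoc]
    exact mul_le_mul_of_nonneg_left (h.lip u hu v hv) (abs_nonneg _)
  nL := mul_nonneg (abs_nonneg _) h.nL

theorem BLS.sum {ι : Type*} (t : Finset ι) {F : ι → (Fin N → ℝ) → ℝ} {B L : ι → ℝ}
    (h : ∀ i ∈ t, BLS (F i) (B i) (L i)) :
    BLS (fun u => ∑ i ∈ t, F i u) (∑ i ∈ t, B i) (∑ i ∈ t, L i) where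
  bd u hu := (abs_sum_le_sum_abs _ _).trans (sum_le_sum fun i hi => (h i hi).bd u hu)
  lip u hu v hv := by
    rw [← sum_sub_distrib, sum_mul]
    exact (abs_sum_le_sum_abs _ _).trans (sum_le_sum fun i hi => (h i hi).lip u hu v hv)
  nL := sum_nonneg fun i hi => (h i hi).nL

theorem BLS.mono {F : (Fin N → ℝ) → ℝ} {B L B' L' : ℝ} (h : BLS F B L) (hB : B ≤ B')
    (hL : L ≤ L') : BLS F B' L' where
  bd u hu := (h.bd u hu).trans hB
  lip u hu v hv := (h.lip u hu v hv).trans (mul_le_mul_of_nonneg_right hL (d1_nonneg _ _))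
  nL := h.nL.trans hL

theorem BLS.coord (i : Fin N) : BLS (fun u : Fin N → ℝ => u i) (Real.sqrt N) 1 where
  bd u hu := SS_coord hu i
  lip u _ v _ := by
    rw [one_mul]
    exact single_le_sum (f := fun j => |u j - v j|) (fun j _ => abs_nonneg _) (mem_univ i)
  nL := zero_le_one

theorem BLS.comp {F : (Fin N → ℝ) → ℝ} {B L K K' : ℝ} {φ : ℝ → ℝ} (hφ : ∀ x, |φ x| ≤ K)
    (hφ' : ∀ x y, |φ x - φ y| ≤ K' * |x - y|) (hK' : 0 ≤ K') (h : BLS F B L) :
    BLS (fun u => φ (F u)) K (K' * L) where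
  bd u _ := hφ _
  lip u hu v hv := by
    rw [mul_assoc]
    exact (hφ' _ _).trans (mul_le_mul_of_nonneg_left (h.lip u hu v hv) hK')
  nL := mul_nonneg hK' h.nL

theorem exp_lip {x y B : ℝ} (hx : x ≤ B) (hy : y ≤ B) :
    |Real.exp x - Real.exp y| ≤ Real.exp B * |x - y| := by
  wlog hxy : y ≤ x generalizing x y
  · rw [abs_sub_comm, abs_sub_comm x y]
    exact this hy hx (le_of_not_ge hxy)
  rw [abs_of_nonneg (sub_nonneg.2 (Real.exp_le_exp.2 hxy)), abs_of_nonneg (sub_nonneg.2 hxy)]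
  have h1 : Real.exp x - Real.exp y = Real.exp x * (1 - Real.exp (y - x)) := by
    rw [mul_sub, ← Real.exp_add]; ring_nf
  rw [h1]
  have h2 : 1 - Real.exp (y - x) ≤ x - y := by
    have := Real.add_one_le_exp (y - x); linarith
  have h3 : 0 ≤ 1 - Real.exp (y - x) := by
    have : Real.exp (y - x) ≤ 1 := Real.exp_le_one_iff.2 (by linarith)
    linarith
  exact mul_le_mul (Real.exp_le_exp.2 hx) h2 h3 (Real.exp_pos _).le

theorem BLS.exp {F : (Fin N → ℝ) → ℝ} {B L : ℝ} (h : BLS F B L) :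
    BLS (fun u => Real.exp (F u)) (Real.exp B) (Real.exp B * L) where
  bd u hu := by
    rw [abs_of_pos (Real.exp_pos _)]
    exact Real.exp_le_exp.2 ((le_abs_self _).trans (h.bd u hu))
  lip u hu v hv := by
    rw [mul_assoc]
    exact (exp_lip ((le_abs_self _).trans (h.bd u hu)) ((le_abs_self _).trans (h.bd v hv))).trans
      (mul_le_mul_of_nonneg_left (h.lip u hu v hv) (Real.exp_pos _).le)
  nL := mul_nonneg (Real.exp_pos _).le h.nL

/-! ### the Schwinger-Dyson function -/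

/-- smooth row functions -/
structure Sm (K : ℝ) (f f' : ℝ → ℝ) : Prop where
  d : ∀ x, HasDerivAt f (f' x) x
  b0 : ∀ x, |f x| ≤ K
  b1 : ∀ x, |f' x| ≤ K
  l1 : ∀ x y, |f' x - f' y| ≤ K * |x - y|

theorem Sm.nK {K : ℝ} {f f' : ℝ → ℝ} (h : Sm K f f') : 0 ≤ K := (abs_nonneg _).trans (h.b0 0)

theorem Sm.lip {K : ℝ} {f f' : ℝ → ℝ} (h : Sm K f f') (x y : ℝ) : |f x - f y| ≤ K * |x - y| := by
  have := Convex.norm_image_sub_le_of_norm_hasDerivWithin_le (f := f) (f' := f') (C := K)
    (s := Set.univ) (x := y) (y := x) (fun z _ => (h.d z).hasDerivWithinAt) (fun z _ => h.b1 z)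
    convex_univ (Set.mem_univ _) (Set.mem_univ _)
  simpa [Real.norm_eq_abs] using this

/-- the field of the row `a` -/
def hr {M : ℕ} (G : Fin M → Fin N → ℝ) (a : Fin M) (x : Fin N → ℝ) : ℝ :=
  ∑ i, G a i * (x i / Real.sqrt N)

variable {nc n : ℕ}

/-- the log-weight as a function of the point, coins fixed -/
def UF {M : ℕ} (f : ℕ → ℝ → ℝ) (G : Fin M → Fin N → ℝ) (s : Fin nc → ℝ) (c : Coins nc n N)
    (x : Fin N → ℝ) : ℝ :=
  rowE f G x + ∑ g, s g * ∑ i, zf c g i * x i

/-- the Schwinger-Dyson function -/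
def Psi {M : ℕ} (f' : ℕ → ℝ → ℝ) (G : Fin M → Fin N → ℝ) (s : Fin nc → ℝ) (c : Coins nc n N)
    (x w : Fin N → ℝ) : ℝ :=
  ((N : ℝ) - 1) / N * (∑ i, w i * x i)
    - ∑ a : Fin M, f' a (hr G a x) * (hr G a w - (∑ i, w i * x i) / N * hr G a x)
    - ∑ g, s g * ((∑ i, zf c g i * w i) - (∑ i, w i * x i) / N * ∑ i, zf c g i * x i)

/-- scalar product with a fixed vector -/
def dotL (v : Fin N → ℝ) : EuclideanSpace ℝ (Fin N) →L[ℝ] ℝ :=
  ∑ i, v i • (EuclideanSpace.proj i : EuclideanSpace ℝ (Fin N) →L[ℝ] ℝ)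

theorem dotL_apply (v : Fin N → ℝ) (y : EuclideanSpace ℝ (Fin N)) :
    dotL v y = ∑ i, v i * y i := by
  simp [dotL]

theorem sd_exact (hN : 0 < N) {M : ℕ} {K : ℝ} {f f' : ℕ → ℝ → ℝ} (hf : ∀ a, Sm K (f a) (f' a))
    (G : Fin M → Fin N → ℝ) (s : Fin nc → ℝ) (c : Coins nc n N) (w : Fin N → ℝ) :
    ∫ y, Real.exp (UF f G s c (fun i => Real.sqrt N * (y : EuclideanSpace ℝ (Fin N)) i)) *
      Psi f' G s c (fun i => Real.sqrt N * (y : EuclideanSpace ℝ (Fin N)) i) w ∂(sph N) = 0 := by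
  have hN0 : (0 : ℝ) < N := by exact_mod_cast hN
  have hs : 0 < Real.sqrt N := Real.sqrt_pos.2 hN0
  have hss : Real.sqrt N * Real.sqrt N = N := Real.mul_self_sqrt hN0.le
  set F : EuclideanSpace ℝ (Fin N) → ℝ := fun y =>
    Real.exp (∑ a : Fin M, f a (dotL (G a) y) + ∑ g, (s g * Real.sqrt N) * dotL (zf c g) y) with hF
  set F' : EuclideanSpace ℝ (Fin N) → EuclideanSpace ℝ (Fin N) →L[ℝ] ℝ := fun y =>
    F y • (∑ a : Fin M, f' a (dotL (G a) y) • dotL (G a)
      + ∑ g, (s g * Real.sqrt N) • dotL (zf c g)) with hF'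
  have hcf' : ∀ a, Continuous (f' a) := by
    intro a
    refine (LipschitzWith.of_dist_le_mul (K := ⟨K, (hf a).nK⟩) fun x y => ?_).continuous
    rw [Real.dist_eq, Real.dist_eq]
    exact (hf a).l1 x y
  have hderiv : ∀ y, HasFDerivAt F (F' y) y := by
    intro y
    have h1 : ∀ a : Fin M, HasFDerivAt (fun y => f a (dotL (G a) y))
        (f' a (dotL (G a) y) • dotL (G a)) y := by
      intro a
      exact ((hf a).d _).comp_hasFDerivAt y (dotL (G a)).hasFDerivAt
    have h2 : ∀ g : Fin nc, HasFDerivAt (fun y => (s g * Real.sqrt N) * dotL (zf c g) y)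
        ((s g * Real.sqrt N) • dotL (zf c g)) y := by
      intro g
      exact (dotL (zf c g)).hasFDerivAt.const_mul _
    have h3 := (HasFDerivAt.fun_sum fun a (_ : a ∈ univ) => h1 a).add
      (HasFDerivAt.fun_sum fun g (_ : g ∈ univ) => h2 g)
    exact h3.exp
  have hcF : Continuous F := by
    rw [continuous_iff_continuousAt]
    exact fun y => (hderiv y).continuousAt
  have hcF' : Continuous F' := by
    refine hcF.smul ((continuous_finsetSum _ fun a _ => ?_).add continuous_const)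
    exact ((hcf' a).comp (dotL (G a)).continuous).smul continuous_const
  set w' : EuclideanSpace ℝ (Fin N) := WithLp.toLp 2 fun i => w i / Real.sqrt N with hw'
  have key := SphDiv_290.sphere_div F F' (fun y _ => hderiv y) hcF'.continuousOn w'
  have hpt : ∀ y : UnitSphere N,
      Real.exp (UF f G s c (fun i => Real.sqrt N * (y : EuclideanSpace ℝ (Fin N)) i)) *
      Psi f' G s c (fun i => Real.sqrt N * (y : EuclideanSpace ℝ (Fin N)) i) w
      = ((N : ℝ) - 1) * ((∑ i, w' i * (y : EuclideanSpace ℝ (Fin N)) i) * F y)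
        - F' y (w' - (∑ i, w' i * (y : EuclideanSpace ℝ (Fin N)) i)
          • (y : EuclideanSpace ℝ (Fin N))) := by
    intro y
    have e1 : ∀ a : Fin M, hr G a (fun i => Real.sqrt N * (y : EuclideanSpace ℝ (Fin N)) i)
        = dotL (G a) y := by
      intro a
      rw [dotL_apply]
      unfold hr
      refine sum_congr rfl fun i _ => ?_
      field_simp
    have e2 : ∀ g : Fin nc, ∑ i, zf c g i * (Real.sqrt N * (y : EuclideanSpace ℝ (Fin N)) i)
        = Real.sqrt N * dotL (zf c g) y := by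
      intro g
      rw [dotL_apply, mul_sum]
      exact sum_congr rfl fun i _ => by ring
    have e3 : UF f G s c (fun i => Real.sqrt N * (y : EuclideanSpace ℝ (Fin N)) i)
        = ∑ a : Fin M, f a (dotL (G a) y) + ∑ g, (s g * Real.sqrt N) * dotL (zf c g) y := by
      unfold UF rowE
      congr 1
      · refine sum_congr rfl fun a _ => ?_
        exact congrArg _ (e1 a)
      · refine sum_congr rfl fun g _ => ?_
        rw [e2]; ring
    have e4 : (∑ i, w i * (Real.sqrt N * (y : EuclideanSpace ℝ (Fin N)) i)) / N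
        = ∑ i, w' i * (y : EuclideanSpace ℝ (Fin N)) i := by
      rw [sum_div]
      refine sum_congr rfl fun i _ => ?_
      have : w' i = w i / Real.sqrt N := rfl
      rw [this, div_mul_eq_mul_div, div_eq_div_iff hN0.ne' hs.ne']
      linear_combination (w i * (y : EuclideanSpace ℝ (Fin N)) i) * hss
    have e5 : ∀ a : Fin M, hr G a w = dotL (G a) w' := by
      intro a
      rw [dotL_apply]
      rfl
    have e6 : ∀ g : Fin nc, ∑ i, zf c g i * w i = Real.sqrt N * dotL (zf c g) w' := by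
      intro g
      rw [dotL_apply, mul_sum]
      refine sum_congr rfl fun i _ => ?_
      have : w' i = w i / Real.sqrt N := rfl
      rw [this]
      field_simp
    have e7 : ((N : ℝ) - 1) / N * (∑ i, w i * (Real.sqrt N * (y : EuclideanSpace ℝ (Fin N)) i))
        = ((N : ℝ) - 1) * ∑ i, w' i * (y : EuclideanSpace ℝ (Fin N)) i := by
      rw [← e4]; ring
    have hFy : F y = Real.exp (UF f G s c (fun i => Real.sqrt N * (y : EuclideanSpace ℝ (Fin N)) i)) := by
      rw [e3]
    rw [← hFy]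
    unfold Psi
    rw [e7, e4]
    simp only [e1, e2, e5, e6]
    simp only [hF', smul_apply, add_apply,
      _root_.sum_apply, smul_eq_mul, map_sub, map_smul]
    have e8 : ∑ a : Fin M, f' a (dotL (G a) y) * (dotL (G a) w' -
          (∑ i, w' i * (y : EuclideanSpace ℝ (Fin N)) i) * dotL (G a) y)
        + ∑ g, s g * (Real.sqrt N * dotL (zf c g) w' -
          (∑ i, w' i * (y : EuclideanSpace ℝ (Fin N)) i) * (Real.sqrt N * dotL (zf c g) y))
        = (∑ a : Fin M, f' a (dotL (G a) y) * dotL (G a) w' +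
            ∑ g, (s g * Real.sqrt N) * dotL (zf c g) w') -
          (∑ i, w' i * (y : EuclideanSpace ℝ (Fin N)) i) *
          (∑ a : Fin M, f' a (dotL (G a) y) * dotL (G a) y +
            ∑ g, (s g * Real.sqrt N) * dotL (zf c g) y) := by
      rw [mul_add, mul_sum, mul_sum]
      simp only [mul_sub, sum_sub_distrib]
      have a1 : ∀ g, s g * (Real.sqrt N * dotL (zf c g) w')
          = (s g * Real.sqrt N) * dotL (zf c g) w' := fun g => by ring
      have a2 : ∀ g, s g * ((∑ i, w' i * (y : EuclideanSpace ℝ (Fin N)) i) *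
          (Real.sqrt N * dotL (zf c g) y)) = (∑ i, w' i * (y : EuclideanSpace ℝ (Fin N)) i) *
          ((s g * Real.sqrt N) * dotL (zf c g) y) := fun g => by ring
      have a3 : ∀ a : Fin M, f' a (dotL (G a) y) *
          ((∑ i, w' i * (y : EuclideanSpace ℝ (Fin N)) i) * dotL (G a) y)
          = (∑ i, w' i * (y : EuclideanSpace ℝ (Fin N)) i) *
            (f' a (dotL (G a) y) * dotL (G a) y) := fun a => by ring
      simp only [a1, a2, a3]
      ring
    linear_combination (-F y) * e8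
  rw [integral_congr_ae (Filter.Eventually.of_forall hpt)]
  unfold sph
  rw [integral_smul_measure]
  have i1 : Integrable (fun y : UnitSphere N => ((N : ℝ) - 1) *
      ((∑ i, w' i * (y : EuclideanSpace ℝ (Fin N)) i) * F y)) (sphereLaw N) := by
    refine SphDiv_290.integrable_sphere ?_
    have : Continuous fun y : UnitSphere N => F y := hcF.comp continuous_subtype_val
    fun_prop
  have i2 : Integrable (fun y : UnitSphere N => F' y (w' - (∑ i, w' i *
      (y : EuclideanSpace ℝ (Fin N)) i) • (y : EuclideanSpace ℝ (Fin N)))) (sphereLaw N) := by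
    refine SphDiv_290.integrable_sphere ?_
    have : Continuous fun y : UnitSphere N => F' y := hcF'.comp continuous_subtype_val
    exact this.clm_apply (by fun_prop)
  rw [integral_sub i1 i2, key, integral_const_mul, sub_self, smul_zero]

/-! ### bounds -/

/-- `F` is bounded and Lipschitz on the sphere with the constant `C * H ^ k`. -/
def PB (H C : ℝ) (k : ℕ) (F : (Fin N → ℝ) → ℝ) : Prop := BLS F (C * H ^ k) (C * H ^ k)

variable {H : ℝ}

theorem PB.nC (hH : 1 ≤ H) {C : ℝ} {k : ℕ} {F : (Fin N → ℝ) → ℝ} (h : PB H C k F) : 0 ≤ C := by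
  have h1 := BLS.nB h
  have h2 : 0 < H ^ k := pow_pos (by linarith) k
  exact nonneg_of_mul_nonneg_left h1 h2

theorem PB.mono (hH : 1 ≤ H) {C C' : ℝ} {k k' : ℕ} {F : (Fin N → ℝ) → ℝ} (h : PB H C k F)
    (hC : C ≤ C') (hk : k ≤ k') : PB H C' k' F := by
  have h1 : C * H ^ k ≤ C' * H ^ k' :=
    mul_le_mul hC (pow_le_pow_right₀ hH hk) (pow_nonneg (by linarith) k) ((h.nC hH).trans hC)
  exact BLS.mono h h1 h1

theorem PB.add {C C' : ℝ} {k : ℕ} {F F' : (Fin N → ℝ) → ℝ} (h : PB H C k F)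
    (h' : PB H C' k F') : PB H (C + C') k (fun u => F u + F' u) := by
  have := BLS.add h h'
  unfold PB
  rw [add_mul]
  exact this

theorem PB.sub {C C' : ℝ} {k : ℕ} {F F' : (Fin N → ℝ) → ℝ} (h : PB H C k F)
    (h' : PB H C' k F') : PB H (C + C') k (fun u => F u - F' u) := by
  have := BLS.sub h h'
  unfold PB
  rw [add_mul]
  exact this

theorem PB.mul {C C' : ℝ} {k k' : ℕ} {F F' : (Fin N → ℝ) → ℝ} (h : PB H C k F)
    (h' : PB H C' k' F') (hH : 1 ≤ H) : PB H (2 * C * C') (k + k') (fun u => F u * F' u) := by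
  have h1 := BLS.mul h h'
  have h2 : 0 ≤ C * C' := mul_nonneg (h.nC hH) (h'.nC hH)
  have h3 : 0 ≤ H ^ (k + k') := pow_nonneg (by linarith) _
  refine BLS.mono h1 ?_ ?_
  · have e : C * H ^ k * (C' * H ^ k') = (C * C') * H ^ (k + k') := by rw [pow_add]; ring
    rw [e]
    have := mul_nonneg h2 h3
    nlinarith
  · have e : C * H ^ k * (C' * H ^ k') + C' * H ^ k' * (C * H ^ k) =
      (2 * C * C') * H ^ (k + k') := by rw [pow_add]; ring
    rw [e]

theorem PB.const_mul {C : ℝ} {k : ℕ} {F : (Fin N → ℝ) → ℝ} (c : ℝ) (h : PB H C k F) :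
    PB H (|c| * C) k (fun u => c * F u) := by
  have := BLS.const_mul c h
  unfold PB
  rw [mul_assoc]
  exact this

theorem PB.const (c : ℝ) {C : ℝ} {k : ℕ} (h : |c| ≤ C * H ^ k) : PB (N := N) H C k (fun _ => c) :=
  BLS.mono (BLS.const c) h ((abs_nonneg _).trans h)

theorem PB.sum {ι : Type*} (t : Finset ι) {F : ι → (Fin N → ℝ) → ℝ} {C : ι → ℝ} {k : ℕ}
    (h : ∀ i ∈ t, PB H (C i) k (F i)) : PB H (∑ i ∈ t, C i) k (fun u => ∑ i ∈ t, F i u) := by
  have := BLS.sum t h
  unfold PB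
  rw [sum_mul]
  exact this

theorem PB.comp {C : ℝ} {k : ℕ} {F : (Fin N → ℝ) → ℝ} {K : ℝ} {φ : ℝ → ℝ} (hφ : ∀ x, |φ x| ≤ K)
    (hφ' : ∀ x y, |φ x - φ y| ≤ K * |x - y|) (hK : 0 ≤ K) (hC : 1 ≤ C) (hH : 1 ≤ H)
    (h : PB H C k F) : PB H (K * C) k (fun u => φ (F u)) := by
  have h1 := BLS.comp hφ hφ' hK h
  have h2 : 1 ≤ C * H ^ k := one_le_mul_of_one_le_of_one_le hC (one_le_pow₀ hH)
  refine BLS.mono h1 ?_ (by rw [mul_assoc])
  rw [mul_assoc]
  exact le_mul_of_one_le_right hK h2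

section bounds

variable {M : ℕ} {f f' : ℕ → ℝ → ℝ} {K A : ℝ} {G : Fin M → Fin N → ℝ} {s : Fin nc → ℝ}
  {c : Coins nc n N} {w : Fin N → ℝ}

/-- `H = 1 + ∑ |G a i|` -/
def HG (G : Fin M → Fin N → ℝ) : ℝ := 1 + ∑ a, ∑ i, |G a i|

theorem one_le_HG (G : Fin M → Fin N → ℝ) : 1 ≤ HG G := by
  unfold HG
  have : 0 ≤ ∑ a, ∑ i, |G a i| := sum_nonneg fun _ _ => sum_nonneg fun _ _ => abs_nonneg _
  linarith

theorem sum_row_le_HG (G : Fin M → Fin N → ℝ) (a : Fin M) : ∑ i, |G a i| ≤ HG G := by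
  unfold HG
  have : ∑ i, |G a i| ≤ ∑ a, ∑ i, |G a i| :=
    single_le_sum (f := fun a => ∑ i, |G a i|) (fun _ _ => sum_nonneg fun _ _ => abs_nonneg _)
      (mem_univ a)
  linarith

theorem one_le_sqrt (hN : 0 < N) : 1 ≤ Real.sqrt N := by
  rw [Real.one_le_sqrt]
  exact_mod_cast hN

theorem sqrt_le_self' (hN : 0 < N) : Real.sqrt N ≤ N := by
  have h1 : (1 : ℝ) ≤ N := by exact_mod_cast hN
  rw [Real.sqrt_le_left (by linarith)]
  nlinarith

theorem PB_hr (hN : 0 < N) (a : Fin M) : PB (HG G) 1 1 (hr G a) := by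
  have h1 : ∀ i ∈ (univ : Finset (Fin N)), BLS (fun u : Fin N → ℝ => G a i * (u i / Real.sqrt N))
      (|G a i|) (|G a i|) := by
    intro i _
    have hs := one_le_sqrt hN
    have h2 := (BLS.coord i).const_mul (G a i / Real.sqrt N)
    have e : (fun u : Fin N → ℝ => G a i * (u i / Real.sqrt N)) =
        fun u => G a i / Real.sqrt N * u i := by
      funext u; ring
    rw [e]
    refine h2.mono ?_ ?_
    · rw [abs_div, abs_of_pos (by linarith : 0 < Real.sqrt N), div_mul_cancel₀ _ (by linarith)]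
    · rw [abs_div, abs_of_pos (by linarith : 0 < Real.sqrt N), mul_one]
      exact div_le_self (abs_nonneg _) hs
  have h3 := BLS.sum univ h1
  have h4 : ∑ i, |G a i| ≤ 1 * HG G ^ 1 := by
    rw [one_mul, pow_one]; exact sum_row_le_HG G a
  exact BLS.mono h3 h4 h4

theorem BLS_rowE (hN : 0 < N) (hf : ∀ a, Sm K (f a) (f' a)) :
    BLS (fun u => rowE f G u) (M * K) (M * (K * HG G)) := by
  have h1 : ∀ a ∈ (univ : Finset (Fin M)), BLS (fun u => f a (hr G a u)) K (K * HG G) := by
    intro a _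
    have h2 := BLS.comp (hf a).b0 (hf a).lip (hf a).nK (PB_hr (G := G) hN a)
    rw [one_mul, pow_one] at h2
    exact h2
  have h3 := BLS.sum univ h1
  have e : (fun u => rowE f G u) = fun u => ∑ a : Fin M, f a (hr G a u) := rfl
  rw [e]
  simpa using h3

theorem abs_zf_le (g : Fin nc) (i : Fin N) : |zf c g i| ≤ Real.sqrt n := by
  unfold zf
  rw [abs_mul, abs_inv, abs_of_nonneg (Real.sqrt_nonneg _)]
  have h1 : |∑ t : Fin n, S6Def_988.sv (c g t i)| ≤ n := by
    refine (abs_sum_le_sum_abs _ _).trans ?_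
    have : ∀ t ∈ (univ : Finset (Fin n)), |S6Def_988.sv (c g t i)| ≤ 1 := by
      intro t _
      unfold S6Def_988.sv
      split_ifs <;> simp
    refine (sum_le_sum this).trans ?_
    simp
  rcases Nat.eq_zero_or_pos n with h0 | hn
  · subst h0; simp
  · have hs : 0 < Real.sqrt n := Real.sqrt_pos.2 (by exact_mod_cast hn)
    rw [inv_mul_le_iff₀ hs, Real.mul_self_sqrt (Nat.cast_nonneg n)]
    exact h1

theorem PB_lin (hN : 0 < N) {v : Fin N → ℝ} {b : ℝ} (hv : ∀ i, |v i| ≤ b) :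
    PB H (N * (b * N)) 0 (fun u => ∑ i, v i * u i) := by
  have h1 : ∀ i ∈ (univ : Finset (Fin N)), BLS (fun u : Fin N → ℝ => v i * u i)
      (b * N) (b * N) := by
    intro i _
    have h2 := (BLS.coord i).const_mul (v i)
    have h3 := sqrt_le_self' hN
    have h4 : (1 : ℝ) ≤ N := by exact_mod_cast hN
    refine h2.mono ?_ ?_
    · exact mul_le_mul (hv i) h3 (Real.sqrt_nonneg _) ((abs_nonneg _).trans (hv i))
    · exact mul_le_mul (hv i) h4 zero_le_one ((abs_nonneg _).trans (hv i))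
  have h3 := BLS.sum univ h1
  have e : ∑ _i : Fin N, b * (N : ℝ) = N * (b * N) * H ^ 0 := by simp
  rw [e] at h3
  exact h3

/-- bound of the log-weight -/
def BU (N nc n M : ℕ) (K A : ℝ) : ℝ := M * K + nc * (A * (N * (Real.sqrt n * N)))

theorem BLS_UF (hN : 0 < N) (hf : ∀ a, Sm K (f a) (f' a)) (hs : ∀ g, |s g| ≤ A) :
    BLS (UF f G s c) (BU N nc n M K A) (BU N nc n M K A * HG G) := by
  have h1 : ∀ g ∈ (univ : Finset (Fin nc)), BLS (fun u => s g * ∑ i, zf c g i * u i)
      (A * (N * (Real.sqrt n * N))) (A * (N * (Real.sqrt n * N))) := by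
    intro g _
    have h2 := (PB_lin (H := 1) hN (fun i => abs_zf_le (c := c) g i)).const_mul (s g)
    have hA : 0 ≤ A := (abs_nonneg _).trans (hs g)
    have h3 : |s g| * (N * (Real.sqrt n * N)) * 1 ^ 0 ≤ A * (N * (Real.sqrt n * N)) := by
      rw [pow_zero, mul_one]
      exact mul_le_mul_of_nonneg_right (hs g) (by positivity)
    exact BLS.mono h2 h3 h3
  have h3 := BLS.sum univ h1
  have h4 := (BLS_rowE (G := G) hN hf).add h3
  refine h4.mono ?_ ?_
  · unfold BU; simp
  · unfold BU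
    have h5 : (0 : ℝ) ≤ ∑ _g : Fin nc, A * (N * (Real.sqrt n * N)) := h3.nL
    have h6 := one_le_HG G
    have h7 : (∑ _g : Fin nc, A * (N * (Real.sqrt n * N)) : ℝ) = nc * (A * (N * (Real.sqrt n * N))) := by
      simp
    rw [h7] at h5 ⊢
    nlinarith [mul_le_mul_of_nonneg_left h6 h5]

theorem PB_exp (hN : 0 < N) (hf : ∀ a, Sm K (f a) (f' a)) (hs : ∀ g, |s g| ≤ A) :
    PB (HG G) (Real.exp (BU N nc n M K A) * (1 + BU N nc n M K A)) 1
      (fun u => Real.exp (UF f G s c u)) := by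
  have h1 := BLS_UF (G := G) (c := c) hN hf hs
  have h2 := h1.exp
  have h3 := one_le_HG G
  have h4 := h1.nB
  have h5 := Real.exp_pos (BU N nc n M K A)
  refine BLS.mono h2 ?_ ?_
  · rw [pow_one, mul_assoc]
    refine le_mul_of_one_le_right h5.le ?_
    nlinarith
  · rw [pow_one, mul_assoc]
    refine mul_le_mul_of_nonneg_left ?_ h5.le
    nlinarith

/-- the constant of `Psi` -/
def CPsi (N nc n M : ℕ) (K A : ℝ) : ℝ :=
  N * (Real.sqrt N * N) + M * (2 * K * (1 + 2 * (N * (Real.sqrt N * N)) * 1))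
    + nc * (A * (N * (Real.sqrt n * N) * 1 + 2 * (N * (Real.sqrt N * N)) * (N * (Real.sqrt n * N))))

theorem PB_Psi (hN : 0 < N) (hf : ∀ a, Sm K (f a) (f' a)) (hs : ∀ g, |s g| ≤ A) (hw : w ∈ SS N) :
    PB (HG G) (CPsi N nc n M K A) 2 (fun u => Psi f' G s c u w) := by
  have hH := one_le_HG G
  have hN1 : (1 : ℝ) ≤ N := by exact_mod_cast hN
  have hW : PB (HG G) (N * (Real.sqrt N * N)) 0 (fun u => ∑ i, w i * u i) :=
    PB_lin hN (fun i => SS_coord hw i)
  have hWN : PB (HG G) (N * (Real.sqrt N * N)) 0 (fun u => (∑ i, w i * u i) / N) := by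
    have h1 := hW.const_mul (N : ℝ)⁻¹
    have e : (fun u : Fin N → ℝ => (∑ i, w i * u i) / N) = fun u => (N : ℝ)⁻¹ * ∑ i, w i * u i := by
      funext u; ring
    rw [e]
    refine h1.mono hH ?_ le_rfl
    rw [abs_of_pos (by positivity : (0:ℝ) < (N:ℝ)⁻¹)]
    have : (N : ℝ)⁻¹ ≤ 1 := inv_le_one_of_one_le₀ hN1
    exact mul_le_of_le_one_left (by positivity) this
  have hW1 : PB (HG G) (N * (Real.sqrt N * N)) 2
      (fun u => ((N : ℝ) - 1) / N * ∑ i, w i * u i) := by
    refine (hW.const_mul _).mono hH ?_ (by norm_num)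
    have : |((N : ℝ) - 1) / N| ≤ 1 := by
      rw [abs_of_nonneg (by apply div_nonneg <;> linarith)]
      rw [div_le_one (by linarith)]; linarith
    exact mul_le_of_le_one_left (by positivity) this
  have hrow : ∀ a ∈ (univ : Finset (Fin M)), PB (HG G)
      (2 * K * (1 + 2 * (N * (Real.sqrt N * N)) * 1)) 2
      (fun u => f' a (hr G a u) * (hr G a w - (∑ i, w i * u i) / N * hr G a u)) := by
    intro a _
    have h1 : PB (HG G) (K * 1) 1 (fun u => f' a (hr G a u)) :=
      PB.comp (hf a).b1 (hf a).l1 (hf a).nK le_rfl hH (PB_hr hN a)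
    have h2 : PB (HG G) (2 * (N * (Real.sqrt N * N)) * 1) 1
        (fun u => (∑ i, w i * u i) / N * hr G a u) := by
      have := hWN.mul (PB_hr (G := G) hN a) hH
      exact this
    have h3 : PB (N := N) (HG G) 1 1 (fun _ => hr G a w) := by
      refine PB.const _ ?_
      exact (PB_hr (G := G) hN a).bd w hw
    have h4 := h1.mul (h3.sub h2) hH
    refine h4.mono hH ?_ le_rfl
    rw [mul_one]
  have hfield : ∀ g ∈ (univ : Finset (Fin nc)), PB (HG G)
      (A * (N * (Real.sqrt n * N) * 1 + 2 * (N * (Real.sqrt N * N)) * (N * (Real.sqrt n * N)))) 2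
      (fun u => s g * ((∑ i, zf c g i * w i) - (∑ i, w i * u i) / N * ∑ i, zf c g i * u i)) := by
    intro g _
    have hA : 0 ≤ A := (abs_nonneg _).trans (hs g)
    have h1 : PB (HG G) (N * (Real.sqrt n * N)) 0 (fun u => ∑ i, zf c g i * u i) :=
      PB_lin hN (fun i => abs_zf_le g i)
    have h2 := hWN.mul h1 hH
    have h3 : PB (N := N) (HG G) (N * (Real.sqrt n * N) * 1) 0 (fun _ => ∑ i, zf c g i * w i) := by
      refine PB.const _ ?_
      rw [mul_one]
      exact h1.bd w hw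
    have h4 := (h3.sub h2).const_mul (s g)
    refine h4.mono hH ?_ (by norm_num)
    exact mul_le_mul_of_nonneg_right (hs g) (by positivity)
  have h5 := (hW1.sub (PB.sum univ hrow)).sub (PB.sum univ hfield)
  unfold Psi
  refine h5.mono hH ?_ le_rfl
  unfold CPsi
  simp

/-- the constant of the Schwinger-Dyson sum -/
def CSD (N nc n M : ℕ) (K A : ℝ) : ℝ :=
  2 * (Real.exp (BU N nc n M K A) * (1 + BU N nc n M K A)) * CPsi N nc n M K A

theorem PB_sd (hN : 0 < N) (hf : ∀ a, Sm K (f a) (f' a)) (hs : ∀ g, |s g| ≤ A) (hw : w ∈ SS N) :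
    PB (HG G) (CSD N nc n M K A) 3 (fun u => Real.exp (UF f G s c u) * Psi f' G s c u w) :=
  (PB_exp (G := G) (c := c) hN hf hs).mul (PB_Psi hN hf hs hw) (one_le_HG G)

/-- the Schwinger-Dyson sum over a fine configuration space. -/
theorem sd_sum_le (hN : 0 < N) {C : Cfg N} {δ : ℝ} (hδ : 0 ≤ δ) (hC : Near C δ)
    (hf : ∀ a, Sm K (f a) (f' a)) (hs : ∀ g, |s g| ≤ A) (hw : w ∈ SS N) :
    |∑ y, C.q y * (Real.exp (UF f G s c (C.x y)) * Psi f' G s c (C.x y) w)| ≤
      (CSD N nc n M K A + 1) * HG G ^ 3 * δ := by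
  have h1 := PB_sd (c := c) (G := G) hN hf hs hw
  have hH := one_le_HG G
  have h2 : 0 ≤ CSD N nc n M K A := h1.nC hH
  have hpos : 0 < (CSD N nc n M K A + 1) * HG G ^ 3 := by positivity
  have h3 := near_onS hC hpos (F := fun u => Real.exp (UF f G s c u) * Psi f' G s c u w)
    (fun u hu v hv => by
      refine (h1.lip u hu v hv).trans (mul_le_mul_of_nonneg_right ?_ (d1_nonneg _ _))
      exact mul_le_mul_of_nonneg_right (by linarith) (by positivity))
  rw [sd_exact hN hf G s c w, sub_zero] at h3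
  exact h3

end bounds

/-! ### the hierarchical form -/

open scoped Classical in
theorem pE_swap {Ω : Type} [Fintype Ω] (Q : Ω → ℝ) (r : Setoid Ω) (Ψ : Ω → Ω → ℝ) :
    pE Q r Ψ = pE Q r (fun a b => Ψ b a) := by
  unfold pE eE
  simp only [cE_eq_ite]
  have hZ : ∀ a b, r a b → (∑ ω', if r a ω' then Q ω' else 0) = ∑ ω', if r b ω' then Q ω' else 0 := by
    intro a b hab
    refine sum_congr rfl fun ω' _ => ?_
    have : r a ω' ↔ r b ω' := ⟨fun h => r.trans (r.symm hab) h, fun h => r.trans hab h⟩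
    simp only [this]
  have h1 : ∀ Φ : Ω → Ω → ℝ, ∑ a, Q a * ((∑ b, if r a b then Q b * Φ a b else 0) /
      ∑ ω', if r a ω' then Q ω' else 0) = ∑ a, ∑ b, if r a b then
        Q a * Q b * Φ a b / (∑ ω', if r a ω' then Q ω' else 0) else 0 := by
    intro Φ
    refine sum_congr rfl fun a _ => ?_
    rw [← mul_div_assoc, mul_sum, sum_div]
    refine sum_congr rfl fun b _ => ?_
    split_ifs <;> ring
  rw [h1, h1, sum_comm]
  refine sum_congr rfl fun a _ => sum_congr rfl fun b _ => ?_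
  by_cases hab : r a b
  · rw [if_pos hab, if_pos (r.symm hab), hZ a b hab]
    ring
  · rw [if_neg hab, if_neg (fun h => hab (r.symm h))]

variable (C : Cfg N)


open scoped Classical in
/-- conditional expectation given all the coins, prior law -/
theorem cE_prior_last (g : Om C nc n → ℝ) (ω : Om C nc n) :
    cE (S6Def_988.prior C nc n) ((fil C nc n).F (nc * n)) g ω = ∑ y, C.q y * g (y, ω.2) := by
  rw [cE_eq_ite]
  have hr : ∀ ω' : Om C nc n, (fil C nc n).F (nc * n) ω ω' ↔ ω.2 = ω'.2 := by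
    intro ω'
    constructor
    · intro h
      have h : frel C nc n (nc * n) ω ω' := h
      funext g t
      refine h.1 g t ?_
      have h1 : (g : ℕ) * n + t < ((g : ℕ) + 1) * n := by
        have := t.2
        rw [add_mul, one_mul]; omega
      have h2 : ((g : ℕ) + 1) * n ≤ nc * n := Nat.mul_le_mul_right n g.2
      omega
    · intro h
      show frel C nc n (nc * n) ω ω'
      refine ⟨fun g t _ => by rw [h], fun hL => ?_⟩
      unfold Lv at hL
      omega
  simp only [hr]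
  have h1 : ∀ h : Om C nc n → ℝ, (∑ ω' : Om C nc n, if ω.2 = ω'.2 then S6Def_988.prior C nc n ω' * h ω'
      else 0) = (Fintype.card (Coins nc n N) : ℝ)⁻¹ * ∑ y, C.q y * h (y, ω.2) := by
    intro h
    rw [Fintype.sum_prod_type, mul_sum]
    refine sum_congr rfl fun y _ => ?_
    simp only
    rw [sum_ite_eq]
    simp only [mem_univ, if_true, S6Def_988.prior]
    ring
  have h2 := h1 (fun _ => 1)
  simp only [mul_one] at h2
  rw [h1, h2, C.hq.sum]
  have hc : (Fintype.card (Coins nc n N) : ℝ)⁻¹ ≠ 0 := by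
    have : 0 < Fintype.card (Coins nc n N) := Fintype.card_pos
    positivity
  rw [mul_one, mul_div_cancel_left₀ _ hc]

/-- conditional expectation given all the coins, tilted law -/
theorem cE_QQ_last (hn : 0 < n) {M : ℕ} (f : ℕ → ℝ → ℝ) (G : Fin M → Fin N → ℝ)
    (s : Fin nc → ℝ) (g : Om C nc n → ℝ) (ω : Om C nc n) :
    cE (QQ C nc n f G s) ((fil C nc n).F (nc * n)) g ω =
      (∑ y, C.q y * (Real.exp (UF f G s ω.2 (C.x y)) * g (y, ω.2))) /
        ∑ y, C.q y * Real.exp (UF f G s ω.2 (C.x y)) := by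
  have hP : IsProb (S6Def_988.prior C nc n) := OvcA_679.prior_isProb C nc n
  have hx : ∀ k, 0 < xs nc n k := OvcA_679.xs_pos nc n
  have hL : (fil C nc n).L = nc * n + 1 := rfl
  have hxl : xs nc n (nc * n + 1) = 1 := OvcA_679.xs_last nc n hn le_rfl
  unfold QQ
  rw [cE_tl hP hx]
  rw [hL]
  set A0 := A (S6Def_988.prior C nc n) (fil C nc n) (xs nc n) (UU (C := C) f G s) (nc * n) with hA0
  have hS : ∀ w, S (S6Def_988.prior C nc n) (fil C nc n) (xs nc n) (UU f G s) (nc * n) (nc * n + 1) w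
      = UU f G s w - A0 w := by
    intro w
    rw [S_succ _ le_rfl, S_self, hxl, A_of_ge _ (by rw [hL])]
    ring
  have hm : RMeas ((fil C nc n).F (nc * n)) (fun w => Real.exp (- A0 w)) := by
    intro a b hab
    have h0 : A0 a = A0 b := A_meas hP hx _ (nc * n) a b hab
    show Real.exp (- A0 a) = Real.exp (- A0 b)
    rw [h0]
  have h1 : (fun w => Real.exp (S (S6Def_988.prior C nc n) (fil C nc n) (xs nc n) (UU f G s) (nc * n)
      (nc * n + 1) w) * g w) = fun w => Real.exp (- A0 w) * (Real.exp (UU f G s w) * g w) := by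
    funext w
    rw [hS, ← mul_assoc, ← Real.exp_add]
    congr 2
    ring
  rw [h1, cE_mul_left hm]
  have h2 := exp_A_step (x := xs nc n) (𝓕 := fil C nc n) hP hx (UU f G s) (nc * n) ω
  have hA1 : A (S6Def_988.prior C nc n) (fil C nc n) (xs nc n) (UU f G s) (nc * n + 1)
      = UU f G s := A_of_ge _ (by rw [hL])
  rw [hxl, hA1, ← hA0] at h2
  simp only [one_mul] at h2
  rw [cE_prior_last] at h2 ⊢
  rw [Real.exp_neg, h2, inv_mul_eq_div]
  rfl

/-- the pair function of the Schwinger-Dyson relation -/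
def PsiP {M : ℕ} (f' : ℕ → ℝ → ℝ) (G : Fin M → Fin N → ℝ) (s : Fin nc → ℝ)
    (a b : Om C nc n) : ℝ := Psi f' G s a.2 (C.x a.1) (C.x b.1)

theorem sd_pair_le (hN : 0 < N) (hn : 0 < n) {δ : ℝ} (hδ : 0 ≤ δ) (hC : Near C δ) {M : ℕ}
    {f f' : ℕ → ℝ → ℝ} {K A : ℝ} (hf : ∀ a, Sm K (f a) (f' a)) (G : Fin M → Fin N → ℝ)
    {s : Fin nc → ℝ} (hs : ∀ g, |s g| ≤ A) {k : ℕ} (hk : k ≤ nc * n) :
    |pE (QQ C nc n f G s) ((fil C nc n).F k) (PsiP C f' G s)| ≤
      Real.exp (BU N nc n M K A) * ((CSD N nc n M K A + 1) * HG G ^ 3 * δ) := by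
  have hP : IsProb (S6Def_988.prior C nc n) := OvcA_679.prior_isProb C nc n
  have hx : ∀ k, 0 < xs nc n k := OvcA_679.xs_pos nc n
  have hQ : IsProb (QQ C nc n f G s) := tl_isProb hP hx _
  rw [pE_swap]
  unfold pE
  set B := Real.exp (BU N nc n M K A) * ((CSD N nc n M K A + 1) * HG G ^ 3 * δ) with hB
  have key : ∀ (b : C.Y) (ω : Om C nc n),
      |cE (QQ C nc n f G s) ((fil C nc n).F (nc * n))
        (fun a => Psi f' G s a.2 (C.x a.1) (C.x b)) ω| ≤ B := by
    intro b ω
    rw [cE_QQ_last C hn]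
    have h1 := sd_sum_le (G := G) (c := ω.2) hN hδ hC hf hs (C.hx b)
    have h2 : Real.exp (- BU N nc n M K A) ≤ ∑ y, C.q y * Real.exp (UF f G s ω.2 (C.x y)) := by
      have h3 : ∀ y ∈ (univ : Finset C.Y), C.q y * Real.exp (- BU N nc n M K A) ≤
          C.q y * Real.exp (UF f G s ω.2 (C.x y)) := by
        intro y _
        refine mul_le_mul_of_nonneg_left (Real.exp_le_exp.2 ?_) (C.hq.pos y).le
        have := (BLS_UF (G := G) (c := ω.2) hN hf hs).bd (C.x y) (C.hx y)
        exact (abs_le.1 this).1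
      have h4 := sum_le_sum h3
      rw [← sum_mul, C.hq.sum, one_mul] at h4
      exact h4
    have h5 : 0 < ∑ y, C.q y * Real.exp (UF f G s ω.2 (C.x y)) := (Real.exp_pos _).trans_le h2
    rw [abs_div, abs_of_pos h5, div_le_iff₀ h5]
    refine h1.trans ?_
    have h6 : 0 ≤ (CSD N nc n M K A + 1) * HG G ^ 3 * δ := (abs_nonneg _).trans h1
    calc (CSD N nc n M K A + 1) * HG G ^ 3 * δ
        = Real.exp (BU N nc n M K A) * ((CSD N nc n M K A + 1) * HG G ^ 3 * δ) *
          Real.exp (- BU N nc n M K A) := by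
          have h8 : Real.exp (BU N nc n M K A) * Real.exp (- BU N nc n M K A) = 1 := by
            rw [← Real.exp_add]; simp
          linear_combination (-((CSD N nc n M K A + 1) * HG G ^ 3 * δ)) * h8
      _ ≤ B * ∑ y, C.q y * Real.exp (UF f G s ω.2 (C.x y)) := by
          rw [hB]
          exact mul_le_mul_of_nonneg_left h2 (by positivity)
  have h7 : ∀ b : Om C nc n, |cE (QQ C nc n f G s) ((fil C nc n).F k)
      (fun a => PsiP C f' G s a b) b| ≤ B := by
    intro b
    rw [← cE_tower hQ ((fil C nc n).anti' hk)]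
    exact abs_cE_le_of_le hQ (fun ω => key b.1 ω) b
  refine (eE_abs_le hQ _).trans ?_
  exact eE_le_of_le hQ h7

theorem integrable_exp_abs :
    Integrable (fun x : ℝ => Real.exp |x|) (gaussianReal 0 1) := by
  have h1 : Integrable (fun x : ℝ => Real.exp (1 * x)) (gaussianReal 0 1) :=
    integrable_exp_mul_gaussianReal 1
  have h2 : Integrable (fun x : ℝ => Real.exp ((-1) * x)) (gaussianReal 0 1) :=
    integrable_exp_mul_gaussianReal (-1)
  refine (h1.add h2).mono' (by fun_prop) (Filter.Eventually.of_forall fun x => ?_)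
  rw [Real.norm_eq_abs, abs_of_pos (Real.exp_pos _)]
  show Real.exp |x| ≤ Real.exp (1 * x) + Real.exp ((-1) * x)
  rcases abs_cases x with ⟨h, _⟩ | ⟨h, _⟩
  · rw [h, one_mul]
    linarith [Real.exp_pos ((-1) * x)]
  · rw [h, neg_one_mul]
    linarith [Real.exp_pos (1 * x)]

/-- `E H^3 < ∞` -/
theorem integrable_HG (M N : ℕ) : Integrable (fun G : Fin M → Fin N → ℝ => HG G ^ 3) (gam M N) := by
  have h1 : Integrable (fun x : Fin N → ℝ => ∏ i, Real.exp |x i|)
      (Measure.pi fun _ => gaussianReal 0 1) :=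
    Integrable.fintype_prod (fun _ => integrable_exp_abs)
  have h2 : Integrable (fun G : Fin M → Fin N → ℝ => ∏ a, ∏ i, Real.exp |G a i|) (gam M N) :=
    Integrable.fintype_prod (f := fun _ (x : Fin N → ℝ) => ∏ i, Real.exp |x i|) (fun _ => h1)
  have hm : Measurable fun G : Fin M → Fin N → ℝ => HG G ^ 3 := by
    unfold HG
    fun_prop
  refine (h2.const_mul (6 * Real.exp 1)).mono' hm.aestronglyMeasurable
    (Filter.Eventually.of_forall fun G => ?_)
  have hH := one_le_HG G
  have h3 := Real.pow_div_factorial_le_exp (HG G) (by linarith) 3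
  have h4 : Real.exp (HG G) = Real.exp 1 * ∏ a, ∏ i, Real.exp |G a i| := by
    unfold HG
    rw [Real.exp_add]
    simp only [Real.exp_sum]
  rw [Real.norm_eq_abs, abs_of_nonneg (by positivity)]
  rw [h4] at h3
  have h5 : ((Nat.factorial 3 : ℕ) : ℝ) = 6 := by norm_num [Nat.factorial]
  rw [h5] at h3
  rw [div_le_iff₀ (by norm_num)] at h3
  linarith

/-- **(SDp)** Schwinger-Dyson relation for fine configuration spaces, pair form. -/
theorem sd_pair (N M nc n : ℕ) (hN : 0 < N) (hn : 0 < n) (K A ε : ℝ) (hε : 0 < ε) :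
    ∃ δ : ℝ, 0 < δ ∧ ∀ C : Cfg N, Near C δ → ∀ f f' : ℕ → ℝ → ℝ, (∀ a, Sm K (f a) (f' a)) →
      ∀ s : Fin nc → ℝ, (∀ g, |s g| ≤ A) → ∀ k, k ≤ nc * n →
      |∫ G, pE (QQ C nc n f G s) ((fil C nc n).F k) (PsiP C f' G s) ∂(gam M N)| ≤ ε := by
  obtain ⟨I, hI⟩ : ∃ I, I = ∫ G : Fin M → Fin N → ℝ, HG G ^ 3 ∂(gam M N) := ⟨_, rfl⟩
  have hI0 : 0 ≤ I := by
    rw [hI]
    exact integral_nonneg fun G => pow_nonneg (by linarith [one_le_HG G]) 3
  obtain ⟨D, hD⟩ : ∃ D, D = Real.exp (BU N nc n M K A) * (|CSD N nc n M K A| + 1) := ⟨_, rfl⟩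
  have hD0 : 0 < D := by rw [hD]; positivity
  obtain ⟨δ, hδ⟩ : ∃ δ, δ = ε / (D * (I + 1)) := ⟨_, rfl⟩
  have hδ0 : 0 < δ := by rw [hδ]; positivity
  refine ⟨δ, hδ0, ?_⟩
  intro C hC f f' hf s hs k hk
  have h1 : ∀ G : Fin M → Fin N → ℝ,
      ‖pE (QQ C nc n f G s) ((fil C nc n).F k) (PsiP C f' G s)‖ ≤ D * δ * HG G ^ 3 := by
    intro G
    have h2 := sd_pair_le C hN hn hδ0.le hC hf G hs hk
    rw [Real.norm_eq_abs]
    refine h2.trans ?_
    have h3 : (CSD N nc n M K A + 1) ≤ |CSD N nc n M K A| + 1 := by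
      linarith [le_abs_self (CSD N nc n M K A)]
    have h4 : 0 ≤ HG G ^ 3 := pow_nonneg (by linarith [one_le_HG G]) 3
    have h5 : Real.exp (BU N nc n M K A) * (CSD N nc n M K A + 1) ≤ D := by
      rw [hD]
      exact mul_le_mul_of_nonneg_left h3 (Real.exp_pos _).le
    have h6 : 0 ≤ HG G ^ 3 * δ := mul_nonneg h4 hδ0.le
    have h7 := mul_le_mul_of_nonneg_right h5 h6
    linarith
  have h5 := norm_integral_le_of_norm_le ((integrable_HG M N).const_mul (D * δ))
    (Filter.Eventually.of_forall h1)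
  rw [Real.norm_eq_abs, integral_const_mul] at h5
  refine h5.trans ?_
  rw [← hI]
  have h6 : D * δ * (I + 1) = ε := by
    rw [hδ]; field_simp
  have h7 : 0 ≤ D * δ := by positivity
  linarith

end

end Crest.Agent.R146.S6Sd_290
end

-- ▼ part R146/S6L2_290
section

/-!
Row 146, statement S0206, lower bound (helper290): the Prop `S6L_988.L2IBP` (Gaussian integration
by parts in the limit model), from `LimIbp_290`.
-/

set_option autoImplicit false

namespace Crest.Agent.R146.S6L2_290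

open Finset MeasureTheory ProbabilityTheory Crest.Agent.R164.GC
open Crest.Agent.R146.S6Def_988 Crest.Agent.R146.RowDef_874 Crest.Agent.R146.LimIbp_290
open Crest.Agent.R146.LimRel_290 Crest.Agent.R146.CavW_47
open Crest.Agent.R146.L2Alg_36 Crest.Agent.R146.S6L_988 Crest.Agent.R146.S6Sd_290

noncomputable section

theorem continuous_of_lip {K : ℝ} {g : ℝ → ℝ} (h : ∀ x y, |g x - g y| ≤ K * |x - y|) :
    Continuous g := by
  have hK : 0 ≤ K := by
    have := (abs_nonneg _).trans (h 1 0)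
    simpa using this
  have : LipschitzWith K.toNNReal g := by
    refine LipschitzWith.of_dist_le_mul fun x y => ?_
    rw [Real.dist_eq, Real.dist_eq, Real.coe_toNNReal K hK]
    exact h x y
  exact this.continuous

section S3

variable {K : ℝ} {f f1 f2 : ℝ → ℝ}

theorem S3_nK (h : S3 K f f1 f2) : 0 ≤ K := (abs_nonneg _).trans (h.b0 0)

theorem S3_S2 (h : S3 K f f1 f2) : S2 f f1 f2 K :=
  ⟨h.d1, h.d2, continuous_of_lip h.l2, h.b0, h.b1, h.b2⟩

theorem S3_lip1 (h : S3 K f f1 f2) (x y : ℝ) : |f1 x - f1 y| ≤ K * |x - y| := by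
  have := Convex.norm_image_sub_le_of_norm_hasDerivWithin_le (f := f1) (f' := f2) (C := K)
    (s := Set.univ) (x := y) (y := x) (fun z _ => (h.d2 z).hasDerivWithinAt) (fun z _ => h.b2 z)
    convex_univ (Set.mem_univ _) (Set.mem_univ _)
  simpa [Real.norm_eq_abs] using this

theorem S3_Sm (h : S3 K f f1 f2) : Sm K f f1 := ⟨h.d1, h.b0, h.b1, S3_lip1 h⟩

theorem S3_BL (h : S3 K f f1 f2) : BL K K f := ⟨h.b0, (S3_Sm h).lip⟩


end S3

variable {J : ℕ} {f f1 f2 : ℝ → ℝ} {P : ℕ → ℝ}

/-- the last pair expectation is a single expectation. -/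
theorem kapX_top (φ ψ : ℝ → ℝ) : kapX J f P (J + 1) φ ψ =
    cX J f P (J + 2) (fun x => φ x * ψ x) 0 0 := by
  unfold kapX
  rw [cX_self, cX_self]

theorem kapX_top_eq (φ ψ : ℝ → ℝ) : kapX J f P (J + 1) φ ψ =
    EX J f P (J + 2) (fun x => φ x * ψ x) := kapX_top φ ψ

theorem SX_eq {C : ℝ} (h : S2 f f1 f2 C) : SX J f f1 f2 P =
    kapX J f P (J + 1) f2 (fun _ => 1) + kapX J f P (J + 1) f1 f1 := by
  rw [kapX_top_eq, kapX_top_eq]
  have h1 : SX J f f1 f2 P = EX J f P (J + 2) (fun x => f2 x * 1 + f1 x * f1 x) := by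
    unfold SX EX
    congr 1
    funext x
    ring
  rw [h1]
  have h2 : EG (fun x => f2 x * 1) := by simpa using h.B2.eg
  exact EX_add h le_rfl h2 (h.B1.eg.mul h.B1.eg)

theorem kapX_top_sq : kapX J f P (J + 1) f1 f1 = cX J f P (J + 2) (fun x => f1 x ^ 2) 0 0 := by
  rw [kapX_top]
  congr 1
  funext x
  ring

theorem kapX_mono' {C : ℝ} (h : S2 f f1 f2 C) {i j : ℕ} (hij : i ≤ j) (hj : j ≤ J + 1) :
    kapX J f P i f1 f1 ≤ kapX J f P j f1 f1 := by
  rcases Nat.lt_or_ge j (J + 1) with h1 | h1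
  · exact kapX_mono h hij (by omega)
  · have e : j = J + 1 := le_antisymm hj h1
    subst e
    rcases Nat.lt_or_ge i (J + 1) with h2 | h2
    · refine (kapX_mono h (by omega : i ≤ J) le_rfl).trans ?_
      rw [kapX_top_sq]
      exact kapX_last_le h
    · have e : i = J + 1 := le_antisymm hij h2
      rw [e]

theorem kapX_top_le {C : ℝ} (h : S2 f f1 f2 C) : kapX J f P (J + 1) f1 f1 ≤ C ^ 2 := by
  rw [kapX_top_eq]
  have h1 : BC (fun x => f1 x * f1 x) (C * C) := h.B1.mul h.B1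
  have := EX_abs_le (J := J) (P := P) h le_rfl h1
  rw [sq]
  exact (le_abs_self _).trans this

/-- **(L2IBP)** Gaussian integration by parts in the limit model. -/
theorem l2ibp : L2IBP := by
  intro K f f1 f2 h3 J P hP
  have h := S3_S2 h3
  refine ⟨⟨kapX_nonneg h (Nat.zero_le _), fun i j hij hj => kapX_mono' h hij hj,
    kapX_top_le h⟩, ?_, ?_⟩
  · rw [kapX_top f1 (fun x => x), kap_star h hP, SX_eq h, one_div]
  · intro b hb
    rw [kapX_id h hP hb, sum_swap_b _ hb, SX_eq h, one_div]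
    ring

end

end Crest.Agent.R146.S6L2_290
end

-- ▼ part R146/S6Rel_290
section

/-!
Row 146, statement S0206, lower bound (helper290): the relations (L2) between the levels `P` and
`T` (`S6L_988.REL`) from the Schwinger-Dyson relation `S6Sd_290.sd_pair`, the row observables and
the bound of the fields.
-/

set_option autoImplicit false

namespace Crest.Agent.R146.S6Rel_290

open Finset MeasureTheory ProbabilityTheory
open Crest.Agent.R141 hiding prior UU
open Crest.Agent.R146.S6Def_988 Crest.Agent.R146.S6U_988 Crest.Agent.R146.RowDef_874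
open Crest.Agent.R146.LimIbp_290 Crest.Agent.R146.LimRel_290 Crest.Agent.R146.L2Alg_36
open Crest.Agent.R146.S6L_988 Crest.Agent.R146.S6L2_290 Crest.Agent.R146.S6Trans_944
open Crest.Agent.R146.S6Sd_290 (HG one_le_HG sum_row_le_HG integrable_HG PsiP sd_pair)
open Crest.Agent.R146.S6Ovl_382 (QQ_isProb measurable_QQ)

noncomputable section

/-! ### pairs -/

section pE

variable {Ω : Type} [Fintype Ω] {P : Ω → ℝ} {r : Setoid Ω}

theorem pE_sub (f g : Ω → Ω → ℝ) : pE P r (fun a b => f a b - g a b) = pE P r f - pE P r g := by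
  unfold pE
  simp_rw [cE_sub]
  rw [eE_sub]

theorem pE_abs_le (hP : IsProb P) (f : Ω → Ω → ℝ) : |pE P r f| ≤ pE P r (fun a b => |f a b|) := by
  rw [abs_le]
  constructor
  · have h := pE_mono (r := r) hP (f := fun a b => (-1) * |f a b|) (g := f)
      (fun a b _ => by linarith [neg_abs_le (f a b)])
    rw [pE_smul] at h
    linarith
  · exact pE_mono hP fun a b _ => le_abs_self _

theorem pE_le_of_le (hP : IsProb P) {f : Ω → Ω → ℝ} {c : ℝ} (h : ∀ a b, f a b ≤ c) :
    pE P r f ≤ c :=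
  (pE_mono hP fun a b _ => h a b).trans (pE_const hP c).le


end pE

variable {N : ℕ} {C : Cfg N} {nc n M : ℕ}

theorem pE_ovl {Q : Om C nc n → ℝ} (hQ : IsProb Q) (r : Setoid (Om C nc n)) :
    pE Q r (ovl C nc n) = eE Q (fun ω => (N : ℝ)⁻¹ *
      ∑ i, (cE Q r (fun w => C.x w.1 i) ω) ^ 2) := by
  have h1 : pE Q r (ovl C nc n) = eE Q (fun ω => (N : ℝ)⁻¹ *
      ∑ i, C.x ω.1 i * cE Q r (fun w => C.x w.1 i) ω) := by
    unfold pE ovl
    congr 1
    funext ω
    rw [cE_smul, cE_sum]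
    simp_rw [cE_smul]
  rw [h1, eE_smul, eE_smul, eE_sum, eE_sum]
  congr 1
  refine sum_congr rfl fun i _ => ?_
  have h2 : (fun ω => (cE Q r (fun w => C.x w.1 i) ω) ^ 2) =
      cE Q r (fun ω => C.x ω.1 i * cE Q r (fun w => C.x w.1 i) ω) := by
    funext ω
    rw [cE_mul_right (cE_meas Q r _)]
    ring
  rw [h2, eE_cE hQ]

theorem Rk_eq (f : ℕ → ℝ → ℝ) (s : Fin nc → ℝ) (k : ℕ) : Rk C nc n f M s k =
    ∫ G, pE (QQ C nc n (M := M) f G s) ((fil C nc n).F k) (ovl C nc n) ∂(gam M N) := by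
  unfold Rk
  refine integral_congr_ae (Filter.Eventually.of_forall fun G => ?_)
  exact (pE_ovl (QQ_isProb C nc n f G s) _).symm

theorem abs_ovl_le (hN : 0 < N) (u v : Om C nc n) : |ovl C nc n u v| ≤ 1 := by
  have hN' : (0 : ℝ) < N := by exact_mod_cast hN
  unfold ovl
  rw [abs_mul, abs_of_pos (inv_pos.2 hN'), inv_mul_le_iff₀ hN', mul_one]
  refine (abs_sum_le_sum_abs _ _).trans ?_
  have h1 : ∀ i ∈ (univ : Finset (Fin N)), |C.x u.1 i * C.x v.1 i| ≤
      (C.x u.1 i ^ 2 + C.x v.1 i ^ 2) / 2 := by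
    intro i _
    rw [abs_mul]
    nlinarith [sq_nonneg (|C.x u.1 i| - |C.x v.1 i|), sq_abs (C.x u.1 i), sq_abs (C.x v.1 i)]
  refine (sum_le_sum h1).trans ?_
  rw [← sum_div, sum_add_distrib, C.hx, C.hx]
  linarith

theorem x_le (hN : 0 < N) (y : C.Y) (i : Fin N) : |C.x y i / Real.sqrt N| ≤ 1 := by
  have hN' : (0 : ℝ) < N := by exact_mod_cast hN
  have hs : 0 < Real.sqrt N := Real.sqrt_pos.2 hN'
  rw [abs_div, abs_of_pos hs, div_le_one hs, ← Real.sqrt_sq_eq_abs]
  refine Real.sqrt_le_sqrt ?_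
  have h := single_le_sum (f := fun i => C.x y i ^ 2) (fun i _ => sq_nonneg _) (mem_univ i)
  rw [C.hx y] at h
  exact h

theorem abs_hh_le (hN : 0 < N) (G : Fin M → Fin N → ℝ) (a : Fin M) (y : C.Y) :
    |hh G a (C.x y)| ≤ HG G := by
  unfold hh
  refine (abs_sum_le_sum_abs _ _).trans ((sum_le_sum fun i _ => ?_).trans (sum_row_le_HG G a))
  rw [abs_mul]
  exact mul_le_of_le_one_right (abs_nonneg _) (x_le hN y i)

/-! ### the three terms -/

theorem meas_hh (a : Fin M) (x : Fin N → ℝ) : Measurable fun G : Fin M → Fin N → ℝ => hh G a x := by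
  unfold hh
  fun_prop

theorem meas_RS {φ ψ : ℝ → ℝ} (hφ : Measurable φ) (hψ : Measurable ψ) (u v : Om C nc n) :
    Measurable fun G : Fin M → Fin N → ℝ => RS C nc n φ ψ G u v := by
  unfold RS
  refine Measurable.const_mul (Finset.measurable_sum _ fun a _ => ?_) _
  exact (hφ.comp (meas_hh a _)).mul (hψ.comp (meas_hh a _))

theorem abs_RS_le (hN : 0 < N) {f1 : ℝ → ℝ} {K : ℝ} (hK : ∀ x, |f1 x| ≤ K)
    (G : Fin M → Fin N → ℝ) (u v : Om C nc n) :
    |RS C nc n f1 (fun x => x) G u v| ≤ (M : ℝ) / N * (K * HG G ^ 3) := by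
  have hN' : (0 : ℝ) < N := by exact_mod_cast hN
  have hH := one_le_HG G
  have hK0 : 0 ≤ K := (abs_nonneg _).trans (hK 0)
  unfold RS
  rw [abs_mul, abs_of_pos (inv_pos.2 hN')]
  have h1 : |∑ a : Fin M, f1 (hh G a (C.x u.1)) * hh G a (C.x v.1)| ≤ M * (K * HG G) := by
    refine (abs_sum_le_sum_abs _ _).trans ?_
    have h2 : ∀ a ∈ (univ : Finset (Fin M)), |f1 (hh G a (C.x u.1)) * hh G a (C.x v.1)| ≤
        K * HG G := by
      intro a _
      rw [abs_mul]
      exact mul_le_mul (hK _) (abs_hh_le hN G a _) (abs_nonneg _) hK0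
    refine (sum_le_sum h2).trans ?_
    rw [sum_const, card_univ, Fintype.card_fin, nsmul_eq_mul]
  have h3 : HG G ≤ HG G ^ 3 := le_self_pow₀ hH (by norm_num)
  have h4 : (M : ℝ) * (K * HG G) ≤ M * (K * HG G ^ 3) := by gcongr
  calc (N : ℝ)⁻¹ * _ ≤ (N : ℝ)⁻¹ * (M * (K * HG G ^ 3)) :=
        mul_le_mul_of_nonneg_left (h1.trans h4) (inv_pos.2 hN').le
    _ = _ := by rw [div_eq_mul_inv]; ring

theorem integrable_pE {f : ℕ → ℝ → ℝ} (hf : ∀ a, Measurable (f a)) (s : Fin nc → ℝ)
    (r : Setoid (Om C nc n)) {Ψ : (Fin M → Fin N → ℝ) → Om C nc n → Om C nc n → ℝ}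
    (hΨ : ∀ u v, Measurable fun G => Ψ G u v) {c : ℝ} (hb : ∀ G u v, |Ψ G u v| ≤ c * HG G ^ 3) :
    Integrable (fun G => pE (QQ C nc n f G s) r (Ψ G)) (gam M N) := by
  refine ((integrable_HG M N).const_mul c).mono' ?_ (Filter.Eventually.of_forall fun G => ?_)
  · unfold pE
    refine Measurable.aestronglyMeasurable ?_
    exact Crest.Agent.R164.G.meas_eE (measurable_QQ C nc n hf s) fun u =>
      Crest.Agent.R164.G.meas_cE (f := fun G v => Ψ G u v) (measurable_QQ C nc n hf s)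
        (fun v => hΨ u v) r u
  · rw [Real.norm_eq_abs]
    exact (pE_abs_le (QQ_isProb C nc n f G s) _).trans
      (pE_le_of_le (QQ_isProb C nc n f G s) (hb G))

/-- the field terms -/
def FT {N : ℕ} (C : Cfg N) (nc n : ℕ) (s : Fin nc → ℝ) (u v : Om C nc n) : ℝ :=
  (N : ℝ)⁻¹ * ∑ g, s g * ((∑ i, zf u.2 g i * C.x v.1 i) -
    ovl C nc n u v * ∑ i, zf u.2 g i * C.x u.1 i)

theorem PsiP_eq (hN : 0 < N) (f1 : ℝ → ℝ) (G : Fin M → Fin N → ℝ) (s : Fin nc → ℝ)
    (u v : Om C nc n) : (N : ℝ)⁻¹ * PsiP C (fun _ => f1) G s u v =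
      (1 - (N : ℝ)⁻¹) * ovl C nc n u v - RS C nc n f1 (fun x => x) G u v +
        ovl C nc n u v * RS C nc n f1 (fun x => x) G u u - FT C nc n s u v := by
  have hN' : (N : ℝ) ≠ 0 := by exact_mod_cast hN.ne'
  have h0 : ∑ i, C.x v.1 i * C.x u.1 i = N * ovl C nc n u v := by
    unfold ovl
    rw [← mul_assoc, mul_inv_cancel₀ hN', one_mul]
    exact sum_congr rfl fun i _ => mul_comm _ _
  have e1 : ∑ a : Fin M, f1 (S6Sd_290.hr G a (C.x u.1)) * (S6Sd_290.hr G a (C.x v.1) -
      ovl C nc n u v * S6Sd_290.hr G a (C.x u.1)) =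
      N * (RS C nc n f1 (fun x => x) G u v - ovl C nc n u v * RS C nc n f1 (fun x => x) G u u) := by
    have h1 : ∀ w, (N : ℝ) * RS C nc n f1 (fun x => x) G u w =
        ∑ a : Fin M, f1 (S6Sd_290.hr G a (C.x u.1)) * S6Sd_290.hr G a (C.x w.1) := by
      intro w
      unfold RS
      rw [← mul_assoc, mul_inv_cancel₀ hN', one_mul]
      rfl
    have h2 : (N : ℝ) * (RS C nc n f1 (fun x => x) G u v -
        ovl C nc n u v * RS C nc n f1 (fun x => x) G u u) =
        (N : ℝ) * RS C nc n f1 (fun x => x) G u v -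
        ovl C nc n u v * ((N : ℝ) * RS C nc n f1 (fun x => x) G u u) := by ring
    rw [h2, h1, h1, mul_sum, ← sum_sub_distrib]
    exact sum_congr rfl fun a _ => by ring
  unfold PsiP S6Sd_290.Psi FT
  rw [h0]
  have e2 : (N : ℝ) * ovl C nc n u v / N = ovl C nc n u v := by field_simp
  rw [e2, e1]
  field_simp
  ring

theorem pE_FT_le (hN : 0 < N) {Q : Om C nc n → ℝ} (hQ : IsProb Q) (r : Setoid (Om C nc n))
    {s : Fin nc → ℝ} {A Cf : ℝ} (hs : ∀ g, |s g| ≤ A)
    (hF : ∀ g : Fin nc, eE Q (fun ω => ∑ i, zf ω.2 g i ^ 2) ≤ Cf * N) :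
    |pE Q r (FT C nc n s)| ≤ (nc : ℝ) * A * (Cf + 1) := by
  have hN' : (0 : ℝ) < N := by exact_mod_cast hN
  have hdot : ∀ (g : Fin nc) (u v : Om C nc n), |∑ i, zf u.2 g i * C.x v.1 i| ≤
      (∑ i, zf u.2 g i ^ 2 + N) / 2 := by
    intro g u v
    refine (abs_sum_le_sum_abs _ _).trans ?_
    rw [← C.hx v.1, ← sum_add_distrib, sum_div]
    refine sum_le_sum fun i _ => ?_
    rw [abs_mul]
    nlinarith [sq_nonneg (|zf u.2 g i| - |C.x v.1 i|), sq_abs (zf u.2 g i), sq_abs (C.x v.1 i)]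
  have hpt : ∀ u v : Om C nc n, |FT C nc n s u v| ≤
      ∑ g : Fin nc, (N : ℝ)⁻¹ * (A * (∑ i, zf u.2 g i ^ 2 + N)) := by
    intro u v
    unfold FT
    rw [mul_sum]
    refine (abs_sum_le_sum_abs _ _).trans (sum_le_sum fun g _ => ?_)
    rw [abs_mul, abs_of_pos (inv_pos.2 hN'), abs_mul]
    refine mul_le_mul_of_nonneg_left ?_ (inv_pos.2 hN').le
    refine mul_le_mul (hs g) ?_ (abs_nonneg _) ((abs_nonneg _).trans (hs g))
    refine (abs_sub _ _).trans ?_
    have h1 := hdot g u v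
    have h2 := hdot g u u
    have h3 : |ovl C nc n u v * ∑ i, zf u.2 g i * C.x u.1 i| ≤ |∑ i, zf u.2 g i * C.x u.1 i| := by
      rw [abs_mul]
      exact mul_le_of_le_one_left (abs_nonneg _) (abs_ovl_le hN u v)
    linarith
  refine (pE_abs_le hQ _).trans ((pE_mono hQ fun a b _ => hpt a b).trans ?_)
  rw [pE_fst hQ, eE_sum]
  have h5 : ∀ g ∈ (univ : Finset (Fin nc)), eE Q (fun ω => (N : ℝ)⁻¹ * (A *
      (∑ i, zf ω.2 g i ^ 2 + N))) ≤ A * (Cf + 1) := by
    intro g _
    rw [eE_smul, eE_smul, eE_add, eE_const hQ]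
    have hA : 0 ≤ A := (abs_nonneg _).trans (hs g)
    rw [inv_mul_le_iff₀ hN']
    have h6 := hF g
    calc A * (eE Q (fun ω => ∑ i, zf ω.2 g i ^ 2) + N) ≤ A * (Cf * N + N) :=
          mul_le_mul_of_nonneg_left (by linarith) hA
      _ = _ := by ring
  refine (sum_le_sum h5).trans ?_
  rw [sum_const, card_univ, Fintype.card_fin, nsmul_eq_mul]
  linarith

/-! ### the skeleton -/

theorem tau_le {f : ℕ → ℝ → ℝ} {s : Fin nc → ℝ} {J wc : ℕ} {τ : ℕ → ℕ} {ε : ℝ}
    (hwc : 2 ≤ wc) (hnc : nc + 1 = (J + 1) * wc) (hS : Skel C nc n f M s J wc τ ε)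
    {b : ℕ} (hb : b ≤ J) : τ b ≤ nc * n := by
  have h1 := (hS.blk b hb).2
  unfold st at h1
  have h2 : b * wc + wc - 1 ≤ nc := by
    have h3 : (b + 1) * wc ≤ (J + 1) * wc := Nat.mul_le_mul_right wc (by omega)
    rw [add_mul, one_mul] at h3
    omega
  exact h1.le.trans (Nat.mul_le_mul_right n h2)

theorem tau_mono {f : ℕ → ℝ → ℝ} {s : Fin nc → ℝ} {J wc : ℕ} {τ : ℕ → ℕ} {ε : ℝ}
    (hwc : 2 ≤ wc) (hS : Skel C nc n f M s J wc τ ε)
    {b b' : ℕ} (hbb : b ≤ b') (hb : b' ≤ J) : τ b ≤ τ b' := by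
  rcases Nat.lt_or_ge b b' with h | h
  · have h1 := (hS.blk b (by omega)).2
    have h2 := (hS.blk b' hb).1
    unfold st at h1 h2
    refine h1.le.trans (le_trans (Nat.mul_le_mul_right n ?_) h2)
    have h3 : (b + 1) * wc ≤ b' * wc := Nat.mul_le_mul_right wc h
    rw [add_mul, one_mul] at h3
    omega
  · have : b = b' := le_antisymm hbb h
    rw [this]

/-- the levels of a skeleton are admissible. -/
theorem lev_PR (hN : 0 < N) {f : ℝ → ℝ} (hf : Measurable f) {s : Fin nc → ℝ} {J wc : ℕ}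
    {τ : ℕ → ℕ} {ε : ℝ} (hwc : 2 ≤ wc) (hS : Skel C nc n (fun _ => f) M s J wc τ ε) :
    Lev J (PR C nc n f M s τ) where
  nonneg := S6Ovl_382.Rk_nonneg C nc n (fun _ => f) s (τ 0)
  mono _ _ hij hj := S6Ovl_382.Rk_mono C nc n s hN (fun _ => hf) (tau_mono hwc hS hij hj)
  le_one := S6Ovl_382.Rk_le_one C nc n s hN (fun _ => hf) _

/-! ### the relation -/

theorem lin4 {Θ : Type*} [MeasurableSpace Θ] {μ : Measure Θ} {X0 X1 X2 X3 X4 : Θ → ℝ}
    (h1 : Integrable X1 μ) (h2 : Integrable X2 μ) (h3 : Integrable X3 μ) (h4 : Integrable X4 μ)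
    (c d : ℝ) (h : ∀ G, c * X0 G = d * X1 G - X2 G + X3 G - X4 G) :
    c * ∫ G, X0 G ∂μ = d * (∫ G, X1 G ∂μ) - (∫ G, X2 G ∂μ) + (∫ G, X3 G ∂μ) - ∫ G, X4 G ∂μ := by
  have h12 : Integrable (fun G => d * X1 G - X2 G) μ := (h1.const_mul d).sub h2
  have h123 : Integrable (fun G => d * X1 G - X2 G + X3 G) μ := h12.add h3
  rw [← integral_const_mul]
  simp_rw [h]
  rw [integral_sub h123 h4, integral_add h12 h3, integral_sub (h1.const_mul d) h2,
    integral_const_mul]

/-- the value `κ_* = kapX (J+1) f' id` is bounded. -/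
theorem abs_kapX_top_le {K : ℝ} {f f1 f2 : ℝ → ℝ} (h3 : S3 K f f1 f2) {J : ℕ} {P : ℕ → ℝ}
    (hP : Lev J P) : |kapX J f P (J + 1) f1 (fun x => x)| ≤ K + 2 * K ^ 2 := by
  obtain ⟨hT, h1, -⟩ := l2ibp K f f1 f2 h3 J P hP
  have h := S3_S2 h3
  have hK := S3_nK h3
  have e1 : |kapX J f P (J + 1) f2 (fun _ => 1)| ≤ K := by
    rw [kapX_top_eq]
    have h4 : Crest.Agent.R164.GC.BC (fun x => f2 x * 1) K := by
      refine ⟨by simpa using h.c2, fun x => ?_⟩
      rw [mul_one]
      exact h.b2 x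
    exact EX_abs_le h le_rfl h4
  have e2 : |kapX J f P (J + 1) f1 f1| ≤ K ^ 2 := by
    rw [abs_of_nonneg (hT.nonneg' le_rfl)]
    exact hT.le
  have e3 : |1 / ((J : ℝ) + 1) * ∑ l ∈ range (J + 1), P l * kapX J f P l f1 f1| ≤ K ^ 2 := by
    have h5 : |∑ l ∈ range (J + 1), P l * kapX J f P l f1 f1| ≤ ((J : ℝ) + 1) * K ^ 2 := by
      refine (abs_sum_le_sum_abs _ _).trans ?_
      have h6 : ∀ l ∈ range (J + 1), |P l * kapX J f P l f1 f1| ≤ K ^ 2 := by
        intro l hl
        rw [mem_range] at hl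
        have h7 : 0 ≤ P l := hP.nonneg.trans (hP.mono 0 l (Nat.zero_le _) (by omega))
        have h8 : P l ≤ 1 := (hP.mono l J (by omega) le_rfl).trans hP.le_one
        have h9 : 0 ≤ kapX J f P l f1 f1 := hT.nonneg' (by omega)
        have h10 : kapX J f P l f1 f1 ≤ K ^ 2 := (hT.mono l (J + 1) (by omega) le_rfl).trans hT.le
        rw [abs_of_nonneg (mul_nonneg h7 h9)]
        calc P l * kapX J f P l f1 f1 ≤ 1 * K ^ 2 := mul_le_mul h8 h10 h9 zero_le_one
          _ = _ := one_mul _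
      refine (sum_le_sum h6).trans ?_
      rw [sum_const, card_range, nsmul_eq_mul]
      push_cast
      exact le_rfl
    have hJ : (0 : ℝ) < (J : ℝ) + 1 := by positivity
    rw [abs_mul, abs_of_pos (by positivity : (0 : ℝ) < 1 / ((J : ℝ) + 1)), one_div,
      inv_mul_le_iff₀ hJ]
    exact h5
  rw [h1]
  rw [abs_le] at e1 e2 e3 ⊢
  constructor <;> linarith [e1.1, e1.2, e2.1, e2.2, e3.1, e3.2]

/-- **the defect of the relation at the level `b`**, for one system. -/
theorem rel_core (hN : 0 < N) {K : ℝ} {f f1 f2 : ℝ → ℝ} (h3 : S3 K f f1 f2)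
    {s : Fin nc → ℝ} {J wc : ℕ} {τ : ℕ → ℕ} {ε1 : ℝ} (hwc : 2 ≤ wc)
    (hS : Skel C nc n (fun _ => f) M s J wc τ ε1) {b : ℕ} (hb : b ≤ J) {A Cf r1 r2 e0 : ℝ}
    (hs : ∀ g, |s g| ≤ A)
    (hF : ∀ (G : Fin M → Fin N → ℝ) (g : Fin nc),
      eE (QQ C nc n (M := M) (fun _ => f) G s) (fun ω => ∑ i, zf ω.2 g i ^ 2) ≤ Cf * N)
    (h1 : ∫ G, pE (QQ C nc n (M := M) (fun _ => f) G s) ((fil C nc n).F (τ b))
      (fun u v => |RS C nc n f1 (fun x => x) G u v -
        (M : ℝ) / N * kapX J f (PR C nc n f M s τ) b f1 (fun x => x)|) ∂(gam M N) ≤ r1)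
    (h2 : ∫ G, eE (QQ C nc n (M := M) (fun _ => f) G s) (fun u =>
      |RS C nc n f1 (fun x => x) G u u -
        (M : ℝ) / N * kapX J f (PR C nc n f M s τ) (J + 1) f1 (fun x => x)|) ∂(gam M N) ≤ r2)
    (h0 : |∫ G, pE (QQ C nc n (M := M) (fun _ => f) G s) ((fil C nc n).F (τ b))
      (PsiP C (fun _ => f1) G s) ∂(gam M N)| ≤ e0) :
    |rel J (PR C nc n f M s τ) (TR J f f1 (PR C nc n f M s τ) ((M : ℝ) / N)) b| ≤
      (N : ℝ)⁻¹ * e0 + (N : ℝ)⁻¹ + r1 + (r2 + (M : ℝ) / N * (K + 2 * K ^ 2) * ε1) +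
        (nc : ℝ) * A * (Cf + 1) := by
  have hN' : (0 : ℝ) < N := by exact_mod_cast hN
  have h := S3_S2 h3
  have hK := S3_nK h3
  have hfm : Measurable f := h.c0.measurable
  have hf1m : Measurable f1 := h.c1.measurable
  obtain ⟨P, hPdef⟩ : ∃ P, P = PR C nc n f M s τ := ⟨_, rfl⟩
  rw [← hPdef] at h1 h2 ⊢
  have hP : Lev J P := by rw [hPdef]; exact lev_PR hN hfm hwc hS
  obtain ⟨α, hα⟩ : ∃ α : ℝ, α = (M : ℝ) / N := ⟨_, rfl⟩
  rw [← hα] at h1 h2 ⊢
  have hα0 : 0 ≤ α := by rw [hα]; positivity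
  obtain ⟨kb, hkb⟩ : ∃ kb : ℝ, kb = kapX J f P b f1 (fun x => x) := ⟨_, rfl⟩
  obtain ⟨ks, hks⟩ : ∃ ks : ℝ, ks = kapX J f P (J + 1) f1 (fun x => x) := ⟨_, rfl⟩
  rw [← hkb] at h1
  rw [← hks] at h2
  have hks1 : |ks| ≤ K + 2 * K ^ 2 := by rw [hks]; exact abs_kapX_top_le h3 hP
  have hrel : rel J P (TR J f f1 P α) b = P b - α * (kb - P b * ks) := by
    have := rel_eq h hP α hb
    rw [← kapX_top f1 (fun x => x), ← hkb, ← hks] at this
    exact this
  rw [hrel]
  -- abbreviations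
  obtain ⟨r, hr⟩ : ∃ r, r = (fil C nc n).F (τ b) := ⟨_, rfl⟩
  rw [← hr] at h0 h1
  have hpair := hS.pair b hb
  rw [← hr] at hpair
  have hQ : ∀ G : Fin M → Fin N → ℝ, IsProb (QQ C nc n (fun _ => f) G s) :=
    fun G => QQ_isProb C nc n (fun _ => f) G s
  have hfm' : ∀ a : ℕ, Measurable ((fun _ => f : ℕ → ℝ → ℝ) a) := fun _ => hfm
  have hPb : P b = ∫ G, pE (QQ C nc n (M := M) (fun _ => f) G s) r (ovl C nc n) ∂(gam M N) := by
    rw [hPdef, hr]
    exact Rk_eq (fun _ => f) s (τ b)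
  have hH3 : ∀ G : Fin M → Fin N → ℝ, 1 ≤ HG G ^ 3 := fun G => one_le_pow₀ (one_le_HG G)
  -- integrability
  have hc1 : ∀ (G : Fin M → Fin N → ℝ) (u v : Om C nc n),
      |RS C nc n f1 (fun x => x) G u v| ≤ α * K * HG G ^ 3 := by
    intro G u v
    refine (abs_RS_le hN h.b1 G u v).trans (le_of_eq ?_)
    rw [hα]
    ring
  have hm1 : ∀ u v : Om C nc n, Measurable fun G : Fin M → Fin N → ℝ =>
      RS C nc n f1 (fun x => x) G u v := fun u v => meas_RS hf1m measurable_id u v
  have I1 : Integrable (fun G : Fin M → Fin N → ℝ => pE (QQ C nc n (fun _ => f) G s) r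
      (ovl C nc n)) (gam M N) :=
    integrable_pE hfm' s r (Ψ := fun _ => ovl C nc n) (fun _ _ => measurable_const) (c := 1)
      fun G u v => by rw [one_mul]; exact (abs_ovl_le hN u v).trans (hH3 G)
  have I2 : Integrable (fun G : Fin M → Fin N → ℝ => pE (QQ C nc n (fun _ => f) G s) r
      (RS C nc n f1 (fun x => x) G)) (gam M N) :=
    integrable_pE hfm' s r hm1 hc1
  have I3 : Integrable (fun G : Fin M → Fin N → ℝ => pE (QQ C nc n (fun _ => f) G s) r
      (fun u v => ovl C nc n u v * RS C nc n f1 (fun x => x) G u u)) (gam M N) := by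
    refine integrable_pE hfm' s r (fun u v => (hm1 u u).const_mul _) (c := α * K) fun G u v => ?_
    rw [abs_mul]
    exact (mul_le_of_le_one_left (abs_nonneg _) (abs_ovl_le hN u v)).trans (hc1 G u u)
  obtain ⟨BF, hBF⟩ : ∃ BF : ℝ, ∀ u v : Om C nc n, |FT C nc n s u v| ≤ BF := by
    refine ⟨∑ u, ∑ v, |FT C nc n s u v|, fun u v => ?_⟩
    refine (single_le_sum (f := fun v => |FT C nc n s u v|) (fun _ _ => abs_nonneg _)
      (mem_univ v)).trans ?_
    exact single_le_sum (f := fun u => ∑ v, |FT C nc n s u v|)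
      (fun _ _ => sum_nonneg fun _ _ => abs_nonneg _) (mem_univ u)
  have I4 : Integrable (fun G : Fin M → Fin N → ℝ => pE (QQ C nc n (fun _ => f) G s) r
      (FT C nc n s)) (gam M N) := by
    refine integrable_pE hfm' s r (Ψ := fun _ => FT C nc n s) (fun _ _ => measurable_const)
      (c := |BF|) fun G u v => ?_
    exact (hBF u v).trans ((le_abs_self _).trans (le_mul_of_one_le_right (abs_nonneg _) (hH3 G)))
  -- the identity
  have key : (N : ℝ)⁻¹ * ∫ G, pE (QQ C nc n (M := M) (fun _ => f) G s) r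
      (PsiP C (fun _ => f1) G s) ∂(gam M N) = (1 - (N : ℝ)⁻¹) * P b -
      (∫ G, pE (QQ C nc n (M := M) (fun _ => f) G s) r (RS C nc n f1 (fun x => x) G) ∂(gam M N)) +
      (∫ G, pE (QQ C nc n (M := M) (fun _ => f) G s) r
        (fun u v => ovl C nc n u v * RS C nc n f1 (fun x => x) G u u) ∂(gam M N)) -
      ∫ G, pE (QQ C nc n (M := M) (fun _ => f) G s) r (FT C nc n s) ∂(gam M N) := by
    rw [hPb]
    refine lin4 I1 I2 I3 I4 _ _ fun G => ?_
    rw [← pE_smul]
    have e : (fun u v => (N : ℝ)⁻¹ * PsiP C (fun _ => f1) G s u v) =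
        fun u v => ((1 - (N : ℝ)⁻¹) * ovl C nc n u v - RS C nc n f1 (fun x => x) G u v +
          ovl C nc n u v * RS C nc n f1 (fun x => x) G u u) - FT C nc n s u v := by
      funext u v
      exact PsiP_eq hN f1 G s u v
    rw [e, pE_sub, pE_add, pE_sub, pE_smul]
  -- (1)
  have t1 : |(∫ G, pE (QQ C nc n (M := M) (fun _ => f) G s) r
      (RS C nc n f1 (fun x => x) G) ∂(gam M N)) - α * kb| ≤ r1 := by
    have e1 : (∫ G, pE (QQ C nc n (M := M) (fun _ => f) G s) r
        (RS C nc n f1 (fun x => x) G) ∂(gam M N)) - α * kb =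
        ∫ G, pE (QQ C nc n (M := M) (fun _ => f) G s) r
        (fun u v => RS C nc n f1 (fun x => x) G u v - α * kb) ∂(gam M N) := by
      have e2 : ∀ G : Fin M → Fin N → ℝ, pE (QQ C nc n (M := M) (fun _ => f) G s) r
          (fun u v => RS C nc n f1 (fun x => x) G u v - α * kb) =
          pE (QQ C nc n (M := M) (fun _ => f) G s) r (RS C nc n f1 (fun x => x) G) - α * kb := by
        intro G
        rw [pE_sub, pE_const (hQ G)]
      simp_rw [e2]
      rw [integral_sub I2 (integrable_const _)]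
      simp
    rw [e1]
    refine (abs_integral_le_integral_abs).trans (le_trans (integral_mono_of_nonneg
      (Filter.Eventually.of_forall fun G => abs_nonneg _) ?_
      (Filter.Eventually.of_forall fun G => pE_abs_le (hQ G) _)) h1)
    refine integrable_pE hfm' s r (fun u v => ((hm1 u v).sub_const _).norm)
      (c := α * K + |α * kb|) fun G u v => ?_
    show |(|RS C nc n f1 (fun x => x) G u v - α * kb|)| ≤ _
    rw [abs_abs]
    refine (abs_sub _ _).trans ?_
    have := hc1 G u v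
    have h5 : |α * kb| ≤ |α * kb| * HG G ^ 3 := le_mul_of_one_le_right (abs_nonneg _) (hH3 G)
    linarith
  -- (2)
  have t2 : |(∫ G, pE (QQ C nc n (M := M) (fun _ => f) G s) r
      (fun u v => ovl C nc n u v * RS C nc n f1 (fun x => x) G u u) ∂(gam M N)) -
      P b * (α * ks)| ≤ r2 + α * (K + 2 * K ^ 2) * ε1 := by
    have e1 : (∫ G, pE (QQ C nc n (M := M) (fun _ => f) G s) r
        (fun u v => ovl C nc n u v * RS C nc n f1 (fun x => x) G u u) ∂(gam M N)) -
        P b * (α * ks) =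
        ∫ G, pE (QQ C nc n (M := M) (fun _ => f) G s) r
        (fun u v => ovl C nc n u v * RS C nc n f1 (fun x => x) G u u - P b * (α * ks))
          ∂(gam M N) := by
      have e2 : ∀ G : Fin M → Fin N → ℝ, pE (QQ C nc n (M := M) (fun _ => f) G s) r
          (fun u v => ovl C nc n u v * RS C nc n f1 (fun x => x) G u u - P b * (α * ks)) =
          pE (QQ C nc n (M := M) (fun _ => f) G s) r
          (fun u v => ovl C nc n u v * RS C nc n f1 (fun x => x) G u u) - P b * (α * ks) := by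
        intro G
        rw [pE_sub, pE_const (hQ G)]
      simp_rw [e2]
      rw [integral_sub I3 (integrable_const _)]
      simp
    have J1 : Integrable (fun G : Fin M → Fin N → ℝ => eE (QQ C nc n (M := M) (fun _ => f) G s)
        (fun u => |RS C nc n f1 (fun x => x) G u u - α * ks|)) (gam M N) := by
      have e3 : ∀ G : Fin M → Fin N → ℝ, eE (QQ C nc n (M := M) (fun _ => f) G s)
        (fun u => |RS C nc n f1 (fun x => x) G u u - α * ks|) =
        pE (QQ C nc n (M := M) (fun _ => f) G s) r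
          (fun u _ => |RS C nc n f1 (fun x => x) G u u - α * ks|) := fun G => (pE_fst (hQ G) _).symm
      simp_rw [e3]
      refine integrable_pE hfm' s r (fun u v => ((hm1 u u).sub_const _).norm)
        (c := α * K + |α * ks|) fun G u v => ?_
      show |(|RS C nc n f1 (fun x => x) G u u - α * ks|)| ≤ _
      rw [abs_abs]
      refine (abs_sub _ _).trans ?_
      have := hc1 G u u
      have h5 : |α * ks| ≤ |α * ks| * HG G ^ 3 := le_mul_of_one_le_right (abs_nonneg _) (hH3 G)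
      linarith
    have J2 : Integrable (fun G : Fin M → Fin N → ℝ => pE (QQ C nc n (M := M) (fun _ => f) G s) r
        (fun u v => |ovl C nc n u v - P b|)) (gam M N) := by
      refine integrable_pE hfm' s r (Ψ := fun _ u v => |ovl C nc n u v - P b|)
        (fun _ _ => measurable_const) (c := 1 + |P b|) fun G u v => ?_
      rw [abs_abs]
      refine (abs_sub _ _).trans ?_
      have h5 : 1 + |P b| ≤ (1 + |P b|) * HG G ^ 3 :=
        le_mul_of_one_le_right (by positivity) (hH3 G)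
      linarith [abs_ovl_le hN u v]
    rw [e1]
    refine (abs_integral_le_integral_abs).trans ?_
    have e4 : ∀ G : Fin M → Fin N → ℝ, |pE (QQ C nc n (M := M) (fun _ => f) G s) r
        (fun u v => ovl C nc n u v * RS C nc n f1 (fun x => x) G u u - P b * (α * ks))| ≤
        eE (QQ C nc n (M := M) (fun _ => f) G s)
        (fun u => |RS C nc n f1 (fun x => x) G u u - α * ks|) +
        |α * ks| * pE (QQ C nc n (M := M) (fun _ => f) G s) r
        (fun u v => |ovl C nc n u v - P b|) := by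
      intro G
      refine (pE_abs_le (hQ G) _).trans ?_
      rw [← pE_fst (r := r) (hQ G) (fun u => |RS C nc n f1 (fun x => x) G u u - α * ks|),
        ← pE_smul, ← pE_add]
      refine pE_mono (hQ G) fun u v _ => ?_
      have e5 : ovl C nc n u v * RS C nc n f1 (fun x => x) G u u - P b * (α * ks) =
          ovl C nc n u v * (RS C nc n f1 (fun x => x) G u u - α * ks) +
          (α * ks) * (ovl C nc n u v - P b) := by ring
      rw [e5]
      refine (abs_add_le _ _).trans ?_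
      rw [abs_mul, abs_mul]
      have := mul_le_of_le_one_left (abs_nonneg (RS C nc n f1 (fun x => x) G u u - α * ks))
        (abs_ovl_le hN u v)
      linarith
    refine (integral_mono_of_nonneg (Filter.Eventually.of_forall fun G => abs_nonneg _)
      (J1.add (J2.const_mul _)) (Filter.Eventually.of_forall e4)).trans ?_
    have e6 : ∫ G, (fun G : Fin M → Fin N → ℝ => eE (QQ C nc n (M := M) (fun _ => f) G s)
        (fun u => |RS C nc n f1 (fun x => x) G u u - α * ks|) +
        |α * ks| * pE (QQ C nc n (M := M) (fun _ => f) G s) r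
        (fun u v => |ovl C nc n u v - P b|)) G ∂(gam M N) =
        (∫ G, eE (QQ C nc n (M := M) (fun _ => f) G s)
        (fun u => |RS C nc n f1 (fun x => x) G u u - α * ks|) ∂(gam M N)) +
        |α * ks| * ∫ G, pE (QQ C nc n (M := M) (fun _ => f) G s) r
        (fun u v => |ovl C nc n u v - P b|) ∂(gam M N) := by
      rw [integral_add J1 (J2.const_mul _), integral_const_mul]
    have hpair' : ∫ G, pE (QQ C nc n (M := M) (fun _ => f) G s) r
        (fun u v => |ovl C nc n u v - P b|) ∂(gam M N) ≤ ε1 := by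
      rw [hPdef]; exact hpair
    have hpos : 0 ≤ ∫ G, pE (QQ C nc n (M := M) (fun _ => f) G s) r
        (fun u v => |ovl C nc n u v - P b|) ∂(gam M N) :=
      integral_nonneg fun G => pE_nonneg (hQ G) fun _ _ => abs_nonneg _
    have h7 : |α * ks| ≤ α * (K + 2 * K ^ 2) := by
      rw [abs_mul, abs_of_nonneg hα0]
      exact mul_le_mul_of_nonneg_left hks1 hα0
    have h8 : |α * ks| * ∫ G, pE (QQ C nc n (M := M) (fun _ => f) G s) r
        (fun u v => |ovl C nc n u v - P b|) ∂(gam M N) ≤ α * (K + 2 * K ^ 2) * ε1 :=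
      mul_le_mul h7 hpair' hpos ((abs_nonneg _).trans h7)
    exact (le_of_eq e6).trans (add_le_add h2 h8)
  -- (3)
  have t3 : |∫ G, pE (QQ C nc n (M := M) (fun _ => f) G s) r (FT C nc n s) ∂(gam M N)| ≤
      (nc : ℝ) * A * (Cf + 1) := by
    refine (abs_integral_le_integral_abs).trans ?_
    have h9 := integral_mono_of_nonneg (μ := gam M N)
      (f := fun G : Fin M → Fin N → ℝ => |pE (QQ C nc n (M := M) (fun _ => f) G s) r
        (FT C nc n s)|) (g := fun _ => (nc : ℝ) * A * (Cf + 1))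
      (Filter.Eventually.of_forall fun G => abs_nonneg _) (integrable_const _)
      (Filter.Eventually.of_forall fun G => pE_FT_le hN (hQ G) r hs (hF G))
    simpa using h9
  -- (4)
  have t4 : |(N : ℝ)⁻¹ * P b| ≤ (N : ℝ)⁻¹ := by
    have h7 : 0 ≤ P b := hP.nonneg.trans (hP.mono 0 b (Nat.zero_le _) hb)
    have h8 : P b ≤ 1 := (hP.mono b J hb le_rfl).trans hP.le_one
    rw [abs_of_nonneg (mul_nonneg (inv_pos.2 hN').le h7)]
    exact mul_le_of_le_one_right (inv_pos.2 hN').le h8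
  have t0 : |(N : ℝ)⁻¹ * ∫ G, pE (QQ C nc n (M := M) (fun _ => f) G s) r
      (PsiP C (fun _ => f1) G s) ∂(gam M N)| ≤ (N : ℝ)⁻¹ * e0 := by
    rw [abs_mul, abs_of_pos (inv_pos.2 hN')]
    exact mul_le_mul_of_nonneg_left h0 (inv_pos.2 hN').le
  rw [abs_le] at t0 t1 t2 t3 t4 ⊢
  constructor <;> linarith [t0.1, t0.2, t1.1, t1.2, t2.1, t2.2, t3.1, t3.2, t4.1, t4.2]

theorem skel_mono {f : ℕ → ℝ → ℝ} {s : Fin nc → ℝ} {J wc : ℕ} {τ : ℕ → ℕ} {ε ε' : ℝ}
    (hS : Skel C nc n f M s J wc τ ε) (h : ε ≤ ε') : Skel C nc n f M s J wc τ ε' :=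
  ⟨hS.blk, fun b hb => (hS.pair b hb).trans h⟩

/-- **(REL)** from the row observables and the bound of the fields. -/
theorem rel_of (hRO : RO) (hFLD : FLD) : REL := by
  intro αm K
  obtain ⟨Cf, hCf, hF⟩ := hFLD αm K
  refine ⟨Cf + 1, by linarith, fun ε hε => ?_⟩
  obtain ⟨J0, hJ0⟩ := hRO αm K K (K + 1) (ε / 8) (by linarith)
  refine ⟨J0, fun J hJ => ?_⟩
  obtain ⟨ε1, hε1, N0, hN0⟩ := hJ0 J hJ
  obtain ⟨D, hD⟩ : ∃ D : ℝ, D = |αm| * (|K| + 2 * K ^ 2) + 1 := ⟨_, rfl⟩
  have hDpos : 0 < D := by rw [hD]; positivity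
  obtain ⟨N1, hN1⟩ := exists_nat_gt (8 / ε)
  refine ⟨min ε1 (ε / (8 * D)), lt_min hε1 (by positivity), max N0 N1, ?_⟩
  intro wc nc hwc hnc N hN hN0' n hn M hM A hA
  have hNpos : (0 : ℝ) < N := by exact_mod_cast hN0'
  obtain ⟨δ, hδ, hsd⟩ := sd_pair N M nc n hN0' hn K A (ε / 8) (by linarith)
  refine ⟨δ, hδ, fun C hC f f1 f2 h3 s hs τ hS b hb => ?_⟩
  have hK := S3_nK h3
  have hS1 := skel_mono hS (min_le_left _ _)
  have hB : BL (K + 1) (K + 1) f1 := by
    refine ⟨fun x => (h3.b1 x).trans (by linarith), fun x y => (S3_lip1 h3 x y).trans ?_⟩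
    exact mul_le_mul_of_nonneg_right (by linarith) (abs_nonneg _)
  obtain ⟨ho1, ho2⟩ := hN0 wc nc hwc hnc N ((le_max_left _ _).trans hN) hN0' n hn C f f1
    (fun x => x) (S3_BL h3) hB (fun x y => le_mul_of_one_le_left (abs_nonneg _) (by linarith))
    (by simp; linarith) M s τ hM hS1
  have hfld : ∀ (G : Fin M → Fin N → ℝ) (g : Fin nc),
      eE (QQ C nc n (M := M) (fun _ => f) G s) (fun ω => ∑ i, zf ω.2 g i ^ 2) ≤ Cf * N :=
    fun G g => hF N nc n hN0' hn C (fun _ => f) M G A s hM (fun _ => h3.b0) hs hA g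
  have h := rel_core hN0' h3 hwc hS hb hs hfld (ho1 b hb) ho2
    (hsd C hC (fun _ => f) (fun _ => f1) (fun _ => S3_Sm h3) s hs (τ b) (tau_le hwc hnc hS hb))
  refine h.trans ?_
  have hN1' : (N1 : ℝ) ≤ N := by exact_mod_cast (le_max_right _ _).trans hN
  have e1 : (N : ℝ)⁻¹ ≤ ε / 8 := by
    rw [inv_le_comm₀ hNpos (by positivity)]
    have : (ε / 8)⁻¹ = 8 / ε := by rw [inv_div]
    rw [this]
    exact hN1.le.trans hN1'
  have e2 : (N : ℝ)⁻¹ * (ε / 8) ≤ ε / 8 := by
    have h1 : (N : ℝ)⁻¹ ≤ 1 := inv_le_one_of_one_le₀ (by exact_mod_cast hN0')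
    exact mul_le_of_le_one_left (by positivity) h1
  have e3 : (M : ℝ) / N * (K + 2 * K ^ 2) * min ε1 (ε / (8 * D)) ≤ ε / 8 := by
    have h1 : (M : ℝ) / N ≤ |αm| := by
      rw [div_le_iff₀ hNpos]
      exact hM.trans (mul_le_mul_of_nonneg_right (le_abs_self _) hNpos.le)
    have h2 : (M : ℝ) / N * (K + 2 * K ^ 2) ≤ D := by
      rw [hD, abs_of_nonneg hK]
      have := mul_le_mul_of_nonneg_right h1 (by positivity : 0 ≤ K + 2 * K ^ 2)
      linarith
    have h3 : 0 ≤ min ε1 (ε / (8 * D)) := (lt_min hε1 (by positivity)).le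
    calc (M : ℝ) / N * (K + 2 * K ^ 2) * min ε1 (ε / (8 * D)) ≤ D * min ε1 (ε / (8 * D)) :=
          mul_le_mul_of_nonneg_right h2 h3
      _ ≤ D * (ε / (8 * D)) := mul_le_mul_of_nonneg_left (min_le_right _ _) hDpos.le
      _ = ε / 8 := by field_simp
  linarith

end

end Crest.Agent.R146.S6Rel_290
end

-- ▼ part R146/S6Fld_857
section

/-!
# Row 146, statement S0206 (helper857): node FLD of `S6L_988` (backup)

Field norms `O(√N)` under the tilted law, for every value of the rows.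
-/

set_option autoImplicit false

namespace Crest.Agent.R146.S6Fld_857

open Finset MeasureTheory ProbabilityTheory
open Crest.Agent.R141 (IsProb Filt A tl eE cE A_cocycle A_le_log cE_le_A eE_top eE_mono eE_cE
  tl_isProb eE_const A_meas cE_of_meas eE_le_of_le)
open Crest.Agent.R146.S6Def_988 Crest.Agent.R146.Rev_649

noncomputable section

/-- exponential moment of the coins, one vector per cell -/
theorem coin_mgf2 (nc n N : ℕ) (θ : Fin nc → Fin N → ℝ) :
    ∑ c : Coins nc n N, Real.exp (∑ g, ∑ i, zf c g i * θ g i) ≤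
      (Fintype.card (Coins nc n N) : ℝ) * Real.exp (1 / 2 * ∑ g, ∑ i, θ g i ^ 2) := by
  set a : Fin nc → Fin N → ℝ := fun g i => (Real.sqrt n)⁻¹ * θ g i with ha
  have e1 : ∀ c : Coins nc n N, Real.exp (∑ g, ∑ i, zf c g i * θ g i) =
      ∏ g, ∏ t, ∏ i, Real.exp (a g i * sv (c g t i)) := by
    intro c
    simp_rw [← Real.exp_sum]
    congr 1
    refine Finset.sum_congr rfl fun g _ => ?_
    rw [Finset.sum_comm]
    refine Finset.sum_congr rfl fun i _ => ?_
    unfold zf
    rw [← Finset.mul_sum]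
    simp only [ha]
    ring
  simp_rw [e1]
  have e2 : ∑ c : Coins nc n N, ∏ g, ∏ t, ∏ i, Real.exp (a g i * sv (c g t i)) =
      ∏ g, ∏ _t : Fin n, ∏ i, ∑ b : Bool, Real.exp (a g i * sv b) := by
    rw [sum_prod (fun g (d : Fin n → Fin N → Bool) => ∏ t, ∏ i, Real.exp (a g i * sv (d t i)))]
    refine Finset.prod_congr rfl fun g _ => ?_
    rw [sum_prod (fun t (d : Fin N → Bool) => ∏ i, Real.exp (a g i * sv (d i)))]
    refine Finset.prod_congr rfl fun t _ => ?_
    rw [sum_prod (fun i b => Real.exp (a g i * sv b))]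
  rw [e2]
  have h3 : ∏ g, ∏ _t : Fin n, ∏ i, ∑ b : Bool, Real.exp (a g i * sv b) ≤
      ∏ g, ∏ _t : Fin n, ∏ i, (2 * Real.exp (a g i ^ 2 / 2)) := by
    refine Finset.prod_le_prod (fun g _ => Finset.prod_nonneg fun t _ =>
      Finset.prod_nonneg fun i _ => Finset.sum_nonneg fun b _ => (Real.exp_pos _).le) fun g _ => ?_
    refine Finset.prod_le_prod (fun t _ => Finset.prod_nonneg fun i _ =>
      Finset.sum_nonneg fun b _ => (Real.exp_pos _).le) fun t _ => ?_
    exact Finset.prod_le_prod (fun i _ => Finset.sum_nonneg fun b _ => (Real.exp_pos _).le)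
      fun i _ => sum_bool_exp_le _
  refine h3.trans ?_
  have h4 : ∏ g, ∏ _t : Fin n, ∏ i, (2 * Real.exp (a g i ^ 2 / 2)) =
      (Fintype.card (Coins nc n N) : ℝ) *
        Real.exp (∑ g, ∑ _t : Fin n, ∑ i, a g i ^ 2 / 2) := by
    simp_rw [Finset.prod_mul_distrib, Real.exp_sum]
    congr 1
    simp [Coins, Finset.prod_const, Finset.card_univ]
  rw [h4]
  refine mul_le_mul_of_nonneg_left (Real.exp_le_exp.2 ?_) (Nat.cast_nonneg _)
  have h5 : ∀ g, ∑ _t : Fin n, ∑ i, a g i ^ 2 / 2 ≤ 1 / 2 * ∑ i, θ g i ^ 2 := by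
    intro g
    rw [Finset.sum_const, Finset.card_univ, Fintype.card_fin, nsmul_eq_mul]
    have h6 : ∑ i, a g i ^ 2 / 2 = 1 / 2 * ((Real.sqrt n)⁻¹ ^ 2) * ∑ i, θ g i ^ 2 := by
      rw [Finset.mul_sum]
      refine Finset.sum_congr rfl fun i _ => ?_
      simp only [ha]
      ring
    rw [h6]
    rcases Nat.eq_zero_or_pos n with hn | hn
    · subst hn
      simp only [Nat.cast_zero, zero_mul]
      positivity
    · have hn' : (0 : ℝ) < n := by exact_mod_cast hn
      rw [inv_pow, Real.sq_sqrt hn'.le]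
      refine le_of_eq ?_
      field_simp
  refine (Finset.sum_le_sum fun g _ => h5 g).trans (le_of_eq ?_)
  rw [← Finset.mul_sum]

/-! ### Gaussian integrals -/

/-- the constant `E e^{x²/4}` -/
def κ : ℝ := ∫ x, Real.exp (1 / 4 * x ^ 2) ∂(gaussianReal 0 1)

theorem integrable_quarter : Integrable (fun x : ℝ => Real.exp (1 / 4 * x ^ 2))
    (gaussianReal 0 1) := by
  rw [gaussianReal_of_var_ne_zero _ (one_ne_zero),
    integrable_withDensity_iff (measurable_gaussianPDF _ _) (by simp [gaussianPDF])]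
  have h := (integrable_exp_neg_mul_sq (b := 1 / 4) (by norm_num)).const_mul
    ((Real.sqrt (2 * Real.pi))⁻¹)
  refine h.congr (Filter.Eventually.of_forall fun x => ?_)
  simp only [toReal_gaussianPDF, gaussianPDFReal, NNReal.coe_one, mul_one, sub_zero]
  rw [mul_comm (Real.exp (1 / 4 * x ^ 2)), mul_assoc, ← Real.exp_add]
  congr 2
  ring

theorem κ_pos : 0 < κ := by
  unfold κ
  rw [integral_pos_iff_support_of_nonneg (fun x => (Real.exp_pos _).le) integrable_quarter]
  have : Function.support (fun x : ℝ => Real.exp (1 / 4 * x ^ 2)) = Set.univ := by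
    ext x; simp [(Real.exp_pos _).ne']
  rw [this]; simp

theorem integral_exp_lin (a : ℝ) :
    ∫ x, Real.exp (a * x) ∂(gaussianReal 0 1) = Real.exp (a ^ 2 / 2) := by
  have h := mgf_id_gaussianReal (μ := 0) (v := 1)
  have h1 := congrFun h a
  simp only [mgf, id_eq, NNReal.coe_one, zero_mul, one_mul, zero_add] at h1
  exact h1

/-- linearisation of the square norm -/
theorem quad_eq {N : ℕ} (v : Fin N → ℝ) :
    ∫ ξ : Fin N → ℝ, Real.exp (∑ i, v i / 2 * ξ i) ∂(Measure.pi fun _ => gaussianReal 0 1) =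
      Real.exp (1 / 8 * ∑ i, v i ^ 2) := by
  simp_rw [Real.exp_sum]
  rw [integral_fintype_prod_eq_prod (fun i (x : ℝ) => Real.exp (v i / 2 * x))
    (μ := fun _ => gaussianReal 0 1)]
  simp_rw [integral_exp_lin]
  rw [← Real.exp_sum, Finset.mul_sum]
  congr 1
  refine Finset.sum_congr rfl fun i _ => ?_
  ring

theorem integrable_lin {N : ℕ} (v : Fin N → ℝ) :
    Integrable (fun ξ : Fin N → ℝ => Real.exp (∑ i, v i * ξ i))
      (Measure.pi fun _ => gaussianReal 0 1) := by
  simp_rw [Real.exp_sum]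
  exact Integrable.fintype_prod (f := fun i (x : ℝ) => Real.exp (v i * x))
    (μ := fun _ => gaussianReal 0 1) fun i => integrable_exp_mul_gaussianReal _

theorem integrable_sq {N : ℕ} :
    Integrable (fun ξ : Fin N → ℝ => Real.exp (∑ i, 1 / 4 * ξ i ^ 2))
      (Measure.pi fun _ => gaussianReal 0 1) := by
  simp_rw [Real.exp_sum]
  exact Integrable.fintype_prod (f := fun _ (x : ℝ) => Real.exp (1 / 4 * x ^ 2))
    (μ := fun _ => gaussianReal 0 1) fun i => integrable_quarter

theorem integral_sq {N : ℕ} :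
    ∫ ξ : Fin N → ℝ, Real.exp (∑ i, 1 / 4 * ξ i ^ 2) ∂(Measure.pi fun _ => gaussianReal 0 1) =
      κ ^ N := by
  simp_rw [Real.exp_sum]
  rw [integral_fintype_prod_eq_prod (fun _ (x : ℝ) => Real.exp (1 / 4 * x ^ 2))
    (μ := fun _ : Fin N => gaussianReal 0 1)]
  simp [κ]

/-- exponential moment of the field energy plus one eighth of the square norm of one field -/
theorem coin_quad (nc n N : ℕ) (s : Fin nc → ℝ) (g : Fin nc) (x : Fin N → ℝ) :
    ∑ c : Coins nc n N, Real.exp ((∑ h, s h * ∑ i, zf c h i * x i) +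
        1 / 8 * ∑ i, zf c g i ^ 2) ≤
      (Fintype.card (Coins nc n N) : ℝ) *
        (Real.exp ((∑ h, s h ^ 2) * ∑ i, x i ^ 2) * κ ^ N) := by
  classical
  set γ : Measure (Fin N → ℝ) := Measure.pi fun _ => gaussianReal 0 1 with hγ
  -- the vectors
  set θ : (Fin N → ℝ) → Fin nc → Fin N → ℝ := fun ξ h i => s h * x i + if h = g then ξ i / 2 else 0
    with hθ
  have e1 : ∀ (c : Coins nc n N) (ξ : Fin N → ℝ), ∑ h, ∑ i, zf c h i * θ ξ h i =
      (∑ h, s h * ∑ i, zf c h i * x i) + ∑ i, zf c g i / 2 * ξ i := by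
    intro c ξ
    simp only [hθ, mul_add, Finset.sum_add_distrib]
    congr 1
    · refine Finset.sum_congr rfl fun h _ => ?_
      rw [Finset.mul_sum]
      exact Finset.sum_congr rfl fun i _ => by ring
    · rw [Finset.sum_eq_single g]
      · refine Finset.sum_congr rfl fun i _ => ?_
        simp only [if_true]; ring
      · intro h _ hh
        refine Finset.sum_eq_zero fun i _ => ?_
        rw [if_neg hh, mul_zero]
      · intro h; exact absurd (Finset.mem_univ g) h
  have e2 : ∀ c : Coins nc n N, Real.exp ((∑ h, s h * ∑ i, zf c h i * x i) +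
      1 / 8 * ∑ i, zf c g i ^ 2) = ∫ ξ, Real.exp (∑ h, ∑ i, zf c h i * θ ξ h i) ∂γ := by
    intro c
    simp_rw [e1, Real.exp_add]
    rw [integral_const_mul, quad_eq]
  have hint : ∀ c : Coins nc n N,
      Integrable (fun ξ => Real.exp (∑ h, ∑ i, zf c h i * θ ξ h i)) γ := by
    intro c
    simp_rw [e1, Real.exp_add]
    exact (integrable_lin (fun i => zf c g i / 2)).const_mul _
  simp_rw [e2]
  rw [← integral_finsetSum _ fun c _ => hint c]
  have h3 : ∀ ξ : Fin N → ℝ, ∑ h, ∑ i, θ ξ h i ^ 2 ≤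
      2 * ((∑ h, s h ^ 2) * ∑ i, x i ^ 2) + ∑ i, 1 / 2 * ξ i ^ 2 := by
    intro ξ
    have h4 : ∀ h, ∑ i, θ ξ h i ^ 2 ≤ 2 * (s h ^ 2 * ∑ i, x i ^ 2) +
        if h = g then ∑ i, 1 / 2 * ξ i ^ 2 else 0 := by
      intro h
      by_cases hh : h = g
      · simp only [hθ, hh, if_true]
        rw [Finset.mul_sum, Finset.mul_sum, ← Finset.sum_add_distrib]
        refine Finset.sum_le_sum fun i _ => ?_
        nlinarith [sq_nonneg (s g * x i - ξ i / 2)]
      · simp only [hθ, if_neg hh, add_zero]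
        rw [Finset.mul_sum, Finset.mul_sum]
        refine Finset.sum_le_sum fun i _ => ?_
        nlinarith [sq_nonneg (s h * x i)]
    refine (Finset.sum_le_sum fun h _ => h4 h).trans (le_of_eq ?_)
    rw [Finset.sum_add_distrib, Finset.sum_ite_eq' Finset.univ g, if_pos (Finset.mem_univ g),
      ← Finset.mul_sum, ← Finset.sum_mul]
  have h5 : ∀ ξ : Fin N → ℝ, ∑ c : Coins nc n N, Real.exp (∑ h, ∑ i, zf c h i * θ ξ h i) ≤
      (Fintype.card (Coins nc n N) : ℝ) * (Real.exp ((∑ h, s h ^ 2) * ∑ i, x i ^ 2) *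
        Real.exp (∑ i, 1 / 4 * ξ i ^ 2)) := by
    intro ξ
    refine (coin_mgf2 nc n N (θ ξ)).trans ?_
    refine mul_le_mul_of_nonneg_left ?_ (Nat.cast_nonneg _)
    rw [← Real.exp_add]
    refine Real.exp_le_exp.mpr ?_
    have e3 : ∑ i, 1 / 2 * ξ i ^ 2 = 2 * ∑ i, 1 / 4 * ξ i ^ 2 := by
      rw [Finset.mul_sum]
      exact Finset.sum_congr rfl fun i _ => by ring
    have := h3 ξ
    rw [e3] at this
    linarith
  have h6 := integral_mono (integrable_finsetSum _ fun c _ => hint c)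
    ((integrable_sq (N := N)).const_mul (Real.exp ((∑ h, s h ^ 2) * ∑ i, x i ^ 2)) |>.const_mul
      (Fintype.card (Coins nc n N) : ℝ)) h5
  refine h6.trans (le_of_eq ?_)
  rw [integral_const_mul, integral_const_mul, integral_sq]

/-! ### the bound -/

section sys

variable {N : ℕ} (C : Cfg N) (nc n : ℕ) {M : ℕ} {K : ℝ} {f : ℕ → ℝ → ℝ}

theorem eE_exp_le (hK : ∀ a x, |f a x| ≤ K) (G : Fin M → Fin N → ℝ) (s : Fin nc → ℝ)
    (g : Fin nc) :
    eE (prior C nc n) (fun ω => Real.exp (UU f G s ω + 1 / 8 * ∑ i, zf ω.2 g i ^ 2)) ≤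
      Real.exp (K * M) * (Real.exp ((∑ h, s h ^ 2) * N) * κ ^ N) := by
  unfold eE prior
  rw [Fintype.sum_prod_type]
  have hc : 0 < (Fintype.card (Coins nc n N) : ℝ) := by exact_mod_cast Fintype.card_pos
  have h1 : ∀ y : C.Y, ∑ c : Coins nc n N, C.q y * (Fintype.card (Coins nc n N) : ℝ)⁻¹ *
      Real.exp (UU f G s (y, c) + 1 / 8 * ∑ i, zf c g i ^ 2) ≤
      C.q y * (Real.exp (K * M) * (Real.exp ((∑ h, s h ^ 2) * N) * κ ^ N)) := by
    intro y
    have h2 : ∑ c : Coins nc n N, C.q y * (Fintype.card (Coins nc n N) : ℝ)⁻¹ *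
        Real.exp (UU f G s (y, c) + 1 / 8 * ∑ i, zf c g i ^ 2) =
        C.q y * Real.exp (rowE f G (C.x y)) * ((Fintype.card (Coins nc n N) : ℝ)⁻¹ *
          ∑ c : Coins nc n N, Real.exp ((∑ h, s h * ∑ i, zf c h i * C.x y i) +
            1 / 8 * ∑ i, zf c g i ^ 2)) := by
      rw [Finset.mul_sum, Finset.mul_sum]
      refine Finset.sum_congr rfl fun c _ => ?_
      unfold UU fieldE
      rw [add_assoc, Real.exp_add]
      ring
    rw [h2, mul_assoc]
    refine mul_le_mul_of_nonneg_left ?_ (C.hq.pos y).le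
    have h3 := coin_quad nc n N s g (C.x y)
    rw [C.hx y] at h3
    have h4 : (Fintype.card (Coins nc n N) : ℝ)⁻¹ *
        ∑ c : Coins nc n N, Real.exp ((∑ h, s h * ∑ i, zf c h i * C.x y i) +
            1 / 8 * ∑ i, zf c g i ^ 2) ≤ Real.exp ((∑ h, s h ^ 2) * N) * κ ^ N := by
      rw [inv_mul_le_iff₀ hc]; exact h3
    refine mul_le_mul ?_ h4 ?_ (Real.exp_pos _).le
    · exact Real.exp_le_exp.mpr (abs_le.1 (abs_rowE_le f hK G (C.x y))).2
    · exact mul_nonneg (inv_nonneg.mpr hc.le) (Finset.sum_nonneg fun c _ => (Real.exp_pos _).le)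
  refine (Finset.sum_le_sum fun y _ => h1 y).trans (le_of_eq ?_)
  rw [← Finset.sum_mul, C.hq.sum, one_mul]

theorem fld_bound (hK : ∀ a x, |f a x| ≤ K) (G : Fin M → Fin N → ℝ) (s : Fin nc → ℝ)
    (g : Fin nc) :
    eE (QQ C nc n (M := M) f G s) (fun ω => ∑ i, zf ω.2 g i ^ 2) ≤
      8 * (2 * (K * M) + (∑ h, s h ^ 2) * N + N * Real.log κ) := by
  have hP := S6Str_649.prior_isProb C nc n
  have hx := S6Str_649.xs_expo nc n
  obtain ⟨ω⟩ : Nonempty (Om C nc n) := inferInstance
  have h0 : (fil C nc n).F 0 = ⊤ := by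
    ext a b
    constructor
    · intro _
      trivial
    · intro _
      refine ⟨fun g t h => ?_, fun h => ?_⟩
      · omega
      · unfold Lv at h
        omega
  -- upper bound
  have h1 := A_le_log hP hx (𝓕 := fil C nc n)
    (fun ω : Om C nc n => UU f G s ω + 1 / 8 * ∑ i, zf ω.2 g i ^ 2) 0 ω
  rw [h0, eE_top hP] at h1
  have hpos : 0 < eE (prior C nc n)
      (fun ω => Real.exp (UU f G s ω + 1 / 8 * ∑ i, zf ω.2 g i ^ 2)) :=
    Finset.sum_pos (fun ω _ => mul_pos (hP.pos ω) (Real.exp_pos _)) ⟨ω, Finset.mem_univ _⟩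
  have h2 := Real.log_le_log hpos (eE_exp_le C nc n hK G s g)
  have hκ := κ_pos
  rw [Real.log_mul (Real.exp_pos _).ne' (mul_pos (Real.exp_pos _) (pow_pos hκ N)).ne',
    Real.log_mul (Real.exp_pos _).ne' (pow_pos hκ N).ne', Real.log_exp, Real.log_exp,
    Real.log_pow] at h2
  -- lower bound
  have h3 := A_cocycle (𝓕 := fil C nc n) hP hx.pos (UU f G s)
    (fun ω : Om C nc n => 1 / 8 * ∑ i, zf ω.2 g i ^ 2) 0 ω
  have hQ : IsProb (tl (prior C nc n) (fil C nc n) (xs nc n) (UU f G s)) := tl_isProb hP hx.pos _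
  have h4 := cE_le_A (𝓕 := fil C nc n) hQ hx.pos
    (fun ω : Om C nc n => 1 / 8 * ∑ i, zf ω.2 g i ^ 2) 0 ω
  rw [h0, eE_top hQ] at h4
  have h5 : eE (tl (prior C nc n) (fil C nc n) (xs nc n) (UU f G s))
      (fun ω : Om C nc n => 1 / 8 * ∑ i, zf ω.2 g i ^ 2) =
      1 / 8 * eE (QQ C nc n (M := M) f G s) (fun ω => ∑ i, zf ω.2 g i ^ 2) := by
    unfold eE QQ
    rw [Finset.mul_sum]
    exact Finset.sum_congr rfl fun w _ => by ring
  have h6 : A (prior C nc n) (fil C nc n) (xs nc n) (UU f G s) 0 ω = Phi C nc n f G s := by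
    unfold Phi
    rw [← eE_top hP _ ω, ← h0, cE_of_meas hP (A_meas hP hx.pos _ 0)]
  have h7 := le_Phi C nc n f hK G s
  rw [h5] at h4
  rw [h6] at h3
  linarith

end sys

/-- **(FLD)** -/
theorem fld : S6L_988.FLD := by
  intro αm K
  refine ⟨8 * (2 * (|K| * |αm|) + 1 + |Real.log κ|), by positivity, ?_⟩
  intro N nc n hN hn C f M G A s hM hK hs hA g
  have hNp : (0 : ℝ) < N := by exact_mod_cast hN
  have hnc : 0 < nc := lt_of_le_of_lt (Nat.zero_le _) g.2
  have hncr : (1 : ℝ) ≤ nc := by exact_mod_cast hnc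
  have hA0 : 0 ≤ A := (abs_nonneg _).trans (hs g)
  have hA1 : A ≤ 1 := by nlinarith
  have hs2 : ∑ h, s h ^ 2 ≤ 1 := by
    have h1 : ∀ h ∈ (Finset.univ : Finset (Fin nc)), s h ^ 2 ≤ A ^ 2 := fun h _ => by
      rw [← sq_abs]; exact pow_le_pow_left₀ (abs_nonneg _) (hs h) 2
    refine (Finset.sum_le_sum h1).trans ?_
    rw [Finset.sum_const, Finset.card_univ, Fintype.card_fin, nsmul_eq_mul]
    nlinarith
  refine (fld_bound C nc n hK G s g).trans ?_
  have hK0 : 0 ≤ K := (abs_nonneg _).trans (hK 0 0)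
  have h1 : K * M ≤ |K| * |αm| * N := by
    have h2 : (M : ℝ) ≤ |αm| * N := hM.trans (mul_le_mul_of_nonneg_right (le_abs_self _) hNp.le)
    calc K * M ≤ |K| * M := mul_le_mul_of_nonneg_right (le_abs_self K) (Nat.cast_nonneg _)
      _ ≤ |K| * (|αm| * N) := mul_le_mul_of_nonneg_left h2 (abs_nonneg _)
      _ = _ := by ring
  have h3 : (∑ h, s h ^ 2) * N ≤ 1 * N := mul_le_mul_of_nonneg_right hs2 hNp.le
  have h4 : N * Real.log κ ≤ N * |Real.log κ| :=
    mul_le_mul_of_nonneg_left (le_abs_self _) hNp.le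
  nlinarith

end

end Crest.Agent.R146.S6Fld_857
end

-- ▼ part R146/S6Thc_451

/-!
Row 146, S0206 (helper451): the frozen Prop `S6L_988.THC` (coarse and fine recursion).

* `ThT_eq_recV` : `ThT` as a value of `recV`;
* `ThT_lip`     : `|ThT J h T - ThT J h T'| ≤ L² / (2 (J+1)) * ∑ |T j - T' j|` for equal leaf norms;
* `ThT_coarse`  : the coarse recursion is the fine recursion with repeated levels;
* `thc`         : `S6L_988.THC`.
-/

set_option autoImplicit false

namespace Crest.Agent.R146.S6Thc_451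

open MeasureTheory ProbabilityTheory Filter Topology
open Crest.ProbabilityR.InvariantGlass Crest.Agent.R164.GC
open Crest.Agent.R141.Fact (ySk)
open Crest.Agent.R146.MonA_422 Crest.Agent.R146.MonB_422 Crest.Agent.R146.Mon_422
open Crest.Agent.R146.S6Def_988 Crest.Agent.R146.CavW_47 Crest.Agent.R146.Cav5_47

noncomputable section

/-! ### `ThT` as a value of `recV` -/

/-- time points `0, T_0, ..., T_J, T_{J+1}` -/
def tT (J : ℕ) (T : ℕ → ℝ) (j : ℕ) : ℝ :=
  if j = 0 then 0 else if j ≤ J + 1 then T (j - 1) else T (J + 1)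

theorem tT_zero (J : ℕ) (T : ℕ → ℝ) : tT J T 0 = 0 := by simp [tT]

theorem tT_top (J : ℕ) (T : ℕ → ℝ) : tT J T (J + 2) = T (J + 1) := by
  unfold tT
  rw [if_neg (by omega), if_neg (by omega)]

theorem tT_succ {J : ℕ} {T : ℕ → ℝ} {l : ℕ} (h : l ≤ J + 1) : tT J T (l + 1) = T l := by
  unfold tT
  rw [if_neg (by omega)]
  split_ifs with h1
  · rfl
  · congr 1
    omega

theorem tT_mono {J : ℕ} {C : ℝ} {T : ℕ → ℝ} (h : LevT J C T) : Monotone (tT J T) := by
  intro a b hab
  unfold tT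
  split_ifs with h2 h3 h4 h5 h6 h7
  · exact le_rfl
  · exact h.nonneg' (by omega)
  · exact h.nonneg' le_rfl
  · omega
  · exact h.mono _ _ (by omega) (by omega)
  · exact h.mono _ _ (by omega) (by omega)
  · omega
  · omega
  · exact le_rfl

theorem recV_eq_rcT (J : ℕ) (f : ℝ → ℝ) (T : ℕ → ℝ) : ∀ n ≤ J + 1,
    recV f (tT J T) (mJ J) (J + 2) n = rc (ySk J) (vT J T) f n := by
  intro n
  induction n with
  | zero => intro _; rfl
  | succ n ih =>
    intro hn
    have hJn : n ≤ J := by omega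
    unfold recV rc
    rw [ih (by omega)]
    have e1 : mJ J (J + 2 - 1 - n) = ySk J n := by
      unfold mJ ySk
      rw [show J + 2 - 1 - n = J + 1 - n by omega, Nat.cast_sub (by omega)]
      push_cast
      rfl
    have e2 : tT J T (J + 2 - n) - tT J T (J + 2 - 1 - n) = vT J T n := by
      rw [show J + 2 - n = (J + 1 - n) + 1 by omega, show J + 2 - 1 - n = (J - n) + 1 by omega,
        tT_succ (by omega), tT_succ (by omega)]
      unfold vT
      rw [if_pos hJn, show J - n = J + 1 - (n + 1) by omega]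
    rw [e1, e2]

theorem ThT_eq_recV (J : ℕ) (f : ℝ → ℝ) (T : ℕ → ℝ) :
    ThT J f T = recV f (tT J T) (mJ J) (J + 2) (J + 2) 0 := by
  unfold ThT
  rw [show J + 2 = (J + 1) + 1 from rfl]
  unfold recV
  have h1 := recV_eq_rcT J f T (J + 1) le_rfl
  rw [show J + 2 = (J + 1) + 1 from rfl] at h1
  rw [h1]
  have e1 : mJ J (J + 1 + 1 - 1 - (J + 1)) = 0 := by
    rw [show J + 1 + 1 - 1 - (J + 1) = 0 by omega]
    simp [mJ]
  have e2 : tT J T (J + 1 + 1 - (J + 1)) - tT J T (J + 1 + 1 - 1 - (J + 1)) = vT J T (J + 1) := by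
    rw [show J + 1 + 1 - (J + 1) = 0 + 1 by omega, show J + 1 + 1 - 1 - (J + 1) = 0 by omega,
      tT_zero, tT_succ (by omega)]
    unfold vT
    rw [if_neg (show ¬ (J + 1 ≤ J) by omega)]
    simp
  rw [e1, e2]
  unfold gaussOp
  rw [if_pos rfl]
  simp

/-! ### Lipschitz bound in the levels -/

variable {J : ℕ} {T T' : ℕ → ℝ} {C C' L : ℝ} {f : ℝ → ℝ}

theorem sum_stepT (hTT : T (J + 1) = T' (J + 1)) (c : ℝ) :
    ∑ l ∈ Finset.Ico 0 (J + 2), (mJ J (l + 1) * c - mJ J l * c) *
      |tT J T (l + 1) - tT J T' (l + 1)| =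
    c / ((J : ℝ) + 1) * ∑ l ∈ Finset.range (J + 1), |T l - T' l| := by
  rw [Finset.sum_Ico_succ_top (by omega), tT_top, tT_top, hTT, sub_self, abs_zero, mul_zero,
    add_zero, Finset.mul_sum, Finset.range_eq_Ico]
  refine Finset.sum_congr rfl fun l hl => ?_
  rw [Finset.mem_Ico] at hl
  rw [mJ_step, tT_succ (by omega), tT_succ (by omega)]

theorem ThT_lip_aux (hT : LevT J C T) (hT' : LevT J C' T') (hTT : T (J + 1) = T' (J + 1))
    (hf : LipL L f) {M : ℝ} (hMp : 0 < M) (hLM : L ≤ M) :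
    ThT J f T - M ^ 2 / (2 * ((J : ℝ) + 1)) *
      ∑ j ∈ Finset.range (J + 1), |T j - T' j| ≤ ThT J f T' := by
  have hu := (hf.mono hLM).unit hMp
  have hmm : Monotone fun i => mJ J i * M :=
    fun a b hab => mul_le_mul_of_nonneg_right (mJ_mono J hab) hMp.le
  have hm0 : 0 ≤ mJ J 0 * M := mul_nonneg (mJ_zero J) hMp.le
  have key := ch_lip_lip (t := tT J T) (t' := tT J T') (m := fun i => mJ J i * M) (k := J + 2)
    ⟨tT_mono hT, hmm, hm0⟩ ⟨tT_mono hT', hmm, hm0⟩ (by rw [tT_zero, tT_zero])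
    (by rw [tT_top, tT_top, hTT]) hu 0
  have hs := sum_stepT hTT M
  rw [hs] at key
  rw [ThT_eq_recV, ThT_eq_recV, recV_unit hMp f, recV_unit hMp f, recV_eq _ _ _ _ _ le_rfl,
    recV_eq _ _ _ _ _ le_rfl, Nat.sub_self]
  have := mul_le_mul_of_nonneg_left key hMp.le
  refine le_trans (le_of_eq ?_) this
  field_simp

/-- Lipschitz bound of the nested recursion in the levels, equal leaf norms. -/
theorem ThT_lip (hT : LevT J C T) (hT' : LevT J C' T') (hTT : T (J + 1) = T' (J + 1))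
    (hf : LipL L f) :
    |ThT J f T - ThT J f T'| ≤ L ^ 2 / (2 * ((J : ℝ) + 1)) *
      ∑ j ∈ Finset.range (J + 1), |T j - T' j| := by
  have hL := hf.nonneg
  have key : ∀ M, L < M → |ThT J f T - ThT J f T'| ≤ M ^ 2 / (2 * ((J : ℝ) + 1)) *
      ∑ j ∈ Finset.range (J + 1), |T j - T' j| := by
    intro M hLM
    have hMp : 0 < M := lt_of_le_of_lt hL hLM
    have h1 := ThT_lip_aux hT hT' hTT hf hMp hLM.le
    have h2 := ThT_lip_aux hT' hT hTT.symm hf hMp hLM.le
    have e : ∑ j ∈ Finset.range (J + 1), |T' j - T j| = ∑ j ∈ Finset.range (J + 1), |T j - T' j| :=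
      Finset.sum_congr rfl fun j _ => abs_sub_comm _ _
    rw [e] at h2
    rw [abs_le]
    constructor <;> linarith
  have hc : Continuous fun M : ℝ => M ^ 2 / (2 * ((J : ℝ) + 1)) *
      ∑ j ∈ Finset.range (J + 1), |T j - T' j| := by fun_prop
  have ht : Tendsto (fun M : ℝ => M ^ 2 / (2 * ((J : ℝ) + 1)) *
      ∑ j ∈ Finset.range (J + 1), |T j - T' j|) (𝓝[>] L) (𝓝 (L ^ 2 / (2 * ((J : ℝ) + 1)) *
      ∑ j ∈ Finset.range (J + 1), |T j - T' j|)) := (hc.tendsto L).mono_left nhdsWithin_le_nhds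
  exact ge_of_tendsto ht (eventually_nhdsWithin_of_forall fun M hM => key M hM)

/-! ### The coarse recursion as a fine recursion -/

theorem gaussOp_zero_var (a : ℝ) (F : ℝ → ℝ) : gaussOp a 0 F = F := by
  funext z
  unfold gaussOp
  split_ifs with h
  · simp
  · simp only [Real.sqrt_zero, zero_mul, add_zero, integral_const, probReal_univ,
      one_smul, Real.log_exp]
    field_simp

/-- trivial steps -/
theorem rc_trivial {y v : ℕ → ℝ} {F : ℝ → ℝ} {n : ℕ} : ∀ i : ℕ, (∀ j, j < i → v (n + j) = 0) →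
    rc y v F (n + i) = rc y v F n
  | 0, _ => rfl
  | i + 1, h => by
      show gaussOp (y (n + i)) (v (n + i)) (rc y v F (n + i)) = rc y v F n
      rw [h i (Nat.lt_succ_self i), gaussOp_zero_var,
        rc_trivial i fun j hj => h j (Nat.lt_succ_of_lt hj)]

/-- recursion by blocks -/
theorem rc_block {y v y' v' : ℕ → ℝ} {F : ℝ → ℝ} {r : ℕ} (hr : 0 < r) : ∀ c : ℕ,
    (∀ i, i < c → y' (i * r) = y i) → (∀ i, i < c → v' (i * r) = v i) →
    (∀ i j, i < c → 0 < j → j < r → v' (i * r + j) = 0) →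
    rc y' v' F (c * r) = rc y v F c
  | 0, _, _, _ => by rw [zero_mul]; rfl
  | c + 1, h1, h2, h3 => by
      have ih := rc_block (F := F) hr c (fun i hi => h1 i (by omega)) (fun i hi => h2 i (by omega))
        (fun i j hi => h3 i j (by omega))
      have e : (c + 1) * r = (c * r + 1) + (r - 1) := by
        rw [add_mul, one_mul]
        omega
      rw [e, rc_trivial (r - 1) fun j hj => by
        have := h3 c (j + 1) (by omega) (by omega) (by omega)
        rwa [show c * r + (j + 1) = c * r + 1 + j by ring] at this]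
      show gaussOp (y' (c * r)) (v' (c * r)) (rc y' v' F (c * r)) = gaussOp (y c) (v c) (rc y v F c)
      rw [h1 c (by omega), h2 c (by omega), ih]

/-- coarse levels -/
def Tc (J r J' : ℕ) (T : ℕ → ℝ) (b : ℕ) : ℝ := if b ≤ J then T (b * r) else T (J' + 1)

/-- repeated levels -/
def Tr (r J' : ℕ) (T : ℕ → ℝ) (j : ℕ) : ℝ := if j ≤ J' then T (j / r * r) else T (J' + 1)

theorem ThT_coarse {J r J' : ℕ} (hr : 0 < r) (hJ : J' + 1 = (J + 1) * r) (h : ℝ → ℝ)
    (T : ℕ → ℝ) : ThT J h (Tc J r J' T) = ThT J' h (Tr r J' T) := by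
  have hrR : (r : ℝ) ≠ 0 := by exact_mod_cast hr.ne'
  have hJR : ((J' : ℝ) + 1) = ((J : ℝ) + 1) * r := by exact_mod_cast hJ
  have key : rc (ySk J') (vT J' (Tr r J' T)) h (J' + 1) =
      rc (ySk J) (vT J (Tc J r J' T)) h (J + 1) := by
    rw [hJ]
    refine rc_block hr (J + 1) (fun i hi => ?_) (fun i hi => ?_) (fun i j hi hj hjr => ?_)
    · -- exponents
      unfold ySk
      rw [hJR]
      push_cast
      rw [show ((J : ℝ) + 1) * r - (i : ℝ) * r = ((J : ℝ) + 1 - i) * r by ring]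
      exact mul_div_mul_right _ _ hrR
    · -- variances
      have hir : i * r ≤ J * r := Nat.mul_le_mul_right r (by omega)
      have hJ' : J' = J * r + r - 1 := by
        have : (J + 1) * r = J * r + r := by ring
        omega
      unfold vT
      rw [if_pos (show i * r ≤ J' by omega), if_pos (show i ≤ J by omega)]
      have ea : J' + 1 - i * r = (J + 1 - i) * r := by
        rw [hJ, Nat.sub_mul]
      have eb : (J' + 1 - (i * r + 1)) / r = J - i := by
        have : J' + 1 - (i * r + 1) = (J - i) * r + (r - 1) := by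
          rw [Nat.sub_mul]
          omega
        rw [this, mul_comm, Nat.mul_add_div hr, Nat.div_eq_of_lt (by omega), add_zero]
      have e1 : Tr r J' T (J' + 1 - i * r) = Tc J r J' T (J + 1 - i) := by
        unfold Tr Tc
        rcases Nat.eq_zero_or_pos i with rfl | hi0
        · rw [if_neg (by omega), if_neg (by omega)]
        · have h1 : 1 * r ≤ i * r := Nat.mul_le_mul_right r hi0
          rw [if_pos (by omega), if_pos (by omega), ea, Nat.mul_div_cancel _ hr]
      have e2 : Tr r J' T (J' + 1 - (i * r + 1)) = Tc J r J' T (J + 1 - (i + 1)) := by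
        unfold Tr Tc
        rw [if_pos (by omega), if_pos (by omega), eb, show J + 1 - (i + 1) = J - i by omega]
      rw [e1, e2]
    · -- trivial steps
      have hir : i * r ≤ J * r := Nat.mul_le_mul_right r (by omega)
      have hJ' : J' = J * r + r - 1 := by
        have : (J + 1) * r = J * r + r := by ring
        omega
      unfold vT
      rw [if_pos (show i * r + j ≤ J' by omega)]
      unfold Tr
      rw [if_pos (by omega), if_pos (by omega)]
      have ea : (J' + 1 - (i * r + j)) / r = J - i := by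
        have : J' + 1 - (i * r + j) = (J - i) * r + (r - j) := by
          rw [Nat.sub_mul]
          omega
        rw [this, mul_comm, Nat.mul_add_div hr, Nat.div_eq_of_lt (by omega), add_zero]
      have eb : (J' + 1 - (i * r + j + 1)) / r = J - i := by
        have : J' + 1 - (i * r + j + 1) = (J - i) * r + (r - j - 1) := by
          rw [Nat.sub_mul]
          omega
        rw [this, mul_comm, Nat.mul_add_div hr, Nat.div_eq_of_lt (by omega), add_zero]
      rw [ea, eb, sub_self]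
  have ev : vT J' (Tr r J' T) (J' + 1) = vT J (Tc J r J' T) (J + 1) := by
    unfold vT
    rw [if_neg (by omega), if_neg (by omega), Nat.sub_self, Nat.sub_self]
    unfold Tr Tc
    rw [if_pos (Nat.zero_le _), if_pos (Nat.zero_le _), Nat.zero_div]
  unfold ThT
  rw [key, ev]

/-! ### The Prop -/

theorem sum_blocks (J r : ℕ) (F : ℕ → ℝ) :
    ∑ j ∈ Finset.range ((J + 1) * r), F j =
      ∑ b ∈ Finset.range (J + 1), ∑ i ∈ Finset.range r, F (b * r + i) := by
  induction J with
  | zero => simp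
  | succ J ih =>
    rw [Finset.sum_range_succ, ← ih, show (J + 1 + 1) * r = (J + 1) * r + r by ring,
      Finset.sum_range_add]

theorem thc : S6L_988.THC := by
  intro c L Tm h hh J r J' T hr hJ hT
  have hLip : LipL L h := hh.lip
  have e0 : (fun b => if b ≤ J then T (b * r) else T (J' + 1)) = Tc J r J' T := rfl
  rw [e0, ThT_coarse hr hJ]
  have hdiv : ∀ j, j ≤ J' → j / r * r ≤ j := fun j _ => Nat.div_mul_le_self j r
  -- the repeated levels are admissible
  have hTr : LevT J' Tm (Tr r J' T) := by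
    refine ⟨?_, ?_, ?_⟩
    · unfold Tr
      rw [if_pos (Nat.zero_le _)]
      exact hT.nonneg' (by have := hdiv 0 (Nat.zero_le _); omega)
    · intro i j hij hj
      unfold Tr
      split_ifs with h1 h2
      · refine hT.mono _ _ (Nat.mul_le_mul_right r (Nat.div_le_div_right hij)) ?_
        have := hdiv j h2
        omega
      · refine hT.mono _ _ ?_ le_rfl
        have := hdiv i h1
        omega
      · omega
      · exact le_rfl
    · unfold Tr
      rw [if_neg (by omega)]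
      exact hT.le
  have htop : Tr r J' T (J' + 1) = T (J' + 1) := by
    unfold Tr
    rw [if_neg (by omega)]
  have key := ThT_lip (L := L) hTr hT htop hLip
  refine key.trans ?_
  -- the sum
  have hsum : ∑ j ∈ Finset.range (J' + 1), |Tr r J' T j - T j| ≤ r * Tm := by
    rw [hJ, sum_blocks]
    have hb : ∀ b ∈ Finset.range (J + 1), ∑ i ∈ Finset.range r,
        |Tr r J' T (b * r + i) - T (b * r + i)| ≤ r * (T ((b + 1) * r) - T (b * r)) := by
      intro b hb
      rw [Finset.mem_range] at hb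
      have hbr : (b + 1) * r ≤ (J + 1) * r := Nat.mul_le_mul_right r (by omega)
      have hb1 : (b + 1) * r = b * r + r := by ring
      refine (Finset.sum_le_card_nsmul _ _ (T ((b + 1) * r) - T (b * r)) fun i hi => ?_).trans
        (le_of_eq (by rw [Finset.card_range, nsmul_eq_mul]))
      rw [Finset.mem_range] at hi
      have e1 : Tr r J' T (b * r + i) = T (b * r) := by
        unfold Tr
        rw [if_pos (by omega)]
        congr 2
        rw [mul_comm b r, Nat.mul_add_div hr, Nat.div_eq_of_lt hi, add_zero]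
      have h1 : T (b * r) ≤ T (b * r + i) := hT.mono _ _ (by omega) (by omega)
      have h2 : T (b * r + i) ≤ T ((b + 1) * r) := hT.mono _ _ (by omega) (by omega)
      rw [e1, abs_sub_comm, abs_of_nonneg (by linarith)]
      linarith
    refine (Finset.sum_le_sum hb).trans ?_
    rw [← Finset.mul_sum, Finset.sum_range_sub (fun b => T (b * r)) (J + 1)]
    refine mul_le_mul_of_nonneg_left ?_ (Nat.cast_nonneg r)
    rw [← hJ, zero_mul]
    have := hT.nonneg
    have := hT.le
    linarith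
  have hJR : ((J' : ℝ) + 1) = ((J : ℝ) + 1) * r := by exact_mod_cast hJ
  have hrR : (0 : ℝ) < r := by exact_mod_cast hr
  have hTm : 0 ≤ Tm := (hT.nonneg' le_rfl).trans hT.le
  calc L ^ 2 / (2 * ((J' : ℝ) + 1)) * ∑ j ∈ Finset.range (J' + 1), |Tr r J' T j - T j|
      ≤ L ^ 2 / (2 * ((J' : ℝ) + 1)) * (r * Tm) :=
        mul_le_mul_of_nonneg_left hsum (by positivity)
    _ = L ^ 2 * Tm / ((J : ℝ) + 1) / 2 := by
        rw [hJR]
        field_simp
    _ ≤ L ^ 2 * Tm / ((J : ℝ) + 1) := half_le_self (by positivity)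

end

end Crest.Agent.R146.S6Thc_451
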