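import Crest.Agent.R146.RoTwo_143_Mg
import Crest.Agent.R146.RoTrunc_130_Mg
import Crest.Agent.R146.S6Mom_649
import Crest.Agent.R146.NewF_857_Mg
import Crest.Agent.R146.PLim_857
import Crest.Agent.R146.S6L_988
import Crest.Agent.R146.S6Skadd_495_Mg
import Crest.Agent.R146.S6Col_674
import Crest.Agent.R146.S6Thc_451_Mg
import Crest.Agent.R146.S6Incl_53
import Crest.Agent.R146.Fobs_998
import Crest.Agent.R146.S6Fcont_627

-- ▼ part R146/RowFin_874
section

/-!
Row 146, node ROWOBS (helper874), part 8: the Prop `S6L_988.RO`.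
-/

set_option autoImplicit false

namespace Crest.Agent.R146.RowFin_874

open Finset MeasureTheory ProbabilityTheory Crest.Agent.R141
open Crest.Agent.R146.S6Def_988 Crest.Agent.R146.S6U_988 Crest.Agent.R146.S6L_988
open Crest.Agent.R146.RowDef_874 Crest.Agent.R146.RowDef2_874 Crest.Agent.R146.RowSys_874
open Crest.Agent.R146.RowObs_874
open Crest.Agent.R146.CavInc_769 (prior_isProb xs_pos xs_expo QQ_isProb meas_QQ)

noncomputable section

theorem BL_mono {f : ℝ → ℝ} {K L K' L' : ℝ} (h : BL K L f) (hK : K ≤ K') (hL : L ≤ L') :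
    BL K' L' f :=
  ⟨fun x => (h.bd x).trans hK, fun x y => (h.lip x y).trans
    (mul_le_mul_of_nonneg_right hL (abs_nonneg _))⟩

theorem kapX_one {J : ℕ} {f : ℝ → ℝ} {K L : ℝ} (hf : BL K L f) (P : ℕ → ℝ) {b : ℕ}
    (hb : b ≤ J + 1) : kapX J f P b (fun _ => 1) (fun _ => 1) = 1 := by
  unfold kapX
  have h1 : ∀ x, cX J f P (J + 2) (fun _ => 1) (b + 1) x = 1 := by
    intro x
    have := RoTruncA_130.cXc (P := P) hf (le_refl (J + 2)) 1 (J + 2 - (b + 1)) (by omega) x
    rwa [show J + 2 - (J + 2 - (b + 1)) = b + 1 by omega] at this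
  simp_rw [h1, mul_one]
  have := RoTruncA_130.cXc (P := P) hf (show b + 1 ≤ J + 2 by omega) 1 (b + 1) le_rfl 0
  rwa [Nat.sub_self] at this

/-- the averaged observables of one and of two rows of the system. -/
theorem two : RoTwo_143.TWO := by
  intro αm K L B ε hε
  set L' : ℝ := max L 0 with hL'
  have hL0 : 0 ≤ L' := le_max_right _ _
  set B' : ℝ := max B 1 with hB'
  have hB0 : 0 < B' := lt_of_lt_of_le one_pos (le_max_right _ _)
  set c0 : ℝ := B' ^ 2 * B' ^ 2 * ((2 * Real.exp (2 * (2 * K)) + 1) * RowTilt_874.CT (2 * K))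
    with hc0
  have hc00 : 0 ≤ c0 := by
    have := RowTilt_874.CT_nonneg (2 * K)
    rw [hc0]
    positivity
  obtain ⟨J0, hJ0⟩ := exists_nat_ge ((c0 / (ε / 3)) ^ 2)
  refine ⟨J0, fun J hJ => ?_⟩
  have hcst : c0 * Real.sqrt (1 / ((J : ℝ) + 1)) ≤ ε / 3 := by
    have h1 : (c0 / (ε / 3)) ^ 2 ≤ (J : ℝ) + 1 := by
      have : (J0 : ℝ) ≤ J := by exact_mod_cast hJ
      linarith
    have h2 : c0 / (ε / 3) ≤ Real.sqrt ((J : ℝ) + 1) := Real.le_sqrt_of_sq_le h1
    rw [Real.sqrt_div zero_le_one, Real.sqrt_one, mul_one_div]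
    have h3 : 0 < Real.sqrt ((J : ℝ) + 1) := Real.sqrt_pos.2 (by positivity)
    rw [div_le_iff₀ h3]
    rw [div_le_iff₀ (by positivity)] at h2
    linarith
  have hex : ∀ b : ℕ, ∃ D : ℝ, 0 ≤ D ∧ (b ≤ J + 1 → ∀ (ε1 : ℝ) (wc nc : ℕ), 2 ≤ wc →
      nc + 1 = (J + 1) * wc →
      ∀ (N n : ℕ), 0 < N → 0 < n → ∀ (C : Cfg N) (f : ℝ → ℝ), BL K L' f →
      ∀ φ ψ : Fin 2 → ℝ → ℝ, (∀ r, BL B' B' (φ r)) → (∀ r, BL B' B' (ψ r)) →
      ∀ (M : ℕ) (s : Fin nc → ℝ) (τ : ℕ → ℕ), Skel C nc n (fun _ => f) M s J wc τ ε1 →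
      ∀ x y : Fin M, x ≠ y →
      |∫ G, XV C nc n f φ ψ x y s (stp nc n J τ b) G ∂(gam M N) -
          ∏ r, kapX J f (PR C nc n f M s τ) b (φ r) (ψ r)| ≤
        ε / 3 + D * ε1 + c0 * Real.sqrt (1 / ((J : ℝ) + 1))) := by
    intro b
    by_cases hb : b ≤ J + 1
    · obtain ⟨D, hD, h⟩ := two_bound J (K := K) hL0 hB0 hb (show 0 < ε / 3 by positivity)
      exact ⟨D, hD, fun _ => h⟩
    · exact ⟨0, le_rfl, fun h => absurd h hb⟩
  choose D hD0 hD using hex
  set Dm : ℝ := ∑ b ∈ range (J + 2), D b with hDm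
  have hDm0 : 0 ≤ Dm := Finset.sum_nonneg fun b _ => hD0 b
  have hDle : ∀ b ≤ J + 1, D b ≤ Dm := fun b hb =>
    Finset.single_le_sum (f := D) (fun b _ => hD0 b) (Finset.mem_range.2 (by omega))
  set ε1 : ℝ := ε / 3 / (Dm + 1) with hε1
  have hε10 : 0 < ε1 := by positivity
  have hDε : ∀ b ≤ J + 1, D b * ε1 ≤ ε / 3 := by
    intro b hb
    rw [hε1, mul_div_assoc', div_le_iff₀ (by positivity)]
    have := hDle b hb
    nlinarith
  refine ⟨ε1, hε10, 0, ?_⟩
  intro wc nc hwc hnc N _ hN n hn C f φ ψ hf hφ hψ M s τ hM hS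
  have hf' : BL K L' f := BL_mono hf le_rfl (le_max_left _ _)
  have hφ' : BL B' B' φ := BL_mono hφ (le_max_left _ _) (le_max_left _ _)
  have hψ' : BL B' B' ψ := BL_mono hψ (le_max_left _ _) (le_max_left _ _)
  have h1' : BL B' B' (fun _ : ℝ => (1 : ℝ)) :=
    ⟨fun x => by rw [abs_one]; exact le_max_right _ _, fun x y => by
      rw [sub_self, abs_zero]; positivity⟩
  set P := PR C nc n f M s τ with hP
  -- two rows
  have T2 : ∀ b ≤ J + 1, ∀ a a' : Fin M, a ≠ a' →
      |∫ G, pE (QQ C nc n (M := M) (fun _ => f) G s) ((fil C nc n).F (stp nc n J τ b))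
      (fun u v => φ (hh G a (C.x u.1)) * ψ (hh G a (C.x v.1)) *
        (φ (hh G a' (C.x u.1)) * ψ (hh G a' (C.x v.1)))) ∂(gam M N) -
        kapX J f P b φ ψ ^ 2| ≤ ε := by
    intro b hb a a' haa
    have h := hD b hb ε1 wc nc hwc hnc N n hN hn C f hf' (fun _ => φ) (fun _ => ψ) (fun _ => hφ')
      (fun _ => hψ') M s τ hS a a' haa
    have e1 : ∀ G : Fin M → Fin N → ℝ, XV C nc n f (fun _ => φ) (fun _ => ψ) a a' s
        (stp nc n J τ b) G = pE (QQ C nc n (M := M) (fun _ => f) G s)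
        ((fil C nc n).F (stp nc n J τ b)) (fun u v => φ (hh G a (C.x u.1)) * ψ (hh G a (C.x v.1)) *
        (φ (hh G a' (C.x u.1)) * ψ (hh G a' (C.x v.1)))) := by
      intro G
      unfold XV
      congr 1
      funext u v
      ring
    simp_rw [e1] at h
    rw [Fin.prod_univ_two, ← sq] at h
    have := hDε b hb
    linarith
  -- one row
  have T1 : 2 ≤ M → ∀ b ≤ J + 1, ∀ a : Fin M,
      |∫ G, pE (QQ C nc n (M := M) (fun _ => f) G s) ((fil C nc n).F (stp nc n J τ b))
      (fun u v => φ (hh G a (C.x u.1)) * ψ (hh G a (C.x v.1))) ∂(gam M N) -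
        kapX J f P b φ ψ| ≤ ε := by
    intro hM2 b hb a
    obtain ⟨a', haa⟩ : ∃ a' : Fin M, a ≠ a' := by
      by_cases h0 : (a : ℕ) = 0
      · exact ⟨⟨1, by omega⟩, fun h => by rw [h] at h0; simp at h0⟩
      · exact ⟨⟨0, by omega⟩, fun h => by rw [h] at h0; simp at h0⟩
    have h := hD b hb ε1 wc nc hwc hnc N n hN hn C f hf' ![φ, fun _ => 1] ![ψ, fun _ => 1]
      (fun r => by fin_cases r; exacts [hφ', h1']) (fun r => by fin_cases r; exacts [hψ', h1'])
      M s τ hS a a' haa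
    have e1 : ∀ G : Fin M → Fin N → ℝ, XV C nc n f ![φ, fun _ => 1] ![ψ, fun _ => 1] a a' s
        (stp nc n J τ b) G = pE (QQ C nc n (M := M) (fun _ => f) G s)
        ((fil C nc n).F (stp nc n J τ b))
          (fun u v => φ (hh G a (C.x u.1)) * ψ (hh G a (C.x v.1))) := by
      intro G
      unfold XV
      congr 1
      funext u v
      simp
    simp_rw [e1] at h
    rw [Fin.prod_univ_two] at h
    simp only [Matrix.cons_val_zero, Matrix.cons_val_one] at h
    rw [kapX_one hf P hb, mul_one] at h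
    have := hDε b hb
    linarith
  have hstp : ∀ b ≤ J, stp nc n J τ b = τ b := fun b hb => by unfold stp; rw [if_pos hb]
  have hstl : stp nc n J τ (J + 1) = Lv nc n := by unfold stp; rw [if_neg (by omega)]
  have hbot : (fil C nc n).F (Lv nc n) = ⊥ := (fil C nc n).bot _ le_rfl
  refine ⟨?_, ?_, ?_, ?_⟩
  · intro hM2 b hb a
    have := T1 hM2 b (by omega) a
    rwa [hstp b hb] at this
  · intro b hb a a' haa
    have := T2 b (by omega) a a' haa
    rwa [hstp b hb] at this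
  · intro hM2 a
    have := T1 hM2 (J + 1) le_rfl a
    rw [hstl] at this
    simp_rw [RoTwo_143.pE_bot (QQ_isProb _ _ _) hbot] at this
    exact this
  · intro a a' haa
    have := T2 (J + 1) le_rfl a a' haa
    rw [hstl] at this
    simp_rw [RoTwo_143.pE_bot (QQ_isProb _ _ _) hbot] at this
    exact this

/-- **(RO)** the row observables of the lower bound of S0206. -/
theorem ro : S6L_988.RO := RoTrunc_130.ro_of (RoTwo_143.rob_of two) S6Mom_649.mom

end

end Crest.Agent.R146.RowFin_874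
end

-- ▼ part R146/NewcC_857
section

/-!
# Row 146 (helper857), node NEWC, part C: the pointwise inequality

For fixed rows `G1` of length `N + 1` with `∑ |G1 a i| ≤ R`, `δ` small:
`Phi C1 G1 ≥ Phi C G + eE QQ (A QQ dV 0) + log (1 - ε)`, where `G1 = (G, g0)`.
-/

set_option autoImplicit false

namespace Crest.Agent.R146.Newc857

open Finset MeasureTheory ProbabilityTheory
open Crest.Agent.R141 (A tl eE cE IsProb Filt A_meas A_mono A_abs_le A_cocycle A_add_const
  cE_of_meas tl_isProb)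
open Crest.Agent.R146.S6Def_988 Crest.Agent.R146.SysA_52 Crest.Agent.R146.S6L_988
open Crest.Agent.R146.NewF857 (npt sc newc_fin)

noncomputable section

variable {N nc n M : ℕ}

/-- old columns of the rows -/
def gOld (G1 : Fin M → Fin (N + 1) → ℝ) : Fin M → Fin N → ℝ := fun a i => G1 a i.castSucc

/-- new column of the rows -/
def gNew (G1 : Fin M → Fin (N + 1) → ℝ) : Fin M → ℝ := fun a => G1 a (Fin.last N)

/-- the log-weight as a function of the point -/
def u1 (f : ℝ → ℝ) (G1 : Fin M → Fin (N + 1) → ℝ) (s : Fin nc → ℝ) (c : Coins nc n (N + 1))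
    (x : Fin (N + 1) → ℝ) : ℝ :=
  rowE (fun _ => f) G1 x + ∑ g, s g * ∑ i, zf c g i * x i


theorem u1_lip {K L R a0 : ℝ} {f : ℝ → ℝ} (hf : BL K L f) {G1 : Fin M → Fin (N + 1) → ℝ}
    (hR : ∑ a, ∑ i, |G1 a i| ≤ R) {s : Fin nc → ℝ} (hs : ∀ g, |s g| ≤ a0)
    (c : Coins nc n (N + 1)) (u v : Fin (N + 1) → ℝ) :
    |u1 f G1 s c u - u1 f G1 s c v| ≤ (L * R + nc * (|a0| * Real.sqrt n)) * ∑ j, |u j - v j| := by
  have hL : 0 ≤ L := (PLim857.BL_nonneg hf).2
  have hS : 0 ≤ ∑ j, |u j - v j| := Finset.sum_nonneg fun i _ => abs_nonneg _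
  have h1 := PLim857.rowE_sub_le (f := fun _ => f) (fun _ => hf) (Nat.succ_pos N) G1 u v
  have h2 : |(∑ g, s g * ∑ i, zf c g i * u i) - ∑ g, s g * ∑ i, zf c g i * v i| ≤
      nc * (|a0| * Real.sqrt n) * ∑ j, |u j - v j| := by
    rw [← Finset.sum_sub_distrib]
    refine (Finset.abs_sum_le_sum_abs _ _).trans ?_
    have h3 : ∀ g ∈ (univ : Finset (Fin nc)), |s g * ∑ i, zf c g i * u i -
        s g * ∑ i, zf c g i * v i| ≤ |a0| * Real.sqrt n * ∑ j, |u j - v j| := by
      intro g _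
      rw [← mul_sub, abs_mul, ← Finset.sum_sub_distrib, mul_assoc]
      refine mul_le_mul ((hs g).trans (le_abs_self _)) ?_ (abs_nonneg _) (abs_nonneg _)
      refine (Finset.abs_sum_le_sum_abs _ _).trans ?_
      rw [Finset.mul_sum]
      refine Finset.sum_le_sum fun i _ => ?_
      rw [← mul_sub, abs_mul]
      exact mul_le_mul_of_nonneg_right (zf_abs_le _ _ _) (abs_nonneg _)
    refine (Finset.sum_le_sum h3).trans (le_of_eq ?_)
    rw [Finset.sum_const, Finset.card_univ, Fintype.card_fin, nsmul_eq_mul]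
    ring
  have e : u1 f G1 s c u - u1 f G1 s c v = (rowE (fun _ => f) G1 u - rowE (fun _ => f) G1 v) +
      ((∑ g, s g * ∑ i, zf c g i * u i) - ∑ g, s g * ∑ i, zf c g i * v i) := by
    unfold u1; ring
  rw [e]
  refine (abs_add_le _ _).trans ?_
  rw [add_mul]
  refine add_le_add (h1.trans ?_) h2
  exact mul_le_mul_of_nonneg_right (mul_le_mul_of_nonneg_left hR hL) hS

/-- the coins of the new coordinate, summed -/
def zt (s : Fin nc → ℝ) (c : Coins nc n (N + 1)) : ℝ := ∑ g, s g * zf c g (Fin.last N)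

theorem sv_not (b : Bool) : sv (!b) = - sv b := by
  cases b <;> simp [sv]

theorem zt_flp (s : Fin nc → ℝ) (c : Coins nc n (N + 1)) : zt s (flp nc n N c) = - zt s c := by
  unfold zt zf
  simp only [flp_last, sv_not, Finset.sum_neg_distrib, mul_neg]

theorem npt_last (x : Fin N → ℝ) (t : ℝ) : npt (Fin.last N) x t (Fin.last N) = t := by
  simp [npt]

theorem npt_castSucc (x : Fin N → ℝ) (t : ℝ) (j : Fin N) :
    npt (Fin.last N) x t j.castSucc = sc N t * x j := by
  unfold npt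
  rw [Fin.insertNth_last']
  simp

theorem sc_mul (hN : 0 < N) (t : ℝ) :
    sc N t * (Real.sqrt N / Real.sqrt ((N : ℝ) + 1)) =
      Real.sqrt (((N : ℝ) + 1 - t ^ 2) / ((N : ℝ) + 1)) := by
  unfold sc
  have hN' : (0 : ℝ) < N := by exact_mod_cast hN
  have h1 : Real.sqrt N ≠ 0 := (Real.sqrt_pos.mpr hN').ne'
  have h2 : Real.sqrt ((N : ℝ) + 1) ≠ 0 := (Real.sqrt_pos.mpr (by linarith)).ne'
  rw [Real.sqrt_div' _ hN'.le, Real.sqrt_div' _ (by linarith : (0 : ℝ) ≤ (N : ℝ) + 1)]
  field_simp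

theorem u1_npt (hN : 0 < N) (C : Cfg N) (f : ℝ → ℝ) (G1 : Fin M → Fin (N + 1) → ℝ)
    (s : Fin nc → ℝ) (c1 : Coins nc n (N + 1)) (y : C.Y) (t : ℝ) :
    u1 f G1 s c1 (npt (Fin.last N) (C.x y) t) =
      UU (C := C) (fun _ => f) (gOld G1) s (y, (rho nc n N c1).1) +
        dE C nc n f (gOld G1) (gNew G1) s (y, (rho nc n N c1).1) t + t * zt s c1 := by
  have hN' : (0 : ℝ) < N := by exact_mod_cast hN
  have hrow : ∀ a : Fin M, ∑ i : Fin (N + 1), G1 a i * (npt (Fin.last N) (C.x y) t i /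
      Real.sqrt ((N + 1 : ℕ) : ℝ)) =
      Real.sqrt (((N : ℝ) + 1 - t ^ 2) / ((N : ℝ) + 1)) * hh (gOld G1) a (C.x y) +
        t / Real.sqrt ((N : ℝ) + 1) * gNew G1 a := by
    intro a
    rw [Fin.sum_univ_castSucc, npt_last]
    simp only [npt_castSucc]
    have e1 : ∑ j : Fin N, G1 a j.castSucc * (sc N t * C.x y j / Real.sqrt ((N + 1 : ℕ) : ℝ)) =
        Real.sqrt (((N : ℝ) + 1 - t ^ 2) / ((N : ℝ) + 1)) * hh (gOld G1) a (C.x y) := by
      rw [← sc_mul hN, hh, Finset.mul_sum]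
      refine Finset.sum_congr rfl fun j _ => ?_
      have h1 : Real.sqrt N ≠ 0 := (Real.sqrt_pos.mpr hN').ne'
      have h2 : Real.sqrt ((N : ℝ) + 1) ≠ 0 := (Real.sqrt_pos.mpr (by linarith)).ne'
      simp only [gOld]
      push_cast
      field_simp
    rw [e1]
    unfold gNew
    push_cast
    ring
  have hfield : ∀ g : Fin nc, ∑ i : Fin (N + 1), zf c1 g i * npt (Fin.last N) (C.x y) t i =
      sc N t * (∑ j : Fin N, zf (rho nc n N c1).1 g j * C.x y j) + t * zf c1 g (Fin.last N) := by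
    intro g
    rw [Fin.sum_univ_castSucc, npt_last]
    simp only [npt_castSucc]
    rw [Finset.mul_sum, mul_comm (zf c1 g (Fin.last N)) t]
    congr 1
    refine Finset.sum_congr rfl fun j _ => ?_
    have : zf (rho nc n N c1).1 g j = zf c1 g j.castSucc := rfl
    rw [this]; ring
  have hf1 : ∑ g, s g * ∑ i : Fin (N + 1), zf c1 g i * npt (Fin.last N) (C.x y) t i =
      sc N t * fieldE (C := C) s (y, (rho nc n N c1).1) + t * zt s c1 := by
    simp only [hfield]
    unfold fieldE zt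
    rw [Finset.mul_sum, Finset.mul_sum, ← Finset.sum_add_distrib]
    refine Finset.sum_congr rfl fun g _ => ?_
    ring
  unfold u1
  rw [hf1]
  unfold rowE dE UU rowE
  simp only [hrow]
  rw [Finset.sum_sub_distrib]
  have e2 : ∀ a : Fin M, hh (gOld G1) a (C.x y) =
      ∑ i, gOld G1 a i * (C.x y i / Real.sqrt N) := fun a => rfl
  simp only [e2]
  unfold sc
  ring

end

end Crest.Agent.R146.Newc857
end

-- ▼ part R146/NewcD_857
section

/-!
# Row 146 (helper857), node NEWC, part D: the potential `dV` and the inequality on the coins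
-/

set_option autoImplicit false

namespace Crest.Agent.R146.Newc857

open Finset MeasureTheory ProbabilityTheory
open Crest.Agent.R141 (A tl eE cE IsProb Filt A_meas A_mono A_abs_le A_cocycle A_add_const
  cE_of_meas tl_isProb)
open Crest.Agent.R146.S6Def_988 Crest.Agent.R146.SysA_52 Crest.Agent.R146.S6L_988
open Crest.Agent.R146.NewF857 (npt sc newc_fin)

noncomputable section

variable {N nc n M : ℕ}

/-! ### Gaussian integrals on `[-k, k]` -/

theorem gauss_Icc {k : ℝ} (hk : 0 ≤ k) (g : ℝ → ℝ) :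
    ∫ t in Set.Icc (-k) k, g t ∂(gaussianReal 0 1) =
      ∫ t in (-k)..k, gaussianPDFReal 0 1 t * g t := by
  rw [intervalIntegral.integral_of_le (by linarith), ← integral_Icc_eq_integral_Ioc,
    ← integral_indicator measurableSet_Icc, integral_gaussianReal_eq_integral_smul one_ne_zero,
    ← integral_indicator measurableSet_Icc]
  refine integral_congr_ae (Filter.Eventually.of_forall fun t => ?_)
  by_cases ht : t ∈ Set.Icc (-k) k
  · simp only [Set.indicator_of_mem ht, smul_eq_mul]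
  · simp only [Set.indicator_of_notMem ht, smul_zero]

theorem gauss_Icc_pos {k : ℝ} (hk : 0 < k) : 0 < gaussianReal 0 1 (Set.Icc (-k) k) := by
  rw [pos_iff_ne_zero]
  intro h
  have h1 := gaussianReal_absolutelyContinuous' (0 : ℝ) (one_ne_zero (α := NNReal)) h
  rw [Real.volume_Icc, ENNReal.ofReal_eq_zero] at h1
  linarith

theorem gauss_Icc_int_pos {k : ℝ} (hk : 0 < k) {g : ℝ → ℝ} (hg : Continuous g)
    (h0 : ∀ t, 0 < g t) : 0 < ∫ t in Set.Icc (-k) k, g t ∂(gaussianReal 0 1) := by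
  rw [integral_pos_iff_support_of_nonneg (fun t => (h0 t).le)
    (hg.continuousOn.integrableOn_compact isCompact_Icc)]
  have : Function.support g = Set.univ := by
    ext t; simp [(h0 t).ne']
  rw [this, Measure.restrict_apply_univ]
  exact gauss_Icc_pos hk

/-- the mass of `[-k, k]` -/
def pk (k : ℝ) : ℝ := (gaussianReal 0 1).real (Set.Icc (-k) k)

theorem pk_pos {k : ℝ} (hk : 0 < k) : 0 < pk k := by
  unfold pk
  exact ENNReal.toReal_pos (gauss_Icc_pos hk).ne' (measure_ne_top _ _)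

/-! ### midpoint inequality -/

theorem log_half {μ : Measure ℝ} {H Hp Hm : ℝ → ℝ} (hH : Integrable H μ) (hp : Integrable Hp μ)
    (hm : Integrable Hm μ) (h0 : 0 < ∫ t, H t ∂μ) (hp0 : 0 < ∫ t, Hp t ∂μ)
    (hm0 : 0 < ∫ t, Hm t ∂μ)
    (hle : ∀ l : ℝ, 0 < l → ∀ t, H t ≤ (l * Hp t + l⁻¹ * Hm t) / 2) :
    Real.log (∫ t, H t ∂μ) ≤ (Real.log (∫ t, Hp t ∂μ) + Real.log (∫ t, Hm t ∂μ)) / 2 := by
  set a := Real.log (∫ t, Hp t ∂μ) with ha
  set b := Real.log (∫ t, Hm t ∂μ) with hb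
  have ea : ∫ t, Hp t ∂μ = Real.exp a := (Real.exp_log hp0).symm
  have eb : ∫ t, Hm t ∂μ = Real.exp b := (Real.exp_log hm0).symm
  have hl : 0 < Real.exp ((b - a) / 2) := Real.exp_pos _
  have h1 : ∫ t, H t ∂μ ≤ ∫ t, (Real.exp ((b - a) / 2) * Hp t +
      (Real.exp ((b - a) / 2))⁻¹ * Hm t) / 2 ∂μ :=
    integral_mono hH (((hp.const_mul _).add (hm.const_mul _)).div_const _) (fun t => hle _ hl t)
  rw [integral_div, integral_add (hp.const_mul _) (hm.const_mul _), integral_const_mul,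
    integral_const_mul, ea, eb, ← Real.exp_neg, ← Real.exp_add, ← Real.exp_add] at h1
  have e1 : (b - a) / 2 + a = (a + b) / 2 := by ring
  have e2 : -((b - a) / 2) + b = (a + b) / 2 := by ring
  rw [e1, e2] at h1
  have h2 : ∫ t, H t ∂μ ≤ Real.exp ((a + b) / 2) := by linarith
  rw [← Real.log_exp ((a + b) / 2)]
  exact Real.log_le_log h0 h2

/-! ### the potential -/

theorem BL_continuous {K L : ℝ} {f : ℝ → ℝ} (hf : BL K L f) : Continuous f := by
  have h : LipschitzWith (Real.toNNReal L) f := by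
    refine LipschitzWith.of_dist_le_mul fun x y => ?_
    rw [Real.dist_eq, Real.dist_eq, Real.coe_toNNReal _ (PLim857.BL_nonneg hf).2]
    exact hf.lip x y
  exact h.continuous

variable (C : Cfg N)

theorem continuous_dE {f : ℝ → ℝ} (hf : Continuous f) (s : Fin nc → ℝ) (ω : Om C nc n) :
    Continuous fun p : ((Fin M → Fin N → ℝ) × (Fin M → ℝ)) × ℝ =>
      dE C nc n f p.1.1 p.1.2 s ω p.2 := by
  unfold dE hh
  fun_prop

theorem continuous_dE_t {f : ℝ → ℝ} (hf : Continuous f) (G : Fin M → Fin N → ℝ) (g0 : Fin M → ℝ)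
    (s : Fin nc → ℝ) (ω : Om C nc n) : Continuous fun t : ℝ => dE C nc n f G g0 s ω t := by
  unfold dE
  fun_prop

theorem exp_dV {k : ℝ} (hk : 0 < k) {f : ℝ → ℝ} (hf : Continuous f) (G : Fin M → Fin N → ℝ)
    (g0 : Fin M → ℝ) (s : Fin nc → ℝ) (ω : Om C nc n) :
    Real.exp (dV C nc n k f G g0 s ω) =
      ∫ t in Set.Icc (-k) k, Real.exp (dE C nc n f G g0 s ω t) ∂(gaussianReal 0 1) := by
  have h1 := gauss_Icc_int_pos hk (Real.continuous_exp.comp (continuous_dE_t C hf G g0 s ω))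
    (fun t => Real.exp_pos _)
  simp only [Function.comp_apply] at h1
  unfold dV
  rw [← gauss_Icc hk.le (fun t => Real.exp (dE C nc n f G g0 s ω t)), Real.exp_log h1]

theorem measurable_dV {f : ℝ → ℝ} (hf : Continuous f) (k : ℝ) (s : Fin nc → ℝ) (ω : Om C nc n) :
    Measurable fun p : (Fin M → Fin N → ℝ) × (Fin M → ℝ) => dV C nc n k f p.1 p.2 s ω := by
  unfold dV
  refine Real.measurable_log.comp (Continuous.measurable ?_)
  refine intervalIntegral.continuous_parametric_intervalIntegral_of_continuous'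
    (f := fun (p : (Fin M → Fin N → ℝ) × (Fin M → ℝ)) (t : ℝ) =>
      gaussianPDFReal 0 1 t * Real.exp (dE C nc n f p.1 p.2 s ω t)) ?_ _ _
  have h1 : Continuous (gaussianPDFReal 0 1) := by
    unfold gaussianPDFReal; fun_prop
  exact (h1.comp continuous_snd).mul (Real.continuous_exp.comp (continuous_dE C hf s ω))

theorem abs_dE_le (hN : 0 < N) {K : ℝ} {f : ℝ → ℝ} (hK : ∀ x, |f x| ≤ K) (G : Fin M → Fin N → ℝ)
    (g0 : Fin M → ℝ) {a0 : ℝ} {s : Fin nc → ℝ} (hs : ∀ g, |s g| ≤ a0) (ω : Om C nc n) (t : ℝ) :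
    |dE C nc n f G g0 s ω t| ≤ 2 * (M * K) + nc * |a0| * (N * Real.sqrt n) := by
  unfold dE
  refine (abs_add_le _ _).trans (add_le_add ?_ ?_)
  · refine (Finset.abs_sum_le_sum_abs _ _).trans ?_
    refine (Finset.sum_le_sum (g := fun _ : Fin M => 2 * K) fun a _ => ?_).trans (le_of_eq ?_)
    · refine (abs_sub _ _).trans ?_
      linarith [hK (Real.sqrt (((N : ℝ) + 1 - t ^ 2) / ((N : ℝ) + 1)) * hh G a (C.x ω.1) +
        t / Real.sqrt ((N : ℝ) + 1) * g0 a), hK (hh G a (C.x ω.1))]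
    · rw [Finset.sum_const, Finset.card_univ, Fintype.card_fin, nsmul_eq_mul]; ring
  · rw [abs_mul]
    have h1 : |Real.sqrt (((N : ℝ) + 1 - t ^ 2) / N) - 1| ≤ 1 := by
      have h2 : sc N t ≤ 2 := NewF857.sc_le hN t
      unfold sc at h2
      rw [abs_le]
      constructor
      · linarith [Real.sqrt_nonneg (((N : ℝ) + 1 - t ^ 2) / N)]
      · linarith
    have h3 : ∑ g, |s g| ≤ nc * |a0| := by
      refine (Finset.sum_le_sum (g := fun _ : Fin nc => |a0|) fun g _ =>
        (hs g).trans (le_abs_self _)).trans (le_of_eq ?_)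
      rw [Finset.sum_const, Finset.card_univ, Fintype.card_fin, nsmul_eq_mul]
    have h4 := (fieldE_abs_le s ω).trans (mul_le_mul_of_nonneg_right h3
      (by positivity : (0 : ℝ) ≤ N * Real.sqrt n))
    calc _ ≤ 1 * (nc * |a0| * (N * Real.sqrt n)) :=
          mul_le_mul h1 h4 (abs_nonneg _) one_pos.le
      _ = _ := one_mul _

theorem abs_dV_le (hN : 0 < N) {k K : ℝ} (hk : 0 < k) {f : ℝ → ℝ} (hf : Continuous f)
    (hK : ∀ x, |f x| ≤ K) (G : Fin M → Fin N → ℝ)
    (g0 : Fin M → ℝ) {a0 : ℝ} {s : Fin nc → ℝ} (hs : ∀ g, |s g| ≤ a0) (ω : Om C nc n) :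
    |dV C nc n k f G g0 s ω| ≤ 2 * (M * K) + nc * |a0| * (N * Real.sqrt n) + |Real.log (pk k)| := by
  set D := 2 * (M * K) + nc * |a0| * (N * Real.sqrt n) with hD
  have hE := abs_dE_le C hN hK G g0 hs ω
  have hc := Real.continuous_exp.comp (continuous_dE_t C hf G g0 s ω)
  have hint : IntegrableOn (fun t => Real.exp (dE C nc n f G g0 s ω t)) (Set.Icc (-k) k)
      (gaussianReal 0 1) := hc.continuousOn.integrableOn_compact isCompact_Icc
  have hp := pk_pos hk
  have e0 := exp_dV C hk hf G g0 s ω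
  have c1 : ∫ _t in Set.Icc (-k) k, Real.exp D ∂(gaussianReal 0 1) = pk k * Real.exp D := by
    rw [setIntegral_const, smul_eq_mul]; rfl
  have c2 : ∫ _t in Set.Icc (-k) k, Real.exp (-D) ∂(gaussianReal 0 1) = pk k * Real.exp (-D) := by
    rw [setIntegral_const, smul_eq_mul]; rfl
  have hu : Real.exp (dV C nc n k f G g0 s ω) ≤ pk k * Real.exp D := by
    rw [e0, ← c1]
    exact integral_mono hint (integrable_const _) fun t =>
      Real.exp_le_exp.mpr (abs_le.mp (hE t)).2
  have hl : pk k * Real.exp (-D) ≤ Real.exp (dV C nc n k f G g0 s ω) := by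
    rw [e0, ← c2]
    exact integral_mono (integrable_const _) hint fun t =>
      Real.exp_le_exp.mpr (abs_le.mp (hE t)).1
  have hu' := Real.log_le_log (Real.exp_pos _) hu
  have hl' := Real.log_le_log (mul_pos hp (Real.exp_pos _)) hl
  rw [Real.log_exp, Real.log_mul hp.ne' (Real.exp_pos _).ne', Real.log_exp] at hu' hl'
  have := abs_le.mp (le_refl |Real.log (pk k)|)
  rw [abs_le]
  constructor <;> linarith

/-! ### the inequality on the coins -/

theorem LZ_ineq (hN : 0 < N) {k ε Λ : ℝ} (hk : 0 < k) (hε1 : ε < 1) {K L R a0 : ℝ}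
    {f : ℝ → ℝ} (hf : BL K L f) {G1 : Fin M → Fin (N + 1) → ℝ} (hR : ∑ a, ∑ i, |G1 a i| ≤ R)
    {s : Fin nc → ℝ} (hs : ∀ g, |s g| ≤ a0) (hΛ : Λ = L * R + nc * (|a0| * Real.sqrt n))
    (C1 : Cfg (N + 1))
    (hnew : ∀ U : (Fin (N + 1) → ℝ) → ℝ, (∀ u v, |U u - U v| ≤ Λ * ∑ j, |u j - v j|) →
      (1 - ε) * ∫ t in Set.Icc (-k) k, (∑ y, C.q y * Real.exp (U (npt (Fin.last N) (C.x y) t)))
        ∂(gaussianReal 0 1) ≤ ∑ y, C1.q y * Real.exp (U (C1.x y)))
    (c1 : Coins nc n (N + 1)) :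
    LZ C (fun ω => UU (fun _ => f) (gOld G1) s ω + dV C nc n k f (gOld G1) (gNew G1) s ω)
        (rho nc n N c1).1 + Real.log (1 - ε) ≤
      (LZ C1 (UU (fun _ => f) G1 s) c1 + LZ C1 (UU (fun _ => f) G1 s) (flp nc n N c1)) / 2 := by
  have hfc := BL_continuous hf
  set c := (rho nc n N c1).1 with hc
  -- the function of `t`
  set H : ℝ → ℝ → ℝ := fun z t => ∑ y, C.q y * Real.exp (UU (C := C) (fun _ => f) (gOld G1) s (y, c) +
    dE C nc n f (gOld G1) (gNew G1) s (y, c) t + t * z) with hH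
  have hHc : ∀ z, Continuous (H z) := by
    intro z
    refine continuous_finsetSum _ fun y _ => continuous_const.mul (Real.continuous_exp.comp ?_)
    exact (continuous_const.add (continuous_dE_t C hfc _ _ s (y, c))).add
      (continuous_id.mul continuous_const)
  have hHpos : ∀ z t, 0 < H z t := fun z t =>
    Finset.sum_pos (fun y _ => mul_pos (C.hq.pos y) (Real.exp_pos _)) Finset.univ_nonempty
  have hHint : ∀ z, IntegrableOn (H z) (Set.Icc (-k) k) (gaussianReal 0 1) := fun z =>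
    (hHc z).continuousOn.integrableOn_compact isCompact_Icc
  have hHI : ∀ z, 0 < ∫ t in Set.Icc (-k) k, H z t ∂(gaussianReal 0 1) := fun z =>
    gauss_Icc_int_pos hk (hHc z) (hHpos z)
  -- one side
  have key : ∀ c' : Coins nc n (N + 1), (rho nc n N c').1 = c →
      Real.log (1 - ε) + Real.log (∫ t in Set.Icc (-k) k, H (zt s c') t ∂(gaussianReal 0 1)) ≤
        LZ C1 (UU (fun _ => f) G1 s) c' := by
    intro c' hc'
    have h1 := hnew (u1 f G1 s c') (fun u v => by rw [hΛ]; exact u1_lip hf hR hs c' u v)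
    have e1 : ∀ t, ∑ y, C.q y * Real.exp (u1 f G1 s c' (npt (Fin.last N) (C.x y) t)) =
        H (zt s c') t := by
      intro t
      refine Finset.sum_congr rfl fun y _ => ?_
      rw [u1_npt hN C f G1 s c' y t, hc']
    simp only [e1] at h1
    unfold LZ
    have e2 : ∑ y, C1.q y * Real.exp (UU (C := C1) (fun _ => f) G1 s (y, c')) =
        ∑ y, C1.q y * Real.exp (u1 f G1 s c' (C1.x y)) := rfl
    rw [e2, ← Real.log_mul (by linarith) (hHI _).ne']
    exact Real.log_le_log (mul_pos (by linarith) (hHI _)) h1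
  have k1 := key c1 rfl
  have k2 := key (flp nc n N c1) (rho_flp_fst nc n N c1)
  rw [zt_flp] at k2
  -- midpoint
  have hmid := log_half (hHint 0) (hHint (zt s c1)) (hHint (-zt s c1)) (hHI 0) (hHI _) (hHI _)
    (fun l hl t => by
      simp only [hH]
      rw [Finset.mul_sum, Finset.mul_sum, ← Finset.sum_add_distrib, Finset.sum_div]
      refine Finset.sum_le_sum fun y _ => ?_
      set a := UU (C := C) (fun _ => f) (gOld G1) s (y, c) +
        dE C nc n f (gOld G1) (gNew G1) s (y, c) t with ha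
      have hE : 0 < Real.exp (t * zt s c1) := Real.exp_pos _
      rw [mul_zero, add_zero, Real.exp_add a (t * zt s c1), mul_neg, Real.exp_add a (-(t * zt s c1)),
        Real.exp_neg]
      set e := Real.exp (t * zt s c1) with he
      have hq : 0 < C.q y * Real.exp a := mul_pos (C.hq.pos y) (Real.exp_pos _)
      have h3 : (2 : ℝ) ≤ l * e + (l * e)⁻¹ := by
        have hle : 0 < l * e := mul_pos hl hE
        have h5 : (l * e) * (l * e)⁻¹ = 1 := mul_inv_cancel₀ hle.ne'
        have h6 : 0 < (l * e)⁻¹ := inv_pos.mpr hle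
        nlinarith [sq_nonneg (l * e - (l * e)⁻¹)]
      have h4 : (l * (C.q y * (Real.exp a * e)) + l⁻¹ * (C.q y * (Real.exp a * e⁻¹))) / 2 =
          (C.q y * Real.exp a) * ((l * e + (l * e)⁻¹) / 2) := by
        rw [mul_inv]; ring
      rw [h4]
      nlinarith)
  -- the middle term
  have e0 : LZ C (fun ω => UU (fun _ => f) (gOld G1) s ω +
      dV C nc n k f (gOld G1) (gNew G1) s ω) c =
      Real.log (∫ t in Set.Icc (-k) k, H 0 t ∂(gaussianReal 0 1)) := by
    unfold LZ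
    congr 1
    simp only [hH, mul_zero, add_zero]
    rw [integral_finsetSum]
    · refine Finset.sum_congr rfl fun y _ => ?_
      rw [Real.exp_add, exp_dV C hk hfc]
      simp only [Real.exp_add]
      rw [integral_const_mul, integral_const_mul]
    · intro y _
      refine Continuous.integrableOn_Icc ?_ 
      exact continuous_const.mul (Real.continuous_exp.comp
        (continuous_const.add (continuous_dE_t C hfc _ _ s (y, c))))
  rw [e0]
  linarith

end

end Crest.Agent.R146.Newc857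
end

-- ▼ part R146/NewcE_857
section

/-!
# Row 146 (helper857), node NEWC, part E: conclusion
-/

set_option autoImplicit false

namespace Crest.Agent.R146.Newc857

open Finset MeasureTheory ProbabilityTheory
open Crest.Agent.R141 (A tl eE cE IsProb Filt A_meas A_mono A_abs_le A_cocycle A_add_const
  cE_of_meas tl_isProb)
open Crest.Agent.R146.S6Def_988 Crest.Agent.R146.SysA_52 Crest.Agent.R146.S6L_988
open Crest.Agent.R146.NewF857 (npt sc newc_fin)

noncomputable section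

variable {N nc n M : ℕ}

/-! ### law of the rows -/

instance gv_prob (M : ℕ) : IsProbabilityMeasure (gv M) := by unfold gv; infer_instance

theorem mp_split (M N : ℕ) :
    MeasurePreserving (fun G1 : Fin M → Fin (N + 1) → ℝ => (gOld G1, gNew G1))
      (gam M (N + 1)) ((gam M N).prod (gv M)) := by
  have h1 : MeasurePreserving (fun (G1 : Fin M → Fin (N + 1) → ℝ) (a : Fin M) =>
      (MeasurableEquiv.piFinSuccAbove (fun _ : Fin (N + 1) => ℝ) (Fin.last N)) (G1 a))
      (gam M (N + 1))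
      (Measure.pi fun _ : Fin M => (gaussianReal 0 1).prod
        (Measure.pi fun _ : Fin N => gaussianReal 0 1)) :=
    measurePreserving_pi (fun _ : Fin M => Measure.pi fun _ : Fin (N + 1) => gaussianReal 0 1)
      (fun _ : Fin M => (gaussianReal 0 1).prod (Measure.pi fun _ : Fin N => gaussianReal 0 1))
      (fun _ => measurePreserving_piFinSuccAbove (fun _ : Fin (N + 1) => gaussianReal 0 1)
        (Fin.last N))
  have h2 := measurePreserving_arrowProdEquivProdArrow ℝ (Fin N → ℝ) (Fin M)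
    (fun _ => gaussianReal 0 1) (fun _ => Measure.pi fun _ : Fin N => gaussianReal 0 1)
  have h3 : MeasurePreserving (Prod.swap : (Fin M → ℝ) × (Fin M → Fin N → ℝ) → _)
      ((gv M).prod (gam M N)) ((gam M N).prod (gv M)) := Measure.measurePreserving_swap
  have h4 := h3.comp (h2.comp h1)
  have e : (fun G1 : Fin M → Fin (N + 1) → ℝ => (gOld G1, gNew G1)) =
      Prod.swap ∘ (MeasurableEquiv.arrowProdEquivProdArrow ℝ (Fin N → ℝ) (Fin M)) ∘
        (fun (G1 : Fin M → Fin (N + 1) → ℝ) (a : Fin M) =>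
          (MeasurableEquiv.piFinSuccAbove (fun _ : Fin (N + 1) => ℝ) (Fin.last N)) (G1 a)) := by
    funext G1
    refine Prod.ext ?_ ?_
    · funext a i
      show G1 a i.castSucc = G1 a ((Fin.last N).succAbove i)
      rw [Fin.succAbove_last_apply]
    · funext a
      rfl
  rw [e]
  exact h4

/-! ### the value of the potential -/

/-- the value of the potential `dV` in the tilted system -/
def VV (C : Cfg N) (nc n : ℕ) (k : ℝ) (f : ℝ → ℝ) (s : Fin nc → ℝ) (G : Fin M → Fin N → ℝ)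
    (g0 : Fin M → ℝ) : ℝ :=
  eE (QQ C nc n (M := M) (fun _ => f) G s)
    (A (QQ C nc n (M := M) (fun _ => f) G s) (fil C nc n) (xs nc n) (dV C nc n k f G g0 s) 0)

theorem VV_eq (C : Cfg N) (k : ℝ) (f : ℝ → ℝ) (s : Fin nc → ℝ) (G : Fin M → Fin N → ℝ)
    (g0 : Fin M → ℝ) (ω : Om C nc n) :
    VV C nc n k f s G g0 = A (S6Def_988.prior C nc n) (fil C nc n) (xs nc n)
      (fun w => UU (fun _ => f) G s w + dV C nc n k f G g0 s w) 0 ω -
        Phi C nc n (fun _ => f) G s := by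
  rw [A_cocycle (prior_isProb C nc n) (xs_pos nc n), ← Phi_eq]
  unfold VV
  rw [Crest.Agent.R164.ObsConc.eE_eq_cE_top (fil_zero C nc n) (QQ_isProb G s) _ ω,
    cE_of_meas (QQ_isProb G s) (A_meas (QQ_isProb G s) (xs_pos nc n) _ 0)]
  unfold QQ
  ring

theorem measurable_VV (C : Cfg N) (nc n : ℕ) (k : ℝ) {K L : ℝ} {f : ℝ → ℝ} (hf : BL K L f)
    (s : Fin nc → ℝ) :
    Measurable fun p : (Fin M → Fin N → ℝ) × (Fin M → ℝ) => VV C nc n k f s p.1 p.2 := by
  have hfm : Measurable f := PLim857.measurable_BL hf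
  obtain ⟨ω⟩ : Nonempty (Om C nc n) := inferInstance
  have e : (fun p : (Fin M → Fin N → ℝ) × (Fin M → ℝ) => VV C nc n k f s p.1 p.2) =
      fun p => A (S6Def_988.prior C nc n) (fil C nc n) (xs nc n)
        (fun w => UU (fun _ => f) p.1 s w + dV C nc n k f p.1 p.2 s w) 0 ω -
          Phi C nc n (fun _ => f) p.1 s := by
    funext p
    exact VV_eq C k f s p.1 p.2 ω
  rw [e]
  refine Measurable.sub ?_ ((measurable_Phi (fun _ => hfm) s).comp measurable_fst)
  refine meas_A (prior_isProb C nc n) (xs_pos nc n)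
    (U := fun (p : (Fin M → Fin N → ℝ) × (Fin M → ℝ)) w =>
      UU (fun _ => f) p.1 s w + dV C nc n k f p.1 p.2 s w) (fun w => ?_) 0 ω
  exact ((measurable_UU (fun _ => hfm) s w).comp measurable_fst).add
    (measurable_dV C (BL_continuous hf) k s w)

theorem abs_VV_le (hN : 0 < N) (C : Cfg N) {k K L : ℝ} (hk : 0 < k) {f : ℝ → ℝ} (hf : BL K L f)
    (G : Fin M → Fin N → ℝ) (g0 : Fin M → ℝ) {a0 : ℝ} {s : Fin nc → ℝ} (hs : ∀ g, |s g| ≤ a0) :
    |VV C nc n k f s G g0| ≤
      2 * (M * K) + nc * |a0| * (N * Real.sqrt n) + |Real.log (pk k)| :=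
  Crest.Agent.R164.Rot.eE_abs_le (QQ_isProb G s) fun ω =>
    A_abs_le (QQ_isProb G s) (xs_pos nc n)
      (fun ω => abs_dV_le C hN hk (BL_continuous hf) hf.bd G g0 hs ω) 0 ω

/-! ### the inequality for fixed rows -/

theorem Phi_ineq (hN : 0 < N) (hn : 0 < n) {k ε Λ : ℝ} (hk : 0 < k) (hε1 : ε < 1)
    {K L R a0 : ℝ} {f : ℝ → ℝ} (hf : BL K L f) {G1 : Fin M → Fin (N + 1) → ℝ}
    (hR : ∑ a, ∑ i, |G1 a i| ≤ R)
    {s : Fin nc → ℝ} (hs : ∀ g, |s g| ≤ a0) (hΛ : Λ = L * R + nc * (|a0| * Real.sqrt n))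
    (C : Cfg N) (C1 : Cfg (N + 1))
    (hnew : ∀ U : (Fin (N + 1) → ℝ) → ℝ, (∀ u v, |U u - U v| ≤ Λ * ∑ j, |u j - v j|) →
      (1 - ε) * ∫ t in Set.Icc (-k) k, (∑ y, C.q y * Real.exp (U (npt (Fin.last N) (C.x y) t)))
        ∂(gaussianReal 0 1) ≤ ∑ y, C1.q y * Real.exp (U (C1.x y))) :
    Phi C nc n (fun _ => f) (gOld G1) s + VV C nc n k f s (gOld G1) (gNew G1) +
      Real.log (1 - ε) ≤ Phi C1 nc n (fun _ => f) G1 s := by
  obtain ⟨ω⟩ : Nonempty (Om C nc n) := inferInstance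
  obtain ⟨ω1⟩ : Nonempty (Om C1 nc n) := inferInstance
  have h1 := coin_main nc n N
    (LZ C (fun ω => UU (fun _ => f) (gOld G1) s ω + dV C nc n k f (gOld G1) (gNew G1) s ω))
    (LZ C1 (UU (fun _ => f) G1 s)) (Real.log (1 - ε))
    (fun c1 => LZ_ineq C hN hk hε1 hf hR hs hΛ C1 hnew c1) ω.2 ω1.2
  rw [← A_coin C hn _ ω, ← A_coin C1 hn _ ω1, ← Phi_eq] at h1
  rw [VV_eq C k f s (gOld G1) (gNew G1) ω]
  linarith

/-- **(NEWC)** -/
theorem newc : NEWC := by
  intro k K L a0 ε hk hε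
  set ε1 : ℝ := 1 - Real.exp (-(ε / 2)) with hε1def
  have hexp : Real.exp (-(ε / 2)) < 1 := by rw [Real.exp_lt_one_iff]; linarith
  have hε1pos : 0 < ε1 := by rw [hε1def]; linarith
  have hε1lt : ε1 < 1 := by rw [hε1def]; linarith [Real.exp_pos (-(ε / 2))]
  have hlog : Real.log (1 - ε1) = -(ε / 2) := by
    rw [hε1def, sub_sub_cancel, Real.log_exp]
  obtain ⟨N0, hN0⟩ := newc_fin k ε1 hε1pos hε1lt
  refine ⟨N0, fun N hN hNpos nc n M hn => ?_⟩
  obtain ⟨_, hNΛ⟩ := hN0 N hN
  set T : ℝ := ∫ G1 : Fin M → Fin (N + 1) → ℝ, (∑ a, ∑ i, |G1 a i|) ∂(gam M (N + 1)) with hT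
  set B : ℝ := (M * K + nc * |a0| * (((N + 1 : ℕ) : ℝ) * Real.sqrt n)) +
    (M * K + nc * |a0| * (N * Real.sqrt n)) +
    (2 * (M * K) + nc * |a0| * (N * Real.sqrt n) + |Real.log (pk k)|) with hB
  set R : ℝ := 2 * B * T / ε + 1 with hR
  obtain ⟨δ, hδ, hmain⟩ := hNΛ (L * R + nc * (|a0| * Real.sqrt n))
  refine ⟨δ, hδ, fun C C1 hC hC1 f hf s hs => ?_⟩
  have hfm : Measurable f := PLim857.measurable_BL hf
  have hK : 0 ≤ K := (PLim857.BL_nonneg hf).1
  have hT0 : 0 ≤ T := integral_nonneg fun G1 => Finset.sum_nonneg fun a _ =>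
    Finset.sum_nonneg fun i _ => abs_nonneg _
  have hB0 : 0 ≤ B := by positivity
  have hR0 : 0 < R := by positivity
  have hsum : ∑ g, |s g| ≤ nc * |a0| := by
    refine (Finset.sum_le_sum (g := fun _ : Fin nc => |a0|) fun g _ =>
      (hs g).trans (le_abs_self _)).trans (le_of_eq ?_)
    rw [Finset.sum_const, Finset.card_univ, Fintype.card_fin, nsmul_eq_mul]
  -- pointwise
  have hpt : ∀ G1 : Fin M → Fin (N + 1) → ℝ,
      Phi C nc n (fun _ => f) (gOld G1) s + VV C nc n k f s (gOld G1) (gNew G1) - ε / 2 -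
        B / R * (∑ a, ∑ i, |G1 a i|) ≤ Phi C1 nc n (fun _ => f) G1 s := by
    intro G1
    have hS0 : 0 ≤ ∑ a, ∑ i, |G1 a i| := Finset.sum_nonneg fun a _ =>
      Finset.sum_nonneg fun i _ => abs_nonneg _
    have hBR : 0 ≤ B / R * (∑ a, ∑ i, |G1 a i|) := by positivity
    by_cases hG : ∑ a, ∑ i, |G1 a i| ≤ R
    · have h1 := Phi_ineq hNpos hn hk hε1lt hf hG hs rfl C C1
        (fun U hU => hmain C C1 hC hC1 (Fin.last N) U hU)
      rw [hlog] at h1
      linarith
    · have hG : R < ∑ a, ∑ i, |G1 a i| := lt_of_not_ge hG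
      have h1 : B ≤ B / R * (∑ a, ∑ i, |G1 a i|) := by
        rw [div_mul_eq_mul_div, le_div_iff₀ hR0]
        exact mul_le_mul_of_nonneg_left hG.le hB0
      have h2 := (abs_le.mp (Phi_abs_le (C := C1) (nc := nc) (n := n) (f := fun _ => f)
        (fun _ => hf.bd) G1 s)).1
      have h3 := (abs_le.mp (Phi_abs_le (C := C) (nc := nc) (n := n) (f := fun _ => f)
        (fun _ => hf.bd) (gOld G1) s)).2
      have h4 := (abs_le.mp (abs_VV_le (n := n) hNpos C hk hf (gOld G1) (gNew G1) hs)).2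
      have h5 := mul_le_mul_of_nonneg_right hsum
        (by positivity : (0 : ℝ) ≤ ((N + 1 : ℕ) : ℝ) * Real.sqrt n)
      have h6 := mul_le_mul_of_nonneg_right hsum
        (by positivity : (0 : ℝ) ≤ (N : ℝ) * Real.sqrt n)
      linarith
  -- integrability
  have hmp := mp_split M N
  have iT : Integrable (fun G1 : Fin M → Fin (N + 1) → ℝ => ∑ a, ∑ i, |G1 a i|)
      (gam M (N + 1)) :=
    integrable_finsetSum _ fun a _ => integrable_finsetSum _ fun i _ =>
      (PLim857.integrable_abs_entry M (N + 1) a i).1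
  have i1 : Integrable (fun G1 : Fin M → Fin (N + 1) → ℝ => Phi C1 nc n (fun _ => f) G1 s)
      (gam M (N + 1)) := integrable_Phi (fun _ => hfm) (fun _ => hf.bd) s
  have i2 : Integrable (fun G : Fin M → Fin N → ℝ => Phi C nc n (fun _ => f) G s)
      (gam M N) := integrable_Phi (fun _ => hfm) (fun _ => hf.bd) s
  have i3 : Integrable (fun p : (Fin M → Fin N → ℝ) × (Fin M → ℝ) => VV C nc n k f s p.1 p.2)
      ((gam M N).prod (gv M)) :=
    Integrable.of_bound (measurable_VV C nc n k hf s).aestronglyMeasurable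
      (2 * (M * K) + nc * |a0| * (N * Real.sqrt n) + |Real.log (pk k)|)
      (Filter.Eventually.of_forall fun p => by
        rw [Real.norm_eq_abs]; exact abs_VV_le hNpos C hk hf p.1 p.2 hs)
  have i2' : Integrable (fun p : (Fin M → Fin N → ℝ) × (Fin M → ℝ) =>
      Phi C nc n (fun _ => f) p.1 s) ((gam M N).prod (gv M)) := i2.comp_fst _
  have j2 : Integrable (fun G1 : Fin M → Fin (N + 1) → ℝ => Phi C nc n (fun _ => f) (gOld G1) s)
      (gam M (N + 1)) := hmp.integrable_comp_of_integrable i2'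
  have j3 : Integrable (fun G1 : Fin M → Fin (N + 1) → ℝ => VV C nc n k f s (gOld G1) (gNew G1))
      (gam M (N + 1)) := hmp.integrable_comp_of_integrable i3
  -- values of the integrals
  have v2 : ∫ G1, Phi C nc n (fun _ => f) (gOld G1) s ∂(gam M (N + 1)) =
      ∫ G, Phi C nc n (M := M) (fun _ => f) G s ∂(gam M N) := by
    have h := integral_map (μ := gam M (N + 1)) hmp.measurable.aemeasurable
      (f := fun p : (Fin M → Fin N → ℝ) × (Fin M → ℝ) => Phi C nc n (fun _ => f) p.1 s)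
      (by rw [hmp.map_eq]; exact i2'.aestronglyMeasurable)
    rw [hmp.map_eq] at h
    rw [← h, integral_prod _ i2']
    simp
  have v3 : ∫ G1, VV C nc n k f s (gOld G1) (gNew G1) ∂(gam M (N + 1)) =
      ∫ G, (∫ g0, VV C nc n k f s G g0 ∂(gv M)) ∂(gam M N) := by
    have h := integral_map (μ := gam M (N + 1)) hmp.measurable.aemeasurable
      (f := fun p : (Fin M → Fin N → ℝ) × (Fin M → ℝ) => VV C nc n k f s p.1 p.2)
      (by rw [hmp.map_eq]; exact i3.aestronglyMeasurable)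
    rw [hmp.map_eq] at h
    rw [← h, integral_prod _ i3]
  -- integrate
  have k1 : Integrable (fun G1 : Fin M → Fin (N + 1) → ℝ => Phi C nc n (fun _ => f) (gOld G1) s +
      VV C nc n k f s (gOld G1) (gNew G1)) (gam M (N + 1)) := j2.add j3
  have k2 : Integrable (fun G1 : Fin M → Fin (N + 1) → ℝ => Phi C nc n (fun _ => f) (gOld G1) s +
      VV C nc n k f s (gOld G1) (gNew G1) - ε / 2) (gam M (N + 1)) := k1.sub (integrable_const _)
  have hint : ∫ G1 : Fin M → Fin (N + 1) → ℝ, (Phi C nc n (fun _ => f) (gOld G1) s +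
      VV C nc n k f s (gOld G1) (gNew G1) - ε / 2 - B / R * (∑ a, ∑ i, |G1 a i|))
        ∂(gam M (N + 1)) ≤ ∫ G1, Phi C1 nc n (fun _ => f) G1 s ∂(gam M (N + 1)) :=
    integral_mono (k2.sub (iT.const_mul (B / R))) i1 hpt
  rw [integral_sub k2 (iT.const_mul _), integral_sub k1 (integrable_const _),
    integral_add j2 j3, integral_const_mul, v2, v3, ← hT] at hint
  simp only [integral_const, probReal_univ, smul_eq_mul, one_mul] at hint
  have hBT : B / R * T ≤ ε / 2 := by
    rw [div_mul_eq_mul_div, div_le_iff₀ hR0, hR]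
    have : ε / 2 * (2 * B * T / ε + 1) = B * T + ε / 2 := by field_simp
    rw [this]; linarith
  unfold PhE
  have e1 : ∫ G, (∫ g0, eE (QQ C nc n (M := M) (fun _ => f) G s)
      (Crest.Agent.R141.A (QQ C nc n (M := M) (fun _ => f) G s) (fil C nc n) (xs nc n)
        (dV C nc n k f G g0 s) 0) ∂(gv M)) ∂(gam M N) =
      ∫ G, (∫ g0, VV C nc n k f s G g0 ∂(gv M)) ∂(gam M N) := rfl
  rw [e1]
  linarith

end

end Crest.Agent.R146.Newc857
end

-- ▼ part R146/CrudeF_663
section

/-!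
Row 146: TAYC and CRUDE from FLD alone (helper663).
-/

set_option autoImplicit false

namespace Crest.Agent.R146.CrudeF_663

open Crest.Agent.R146.S6L_988

theorem tayc_of_fld (h : FLD) : TAYC := L3Tay_663.tayc_of S6Mom_649.mom h

theorem crude_of_fld (h : FLD) : CRUDE :=
  Crude_663.crude_of Newc857.newc S6Mom_649.mom h

end Crest.Agent.R146.CrudeF_663
end

-- ▼ part R146/S6LAll_988

/-!
Row 146, S0206, lower bound: the nodes `COL`, `INCL`, `CRUDE` of `S6L_988` as unconditional theorems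
(helper988; glue only, proofs by helpers 674, 290, 874, 130, 143, 857, 451, 762, 36, 663, 649, 53,
311, 495).
-/

set_option autoImplicit false

namespace Crest.Agent.R146.S6LAll_988

open Crest.Agent.R146

theorem rel : S6L_988.REL := S6Rel_290.rel_of RowFin_874.ro S6Fld_857.fld

theorem tayc : S6L_988.TAYC := CrudeF_663.tayc_of_fld S6Fld_857.fld

theorem crude : S6L_988.CRUDE := CrudeF_663.crude_of_fld S6Fld_857.fld

theorem col : S6L_988.COL :=
  S6Col_674.col_of RowFin_874.ro rel VTrunc_762.result S6Thc_451.thc Newc857.newc tayc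

theorem incl : S6L_988.INCL := S6Incl_53.incl_open col S6Skadd_495.skadd S6Spc_311.spc

end Crest.Agent.R146.S6LAll_988
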