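import Crest.Agent.R146.HConc_52_Mg
import Crest.Agent.R146.U0_762
import Crest.Agent.R146.DerJen_52
import Crest.Agent.R146.S6Ibp_559
import Crest.Agent.R146.S6StrF_649
import Crest.Agent.R146.MonF_422_Mg
import Crest.Agent.R146.PLim_857
import Crest.Agent.R146.Asm0204_734
import Crest.Agent.R146.LindLB2_878
import Crest.Agent.R146.VTr_468
import Crest.Agent.R146.LocUb_393_Mg
import Crest.Agent.R146.P34Big_840
import Crest.Agent.R146.P34a_323
import Crest.Agent.R146.LocDet_508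
import Crest.Agent.R146.S6Lit_663
import Crest.Agent.R146.Wrap_947
import Crest.Agent.R146.LocXR_508
import Mathlib
import Crest.Agent.R146.Large_840
import Crest.Agent.R146.RepairNet_840
import Crest.Agent.R151.V1
import Crest.Agent.R143.ES_831
import Crest.Prelude.Def_SphericalPressure
import Crest.Agent.R146.LocSeq_508_Mg
import Crest.Agent.R146.CtlG_130
import Crest.Agent.R146.LbBr_679
import Crest.Agent.R146.Inc1_947
import Crest.Agent.R146.S6LAll_988

-- ▼ part R146/S6UBF_167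
section

/-!
Row 146, S0206 (helper167): the upper bound (UB) of `S6U_988`, unconditional.
-/

set_option autoImplicit false

namespace Crest.Agent.R146.S6UBF_167

/-- **(UB)** the upper bound, arbitrary row functions. -/
theorem ub : Crest.Agent.R146.S6U_988.UB :=
  S6UB_167.UB_of U0_762.result S6U1_993.result DerJen_52.jen DerJen_52.der S6Ibp_559.ibp_node
    HConc_52.hconc S6StrF_649.str S6Cavity_769.cav (MonB_911.monod MonF_422.mono MonF_422.lip)
    PLim857.plim Disc857.disc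

end Crest.Agent.R146.S6UBF_167
end

-- ▼ part R146/Fin34_734
section

/-!
Row 146 (helper734): LAST STEP of S0203 and S0204 from the exact statement of S0206 and LOCCORE.
Independent of the check files.
-/

set_option autoImplicit false

namespace Crest.Agent.R146.Fin34_734

open MeasureTheory ProbabilityTheory Filter Crest.ProbabilityR.Perceptron
open Crest.Agent.R146.P34_734
open scoped Topology

/-- the literal statement S0206 -/
def S0206Stmt : Prop :=
  ∀ (Ω : Type) [MeasurableSpace Ω] (P : MeasureTheory.Measure Ω)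
    [MeasureTheory.IsProbabilityMeasure P]
    (B : NNReal → Ω → ℝ) (hBm : ∀ t, Measurable (B t)) (_ : ProbabilityTheory.IsBrownianReal B P)
    (α β : ℝ) (_ : 0 < α) (_ : 0 < β)
    (φ : ℝ → ℝ) (_ : Continuous φ) (_ : ∃ K : ℝ, ∀ x, abs (φ x) ≤ K),
    ∃ p : ℝ,
      ⨅ m : OverlapProfile, variationalFunctional P B hBm α β φ m = (p : EReal) ∧
      Filter.Tendsto (fun N : ℕ => expectedPressure N α β φ) Filter.atTop (nhds p) ∧
      ∀ ε : ℝ, 0 < ε →
        Filter.Tendsto (fun N : ℕ => pressureTailProb N α β φ p ε) Filter.atTop (nhds 0)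

theorem s6_of (h : S0206Stmt) (W : BS) : S6 W := by
  intro α β hα hβ φ hc hb
  exact h W.Ω W.P W.B W.meas W.br α β hα hβ φ hc hb

theorem s0204_W (W : BS) (h6 : S6 W) (hCore : LocCore_508.LOCCORE) :
    ∃ αc : ℝ, 0 < αc ∧ ∃ ε₀ : ℝ, 0 < ε₀ ∧ ε₀ < 1 ∧
      ∀ ε : ℝ, 0 ≤ ε → ε < ε₀ → IsSharpThreshold ε αc :=
  Asm0204_734.s0204_of W (VCc_468.vconc W) (VTr_468.vzero W) (VTr_468.vup W) (P34b_323.gub W h6)
    (Crest.Agent.R146L878.LINDLB_of W h6 (VTr_468.vmono W) (VTr_468.vzero W))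
    (LocUb_393.locub_of hCore W) P34a_323.cap P34a_323.concm P34a_323.markov P34Big_840.kern
    P34Big_840.big P34Big_840.monoa

theorem s0204 (h : S0206Stmt) (hCore : LocCore_508.LOCCORE) :
    ∃ αc : ℝ, 0 < αc ∧ ∃ ε₀ : ℝ, 0 < ε₀ ∧ ε₀ < 1 ∧
      ∀ ε : ℝ, 0 ≤ ε → ε < ε₀ → IsSharpThreshold ε αc :=
  s0204_W Bsw_649.bsw (s6_of h _) hCore

theorem s0203 (h : S0206Stmt) (hCore : LocCore_508.LOCCORE) :
    ∃ αc : ℝ, 0 < αc ∧
      (∀ α : ℝ, 0 < α → α < αc →
        Filter.Tendsto (fun N : ℕ => satProb N α) Filter.atTop (nhds 1)) ∧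
      (∀ α : ℝ, αc < α →
        Filter.Tendsto (fun N : ℕ => satProb N α) Filter.atTop (nhds 0)) :=
  Asm0204_734.s0203_of P34Big_840.mix0 (s0204 h hCore)

end Crest.Agent.R146.Fin34_734
end

-- ▼ part R146/LocL1_878
section

/-!
Row 146, node LOCCORE, helper878: the upper bound for one fixed localised part.

Rows are split as `(X, G)`: `X : Fin M × κ → ℝ` (localised coordinates, direction and mass in
`u : κ → ℝ`), `G : Fin M × Fin n → ℝ` (the rest).  Lindeberg on the rest over the delocalised part of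
the small sphere, the Gaussian upper bound `UB` with the row functions
`ψ (∑ u_i X(a,i) + √(1-μ) x)`, average over `X`.
-/

set_option autoImplicit false

open MeasureTheory ProbabilityTheory Set Filter
open scoped Topology

namespace Crest.Agent.R146L878

open Crest.Agent.R146.LocRec_508 Crest.Agent.R146.LocDet_508 Crest.Agent.R146.P34_734
open Crest.Agent.R146.S6Def_988
open Crest.Agent.R146.PressC_663 (uSph crd measurable_crd isProb_uSph)
open Crest.Agent.R146.LindC_846 (Setup field)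
open Crest.ProbabilityR.Perceptron

variable {κ : Type} [Fintype κ] {n M : ℕ}

/-- shift of the row `a` -/
noncomputable def cL (u : κ → ℝ) (X : Fin M × κ → ℝ) (a : Fin M) : ℝ := ∑ i, u i * X (a, i)

/-- log partition function of the rest with shifts `c a` and scale `r`. -/
noncomputable def Fc (ρm : Measure (UnitSphere n)) (ψ : ℝ → ℝ) (r : ℝ) (c : Fin M → ℝ)
    (G : Fin M × Fin n → ℝ) : ℝ :=
  Real.log (∫ w, Real.exp (∑ a, ψ (c a + r * ∑ j, G (a, j) * crd n w j)) ∂ρm)

theorem Fc_uSph (ψ : ℝ → ℝ) (r : ℝ) (c : Fin M → ℝ) (G : Fin M × Fin n → ℝ) :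
    Fc (uSph n) ψ r c G = Crest.Agent.R146.PressC_663.logZ (uSph n) (crd n) (fun a x => ψ (c a + r * x)) G := rfl


section fixed

variable {ψ : ℝ → ℝ} {K0 : ℝ}

theorem measurable_Fc_exp (hψ : Measurable ψ) (r : ℝ) (c : Fin M → ℝ) (G : Fin M × Fin n → ℝ) :
    Measurable fun w : UnitSphere n =>
      Real.exp (∑ a, ψ (c a + r * ∑ j, G (a, j) * crd n w j)) := by
  refine Real.measurable_exp.comp (Finset.measurable_fun_sum _ fun a _ => hψ.comp ?_)
  refine (measurable_const.add ((Finset.measurable_fun_sum _ fun j _ => ?_).const_mul r))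
  exact ((measurable_pi_apply j).comp (measurable_crd n)).const_mul _

theorem Fc_sum_le (hK0 : ∀ x, |ψ x| ≤ K0) (r : ℝ) (c : Fin M → ℝ) (G : Fin M × Fin n → ℝ)
    (w : UnitSphere n) : |∑ a, ψ (c a + r * ∑ j, G (a, j) * crd n w j)| ≤ M * K0 := by
  refine (Finset.abs_sum_le_sum_abs _ _).trans ((Finset.sum_le_sum fun a _ => hK0 _).trans ?_)
  simp

theorem integrable_Fc_exp (hψ : Measurable ψ) (hK0 : ∀ x, |ψ x| ≤ K0) (ρm : Measure (UnitSphere n))
    [IsFiniteMeasure ρm] (r : ℝ) (c : Fin M → ℝ) (G : Fin M × Fin n → ℝ) :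
    Integrable (fun w : UnitSphere n =>
      Real.exp (∑ a, ψ (c a + r * ∑ j, G (a, j) * crd n w j))) ρm := by
  refine Integrable.of_bound (C := Real.exp (M * K0))
    (measurable_Fc_exp hψ r c G).aestronglyMeasurable (Eventually.of_forall fun w => ?_)
  rw [Real.norm_eq_abs, abs_of_pos (Real.exp_pos _)]
  exact Real.exp_le_exp.2 ((le_abs_self _).trans (Fc_sum_le hK0 r c G w))

/-- the delocalised part of the small sphere -/
noncomputable abbrev uD (n : ℕ) (ρ : ℝ) : Measure (UnitSphere n) := (uSph n).restrict (DD n ρ)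

theorem Fc_restrict_le (hn : 0 < n) (hψ : Measurable ψ) (hK0 : ∀ x, |ψ x| ≤ K0) {ρ : ℝ}
    (hD : uSph n (DD n ρ) ≠ 0) (r : ℝ) (c : Fin M → ℝ) (G : Fin M × Fin n → ℝ) :
    Fc (uD n ρ) ψ r c G ≤ Fc (uSph n) ψ r c G := by
  have := isProb_uSph hn
  unfold Fc
  have hi := integrable_Fc_exp hψ hK0 (uSph n) r c G
  have hi' := integrable_Fc_exp hψ hK0 (uD n ρ) r c G
  refine Real.log_le_log ?_ ?_
  · have hlow : ∀ w : UnitSphere n, Real.exp (-(M * K0)) ≤
        Real.exp (∑ a, ψ (c a + r * ∑ j, G (a, j) * crd n w j)) := fun w =>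
      Real.exp_le_exp.2 (neg_le_of_abs_le (Fc_sum_le hK0 r c G w))
    have h := integral_mono (integrable_const _) hi' hlow
    rw [integral_const, smul_eq_mul] at h
    refine lt_of_lt_of_le (mul_pos ?_ (Real.exp_pos _)) h
    rw [Measure.real, Measure.restrict_apply_univ]
    exact ENNReal.toReal_pos hD (measure_ne_top _ _)
  · exact setIntegral_le_integral hi (Eventually.of_forall fun w => (Real.exp_pos _).le)

/-- clipped coordinates -/
noncomputable def tc (r ρ : ℝ) (j : Fin n) (w : UnitSphere n) : ℝ :=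
  if |crd n w j| ≤ ρ then r * crd n w j else 0

theorem measurable_tc (r ρ : ℝ) (j : Fin n) : Measurable (tc (n := n) r ρ j) := by
  unfold tc
  have h : Measurable fun w : UnitSphere n => crd n w j :=
    (measurable_pi_apply j).comp (measurable_crd n)
  exact Measurable.ite (measurableSet_le h.abs measurable_const) (h.const_mul r) measurable_const

theorem abs_tc_le {r ρ : ℝ} (hρ : 0 ≤ ρ) (j : Fin n) (w : UnitSphere n) :
    |tc r ρ j w| ≤ |r| * ρ := by
  unfold tc
  split_ifs with h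
  · rw [abs_mul]; exact mul_le_mul_of_nonneg_left h (abs_nonneg r)
  · rw [abs_zero]; positivity

theorem Fc_eq_logZ (r ρ : ℝ) (c : Fin M → ℝ) (G : Fin M × Fin n → ℝ) :
    Fc (uD n ρ) ψ r c G =
      Crest.Agent.R146.LindC_846.logZ (uD n ρ) (fun _ : Fin M => ψ) (fun a _ => c a) (tc r ρ) G := by
  unfold Fc Crest.Agent.R146.LindC_846.logZ
  congr 1
  refine setIntegral_congr_fun (measurableSet_DD ρ) fun w hw => ?_
  simp only
  congr 1
  refine Finset.sum_congr rfl fun a _ => ?_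
  congr 1
  unfold field
  congr 1
  rw [Finset.mul_sum]
  refine Finset.sum_congr rfl fun j _ => ?_
  have h : |crd n w j| ≤ ρ := hw j
  unfold tc
  rw [if_pos h]
  ring

variable {Kp : ℝ}

theorem setup (hn : 0 < n) {ρ : ℝ} (hD : uSph n (DD n ρ) ≠ 0) (hρ : 0 ≤ ρ)
    (hp : Crest.Agent.R146.LindA_846.IsPot Kp ψ) (hK0 : ∀ x, |ψ x| ≤ K0) (r : ℝ) (c : Fin M → ℝ) :
    Setup (uD n ρ) Kp K0 (|r| * ρ) (fun _ : Fin M => ψ) (fun a _ => c a) (tc r ρ) := by
  have := isProb_uSph hn
  refine ⟨inferInstance, ⟨?_⟩, fun _ => hp, fun _ x => (le_abs_self _).trans (hK0 x),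
    fun _ => measurable_const, measurable_tc r ρ, by positivity, fun j w => abs_tc_le hρ j w⟩
  intro h
  apply hD
  have := congrArg (fun m => m univ) h
  simpa [Measure.restrict_apply_univ] using this

/-- Lindeberg error -/
noncomputable def errL (Kp : ℝ) (M n : ℕ) (r ρ : ℝ) : ℝ :=
  M * n * (52 * Crest.Agent.R146.LindA_846.cK Kp ^ 4 * (|r| * ρ) ^ 4 * Crest.Agent.R146.LindD_846.m4c)

/-- Lindeberg on the rest -/
theorem lind_rest (hn : 0 < n) {ρ : ℝ} (hD : uSph n (DD n ρ) ≠ 0) (hρ : 0 ≤ ρ)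
    (hp : Crest.Agent.R146.LindA_846.IsPot Kp ψ) (hK0 : ∀ x, |ψ x| ≤ K0) (r : ℝ) (c : Fin M → ℝ) {ε : ℝ}
    (h0 : 0 ≤ ε) (h1 : ε ≤ 1) :
    ∫ G, Fc (uD n ρ) ψ r c G ∂(Measure.pi fun _ : Fin M × Fin n => mixtureLaw ε) ≤
      ∫ G, Fc (uD n ρ) ψ r c G ∂(Measure.pi fun _ : Fin M × Fin n => gaussianReal 0 1) +
        errL Kp M n r ρ := by
  have h := Crest.Agent.R146.LindD_846.lindeberg_mix (setup hn hD hρ hp hK0 r c) h0 h1
  simp only [← Fc_eq_logZ, Fintype.card_fin] at h
  have := (abs_le.1 h).2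
  unfold errL
  linarith

/-- the row functions -/
noncomputable def fr (ψ : ℝ → ℝ) (r : ℝ) (c : Fin M → ℝ) (a : ℕ) (x : ℝ) : ℝ :=
  ψ ((if h : a < M then c ⟨a, h⟩ else 0) + r * x)

omit [Fintype κ] in
theorem fr_coe (r : ℝ) (c : Fin M → ℝ) (a : Fin M) :
    fr ψ r c (a : ℕ) = fun x => ψ (c a + r * x) := by
  funext x
  unfold fr
  rw [dif_pos a.2]

theorem fr_BL (hK0 : ∀ x, |ψ x| ≤ K0) {L : ℝ} (hL0 : 0 ≤ L)
    (hL : ∀ x y, |ψ x - ψ y| ≤ L * |x - y|) {r : ℝ} (hr : |r| ≤ 1) (c : Fin M → ℝ) (a : ℕ) :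
    BL K0 L (fr ψ r c a) := by
  refine ⟨fun x => hK0 _, fun x y => ?_⟩
  unfold fr
  refine (hL _ _).trans (mul_le_mul_of_nonneg_left ?_ hL0)
  rw [show ∀ z : ℝ, z + r * x - (z + r * y) = r * (x - y) by intro z; ring, abs_mul]
  calc |r| * |x - y| ≤ 1 * |x - y| := mul_le_mul_of_nonneg_right hr (abs_nonneg _)
    _ = |x - y| := one_mul _

theorem integral_gauss_Fc (hn : 0 < n) (r : ℝ) (c : Fin M → ℝ) :
    ∫ G, Fc (uSph n) ψ r c G ∂(Measure.pi fun _ : Fin M × Fin n => gaussianReal 0 1) =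
      n * pN n (fr ψ r c) M := by
  have hn' : (n : ℝ) ≠ 0 := by exact_mod_cast hn.ne'
  rw [Crest.Agent.R146.S6Lit_663.pN_eq, ← mul_assoc, mul_inv_cancel₀ hn', one_mul]
  refine integral_congr_ae (Eventually.of_forall fun G => ?_)
  simp only [Fc_uSph, fr_coe]

theorem abs_Fc_le (hψ : Measurable ψ) (hK0 : ∀ x, |ψ x| ≤ K0) (ρm : Measure (UnitSphere n))
    [IsFiniteMeasure ρm] (hρm : 0 < ρm.real univ) (r : ℝ) (c : Fin M → ℝ) (G : Fin M × Fin n → ℝ) :
    |Fc ρm ψ r c G| ≤ M * K0 + |Real.log (ρm.real univ)| := by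
  have hi := integrable_Fc_exp hψ hK0 ρm r c G
  have h1 := integral_mono (integrable_const _) hi fun w =>
    Real.exp_le_exp.2 (neg_le_of_abs_le (Fc_sum_le hK0 r c G w))
  have h2 := integral_mono hi (integrable_const _) fun w =>
    Real.exp_le_exp.2 (le_of_abs_le (Fc_sum_le hK0 r c G w))
  rw [integral_const, smul_eq_mul] at h1 h2
  have hpos : 0 < ∫ w, Real.exp (∑ a, ψ (c a + r * ∑ j, G (a, j) * crd n w j)) ∂ρm :=
    lt_of_lt_of_le (mul_pos hρm (Real.exp_pos _)) h1
  have e1 := Real.log_le_log (mul_pos hρm (Real.exp_pos _)) h1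
  have e2 := Real.log_le_log hpos h2
  rw [Real.log_mul hρm.ne' (Real.exp_pos _).ne', Real.log_exp] at e1 e2
  unfold Fc
  rw [abs_le]
  have a1 := neg_abs_le (Real.log (ρm.real univ))
  have a2 := le_abs_self (Real.log (ρm.real univ))
  constructor <;> linarith

/-- joint measurability -/
theorem measurable_Fc (hψ : Measurable ψ) (ρm : Measure (UnitSphere n)) [IsFiniteMeasure ρm]
    (r : ℝ) : Measurable fun p : (Fin M → ℝ) × (Fin M × Fin n → ℝ) => Fc ρm ψ r p.1 p.2 := by
  unfold Fc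
  refine Real.measurable_log.comp ?_
  have h : Measurable fun p : ((Fin M → ℝ) × (Fin M × Fin n → ℝ)) × UnitSphere n =>
      Real.exp (∑ a, ψ (p.1.1 a + r * ∑ j, p.1.2 (a, j) * crd n p.2 j)) := by
    refine Real.measurable_exp.comp (Finset.measurable_fun_sum _ fun a _ => hψ.comp ?_)
    refine ((measurable_pi_apply a).comp (measurable_fst.comp measurable_fst)).add
      ((Finset.measurable_fun_sum _ fun j _ => ?_).const_mul r)
    exact ((measurable_pi_apply (a, j)).comp (measurable_snd.comp measurable_fst)).mul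
      ((measurable_pi_apply j).comp ((measurable_crd n).comp measurable_snd))
  exact (h.stronglyMeasurable.integral_prod_right' (ν := ρm)).measurable

theorem integrable_Fc (hψ : Measurable ψ) (hK0 : ∀ x, |ψ x| ≤ K0) (ρm : Measure (UnitSphere n))
    [IsFiniteMeasure ρm] (hρm : 0 < ρm.real univ) (r : ℝ) (c : Fin M → ℝ)
    (Q : Measure (Fin M × Fin n → ℝ)) [IsFiniteMeasure Q] : Integrable (Fc ρm ψ r c) Q := by
  refine Integrable.of_bound (C := M * K0 + |Real.log (ρm.real univ)|) ?_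
    (Eventually.of_forall fun G => abs_Fc_le hψ hK0 ρm hρm r c G)
  exact ((measurable_Fc hψ ρm r).comp (measurable_const.prodMk measurable_id)).aestronglyMeasurable

theorem uD_real_pos (hn : 0 < n) {ρ : ℝ} (hD : uSph n (DD n ρ) ≠ 0) : 0 < (uD n ρ).real univ := by
  have := isProb_uSph hn
  rw [Measure.real, Measure.restrict_apply_univ]
  exact ENNReal.toReal_pos hD (measure_ne_top _ _)

/-- **fixed shifts** -/
theorem fixedX (hn : 0 < n) {ρ : ℝ} (hD : uSph n (DD n ρ) ≠ 0) (hρ : 0 ≤ ρ)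
    (hp : Crest.Agent.R146.LindA_846.IsPot Kp ψ) (hψ : Measurable ψ) (hK0 : ∀ x, |ψ x| ≤ K0)
    {L : ℝ} (hL0 : 0 ≤ L) (hL : ∀ x y, |ψ x - ψ y| ≤ L * |x - y|) {r : ℝ} (hr : |r| ≤ 1)
    {J : ℕ} {Q : ℕ → ℝ} {ε' : ℝ}
    (hUB : ∀ f : ℕ → ℝ → ℝ, (∀ a, BL K0 L (f a)) →
      pN n f M ≤ (n : ℝ)⁻¹ * ∑ a ∈ Finset.range M, Th J (f a) Q + SP J Q + ε')
    (c : Fin M → ℝ) {ε : ℝ} (h0 : 0 ≤ ε) (h1 : ε ≤ 1) :
    ∫ G, Fc (uD n ρ) ψ r c G ∂(Measure.pi fun _ : Fin M × Fin n => mixtureLaw ε) ≤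
      ∑ a : Fin M, Th J (fun x => ψ (c a + r * x)) Q + n * (SP J Q + ε') + errL Kp M n r ρ := by
  have hn' : (n : ℝ) ≠ 0 := by exact_mod_cast hn.ne'
  have hn0 : (0 : ℝ) < n := by exact_mod_cast hn
  have := isProb_uSph hn
  have e1 := lind_rest hn hD hρ hp hK0 r c h0 h1
  have e2 : ∫ G, Fc (uD n ρ) ψ r c G ∂(Measure.pi fun _ : Fin M × Fin n => gaussianReal 0 1) ≤
      ∫ G, Fc (uSph n) ψ r c G ∂(Measure.pi fun _ : Fin M × Fin n => gaussianReal 0 1) :=
    integral_mono (integrable_Fc hψ hK0 _ (uD_real_pos hn hD) r c _)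
      (integrable_Fc hψ hK0 _ (by rw [probReal_univ]; exact one_pos) r c _)
      fun G => Fc_restrict_le hn hψ hK0 hD r c G
  rw [integral_gauss_Fc hn] at e2
  have e3 := hUB (fr ψ r c) (fr_BL hK0 hL0 hL hr c)
  have e4 : (n : ℝ) * pN n (fr ψ r c) M ≤
      ∑ a : Fin M, Th J (fun x => ψ (c a + r * x)) Q + n * (SP J Q + ε') := by
    have := mul_le_mul_of_nonneg_left e3 hn0.le
    refine this.trans (le_of_eq ?_)
    rw [mul_add, mul_add, ← mul_assoc, mul_inv_cancel₀ hn', one_mul, Finset.sum_range]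
    simp only [fr_coe]
    ring
  linarith

/-- **averaged over the localised coordinates** -/
theorem avgX (hn : 0 < n) {ρ : ℝ} (hD : uSph n (DD n ρ) ≠ 0) (hρ : 0 ≤ ρ)
    (hp : Crest.Agent.R146.LindA_846.IsPot Kp ψ) (hψ : Measurable ψ) (hK0 : ∀ x, |ψ x| ≤ K0)
    {L : ℝ} (hL0 : 0 ≤ L) (hL : ∀ x y, |ψ x - ψ y| ≤ L * |x - y|) {r : ℝ} (hr : |r| ≤ 1)
    {J : ℕ} {Q : ℕ → ℝ} {ε' : ℝ}
    (hUB : ∀ f : ℕ → ℝ → ℝ, (∀ a, BL K0 L (f a)) →
      pN n f M ≤ (n : ℝ)⁻¹ * ∑ a ∈ Finset.range M, Th J (f a) Q + SP J Q + ε')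
    {F : ℝ → ℝ} {KF : ℝ} (hF : BC F KF) (hFT : ∀ c, Th J (fun x => ψ (c + r * x)) Q = F c)
    (u : κ → ℝ) {ε : ℝ} (h0 : 0 ≤ ε) (h1 : ε ≤ 1) :
    ∫ X, (∫ G, Fc (uD n ρ) ψ r (cL u X) G ∂(Measure.pi fun _ : Fin M × Fin n => mixtureLaw ε))
        ∂(Measure.pi fun _ : Fin M × κ => mixtureLaw ε) ≤
      M * (∫ x, Th J (fun z => ψ (∑ i, u i * x i + r * z)) Q
        ∂(Measure.pi fun _ : κ => mixtureLaw ε)) + n * (SP J Q + ε') + errL Kp M n r ρ := by
  have := isProb_uSph hn
  have : IsProbabilityMeasure (mixtureLaw ε) := isProb_mixtureLaw ε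
  have hcm : Measurable fun X : Fin M × κ → ℝ => cL u X := by
    refine measurable_pi_lambda _ fun a => ?_
    unfold cL
    exact Finset.measurable_fun_sum _ fun i _ => (measurable_pi_apply (a, i)).const_mul _
  have hFm : ∀ a : Fin M, Measurable fun X : Fin M × κ → ℝ => F (cL u X a) := fun a =>
    hF.cont.measurable.comp ((measurable_pi_apply a).comp hcm)
  have hFi : ∀ a : Fin M, Integrable (fun X : Fin M × κ → ℝ => F (cL u X a))
      (Measure.pi fun _ : Fin M × κ => mixtureLaw ε) := fun a =>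
    Integrable.of_bound (hFm a).aestronglyMeasurable KF (Eventually.of_forall fun X => hF.bd _)
  have hpt : ∀ X : Fin M × κ → ℝ,
      ∫ G, Fc (uD n ρ) ψ r (cL u X) G ∂(Measure.pi fun _ : Fin M × Fin n => mixtureLaw ε) ≤
        ∑ a : Fin M, F (cL u X a) + (n * (SP J Q + ε') + errL Kp M n r ρ) := by
    intro X
    have := fixedX hn hD hρ hp hψ hK0 hL0 hL hr hUB (cL u X) h0 h1
    simp only [hFT] at this
    linarith
  have hmeas : Measurable fun X : Fin M × κ → ℝ =>
      ∫ G, Fc (uD n ρ) ψ r (cL u X) G ∂(Measure.pi fun _ : Fin M × Fin n => mixtureLaw ε) := by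
    have h : Measurable fun p : (Fin M × κ → ℝ) × (Fin M × Fin n → ℝ) =>
        Fc (uD n ρ) ψ r (cL u p.1) p.2 :=
      (measurable_Fc hψ (uD n ρ) r).comp ((hcm.comp measurable_fst).prodMk measurable_snd)
    exact (h.stronglyMeasurable.integral_prod_right'
      (ν := Measure.pi fun _ : Fin M × Fin n => mixtureLaw ε)).measurable
  have hint : Integrable (fun X : Fin M × κ → ℝ =>
      ∫ G, Fc (uD n ρ) ψ r (cL u X) G ∂(Measure.pi fun _ : Fin M × Fin n => mixtureLaw ε))
      (Measure.pi fun _ : Fin M × κ => mixtureLaw ε) := by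
    refine Integrable.of_bound hmeas.aestronglyMeasurable
      (M * K0 + |Real.log ((uD n ρ).real univ)|) (Eventually.of_forall fun X => ?_)
    have h := norm_integral_le_of_norm_le_const
      (μ := Measure.pi fun _ : Fin M × Fin n => mixtureLaw ε)
      (f := fun G => Fc (uD n ρ) ψ r (cL u X) G) (C := M * K0 + |Real.log ((uD n ρ).real univ)|)
      (Eventually.of_forall fun G => abs_Fc_le hψ hK0 _ (uD_real_pos hn hD) r (cL u X) G)
    rwa [probReal_univ (μ := Measure.pi fun _ : Fin M × Fin n => mixtureLaw ε), mul_one] at h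
  have hsum : Integrable (fun X : Fin M × κ → ℝ => ∑ a : Fin M, F (cL u X a))
      (Measure.pi fun _ : Fin M × κ => mixtureLaw ε) := integrable_finsetSum _ fun a _ => hFi a
  refine (integral_mono hint (hsum.add (integrable_const _)) hpt).trans (le_of_eq ?_)
  rw [integral_add' hsum (integrable_const _), integral_const, probReal_univ, one_smul,
    integral_finsetSum _ fun a _ => hFi a]
  have hone : ∀ a : Fin M, ∫ X, F (cL u X a) ∂(Measure.pi fun _ : Fin M × κ => mixtureLaw ε) =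
      ∫ x, F (∑ i, u i * x i) ∂(Measure.pi fun _ : κ => mixtureLaw ε) := by
    intro a
    have h := Crest.Agent.R141.U.integral_curry (ι := Fin M) (κ := κ) (mixtureLaw ε)
      (fun y => F (∑ i, u i * y a i))
    have h2 : ∫ X, F (cL u X a) ∂(Measure.pi fun _ : Fin M × κ => mixtureLaw ε) =
        ∫ y, F (∑ i, u i * y a i)
          ∂(Measure.pi fun _ : Fin M => Measure.pi fun _ : κ => mixtureLaw ε) := h.symm
    rw [h2]
    have hm : Measurable fun x : κ → ℝ => F (∑ i, u i * x i) :=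
      hF.cont.measurable.comp (Finset.measurable_fun_sum _ fun i _ =>
        (measurable_pi_apply i).const_mul _)
    exact integral_comp_eval (μ := fun _ : Fin M => Measure.pi fun _ : κ => mixtureLaw ε)
      (i := a) hm.aestronglyMeasurable
  simp only [hone, hFT, Finset.sum_const, Finset.card_univ, Fintype.card_fin, nsmul_eq_mul]
  ring

end fixed

/-! ### asymptotic form -/

theorem Test.isPot {ψ : ℝ → ℝ} (h : Test ψ) : ∃ Kp, Crest.Agent.R146.LindA_846.IsPot Kp ψ := by
  obtain ⟨C1, h1⟩ := h.bd 1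
  obtain ⟨C2, h2⟩ := h.bd 2
  obtain ⟨C3, h3⟩ := h.bd 3
  obtain ⟨C4, h4⟩ := h.bd 4
  refine ⟨max (max C1 C2) (max C3 C4), Crest.Agent.R146.LindA_846.IsPot.of_contDiff (h.smooth 4) ?_⟩
  intro k hk1 hk4 x
  interval_cases k
  · exact (h1 x).trans ((le_max_left _ _).trans (le_max_left _ _))
  · exact (h2 x).trans ((le_max_right _ _).trans (le_max_left _ _))
  · exact (h3 x).trans ((le_max_left _ _).trans (le_max_right _ _))
  · exact (h4 x).trans ((le_max_right _ _).trans (le_max_right _ _))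

/-- the value of the rest as a function of the shift -/
theorem Th_rest_BC {J : ℕ} {P : ℕ → ℝ} {μ : ℝ} (hμ0 : 0 ≤ μ) (hμ1 : μ < 1) {ψ : ℝ → ℝ} {K : ℝ}
    (hψ : BC ψ K) : ∃ F : ℝ → ℝ, BC F K ∧
      ∀ c, Th J (fun x => ψ (c + Real.sqrt (1 - μ) * x)) (Pr μ P) = F c :=
  ⟨_, recV_BC hψ _ _ _ (ex_nonneg J) _, fun c => Th_rest hμ0 hμ1 ψ c⟩

/-- **(L1)** the upper bound for one fixed localised part, uniformly in it. -/
theorem L1_asym (hUB : Crest.Agent.R146.S6U_988.UB) {ψ : ℝ → ℝ} (hψ : Test ψ) (αm : ℝ) {δ : ℝ}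
    (hδ : 0 < δ) : ∃ J0 : ℕ, ∀ J, J0 ≤ J → ∀ P : ℕ → ℝ, Lev J P → P J < 1 → ∀ μ : ℝ, 0 ≤ μ → μ < 1 →
    ∃ n0 : ℕ, ∃ η : ℝ, 0 < η ∧ ∀ n, n0 ≤ n → ∀ M : ℕ, (M : ℝ) ≤ αm * n → ∀ ρ : ℝ, 0 ≤ ρ →
      n * ρ ^ 4 ≤ η → uSph n (DD n ρ) ≠ 0 → ∀ (κ : Type) [Fintype κ] (u : κ → ℝ) (ε : ℝ), 0 ≤ ε →
      ε ≤ 1 →
      ∫ X, (∫ G, Fc (uD n ρ) ψ (Real.sqrt (1 - μ)) (cL u X) G
          ∂(Measure.pi fun _ : Fin M × Fin n => mixtureLaw ε))
          ∂(Measure.pi fun _ : Fin M × κ => mixtureLaw ε) ≤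
        M * (∫ x, Th J (fun z => ψ (∑ i, u i * x i + Real.sqrt (1 - μ) * z)) (Pr μ P)
          ∂(Measure.pi fun _ : κ => mixtureLaw ε)) + n * (SP J (Pr μ P) + δ) := by
  obtain ⟨K, hK⟩ := Test_bdd hψ
  obtain ⟨L, hL0, hL⟩ := Test_lip hψ
  obtain ⟨Kp, hKp⟩ := Test.isPot hψ
  obtain ⟨J0, hJ0⟩ := hUB K L αm (δ / 2) (half_pos hδ)
  refine ⟨J0, fun J hJ P hP hP1 μ hμ0 hμ1 => ?_⟩
  obtain ⟨N0, hN0⟩ := hJ0 J hJ (Pr μ P) (lev_Pr hP hμ1 hμ0) (Pr_lt_one hP1 hμ1)
  have hm4 : 0 ≤ Crest.Agent.R146.LindD_846.m4c := by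
    unfold Crest.Agent.R146.LindD_846.m4c; positivity
  set C0 : ℝ := 52 * Crest.Agent.R146.LindA_846.cK Kp ^ 4 * Crest.Agent.R146.LindD_846.m4c with hC0
  have hC00 : 0 ≤ C0 := by positivity
  refine ⟨max N0 1, δ / (2 * (|αm| * C0 + 1)), by positivity, ?_⟩
  intro n hn M hM ρ hρ hρη hD κ _ u ε h0 h1
  have hn1 : 0 < n := lt_of_lt_of_le one_pos ((le_max_right _ _).trans hn)
  have hn0 : (0 : ℝ) < n := by exact_mod_cast hn1
  obtain ⟨F, hF, hFT⟩ := Th_rest_BC (J := J) (P := P) hμ0 hμ1 (ψ := ψ) (K := K) ⟨Test_cont hψ, hK⟩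
  have hr : |Real.sqrt (1 - μ)| ≤ 1 := by
    rw [abs_of_nonneg (Real.sqrt_nonneg _)]
    exact Real.sqrt_le_one.2 (by linarith)
  have key := avgX hn1 hD hρ hKp (Test_cont hψ).measurable hK hL0 hL hr
    (fun f hf => hN0 n ((le_max_left _ _).trans hn) M hM f hf) hF hFT u h0 h1
  have herr : errL Kp M n (Real.sqrt (1 - μ)) ρ ≤ n * (δ / 2) := by
    unfold errL
    have hr4 : (|Real.sqrt (1 - μ)| * ρ) ^ 4 ≤ ρ ^ 4 := by
      refine pow_le_pow_left₀ (by positivity) ?_ 4
      calc |Real.sqrt (1 - μ)| * ρ ≤ 1 * ρ := mul_le_mul_of_nonneg_right hr hρ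
        _ = ρ := one_mul _
    have hM2 : (M : ℝ) ≤ |αm| * n := hM.trans (mul_le_mul_of_nonneg_right (le_abs_self _) hn0.le)
    have hρ4 : 0 ≤ ρ ^ 4 := by positivity
    have s1 : (M : ℝ) * n * (52 * Crest.Agent.R146.LindA_846.cK Kp ^ 4 *
        (|Real.sqrt (1 - μ)| * ρ) ^ 4 * Crest.Agent.R146.LindD_846.m4c) ≤
        (|αm| * n) * n * (C0 * ρ ^ 4) := by
      have t1 : 52 * Crest.Agent.R146.LindA_846.cK Kp ^ 4 *
        (|Real.sqrt (1 - μ)| * ρ) ^ 4 * Crest.Agent.R146.LindD_846.m4c ≤ C0 * ρ ^ 4 := by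
        rw [hC0]
        nlinarith [mul_le_mul_of_nonneg_left hr4 hC00]
      exact mul_le_mul (mul_le_mul_of_nonneg_right hM2 hn0.le) t1 (by positivity) (by positivity)
    refine s1.trans ?_
    have hden : 0 < |αm| * C0 + 1 := by positivity
    have s2 : |αm| * C0 * (n * ρ ^ 4) ≤ |αm| * C0 * (δ / (2 * (|αm| * C0 + 1))) :=
      mul_le_mul_of_nonneg_left hρη (by positivity)
    have s3 : |αm| * C0 * (δ / (2 * (|αm| * C0 + 1))) ≤ δ / 2 := by
      rw [mul_div_assoc', div_le_div_iff₀ (by positivity) (by norm_num)]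
      nlinarith [hden, hδ]
    nlinarith [mul_le_mul_of_nonneg_left (s2.trans s3) hn0.le]
  have : (n : ℝ) * (SP J (Pr μ P) + δ) = n * (SP J (Pr μ P) + δ / 2) + n * (δ / 2) := by ring
  linarith

/-- **(LOW)** one fixed localised part, with the deterministic inequality `low_ineq`. -/
theorem low_bound (hUB : Crest.Agent.R146.S6U_988.UB) {ψ : ℝ → ℝ} (hψ : Test ψ) {b0 : ℝ}
    (hb0 : 0 ≤ b0) (hlo : MidLo b0 ψ) (hhi : MidHi (1 / 2) ψ) {α : ℝ} (hα : 0 < α) {δ : ℝ}
    (hδ : 0 < δ) : ∃ J0 : ℕ, ∀ J, J0 ≤ J → ∀ P : ℕ → ℝ, Lev J P → P J < 1 → ∀ μ : ℝ, 0 ≤ μ → μ < 1 →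
    ∃ N0 : ℕ, ∃ η : ℝ, 0 < η ∧ ∀ N, N0 ≤ N → ∀ n, N ≤ 2 * n → n ≤ N → ∀ ρ : ℝ, 0 ≤ ρ →
      N * ρ ^ 4 ≤ η → uSph n (DD n ρ) ≠ 0 → ∀ (κ : Type) [Fintype κ] (u : κ → ℝ),
      ∑ i, u i ^ 2 = μ → ∀ ε : ℝ, 0 ≤ ε → ε ≤ 1 → α * ε ≤ 1 - μ →
      ∫ X, (∫ G, Fc (uD n ρ) ψ (Real.sqrt (1 - μ)) (cL u X) G
          ∂(Measure.pi fun _ : Fin (numPatterns N α) × Fin n => mixtureLaw ε))
          ∂(Measure.pi fun _ : Fin (numPatterns N α) × κ => mixtureLaw ε) ≤
        N * (α * Th J ψ P + SP J P - 1 / 2 * Real.log (1 - μ) + δ) := by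
  obtain ⟨K, hK⟩ := Test_bdd hψ
  have hK0 : 0 ≤ K := (abs_nonneg _).trans (hK 0)
  obtain ⟨J0, hJ0⟩ := L1_asym hUB hψ (2 * α) (half_pos hδ)
  refine ⟨J0, fun J hJ P hP hP1 μ hμ0 hμ1 => ?_⟩
  obtain ⟨n0, η, hη, hn0⟩ := hJ0 J hJ P hP hP1 μ hμ0 hμ1
  obtain ⟨N1, hN1⟩ := exists_nat_gt (2 * K / δ)
  refine ⟨max (2 * n0) (max N1 1), η, hη, ?_⟩
  intro N hN n hn1 hn2 ρ hρ hρη hD κ _ u hu ε h0 h1 hαε
  have hN1' : 1 ≤ N := (le_max_right _ _).trans ((le_max_right _ _).trans hN)
  have hNpos : (0 : ℝ) < N := by exact_mod_cast hN1'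
  have hnN : (n : ℝ) ≤ N := by exact_mod_cast hn2
  have hNn : (N : ℝ) ≤ 2 * n := by exact_mod_cast hn1
  have hM : (numPatterns N α : ℝ) ≤ α * N := Nat.floor_le (by positivity)
  have hM2 : α * N < (numPatterns N α : ℝ) + 1 := Nat.lt_floor_add_one _
  have hn0n : n0 ≤ n := by
    have : 2 * n0 ≤ N := (le_max_left _ _).trans hN
    omega
  have key := hn0 n hn0n (numPatterns N α) (by nlinarith) ρ hρ
    (le_trans (mul_le_mul_of_nonneg_right hnN (by positivity)) hρη) hD κ u ε h0 h1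
  have hlow := low_ineq hP hP1 (ψ := ψ) (K := K) (b := b0) (κ := 1 / 2) ⟨Test_cont hψ, hK⟩ hb0 hlo
    (by norm_num) le_rfl hhi u hu hμ1 hα.le h0 h1 hαε
  set T : ℝ := ∫ x, Th J (fun z => ψ (∑ i, u i * x i + Real.sqrt (1 - μ) * z)) (Pr μ P)
    ∂(Measure.pi fun _ : κ => mixtureLaw ε) with hT
  have hTK : |T| ≤ K := by
    obtain ⟨F, hF, hFT⟩ := Th_rest_BC (J := J) (P := P) hμ0 hμ1 (ψ := ψ) (K := K)
      ⟨Test_cont hψ, hK⟩
    have : IsProbabilityMeasure (mixtureLaw ε) := isProb_mixtureLaw ε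
    rw [hT]
    simp only [hFT]
    have h := norm_integral_le_of_norm_le_const (μ := Measure.pi fun _ : κ => mixtureLaw ε)
      (f := fun x => F (∑ i, u i * x i)) (C := K) (Eventually.of_forall fun x => hF.bd _)
    rwa [probReal_univ, mul_one] at h
  have hS0 : 0 ≤ SP J (Pr μ P) :=
    Crest.Agent.R146.Wrap_947.SP_nonneg (lev_Pr hP hμ1 hμ0) (Pr_lt_one hP1 hμ1)
  have e1 : (numPatterns N α : ℝ) * T ≤ α * N * T + K := by
    have h3 : -( (α * N - numPatterns N α) * T) ≤ K := by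
      have h4 : |(α * N - numPatterns N α) * T| ≤ 1 * K := by
        rw [abs_mul]
        refine mul_le_mul ?_ hTK (abs_nonneg _) zero_le_one
        rw [abs_of_nonneg (by linarith)]
        linarith
      have := neg_abs_le ((α * N - numPatterns N α) * T)
      linarith
    nlinarith
  have e2 : (n : ℝ) * (SP J (Pr μ P) + δ / 2) ≤ N * (SP J (Pr μ P) + δ / 2) :=
    mul_le_mul_of_nonneg_right hnN (by linarith)
  have e3 : K ≤ N * (δ / 2) := by
    have : (N1 : ℝ) ≤ N := by
      exact_mod_cast (le_max_left _ _).trans ((le_max_right _ _).trans hN)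
    have h5 : 2 * K / δ < N := lt_of_lt_of_le hN1 this
    rw [div_lt_iff₀ hδ] at h5
    linarith
  have e4 := mul_le_mul_of_nonneg_left hlow hNpos.le
  nlinarith

end Crest.Agent.R146L878
end

-- ▼ part R146/LocMean_878
section

/-!
Row 146, node LOCCORE, helper878: `XMEAN` of `LocXR_508` from `UB`.
-/

set_option autoImplicit false

open MeasureTheory ProbabilityTheory Set Filter
open scoped Topology

namespace Crest.Agent.R146L878

open Crest.Agent.R146.LocRec_508 Crest.Agent.R146.LocDet_508 Crest.Agent.R146.P34_734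
open Crest.Agent.R146.S6Def_988
open Crest.Agent.R146.PressC_663 (uSph crd measurable_crd isProb_uSph)
open Crest.Agent.R146.LocXR_508
open Crest.ProbabilityR.Perceptron



variable {n M : ℕ}

theorem XR_eq (ψ : ℝ → ℝ) (μ κ : ℝ) (c : Fin M → ℝ) (A : Fin M × Fin n → ℝ) :
    XR ψ μ κ c A = Fc (uD n κ) ψ (Real.sqrt (1 - μ)) c A := rfl

theorem XF_eq (ψ : ℝ → ℝ) (μ κ : ℝ) {I : Type} [Fintype I] (u : I → ℝ)
    (A : Fin M × (I ⊕ Fin n) → ℝ) :
    XF ψ μ κ u A = Fc (uD n κ) ψ (Real.sqrt (1 - μ))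
      (cL u fun q : Fin M × I => A (q.1, Sum.inl q.2))
      (fun q : Fin M × Fin n => A (q.1, Sum.inr q.2)) := by
  unfold XF
  rw [XR_eq]
  congr 1
  funext a
  unfold cL
  exact Finset.sum_congr rfl fun i _ => mul_comm _ _

theorem measurable_cL {I : Type} [Fintype I] (u : I → ℝ) :
    Measurable fun X : Fin M × I → ℝ => cL u X := by
  refine measurable_pi_lambda _ fun a => ?_
  unfold cL
  exact Finset.measurable_fun_sum _ fun i _ => (measurable_pi_apply (a, i)).const_mul _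

/-- the mean of `XF` as an iterated integral -/
theorem integral_XF (hn : 0 < n) {ψ : ℝ → ℝ} (hψ : Measurable ψ) {K0 : ℝ} (hK0 : ∀ x, |ψ x| ≤ K0)
    (μ κ : ℝ) (hD : uSph n (DD n κ) ≠ 0) {I : Type} [Fintype I] (u : I → ℝ) (ν : Measure ℝ)
    [IsProbabilityMeasure ν] :
    ∫ A, XF ψ μ κ u A ∂(Measure.pi fun _ : Fin M × (I ⊕ Fin n) => ν) =
      ∫ X, (∫ G, Fc (uD n κ) ψ (Real.sqrt (1 - μ)) (cL u X) G
        ∂(Measure.pi fun _ : Fin M × Fin n => ν)) ∂(Measure.pi fun _ : Fin M × I => ν) := by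
  have := isProb_uSph hn
  set E := (Equiv.prodSumDistrib (Fin M) I (Fin n)).symm with hE
  have hmp := Crest.Agent.R146.LocSph_508.mp_split E ν
  set H : (Fin M × I → ℝ) × (Fin M × Fin n → ℝ) → ℝ := fun p =>
    Fc (uD n κ) ψ (Real.sqrt (1 - μ)) (cL u p.1) p.2 with hH
  have hHm : Measurable H :=
    (measurable_Fc hψ (uD n κ) (Real.sqrt (1 - μ))).comp
      (((measurable_cL u).comp measurable_fst).prodMk measurable_snd)
  have hHi : Integrable H ((Measure.pi fun _ : Fin M × I => ν).prod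
      (Measure.pi fun _ : Fin M × Fin n => ν)) :=
    Integrable.of_bound hHm.aestronglyMeasurable (M * K0 + |Real.log ((uD n κ).real univ)|)
      (Eventually.of_forall fun p => abs_Fc_le hψ hK0 _ (uD_real_pos hn hD) _ _ _)
  have e1 : ∫ A, XF ψ μ κ u A ∂(Measure.pi fun _ : Fin M × (I ⊕ Fin n) => ν) =
      ∫ p, H p ∂((Measure.pi fun _ : Fin M × I => ν).prod
        (Measure.pi fun _ : Fin M × Fin n => ν)) := by
    rw [← hmp.map_eq, integral_map hmp.measurable.aemeasurable (by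
      rw [hmp.map_eq]; exact hHm.aestronglyMeasurable)]
    refine integral_congr_ae (Eventually.of_forall fun A => ?_)
    simp only [XF_eq, hH]
    rfl
  rw [e1, integral_prod _ hHi]


end Crest.Agent.R146L878
end

-- ▼ part R146/LocLow_878
section

/-!
Row 146, node LOCCORE, helper878: `low_bound` in terms of `XF` (helper508's `LocXR_508`).
-/

set_option autoImplicit false

open MeasureTheory ProbabilityTheory Set Filter
open scoped Topology

namespace Crest.Agent.R146L878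

open Crest.Agent.R146.LocRec_508 Crest.Agent.R146.LocDet_508 Crest.Agent.R146.P34_734
open Crest.Agent.R146.S6Def_988
open Crest.Agent.R146.PressC_663 (uSph isProb_uSph)
open Crest.Agent.R146.LocXR_508
open Crest.ProbabilityR.Perceptron

/-- **(LOW)** mean of `XF` for one block, with `low_ineq` absorbed. -/
theorem low_boundXF (hUB : Crest.Agent.R146.S6U_988.UB) {ψ : ℝ → ℝ} (hψ : Test ψ) {b0 : ℝ}
    (hb0 : 0 ≤ b0) (hlo : MidLo b0 ψ) (hhi : MidHi (1 / 2) ψ) {α : ℝ} (hα : 0 < α) {δ : ℝ}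
    (hδ : 0 < δ) : ∃ J0 : ℕ, ∀ J, J0 ≤ J → ∀ P : ℕ → ℝ, Lev J P → P J < 1 → ∀ μ : ℝ, 0 ≤ μ → μ < 1 →
    ∃ (N0 : ℕ) (η : ℝ), 0 < η ∧ ∀ N, N0 ≤ N → ∀ n, N ≤ 2 * n → n ≤ N → ∀ κ : ℝ, 0 ≤ κ →
      N * κ ^ 4 ≤ η → 0 < (Crest.Agent.R146.Sph_409.uS n).real (DD n κ) →
      ∀ (I : Type) [Fintype I] (u : I → ℝ), ∑ i, u i ^ 2 = μ → ∀ ε : ℝ, 0 ≤ ε → ε ≤ 1 →
      α * ε ≤ 1 - μ →
      ∫ A, XF ψ μ κ u A
          ∂(Measure.pi fun _ : Fin (numPatterns N α) × (I ⊕ Fin n) => mixtureLaw ε) ≤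
        N * (α * Th J ψ P + SP J P - 1 / 2 * Real.log (1 - μ) + δ) := by
  obtain ⟨K, hK⟩ := Test_bdd hψ
  obtain ⟨J0, hJ0⟩ := low_bound hUB hψ hb0 hlo hhi hα hδ
  refine ⟨J0, fun J hJ P hP hP1 μ hμ0 hμ1 => ?_⟩
  obtain ⟨N0, η, hη, h⟩ := hJ0 J hJ P hP hP1 μ hμ0 hμ1
  refine ⟨max N0 1, η, hη, ?_⟩
  intro N hN n hn1 hn2 κ hκ hκη hDpos I _ u hu ε h0 h1 hαε
  have hNpos : 1 ≤ N := (le_max_right _ _).trans hN
  have hn : 0 < n := by omega
  have hD : uSph n (DD n κ) ≠ 0 := by
    intro hz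
    have h2 : (uSph n).real (DD n κ) = 0 := by rw [Measure.real, hz]; rfl
    have h3 : (0 : ℝ) < (uSph n).real (DD n κ) := hDpos
    linarith
  have : IsProbabilityMeasure (mixtureLaw ε) := isProb_mixtureLaw ε
  rw [integral_XF (M := numPatterns N α) hn (Test_cont hψ).measurable hK μ κ hD u (mixtureLaw ε)]
  exact h N ((le_max_left _ _).trans hN) n hn1 hn2 κ hκ hκη hD I u hu ε h0 h1 hαε

end Crest.Agent.R146L878
end

-- ▼ part R146/McD_840
section

/-!
# McDiarmid's inequality on a finite power of a probability space (helper840)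

`mcdiarmid_subG` : a bounded measurable function with differences at most `c` in every coordinate is
sub-Gaussian with proxy `n (c / 2)²`; `mcdiarmid`, `mcdiarmid_lower` : the two tails
`exp (-2 t² / (n c²))`.
-/

set_option autoImplicit false

open MeasureTheory ProbabilityTheory Set
open scoped ENNReal NNReal

namespace Crest.Agent.R146.McD_840

/-- one variable: oscillation at most `c` -/
lemma osc_subG {X : Type*} [MeasurableSpace X] (G : Measure X) [IsProbabilityMeasure G] (g : X → ℝ)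
    (hg : Measurable g) (B : ℝ) (hB : ∀ x, |g x| ≤ B) (c : ℝ≥0) (hosc : ∀ x y, g x - g y ≤ c) :
    HasSubgaussianMGF (fun x => g x - ∫ z, g z ∂G) ((c / 2) ^ 2) G := by
  have hne : Nonempty X := by
    by_contra hcon
    rw [not_nonempty_iff] at hcon
    have h1 : G univ = 1 := measure_univ
    have h2 : (univ : Set X) = ∅ := Set.eq_empty_of_isEmpty _
    rw [h2, measure_empty] at h1
    exact zero_ne_one h1
  have hbdd : BddBelow (Set.range g) := ⟨-B, by
    rintro _ ⟨x, rfl⟩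
    exact (abs_le.1 (hB x)).1⟩
  set a : ℝ := ⨅ x, g x with ha
  have hmem : ∀ x, g x ∈ Set.Icc a (a + c) := by
    intro x
    refine ⟨ciInf_le hbdd x, ?_⟩
    have : g x - c ≤ a := le_ciInf fun y => by linarith [hosc x y]
    linarith
  have h := hasSubgaussianMGF_of_mem_Icc (μ := G) (X := g) hg.aemeasurable
    (Filter.Eventually.of_forall hmem)
  have e : (‖a + c - a‖₊ / 2) ^ 2 = (c / 2) ^ 2 := by
    congr 2
    rw [add_sub_cancel_left]
    exact Subtype.ext (by simp)
  rw [e] at h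
  exact h

/-- product step -/
lemma prod_subG {X Y : Type*} [MeasurableSpace X] [MeasurableSpace Y] (G : Measure X)
    [IsProbabilityMeasure G] (Q : Measure Y) [IsProbabilityMeasure Q] (H : X × Y → ℝ)
    (hH : Measurable H) (B : ℝ) (hB : ∀ p, |H p| ≤ B) (c₁ c₂ : ℝ≥0)
    (h1 : ∀ x, HasSubgaussianMGF (fun y => H (x, y) - ∫ y, H (x, y) ∂Q) c₁ Q)
    (h2 : HasSubgaussianMGF (fun x => (∫ y, H (x, y) ∂Q) - ∫ p, H p ∂(G.prod Q)) c₂ G) :
    HasSubgaussianMGF (fun p => H p - ∫ p, H p ∂(G.prod Q)) (c₁ + c₂) (G.prod Q) := by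
  set m : ℝ := ∫ p, H p ∂(G.prod Q) with hm
  have hint : ∀ t : ℝ, Integrable (fun p => Real.exp (t * (H p - m))) (G.prod Q) := by
    intro t
    refine Integrable.of_bound (C := Real.exp (|t| * (B + |m|)))
      (Real.measurable_exp.comp ((hH.sub_const m).const_mul t)).aestronglyMeasurable
      (Filter.Eventually.of_forall fun p => ?_)
    rw [Real.norm_of_nonneg (Real.exp_pos _).le]
    apply Real.exp_le_exp.2
    calc t * (H p - m) ≤ |t * (H p - m)| := le_abs_self _
      _ = |t| * |H p - m| := abs_mul _ _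
      _ ≤ |t| * (B + |m|) := by
        refine mul_le_mul_of_nonneg_left ?_ (abs_nonneg _)
        exact (abs_sub _ _).trans (add_le_add (hB p) le_rfl)
  refine ⟨hint, fun t => ?_⟩
  rw [mgf, integral_prod _ (hint t)]
  have hinner : ∀ x, ∫ y, Real.exp (t * (H (x, y) - m)) ∂Q
      ≤ Real.exp (c₁ * t ^ 2 / 2) * Real.exp (t * ((∫ y, H (x, y) ∂Q) - m)) := by
    intro x
    have e : ∀ y, Real.exp (t * (H (x, y) - m))
        = Real.exp (t * ((∫ y, H (x, y) ∂Q) - m)) *
          Real.exp (t * (H (x, y) - ∫ y, H (x, y) ∂Q)) := by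
      intro y
      rw [← Real.exp_add]
      congr 1
      ring
    simp_rw [e]
    rw [integral_const_mul, mul_comm]
    exact mul_le_mul_of_nonneg_right ((h1 x).mgf_le t) (Real.exp_pos _).le
  calc ∫ x, ∫ y, Real.exp (t * (H (x, y) - m)) ∂Q ∂G
      ≤ ∫ x, Real.exp (c₁ * t ^ 2 / 2) * Real.exp (t * ((∫ y, H (x, y) ∂Q) - m)) ∂G := by
        refine integral_mono (hint t).integral_prod_left ?_ hinner
        exact (h2.integrable_exp_mul t).const_mul _
    _ = Real.exp (c₁ * t ^ 2 / 2) * ∫ x, Real.exp (t * ((∫ y, H (x, y) ∂Q) - m)) ∂G :=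
        integral_const_mul _ _
    _ ≤ Real.exp (c₁ * t ^ 2 / 2) * Real.exp (c₂ * t ^ 2 / 2) :=
        mul_le_mul_of_nonneg_left (h2.mgf_le t) (Real.exp_pos _).le
    _ = Real.exp ((c₁ + c₂ : ℝ≥0) * t ^ 2 / 2) := by
        rw [← Real.exp_add]
        congr 1
        push_cast
        ring

theorem subG_fin {X : Type*} [MeasurableSpace X] (G : Measure X) [IsProbabilityMeasure G] (c : ℝ≥0)
    (B : ℝ) (n : ℕ) : ∀ F : (Fin n → X) → ℝ, Measurable F → (∀ A, |F A| ≤ B) →
      (∀ A i x, F (Function.update A i x) - F A ≤ c) →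
      HasSubgaussianMGF (fun A => F A - ∫ A, F A ∂(Measure.pi fun _ : Fin n => G))
        (n * (c / 2) ^ 2) (Measure.pi fun _ : Fin n => G) := by
  induction n with
  | zero =>
    intro F hF hB hc
    have h0 : ∀ A : Fin 0 → X, F A - ∫ A, F A ∂(Measure.pi fun _ : Fin 0 => G) = 0 := by
      intro A
      have h1 : ∀ A', F A' = F A := fun A' => by rw [Subsingleton.elim A' A]
      have h2 : ∫ A', F A' ∂(Measure.pi fun _ : Fin 0 => G) = F A := by
        simp_rw [h1]
        simp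
      rw [h2, sub_self]
    have h3 : (fun A : Fin 0 → X => F A - ∫ A, F A ∂(Measure.pi fun _ : Fin 0 => G))
        = fun _ => 0 := funext h0
    rw [h3]
    simp
  | succ n ih =>
    intro F hF hB hc
    set Q : Measure (Fin n → X) := Measure.pi fun _ : Fin n => G with hQ
    set T := MeasurableEquiv.piFinSuccAbove (fun _ : Fin (n + 1) => X) 0 with hT
    have hmp : MeasurePreserving T (Measure.pi fun _ : Fin (n + 1) => G) (G.prod Q) :=
      measurePreserving_piFinSuccAbove (fun _ : Fin (n + 1) => G) 0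
    set H : X × (Fin n → X) → ℝ := fun p => F (Fin.cons p.1 p.2) with hH
    have hTs : ∀ A : Fin (n + 1) → X, H (T A) = F A := by
      intro A
      rw [hH]
      simp only
      congr 1
      have : T A = (A 0, fun i => A (Fin.succ i)) := by
        rw [hT]
        simp [MeasurableEquiv.piFinSuccAbove]
        rfl
      rw [this]
      exact Fin.cons_self_tail A
    have hHm : Measurable H := by
      have : H = F ∘ T.symm := by
        ext p
        have := hTs (T.symm p)
        rw [T.apply_symm_apply] at this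
        exact this
      rw [this]
      exact hF.comp T.symm.measurable
    have hHB : ∀ p, |H p| ≤ B := fun p => hB _
    have h1 : ∀ x, HasSubgaussianMGF (fun y => H (x, y) - ∫ y, H (x, y) ∂Q)
        (n * (c / 2) ^ 2) Q := by
      intro x
      refine ih (fun y => H (x, y)) (hHm.comp measurable_prodMk_left) (fun y => hHB _) ?_
      intro A i z
      have := hc (Fin.cons x A) (Fin.succ i) z
      rw [← Fin.cons_update] at this
      exact this
    have hintx : ∀ x, Integrable (fun y => H (x, y)) Q := fun x =>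
      Integrable.of_bound (hHm.comp measurable_prodMk_left).aestronglyMeasurable B
        (Filter.Eventually.of_forall fun y => by rw [Real.norm_eq_abs]; exact hHB _)
    set g : X → ℝ := fun x => ∫ y, H (x, y) ∂Q with hg
    have hgm : Measurable g := (hHm.stronglyMeasurable.integral_prod_right').measurable
    have hgB : ∀ x, |g x| ≤ B := by
      intro x
      have := norm_integral_le_of_norm_le_const (μ := Q) (f := fun y => H (x, y)) (C := B)
        (Filter.Eventually.of_forall fun y => by rw [Real.norm_eq_abs]; exact hHB _)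
      simpa using this
    have hgosc : ∀ x y, g x - g y ≤ c := by
      intro x y
      rw [hg]
      simp only
      rw [← integral_sub (hintx x) (hintx y)]
      calc ∫ A, (H (x, A) - H (y, A)) ∂Q ≤ ∫ _A, (c : ℝ) ∂Q := by
            refine integral_mono ((hintx x).sub (hintx y)) (integrable_const _) fun A => ?_
            have := hc (Fin.cons y A) 0 x
            rw [Fin.update_cons_zero] at this
            exact this
        _ = c := by simp
    have hmean : ∫ p, H p ∂(G.prod Q) = ∫ x, g x ∂G := by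
      refine integral_prod _ ?_
      exact Integrable.of_bound hHm.aestronglyMeasurable B
        (Filter.Eventually.of_forall fun y => by rw [Real.norm_eq_abs]; exact hHB _)
    have h2 : HasSubgaussianMGF (fun x => (∫ y, H (x, y) ∂Q) - ∫ p, H p ∂(G.prod Q))
        ((c / 2) ^ 2) G := by
      rw [hmean]
      exact osc_subG G g hgm B hgB c hgosc
    have h3 := prod_subG G Q H hHm B hHB _ _ h1 h2
    have h4 : HasSubgaussianMGF (fun p => H p - ∫ p, H p ∂(G.prod Q)) (n * (c / 2) ^ 2 + (c / 2) ^ 2)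
        ((Measure.pi fun _ : Fin (n + 1) => G).map T) := by
      rw [hmp.map_eq]; exact h3
    have h5 := HasSubgaussianMGF.of_map T.measurable.aemeasurable h4
    have h6 : ∫ p, H p ∂(G.prod Q) = ∫ A, F A ∂(Measure.pi fun _ : Fin (n + 1) => G) := by
      rw [← hmp.map_eq, integral_map T.measurable.aemeasurable hHm.aestronglyMeasurable]
      simp_rw [hTs]
    have h7 : (fun p => H p - ∫ p, H p ∂(G.prod Q)) ∘ T
        = fun A => F A - ∫ A, F A ∂(Measure.pi fun _ : Fin (n + 1) => G) := by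
      ext A
      simp only [Function.comp]
      rw [hTs, h6]
    rw [h7] at h5
    have h8 : ((n : ℝ≥0) * (c / 2) ^ 2 + (c / 2) ^ 2) = ((n + 1 : ℕ) : ℝ≥0) * (c / 2) ^ 2 := by
      push_cast
      ring
    rw [h8] at h5
    exact h5

/-- **McDiarmid, sub-Gaussian form.** -/
theorem mcdiarmid_subG {ι X : Type*} [Fintype ι] [DecidableEq ι] [MeasurableSpace X]
    (G : Measure X) [IsProbabilityMeasure G] (c : ℝ≥0) (B : ℝ) (F : (ι → X) → ℝ)
    (hF : Measurable F) (hB : ∀ A, |F A| ≤ B)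
    (hc : ∀ A i x, F (Function.update A i x) - F A ≤ c) :
    HasSubgaussianMGF (fun A => F A - ∫ A, F A ∂(Measure.pi fun _ : ι => G))
        (Fintype.card ι * (c / 2) ^ 2) (Measure.pi fun _ : ι => G) := by
  set n := Fintype.card ι with hn
  let e : Fin n ≃ ι := (Fintype.equivFin ι).symm
  let T := MeasurableEquiv.piCongrLeft (fun _ : ι => X) e
  have hmp : MeasurePreserving T (Measure.pi fun _ : Fin n => G) (Measure.pi fun _ : ι => G) :=
    measurePreserving_piCongrLeft (fun _ : ι => G) e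
  have hT : ∀ (A : Fin n → X) (i : Fin n), T A (e i) = A i := by
    intro A i
    exact Equiv.piCongrLeft_apply_apply (fun _ : ι => X) e A i
  have h1 := subG_fin G c B n (fun A => F (T A)) (hF.comp T.measurable) (fun A => hB _) (by
    intro A i x
    have h2 : T (Function.update A i x) = Function.update (T A) (e i) x := by
      ext j
      obtain ⟨k, rfl⟩ := e.surjective j
      rw [hT]
      by_cases hk : k = i
      · subst hk
        simp
      · rw [Function.update_of_ne hk, Function.update_of_ne (fun h => hk (e.injective h)), hT]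
    rw [h2]
    exact hc _ _ _)
  -- transfer by the inverse map
  have hsymm := hmp.symm
  have h3 : HasSubgaussianMGF (fun A => F (T A) - ∫ A, F (T A) ∂(Measure.pi fun _ : Fin n => G))
      (n * (c / 2) ^ 2) ((Measure.pi fun _ : ι => G).map T.symm) := by
    rw [hsymm.map_eq]; exact h1
  have h4 := HasSubgaussianMGF.of_map T.symm.measurable.aemeasurable h3
  have h5 : ∫ A, F (T A) ∂(Measure.pi fun _ : Fin n => G) = ∫ A, F A ∂(Measure.pi fun _ : ι => G) := by
    rw [← hmp.map_eq, integral_map T.measurable.aemeasurable hF.aestronglyMeasurable]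
  have h6 : (fun A => F (T A) - ∫ A, F (T A) ∂(Measure.pi fun _ : Fin n => G)) ∘ T.symm
      = fun A => F A - ∫ A, F A ∂(Measure.pi fun _ : ι => G) := by
    ext A
    simp only [Function.comp, h5]
    rw [T.apply_symm_apply]
  rw [h6] at h4
  exact h4

/-- **McDiarmid, upper tail.** -/
theorem mcdiarmid {ι X : Type*} [Fintype ι] [DecidableEq ι] [MeasurableSpace X]
    (G : Measure X) [IsProbabilityMeasure G] (c : ℝ) (hc0 : 0 ≤ c) (B : ℝ) (F : (ι → X) → ℝ)
    (hF : Measurable F) (hB : ∀ A, |F A| ≤ B)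
    (hc : ∀ A i x, F (Function.update A i x) - F A ≤ c) (t : ℝ) (ht : 0 ≤ t) :
    (Measure.pi fun _ : ι => G) {A | (∫ A, F A ∂(Measure.pi fun _ : ι => G)) + t ≤ F A}
      ≤ ENNReal.ofReal (Real.exp (-2 * t ^ 2 / (Fintype.card ι * c ^ 2))) := by
  have hcc : ((Real.toNNReal c : ℝ≥0) : ℝ) = c := Real.coe_toNNReal c hc0
  have h := mcdiarmid_subG G (Real.toNNReal c) B F hF hB (by rw [hcc]; exact hc)
  have h1 := h.measure_ge_le ht
  have h2 : {A : ι → X | (∫ A, F A ∂(Measure.pi fun _ : ι => G)) + t ≤ F A}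
      = {A | t ≤ F A - ∫ A, F A ∂(Measure.pi fun _ : ι => G)} := by
    ext A
    constructor
    · intro hA
      have : (∫ A, F A ∂(Measure.pi fun _ : ι => G)) + t ≤ F A := hA
      show t ≤ F A - ∫ A, F A ∂(Measure.pi fun _ : ι => G)
      linarith
    · intro hA
      have : t ≤ F A - ∫ A, F A ∂(Measure.pi fun _ : ι => G) := hA
      show (∫ A, F A ∂(Measure.pi fun _ : ι => G)) + t ≤ F A
      linarith
  rw [h2, ← ofReal_measureReal]
  refine ENNReal.ofReal_le_ofReal (h1.trans (Real.exp_le_exp.2 (le_of_eq ?_)))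
  have e1 : ((Fintype.card ι * (Real.toNNReal c / 2) ^ 2 : ℝ≥0) : ℝ)
      = Fintype.card ι * (c / 2) ^ 2 := by
    push_cast
    rw [hcc]
  rw [e1]
  rcases eq_or_ne ((Fintype.card ι : ℝ) * c ^ 2) 0 with h0 | h0
  · have h3 : 2 * ((Fintype.card ι : ℝ) * (c / 2) ^ 2) = (Fintype.card ι * c ^ 2) / 2 := by ring
    rw [h3, h0]
    simp
  · have h3 : 2 * ((Fintype.card ι : ℝ) * (c / 2) ^ 2) = (Fintype.card ι * c ^ 2) / 2 := by ring
    rw [h3]
    field_simp

/-- **McDiarmid, lower tail.** -/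
theorem mcdiarmid_lower {ι X : Type*} [Fintype ι] [DecidableEq ι] [MeasurableSpace X]
    (G : Measure X) [IsProbabilityMeasure G] (c : ℝ) (hc0 : 0 ≤ c) (B : ℝ) (F : (ι → X) → ℝ)
    (hF : Measurable F) (hB : ∀ A, |F A| ≤ B)
    (hc : ∀ A i x, F A - F (Function.update A i x) ≤ c) (t : ℝ) (ht : 0 ≤ t) :
    (Measure.pi fun _ : ι => G) {A | F A ≤ (∫ A, F A ∂(Measure.pi fun _ : ι => G)) - t}
      ≤ ENNReal.ofReal (Real.exp (-2 * t ^ 2 / (Fintype.card ι * c ^ 2))) := by
  have h := mcdiarmid G c hc0 B (fun A => -F A) hF.neg (fun A => by rw [abs_neg]; exact hB A)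
    (fun A i x => by linarith [hc A i x]) t ht
  refine (measure_mono ?_).trans h
  intro A hA
  have hA' : F A ≤ (∫ A, F A ∂(Measure.pi fun _ : ι => G)) - t := hA
  show (∫ A, -F A ∂(Measure.pi fun _ : ι => G)) + t ≤ -F A
  rw [integral_neg]
  linarith

end Crest.Agent.R146.McD_840
end

-- ▼ part R146/LocConc_840
section

/-!
Row 146, node LOC (LOCCORE), helper840: concentration from above of the log partition function `XF`
of the free coordinates of a localised block (`LocXR_508.XCONC`), by McDiarmid over the rows.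
-/

set_option autoImplicit false

open MeasureTheory ProbabilityTheory Filter Set Crest.ProbabilityR.Perceptron
open scoped Topology ENNReal NNReal

namespace Crest.Agent.R146.LocConc_840

open Crest.Agent.R146.Sph_409 (uS)
open Crest.Agent.R146.LocXR_508
open Crest.Agent.R146L878 (expo logZ DD sv measurable_expo measurable_logZ int_exp_pos
  integrable_exp_expo abs_expo_le logZ_le le_logZ measurable_sv)

instance uS_finite (n : ℕ) : IsFiniteMeasure (uS n) := by
  rcases Nat.eq_zero_or_pos n with h | h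
  · subst h
    have he : IsEmpty (UnitSphere 0) := by
      refine ⟨fun y => ?_⟩
      have h1 : ‖(y : EuclideanSpace ℝ (Fin 0))‖ = 1 := by
        have := y.2
        simp
      have h2 : (y : EuclideanSpace ℝ (Fin 0)) = 0 := Subsingleton.elim _ _
      rw [h2, norm_zero] at h1
      exact zero_ne_one h1
    rw [Measure.eq_zero_of_isEmpty (uS 0)]
    infer_instance
  · have : NeZero n := ⟨h.ne'⟩
    infer_instance

theorem measurable_XF {ψ : ℝ → ℝ} (hψ : Measurable ψ) (μ κ : ℝ) {I : Type} [Fintype I] (u : I → ℝ)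
    (M n : ℕ) : Measurable (fun A : Fin M × (I ⊕ Fin n) → ℝ => XF ψ μ κ u A) := by
  unfold XF XR logZ
  refine Real.measurable_log.comp ?_
  have h : StronglyMeasurable (Function.uncurry fun (A : Fin M × (I ⊕ Fin n) → ℝ)
      (y : UnitSphere n) =>
      Real.exp (expo (fun (a : Fin M) x => ψ (∑ i, A (a, Sum.inl i) * u i + √(1 - μ) * x)) sv
        (fun p : Fin M × Fin n => A (p.1, Sum.inr p.2)) y)) := by
    refine Measurable.stronglyMeasurable ?_
    refine Real.measurable_exp.comp ?_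
    unfold expo
    refine Finset.measurable_sum _ fun a _ => hψ.comp ?_
    refine Measurable.add ?_ ?_
    · refine Finset.measurable_sum _ fun i _ => ?_
      exact ((measurable_pi_apply (a, Sum.inl i)).comp measurable_fst).mul_const _
    · refine Measurable.const_mul ?_ _
      refine Finset.measurable_sum _ fun j _ => ?_
      exact ((measurable_pi_apply (a, Sum.inr j)).comp measurable_fst).mul
        ((measurable_pi_apply j).comp (measurable_sv.comp measurable_snd))
  exact (h.integral_prod_right (ν := (uS n).restrict (DD n κ))).measurable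

/-- `|XF|` is bounded. -/
theorem abs_XF_le {ψ : ℝ → ℝ} (hψ : Measurable ψ) {K : ℝ} (hK : ∀ x, |ψ x| ≤ K) (μ κ : ℝ)
    {I : Type} [Fintype I] (u : I → ℝ) (M n : ℕ) (A : Fin M × (I ⊕ Fin n) → ℝ) :
    |XF ψ μ κ u A| ≤ M * K + |Real.log (((uS n).restrict (DD n κ)).real univ)| := by
  have hK0 : 0 ≤ K := (abs_nonneg _).trans (hK 0)
  unfold XF XR
  set ρ := (uS n).restrict (DD n κ) with hρdef
  have hm : ∀ a : Fin M, Measurable fun x : ℝ =>
      ψ ((fun a => ∑ i, A (a, Sum.inl i) * u i) a + √(1 - μ) * x) := fun a =>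
    hψ.comp (by fun_prop)
  have hb : ∀ (a : Fin M) (x : ℝ),
      |ψ ((fun a => ∑ i, A (a, Sum.inl i) * u i) a + √(1 - μ) * x)| ≤ K := fun a x => hK _
  by_cases hρ : 0 < ρ.real univ
  · have h1 := logZ_le hm hb ρ hρ measurable_sv (fun p : Fin M × Fin n => A (p.1, Sum.inr p.2))
    have h2 := le_logZ hm hb ρ hρ measurable_sv (fun p : Fin M × Fin n => A (p.1, Sum.inr p.2))
    rw [abs_le]
    constructor
    · have := neg_abs_le (Real.log (ρ.real univ)); linarith
    · have := le_abs_self (Real.log (ρ.real univ)); linarith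
  · have h0 : ρ = 0 := by
      have : ρ.real univ = 0 := le_antisymm (not_lt.1 hρ) measureReal_nonneg
      rw [measureReal_def, ENNReal.toReal_eq_zero_iff] at this
      rcases this with h | h
      · exact Measure.measure_univ_eq_zero.1 h
      · exact absurd h (measure_ne_top _ _)
    unfold logZ
    rw [h0, integral_zero_measure, Real.log_zero, abs_zero]
    positivity

/-- changing one row changes `XF` by at most `2 K`. -/
theorem XF_row {ψ : ℝ → ℝ} (hψ : Measurable ψ) {K : ℝ} (hK : ∀ x, |ψ x| ≤ K) (μ κ : ℝ)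
    {I : Type} [Fintype I] (u : I → ℝ) (M n : ℕ) (A A' : Fin M × (I ⊕ Fin n) → ℝ) (r : Fin M)
    (hA : ∀ p : Fin M × (I ⊕ Fin n), p.1 ≠ r → A' p = A p) :
    XF ψ μ κ u A' - XF ψ μ κ u A ≤ 2 * K := by
  classical
  have hK0 : 0 ≤ K := (abs_nonneg _).trans (hK 0)
  unfold XF XR
  set ρ := (uS n).restrict (DD n κ) with hρdef
  have hm : ∀ (B : Fin M × (I ⊕ Fin n) → ℝ) (a : Fin M), Measurable fun x : ℝ =>
      ψ ((fun a => ∑ i, B (a, Sum.inl i) * u i) a + √(1 - μ) * x) := fun B a =>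
    hψ.comp (by fun_prop)
  have hb : ∀ (B : Fin M × (I ⊕ Fin n) → ℝ) (a : Fin M) (x : ℝ),
      ψ ((fun a => ∑ i, B (a, Sum.inl i) * u i) a + √(1 - μ) * x) ≤ K := fun B a x =>
    (le_abs_self _).trans (hK _)
  by_cases hρ : 0 < ρ.real univ
  · have h1 := int_exp_pos (hm A) (hb A) ρ hρ measurable_sv
      (fun p : Fin M × Fin n => A (p.1, Sum.inr p.2))
    have h2 := int_exp_pos (hm A') (hb A') ρ hρ measurable_sv
      (fun p : Fin M × Fin n => A' (p.1, Sum.inr p.2))
    have i1 := integrable_exp_expo (hm A) (hb A) ρ measurable_sv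
      (fun p : Fin M × Fin n => A (p.1, Sum.inr p.2))
    have i2 := integrable_exp_expo (hm A') (hb A') ρ measurable_sv
      (fun p : Fin M × Fin n => A' (p.1, Sum.inr p.2))
    have key : ∀ y : UnitSphere n,
        expo (fun a x => ψ ((fun a => ∑ i, A' (a, Sum.inl i) * u i) a + √(1 - μ) * x)) sv
          (fun p : Fin M × Fin n => A' (p.1, Sum.inr p.2)) y ≤
        2 * K + expo (fun a x => ψ ((fun a => ∑ i, A (a, Sum.inl i) * u i) a + √(1 - μ) * x)) sv
          (fun p : Fin M × Fin n => A (p.1, Sum.inr p.2)) y := by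
      intro y
      unfold expo
      rw [← Finset.add_sum_erase _ _ (Finset.mem_univ r),
        ← Finset.add_sum_erase (a := r) Finset.univ (fun a =>
          ψ ((fun a => ∑ i, A (a, Sum.inl i) * u i) a + √(1 - μ) *
            ∑ i, (fun p : Fin M × Fin n => A (p.1, Sum.inr p.2)) (a, i) * sv y i))
          (Finset.mem_univ r)]
      have e : ∑ a ∈ Finset.univ.erase r,
          ψ ((fun a => ∑ i, A' (a, Sum.inl i) * u i) a + √(1 - μ) *
            ∑ i, (fun p : Fin M × Fin n => A' (p.1, Sum.inr p.2)) (a, i) * sv y i) =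
          ∑ a ∈ Finset.univ.erase r,
          ψ ((fun a => ∑ i, A (a, Sum.inl i) * u i) a + √(1 - μ) *
            ∑ i, (fun p : Fin M × Fin n => A (p.1, Sum.inr p.2)) (a, i) * sv y i) := by
        refine Finset.sum_congr rfl fun a ha => ?_
        have har : a ≠ r := (Finset.mem_erase.1 ha).1
        have e1 : ∀ i, A' (a, Sum.inl i) = A (a, Sum.inl i) := fun i => hA _ har
        have e2 : ∀ i, A' (a, Sum.inr i) = A (a, Sum.inr i) := fun i => hA _ har
        simp only [e1, e2]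
      rw [e]
      have b1 := (abs_le.1 (hK ((fun a => ∑ i, A' (a, Sum.inl i) * u i) r + √(1 - μ) *
            ∑ i, (fun p : Fin M × Fin n => A' (p.1, Sum.inr p.2)) (r, i) * sv y i))).2
      have b2 := (abs_le.1 (hK ((fun a => ∑ i, A (a, Sum.inl i) * u i) r + √(1 - μ) *
            ∑ i, (fun p : Fin M × Fin n => A (p.1, Sum.inr p.2)) (r, i) * sv y i))).1
      linarith
    have h3 : ∫ y, Real.exp (expo (fun a x =>
          ψ ((fun a => ∑ i, A' (a, Sum.inl i) * u i) a + √(1 - μ) * x)) sv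
          (fun p : Fin M × Fin n => A' (p.1, Sum.inr p.2)) y) ∂ρ ≤
        Real.exp (2 * K) * ∫ y, Real.exp (expo (fun a x =>
          ψ ((fun a => ∑ i, A (a, Sum.inl i) * u i) a + √(1 - μ) * x)) sv
          (fun p : Fin M × Fin n => A (p.1, Sum.inr p.2)) y) ∂ρ := by
      rw [← integral_const_mul]
      refine integral_mono i2 (i1.const_mul _) fun y => ?_
      simp only
      rw [← Real.exp_add]
      exact Real.exp_le_exp.2 (key y)
    have h4 := Real.log_le_log h2 h3
    rw [Real.log_mul (Real.exp_pos _).ne' h1.ne', Real.log_exp] at h4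
    unfold logZ
    linarith
  · have h0 : ρ = 0 := by
      have : ρ.real univ = 0 := le_antisymm (not_lt.1 hρ) measureReal_nonneg
      rw [measureReal_def, ENNReal.toReal_eq_zero_iff] at this
      rcases this with h | h
      · exact Measure.measure_univ_eq_zero.1 h
      · exact absurd h (measure_ne_top _ _)
    unfold logZ
    rw [h0, integral_zero_measure, integral_zero_measure, Real.log_zero]
    linarith

/-- **XCONC**. -/
theorem xconc : XCONC := by
  intro ν _ ψ K hψ hK M n I _ u μ κ t ht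
  classical
  have hK0 : 0 ≤ K := (abs_nonneg _).trans (hK 0)
  set T : (Fin M → (I ⊕ Fin n) → ℝ) → (Fin M × (I ⊕ Fin n) → ℝ) := fun B q => B q.1 q.2 with hT
  have hTm : Measurable T :=
    measurable_pi_lambda _ fun q => (measurable_pi_apply q.2).comp (measurable_pi_apply q.1)
  have hmap : (Measure.pi fun _ : Fin M × (I ⊕ Fin n) => ν)
      = (Measure.pi fun _ : Fin M => Measure.pi fun _ : (I ⊕ Fin n) => ν).map T :=
    Crest.Agent.R146.Large_840.pi_eq_map_rows ν
  have hXm := measurable_XF hψ μ κ u M n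
  have h := Crest.Agent.R146.McD_840.mcdiarmid (ι := Fin M)
    (Measure.pi fun _ : (I ⊕ Fin n) => ν) (2 * K) (by positivity)
    (M * K + |Real.log (((uS n).restrict (DD n κ)).real univ)|)
    (fun B => XF ψ μ κ u (T B)) (hXm.comp hTm)
    (fun B => abs_XF_le hψ hK μ κ u M n (T B))
    (fun B r x => XF_row hψ hK μ κ u M n (T B) (T (Function.update B r x)) r (fun p hp => by
      simp only [hT]
      rw [Function.update_of_ne hp])) t ht
  rw [hmap, Measure.map_apply hTm (measurableSet_le measurable_const hXm),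
    integral_map hTm.aemeasurable hXm.aestronglyMeasurable]
  refine h.trans (le_of_eq ?_)
  congr 2
  rw [Fintype.card_fin]
  rw [show -2 * t ^ 2 = 2 * (-t ^ 2) by ring, show (M : ℝ) * (2 * K) ^ 2 = 2 * (2 * M * K ^ 2) by ring]
  exact mul_div_mul_left _ _ two_ne_zero

end Crest.Agent.R146.LocConc_840
end

-- ▼ part R146/LocNet_840
section

/-!
Row 146, node LOC (LOCCORE), helper840: finite nets of localised blocks with masses on a grid
(`LocXR_508.NETP`).
-/

set_option autoImplicit false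

open Filter Set
open scoped Topology

namespace Crest.Agent.R146.LocNet_840

open Crest.Agent.R146.LocXR_508
open Crest.Agent.R146.RepairNet_840 (exists_net)

/-- the pairs of a net point and a shell which meet -/
def Meet {I : Type} [Fintype I] (h ρ : ℝ) (q : EuclideanSpace ℝ I × ℕ)
    (w : EuclideanSpace ℝ I) : Prop :=
  ‖w - q.1‖ ≤ ρ ∧ (q.2 : ℝ) * h ≤ ‖w‖ ^ 2 ∧ ‖w‖ ^ 2 ≤ (q.2 + 1) * h

theorem scaled {I : Type} [Fintype I] {h : ℝ} (hh : 0 < h) {k : ℕ} {w : EuclideanSpace ℝ I}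
    (h1 : (k : ℝ) * h ≤ ‖w‖ ^ 2) (h2 : ‖w‖ ^ 2 ≤ (k + 1) * h) :
    ‖(√(k * h) / ‖w‖) • w‖ ^ 2 = k * h ∧ ‖w - (√(k * h) / ‖w‖) • w‖ ≤ √h := by
  have hkh : 0 ≤ (k : ℝ) * h := by positivity
  rcases (norm_nonneg w).eq_or_lt with h0 | h0
  · have hw : w = 0 := norm_eq_zero.1 h0.symm
    subst hw
    simp only [norm_zero, ne_eq, OfNat.ofNat_ne_zero, not_false_eq_true, zero_pow] at h1
    have : (k : ℝ) * h = 0 := le_antisymm h1 hkh
    rw [this]
    simp
  · have e1 : ‖(√(k * h) / ‖w‖) • w‖ = √(k * h) := by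
      rw [norm_smul, Real.norm_eq_abs, abs_of_nonneg (by positivity), div_mul_cancel₀ _ h0.ne']
    refine ⟨by rw [e1, Real.sq_sqrt hkh], ?_⟩
    have hle : √(k * h) ≤ ‖w‖ := by
      rw [Real.sqrt_le_left (norm_nonneg w)]
      exact h1
    have e2 : w - (√(k * h) / ‖w‖) • w = (1 - √(k * h) / ‖w‖) • w := by
      rw [sub_smul, one_smul]
    have h3 : 0 ≤ 1 - √(k * h) / ‖w‖ := by
      rw [sub_nonneg, div_le_one h0]; exact hle
    rw [e2, norm_smul, Real.norm_eq_abs, abs_of_nonneg h3]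
    have h4 : (1 - √(k * h) / ‖w‖) * ‖w‖ = ‖w‖ - √(k * h) := by
      field_simp
    rw [h4]
    have h5 : ‖w‖ ≤ √h + √(k * h) := by
      have h6 : ‖w‖ ^ 2 ≤ (√h + √(k * h)) ^ 2 := by
        have a1 := Real.sq_sqrt hh.le
        have a2 := Real.sq_sqrt hkh
        have a3 := mul_nonneg (Real.sqrt_nonneg h) (Real.sqrt_nonneg (k * h))
        nlinarith
      exact le_of_sq_le_sq h6 (by positivity)
    linarith

/-- **NETP**. -/
theorem netp : NETP := by
  intro h hh hh1
  classical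
  obtain ⟨j, hj⟩ := exists_pow_lt_of_lt_one (Real.sqrt_pos.2 hh) (show (1 / 2 : ℝ) < 1 by norm_num)
  set K : ℕ := ⌊1 / h⌋₊ + 1 with hK
  refine ⟨5 ^ j * K, fun I _ => ?_⟩
  obtain ⟨T, hTc, hT⟩ := exists_net (EuclideanSpace ℝ I) j
  set ρ : ℝ := (1 / 2 : ℝ) ^ j with hρ
  let Q : Finset (EuclideanSpace ℝ I × ℕ) :=
    (T ×ˢ Finset.range K).filter fun q => ∃ w, Meet h ρ q w
  let pick : EuclideanSpace ℝ I × ℕ → EuclideanSpace ℝ I := fun q =>
    if hq : ∃ w, Meet h ρ q w then (√(q.2 * h) / ‖hq.choose‖) • hq.choose else 0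
  have hpick : ∀ q, (∃ w, Meet h ρ q w) → ‖pick q‖ ^ 2 = q.2 * h ∧
      ∃ w0, Meet h ρ q w0 ∧ ‖w0 - pick q‖ ≤ √h := by
    intro q hq
    have hs := hq.choose_spec
    have h1 := scaled hh hs.2.1 hs.2.2
    have e : pick q = (√(q.2 * h) / ‖hq.choose‖) • hq.choose := by
      simp only [pick]
      rw [dif_pos hq]
    rw [e]
    exact ⟨h1.1, hq.choose, hs, h1.2⟩
  have hsq : ∀ x : EuclideanSpace ℝ I, ‖x‖ ^ 2 = ∑ i, x i ^ 2 := fun x =>
    EuclideanSpace.real_norm_sq_eq x
  refine ⟨Q.image fun q => fun i => pick q i, ?_, ?_, ?_⟩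
  · refine Finset.card_image_le.trans ((Finset.card_filter_le _ _).trans ?_)
    rw [Finset.card_product, Finset.card_range, pow_succ, mul_pow]
    have h1 : 1 ≤ K := by omega
    rw [finrank_euclideanSpace] at hTc
    have h2 : (1 : ℕ) ≤ K ^ Fintype.card I := Nat.one_le_pow _ _ h1
    have h3 : (1 : ℕ) ≤ 5 ^ j := Nat.one_le_pow _ _ (by norm_num)
    calc T.card * K ≤ (5 ^ j) ^ Fintype.card I * K := Nat.mul_le_mul_right _ hTc
      _ ≤ (5 ^ j) ^ Fintype.card I * K ^ Fintype.card I * (5 ^ j * K) := by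
          have : (5 ^ j) ^ Fintype.card I * 1 * (1 * K) ≤
              (5 ^ j) ^ Fintype.card I * K ^ Fintype.card I * (5 ^ j * K) := by gcongr
          simpa using this
  · intro u hu
    obtain ⟨q, hq, rfl⟩ := Finset.mem_image.1 hu
    obtain ⟨hq1, hq2⟩ := Finset.mem_filter.1 hq
    refine ⟨q.2, ?_, ?_⟩
    · have h1 : q.2 < K := Finset.mem_range.1 (Finset.mem_product.1 hq1).2
      have h2 : (q.2 : ℝ) ≤ 1 / h := (Nat.le_floor_iff (by positivity)).1 (by omega)
      rwa [le_div_iff₀ hh] at h2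
    · rw [← (hpick q hq2).1, hsq]
  · intro w hw
    set w' : EuclideanSpace ℝ I := WithLp.toLp 2 w with hw'
    have hwn : ‖w'‖ ^ 2 = ∑ i, w i ^ 2 := by rw [hsq]
    have hw1 : ‖w'‖ ^ 2 ≤ 1 := by rw [hwn]; exact hw
    have hw2 : ‖w'‖ ≤ 1 := by
      have h1 : ‖w'‖ ^ 2 ≤ 1 ^ 2 := by rw [one_pow]; exact hw1
      exact le_of_sq_le_sq h1 zero_le_one
    obtain ⟨v, hvT, hv⟩ := hT w' hw2
    set k : ℕ := ⌊‖w'‖ ^ 2 / h⌋₊ with hk
    have hk1 : (k : ℝ) * h ≤ ‖w'‖ ^ 2 := by
      rw [← le_div_iff₀ hh]; exact Nat.floor_le (by positivity)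
    have hk2 : ‖w'‖ ^ 2 ≤ (k + 1) * h := by
      rw [← div_le_iff₀ hh]; exact (Nat.lt_floor_add_one _).le
    have hkK : k < K := by
      rw [hK]
      refine Nat.lt_succ_of_le (Nat.floor_le_floor ?_)
      exact div_le_div_of_nonneg_right hw1 hh.le
    have hmeet : Meet h ρ (v, k) w' := ⟨hv, hk1, hk2⟩
    obtain ⟨p1, w0, p2, p3⟩ := hpick (v, k) ⟨w', hmeet⟩
    refine ⟨fun i => pick (v, k) i, Finset.mem_image.2 ⟨(v, k), Finset.mem_filter.2
      ⟨Finset.mem_product.2 ⟨hvT, Finset.mem_range.2 hkK⟩, w', hmeet⟩, rfl⟩, ?_, ?_, ?_⟩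
    · have : ∑ i, (pick (v, k) i) ^ 2 ≤ ∑ i, w i ^ 2 := by
        rw [← hsq (pick (v, k)), p1, ← hwn]; exact hk1
      exact this
    · have : ∑ i, w i ^ 2 ≤ ∑ i, (pick (v, k) i) ^ 2 + h := by
        rw [← hsq (pick (v, k)), p1, ← hwn]
        have : ((v, k) : EuclideanSpace ℝ I × ℕ).2 = k := rfl
        rw [this]
        linarith
      exact this
    · have e : ∑ i, (w i - pick (v, k) i) ^ 2 = ‖w' - pick (v, k)‖ ^ 2 := by
        rw [hsq]
        rfl
      show ∑ i, (w i - pick (v, k) i) ^ 2 ≤ 9 * h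
      rw [e]
      have hρh : ρ ≤ √h := hj.le
      have d1 : ‖w' - v‖ ≤ √h := hv.trans hρh
      have d2 : ‖w0 - v‖ ≤ √h := p2.1.trans hρh
      have d3 : ‖w' - pick (v, k)‖ ≤ 3 * √h := by
        have e2 : w' - pick (v, k) = (w' - v) + ((v - w0) + (w0 - pick (v, k))) := by abel
        rw [e2]
        have n1 := norm_add_le (w' - v) ((v - w0) + (w0 - pick (v, k)))
        have n2 := norm_add_le (v - w0) (w0 - pick (v, k))
        rw [norm_sub_rev v w0] at n2
        linarith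
      have d4 := Real.sq_sqrt hh.le
      have d5 := norm_nonneg (w' - pick (v, k))
      nlinarith

end Crest.Agent.R146.LocNet_840
end

-- ▼ part R146/High_840
section

/-!
# Row 146, node (H1) of LOCUB: the high region (helper840)

No unit vector whose mass is concentrated on few coordinates has small truncated quadratic energy.
The constant depends on the density only, uniformly over all good coordinate laws.
-/

set_option autoImplicit false

open MeasureTheory ProbabilityTheory Set Filter Crest.Agent.R146.RepairLaw_840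
  Crest.Agent.R146.RepairNet_840 Crest.Agent.R146.Large_840 Crest.Agent.R146.McD_840
  Crest.ProbabilityR.Perceptron
open scoped ENNReal NNReal Topology

namespace Crest.Agent.R146.High_840

/-- truncated penalty at margin `-1` -/
noncomputable def TR (R x : ℝ) : ℝ := min (max (-1 - x) 0) R

lemma TR_nonneg {R : ℝ} (hR : 0 ≤ R) (x : ℝ) : 0 ≤ TR R x := le_min (le_max_right _ _) hR

lemma TR_le {R : ℝ} (x : ℝ) : TR R x ≤ R := min_le_right _ _

lemma TR_sub_le (R x y : ℝ) : TR R x - TR R y ≤ |x - y| := by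
  have h1 : -1 - x ≤ -1 - y + |x - y| := by
    have := neg_abs_le (x - y)
    linarith
  have h0 : 0 ≤ |x - y| := abs_nonneg _
  have h2 : max (-1 - x) 0 ≤ max (-1 - y) 0 + |x - y| := by
    refine max_le ?_ ?_
    · have := le_max_left (-1 - y) 0
      linarith
    · have := le_max_right (-1 - y) 0
      linarith
  have h3 : TR R x ≤ TR R y + |x - y| := by
    unfold TR
    rcases le_total (max (-1 - y) 0) R with h | h
    · rw [min_eq_left h]
      exact (min_le_left _ _).trans h2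
    · rw [min_eq_right h]
      exact (min_le_right _ _).trans (by linarith)
  linarith

lemma abs_TR_sub_le (R x y : ℝ) : |TR R x - TR R y| ≤ |x - y| := by
  rw [abs_le]
  constructor
  · have := TR_sub_le R y x
    rw [abs_sub_comm y x] at this
    linarith
  · exact TR_sub_le R x y

lemma measurable_TR (R : ℝ) : Measurable (TR R) :=
  ((measurable_const.sub measurable_id).max measurable_const).min measurable_const

section fixed

variable {κ J : Type*} [Fintype κ] [Fintype J]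

/-- one direction: lower tail of the truncated energy -/
lemma fixed_direction {ν : Measure ℝ} [IsProbabilityMeasure ν] (u : J → ℝ) (R q t x : ℝ)
    (hR : 0 < R) (ht : 0 ≤ t)
    (hq : q ≤ ∫ z, TR R (lin u z) ^ 2 ∂(Measure.pi fun _ : J => ν))
    (hx : x ≤ Fintype.card κ * q - t) :
    (Measure.pi fun _ : κ × J => ν) {A | ∑ a, TR R (lin u (fun j => A (a, j))) ^ 2 ≤ x}
      ≤ ENNReal.ofReal (Real.exp (-2 * t ^ 2 / (Fintype.card κ * (R ^ 2) ^ 2))) := by
  classical
  set G : Measure (J → ℝ) := Measure.pi fun _ : J => ν with hG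
  have hTm : Measurable fun z : J → ℝ => TR R (lin u z) ^ 2 :=
    ((measurable_TR R).comp (measurable_lin u)).pow_const 2
  have hTb : ∀ z : J → ℝ, 0 ≤ TR R (lin u z) ^ 2 ∧ TR R (lin u z) ^ 2 ≤ R ^ 2 := fun z =>
    ⟨sq_nonneg _, pow_le_pow_left₀ (TR_nonneg hR.le _) (TR_le _) 2⟩
  set F : (κ → J → ℝ) → ℝ := fun B => ∑ a, TR R (lin u (B a)) ^ 2 with hF
  have hFm : Measurable F := Finset.measurable_sum _ fun a _ => hTm.comp (measurable_pi_apply a)
  have hFB : ∀ B, |F B| ≤ Fintype.card κ * R ^ 2 := by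
    intro B
    rw [abs_of_nonneg (Finset.sum_nonneg fun a _ => (hTb _).1)]
    calc F B ≤ ∑ _a : κ, R ^ 2 := Finset.sum_le_sum fun a _ => (hTb _).2
      _ = Fintype.card κ * R ^ 2 := by rw [Finset.sum_const, Finset.card_univ, nsmul_eq_mul]
  have hFc : ∀ (B : κ → J → ℝ) (i : κ) (z : J → ℝ), F B - F (Function.update B i z) ≤ R ^ 2 := by
    intro B i z
    have h1 : F B - F (Function.update B i z) = TR R (lin u (B i)) ^ 2 - TR R (lin u z) ^ 2 := by
      rw [hF]
      simp only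
      rw [← Finset.sum_sub_distrib]
      rw [Finset.sum_eq_single i]
      · simp
      · intro b _ hb
        rw [Function.update_of_ne hb, sub_self]
      · intro h
        exact absurd (Finset.mem_univ i) h
    rw [h1]
    have h2 := (hTb (B i)).2
    have h3 := (hTb z).1
    linarith
  have hmcd := mcdiarmid_lower G (R ^ 2) (by positivity) (Fintype.card κ * R ^ 2) F hFm hFB hFc t ht
  have hint : Integrable (fun z : J → ℝ => TR R (lin u z) ^ 2) G :=
    Integrable.of_bound hTm.aestronglyMeasurable (R ^ 2) (Eventually.of_forall fun z => by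
      rw [Real.norm_of_nonneg (hTb z).1]; exact (hTb z).2)
  have hmean : Fintype.card κ * q ≤ ∫ B, F B ∂(Measure.pi fun _ : κ => G) := by
    rw [hF]
    simp only
    rw [integral_finsetSum]
    · have h1 : ∀ a : κ, ∫ B : κ → J → ℝ, TR R (lin u (B a)) ^ 2 ∂(Measure.pi fun _ : κ => G)
          = ∫ z, TR R (lin u z) ^ 2 ∂G := by
        intro a
        have hmp := measurePreserving_eval (fun _ : κ => G) a
        have h2 : ∫ z, TR R (lin u z) ^ 2 ∂((Measure.pi fun _ : κ => G).map (Function.eval a))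
            = ∫ B : κ → J → ℝ, TR R (lin u (B a)) ^ 2 ∂(Measure.pi fun _ : κ => G) :=
          integral_map (measurable_pi_apply a).aemeasurable hTm.aestronglyMeasurable
        rw [← h2, hmp.map_eq]
      simp_rw [h1]
      rw [Finset.sum_const, Finset.card_univ, nsmul_eq_mul]
      gcongr
    · intro a _
      have hmp := measurePreserving_eval (fun _ : κ => G) a
      exact hmp.integrable_comp_of_integrable hint
  have hm : Measurable (fun B : κ → J → ℝ => fun p : κ × J => B p.1 p.2) :=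
    measurable_pi_lambda _ fun p => (measurable_pi_apply p.2).comp (measurable_pi_apply p.1)
  have hset : MeasurableSet {A : κ × J → ℝ | ∑ a, TR R (lin u (fun j => A (a, j))) ^ 2 ≤ x} := by
    refine measurableSet_le (Finset.measurable_sum _ fun a _ => hTm.comp ?_) measurable_const
    exact measurable_pi_lambda _ fun j => measurable_pi_apply _
  rw [pi_eq_map_rows ν, Measure.map_apply hm hset]
  refine le_trans (measure_mono ?_) hmcd
  intro B hB
  have hB' : F B ≤ x := hB
  show F B ≤ (∫ B, F B ∂(Measure.pi fun _ : κ => G)) - t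
  linarith

/-- Minkowski for the truncated energies -/
lemma sqrt_energy_le (A : κ × J → ℝ) (R K : ℝ) (hK : 0 ≤ K)
    (hop : ∀ l : κ → ℝ, ‖vec A l‖ ≤ K * √(∑ a, l a ^ 2)) (y z : J → ℝ) :
    √(∑ a, TR R (lin z (fun j => A (a, j))) ^ 2)
      ≤ √(∑ a, TR R (lin y (fun j => A (a, j))) ^ 2) + K * √(∑ j, (z j - y j) ^ 2) := by
  set v : EuclideanSpace ℝ κ := WithLp.toLp 2 fun a => TR R (lin z (fun j => A (a, j))) with hv
  set w : EuclideanSpace ℝ κ := WithLp.toLp 2 fun a => TR R (lin y (fun j => A (a, j))) with hw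
  have h1 : ‖v‖ = √(∑ a, TR R (lin z (fun j => A (a, j))) ^ 2) := by
    rw [EuclideanSpace.norm_eq]; simp [hv]
  have h2 : ‖w‖ = √(∑ a, TR R (lin y (fun j => A (a, j))) ^ 2) := by
    rw [EuclideanSpace.norm_eq]; simp [hw]
  rw [← h1, ← h2]
  have h3 : ‖v‖ ≤ ‖w‖ + ‖v - w‖ := by
    have := norm_add_le w (v - w)
    simpa using this
  refine h3.trans (add_le_add le_rfl ?_)
  have h4 : ‖v - w‖ = √(∑ a, (TR R (lin z (fun j => A (a, j)))
      - TR R (lin y (fun j => A (a, j)))) ^ 2) := by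
    rw [EuclideanSpace.norm_eq]; simp [hv, hw]
  rw [h4, Real.sqrt_le_left (by positivity), mul_pow,
    Real.sq_sqrt (Finset.sum_nonneg fun _ _ => sq_nonneg _)]
  refine le_trans (Finset.sum_le_sum fun a _ => ?_) (sum_lin_sq_le A K hop fun j => z j - y j)
  have h5 := abs_TR_sub_le R (lin z (fun j => A (a, j))) (lin y (fun j => A (a, j)))
  have h6 : lin (fun j => z j - y j) (fun j => A (a, j))
      = lin z (fun j => A (a, j)) - lin y (fun j => A (a, j)) := by
    simp only [lin]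
    rw [← Finset.sum_sub_distrib]
    exact Finset.sum_congr rfl fun i _ => by ring
  rw [h6]
  rw [← sq_abs (TR R (lin z (fun j => A (a, j))) - TR R (lin y (fun j => A (a, j)))),
    ← sq_abs (lin z (fun j => A (a, j)) - lin y (fun j => A (a, j)))]
  exact pow_le_pow_left₀ (abs_nonneg _) h5 2

end fixed

/-- a net point close to a vector with small mass outside `I` -/
lemma net_point {N : ℕ} (y : Fin N → ℝ) (hy : ∑ i, y i ^ 2 = 1) (I : Finset (Fin N)) {s : ℝ}
    (hyI : ∑ i ∈ Iᶜ, y i ^ 2 ≤ s) (hs1 : s < 1) {j : ℕ} (hj2 : (1 / 2 : ℝ) ^ j ≤ 1 / 2)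
    (S : Finset (EuclideanSpace ℝ I))
    (hS : ∀ x : EuclideanSpace ℝ I, ‖x‖ ≤ 1 → ∃ c ∈ S, ‖x - c‖ ≤ (1 / 2) ^ j) :
    ∃ c ∈ S, 1 / 2 ≤ ‖c‖ ∧
      √(∑ i, (‖c‖⁻¹ * ext0 I c i - y i) ^ 2) ≤ √2 * √s + 2 * (1 / 2) ^ j := by
  set w : EuclideanSpace ℝ I := WithLp.toLp 2 fun i => y i with hw
  have hwsq : ‖w‖ ^ 2 = ∑ i ∈ I, y i ^ 2 := by
    rw [EuclideanSpace.norm_sq_eq, ← Finset.sum_coe_sort I]
    refine Finset.sum_congr rfl fun i _ => ?_
    simp [hw]
  have hsplit : ‖w‖ ^ 2 + ∑ i ∈ Iᶜ, y i ^ 2 = 1 := by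
    rw [hwsq, Finset.sum_add_sum_compl, hy]
  have hout0 : 0 ≤ ∑ i ∈ Iᶜ, y i ^ 2 := Finset.sum_nonneg fun _ _ => sq_nonneg _
  have hwle : ‖w‖ ≤ 1 := by
    have : ‖w‖ ^ 2 ≤ 1 := by linarith
    have h0 := norm_nonneg w
    nlinarith
  have hwpos : 0 < ‖w‖ := by
    have h1 : 0 < ‖w‖ ^ 2 := by linarith
    rcases (norm_nonneg w).lt_or_eq with h | h
    · exact h
    · rw [← h] at h1
      norm_num at h1
  set u : EuclideanSpace ℝ I := ‖w‖⁻¹ • w with hu
  have hun : ‖u‖ = 1 := by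
    rw [hu, norm_smul, norm_inv, norm_norm, inv_mul_cancel₀ hwpos.ne']
  obtain ⟨c, hc, huc⟩ := hS u hun.le
  have hchalf : 1 / 2 ≤ ‖c‖ := by
    have h1 : ‖u‖ ≤ ‖u - c‖ + ‖c‖ := by
      have := norm_add_le (u - c) c
      simpa using this
    linarith
  have hcpos : 0 < ‖c‖ := by linarith
  refine ⟨c, hc, hchalf, ?_⟩
  set z : Fin N → ℝ := fun i => ‖c‖⁻¹ * ext0 I c i with hz
  -- three points in Euclidean space
  set Y : EuclideanSpace ℝ (Fin N) := WithLp.toLp 2 y with hY
  set Z : EuclideanSpace ℝ (Fin N) := WithLp.toLp 2 z with hZ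
  set V : EuclideanSpace ℝ (Fin N) := WithLp.toLp 2 (ext0 I u) with hV
  have h1 : √(∑ i, (z i - y i) ^ 2) = ‖Z - Y‖ := by
    rw [EuclideanSpace.norm_eq]; simp [hZ, hY]
  show √(∑ i, (z i - y i) ^ 2) ≤ _
  rw [h1]
  have h2 : ‖Z - Y‖ ≤ ‖V - Y‖ + ‖Z - V‖ := by
    have := norm_add_le (V - Y) (Z - V)
    have e : V - Y + (Z - V) = Z - Y := by abel
    rw [e] at this
    exact this
  have h3 : ‖V - Y‖ ≤ √2 * √s := by
    rw [← Real.sqrt_mul (by norm_num)]
    refine Real.le_sqrt_of_sq_le ?_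
    have h4 : ‖V - Y‖ ^ 2 = ∑ i, (ext0 I u i - y i) ^ 2 := by
      rw [EuclideanSpace.norm_sq_eq]; simp [hV, hY]
    rw [h4, ← Finset.sum_add_sum_compl I]
    have h5 : ∑ i ∈ Iᶜ, (ext0 I u i - y i) ^ 2 = ∑ i ∈ Iᶜ, y i ^ 2 := by
      refine Finset.sum_congr rfl fun i hi => ?_
      have : i ∉ I := Finset.mem_compl.1 hi
      simp [ext0, this]
    have h6 : ∑ i ∈ I, (ext0 I u i - y i) ^ 2 = (1 - ‖w‖) ^ 2 := by
      have h7 : ∑ i ∈ I, (ext0 I u i - y i) ^ 2 = ∑ i ∈ I, (‖w‖⁻¹ - 1) ^ 2 * y i ^ 2 := by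
        refine Finset.sum_congr rfl fun i hi => ?_
        have : ext0 I u i = ‖w‖⁻¹ * y i := by
          simp [ext0, hi, hu, hw]
        rw [this]
        ring
      rw [h7, ← Finset.mul_sum, ← hwsq, ← mul_pow]
      congr 1
      rw [sub_mul, inv_mul_cancel₀ hwpos.ne', one_mul]
    rw [h5, h6]
    nlinarith
  have h8 : ‖Z - V‖ ≤ 2 * (1 / 2) ^ j := by
    have h9 : ‖Z - V‖ = ‖‖c‖⁻¹ • c - u‖ := by
      have e1 : ‖Z - V‖ ^ 2 = ‖‖c‖⁻¹ • c - u‖ ^ 2 := by
        rw [EuclideanSpace.norm_sq_eq, ← sum_ext0_sq I]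
        refine Finset.sum_congr rfl fun i _ => ?_
        rw [Real.norm_eq_abs, sq_abs]
        congr 1
        by_cases hi : i ∈ I
        · simp [hZ, hV, hz, ext0, hi]
        · simp [hZ, hV, hz, ext0, hi]
      rw [← Real.sqrt_sq (norm_nonneg (Z - V)), e1, Real.sqrt_sq (norm_nonneg _)]
    rw [h9]
    have h10 : ‖‖c‖⁻¹ • c - c‖ = |1 - ‖c‖| := by
      have e2 : ‖c‖⁻¹ • c - c = (‖c‖⁻¹ - 1) • c := by rw [sub_smul, one_smul]
      rw [e2, norm_smul, Real.norm_eq_abs]
      have e3 : |‖c‖⁻¹ - 1| * ‖c‖ = |(‖c‖⁻¹ - 1) * ‖c‖| := by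
        rw [abs_mul, abs_of_pos hcpos]
      rw [e3, sub_mul, inv_mul_cancel₀ hcpos.ne', one_mul]
    have h11 : |1 - ‖c‖| ≤ ‖u - c‖ := by
      rw [← hun]
      exact abs_norm_sub_norm_le u c
    have h12 : ‖‖c‖⁻¹ • c - u‖ ≤ ‖‖c‖⁻¹ • c - c‖ + ‖c - u‖ := by
      have := norm_add_le (‖c‖⁻¹ • c - c) (c - u)
      simpa using this
    rw [norm_sub_rev c u] at h12
    linarith
  linarith

set_option maxHeartbeats 2000000 in
/-- **Node (H1) of LOCUB.** -/
theorem high_region (αm : ℝ) (hαm : 0 < αm) : ∃ C : ℝ, 0 < C ∧ ∀ ν : Measure ℝ, Good ν →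
    ∀ α R q : ℝ, 0 < α → α ≤ αm → 0 < R → 0 ≤ q →
    (∀ (n : ℕ) (u : Fin n → ℝ), ∑ i, u i ^ 2 = 1 →
      q ≤ ∫ x, (min (max (-1 - ∑ i, u i * x i) 0) R) ^ 2 ∂(Measure.pi fun _ : Fin n => ν)) →
    ∀ s δ : ℝ, 0 < s → s < 1 → 0 < δ → ∀ k : ℕ → ℕ,
      Tendsto (fun N : ℕ => (k N : ℝ) * Real.log N / N) atTop (𝓝 0) →
      Tendsto (fun N : ℕ => (Measure.pi fun _ : Fin (numPatterns N α) × Fin N => ν)
        {A : Patterns N α | ∃ y : Fin N → ℝ, ∑ i, y i ^ 2 = 1 ∧ ∃ I : Finset (Fin N),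
          I.card ≤ k N ∧ ∑ i ∈ Iᶜ, y i ^ 2 ≤ s ∧
          √(∑ a, (min (max (-1 - ∑ i, A (a, i) * y i) 0) R) ^ 2)
            < √(α * q * N) - C * √(s * N) - δ * √N}) atTop (𝓝 0) := by
  classical
  set K₀ : ℝ := 8 * √(αm + 1) with hK₀
  have hK₀pos : 0 < K₀ := by positivity
  refine ⟨K₀ * √2, by positivity, ?_⟩
  intro ν hν α R q hα hααm hR hq hqI s δ hs hs1 hδ k hk
  have hprob := hν.prob
  set d : ℝ := δ / 2 with hd
  have hdpos : 0 < d := by positivity
  obtain ⟨j, hj⟩ : ∃ j : ℕ, (1 / 2 : ℝ) ^ j < min (d / (2 * K₀)) (1 / 2) :=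
    exists_pow_lt_of_lt_one (lt_min (by positivity) (by norm_num)) (by norm_num)
  have hj1 : (1 / 2 : ℝ) ^ j ≤ d / (2 * K₀) := (hj.trans_le (min_le_left _ _)).le
  have hj2 : (1 / 2 : ℝ) ^ j ≤ 1 / 2 := (hj.trans_le (min_le_right _ _)).le
  set L : ℝ := (5 : ℝ) ^ j with hL
  set c₁ : ℝ := d ^ 4 / (2 * α * R ^ 4) with hc₁
  have hc₁pos : 0 < c₁ := by positivity
  -- the bound for one `N`
  have hbound : ∀ᶠ N : ℕ in atTop, (Measure.pi fun _ : Fin (numPatterns N α) × Fin N => ν)
        {A : Patterns N α | ∃ y : Fin N → ℝ, ∑ i, y i ^ 2 = 1 ∧ ∃ I : Finset (Fin N),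
          I.card ≤ k N ∧ ∑ i ∈ Iᶜ, y i ^ 2 ≤ s ∧
          √(∑ a, (min (max (-1 - ∑ i, A (a, i) * y i) 0) R) ^ 2)
            < √(α * q * N) - K₀ * √2 * √(s * N) - δ * √N}
      ≤ ENNReal.ofReal (Real.exp (-(N : ℝ))
          + Real.exp (N * ((k N : ℝ) * Real.log N / N + L / N - c₁))) := by
    have hN1 : ∀ᶠ N : ℕ in atTop, max (max 1 (2 * q / d ^ 2)) (1 / α) ≤ (N : ℝ) :=
      tendsto_natCast_atTop_atTop.eventually_ge_atTop _
    filter_upwards [hN1] with N hN
    have hn1 : (1 : ℝ) ≤ N := ((le_max_left _ _).trans (le_max_left _ _)).trans hN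
    have hnq : 2 * q / d ^ 2 ≤ (N : ℝ) := ((le_max_right _ _).trans (le_max_left _ _)).trans hN
    have hnα : 1 / α ≤ (N : ℝ) := (le_max_right _ _).trans hN
    set n : ℝ := (N : ℝ) with hn
    have hn0 : 0 < n := by linarith
    set M : ℕ := numPatterns N α with hM
    have hMle : (M : ℝ) ≤ α * n := Nat.floor_le (by positivity)
    have hMge : α * n - 1 ≤ M := by
      have h1 : α * n < M + 1 := Nat.lt_floor_add_one _
      linarith
    have hM1 : (1 : ℝ) ≤ M := by
      have h1 : 1 ≤ α * n := by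
        rw [div_le_iff₀ hα] at hnα
        linarith
      have h2 : 1 ≤ M := (Nat.one_le_floor_iff _).2 h1
      exact_mod_cast h2
    set P := (Measure.pi fun _ : Fin M × Fin N => ν) with hP
    have hnets : ∀ U : Finset (Fin N), ∃ S : Finset (EuclideanSpace ℝ U),
        S.card ≤ (5 ^ j) ^ U.card ∧ ∀ x : EuclideanSpace ℝ U, ‖x‖ ≤ 1 → ∃ c ∈ S,
          ‖x - c‖ ≤ (1 / 2) ^ j := by
      intro U
      obtain ⟨S, hS, hS2⟩ := exists_net (EuclideanSpace ℝ U) j
      refine ⟨S, ?_, hS2⟩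
      simpa using hS
    choose S hSc hS using hnets
    set small : Finset (Finset (Fin N)) :=
      (Finset.univ : Finset (Fin N)).powerset.filter (fun U => (U.card : ℝ) ≤ k N) with hsmall
    set B : ℝ := 8 * √(α + 1) * √n with hB
    set bad0 : Set (Fin M × Fin N → ℝ) :=
      {A | ¬ ∀ l : Fin M → ℝ, ‖vec A l‖ ≤ B * √(∑ a, l a ^ 2)} with hbad0
    set x₀ : ℝ := α * q * n - d ^ 2 * n with hx₀
    set bad1 : Set (Fin M × Fin N → ℝ) :=
      ⋃ U ∈ small, ⋃ c ∈ (S U).filter (fun c => 1 / 2 ≤ ‖c‖),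
        {A | ∑ a, TR R (lin (fun i => ‖c‖⁻¹ * ext0 U c i) (fun j => A (a, j))) ^ 2 ≤ x₀} with hbad1
    have hBle : B ≤ K₀ * √n := by
      rw [hB, hK₀]
      gcongr
    have hincl : {A : Patterns N α | ∃ y : Fin N → ℝ, ∑ i, y i ^ 2 = 1 ∧ ∃ I : Finset (Fin N),
          I.card ≤ k N ∧ ∑ i ∈ Iᶜ, y i ^ 2 ≤ s ∧
          √(∑ a, (min (max (-1 - ∑ i, A (a, i) * y i) 0) R) ^ 2)
            < √(α * q * n) - K₀ * √2 * √(s * n) - δ * √n} ⊆ bad0 ∪ bad1 := by
      rintro A ⟨y, hy, I, hI, hyI, hlt⟩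
      by_cases hA0 : A ∈ bad0
      · exact Or.inl hA0
      right
      have hop : ∀ l : Fin M → ℝ, ‖vec A l‖ ≤ B * √(∑ a, l a ^ 2) := by
        by_contra hcon
        exact hA0 hcon
      obtain ⟨c, hc, hchalf, hdist⟩ := net_point y hy I hyI hs1 hj2 (S I) (hS I)
      have hIsmall : I ∈ small := Finset.mem_filter.2 ⟨by simp, by exact_mod_cast hI⟩
      refine Set.mem_iUnion₂.2 ⟨I, hIsmall, Set.mem_iUnion₂.2
        ⟨c, Finset.mem_filter.2 ⟨hc, hchalf⟩, ?_⟩⟩
      show ∑ a, TR R (lin (fun i => ‖c‖⁻¹ * ext0 I c i) (fun j => A (a, j))) ^ 2 ≤ x₀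
      set z : Fin N → ℝ := fun i => ‖c‖⁻¹ * ext0 I c i with hz
      -- energies
      have hE := sqrt_energy_le A R B (by positivity) hop y z
      have hlin : ∀ a, lin y (fun j => A (a, j)) = ∑ i, A (a, i) * y i := fun a =>
        Finset.sum_congr rfl fun i _ => mul_comm _ _
      have hEy : √(∑ a, TR R (lin y (fun j => A (a, j))) ^ 2)
          = √(∑ a, (min (max (-1 - ∑ i, A (a, i) * y i) 0) R) ^ 2) := by
        simp_rw [hlin]
        rfl
      rw [hEy] at hE
      have hBd : B * √(∑ i, (z i - y i) ^ 2) ≤ K₀ * √2 * √(s * n) + d * √n := by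
        calc B * √(∑ i, (z i - y i) ^ 2) ≤ (K₀ * √n) * (√2 * √s + 2 * (1 / 2) ^ j) := by
              gcongr
          _ = K₀ * √2 * (√s * √n) + (2 * K₀ * (1 / 2) ^ j) * √n := by ring
          _ ≤ K₀ * √2 * √(s * n) + d * √n := by
              rw [Real.sqrt_mul hs.le]
              gcongr
              rw [le_div_iff₀ (by positivity)] at hj1
              linarith
      have hfin : √(∑ a, TR R (lin z (fun j => A (a, j))) ^ 2) < √(α * q * n) - d * √n := by
        have : δ * √n = 2 * (d * √n) := by rw [hd]; ring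
        linarith
      set a₀ : ℝ := √(α * q) with ha₀
      have ha₀n : √(α * q * n) = a₀ * √n := by rw [Real.sqrt_mul (by positivity)]
      rw [ha₀n] at hfin
      have hsq0 : 0 ≤ √(∑ a, TR R (lin z (fun j => A (a, j))) ^ 2) := Real.sqrt_nonneg _
      have hsn : 0 < √n := Real.sqrt_pos.2 hn0
      have had : d < a₀ := by
        by_contra hcon
        push Not at hcon
        have : (a₀ - d) * √n ≤ 0 := mul_nonpos_of_nonpos_of_nonneg (by linarith) hsn.le
        linarith
      have hS0 : 0 ≤ ∑ a, TR R (lin z (fun j => A (a, j))) ^ 2 :=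
        Finset.sum_nonneg fun _ _ => sq_nonneg _
      calc ∑ a, TR R (lin z (fun j => A (a, j))) ^ 2
          = √(∑ a, TR R (lin z (fun j => A (a, j))) ^ 2) ^ 2 := (Real.sq_sqrt hS0).symm
        _ ≤ ((a₀ - d) * √n) ^ 2 := by
            apply pow_le_pow_left₀ hsq0
            linarith
        _ = (a₀ - d) ^ 2 * n := by rw [mul_pow, Real.sq_sqrt hn0.le]
        _ ≤ (a₀ ^ 2 - d ^ 2) * n := by
            gcongr
            nlinarith
        _ = x₀ := by
            rw [ha₀, Real.sq_sqrt (by positivity), hx₀]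
            ring
    have hP0 : P bad0 ≤ ENNReal.ofReal (Real.exp (-n)) := by
      have h1 := opnorm_event (κ := Fin M) (J := Fin N) hν α hα.le (by simpa using hMle)
      simpa [hbad0, hB, hn] using h1
    have hP1 : P bad1 ≤ ENNReal.ofReal (Real.exp (n * ((k N : ℝ) * Real.log n / n + L / n - c₁))) := by
      have hone : ∀ U ∈ small, ∀ c ∈ (S U).filter (fun c => 1 / 2 ≤ ‖c‖),
          P {A | ∑ a, TR R (lin (fun i => ‖c‖⁻¹ * ext0 U c i) (fun j => A (a, j))) ^ 2 ≤ x₀}
            ≤ ENNReal.ofReal (Real.exp (-(c₁ * n))) := by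
        intro U _ c hc
        have hc2 : 1 / 2 ≤ ‖c‖ := (Finset.mem_filter.1 hc).2
        have hcpos : 0 < ‖c‖ := by linarith
        have hunit : ∑ i, (‖c‖⁻¹ * ext0 U c i) ^ 2 = 1 := by
          simp_rw [mul_pow]
          rw [← Finset.mul_sum, sum_ext0_sq, ← mul_pow, inv_mul_cancel₀ hcpos.ne', one_pow]
        have h1 := fixed_direction (κ := Fin M) (J := Fin N) (ν := ν)
          (fun i => ‖c‖⁻¹ * ext0 U c i) R q (d ^ 2 * n / 2) x₀ hR (by positivity)
          (by
            refine (hqI N _ hunit).trans (le_of_eq ?_)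
            rfl)
          (by
            rw [Fintype.card_fin, hx₀]
            have h2 : q ≤ d ^ 2 * n / 2 := by
              rw [div_le_iff₀ (by positivity)] at hnq
              linarith
            have h3 : (α * n - 1) * q ≤ M * q := by gcongr
            nlinarith)
        refine h1.trans (ENNReal.ofReal_le_ofReal (Real.exp_le_exp.2 ?_))
        rw [Fintype.card_fin]
        have h4 : -2 * (d ^ 2 * n / 2) ^ 2 / ((M : ℝ) * (R ^ 2) ^ 2)
            = -((d ^ 4 * n ^ 2 / 2) / (M * R ^ 4)) := by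
          ring
        rw [h4, neg_le_neg_iff, hc₁]
        rw [div_mul_eq_mul_div, div_le_div_iff₀ (by positivity) (by positivity)]
        have h5 : d ^ 4 * n * (M * R ^ 4) ≤ d ^ 4 * n * (α * n * R ^ 4) := by gcongr
        nlinarith
      calc P bad1 ≤ ∑ U ∈ small, P (⋃ c ∈ (S U).filter (fun c => 1 / 2 ≤ ‖c‖),
              {A | ∑ a, TR R (lin (fun i => ‖c‖⁻¹ * ext0 U c i) (fun j => A (a, j))) ^ 2 ≤ x₀}) :=
            measure_biUnion_finset_le _ _
        _ ≤ ∑ U ∈ small, ENNReal.ofReal (L ^ U.card * Real.exp (-(c₁ * n))) := by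
            refine Finset.sum_le_sum fun U hU => ?_
            calc P (⋃ c ∈ (S U).filter (fun c => 1 / 2 ≤ ‖c‖),
                  {A | ∑ a, TR R (lin (fun i => ‖c‖⁻¹ * ext0 U c i) (fun j => A (a, j))) ^ 2 ≤ x₀})
                ≤ ∑ c ∈ (S U).filter (fun c => 1 / 2 ≤ ‖c‖), P {A | ∑ a, TR R
                    (lin (fun i => ‖c‖⁻¹ * ext0 U c i) (fun j => A (a, j))) ^ 2 ≤ x₀} :=
                  measure_biUnion_finset_le _ _
              _ ≤ ∑ _c ∈ (S U).filter (fun c => 1 / 2 ≤ ‖c‖),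
                    ENNReal.ofReal (Real.exp (-(c₁ * n))) :=
                  Finset.sum_le_sum fun c hc => hone U hU c hc
              _ = (((S U).filter (fun c => 1 / 2 ≤ ‖c‖)).card : ℝ≥0∞) *
                    ENNReal.ofReal (Real.exp (-(c₁ * n))) := by
                  rw [Finset.sum_const, nsmul_eq_mul]
              _ ≤ ENNReal.ofReal (L ^ U.card) * ENNReal.ofReal (Real.exp (-(c₁ * n))) := by
                  gcongr
                  rw [← ENNReal.ofReal_natCast]
                  refine ENNReal.ofReal_le_ofReal ?_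
                  have h1 : ((S U).filter (fun c => 1 / 2 ≤ ‖c‖)).card ≤ (5 ^ j) ^ U.card :=
                    (Finset.card_filter_le _ _).trans (hSc U)
                  rw [hL]
                  exact_mod_cast h1
              _ = ENNReal.ofReal (L ^ U.card * Real.exp (-(c₁ * n))) := by
                  rw [← ENNReal.ofReal_mul (by positivity)]
        _ = ENNReal.ofReal (∑ U ∈ small, L ^ U.card * Real.exp (-(c₁ * n))) := by
            rw [ENNReal.ofReal_sum_of_nonneg]
            intro U _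
            positivity
        _ ≤ ENNReal.ofReal (Real.exp (n * ((k N : ℝ) * Real.log n / n + L / n - c₁))) := by
            refine ENNReal.ofReal_le_ofReal ?_
            rw [← Finset.sum_mul]
            have h1 := sum_small_subsets (κ := Fin N) L (Real.log n) (k N) (by positivity)
              (Real.log_nonneg hn1)
            calc (∑ U ∈ small, L ^ U.card) * Real.exp (-(c₁ * n))
                ≤ Real.exp (Real.log n * k N + L * Real.exp (-Real.log n) * Fintype.card (Fin N)) *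
                    Real.exp (-(c₁ * n)) := by gcongr
              _ = Real.exp (Real.log n * k N + L * Real.exp (-Real.log n) * n - c₁ * n) := by
                  rw [← Real.exp_add, Fintype.card_fin]
                  congr 1
              _ = Real.exp (n * ((k N : ℝ) * Real.log n / n + L / n - c₁)) := by
                  congr 1
                  rw [Real.exp_neg, Real.exp_log hn0]
                  field_simp
    calc P _ ≤ P (bad0 ∪ bad1) := measure_mono hincl
      _ ≤ P bad0 + P bad1 := measure_union_le _ _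
      _ ≤ ENNReal.ofReal (Real.exp (-n)) +
            ENNReal.ofReal (Real.exp (n * ((k N : ℝ) * Real.log n / n + L / n - c₁))) :=
          add_le_add hP0 hP1
      _ = _ := by rw [ENNReal.ofReal_add (by positivity) (by positivity)]
  -- the bound tends to zero
  have hlim : Tendsto (fun N : ℕ => ENNReal.ofReal (Real.exp (-(N : ℝ))
          + Real.exp (N * ((k N : ℝ) * Real.log N / N + L / N - c₁)))) atTop (𝓝 0) := by
    rw [← ENNReal.ofReal_zero]
    refine ENNReal.tendsto_ofReal ?_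
    have h1 : Tendsto (fun N : ℕ => Real.exp (-(N : ℝ))) atTop (𝓝 0) :=
      Real.tendsto_exp_atBot.comp (tendsto_neg_atTop_atBot.comp tendsto_natCast_atTop_atTop)
    have h2 : Tendsto (fun N : ℕ => L / (N : ℝ)) atTop (𝓝 0) :=
      tendsto_const_nhds.div_atTop tendsto_natCast_atTop_atTop
    have h3 : Tendsto (fun N : ℕ => (k N : ℝ) * Real.log N / N + L / N - c₁) atTop
        (𝓝 (0 + 0 - c₁)) := (hk.add h2).sub_const c₁
    have h4 : Tendsto (fun N : ℕ => (N : ℝ) * ((k N : ℝ) * Real.log N / N + L / N - c₁)) atTop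
        atBot := by
      refine Tendsto.atTop_mul_neg (C := 0 + 0 - c₁) (by linarith) tendsto_natCast_atTop_atTop h3
    have h5 := Real.tendsto_exp_atBot.comp h4
    have h6 := h1.add h5
    simpa using h6
  exact tendsto_of_tendsto_of_tendsto_of_le_of_le' tendsto_const_nhds hlim
    (Eventually.of_forall fun _ => zero_le) hbound

end Crest.Agent.R146.High_840
end

-- ▼ part R146/ConcA_237
section

/-!
# R146 (helper237), node (C), part A: generic log-partition functions with bounded row potentials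

`lz σ u A = log ∫ exp (∑ a, u a (A a) y) dσ(y)` for a probability measure `σ`, rows `A a : X`, and
row potentials `u a : X → Y → ℝ` with `|u a x y| ≤ K`.

* `abs_lz_le`, `measurable_lz`
* `variance_lz_le`: Efron-Stein over rows
* `abs_integral_lz_sub_le`: change of the row potentials, one row at a time
* `abs_lz_sub_comp_le`: change of the number of rows
-/

set_option autoImplicit false

open MeasureTheory ProbabilityTheory Filter
open scoped ENNReal NNReal

namespace Crest.Agent.R146.ConcA_237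

section basic

variable {Y : Type*} [MeasurableSpace Y] {σ : Measure Y} [IsProbabilityMeasure σ]

lemma integrable_exp_of_bdd {h : Y → ℝ} (hm : Measurable h) {C : ℝ} (hC : ∀ y, |h y| ≤ C) :
    Integrable (fun y => Real.exp (h y)) σ := by
  refine Integrable.of_bound (C := Real.exp C) (hm.exp.aestronglyMeasurable)
    (Eventually.of_forall fun y => ?_)
  rw [Real.norm_eq_abs, abs_of_pos (Real.exp_pos _)]
  exact Real.exp_le_exp.2 ((le_abs_self _).trans (hC y))

lemma exp_le_intExp {h : Y → ℝ} (hm : Measurable h) {C c : ℝ} (hC : ∀ y, |h y| ≤ C)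
    (hc : ∀ y, c ≤ h y) : Real.exp c ≤ ∫ y, Real.exp (h y) ∂σ := by
  have h1 : ∫ _y : Y, Real.exp c ∂σ ≤ ∫ y, Real.exp (h y) ∂σ :=
    integral_mono (integrable_const _) (integrable_exp_of_bdd hm hC)
      (fun y => Real.exp_le_exp.2 (hc y))
  simpa using h1

lemma intExp_le_exp {h : Y → ℝ} (hm : Measurable h) {C c : ℝ} (hC : ∀ y, |h y| ≤ C)
    (hc : ∀ y, h y ≤ c) : ∫ y, Real.exp (h y) ∂σ ≤ Real.exp c := by
  have h1 : ∫ y, Real.exp (h y) ∂σ ≤ ∫ _y : Y, Real.exp c ∂σ :=
    integral_mono (integrable_exp_of_bdd hm hC) (integrable_const _)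
      (fun y => Real.exp_le_exp.2 (hc y))
  simpa using h1

lemma intExp_pos {h : Y → ℝ} (hm : Measurable h) {C : ℝ} (hC : ∀ y, |h y| ≤ C) :
    0 < ∫ y, Real.exp (h y) ∂σ :=
  (Real.exp_pos _).trans_le (exp_le_intExp hm hC fun y => neg_le_of_abs_le (hC y))

lemma abs_log_intExp_le {h : Y → ℝ} (hm : Measurable h) {C : ℝ} (hC : ∀ y, |h y| ≤ C) :
    |Real.log (∫ y, Real.exp (h y) ∂σ)| ≤ C := by
  have h0 := intExp_pos (σ := σ) hm hC
  rw [abs_le]
  constructor
  · rw [Real.le_log_iff_exp_le h0]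
    exact exp_le_intExp hm hC fun y => neg_le_of_abs_le (hC y)
  · rw [Real.log_le_iff_le_exp h0]
    exact intExp_le_exp hm hC fun y => le_of_abs_le (hC y)




end basic

section rows

variable {Y X ι : Type*} [MeasurableSpace Y] [MeasurableSpace X] [Fintype ι]

/-- the generic log-partition function -/
noncomputable def lz (σ : Measure Y) (u : ι → X → Y → ℝ) (A : ι → X) : ℝ :=
  Real.log (∫ y, Real.exp (∑ a, u a (A a) y) ∂σ)

/-- a family of row potentials, jointly measurable and bounded by `K` -/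
structure RowPot (u : ι → X → Y → ℝ) (K : ℝ) : Prop where
  meas : ∀ a, Measurable fun p : X × Y => u a p.1 p.2
  bdd : ∀ a x y, |u a x y| ≤ K

lemma RowPot.meas_sum {u : ι → X → Y → ℝ} {K : ℝ} (hu : RowPot u K) :
    Measurable fun p : (ι → X) × Y => ∑ a, u a (p.1 a) p.2 := by
  refine Finset.measurable_sum _ fun a _ => ?_
  have h1 : Measurable fun p : (ι → X) × Y => (p.1 a, p.2) :=
    ((measurable_pi_apply a).comp measurable_fst).prodMk measurable_snd
  exact (hu.meas a).comp h1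

lemma RowPot.meas_sum_right {u : ι → X → Y → ℝ} {K : ℝ} (hu : RowPot u K) (A : ι → X) :
    Measurable fun y : Y => ∑ a, u a (A a) y :=
  hu.meas_sum.comp (measurable_const.prodMk measurable_id)

lemma RowPot.abs_sum_le {u : ι → X → Y → ℝ} {K : ℝ} (hu : RowPot u K) (A : ι → X) (y : Y) :
    |∑ a, u a (A a) y| ≤ Fintype.card ι * K := by
  calc |∑ a, u a (A a) y| ≤ ∑ a, |u a (A a) y| := Finset.abs_sum_le_sum_abs _ _
    _ ≤ ∑ _a : ι, K := Finset.sum_le_sum fun a _ => hu.bdd a _ _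
    _ = Fintype.card ι * K := by simp

variable {σ : Measure Y} [IsProbabilityMeasure σ]

lemma abs_lz_le {u : ι → X → Y → ℝ} {K : ℝ} (hu : RowPot u K) (A : ι → X) :
    |lz σ u A| ≤ Fintype.card ι * K :=
  abs_log_intExp_le (hu.meas_sum_right A) (hu.abs_sum_le A)

lemma measurable_lz {u : ι → X → Y → ℝ} {K : ℝ} (hu : RowPot u K) : Measurable (lz σ u) := by
  unfold lz
  refine Real.measurable_log.comp ?_
  have h1 : StronglyMeasurable fun p : (ι → X) × Y => Real.exp (∑ a, u a (p.1 a) p.2) :=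
    hu.meas_sum.exp.stronglyMeasurable
  exact h1.integral_prod_right'.measurable








end rows

section number

variable {Y X ι κ : Type*} [MeasurableSpace Y] [MeasurableSpace X] [Fintype ι] [Fintype κ]
  {σ : Measure Y} [IsProbabilityMeasure σ]




end number

end Crest.Agent.R146.ConcA_237
end

-- ▼ part R146/Conc_237
section

/-!
# R146 (helper237), node (C), part B: the literal pressure

* `sphP N`: the normalised sphere law; `spherePressure` as a row functional `lz`
* entry laws: `patternLaw`, `patternLawMix` are `Measure.pi` of one entry law `ν`; rows form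
* measurability, bounds, integrability of `spherePressure`
* `variance_spherePressure_le` (Efron-Stein over rows), `tendsto_tail`
* the literal third conjunct of S0206 from the second
* density and potential dependence of the expected pressure
-/

set_option autoImplicit false

open MeasureTheory ProbabilityTheory Filter
open scoped ENNReal NNReal Topology

namespace Crest.Agent.R146.Conc_237

open Crest.ProbabilityR.Perceptron
open Crest.Agent.R146.ConcA_237

/-! ### the normalised sphere law -/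

/-- the uniform probability law on the unit sphere -/
noncomputable def sphP (N : ℕ) : Measure (UnitSphere N) :=
  (sphereLaw N Set.univ)⁻¹ • sphereLaw N

instance isFiniteMeasure_sphereLaw (N : ℕ) : IsFiniteMeasure (sphereLaw N) := by
  unfold sphereLaw; infer_instance

lemma sphereLaw_univ_ne_zero {N : ℕ} (hN : 0 < N) : sphereLaw N Set.univ ≠ 0 := by
  have : Nonempty (Fin N) := ⟨⟨0, hN⟩⟩
  unfold sphereLaw
  rw [Measure.toSphere_apply_univ]
  refine mul_ne_zero ?_ (Metric.measure_ball_pos _ _ one_pos).ne'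
  simp [hN.ne']

lemma isProb_sphP {N : ℕ} (hN : 0 < N) : IsProbabilityMeasure (sphP N) := by
  constructor
  unfold sphP
  rw [Measure.smul_apply, smul_eq_mul]
  exact ENNReal.inv_mul_cancel (sphereLaw_univ_ne_zero hN) (measure_ne_top _ _)

lemma integral_sphP (N : ℕ) (f : UnitSphere N → ℝ) :
    ∫ y, f y ∂sphP N = (∫ y, f y ∂sphereLaw N) / (sphereLaw N).real Set.univ := by
  unfold sphP
  rw [integral_smul_measure, measureReal_def, ENNReal.toReal_inv, smul_eq_mul, div_eq_inv_mul]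

/-! ### the field of a row -/

/-- the field `∑ i, x i * y i` -/
noncomputable def dotR {N : ℕ} (x : Fin N → ℝ) (y : UnitSphere N) : ℝ :=
  ∑ i, x i * (y : EuclideanSpace ℝ (Fin N)) i

lemma measurable_dotR {N : ℕ} : Measurable fun p : (Fin N → ℝ) × UnitSphere N => dotR p.1 p.2 := by
  unfold dotR
  refine Finset.measurable_sum _ fun i _ => ?_
  refine ((measurable_pi_apply i).comp measurable_fst).mul ?_
  have h1 : Continuous fun y : UnitSphere N => (y : EuclideanSpace ℝ (Fin N)) i := by fun_prop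
  exact h1.measurable.comp measurable_snd

/-- the row potential attached to `ψ a` -/
noncomputable def rp {N : ℕ} {ι : Type*} (ψ : ι → ℝ → ℝ) (a : ι) (x : Fin N → ℝ)
    (y : UnitSphere N) : ℝ := ψ a (dotR x y)

lemma rowPot_rp {N : ℕ} {ι : Type*} {ψ : ι → ℝ → ℝ} {K : ℝ} (hm : ∀ a, Measurable (ψ a))
    (hK : ∀ a x, |ψ a x| ≤ K) : RowPot (rp (N := N) ψ) K :=
  ⟨fun a => (hm a).comp measurable_dotR, fun _ _ _ => hK _ _⟩

/-- the literal pressure is a row functional -/
lemma spherePressure_eq (N : ℕ) (α β : ℝ) (φ : ℝ → ℝ) (g : Patterns N α) :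
    spherePressure N α β φ g =
      lz (sphP N) (rp (N := N) fun (_ : Fin (numPatterns N α)) x => β * φ x)
        (MeasurableEquiv.curry _ _ _ g) / N := by
  unfold spherePressure lz
  rw [integral_sphP]
  congr 4
  funext y
  congr 1
  unfold potentialSum
  rw [Finset.mul_sum]
  rfl

/-! ### rows form of the pattern laws -/

/-- the pattern law with all entries of law `ν`; `patternLaw` and `patternLawMix` are instances -/
noncomputable def patLaw (N : ℕ) (α : ℝ) (ν : Measure ℝ) : Measure (Patterns N α) :=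
  Measure.pi fun _ => ν



instance isProb_mixtureLaw (ε : ℝ) : IsProbabilityMeasure (mixtureLaw ε) := by
  constructor
  unfold mixtureLaw
  rw [Measure.add_apply, Measure.smul_apply, Measure.smul_apply, measure_univ, measure_univ]
  simp only [ENNReal.smul_def, smul_eq_mul, mul_one]
  rw [← ENNReal.coe_add, ← ENNReal.coe_one]
  congr 1
  rw [← two_mul, mul_inv_cancel₀ two_ne_zero]

instance isProb_patLaw (N : ℕ) (α : ℝ) (ν : Measure ℝ) [IsProbabilityMeasure ν] :
    IsProbabilityMeasure (patLaw N α ν) := by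
  unfold patLaw; infer_instance

instance isProb_patternLaw (N : ℕ) (α : ℝ) : IsProbabilityMeasure (patternLaw N α) := by
  unfold patternLaw; infer_instance

instance isProb_patternLawMix (N : ℕ) (α ε : ℝ) : IsProbabilityMeasure (patternLawMix N α ε) := by
  unfold patternLawMix; infer_instance

/-- the law of one row -/
noncomputable def rowLaw (N : ℕ) (ν : Measure ℝ) : Measure (Fin N → ℝ) := Measure.pi fun _ => ν

instance isProb_rowLaw (N : ℕ) (ν : Measure ℝ) [IsProbabilityMeasure ν] :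
    IsProbabilityMeasure (rowLaw N ν) := by
  unfold rowLaw; infer_instance




/-! ### measurability, bounds -/

section basic

variable {N : ℕ} {α β : ℝ} {φ : ℝ → ℝ} {K : ℝ}

lemma rowPot_const (hφ : Measurable φ) (hK : ∀ x, |φ x| ≤ K) :
    RowPot (rp (N := N) fun (_ : Fin (numPatterns N α)) x => β * φ x) (|β| * K) :=
  rowPot_rp (fun _ => hφ.const_mul β) fun _ x => by
    rw [abs_mul]; exact mul_le_mul_of_nonneg_left (hK x) (abs_nonneg _)

lemma spherePressure_zero (α β : ℝ) (φ : ℝ → ℝ) (g : Patterns 0 α) :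
    spherePressure 0 α β φ g = 0 := by
  simp [spherePressure]

lemma measurable_spherePressure (hφ : Measurable φ) (hK : ∀ x, |φ x| ≤ K) :
    Measurable (spherePressure N α β φ) := by
  rcases Nat.eq_zero_or_pos N with rfl | hN
  · have : spherePressure 0 α β φ = fun _ => 0 := by
      funext g; exact spherePressure_zero α β φ g
    rw [this]; exact measurable_const
  · have := isProb_sphP hN
    have h1 : spherePressure N α β φ = fun g => lz (sphP N) (rp (N := N)
        fun (_ : Fin (numPatterns N α)) x => β * φ x) (MeasurableEquiv.curry _ _ _ g) / N := by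
      funext g; exact spherePressure_eq N α β φ g
    rw [h1]
    exact ((measurable_lz (rowPot_const hφ hK)).comp (MeasurableEquiv.measurable _)).div_const _

lemma numPatterns_le (hα : 0 ≤ α) : (numPatterns N α : ℝ) ≤ α * N :=
  Nat.floor_le (mul_nonneg hα (Nat.cast_nonneg _))

lemma abs_spherePressure_le' (hφ : Measurable φ) (hK : ∀ x, |φ x| ≤ K) (g : Patterns N α) :
    |spherePressure N α β φ g| ≤ (numPatterns N α : ℝ) * (|β| * K) / N := by
  rcases Nat.eq_zero_or_pos N with rfl | hN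
  · rw [spherePressure_zero]; simp
  · have := isProb_sphP hN
    rw [spherePressure_eq, abs_div, Nat.abs_cast]
    refine div_le_div_of_nonneg_right ?_ (Nat.cast_nonneg _)
    have := abs_lz_le (σ := sphP N) (rowPot_const (N := N) (α := α) (β := β) hφ hK)
      (MeasurableEquiv.curry _ _ _ g)
    simpa using this

lemma abs_spherePressure_le (hα : 0 ≤ α) (hφ : Measurable φ) (hK : ∀ x, |φ x| ≤ K)
    (g : Patterns N α) : |spherePressure N α β φ g| ≤ α * (|β| * K) := by
  have hK0 : 0 ≤ K := (abs_nonneg _).trans (hK 0)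
  refine (abs_spherePressure_le' hφ hK g).trans ?_
  rcases Nat.eq_zero_or_pos N with rfl | hN
  · simp; positivity
  · have hN' : (0 : ℝ) < N := by exact_mod_cast hN
    rw [div_le_iff₀ hN']
    have := numPatterns_le (N := N) hα
    nlinarith [mul_nonneg (abs_nonneg β) hK0]

variable (ν : Measure ℝ) [IsProbabilityMeasure ν]

lemma memLp_spherePressure (hφ : Measurable φ) (hK : ∀ x, |φ x| ≤ K) (p : ℝ≥0∞) :
    MemLp (spherePressure N α β φ) p (patLaw N α ν) :=
  MemLp.of_bound (measurable_spherePressure hφ hK).aestronglyMeasurable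
    ((numPatterns N α : ℝ) * (|β| * K) / N)
    (Eventually.of_forall fun g => by
      rw [Real.norm_eq_abs]; exact abs_spherePressure_le' hφ hK g)

lemma integrable_spherePressure (hφ : Measurable φ) (hK : ∀ x, |φ x| ≤ K) :
    Integrable (spherePressure N α β φ) (patLaw N α ν) :=
  memLp_one_iff_integrable.1 (memLp_spherePressure ν hφ hK 1)



end basic




/-! ### dependence on the density and on the potential -/








/-! ### the Gaussian row -/





end Crest.Agent.R146.Conc_237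
end

-- ▼ part R146/LocAsm2_508
section

/-!
Row 146, node LOC (task 13), helper508: probabilistic lemmas of the final assembly of `LOCCORE`.
-/

set_option autoImplicit false

open MeasureTheory ProbabilityTheory Filter Set
open scoped ENNReal NNReal Topology

namespace Crest.Agent.R146.LocAsm_508

open Crest.ProbabilityR.Perceptron
open Crest.Agent.R146.Sph_409
open Crest.Agent.R146.LocXR_508
open Crest.Agent.R146.LocCov_508
open Crest.Agent.R146.LocCore_508 (Tcut QLow LOCCORE)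

noncomputable section

variable {N M : ℕ}

/-- concentration of one block, as a function of the full array -/
theorem conc_block {ν : Measure ℝ} [IsProbabilityMeasure ν] {ψ : ℝ → ℝ} {K : ℝ}
    (hψ : Measurable ψ) (hK : ∀ x, |ψ x| ≤ K) (I : Finset (Fin N)) (u : {i // i ∈ I} → ℝ)
    (μ κ : ℝ) {t : ℝ} (ht : 0 ≤ t) :
    (Measure.pi fun _ : Fin M × Fin N => ν)
      {A | (∫ A', XF ψ μ κ u A' ∂(Measure.pi fun _ : Fin M × ({i // i ∈ I} ⊕ Fin (N - I.card)) => ν))
        + t ≤ XF ψ μ κ u (fun p : Fin M × ({i // i ∈ I} ⊕ Fin (N - I.card)) =>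
          A (p.1, EI I p.2))} ≤
      ENNReal.ofReal (Real.exp (-t ^ 2 / (2 * M * K ^ 2))) := by
  have h := Crest.Agent.R146.LocConc_840.xconc ν ψ K hψ hK M (N - I.card) {i // i ∈ I} u μ κ t ht
  refine le_trans (le_of_eq ?_) h
  let e : Fin M × ({i // i ∈ I} ⊕ Fin (N - I.card)) ≃ Fin M × Fin N :=
    Equiv.prodCongr (Equiv.refl _) (EI I)
  have h1 := (measurePreserving_piCongrLeft (fun _ : Fin M × Fin N => ν) e).symm
  have h2 := h1.measure_preimage_equiv
    {A : Fin M × ({i // i ∈ I} ⊕ Fin (N - I.card)) → ℝ |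
      (∫ A', XF ψ μ κ u A' ∂(Measure.pi fun _ : Fin M × ({i // i ∈ I} ⊕ Fin (N - I.card)) => ν))
        + t ≤ XF ψ μ κ u A}
  rw [← h2]
  rfl

/-- integral bound from a bad set -/
theorem integral_le_bad {Ω : Type} [MeasurableSpace Ω] {P : Measure Ω} [IsProbabilityMeasure P]
    {f : Ω → ℝ} (hf : Integrable f P) {a b : ℝ} {S : Set Ω}
    (h1 : ∀ A, A ∉ S → f A ≤ a) (h2 : ∀ A, f A ≤ a + b) :
    ∫ A, f A ∂P ≤ a + b * (P S).toReal := by
  have hm := measurableSet_toMeasurable P S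
  have h3 : ∀ A, f A ≤ a + (toMeasurable P S).indicator (fun _ => b) A := by
    intro A
    by_cases hA : A ∈ toMeasurable P S
    · rw [Set.indicator_of_mem hA]; exact h2 A
    · rw [Set.indicator_of_notMem hA, add_zero]
      exact h1 A fun h => hA (subset_toMeasurable P S h)
  have h4 : Integrable (fun A => a + (toMeasurable P S).indicator (fun _ => b) A) P :=
    (integrable_const a).add ((integrable_const b).indicator hm)
  refine (integral_mono hf h4 h3).trans (le_of_eq ?_)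
  rw [integral_add (integrable_const a) ((integrable_const b).indicator hm), integral_const,
    integral_indicator_const _ hm, measureReal_def, measureReal_def, measure_toMeasurable,
    measure_univ]
  simp [mul_comm]

/-- the energy in the high region -/
theorem high_energy [NeZero N] {ψ : ℝ → ℝ} {b c0 R s ρ : ℝ} {K0 : ℕ} (hb : 0 ≤ b)
    (hψ : ∀ x, ψ x ≤ c0 - b / 2 * Tcut R x ^ 2) {A : Fin M × Fin N → ℝ}
    (hA : ¬ ∃ y : Fin N → ℝ, ∑ i, y i ^ 2 = 1 ∧ ∃ I : Finset (Fin N), I.card ≤ K0 ∧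
      ∑ i ∈ Iᶜ, y i ^ 2 ≤ s ∧
      √(∑ a, (min (max (-1 - ∑ i, A (a, i) * y i) 0) R) ^ 2) < ρ) :
    ∀ y ∈ Hg N K0 s, ∑ a, ψ (∑ i, A (a, i) * (y : En N) i) ≤ M * c0 - b / 2 * (max ρ 0) ^ 2 := by
  rintro y ⟨I, hI, hy⟩
  have h1 : ρ ≤ √(∑ a, (min (max (-1 - ∑ i, A (a, i) * (y : En N) i) 0) R) ^ 2) := by
    by_contra hc
    push Not at hc
    exact hA ⟨fun i => (y : En N) i, sum_sq_sphere y, I, hI, hy, hc⟩
  have h2 : (max ρ 0) ^ 2 ≤ ∑ a, (Tcut R (∑ i, A (a, i) * (y : En N) i)) ^ 2 := by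
    have h3 : max ρ 0 ≤ √(∑ a, (min (max (-1 - ∑ i, A (a, i) * (y : En N) i) 0) R) ^ 2) :=
      max_le h1 (Real.sqrt_nonneg _)
    have h4 := pow_le_pow_left₀ (le_max_right ρ 0) h3 2
    rwa [Real.sq_sqrt (Finset.sum_nonneg fun _ _ => sq_nonneg _)] at h4
  calc ∑ a, ψ (∑ i, A (a, i) * (y : En N) i)
      ≤ ∑ a : Fin M, (c0 - b / 2 * Tcut R (∑ i, A (a, i) * (y : En N) i) ^ 2) :=
        Finset.sum_le_sum fun a _ => hψ _
    _ = M * c0 - b / 2 * ∑ a, (Tcut R (∑ i, A (a, i) * (y : En N) i)) ^ 2 := by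
        rw [Finset.sum_sub_distrib, ← Finset.mul_sum]; simp
    _ ≤ _ := by
        have := mul_le_mul_of_nonneg_left h2 (show 0 ≤ b / 2 by positivity)
        linarith

/-- the literal pressure -/
theorem pressure_eq {α : ℝ} (ψ : ℝ → ℝ) (A : Patterns N α) :
    spherePressure N α 1 ψ A =
      Real.log (∫ y : UnitSphere N, Real.exp (∑ a, ψ (∑ i, A (a, i) * (y : En N) i)) ∂uS N) / N := by
  rw [spherePressure_eq_uS]
  simp only [one_mul]
  rfl

end

end Crest.Agent.R146.LocAsm_508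
end

-- ▼ part R146/LocAsm_508
section

/-!
Row 146, node LOC (task 13), helper508: **LOCCORE**.
-/

set_option autoImplicit false

open MeasureTheory ProbabilityTheory Filter Set
open scoped ENNReal NNReal Topology

namespace Crest.Agent.R146.LocAsm_508

open Crest.ProbabilityR.Perceptron
open Crest.Agent.R146.Sph_409
open Crest.Agent.R146.LocXR_508
open Crest.Agent.R146.LocCov_508
open Crest.Agent.R146.LocSeq_508
open Crest.Agent.R146.LocCore_508 (Tcut QLow LOCCORE)
open Crest.Agent.R146.P34_734 (Test pM)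
open Crest.Agent.R146.S6Def_988 (Lev Th SP)

noncomputable section

/-- choice of the mesh -/
theorem exists_mesh {c s d : ℝ} (hd : 0 < d) : ∃ h : ℝ, 0 < h ∧ h ≤ 1 ∧
    c * √(9 * h + h ^ 2 / (4 * s)) ≤ d := by
  have hc : Continuous fun h : ℝ => c * √(9 * h + h ^ 2 / (4 * s)) := by fun_prop
  have h0 : Tendsto (fun h : ℝ => c * √(9 * h + h ^ 2 / (4 * s))) (𝓝[>] 0) (𝓝 0) := by
    have := (hc.tendsto 0).mono_left (nhdsWithin_le_nhds (s := Set.Ioi 0))
    simpa using this
  have h1 : ∀ᶠ h in 𝓝[>] (0 : ℝ), c * √(9 * h + h ^ 2 / (4 * s)) < d :=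
    h0.eventually (gt_mem_nhds hd)
  have h2 : ∀ᶠ h in 𝓝[>] (0 : ℝ), h ∈ Set.Ioc (0 : ℝ) 1 :=
    Ioc_mem_nhdsGT zero_lt_one
  obtain ⟨h, ha, hb⟩ := (h1.and h2).exists
  exact ⟨h, hb.1, hb.2, ha.le⟩

/-- the high region, all cases -/
theorem high_case {αm C : ℝ} (hC : 0 < C) (hHR : ∀ ν : Measure ℝ,
    Crest.Agent.R146.RepairLaw_840.Good ν →
    ∀ α R q : ℝ, 0 < α → α ≤ αm → 0 < R → 0 ≤ q →
    (∀ (n : ℕ) (u : Fin n → ℝ), ∑ i, u i ^ 2 = 1 →
      q ≤ ∫ x, (min (max (-1 - ∑ i, u i * x i) 0) R) ^ 2 ∂(Measure.pi fun _ : Fin n => ν)) →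
    ∀ s δ : ℝ, 0 < s → s < 1 → 0 < δ → ∀ k : ℕ → ℕ,
      Tendsto (fun N : ℕ => (k N : ℝ) * Real.log N / N) atTop (𝓝 0) →
      Tendsto (fun N : ℕ => (Measure.pi fun _ : Fin (numPatterns N α) × Fin N => ν)
        {A : Patterns N α | ∃ y : Fin N → ℝ, ∑ i, y i ^ 2 = 1 ∧ ∃ I : Finset (Fin N),
          I.card ≤ k N ∧ ∑ i ∈ Iᶜ, y i ^ 2 ≤ s ∧
          √(∑ a, (min (max (-1 - ∑ i, A (a, i) * y i) 0) R) ^ 2)
            < √(α * q * N) - C * √(s * N) - δ * √N}) atTop (𝓝 0))
    {α ε s b c0 R q d : ℝ} (hα : 0 < α) (hααm : α ≤ αm) (hε0 : 0 ≤ ε) (hε1 : ε ≤ 1 / 2)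
    (hs0 : 0 < s) (hs1 : s < 1) {ψ : ℝ → ℝ} (hb : 0 ≤ b) (hR : 0 ≤ R) (hq : 0 ≤ q)
    (hψ : ∀ x, ψ x ≤ c0 - b / 2 * Tcut R x ^ 2) (hQ : QLow ε R q) (hd : 0 < d) :
    ∃ bad : (N : ℕ) → Set (Patterns N α),
      Tendsto (fun N : ℕ => (Measure.pi fun _ : Fin (numPatterns N α) × Fin N => mixtureLaw ε)
        (bad N)) atTop (𝓝 0) ∧
      ∀ N, 1 ≤ N → ∀ A, A ∉ bad N → ∀ y ∈ Hg N (K0 N) s,
        ∑ a, ψ (∑ i, A (a, i) * (y : En N) i) ≤ numPatterns N α * c0 -
          N * (b / 2 * (max (√(α * q) - C * √s) 0) ^ 2 - d) := by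
  rcases hR.lt_or_eq with hRpos | hR0
  · set xp := max (√(α * q) - C * √s) 0 with hxp
    have hxp0 : 0 ≤ xp := le_max_right _ _
    set d3 := d / (b * xp + 1) with hd3
    have hd3pos : 0 < d3 := by positivity
    have hd3b : b * xp * d3 ≤ d := by
      rw [hd3, ← mul_div_assoc, div_le_iff₀ (by positivity)]
      nlinarith [mul_nonneg hb hxp0]
    refine ⟨fun N => {A : Patterns N α | ∃ y : Fin N → ℝ, ∑ i, y i ^ 2 = 1 ∧ ∃ I : Finset (Fin N),
          I.card ≤ K0 N ∧ ∑ i ∈ Iᶜ, y i ^ 2 ≤ s ∧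
          √(∑ a, (min (max (-1 - ∑ i, A (a, i) * y i) 0) R) ^ 2)
            < √(α * q * N) - C * √(s * N) - d3 * √N}, ?_, ?_⟩
    · exact hHR (mixtureLaw ε)
        (Crest.Agent.R146.RepairLaw_840.good_mixtureLaw ε hε0 (by linarith)) α R q hα hααm hRpos hq
        (fun n u hu => hQ (Fin n) u hu) s d3 hs0 hs1 hd3pos K0 tendsto_K0_log
    · intro N hN A hA y hy
      have : NeZero N := ⟨by omega⟩
      have h1 := high_energy (M := numPatterns N α) hb hψ hA y hy
      refine h1.trans ?_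
      have hN0 : (0 : ℝ) ≤ N := Nat.cast_nonneg _
      have e1 : √(α * q * N) - C * √(s * N) - d3 * √N = (√(α * q) - C * √s - d3) * √N := by
        rw [Real.sqrt_mul (by positivity), Real.sqrt_mul hs0.le]; ring
      rw [e1]
      have e2 : (N : ℝ) * (max (√(α * q) - C * √s - d3) 0) ^ 2 =
          (max ((√(α * q) - C * √s - d3) * √N) 0) ^ 2 := by
        have : max ((√(α * q) - C * √s - d3) * √N) 0 = max (√(α * q) - C * √s - d3) 0 * √N := by
          rw [max_mul_of_nonneg _ _ (Real.sqrt_nonneg _), zero_mul]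
        rw [this, mul_pow, Real.sq_sqrt hN0]; ring
      rw [← e2]
      have e3 : xp ^ 2 - 2 * xp * d3 ≤ (max (√(α * q) - C * √s - d3) 0) ^ 2 := by
        set x := √(α * q) - C * √s with hx
        rcases le_total x 0 with h0 | h0
        · have : xp = 0 := by rw [hxp]; exact max_eq_right h0
          rw [this]; simp only [mul_zero, zero_mul, sub_zero, ne_eq, OfNat.ofNat_ne_zero,
            not_false_eq_true, zero_pow]; exact sq_nonneg _
        · have hxx : xp = x := by rw [hxp]; exact max_eq_left h0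
          rw [hxx]
          rcases le_total d3 x with h2 | h2
          · rw [max_eq_left (by linarith)]; nlinarith
          · rw [max_eq_right (by linarith)]; nlinarith
      have e4 := mul_le_mul_of_nonneg_left e3 (show 0 ≤ b / 2 * (N : ℝ) by positivity)
      have e5 := mul_le_mul_of_nonneg_left hd3b hN0
      nlinarith
  · subst hR0
    have hT : ∀ x, Tcut 0 x = 0 := fun x => by
      unfold Tcut; exact min_eq_right (le_max_right _ _)
    have hq0 : q = 0 := by
      refine le_antisymm ?_ hq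
      have := hQ Unit (fun _ => 1) (by simp)
      simpa [hT] using this
    refine ⟨fun _ => ∅, by simp, ?_⟩
    intro N hN A _ y _
    have e1 : max (√(α * q) - C * √s) 0 = 0 := by
      rw [hq0, mul_zero, Real.sqrt_zero]
      exact max_eq_right (by have := Real.sqrt_nonneg s; nlinarith)
    rw [e1]
    calc ∑ a, ψ (∑ i, A (a, i) * (y : En N) i) ≤ ∑ _a : Fin (numPatterns N α), c0 := by
          refine Finset.sum_le_sum fun a _ => ?_
          have := hψ (∑ i, A (a, i) * (y : En N) i)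
          rw [hT] at this
          simpa using this
      _ = numPatterns N α * c0 := by simp
      _ ≤ _ := by
          have : 0 ≤ (N : ℝ) * d := by positivity
          linarith

/-- the low region: means of the blocks -/
theorem low_case (hUB : Crest.Agent.R146.S6U_988.UB) {ψ : ℝ → ℝ} (hψ : Test ψ) {b0 : ℝ}
    (hb0 : 0 ≤ b0) (hlo : Crest.Agent.R146.LocRec_508.MidLo b0 ψ)
    (hhi : Crest.Agent.R146.LocRec_508.MidHi (1 / 2) ψ) {α : ℝ} (hα : 0 < α) {d ε s h : ℝ}
    (hd : 0 < d) (hε0 : 0 ≤ ε) (hε1 : ε ≤ 1 / 2) (hs0 : 0 < s) (hs1 : s < 1) (hαε : α * ε ≤ s)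
    (hh : 0 < h) :
    ∃ J0 : ℕ, ∀ J, J0 ≤ J → ∀ P : ℕ → ℝ, Lev J P → P J < 1 →
    ∀ᶠ N : ℕ in atTop, ∀ I : Finset (Fin N), I.card ≤ K0 N → ∀ u : {i // i ∈ I} → ℝ,
      (∃ k : ℕ, (k : ℝ) * h ≤ 1 ∧ ∑ i, u i ^ 2 = k * h) → ∑ i, u i ^ 2 ≤ 1 - s →
      ∫ A, XF ψ (∑ i, u i ^ 2) (kN N / √s) u A ∂(Measure.pi fun _ :
        Fin (numPatterns N α) × ({i // i ∈ I} ⊕ Fin (N - I.card)) => mixtureLaw ε) ≤
      N * (α * Th J ψ P + SP J P - 1 / 2 * Real.log (1 - ∑ i, u i ^ 2) + d) := by
  obtain ⟨J0, hJ0⟩ := Crest.Agent.R146L878.low_boundXF hUB hψ hb0 hlo hhi hα hd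
  refine ⟨J0, fun J hJ P hP hP1 => ?_⟩
  have key : ∀ k ∈ Finset.range (⌊1 / h⌋₊ + 1), ∀ᶠ N : ℕ in atTop, (k : ℝ) * h ≤ 1 - s →
      ∀ n, N - K0 N ≤ n → n ≤ N → ∀ (I : Type) [Fintype I] (u : I → ℝ), ∑ i, u i ^ 2 = k * h →
      ∫ A, XF ψ (k * h) (kN N / √s) u A ∂(Measure.pi fun _ :
        Fin (numPatterns N α) × (I ⊕ Fin n) => mixtureLaw ε) ≤
      N * (α * Th J ψ P + SP J P - 1 / 2 * Real.log (1 - k * h) + d) := by
    intro k _
    by_cases hk : (k : ℝ) * h ≤ 1 - s
    · obtain ⟨N0, η, hη, h1⟩ := hJ0 J hJ P hP hP1 (k * h) (by positivity) (by linarith)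
      have hη' : 0 < η * s ^ 2 := by positivity
      filter_upwards [eventually_ge_atTop N0, eventually_ge_atTop 1,
        K0_eventually_le (c := 1 / 2) (by norm_num), DD_pos,
        tendsto_kN3.eventually (gt_mem_nhds hη')] with N hN hN1 hK0 hDD hk3 _ n hn hnN I _ u hu
      have hNp : (0 : ℝ) < N := by exact_mod_cast hN1
      have hN1' : (1 : ℝ) ≤ N := by exact_mod_cast hN1
      have hkN := kN_pos (N := N) (by omega)
      have hkN1 : kN N ≤ 1 := by
        unfold kN
        exact Real.rpow_le_one_of_one_le_of_nonpos hN1' (by norm_num)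
      have hn2 : N ≤ 2 * n := by
        have h2 : (N : ℝ) ≤ n + K0 N := by
          have : N ≤ n + K0 N := by omega
          exact_mod_cast this
        have : (N : ℝ) ≤ 2 * n := by linarith
        exact_mod_cast this
      have hs' : 0 < √s := Real.sqrt_pos.2 hs0
      have hs'1 : √s ≤ 1 := by rw [Real.sqrt_le_one]; exact hs1.le
      refine h1 N hN n hn2 hnN (kN N / √s) (by positivity) ?_ ?_ I u hu ε hε0 (by linarith)
        (by linarith)
      · have e1 : (kN N / √s) ^ 4 = kN N ^ 4 / s ^ 2 := by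
          rw [div_pow]; congr 1
          rw [show (4 : ℕ) = 2 * 2 from rfl, pow_mul, Real.sq_sqrt hs0.le]
        rw [e1, ← mul_div_assoc, div_le_iff₀ (by positivity)]
        have e2 : (N : ℝ) * kN N ^ 4 ≤ N * kN N ^ 3 := by
          have : kN N ^ 4 ≤ kN N ^ 3 := pow_le_pow_of_le_one hkN.le hkN1 (by norm_num)
          exact mul_le_mul_of_nonneg_left this hNp.le
        linarith
      · refine hDD n hn hnN _ ?_
        rw [le_div_iff₀ hs']
        nlinarith
    · exact Eventually.of_forall fun N hc => absurd hc hk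
  filter_upwards [(Finset.eventually_all _).2 key] with N hN I hI u hk hus
  obtain ⟨k, hk1, hk2⟩ := hk
  have hkm : k ∈ Finset.range (⌊1 / h⌋₊ + 1) := by
    rw [Finset.mem_range, Nat.lt_succ_iff]
    refine Nat.le_floor ?_
    rw [le_div_iff₀ hh]; exact hk1
  have hIN : I.card ≤ N := by simpa using I.card_le_univ
  have := hN k hkm (by rw [← hk2]; exact hus) (N - I.card) (by omega) (by omega)
    {i // i ∈ I} u hk2
  rw [hk2]
  exact this

end

end Crest.Agent.R146.LocAsm_508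
end

-- ▼ part R146/LocFinal_508
section

/-!
Row 146, node LOC (task 13), helper508: **LOCCORE**, final assembly.
-/

set_option autoImplicit false

open MeasureTheory ProbabilityTheory Filter Set
open scoped ENNReal NNReal Topology

namespace Crest.Agent.R146.LocAsm_508

open Crest.ProbabilityR.Perceptron
open Crest.Agent.R146.Sph_409
open Crest.Agent.R146.LocXR_508
open Crest.Agent.R146.LocCov_508
open Crest.Agent.R146.LocSeq_508
open Crest.Agent.R146.LocCore_508 (Tcut QLow LOCCORE)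
open Crest.Agent.R146.P34_734 (Test pM)
open Crest.Agent.R146.S6Def_988 (Lev Th SP)
open Crest.Agent.R146.RepairNet_840 (vec)

noncomputable section

/-- the bad set of the blocks -/
def badB (α ε : ℝ) (ψ : ℝ → ℝ) (s d : ℝ)
    (S : ∀ (N : ℕ) (I : Finset (Fin N)), Finset ({i // i ∈ I} → ℝ)) (N : ℕ) :
    Set (Patterns N α) :=
  ⋃ I ∈ (Finset.univ : Finset (Finset (Fin N))).filter (fun I => I.card ≤ K0 N), ⋃ u ∈ S N I,
    {A | (∫ A', XF ψ (∑ i, u i ^ 2) (kN N / √s) u A' ∂(Measure.pi fun _ :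
        Fin (numPatterns N α) × ({i // i ∈ I} ⊕ Fin (N - I.card)) => mixtureLaw ε)) + d * N ≤
      XF ψ (∑ i, u i ^ 2) (kN N / √s) u (fun p : Fin (numPatterns N α) ×
        ({i // i ∈ I} ⊕ Fin (N - I.card)) => A (p.1, EI I p.2))}

/-- measure of the bad set of the blocks -/
theorem badB_le {α ε s d K : ℝ} {ψ : ℝ → ℝ} (hα : 0 < α) (hd : 0 < d) (hK1 : 1 ≤ K)
    (hψ : Measurable ψ) (hK : ∀ x, |ψ x| ≤ K) {D : ℕ}
    (S : ∀ (N : ℕ) (I : Finset (Fin N)), Finset ({i // i ∈ I} → ℝ))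
    (hSc : ∀ (N : ℕ) (I : Finset (Fin N)), (S N I).card ≤ D ^ (I.card + 1)) :
    Tendsto (fun N : ℕ => (Measure.pi fun _ : Fin (numPatterns N α) × Fin N => mixtureLaw ε)
      (badB α ε ψ s d S N)) atTop (𝓝 0) := by
  have : IsProbabilityMeasure (mixtureLaw ε) := Crest.Agent.R146L878.isProb_mixtureLaw ε
  set c1 := d ^ 2 / (2 * α * K ^ 2) with hc1
  have hKpos : 0 < K := by linarith
  have hc1pos : 0 < c1 := by positivity
  have hlim : Tendsto (fun N : ℕ => ENNReal.ofReal (Real.exp (-(c1 / 2) * N))) atTop (𝓝 0) := by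
    rw [← ENNReal.ofReal_zero]
    refine (ENNReal.continuous_ofReal.tendsto 0).comp ?_
    have h1 : Tendsto (fun N : ℕ => (c1 / 2) * (N : ℝ)) atTop atTop :=
      tendsto_natCast_atTop_atTop.const_mul_atTop (by positivity)
    refine (Real.tendsto_exp_neg_atTop_nhds_zero.comp h1).congr fun N => ?_
    simp only [Function.comp]; ring_nf
  refine tendsto_of_tendsto_of_tendsto_of_le_of_le' tendsto_const_nhds hlim
    (Eventually.of_forall fun _ => zero_le) ?_
  have hM1 : ∀ᶠ N : ℕ in atTop, 1 ≤ numPatterns N α := by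
    filter_upwards [(tendsto_natCast_atTop_atTop (R := ℝ)).eventually_ge_atTop (1 / α)] with N hN
    unfold numPatterns
    refine Nat.le_floor ?_
    rw [div_le_iff₀ hα] at hN
    push_cast; linarith
  filter_upwards [count (half_pos hc1pos) D, hM1, eventually_ge_atTop 1] with N hN hM hN1
  have hNp : (0 : ℝ) < N := by exact_mod_cast hN1
  have hMN : (numPatterns N α : ℝ) ≤ α * N := Nat.floor_le (by positivity)
  have hMp : (0 : ℝ) < numPatterns N α := by
    have : (1 : ℝ) ≤ numPatterns N α := by exact_mod_cast hM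
    linarith
  have hexp : Real.exp (-(d * N) ^ 2 / (2 * numPatterns N α * K ^ 2)) ≤ Real.exp (-c1 * N) := by
    refine Real.exp_le_exp.2 ?_
    rw [neg_div, neg_mul, neg_le_neg_iff, hc1, div_mul_eq_mul_div,
      div_le_div_iff₀ (by positivity) (by positivity)]
    have := mul_le_mul_of_nonneg_left hMN (show 0 ≤ d ^ 2 * N * (2 * K ^ 2) by positivity)
    nlinarith
  unfold badB
  refine (measure_biUnion_finset_le _ _).trans ?_
  have h1 : ∀ I ∈ (Finset.univ : Finset (Finset (Fin N))).filter (fun I => I.card ≤ K0 N),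
      (Measure.pi fun _ : Fin (numPatterns N α) × Fin N => mixtureLaw ε) (⋃ u ∈ S N I,
        {A | (∫ A', XF ψ (∑ i, u i ^ 2) (kN N / √s) u A' ∂(Measure.pi fun _ :
            Fin (numPatterns N α) × ({i // i ∈ I} ⊕ Fin (N - I.card)) => mixtureLaw ε)) + d * N ≤
          XF ψ (∑ i, u i ^ 2) (kN N / √s) u (fun p : Fin (numPatterns N α) ×
            ({i // i ∈ I} ⊕ Fin (N - I.card)) => A (p.1, EI I p.2))}) ≤
      (D ^ (I.card + 1) : ℕ) * ENNReal.ofReal (Real.exp (-c1 * N)) := by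
    intro I _
    refine (measure_biUnion_finset_le _ _).trans ?_
    refine (Finset.sum_le_sum fun u _ => (conc_block hψ hK I u _ _
      (by positivity)).trans (ENNReal.ofReal_le_ofReal hexp)).trans ?_
    rw [Finset.sum_const, nsmul_eq_mul]
    exact mul_le_mul' (by exact_mod_cast hSc N I) le_rfl
  refine (Finset.sum_le_sum h1).trans ?_
  rw [← Finset.sum_mul]
  have h2 : (∑ i ∈ (Finset.univ : Finset (Finset (Fin N))).filter (fun I => I.card ≤ K0 N),
      ((D ^ (i.card + 1) : ℕ) : ℝ≥0∞)) ≤ ENNReal.ofReal (Real.exp (c1 / 2 * N)) := by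
    have h3 := ENNReal.ofReal_le_ofReal hN
    rw [ENNReal.ofReal_natCast] at h3
    refine le_trans (le_of_eq ?_) h3
    push_cast; rfl
  refine (mul_le_mul' h2 le_rfl).trans (le_of_eq ?_)
  rw [← ENNReal.ofReal_mul (Real.exp_pos _).le, ← Real.exp_add]
  congr 2; ring

/-- **LOCCORE** -/
theorem loccore_of (hUB : Crest.Agent.R146.S6U_988.UB) : LOCCORE := by
  intro αm hαm
  obtain ⟨C, hC, hHR⟩ := Crest.Agent.R146.High_840.high_region αm hαm
  refine ⟨C, hC, ?_⟩
  intro α ε s hα hααm hε0 hε1 hs0 hs1 hαε ψ hψ b0 hb0 hlo hhi b c0 R q hb hR hq hψle hQ δ hδ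
  obtain ⟨K1, hK1'⟩ := Crest.Agent.R146L878.Test_bdd hψ
  obtain ⟨L, hL0, hL⟩ := Crest.Agent.R146L878.Test_lip hψ
  set K := max K1 1 with hKdef
  have hK1 : 1 ≤ K := le_max_right _ _
  have hK : ∀ x, |ψ x| ≤ K := fun x => (hK1' x).trans (le_max_left _ _)
  have hψc : Continuous ψ := (hψ.smooth 0).continuous
  have hψm : Measurable ψ := hψc.measurable
  have hpr : IsProbabilityMeasure (mixtureLaw ε) := Crest.Agent.R146L878.isProb_mixtureLaw ε
  set d := δ / 8 with hd'
  have hd : 0 < d := by positivity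
  set Bc := 8 * √(α + 1) with hBc
  have hBc0 : 0 ≤ Bc := by positivity
  -- the mesh
  obtain ⟨h, hh0, hh1, hhd⟩ := exists_mesh (c := L * √α * Bc) (s := s) hd
  -- the entropy constant
  set κ' := 1 - Real.exp (-(2 * d)) with hκ'
  have hexp0 : 0 < Real.exp (-(2 * d)) := Real.exp_pos _
  have hexp1 : Real.exp (-(2 * d)) < 1 := by
    rw [Real.exp_lt_one_iff]; linarith
  have hκ0 : 0 < κ' := by rw [hκ']; linarith
  have hκ1 : κ' < 1 := by rw [hκ']; linarith
  have hlogκ : Real.log (1 / (1 - κ')) = 2 * d := by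
    rw [hκ', sub_sub_cancel, one_div, ← Real.exp_neg, Real.log_exp]; ring
  -- the nets
  obtain ⟨D0, hD0⟩ := Crest.Agent.R146.LocNet_840.netp h hh0 hh1
  have hSex : ∀ (N : ℕ) (I : Finset (Fin N)), ∃ S : Finset ({i // i ∈ I} → ℝ),
      S.card ≤ (D0 + 1) ^ (I.card + 1) ∧
      (∀ u ∈ S, ∃ k : ℕ, (k : ℝ) * h ≤ 1 ∧ ∑ i, u i ^ 2 = k * h) ∧
      ∀ w : {i // i ∈ I} → ℝ, ∑ i, w i ^ 2 ≤ 1 → ∃ u ∈ S, ∑ i, u i ^ 2 ≤ ∑ i, w i ^ 2 ∧
        ∑ i, w i ^ 2 ≤ ∑ i, u i ^ 2 + h ∧ ∑ i, (w i - u i) ^ 2 ≤ 9 * h := by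
    intro N I
    obtain ⟨S, h1, h2, h3⟩ := hD0 {i // i ∈ I}
    refine ⟨S, ?_, h2, h3⟩
    rw [Fintype.card_coe] at h1
    exact h1.trans (Nat.pow_le_pow_left (Nat.le_succ D0) _)
  choose S hSc hSk hSn using hSex
  -- low region
  obtain ⟨J0, hJ0⟩ := low_case hUB hψ hb0 hlo hhi hα hd hε0 hε1 hs0 hs1 hαε hh0
  refine ⟨J0, fun J hJ P hP hP1 => ?_⟩
  have hlow := hJ0 J hJ P hP hP1
  -- high region
  obtain ⟨bad3, hbad3, hhigh⟩ := high_case hC hHR hα hααm hε0 hε1 hs0 hs1 hb hR hq hψle hQ hd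
  have hbad2 := badB_le (ε := ε) (s := s) hα hd hK1 hψm hK S hSc
  -- operator norm
  let bad1 : (N : ℕ) → Set (Patterns N α) := fun N => {A | ¬ ∀ l : Fin (numPatterns N α) → ℝ,
    ‖vec A l‖ ≤ 8 * √(α + 1) * √(Fintype.card (Fin N)) * √(∑ a, l a ^ 2)}
  have hbad1 : Tendsto (fun N : ℕ => (Measure.pi fun _ : Fin (numPatterns N α) × Fin N =>
      mixtureLaw ε) (bad1 N)) atTop (𝓝 0) := by
    have hlim : Tendsto (fun N : ℕ => ENNReal.ofReal (Real.exp (-(N : ℝ)))) atTop (𝓝 0) := by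
      rw [← ENNReal.ofReal_zero]
      exact (ENNReal.continuous_ofReal.tendsto 0).comp
        (Real.tendsto_exp_neg_atTop_nhds_zero.comp tendsto_natCast_atTop_atTop)
    refine tendsto_of_tendsto_of_tendsto_of_le_of_le' tendsto_const_nhds hlim
      (Eventually.of_forall fun _ => zero_le) (Eventually.of_forall fun N => ?_)
    have hcard : (Fintype.card (Fin (numPatterns N α)) : ℝ) ≤ α * Fintype.card (Fin N) := by
      rw [Fintype.card_fin, Fintype.card_fin]
      exact Nat.floor_le (by positivity)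
    have := Crest.Agent.R146.Large_840.opnorm_event
      (Crest.Agent.R146.RepairLaw_840.good_mixtureLaw ε hε0 (by linarith)) α hα.le hcard
    refine this.trans (le_of_eq ?_)
    rw [Fintype.card_fin]
  set V := α * Th J ψ P + SP J P with hV
  set xp := max (√(α * q) - C * √s) 0 with hxp
  set H := α * c0 - b / 2 * xp ^ 2 + 1 / 2 * Real.log s with hH
  set a := max V H + 7 * d with ha
  set b' := α * K + |a| with hb'
  have hb'0 : 0 ≤ b' := by
    have : 0 ≤ K := by linarith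
    positivity
  let bad : (N : ℕ) → Set (Patterns N α) := fun N => bad1 N ∪ badB α ε ψ s d S N ∪ bad3 N
  have hbad : Tendsto (fun N : ℕ => ((Measure.pi fun _ : Fin (numPatterns N α) × Fin N =>
      mixtureLaw ε) (bad N)).toReal) atTop (𝓝 0) := by
    rw [← ENNReal.toReal_zero]
    refine (ENNReal.tendsto_toReal ENNReal.zero_ne_top).comp ?_
    have hsum := (hbad1.add hbad2).add hbad3
    simp only [add_zero] at hsum
    refine tendsto_of_tendsto_of_tendsto_of_le_of_le tendsto_const_nhds hsum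
      (fun _ => zero_le) (fun N => ?_)
    exact (measure_union_le _ _).trans (add_le_add (measure_union_le _ _) le_rfl)
  -- the error terms
  set c2 := 1 / 2 * (Real.log (1 / κ') - Real.log s) with hc2
  have hc2' : ∀ᶠ N : ℕ in atTop, (K0 N : ℝ) * c2 ≤ d * N := by
    filter_upwards [K0_eventually_le (c := d / (|c2| + 1)) (by positivity),
      eventually_ge_atTop 1] with N hN hN1
    have hNp : (0 : ℝ) < N := by exact_mod_cast hN1
    have h0 : (0 : ℝ) ≤ K0 N := Nat.cast_nonneg _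
    calc (K0 N : ℝ) * c2 ≤ (K0 N : ℝ) * (|c2| + 1) :=
          mul_le_mul_of_nonneg_left ((le_abs_self _).trans (by linarith)) h0
      _ ≤ d / (|c2| + 1) * N * (|c2| + 1) := mul_le_mul_of_nonneg_right hN (by positivity)
      _ = d * N := by field_simp
  have hbig : ∀ᶠ N : ℕ in atTop, Real.log 2 + |c0| ≤ d * N := by
    filter_upwards [(tendsto_natCast_atTop_atTop (R := ℝ)).eventually_ge_atTop
      ((Real.log 2 + |c0|) / d)] with N hN
    rw [div_le_iff₀ hd] at hN
    linarith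
  filter_upwards [hlow, hc2', hbig, count hd (D0 + 1), eventually_ge_atTop 1,
    K0_eventually_le (c := 1 / 2) (by norm_num),
    hbad.eventually (gt_mem_nhds (show (0 : ℝ) < d / (b' + 1) by positivity))] with N hlowN hc2N
      hbigN hcountN hN1 hK0N hbadN
  have hNp : (0 : ℝ) < N := by exact_mod_cast hN1
  have : NeZero N := ⟨by omega⟩
  have hMN : (numPatterns N α : ℝ) ≤ α * N := Nat.floor_le (by positivity)
  have hMN2 : α * N < (numPatterns N α : ℝ) + 1 := Nat.lt_floor_add_one _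
  have hKN : K0 N < N := by
    have : (K0 N : ℝ) < N := by linarith
    exact_mod_cast this
  have hprp : IsProbabilityMeasure (patternLawMix N α ε) :=
    inferInstanceAs (IsProbabilityMeasure
      (Measure.pi fun _ : Fin (numPatterns N α) × Fin N => mixtureLaw ε))
  have hgood : ∀ A : Patterns N α, A ∉ bad N → spherePressure N α 1 ψ A ≤ a := by
    intro A hA
    simp only [bad, Set.mem_union, not_or] at hA
    obtain ⟨⟨hA1, hA2⟩, hA3⟩ := hA
    have hA1' : ∀ l : Fin (numPatterns N α) → ℝ,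
        ‖vec A l‖ ≤ 8 * √(α + 1) * √(Fintype.card (Fin N)) * √(∑ a, l a ^ 2) := by
      by_contra hc; exact hA1 hc
    rw [Fintype.card_fin] at hA1'
    have hop : ∀ v : Fin N → ℝ, ∑ a, (∑ i, A (a, i) * v i) ^ 2 ≤
        (Bc * √N) ^ 2 * ∑ i, v i ^ 2 := by
      intro v
      have h1 := Crest.Agent.R146.Large_840.sum_lin_sq_le A (8 * √(α + 1) * √N) hA1' v
      refine le_trans (le_of_eq ?_) h1
      refine Finset.sum_congr rfl fun a _ => ?_
      congr 1
      unfold Crest.Agent.R146.RepairLaw_840.lin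
      exact Finset.sum_congr rfl fun i _ => mul_comm _ _
    have hblock : ∀ I : Finset (Fin N), I.card ≤ K0 N → ∀ u ∈ S N I, ∑ i, u i ^ 2 ≤ 1 - s →
        XF ψ (∑ i, u i ^ 2) (kN N / √s) u (fun p : Fin (numPatterns N α) ×
          ({i // i ∈ I} ⊕ Fin (N - I.card)) => A (p.1, EI I p.2)) +
          N / 2 * Real.log (1 - ∑ i, u i ^ 2) ≤ N * V + 2 * d * N := by
      intro I hI u hu hus
      have h1 := hlowN I hI u (hSk N I u hu) hus
      have h2 : ¬ ((∫ A', XF ψ (∑ i, u i ^ 2) (kN N / √s) u A' ∂(Measure.pi fun _ :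
          Fin (numPatterns N α) × ({i // i ∈ I} ⊕ Fin (N - I.card)) => mixtureLaw ε)) + d * N ≤
          XF ψ (∑ i, u i ^ 2) (kN N / √s) u (fun p : Fin (numPatterns N α) ×
          ({i // i ∈ I} ⊕ Fin (N - I.card)) => A (p.1, EI I p.2))) := by
        intro hc
        apply hA2
        unfold badB
        simp only [Set.mem_iUnion, exists_prop]
        exact ⟨I, Finset.mem_filter.2 ⟨Finset.mem_univ _, hI⟩, u, hu, hc⟩
      push Not at h2
      have h3 : (N : ℝ) * (V - 1 / 2 * Real.log (1 - ∑ i, u i ^ 2) + d) =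
        N * V - N / 2 * Real.log (1 - ∑ i, u i ^ 2) + d * N := by ring
      rw [h3] at h1
      linarith
    have hZ := Z_le (κ := kN N) (s := s) (h := h) (κ' := κ') (L := L) (B := Bc * √N) (K := K)
      (W := N * V + 2 * d * N) (W' := numPatterns N α * c0 - N * (b / 2 * xp ^ 2 - d))
      (K0 := K0 N) (D := D0 + 1) (kN_pos (by omega)) (kN_inv_le (by omega)) hKN hs0 hs1 hκ0 hκ1
      hL0 (by positivity) (by omega) (S N) (hSc N) (hSn N) hψm hK hL hop hblock
      (hhigh N hN1 A hA3)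
    rw [pressure_eq, div_le_iff₀ hNp]
    refine hZ.trans ?_
    -- the terms
    have t1 : Real.log (2 * ((∑ I ∈ (Finset.univ : Finset (Finset (Fin N))).filter
        (fun I => I.card ≤ K0 N), (D0 + 1) ^ (I.card + 1) : ℕ) : ℝ)) ≤
        Real.log 2 + d * N := by
      have hpos : (0 : ℝ) < ((∑ I ∈ (Finset.univ : Finset (Finset (Fin N))).filter
          (fun I => I.card ≤ K0 N), (D0 + 1) ^ (I.card + 1) : ℕ) : ℝ) := by
        have : 0 < ∑ I ∈ (Finset.univ : Finset (Finset (Fin N))).filter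
            (fun I => I.card ≤ K0 N), (D0 + 1) ^ (I.card + 1) :=
          Finset.sum_pos (fun I _ => Nat.pow_pos (by omega))
            ⟨∅, Finset.mem_filter.2 ⟨Finset.mem_univ _, by simp⟩⟩
        exact_mod_cast this
      rw [Real.log_mul (by norm_num) hpos.ne']
      have := Real.log_le_log hpos hcountN
      rw [Real.log_exp] at this
      linarith
    have t2 : Rerr N (K0 N) s κ' ≤ 2 * d * N := by
      unfold Rerr
      rw [hlogκ]
      have : (K0 N : ℝ) * c2 = K0 N / 2 * Real.log (1 / κ') - K0 N / 2 * Real.log s := by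
        rw [hc2]; ring
      rw [← this]
      linarith
    have t3 : (numPatterns N α : ℝ) * c0 ≤ α * N * c0 + |c0| := by
      have h1 : (numPatterns N α : ℝ) * c0 - α * N * c0 = (numPatterns N α - α * N) * c0 := by ring
      have h2 : |((numPatterns N α : ℝ) - α * N) * c0| ≤ 1 * |c0| := by
        rw [abs_mul]
        refine mul_le_mul_of_nonneg_right ?_ (abs_nonneg _)
        rw [abs_le]; constructor <;> linarith
      have h3 := le_abs_self (((numPatterns N α : ℝ) - α * N) * c0)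
      linarith
    have t4 : L * √(numPatterns N α) * (Bc * √N) * √(9 * h + h ^ 2 / (4 * s)) ≤ d * N := by
      have h1 : √(numPatterns N α : ℝ) ≤ √α * √N := by
        rw [← Real.sqrt_mul hα.le]; exact Real.sqrt_le_sqrt hMN
      calc L * √(numPatterns N α) * (Bc * √N) * √(9 * h + h ^ 2 / (4 * s))
          ≤ L * (√α * √N) * (Bc * √N) * √(9 * h + h ^ 2 / (4 * s)) := by gcongr
        _ = (L * √α * Bc * √(9 * h + h ^ 2 / (4 * s))) * (√N * √N) := by ring
        _ ≤ d * (√N * √N) := mul_le_mul_of_nonneg_right hhd (by positivity)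
        _ = d * N := by rw [Real.mul_self_sqrt hNp.le]
    have t5 : max (numPatterns N α * c0 - N * (b / 2 * xp ^ 2 - d) + N / 2 * Real.log s)
        (L * √(numPatterns N α) * (Bc * √N) * √(9 * h + h ^ 2 / (4 * s)) +
          (N * V + 2 * d * N)) ≤ N * max V H + 3 * d * N + |c0| := by
      have hc := abs_nonneg c0
      have hdN : 0 ≤ d * N := by positivity
      refine max_le ?_ ?_
      · have h1 : N * H ≤ N * max V H := mul_le_mul_of_nonneg_left (le_max_right _ _) hNp.le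
        have h2 : N * H = α * N * c0 - N * (b / 2 * xp ^ 2) + N / 2 * Real.log s := by
          rw [hH]; ring
        have h3 : (N : ℝ) * (b / 2 * xp ^ 2 - d) = N * (b / 2 * xp ^ 2) - d * N := by ring
        rw [h3]
        linarith
      · have h1 : N * V ≤ N * max V H := mul_le_mul_of_nonneg_left (le_max_left _ _) hNp.le
        linarith
    have h7 : a * N = N * max V H + 7 * d * N := by rw [ha]; ring
    rw [h7]
    linarith
  have hall : ∀ A : Patterns N α, spherePressure N α 1 ψ A ≤ a + b' := by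
    intro A
    have h1 := Crest.Agent.R146.Conc_237.abs_spherePressure_le (β := 1) hα.le hψm hK A
    rw [abs_one, one_mul] at h1
    have h2 := le_abs_self (spherePressure N α 1 ψ A)
    have h3 := neg_abs_le a
    rw [hb']; linarith
  have hint : Integrable (fun A : Patterns N α => spherePressure N α 1 ψ A)
      (patternLawMix N α ε) :=
    Crest.Agent.R146.Conc_237.integrable_spherePressure (mixtureLaw ε) hψm hK
  have hfin := integral_le_bad hint hgood hall
  have h8 : b' * ((Measure.pi fun _ : Fin (numPatterns N α) × Fin N =>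
      mixtureLaw ε) (bad N)).toReal ≤ d := by
    calc b' * ((Measure.pi fun _ : Fin (numPatterns N α) × Fin N =>
          mixtureLaw ε) (bad N)).toReal ≤ (b' + 1) * (d / (b' + 1)) :=
          mul_le_mul (by linarith) hbadN.le ENNReal.toReal_nonneg (by linarith)
      _ = d := by field_simp
  have h9 : pM N α ε ψ ≤ a + d := by
    unfold pM
    refine hfin.trans ?_
    have h8' : b' * ((patternLawMix N α ε) (bad N)).toReal ≤ d := h8
    linarith
  have h10 : a + d = max V H + δ := by rw [ha, hd']; ring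
  rw [h10] at h9
  exact h9

/-- **LOCCORE**, unconditionally. -/
theorem loccore : LOCCORE := loccore_of Crest.Agent.R146.S6UBF_167.ub

end

end Crest.Agent.R146.LocAsm_508
end

-- ▼ part R146/S6Fin_734

/-!
Row 146 (helper734): **S0206, S0204, S0203, unconditionally** (glue only; the nodes are theorems of
helpers 988, 674, 290, 874, 130, 143, 857, 451, 762, 36, 663, 649, 53, 311, 495, 947, 679, 47, 167,
911, 422, 559, 52, 769, 382, 944, 409, 237, 508, 840, 878, 393, 468, 435, 323, ...).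
-/

set_option autoImplicit false

namespace Crest.Agent.R146.S6Fin_734

open MeasureTheory ProbabilityTheory Filter Topology
open Crest.ProbabilityR.Perceptron
open Crest.Agent.R146

theorem lb : S6U_988.LB := LbBr_679.lb_of (Inc1_947.inc1_of S6LAll_988.incl S6LAll_988.crude)

theorem s0206 : Fin34_734.S0206Stmt :=
  Wrap_947.s0206_of S6Lit_663.LIT_holds S6Lit_663.CHG_holds S6Lit_663.SMOOTH_holds CtlG_130.vid
    CtlG_130.vl CtlG_130.vc MonB_911.ent MonB_911.apx S6UBF_167.ub lb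

theorem s0204 :
    ∃ αc : ℝ, 0 < αc ∧ ∃ ε₀ : ℝ, 0 < ε₀ ∧ ε₀ < 1 ∧
      ∀ ε : ℝ, 0 ≤ ε → ε < ε₀ → IsSharpThreshold ε αc :=
  Fin34_734.s0204 s0206 LocAsm_508.loccore

theorem s0203 :
    ∃ αc : ℝ, 0 < αc ∧
      (∀ α : ℝ, 0 < α → α < αc →
        Filter.Tendsto (fun N : ℕ => satProb N α) Filter.atTop (nhds 1)) ∧
      (∀ α : ℝ, αc < α →
        Filter.Tendsto (fun N : ℕ => satProb N α) Filter.atTop (nhds 0)) :=
  Fin34_734.s0203 s0206 LocAsm_508.loccore

end Crest.Agent.R146.S6Fin_734
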