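import Mathlib

-- ▼ part R146/Gauss_778
section

/-!
# One-dimensional Gaussian inequalities (helper778), used by the exponents package of row 146

`γ := gaussianReal 0 1`, `c1 := ∫ max y 0 dγ`.
* `tail_le`    : `γ (Iic (-a)) ≤ exp (-a²/2)` (`a ≥ 0`);
* `cmp`        : for `L ≥ 1`, `0 ≤ z`, `δ ≤ 1/L`:
  `γ {y | z + y ≤ δ} ≤ γ (Iic (-3L)) + e⁸ L ∫ (z+y)₋ dγ`;
* `tail_ge`    : `γ (Ici y) ≥ c exp (-y²/2) / (1+y)`.
-/

set_option autoImplicit false

open MeasureTheory ProbabilityTheory Real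

namespace Crest.Agent.R146.Gauss_778

/-- standard Gaussian law -/
noncomputable abbrev γ : Measure ℝ := gaussianReal 0 1

/-- `E g₊` -/
noncomputable def c1 : ℝ := ∫ y, max y 0 ∂γ

lemma pdf_eq (x : ℝ) : gaussianPDFReal 0 1 x = (√(2 * π))⁻¹ * exp (-x ^ 2 / 2) := by
  simp [gaussianPDFReal]

lemma integrable_id : Integrable (fun y : ℝ => y) γ :=
  (memLp_id_gaussianReal' (μ := 0) (v := 1) 1 (by simp)).integrable le_rfl

lemma integrable_pos : Integrable (fun y : ℝ => max y 0) γ := integrable_id.pos_part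

lemma integrable_neg : Integrable (fun y : ℝ => max (-y) 0) γ := integrable_id.neg.pos_part

lemma integral_neg_part : ∫ y, max (-y) 0 ∂γ = c1 := by
  have h : (gaussianReal 0 1).map (fun x : ℝ => -x) = gaussianReal 0 1 := by
    simpa using gaussianReal_map_neg (μ := (0 : ℝ)) (v := 1)
  unfold c1
  conv_rhs => rw [γ, ← h]
  rw [integral_map (by fun_prop) (by fun_prop)]

lemma c1_pos : 0 < c1 := by
  unfold c1
  rw [integral_pos_iff_support_of_nonneg (f := fun y : ℝ => max y 0) (fun y => le_max_right y 0) integrable_pos]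
  have : (Function.support fun y : ℝ => max y 0) = Set.Ioi 0 := by
    ext y
    simp only [Function.mem_support, ne_eq, Set.mem_Ioi]
    constructor
    · intro h
      by_contra h'
      exact h (max_eq_right (not_lt.1 h'))
    · intro h
      rw [max_eq_left h.le]; exact h.ne'
  rw [this, γ, gaussianReal_apply 0 one_ne_zero]
  rw [lintegral_pos_iff_support (measurable_gaussianPDF 0 1)]
  rw [support_gaussianPDF one_ne_zero]
  simp





/-- lintegral against `γ` as lintegral against Lebesgue -/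
lemma lint (f : ℝ → ENNReal) :
    ∫⁻ y, f y ∂γ = ∫⁻ y, ENNReal.ofReal (gaussianPDFReal 0 1 y) * f y := by
  rw [γ, gaussianReal_of_var_ne_zero 0 one_ne_zero,
    lintegral_withDensity_eq_lintegral_mul_non_measurable _ (measurable_gaussianPDF 0 1)]
  · rfl
  · exact Filter.Eventually.of_forall fun y => gaussianPDF_lt_top


/-- lower bound for the Gaussian tail -/
lemma tail_ge (y : ℝ) (hy : 0 ≤ y) :
    ENNReal.ofReal ((√(2 * π))⁻¹ * exp (-2) / (1 + y) * exp (-y ^ 2 / 2)) ≤ γ (Set.Ici y) := by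
  have h1 : γ (Set.Icc y (y + 1 / (1 + y))) ≤ γ (Set.Ici y) := measure_mono fun x hx => hx.1
  refine le_trans ?_ h1
  rw [← lintegral_indicator_one measurableSet_Icc, lint]
  have h2 : ∫⁻ x in Set.Icc y (y + 1 / (1 + y)),
      ENNReal.ofReal ((√(2 * π))⁻¹ * exp (-2) * exp (-y ^ 2 / 2)) ≤
      ∫⁻ x, ENNReal.ofReal (gaussianPDFReal 0 1 x) *
        (Set.Icc y (y + 1 / (1 + y))).indicator 1 x := by
    rw [← lintegral_indicator measurableSet_Icc]
    refine lintegral_mono fun x => ?_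
    by_cases hx : x ∈ Set.Icc y (y + 1 / (1 + y))
    · rw [Set.indicator_of_mem hx, Set.indicator_of_mem hx]
      simp only [Pi.one_apply, mul_one]
      apply ENNReal.ofReal_le_ofReal
      rw [pdf_eq, mul_assoc, ← exp_add]
      refine mul_le_mul_of_nonneg_left (exp_le_exp.2 ?_) (by positivity)
      have h3 : x ≤ y + 1 / (1 + y) := hx.2
      have h4 : 0 ≤ x := hy.trans hx.1
      have h5 : y * (1 / (1 + y)) ≤ 1 := by
        rw [mul_one_div, div_le_one (by linarith)]; linarith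
      have h6 : 1 / (1 + y) ≤ 1 := by rw [div_le_one (by linarith)]; linarith
      have h7 : 0 ≤ 1 / (1 + y) := by positivity
      have h8 : x ^ 2 ≤ (y + 1 / (1 + y)) ^ 2 := by gcongr
      nlinarith
    · rw [Set.indicator_of_notMem hx]; exact bot_le
  refine le_trans (le_of_eq ?_) h2
  rw [setLIntegral_const, Real.volume_Icc, ← ENNReal.ofReal_mul (by positivity)]
  congr 1
  field_simp
  ring

end Crest.Agent.R146.Gauss_778
end

-- ▼ part R146/SnapA_778

/-!
# Snapshot tools (helper778), exponents package of row 146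

* `phi τ x = E (x + √τ g)₊` and its elementary bounds;
* `wt`: two functions with the same integrals on the sets of a sub-σ-algebra `F` have the same
  integrals against every `F`-measurable weight;
* `emY`, `emVar`: the set form of a conditional sub-Gaussian bound extends to `F`-measurable
  weights and to `F`-measurable parameters.
-/

set_option autoImplicit false

open MeasureTheory ProbabilityTheory Real
open scoped ENNReal

namespace Crest.Agent.R146.Snap_778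
open Gauss_778

noncomputable def phi (τ x : ℝ) : ℝ := ∫ y, max (x + √τ * y) 0 ∂γ

/-- the constant in the lower bound `psi_ge2` -/
noncomputable def c2 : ℝ := (√(2 * π))⁻¹ * exp (-4) / 2

lemma c2_pos : 0 < c2 := by unfold c2; positivity

lemma intg_aff (τ x : ℝ) : Integrable (fun y : ℝ => x + √τ * y) γ :=
  (integrable_const x).add (integrable_id.const_mul _)

lemma intg_phi (τ x : ℝ) : Integrable (fun y : ℝ => max (x + √τ * y) 0) γ := (intg_aff τ x).pos_part

lemma intg_psi (τ x : ℝ) : Integrable (fun y : ℝ => max (-(x + √τ * y)) 0) γ :=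
  (intg_aff τ x).neg.pos_part

lemma int_id : ∫ y : ℝ, y ∂γ = 0 := by
  have := integral_id_gaussianReal (μ := 0) (v := 1)
  exact this

lemma int_aff (τ x : ℝ) : ∫ y : ℝ, (x + √τ * y) ∂γ = x := by
  rw [integral_add (integrable_const x) (integrable_id.const_mul _), integral_const_mul, int_id]
  simp

lemma le_phi (τ x : ℝ) : x ≤ phi τ x := by
  calc x = ∫ y : ℝ, (x + √τ * y) ∂γ := (int_aff τ x).symm
    _ ≤ phi τ x := integral_mono (intg_aff τ x) (intg_phi τ x) fun y => le_max_left _ _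


lemma phi_ge (τ x : ℝ) (hx : 0 ≤ x) : √τ * c1 ≤ phi τ x := by
  unfold c1
  rw [← integral_const_mul]
  refine integral_mono (integrable_pos.const_mul _) (intg_phi τ x) fun y => ?_
  show √τ * max y 0 ≤ max (x + √τ * y) 0
  rw [mul_max_of_nonneg _ _ (sqrt_nonneg _), mul_zero]
  exact max_le_max (by linarith) le_rfl

lemma phi_sub (τ x : ℝ) : phi τ x - x = ∫ y, max (-(x + √τ * y)) 0 ∂γ := by
  have h : ∀ y : ℝ, max (-(x + √τ * y)) 0 = max (x + √τ * y) 0 - (x + √τ * y) := by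
    intro y
    rcases le_total 0 (x + √τ * y) with h | h
    · rw [max_eq_left h, max_eq_right (by linarith)]; ring
    · rw [max_eq_right h, max_eq_left (by linarith)]; ring
  simp_rw [h]
  rw [integral_sub (intg_phi τ x) (intg_aff τ x), int_aff]; rfl

lemma psi_ge (τ x : ℝ) (hx : x ≤ 0) : √τ * c1 ≤ phi τ x - x := by
  rw [phi_sub, ← integral_neg_part, ← integral_const_mul]
  refine integral_mono (integrable_neg.const_mul _) (intg_psi τ x) fun y => ?_
  show √τ * max (-y) 0 ≤ max (-(x + √τ * y)) 0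
  rw [mul_max_of_nonneg _ _ (sqrt_nonneg _), mul_zero]
  exact max_le_max (by linarith) le_rfl

lemma psi_ge2 (τ x : ℝ) (hτ : 0 < τ) (hx : 0 ≤ x) :
    √τ * (c2 * exp (-(x / √τ) ^ 2 / 2) / (1 + x / √τ) ^ 2) ≤ phi τ x - x := by
  set z : ℝ := x / √τ with hz
  have hs : 0 < √τ := sqrt_pos.2 hτ
  have hz0 : 0 ≤ z := by positivity
  have hxz : x = √τ * z := by rw [hz]; field_simp
  set w : ℝ := z + 1 / (1 + z) with hw
  have hw0 : 0 ≤ w := by positivity
  -- lower bound by an indicator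
  have h1 : ENNReal.ofReal (√τ / (1 + z)) * γ (Set.Iic (-w)) ≤
      ENNReal.ofReal (phi τ x - x) := by
    rw [phi_sub, ofReal_integral_eq_lintegral_ofReal (intg_psi τ x)
      (Filter.Eventually.of_forall fun y => le_max_right _ _),
      ← lintegral_indicator_one measurableSet_Iic, ← lintegral_const_mul' _ _ ENNReal.ofReal_ne_top]
    refine lintegral_mono fun y => ?_
    by_cases hy : y ∈ Set.Iic (-w)
    · rw [Set.indicator_of_mem hy]
      simp only [Pi.one_apply, mul_one]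
      apply ENNReal.ofReal_le_ofReal
      refine le_max_of_le_left ?_
      have hy' : y ≤ -w := hy
      have h2 : √τ * (w + y) ≤ 0 := mul_nonpos_of_nonneg_of_nonpos hs.le (by linarith)
      have h3 : √τ / (1 + z) = √τ * (1 / (1 + z)) := by ring
      rw [hxz, h3]
      rw [hw] at h2
      nlinarith
    · rw [Set.indicator_of_notMem hy]; simp
  have hsym : γ (Set.Ici w) = γ (Set.Iic (-w)) := by
    have h : (gaussianReal 0 1).map (fun x : ℝ => -x) = gaussianReal 0 1 := by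
      simpa using gaussianReal_map_neg (μ := (0 : ℝ)) (v := 1)
    conv_lhs => rw [γ, ← h]
    rw [Measure.map_apply (by fun_prop) measurableSet_Ici]
    congr 1
    ext y; simp only [Set.mem_preimage, Set.mem_Ici, Set.mem_Iic]
    constructor <;> intro h <;> linarith
  have h4 := tail_ge w hw0
  rw [hsym] at h4
  have h5 : ENNReal.ofReal (√τ / (1 + z) * ((√(2 * π))⁻¹ * exp (-2) / (1 + w) * exp (-w ^ 2 / 2)))
      ≤ ENNReal.ofReal (phi τ x - x) := by
    rw [ENNReal.ofReal_mul (by positivity)]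
    exact (mul_le_mul_right h4 _).trans h1
  have hpos : 0 ≤ phi τ x - x := by linarith [le_phi τ x]
  have h6 := (ENNReal.ofReal_le_ofReal_iff hpos).1 h5
  refine le_trans ?_ h6
  have h7 : √τ * (c2 * exp (-z ^ 2 / 2) / (1 + z) ^ 2) =
      √τ / (1 + z) * ((√(2 * π))⁻¹ * (exp (-4) * exp (-z ^ 2 / 2)) / (2 * (1 + z))) := by
    unfold c2; field_simp
  have h8 : √τ / (1 + z) * ((√(2 * π))⁻¹ * exp (-2) / (1 + w) * exp (-w ^ 2 / 2)) =
      √τ / (1 + z) * ((√(2 * π))⁻¹ * (exp (-2) * exp (-w ^ 2 / 2)) / (1 + w)) := by ring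
  rw [h7, h8, ← exp_add, ← exp_add]
  have hinv : 1 / (1 + z) ≤ 1 := by rw [div_le_one (by linarith)]; linarith
  have hinv0 : 0 ≤ 1 / (1 + z) := by positivity
  have hzz : z * (1 / (1 + z)) ≤ 1 := by
    rw [mul_one_div, div_le_one (by linarith)]; linarith
  have hw1 : 1 + w ≤ 2 * (1 + z) := by rw [hw]; linarith
  have hexp : exp (-4 + -z ^ 2 / 2) ≤ exp (-2 + -w ^ 2 / 2) := by
    apply exp_le_exp.2
    rw [hw]; nlinarith
  have h1w : 0 < 1 + w := by positivity
  gcongr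

/-! ### weights -/

section weights
variable {Ω : Type*} {F m0 : MeasurableSpace Ω} {P : Measure[m0] Ω}

/-- comparison on the sets of `F` extends to `F`-measurable weights -/
lemma wt_le (hF : F ≤ m0) {f g : Ω → ℝ≥0∞} (hf : AEMeasurable f P) (hg : AEMeasurable g P)
    (h : ∀ A, MeasurableSet[F] A → ∫⁻ ω in A, f ω ∂P ≤ ∫⁻ ω in A, g ω ∂P)
    {Y : Ω → ℝ≥0∞} (hY : Measurable[F] Y) :
    ∫⁻ ω, Y ω * f ω ∂P ≤ ∫⁻ ω, Y ω * g ω ∂P := by
  have key : ∀ f : Ω → ℝ≥0∞, AEMeasurable f P →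
      ∫⁻ ω, Y ω * f ω ∂P = ∫⁻ ω, Y ω ∂((P.withDensity f).trim hF) := by
    intro f hf
    rw [lintegral_trim hF hY, lintegral_withDensity_eq_lintegral_mul₀ hf (hY.mono hF le_rfl).aemeasurable]
    refine lintegral_congr fun ω => ?_
    simp [mul_comm]
  rw [key f hf, key g hg]
  refine lintegral_mono' ?_ le_rfl
  refine Measure.le_iff.2 fun A hA => ?_
  rw [trim_measurableSet_eq hF hA, trim_measurableSet_eq hF hA,
    withDensity_apply _ (hF A hA), withDensity_apply _ (hF A hA)]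
  exact h A hA

lemma wt (hF : F ≤ m0) {f g : Ω → ℝ≥0∞} (hf : AEMeasurable f P) (hg : AEMeasurable g P)
    (h : ∀ A, MeasurableSet[F] A → ∫⁻ ω in A, f ω ∂P = ∫⁻ ω in A, g ω ∂P)
    {Y : Ω → ℝ≥0∞} (hY : Measurable[F] Y) :
    ∫⁻ ω, Y ω * f ω ∂P = ∫⁻ ω, Y ω * g ω ∂P :=
  le_antisymm (wt_le hF hf hg (fun A hA => (h A hA).le) hY)
    (wt_le hF hg hf (fun A hA => (h A hA).ge) hY)

/-- fixed parameter, weights -/
lemma emY (hF : F ≤ m0) {d : Ω → ℝ} (hd : AEMeasurable d P) {v : ℝ}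
    (hs : ∀ (θ : ℝ) A, MeasurableSet[F] A →
      ∫⁻ ω in A, ENNReal.ofReal (exp (θ * d ω)) ∂P ≤ ENNReal.ofReal (exp (θ ^ 2 * v / 2)) * P A)
    (θ : ℝ) {Y : Ω → ℝ≥0∞} (hY : Measurable[F] Y) :
    ∫⁻ ω, Y ω * ENNReal.ofReal (exp (θ * d ω)) ∂P ≤
      ENNReal.ofReal (exp (θ ^ 2 * v / 2)) * ∫⁻ ω, Y ω ∂P := by
  have h := wt_le hF (P := P) (f := fun ω => ENNReal.ofReal (exp (θ * d ω)))
    (g := fun _ => ENNReal.ofReal (exp (θ ^ 2 * v / 2))) (by fun_prop) aemeasurable_const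
    (fun A hA => by
      rw [lintegral_const, Measure.restrict_apply_univ]; exact hs θ A hA) hY
  refine h.trans (le_of_eq ?_)
  rw [lintegral_mul_const' _ _ ENNReal.ofReal_ne_top, mul_comm]

/-- `F`-measurable parameter -/
lemma emVar (hF : F ≤ m0) {d : Ω → ℝ} (hd : AEMeasurable d P) {v : ℝ}
    (hs : ∀ (θ : ℝ) A, MeasurableSet[F] A →
      ∫⁻ ω in A, ENNReal.ofReal (exp (θ * d ω)) ∂P ≤ ENNReal.ofReal (exp (θ ^ 2 * v / 2)) * P A)
    {Θ : Ω → ℝ} (hΘ : Measurable[F] Θ) {Y : Ω → ℝ≥0∞} (hY : Measurable[F] Y) :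
    ∫⁻ ω, Y ω * ENNReal.ofReal (exp (Θ ω * d ω - Θ ω ^ 2 * v / 2)) ∂P ≤ ∫⁻ ω, Y ω ∂P := by
  have hY0 : Measurable[m0] Y := hY.mono hF le_rfl
  have hΘ0 : Measurable[m0] Θ := hΘ.mono hF le_rfl
  -- countable-valued approximations
  have step : ∀ n : ℕ, ∫⁻ ω, Y ω * ENNReal.ofReal
      (exp (((⌊((n : ℝ) + 1) * Θ ω⌋ : ℝ) / ((n : ℝ) + 1)) * d ω
        - ((⌊((n : ℝ) + 1) * Θ ω⌋ : ℝ) / ((n : ℝ) + 1)) ^ 2 * v / 2)) ∂P ≤ ∫⁻ ω, Y ω ∂P := by
    intro n
    set N : ℝ := (n : ℝ) + 1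
    have hcell : ∀ j : ℤ, MeasurableSet[F] {ω | ⌊N * Θ ω⌋ = j} := fun j =>
      (Int.measurable_floor.comp (hΘ.const_mul N)) (measurableSet_singleton j)
    have e1 : ∀ ω, Y ω * ENNReal.ofReal (exp (((⌊N * Θ ω⌋ : ℝ) / N) * d ω
        - ((⌊N * Θ ω⌋ : ℝ) / N) ^ 2 * v / 2)) =
        ∑' j : ℤ, ({ω | ⌊N * Θ ω⌋ = j}.indicator Y ω) *
          (ENNReal.ofReal (exp (-((j : ℝ) / N) ^ 2 * v / 2)) *
            ENNReal.ofReal (exp (((j : ℝ) / N) * d ω))) := by
      intro ω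
      rw [tsum_eq_single ⌊N * Θ ω⌋]
      · rw [Set.indicator_of_mem (by simp), ← ENNReal.ofReal_mul (exp_pos _).le, ← exp_add]
        congr 3; ring
      · intro j hj
        rw [Set.indicator_of_notMem (by simpa using hj.symm), zero_mul]
    have e2 : ∀ ω, Y ω = ∑' j : ℤ, {ω | ⌊N * Θ ω⌋ = j}.indicator Y ω := by
      intro ω
      rw [tsum_eq_single ⌊N * Θ ω⌋]
      · rw [Set.indicator_of_mem (by simp)]
      · intro j hj
        rw [Set.indicator_of_notMem (by simpa using hj.symm)]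
    calc ∫⁻ ω, Y ω * ENNReal.ofReal (exp (((⌊N * Θ ω⌋ : ℝ) / N) * d ω
        - ((⌊N * Θ ω⌋ : ℝ) / N) ^ 2 * v / 2)) ∂P
        = ∫⁻ ω, ∑' j : ℤ, ({ω | ⌊N * Θ ω⌋ = j}.indicator Y ω) *
          (ENNReal.ofReal (exp (-((j : ℝ) / N) ^ 2 * v / 2)) *
            ENNReal.ofReal (exp (((j : ℝ) / N) * d ω))) ∂P := lintegral_congr e1
      _ = ∑' j : ℤ, ∫⁻ ω, ({ω | ⌊N * Θ ω⌋ = j}.indicator Y ω) *
          (ENNReal.ofReal (exp (-((j : ℝ) / N) ^ 2 * v / 2)) *
            ENNReal.ofReal (exp (((j : ℝ) / N) * d ω))) ∂P := by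
          refine lintegral_tsum fun j => ?_
          refine AEMeasurable.mul (hY0.indicator (hF _ (hcell j))).aemeasurable ?_
          fun_prop
      _ ≤ ∑' j : ℤ, ∫⁻ ω, {ω | ⌊N * Θ ω⌋ = j}.indicator Y ω ∂P := by
          refine ENNReal.tsum_le_tsum fun j => ?_
          have h1 := emY hF hd hs ((j : ℝ) / N) (hY.indicator (hcell j))
          calc ∫⁻ ω, ({ω | ⌊N * Θ ω⌋ = j}.indicator Y ω) *
              (ENNReal.ofReal (exp (-((j : ℝ) / N) ^ 2 * v / 2)) *
                ENNReal.ofReal (exp (((j : ℝ) / N) * d ω))) ∂P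
              = ENNReal.ofReal (exp (-((j : ℝ) / N) ^ 2 * v / 2)) *
                ∫⁻ ω, ({ω | ⌊N * Θ ω⌋ = j}.indicator Y ω) *
                  ENNReal.ofReal (exp (((j : ℝ) / N) * d ω)) ∂P := by
                rw [← lintegral_const_mul' _ _ ENNReal.ofReal_ne_top]
                refine lintegral_congr fun ω => ?_
                ring
            _ ≤ ENNReal.ofReal (exp (-((j : ℝ) / N) ^ 2 * v / 2)) *
                (ENNReal.ofReal (exp (((j : ℝ) / N) ^ 2 * v / 2)) *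
                  ∫⁻ ω, {ω | ⌊N * Θ ω⌋ = j}.indicator Y ω ∂P) := mul_le_mul_right h1 _
            _ = ∫⁻ ω, {ω | ⌊N * Θ ω⌋ = j}.indicator Y ω ∂P := by
                rw [← mul_assoc, ← ENNReal.ofReal_mul (exp_pos _).le, ← exp_add]
                have : -((j : ℝ) / N) ^ 2 * v / 2 + ((j : ℝ) / N) ^ 2 * v / 2 = 0 := by ring
                rw [this]; simp
      _ = ∫⁻ ω, ∑' j : ℤ, {ω | ⌊N * Θ ω⌋ = j}.indicator Y ω ∂P :=
          (lintegral_tsum fun j => (hY0.indicator (hF _ (hcell j))).aemeasurable).symm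
      _ = ∫⁻ ω, Y ω ∂P := lintegral_congr fun ω => (e2 ω).symm
  have lim : ∀ ω, Filter.Tendsto (fun n : ℕ => Y ω * ENNReal.ofReal
      (exp (((⌊((n : ℝ) + 1) * Θ ω⌋ : ℝ) / ((n : ℝ) + 1)) * d ω
        - ((⌊((n : ℝ) + 1) * Θ ω⌋ : ℝ) / ((n : ℝ) + 1)) ^ 2 * v / 2))) Filter.atTop
      (nhds (Y ω * ENNReal.ofReal (exp (Θ ω * d ω - Θ ω ^ 2 * v / 2)))) := by
    intro ω
    have h1 : Filter.Tendsto (fun n : ℕ => (⌊((n : ℝ) + 1) * Θ ω⌋ : ℝ) / ((n : ℝ) + 1)) Filter.atTop
        (nhds (Θ ω)) := by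
      have hN : Filter.Tendsto (fun n : ℕ => 1 / ((n : ℝ) + 1)) Filter.atTop (nhds 0) :=
        tendsto_one_div_add_atTop_nhds_zero_nat
      refine tendsto_of_tendsto_of_tendsto_of_le_of_le (g := fun n : ℕ => Θ ω - 1 / ((n : ℝ) + 1))
        (h := fun _ => Θ ω) ?_ tendsto_const_nhds ?_ ?_
      · simpa using tendsto_const_nhds.sub hN
      · intro n
        have h2 := Int.lt_floor_add_one (((n : ℝ) + 1) * Θ ω)
        have h3 : (0 : ℝ) < (n : ℝ) + 1 := by positivity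
        show Θ ω - 1 / ((n : ℝ) + 1) ≤ _
        rw [le_div_iff₀ h3, sub_mul, one_div_mul_cancel h3.ne']
        linarith
      · intro n
        have h2 := Int.floor_le (((n : ℝ) + 1) * Θ ω)
        have h3 : (0 : ℝ) < (n : ℝ) + 1 := by positivity
        show _ ≤ Θ ω
        rw [div_le_iff₀ h3]
        linarith
    refine ENNReal.Tendsto.const_mul ?_ (Or.inl (by simp [exp_pos]))
    refine ENNReal.tendsto_ofReal ?_
    refine (continuous_exp.tendsto _).comp ?_
    exact (h1.mul_const _).sub (((h1.pow 2).mul_const v).div_const 2)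
  calc ∫⁻ ω, Y ω * ENNReal.ofReal (exp (Θ ω * d ω - Θ ω ^ 2 * v / 2)) ∂P
      = ∫⁻ ω, Filter.liminf (fun n : ℕ => Y ω * ENNReal.ofReal
      (exp (((⌊((n : ℝ) + 1) * Θ ω⌋ : ℝ) / ((n : ℝ) + 1)) * d ω
        - ((⌊((n : ℝ) + 1) * Θ ω⌋ : ℝ) / ((n : ℝ) + 1)) ^ 2 * v / 2))) Filter.atTop ∂P :=
        lintegral_congr fun ω => (lim ω).liminf_eq.symm
    _ ≤ Filter.liminf (fun n : ℕ => ∫⁻ ω, Y ω * ENNReal.ofReal
      (exp (((⌊((n : ℝ) + 1) * Θ ω⌋ : ℝ) / ((n : ℝ) + 1)) * d ω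
        - ((⌊((n : ℝ) + 1) * Θ ω⌋ : ℝ) / ((n : ℝ) + 1)) ^ 2 * v / 2)) ∂P) Filter.atTop := by
        refine lintegral_liminf_le' fun n => ?_
        have hfl : Measurable fun ω => ((⌊((n : ℝ) + 1) * Θ ω⌋ : ℤ) : ℝ) :=
          (measurable_from_top (f := fun j : ℤ => (j : ℝ))).comp
            (Int.measurable_floor.comp (hΘ0.const_mul _))
        have hfl' := hfl.aemeasurable (μ := P)
        refine hY0.aemeasurable.mul ?_
        fun_prop
    _ ≤ ∫⁻ ω, Y ω ∂P := by
        refine Filter.liminf_le_of_frequently_le' (Filter.Frequently.of_forall fun n => step n)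

end weights

end Crest.Agent.R146.Snap_778
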