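import Crest.Agent.R146.PtScalA_45
import Crest.Agent.R146.HilbB_356
import Crest.Agent.R146.TipSeq_791
import Crest.Agent.R146.StepAppr_522
import Crest.Agent.R146.PtHlim_45
import Crest.Agent.R146.Cell_534

-- ▼ part R146/PtScalB_45
section

/-!
Row 146 (S0205), tip of the jamming profile, real-variable part 2 (helper45).

`tip`: for a profile `P` (`D t = ∫_t^1 m`, i.e. `d = 0`) with `1/D²` integrable which satisfies the
variational inequality with `ρ = (α T - 1)/D²` (`T` continuous on `[0,1)`), and such that `T` is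
quasi-convex on every interval `[a,b] ⊂ [t0,1)` on which `m` is constant, there is `t1 ∈ [t0,1)`
with `α T = 1` on `[t1,1)`.
`tip_charge`: if moreover `S/D` has the primitive `∫ m T / D²`, then `(S - T)/D` is constant
on `[t1,1)`.
-/

set_option autoImplicit false

namespace Crest.Agent.R146.PtScalB_45

open MeasureTheory Set Filter Topology intervalIntegral
open Crest.Agent.R146.PtScalA_45

theorem G_hasDerivAt {κ : ℝ} {ρ : ℝ → ℝ} (hρ : IntervalIntegrable ρ volume 0 1) {t : ℝ}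
    (ht : t ∈ Ioo (0:ℝ) 1) : HasDerivAt (G κ ρ) (-(I κ ρ t)) t := by
  have hc : ContinuousOn (I κ ρ) (Ioo 0 1) :=
    (I_continuousOn (κ := κ) hρ).mono Ioo_subset_Icc_self
  have hca : ContinuousAt (I κ ρ) t := hc.continuousAt (isOpen_Ioo.mem_nhds ht)
  have hm : StronglyMeasurableAtFilter (I κ ρ) (𝓝 t) volume :=
    hc.stronglyMeasurableAtFilter isOpen_Ioo t ht
  exact intervalIntegral.integral_hasDerivAt_left
    (sub_int (I_int hρ) ht.1.le ht.2.le zero_le_one le_rfl) hm hca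

theorem I_eq_zero {κ : ℝ} {ρ : ℝ → ℝ} (hρ : IntervalIntegrable ρ volume 0 1) {t : ℝ}
    (ht : t ∈ Ioo (0:ℝ) 1) (hG : ∀ s ∈ Icc (0:ℝ) 1, 0 ≤ G κ ρ s) (h0 : G κ ρ t = 0) :
    I κ ρ t = 0 := by
  have hmin : IsLocalMin (G κ ρ) t := by
    filter_upwards [isOpen_Ioo.mem_nhds ht] with s hs
    rw [h0]
    exact hG s (Ioo_subset_Icc_self hs)
  have := hmin.hasDerivAt_eq_zero (G_hasDerivAt hρ ht)
  linarith

theorem G_continuousOn {κ : ℝ} {ρ : ℝ → ℝ} (hρ : IntervalIntegrable ρ volume 0 1) :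
    ContinuousOn (G κ ρ) (Icc 0 1) := by
  have h3 : ContinuousOn (fun x => ∫ s in x..1, I κ ρ s) (uIcc 0 1) := by
    have h4 : ContinuousOn (fun x => ∫ s in (1:ℝ)..x, I κ ρ s) (uIcc 0 1) :=
      intervalIntegral.continuousOn_primitive_interval' (I_int hρ) (by simp)
    refine h4.neg.congr ?_
    intro x _
    exact intervalIntegral.integral_symm _ _
  rw [uIcc_of_le (zero_le_one' ℝ)] at h3
  exact h3

theorem exists_neg {f : ℝ → ℝ} {a b : ℝ} (hab : a ≤ b) (h : ∫ x in a..b, f x < 0) :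
    ∃ x ∈ Ioo a b, f x < 0 := by
  by_contra hne
  push Not at hne
  rw [intervalIntegral.integral_of_le hab, integral_Ioc_eq_integral_Ioo] at h
  have := setIntegral_nonneg (μ := volume) measurableSet_Ioo hne
  linarith

theorem exists_pos {f : ℝ → ℝ} {a b : ℝ} (hab : a ≤ b) (h : 0 < ∫ x in a..b, f x) :
    ∃ x ∈ Ioo a b, 0 < f x := by
  have h' : ∫ x in a..b, -f x < 0 := by
    rw [intervalIntegral.integral_neg]; linarith
  obtain ⟨x, hx, hx'⟩ := exists_neg hab h'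
  exact ⟨x, hx, by linarith⟩

/-- the gap argument: on a component `(a,b)` of `G > 0` the density `ρ` cannot be
"quasi-convex in sign". -/
theorem no_gap {κ : ℝ} {ρ : ℝ → ℝ} (hρ : IntervalIntegrable ρ volume 0 1) {a b : ℝ}
    (ha : 0 < a) (hab : a < b) (hb : b < 1) (hG : ∀ s ∈ Icc (0:ℝ) 1, 0 ≤ G κ ρ s)
    (hGa : G κ ρ a = 0) (hGb : G κ ρ b = 0) (hpos : ∀ s ∈ Ioo a b, 0 < G κ ρ s)
    (hqc : ∀ x y z, a < x → x ≤ y → y ≤ z → z < b → ρ x < 0 → ρ z < 0 → ρ y < 0) : False := by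
  have hIa : I κ ρ a = 0 := I_eq_zero hρ ⟨ha, hab.trans hb⟩ hG hGa
  have hIb : I κ ρ b = 0 := I_eq_zero hρ ⟨ha.trans hab, hb⟩ hG hGb
  -- negative points near `a`
  have hleft : ∀ y ∈ Ioo a b, ∃ x ∈ Ioo a y, ρ x < 0 := by
    intro y hy
    have h1 := G_sub (κ := κ) hρ ha.le hy.1.le (hy.2.le.trans hb.le)
    have h2 := hpos y hy
    have h3 : ∫ t in a..y, I κ ρ t < 0 := by rw [← h1, hGa]; linarith
    obtain ⟨s, hs, hs'⟩ := exists_neg hy.1.le h3
    have h4 := I_sub (κ := κ) hρ ha.le hs.1.le ((hs.2.trans hy.2).le.trans hb.le)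
    have h5 : ∫ t in a..s, ρ t < 0 := by rw [← h4, hIa]; linarith
    obtain ⟨x, hx, hx'⟩ := exists_neg hs.1.le h5
    exact ⟨x, ⟨hx.1, hx.2.trans hs.2⟩, hx'⟩
  have hright : ∀ y ∈ Ioo a b, ∃ x ∈ Ioo y b, ρ x < 0 := by
    intro y hy
    have h1 := G_sub (κ := κ) hρ (ha.le.trans hy.1.le) hy.2.le hb.le
    have h2 := hpos y hy
    have h3 : 0 < ∫ t in y..b, I κ ρ t := by rw [← h1, hGb]; linarith
    obtain ⟨s, hs, hs'⟩ := exists_pos hy.2.le h3
    have h4 := I_sub (κ := κ) hρ (ha.le.trans (hy.1.le.trans hs.1.le)) hs.2.le hb.le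
    have h5 : ∫ t in s..b, ρ t < 0 := by rw [← h4, hIb]; linarith
    obtain ⟨x, hx, hx'⟩ := exists_neg hs.2.le h5
    exact ⟨x, ⟨hs.1.trans hx.1, hx.2⟩, hx'⟩
  have hneg : ∀ y ∈ Ioo a b, ρ y < 0 := by
    intro y hy
    obtain ⟨x, hx, hx'⟩ := hleft y hy
    obtain ⟨z, hz, hz'⟩ := hright y hy
    exact hqc x y z hx.1 hx.2.le hz.1.le hz.2 hx' hz'
  have h6 : 0 < ∫ t in a..b, -ρ t :=
    intervalIntegral.intervalIntegral_pos_of_pos_on
      (sub_int hρ.neg ha.le (hab.trans hb).le (ha.trans hab).le hb.le)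
      (fun x hx => by have := hneg x hx; linarith) hab
  rw [intervalIntegral.integral_neg, ← I_sub (κ := κ) hρ ha.le hab.le hb.le, hIa, hIb] at h6
  linarith

/-- the component of `G > 0` around a point. -/
theorem component {f : ℝ → ℝ} {t1 t' z : ℝ} (h1 : t1 < t') (h2 : t' < z)
    (hf : ContinuousOn f (Icc t1 z)) (h0 : f t1 = 0) (hz : f z = 0) (hnn : ∀ s ∈ Icc t1 z, 0 ≤ f s)
    (hpos : 0 < f t') :
    ∃ a b, t1 ≤ a ∧ a < b ∧ b ≤ z ∧ f a = 0 ∧ f b = 0 ∧ ∀ s ∈ Ioo a b, 0 < f s := by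
  -- left end
  have hcl : IsCompact (Icc t1 t' ∩ f ⁻¹' {0}) := by
    have : IsClosed (Icc t1 t' ∩ f ⁻¹' {0}) :=
      (hf.mono (Icc_subset_Icc_right h2.le)).preimage_isClosed_of_isClosed isClosed_Icc
        isClosed_singleton
    exact isCompact_Icc.of_isClosed_subset this inter_subset_left
  have hcr : IsCompact (Icc t' z ∩ f ⁻¹' {0}) := by
    have : IsClosed (Icc t' z ∩ f ⁻¹' {0}) :=
      (hf.mono (Icc_subset_Icc_left h1.le)).preimage_isClosed_of_isClosed isClosed_Icc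
        isClosed_singleton
    exact isCompact_Icc.of_isClosed_subset this inter_subset_left
  obtain ⟨a, ha, hamax⟩ := hcl.exists_isGreatest ⟨t1, ⟨le_rfl, h1.le⟩, h0⟩
  obtain ⟨b, hb, hbmin⟩ := hcr.exists_isLeast ⟨z, ⟨h2.le, le_rfl⟩, hz⟩
  have hat : a < t' := by
    rcases lt_or_eq_of_le ha.1.2 with h | h
    · exact h
    · exfalso
      have : f a = 0 := ha.2
      rw [h] at this
      linarith
  have hbt : t' < b := by
    rcases lt_or_eq_of_le hb.1.1 with h | h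
    · exact h
    · exfalso
      have : f b = 0 := hb.2
      rw [← h] at this
      linarith
  refine ⟨a, b, ha.1.1, hat.trans hbt, hb.1.2, ha.2, hb.2, ?_⟩
  intro s hs
  have hs' : s ∈ Icc t1 z := ⟨ha.1.1.trans hs.1.le, hs.2.le.trans hb.1.2⟩
  rcases lt_or_eq_of_le (hnn s hs') with h | h
  · exact h
  · exfalso
    rcases le_total s t' with h3 | h3
    · have := hamax ⟨⟨hs'.1, h3⟩, h.symm⟩
      linarith [hs.1]
    · have := hbmin ⟨⟨h3, hs'.2⟩, h.symm⟩
      linarith [hs.2]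

theorem D_continuousOn (P : Prof) : ContinuousOn P.D (Icc 0 1) := by
  have h3 : ContinuousOn (fun x => ∫ s in x..1, P.m s) (uIcc 0 1) := by
    have h4 : ContinuousOn (fun x => ∫ s in (1:ℝ)..x, P.m s) (uIcc 0 1) :=
      intervalIntegral.continuousOn_primitive_interval' P.int (by simp)
    refine h4.neg.congr ?_
    intro x _
    exact intervalIntegral.integral_symm _ _
  rw [uIcc_of_le (zero_le_one' ℝ)] at h3
  exact continuousOn_const.add h3

/-- no last gap: if `d = 0` and `1/D²` is integrable then `m` is not constant near `1`. -/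
theorem not_const_of_int (P : Prof) (hd : P.d = 0) {a : ℝ} (ha0 : 0 ≤ a) (ha : a < 1)
    (hE : IntervalIntegrable (fun t => 1 / (P.D t) ^ 2) volume 0 1)
    (hpos : ∀ t ∈ Ico (0:ℝ) 1, 0 < P.D t)
    (hconst : ∀ t ∈ Ico a 1, P.m t = P.m a) : False := by
  have hD : ∀ t ∈ Icc a 1, P.D t = P.m a * (1 - t) := by
    intro t ht
    unfold Prof.D
    rw [hd, zero_add]
    have : ∫ s in t..1, P.m s = ∫ s in t..1, P.m a := by
      rw [intervalIntegral.integral_of_le ht.2, intervalIntegral.integral_of_le ht.2,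
        integral_Ioc_eq_integral_Ioo, integral_Ioc_eq_integral_Ioo]
      apply setIntegral_congr_fun measurableSet_Ioo
      intro s hs
      exact hconst s ⟨ht.1.trans hs.1.le, hs.2⟩
    rw [this, intervalIntegral.integral_const, smul_eq_mul]
    ring
  have hm : 0 < P.m a := by
    have h1 := hpos a ⟨ha0, ha⟩
    rw [hD a ⟨le_rfl, ha.le⟩] at h1
    have h2 : 0 < 1 - a := by linarith
    exact (mul_pos_iff_of_pos_right h2).1 h1
  -- compare with `1 / (1 - t)`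
  have h2 : IntervalIntegrable (fun t => 1 / (P.D t) ^ 2) volume a 1 :=
    sub_int hE ha0 ha.le zero_le_one le_rfl
  have h3 : IntervalIntegrable (fun t : ℝ => (t - 1)⁻¹) volume a 1 := by
    have h4 := h2.const_mul ((P.m a) ^ 2)
    refine h4.mono_fun' ?_ ?_
    · exact (Measurable.aestronglyMeasurable (by fun_prop))
    · rw [uIoc_of_le ha.le]
      filter_upwards [ae_restrict_mem measurableSet_Ioc,
        ae_restrict_of_ae (measure_eq_zero_iff_ae_notMem.1 (Real.volume_singleton (a := 1)))]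
        with t ht ht1
      have ht1' : t < 1 := lt_of_le_of_ne ht.2 (by simpa using ht1)
      have e : P.D t = P.m a * (1 - t) := hD t ⟨ht.1.le, ht.2⟩
      have h5 : 0 < 1 - t := by linarith
      have h6 : 1 - t ≤ 1 := by linarith [ht.1]
      rw [e, norm_inv, Real.norm_eq_abs, abs_sub_comm, abs_of_pos h5]
      have e2 : P.m a ^ 2 * (1 / (P.m a * (1 - t)) ^ 2) = 1 / (1 - t) ^ 2 := by
        field_simp
      rw [e2, inv_eq_one_div]
      apply one_div_le_one_div_of_le (by positivity)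
      nlinarith
  have h4 := (intervalIntegrable_sub_inv_iff (a := a) (b := 1) (c := 1)).1 h3
  rcases h4 with h4 | h4
  · linarith
  · exact h4 (by simp)

/-- THE TIP. -/
theorem tip {α κ : ℝ} (hα : 0 < α) (P : Prof) (T : ℝ → ℝ) (hd : P.d = 0)
    (hpos : ∀ t ∈ Ico (0:ℝ) 1, 0 < P.D t) (hT : ContinuousOn T (Ico 0 1))
    (hTb : ∃ C, ∀ t ∈ Ico (0:ℝ) 1, |T t| ≤ C)
    (hE : IntervalIntegrable (fun t => 1 / (P.D t) ^ 2) volume 0 1)
    (hVI : VI κ (fun t => (α * T t - 1) / (P.D t) ^ 2) P)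
    {t0 : ℝ} (ht0 : t0 < 1)
    (hQC : ∀ a b, t0 ≤ a → 0 ≤ a → a < b → b < 1 → (∀ t ∈ Icc a b, P.m t = P.m a) →
      ∀ x y z, a ≤ x → x ≤ y → y ≤ z → z ≤ b → T y ≤ max (T x) (T z)) :
    ∃ t1, t0 ≤ t1 ∧ 0 < t1 ∧ t1 < 1 ∧ ∀ t ∈ Ico t1 1, α * T t = 1 := by
  set ρ : ℝ → ℝ := fun t => (α * T t - 1) / (P.D t) ^ 2 with hρdef
  obtain ⟨C, hC⟩ := hTb
  have hDc : ContinuousOn P.D (Icc 0 1) := D_continuousOn P
  have hρc : ContinuousOn ρ (Ico 0 1) := by
    apply ContinuousOn.div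
    · exact (continuousOn_const.mul hT).sub continuousOn_const
    · exact (hDc.mono Ico_subset_Icc_self).pow 2
    · intro t ht
      exact (pow_pos (hpos t ht) 2).ne'
  have hρ : IntervalIntegrable ρ volume 0 1 := by
    have h1 := hE.const_mul (|α| * C + 1)
    refine h1.mono_fun' ?_ ?_
    · rw [uIoc_of_le zero_le_one, Measure.restrict_congr_set Ioo_ae_eq_Ioc.symm]
      exact (hρc.mono Ioo_subset_Ico_self).aestronglyMeasurable measurableSet_Ioo
    · rw [uIoc_of_le zero_le_one, Measure.restrict_congr_set Ioo_ae_eq_Ioc.symm]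
      filter_upwards [ae_restrict_mem measurableSet_Ioo] with t ht
      have ht' : t ∈ Ico (0:ℝ) 1 := Ioo_subset_Ico_self ht
      have h2 := hC t ht'
      have h3 := hpos t ht'
      rw [hρdef]
      simp only
      rw [norm_div, Real.norm_eq_abs, Real.norm_eq_abs, abs_of_pos (pow_pos h3 2),
        div_eq_mul_one_div]
      apply mul_le_mul_of_nonneg_right _ (by positivity)
      calc |α * T t - 1| ≤ |α * T t| + |(1:ℝ)| := abs_sub _ _
        _ ≤ |α| * C + 1 := by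
          rw [abs_mul, abs_one]
          have := mul_le_mul_of_nonneg_left h2 (abs_nonneg α)
          linarith
  have hG : ∀ s ∈ Icc (0:ℝ) 1, 0 ≤ G κ ρ s := fun s hs => hVI.G_nonneg hρ hs.1 hs.2
  have hGc : ContinuousOn (G κ ρ) (Icc 0 1) := G_continuousOn hρ
  -- zeros of `G` accumulate at `1`
  have hacc : ∀ a0, a0 < 1 → ∃ t ∈ Ioo (max a0 0) 1, G κ ρ t = 0 := by
    intro a0 ha0
    by_contra hne
    push Not at hne
    have hm1 : max a0 0 < 1 := max_lt ha0 zero_lt_one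
    have hpos' : ∀ t ∈ Ioo (max a0 0) 1, 0 < G κ ρ t := by
      intro t ht
      have h0t : 0 ≤ t := (le_max_right a0 0).trans ht.1.le
      exact lt_of_le_of_ne (hG t ⟨h0t, ht.2.le⟩) (Ne.symm (hne t ht))
    obtain ⟨a, ha1, ha2⟩ := exists_between hm1
    have ha0' : 0 ≤ a := (le_max_right a0 0).trans ha1.le
    refine not_const_of_int P hd ha0' ha2 hE hpos ?_
    intro t ht
    refine (hVI.m_eq hρ ha0' ht.1 ht.2 ?_).symm
    intro s hs
    exact hpos' s ⟨ha1.trans_le hs.1, hs.2.trans_lt ht.2⟩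
  obtain ⟨t1, ht1, hGt1⟩ := hacc t0 ht0
  have ht1t0 : t0 < t1 := (le_max_left t0 0).trans_lt ht1.1
  have ht10 : 0 < t1 := (le_max_right t0 0).trans_lt ht1.1
  -- `G = 0` on `[t1,1)`
  have hG0 : ∀ t ∈ Ico t1 1, G κ ρ t = 0 := by
    intro t ht
    by_contra hne
    have hGt : 0 < G κ ρ t :=
      lt_of_le_of_ne (hG t ⟨ht10.le.trans ht.1, ht.2.le⟩) (Ne.symm hne)
    have h1t : t1 < t := by
      rcases lt_or_eq_of_le ht.1 with h | h
      · exact h
      · exfalso; rw [← h, hGt1] at hGt; exact lt_irrefl _ hGt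
    obtain ⟨z, hz, hGz⟩ := hacc t ht.2
    have hzt : t < z := (le_max_left t 0).trans_lt hz.1
    have hsub : Icc t1 z ⊆ Icc 0 1 := Icc_subset_Icc ht10.le hz.2.le
    obtain ⟨a, b, h1, h2, h3, h4, h5, h6⟩ := component h1t hzt (hGc.mono hsub) hGt1 hGz
      (fun s hs => hG s (hsub hs)) hGt
    have ha : 0 < a := ht10.trans_le h1
    have hb : b < 1 := h3.trans_lt hz.2
    refine no_gap hρ ha h2 hb hG h4 h5 h6 ?_
    intro x y w hx hxy hyw hw hρx hρw
    have hxw : x ≤ w := hxy.trans hyw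
    have hcx : 0 < P.D x := hpos x ⟨(ha.trans hx).le, (hxw.trans_lt hw).trans hb⟩
    have hcy : 0 < P.D y := hpos y ⟨((ha.trans hx).trans_le hxy).le, (hyw.trans_lt hw).trans hb⟩
    have hcw : 0 < P.D w := hpos w ⟨((ha.trans hx).trans_le hxw).le, hw.trans hb⟩
    have e1 : α * T x - 1 < 0 := by
      rw [hρdef] at hρx
      simp only at hρx
      by_contra hcon
      push Not at hcon
      have := div_nonneg hcon (pow_pos hcx 2).le
      linarith
    have e2 : α * T w - 1 < 0 := by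
      rw [hρdef] at hρw
      simp only at hρw
      by_contra hcon
      push Not at hcon
      have := div_nonneg hcon (pow_pos hcw 2).le
      linarith
    have e3 : T y ≤ max (T x) (T w) := by
      rcases lt_or_eq_of_le hxw with hlt | heq
      · refine hQC x w (ht1t0.le.trans (h1.trans hx.le)) (ha.trans hx).le hlt (hw.trans hb) ?_
          x y w le_rfl hxy hyw le_rfl
        intro s hs
        refine (hVI.m_eq hρ (ha.trans hx).le hs.1 (hs.2.trans_lt (hw.trans hb)) ?_).symm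
        intro r hr
        exact h6 r ⟨hx.trans_le hr.1, (hr.2.trans hs.2).trans_lt hw⟩
      · have : y = x := le_antisymm (by rw [heq]; exact hyw) hxy
        rw [this]
        exact le_max_left _ _
    have e4 : α * T y - 1 < 0 := by
      rcases le_max_iff.1 e3 with h | h
      · have := mul_le_mul_of_nonneg_left h hα.le
        linarith
      · have := mul_le_mul_of_nonneg_left h hα.le
        linarith
    rw [hρdef]
    exact div_neg_of_neg_of_pos e4 (pow_pos hcy 2)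
  -- `I = 0` on `[t1,1)`
  have hI0 : ∀ t ∈ Ico t1 1, I κ ρ t = 0 := fun t ht =>
    I_eq_zero hρ ⟨ht10.trans_le ht.1, ht.2⟩ hG (hG0 t ht)
  refine ⟨t1, ht1t0.le, ht10, ht1.2, ?_⟩
  -- `ρ = 0` on `[t1,1)`
  have hρ0 : ∀ t ∈ Ico t1 1, ρ t = 0 := by
    intro t ht
    have ht' : t ∈ Ico (0:ℝ) 1 := ⟨ht10.le.trans ht.1, ht.2⟩
    by_contra hne
    -- sign is constant on a right neighbourhood
    have hct : ContinuousWithinAt ρ (Ici t) t := by
      have h1 : ContinuousWithinAt ρ (Ico 0 1) t := hρc t ht'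
      have h2 : ContinuousWithinAt ρ (Ico t 1) t := h1.mono (Ico_subset_Ico_left ht'.1)
      refine h2.mono_of_mem_nhdsWithin ?_
      exact Ico_mem_nhdsGE ht.2
    have key : ∀ σ : ℝ, (σ = 1 ∨ σ = -1) → 0 < σ * ρ t → False := by
      intro σ _ hσ
      have h3 : ContinuousWithinAt (fun s => σ * ρ s) (Ici t) t := continuousWithinAt_const.mul hct
      have h4 : ∀ᶠ s in 𝓝[Ici t] t, 0 < σ * ρ s := h3.eventually (lt_mem_nhds hσ)
      have h5 : ∀ᶠ s in 𝓝[Ici t] t, s < 1 := by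
        filter_upwards [mem_nhdsWithin_of_mem_nhds (Iio_mem_nhds ht.2)] with s hs using hs
      obtain ⟨u, hu, hu'⟩ := (mem_nhdsGE_iff_exists_Icc_subset.1 (h4.and h5))
      have hu1 : u < 1 := (hu' ⟨(mem_Ioi.1 hu).le, le_rfl⟩).2
      have h6 : 0 < ∫ s in t..u, σ * ρ s := by
        apply intervalIntegral.intervalIntegral_pos_of_pos_on
        · exact (sub_int hρ ht'.1 ht.2.le (ht'.1.trans (mem_Ioi.1 hu).le) hu1.le).const_mul σ
        · intro s hs
          exact (hu' ⟨hs.1.le, hs.2.le⟩).1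
        · exact hu
      rw [intervalIntegral.integral_const_mul, ← I_sub (κ := κ) hρ ht'.1 (mem_Ioi.1 hu).le hu1.le,
        hI0 t ht, hI0 u ⟨ht.1.trans (mem_Ioi.1 hu).le, hu1⟩] at h6
      simp at h6
    rcases lt_or_gt_of_ne hne with h | h
    · exact key (-1) (Or.inr rfl) (by linarith)
    · exact key 1 (Or.inl rfl) (by linarith)
  intro t ht
  have h1 := hρ0 t ht
  have h2 := hpos t ⟨ht10.le.trans ht.1, ht.2⟩
  rw [hρdef] at h1
  simp only at h1
  rcases div_eq_zero_iff.1 h1 with h | h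
  · linarith
  · exact absurd h (pow_pos h2 2).ne'

/-- `m/D²` is the derivative of `1/D`. -/
theorem int_inv (P : Prof) (hpos : ∀ t ∈ Ico (0:ℝ) 1, 0 < P.D t) {t1 t : ℝ} (ht1 : 0 ≤ t1)
    (h1t : t1 ≤ t) (ht : t < 1) :
    ∫ s in t1..t, P.m s / (P.D s) ^ 2 = 1 / P.D t - 1 / P.D t1 := by
  have hDc : ContinuousOn P.D (Icc 0 1) := D_continuousOn P
  have ht0 : 0 ≤ t := ht1.trans h1t
  have hsub : Icc t1 t ⊆ Ico (0:ℝ) 1 := fun x hx => ⟨ht1.trans hx.1, hx.2.trans_lt ht⟩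
  have hm1 : IntervalIntegrable P.m volume t1 t :=
    sub_int P.int ht1 (h1t.trans ht.le) ht0 ht.le
  have hDt : ∀ x ∈ Icc t1 t, ∀ y ∈ Icc t1 t, x ≤ y → P.D x - P.D y = ∫ s in x..y, P.m s := by
    intro x hx y hy hxy
    have hx' := hsub hx
    have hy' := hsub hy
    have e := intervalIntegral.integral_add_adjacent_intervals
      (sub_int P.int hx'.1 hx'.2.le hy'.1 hy'.2.le) (sub_int P.int hy'.1 hy'.2.le zero_le_one le_rfl)
    unfold Prof.D
    linarith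
  have hDanti : ∀ x ∈ Icc t1 t, P.D t ≤ P.D x := by
    intro x hx
    have := hDt x hx t ⟨h1t, le_rfl⟩ hx.2
    have h2 : 0 ≤ ∫ s in x..t, P.m s :=
      intervalIntegral.integral_nonneg hx.2 fun s hs =>
        P.nonneg s (hsub ⟨hx.1.trans hs.1, hs.2⟩)
    linarith
  have hδ : 0 < P.D t := hpos t ⟨ht0, ht⟩
  have hmt : 0 ≤ P.m t := P.nonneg t ⟨ht0, ht⟩
  have hlipD : ∀ x ∈ Icc t1 t, ∀ y ∈ Icc t1 t, x ≤ y → |P.D x - P.D y| ≤ P.m t * |x - y| := by
    intro x hx y hy hxy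
    rw [hDt x hx y hy hxy]
    have := intervalIntegral.norm_integral_le_of_norm_le_const (a := x) (b := y) (f := P.m)
      (C := P.m t) (by
        intro s hs
        rw [uIoc_of_le hxy] at hs
        have hs' : s ∈ Icc t1 t := ⟨hx.1.trans hs.1.le, hs.2.trans hy.2⟩
        rw [Real.norm_eq_abs, abs_of_nonneg (P.nonneg s (hsub hs'))]
        exact P.mono (hsub hs') ⟨ht0, ht⟩ hs'.2)
    rw [Real.norm_eq_abs] at this
    rwa [abs_sub_comm y x] at this
  have hlip : LipschitzOnWith ⟨P.m t / (P.D t) ^ 2, by positivity⟩ (fun x => 1 / P.D x)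
      (uIcc t1 t) := by
    rw [uIcc_of_le h1t]
    apply LipschitzOnWith.of_dist_le_mul
    have main : ∀ x ∈ Icc t1 t, ∀ y ∈ Icc t1 t, x ≤ y →
        |1 / P.D x - 1 / P.D y| ≤ P.m t / (P.D t) ^ 2 * |x - y| := by
      intro x hx y hy hxy
      have hx' := hpos x (hsub hx)
      have hy' := hpos y (hsub hy)
      have e : 1 / P.D x - 1 / P.D y = -((P.D x - P.D y) / (P.D x * P.D y)) := by
        field_simp
        ring
      rw [e, abs_neg, abs_div, abs_of_pos (mul_pos hx' hy'), div_mul_eq_mul_div]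
      apply div_le_div₀ (by positivity) (hlipD x hx y hy hxy) (by positivity)
      have h1 := hDanti x hx
      have h2 := hDanti y hy
      rw [sq]
      exact mul_le_mul h1 h2 hδ.le hx'.le
    intro x hx y hy
    rw [Real.dist_eq, Real.dist_eq]
    rcases le_total x y with h | h
    · exact main x hx y hy h
    · have := main y hy x hx h
      rw [abs_sub_comm, abs_sub_comm y x] at this
      exact this
  have hac := hlip.absolutelyContinuousOnInterval
  rw [← hac.integral_deriv_eq_sub]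
  apply intervalIntegral.integral_congr_ae
  filter_upwards [hm1.ae_hasDerivAt_integral,
    (measure_eq_zero_iff_ae_notMem.1 (Real.volume_singleton (a := t)))] with x hx hxt hxI
  rw [uIoc_of_le h1t] at hxI
  have hxt' : x < t := lt_of_le_of_ne hxI.2 (by simpa using hxt)
  have hxm : x ∈ Icc t1 t := ⟨hxI.1.le, hxI.2⟩
  have h1 := hx (by rw [uIcc_of_le h1t]; exact hxm) t1 (by simp)
  have h2 : HasDerivAt (fun y => P.D t1 - ∫ s in t1..y, P.m s) (-(P.m x)) x :=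
    by simpa using h1.const_sub (P.D t1)
  have h3 : HasDerivAt P.D (-(P.m x)) x := by
    refine h2.congr_of_eventuallyEq ?_
    filter_upwards [isOpen_Ioo.mem_nhds (⟨hxI.1, hxt'⟩ : x ∈ Ioo t1 t)] with y hy
    have := hDt t1 ⟨le_rfl, h1t⟩ y ⟨hy.1.le, hy.2.le⟩ hy.1.le
    linarith
  have hne : P.D x ≠ 0 := (hpos x (hsub hxm)).ne'
  have h4 : HasDerivAt (fun y => 1 / P.D y) (P.m x / (P.D x) ^ 2) x := by
    have := h3.inv hne
    simp only [neg_neg] at this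
    refine this.congr_of_eventuallyEq ?_
    filter_upwards with y
    simp
  exact h4.deriv.symm

/-- the charge: with `α T = 1` on `[t1,1)` and `S/D = S0/D0 + ∫_0^t m T / D²`,
`(S - T)/D` is constant on `[t1,1)`. -/
theorem tip_charge {α : ℝ} (hα : 0 < α) (P : Prof) (S T : ℝ → ℝ)
    (hpos : ∀ t ∈ Ico (0:ℝ) 1, 0 < P.D t) {t1 : ℝ} (ht1 : 0 < t1) (ht11 : t1 < 1)
    (hT1 : ∀ t ∈ Ico t1 1, α * T t = 1)
    (hTc : ContinuousOn T (Ico 0 1))
    (hR2 : ∀ t ∈ Ico (0:ℝ) 1,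
      S t / P.D t = S 0 / P.D 0 + ∫ s in (0:ℝ)..t, P.m s * T s / (P.D s) ^ 2)
    {t : ℝ} (ht : t ∈ Ico t1 1) :
    (S t - T t) / P.D t = (S t1 - T t1) / P.D t1 := by
  have hDc : ContinuousOn P.D (Icc 0 1) := D_continuousOn P
  have hsub : Icc 0 t ⊆ Ico (0:ℝ) 1 := fun x hx => ⟨hx.1, hx.2.trans_lt ht.2⟩
  have h0t : 0 ≤ t := ht1.le.trans ht.1
  have hmt : IntervalIntegrable P.m volume 0 t := sub_int P.int le_rfl zero_le_one h0t ht.2.le
  have hint : IntervalIntegrable (fun s => P.m s * T s / (P.D s) ^ 2) volume 0 t := by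
    have h1 : ContinuousOn (fun s => T s / (P.D s) ^ 2) (uIcc 0 t) := by
      rw [uIcc_of_le h0t]
      apply ContinuousOn.div (hTc.mono hsub)
      · exact (hDc.mono (hsub.trans Ico_subset_Icc_self)).pow 2
      · intro x hx
        exact (pow_pos (hpos x (hsub hx)) 2).ne'
    have h2 := hmt.mul_continuousOn h1
    refine h2.congr ?_
    intro s _
    ring
  have hA : IntervalIntegrable (fun s => P.m s * T s / (P.D s) ^ 2) volume 0 t1 := by
    refine hint.mono_set ?_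
    rw [uIcc_of_le ht1.le, uIcc_of_le h0t]
    exact Icc_subset_Icc_right ht.1
  have hB : IntervalIntegrable (fun s => P.m s * T s / (P.D s) ^ 2) volume t1 t := by
    refine hint.mono_set ?_
    rw [uIcc_of_le ht.1, uIcc_of_le h0t]
    exact Icc_subset_Icc_left ht1.le
  have e1 := hR2 t ⟨h0t, ht.2⟩
  have e2 := hR2 t1 ⟨ht1.le, ht11⟩
  have e3 := intervalIntegral.integral_add_adjacent_intervals hA hB
  have e4 := int_inv P hpos ht1.le ht.1 ht.2
  have e5 : ∫ s in t1..t, P.m s * T s / (P.D s) ^ 2 = (1 / α) * ∫ s in t1..t, P.m s / (P.D s) ^ 2 := by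
    rw [← intervalIntegral.integral_const_mul]
    apply intervalIntegral.integral_congr
    intro s hs
    rw [uIcc_of_le ht.1] at hs
    have : T s = 1 / α := by
      have := hT1 s ⟨hs.1, hs.2.trans_lt ht.2⟩
      field_simp
      linarith
    simp only
    rw [this]
    ring
  have e6 : T t = 1 / α := by
    have := hT1 t ht
    field_simp
    linarith
  have e7 : T t1 = 1 / α := by
    have := hT1 t1 ⟨le_rfl, ht11⟩
    field_simp
    linarith
  rw [sub_div, sub_div, e1, e2, e6, e7]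
  rw [e5, e4] at e3
  rw [← e3]
  ring


/-- summary: the tip of the profile for `d = 0`, with `T ≤ S` (not strict): `c0 ≥ 0`. -/
theorem tip_full_le {α κ : ℝ} (hα : 0 < α) (P : Prof) (S T : ℝ → ℝ) (hd : P.d = 0)
    (hpos : ∀ t ∈ Ico (0:ℝ) 1, 0 < P.D t) (hT : ContinuousOn T (Ico 0 1))
    (hT0 : ∀ t ∈ Ico (0:ℝ) 1, 0 ≤ T t) (hTS : ∀ t ∈ Ico (0:ℝ) 1, T t ≤ S t)
    (hS1 : ∀ t ∈ Ico (0:ℝ) 1, S t ≤ 1)
    (hE : IntervalIntegrable (fun t => 1 / (P.D t) ^ 2) volume 0 1)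
    (hVI : VI κ (fun t => (α * T t - 1) / (P.D t) ^ 2) P)
    (hR2 : ∀ t ∈ Ico (0:ℝ) 1,
      S t / P.D t = S 0 / P.D 0 + ∫ s in (0:ℝ)..t, P.m s * T s / (P.D s) ^ 2)
    {t0 : ℝ} (ht0 : t0 < 1)
    (hQC : ∀ a b, t0 ≤ a → 0 ≤ a → a < b → b < 1 → (∀ t ∈ Icc a b, P.m t = P.m a) →
      ∀ x y z, a ≤ x → x ≤ y → y ≤ z → z ≤ b → T y ≤ max (T x) (T z)) :
    ∃ t1 c0, t0 ≤ t1 ∧ 0 < t1 ∧ t1 < 1 ∧ 0 ≤ c0 ∧ (∀ t ∈ Ico t1 1, α * T t = 1) ∧
      ∀ t ∈ Ico t1 1, S t - T t = c0 * P.D t := by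
  obtain ⟨t1, h1, h2, h3, h4⟩ := tip hα P T hd hpos hT ⟨1, fun t ht => by
    rw [abs_of_nonneg (hT0 t ht)]
    exact (hTS t ht).trans (hS1 t ht)⟩ hE hVI ht0 hQC
  have h5 : 0 < P.D t1 := hpos t1 ⟨h2.le, h3⟩
  refine ⟨t1, (S t1 - T t1) / P.D t1, h1, h2, h3, ?_, h4, ?_⟩
  · apply div_nonneg _ h5.le
    have := hTS t1 ⟨h2.le, h3⟩
    linarith
  · intro t ht
    have h6 : P.D t ≠ 0 := (hpos t ⟨h2.le.trans ht.1, ht.2⟩).ne'
    rw [← tip_charge hα P S T hpos h2 h3 h4 hT hR2 ht]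
    field_simp

end Crest.Agent.R146.PtScalB_45
end

-- ▼ part R146/PtScalC_45
section

/-!
Row 146 (S0205), tip of the jamming profile, part 3 (helper45): the bridge between the Hilbert
frame (`HilbA_356`, profiles `D` concave antitone continuous) and the scalar part
(`PtScalA_45.Prof`, `VI`).

* `exists_prof` : a concave antitone continuous `D` with `D 1 ≥ 0` is `P.D` of a `Prof`;
* `prof_concave`, `prof_anti`, `prof_cont` : the converse;
* `vi_of_kkt`   : the KKT inequality in `D` gives `1/D²` integrable and `VI`;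
* `tip_hilb`    : `α T = 1` and `S - T = c0 D` near `t = 1`.
-/

set_option autoImplicit false

namespace Crest.Agent.R146.PtScalC_45

open MeasureTheory Set Filter Topology intervalIntegral
open Crest.Agent.R146.PtScalA_45 Crest.Agent.R146.PtScalB_45 Crest.Agent.R146.Hilb
open scoped RealInnerProductSpace

/-! ### profiles -/

theorem exists_prof {D : ℝ → ℝ} (hc : ConcaveOn ℝ (Icc 0 1) D) (ha : AntitoneOn D (Icc 0 1))
    (hcont : ContinuousOn D (Icc 0 1)) (h1 : 0 ≤ D 1) :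
    ∃ P : Prof, P.d = D 1 ∧ (∀ t ∈ Icc (0:ℝ) 1, P.D t = D t) ∧
      ∀ t ∈ Ioo (0:ℝ) 1, HasDerivWithinAt D (-(P.m t)) (Ioi t) t := by
  classical
  set N : ℝ → ℝ := fun t => -D t with hN
  have hcv : ConvexOn ℝ (Icc 0 1) N := hc.neg
  set m : ℝ → ℝ := fun t => if 0 < t then derivWithin N (Ioi t) t else 0 with hm
  have hint : interior (Icc (0:ℝ) 1) = Ioo 0 1 := interior_Icc
  have hmt : ∀ t ∈ Ioo (0:ℝ) 1, m t = derivWithin N (Ioi t) t := by
    intro t ht
    simp [hm, ht.1]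
  have hderiv : ∀ t ∈ Ioo (0:ℝ) 1, HasDerivWithinAt N (m t) (Ioi t) t := by
    intro t ht
    rw [hmt t ht]
    exact hcv.hasDerivWithinAt_rightDeriv_of_mem_interior (by rw [hint]; exact ht)
  have hnn : ∀ t ∈ Ioo (0:ℝ) 1, 0 ≤ m t := by
    intro t ht
    have htend := (hasDerivWithinAt_iff_tendsto_slope' (by simp)).1 (hderiv t ht)
    refine ge_of_tendsto htend ?_
    have : Ioo t 1 ∈ 𝓝[>] t := Ioo_mem_nhdsGT ht.2
    filter_upwards [this] with s hs
    have h2 : D s ≤ D t := ha ⟨ht.1.le, ht.2.le⟩ ⟨ht.1.le.trans hs.1.le, hs.2.le⟩ hs.1.le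
    rw [slope_def_field]
    apply div_nonneg _ (by linarith [hs.1])
    simp only [hN]
    linarith
  have hmon : MonotoneOn (fun x => derivWithin N (Ioi x) x) (interior (Icc (0:ℝ) 1)) :=
    hcv.monotoneOn_rightDeriv
  have hmono : MonotoneOn m (Ico 0 1) := by
    intro x hx y hy hxy
    by_cases hx0 : 0 < x
    · have hy0 : 0 < y := lt_of_lt_of_le hx0 hxy
      have h2 := hmon (show x ∈ interior (Icc (0:ℝ) 1) by rw [hint]; exact ⟨hx0, hx.2⟩)
        (show y ∈ interior (Icc (0:ℝ) 1) by rw [hint]; exact ⟨hy0, hy.2⟩) hxy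
      rw [hmt x ⟨hx0, hx.2⟩, hmt y ⟨hy0, hy.2⟩]
      exact h2
    · have : m x = 0 := by simp [hm, hx0]
      rw [this]
      by_cases hy0 : 0 < y
      · exact hnn y ⟨hy0, hy.2⟩
      · simp [hm, hy0]
  have hNc : ContinuousOn N (Icc 0 1) := hcont.neg
  have hmI : IntervalIntegrable m volume 0 1 :=
    (intervalIntegrable_iff_integrableOn_Ioc_of_le zero_le_one).2
      (integrableOn_deriv_right_of_nonneg hNc hderiv hnn)
  have hF : ∀ t ∈ Ioo (0:ℝ) 1, HasDerivWithinAt D (-(m t)) (Ioi t) t := by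
    intro t ht
    have h2 := (hderiv t ht).neg
    have h3 : -N = D := by funext s; simp [hN]
    rwa [h3] at h2
  refine ⟨{ m := m
            d := D 1
            mono := hmono
            nonneg := fun t ht => by
              by_cases h0 : 0 < t
              · exact hnn t ⟨h0, ht.2⟩
              · simp [hm, h0]
            int := hmI
            d_nonneg := h1 }, rfl, ?_, hF⟩
  intro t ht
  have h2 := integral_eq_sub_of_hasDeriv_right_of_le (a := t) (b := 1) (f := N)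
    (f' := m) ht.2 (hNc.mono (Icc_subset_Icc_left ht.1))
    (fun s hs => hderiv s ⟨ht.1.trans_lt hs.1, hs.2⟩)
    (sub_int hmI ht.1 ht.2 zero_le_one le_rfl)
  unfold Prof.D
  simp only
  rw [h2]
  simp only [hN]
  ring

theorem prof_sub (P : Prof) {x y : ℝ} (hx : 0 ≤ x) (hxy : x ≤ y) (hy : y ≤ 1) :
    P.D x - P.D y = ∫ s in x..y, P.m s := by
  have e := intervalIntegral.integral_add_adjacent_intervals
    (sub_int P.int hx (hxy.trans hy) (hx.trans hxy) hy)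
    (sub_int P.int (hx.trans hxy) hy zero_le_one le_rfl)
  unfold Prof.D
  linarith

theorem prof_anti (P : Prof) : AntitoneOn P.D (Icc 0 1) := by
  intro x hx y hy hxy
  have h1 := prof_sub P hx.1 hxy hy.2
  have h2 : 0 ≤ ∫ s in x..y, P.m s := by
    rw [intervalIntegral.integral_of_le hxy, integral_Ioc_eq_integral_Ioo]
    exact setIntegral_nonneg measurableSet_Ioo fun s hs =>
      P.nonneg s ⟨hx.1.trans hs.1.le, hs.2.trans_le hy.2⟩
  linarith

theorem prof_one (P : Prof) : P.D 1 = P.d := by simp [Prof.D]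

theorem prof_nonneg (P : Prof) {t : ℝ} (ht : t ∈ Icc (0:ℝ) 1) : 0 ≤ P.D t := by
  have := prof_anti P ht ⟨zero_le_one, le_rfl⟩ ht.2
  rw [prof_one] at this
  exact P.d_nonneg.trans this

theorem prof_concave (P : Prof) : ConcaveOn ℝ (Icc 0 1) P.D := by
  apply concaveOn_of_slope_anti_adjacent (convex_Icc 0 1)
  intro x y z hx hz hxy hyz
  have hy0 : 0 ≤ y := hx.1.trans hxy.le
  have hy1 : y < 1 := hyz.trans_le hz.2
  have h1 := prof_sub P hx.1 hxy.le hy1.le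
  have h2 := prof_sub P hy0 hyz.le hz.2
  have h3 : ∫ s in x..y, P.m s ≤ P.m y * (y - x) := by
    have h4 : ∫ s in x..y, P.m s ≤ ∫ s in x..y, P.m y := by
      apply intervalIntegral.integral_mono_on hxy.le
        (sub_int P.int hx.1 (hxy.le.trans hy1.le) hy0 hy1.le) (by simp)
      intro s hs
      exact P.mono ⟨hx.1.trans hs.1, hs.2.trans_lt hy1⟩ ⟨hy0, hy1⟩ hs.2
    rw [intervalIntegral.integral_const, smul_eq_mul] at h4
    linarith
  have h5 : P.m y * (z - y) ≤ ∫ s in y..z, P.m s := by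
    have h4 : ∫ s in y..z, P.m y ≤ ∫ s in y..z, P.m s := by
      rw [intervalIntegral.integral_of_le hyz.le, intervalIntegral.integral_of_le hyz.le,
        integral_Ioc_eq_integral_Ioo, integral_Ioc_eq_integral_Ioo]
      apply setIntegral_mono_on
      · exact integrableOn_const (by simp)
      · exact ((intervalIntegrable_iff_integrableOn_Ioc_of_le hyz.le).1
          (sub_int P.int hy0 hy1.le (hy0.trans hyz.le) hz.2)).mono_set Ioo_subset_Ioc_self
      · exact measurableSet_Ioo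
      · intro s hs
        exact P.mono ⟨hy0, hy1⟩ ⟨hy0.trans hs.1.le, hs.2.trans_le hz.2⟩ hs.1.le
    rw [intervalIntegral.integral_const, smul_eq_mul] at h4
    linarith
  have e1 : P.D z - P.D y = -∫ s in y..z, P.m s := by linarith
  have e2 : P.D y - P.D x = -∫ s in x..y, P.m s := by linarith
  rw [e1, e2, div_le_div_iff₀ (by linarith) (by linarith)]
  have h6 : 0 < y - x := by linarith
  have h7 : 0 < z - y := by linarith
  nlinarith [mul_le_mul_of_nonneg_right h3 h7.le, mul_le_mul_of_nonneg_right h5 h6.le]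

/-- `P' + r P` -/
noncomputable def comb (P' P : Prof) {r : ℝ} (hr : 0 ≤ r) : Prof where
  m := fun t => P'.m t + r * P.m t
  d := P'.d + r * P.d
  mono := fun _ hx _ hy hxy =>
    add_le_add (P'.mono hx hy hxy) (mul_le_mul_of_nonneg_left (P.mono hx hy hxy) hr)
  nonneg := fun t ht => add_nonneg (P'.nonneg t ht) (mul_nonneg hr (P.nonneg t ht))
  int := P'.int.add (P.int.const_mul r)
  d_nonneg := add_nonneg P'.d_nonneg (mul_nonneg hr P.d_nonneg)

theorem comb_D (P' P : Prof) {r : ℝ} (hr : 0 ≤ r) {t : ℝ} (ht : t ∈ Icc (0:ℝ) 1) :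
    (comb P' P hr).D t = P'.D t + r * P.D t := by
  unfold Prof.D comb
  simp only
  rw [intervalIntegral.integral_add (sub_int P'.int ht.1 ht.2 zero_le_one le_rfl)
    ((sub_int P.int ht.1 ht.2 zero_le_one le_rfl).const_mul r),
    intervalIntegral.integral_const_mul]
  ring

theorem int_mul_cont {f g : ℝ → ℝ} (hg : IntervalIntegrable g volume 0 1)
    (hf : ContinuousOn f (Icc 0 1)) : IntervalIntegrable (fun t => f t * g t) volume 0 1 := by
  apply hg.continuousOn_mul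
  rwa [uIcc_of_le (zero_le_one' ℝ)]

/-! ### the Hilbert frame -/

section Hil

variable {H : Type*} [NormedAddCommGroup H] [InnerProductSpace ℝ H] [CompleteSpace H]

/-- the KKT inequality in `D` (the conclusion of `HilbD.kkt_D` at a minimiser, `e = 0`) -/
def KKTD (R : Res H) (α : ℝ) (x : H) (D : ℝ → ℝ) : Prop :=
  ∀ D' : ℝ → ℝ, ConcaveOn ℝ (Icc 0 1) D' → AntitoneOn D' (Icc 0 1) → ContinuousOn D' (Icc 0 1) →
    (∀ t ∈ Ico (0:ℝ) 1, 0 < D' t) → 0 ≤ D' 1 → IntervalIntegrable (fun t => 1 / D' t) volume 0 1 →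
    IntervalIntegrable (fun t => (D' t - D t) / D t ^ 2) volume 0 1 ∧
      ∫ t in (0:ℝ)..1, (D' t - D t) / D t ^ 2 ≤ α * (R.Q D' x - R.Q D x)

omit [CompleteSpace H] in
theorem KKTD.congr {R : Res H} {α : ℝ} {x : H} {D D2 : ℝ → ℝ} (h : KKTD R α x D)
    (he : ∀ t ∈ Icc (0:ℝ) 1, D2 t = D t) : KKTD R α x D2 := by
  intro D' h1 h2 h3 h4 h5 h6
  obtain ⟨h7, h8⟩ := h D' h1 h2 h3 h4 h5 h6
  have h9 : EqOn (fun t => (D' t - D t) / D t ^ 2) (fun t => (D' t - D2 t) / D2 t ^ 2)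
      (uIcc 0 1) := by
    intro t ht
    rw [uIcc_of_le (zero_le_one' ℝ)] at ht
    simp only [he t ht]
  refine ⟨h7.congr fun t ht => h9 (uIoc_subset_uIcc ht), ?_⟩
  rw [← intervalIntegral.integral_congr h9, R.Q_congr he]
  exact h8

omit [CompleteSpace H] in
theorem M_one {R : Res H} {α : ℝ} {x : H} {W : ℝ → ℝ} (hW : IntervalIntegrable W volume 0 1)
    (hM : ∀ t ∈ Ico (0:ℝ) 1, α * ‖R.P t x‖ ^ 2 = α * ‖R.P 0 x‖ ^ 2 + ∫ s in (0:ℝ)..t, W s) :
    I (α * ‖R.P 0 x‖ ^ 2) W 1 = α * ‖x‖ ^ 2 := by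
  have h1 : Tendsto (fun t => α * ‖R.P t x‖ ^ 2) (𝓝[<] 1) (𝓝 (α * ‖x‖ ^ 2)) :=
    ((R.left x).norm.pow 2).const_mul α
  have h2 : Tendsto (I (α * ‖R.P 0 x‖ ^ 2) W) (𝓝[<] 1) (𝓝 (I (α * ‖R.P 0 x‖ ^ 2) W 1)) := by
    have h3 : ContinuousWithinAt (I (α * ‖R.P 0 x‖ ^ 2) W) (Icc 0 1) 1 :=
      I_continuousOn hW 1 ⟨zero_le_one, le_rfl⟩
    refine h3.mono_left ?_
    rw [← nhdsWithin_Ioo_eq_nhdsLT (zero_lt_one' ℝ)]
    exact nhdsWithin_mono _ Ioo_subset_Icc_self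
  refine tendsto_nhds_unique h2 (h1.congr' ?_)
  filter_upwards [Ioo_mem_nhdsLT (zero_lt_one' ℝ)] with t ht
  rw [hM t ⟨ht.1.le, ht.2⟩]
  rfl

theorem Q_eq_ell {R : Res H} {α : ℝ} {x : H} {W : ℝ → ℝ} (hW : IntervalIntegrable W volume 0 1)
    (hM : ∀ t ∈ Ico (0:ℝ) 1, α * ‖R.P t x‖ ^ 2 = α * ‖R.P 0 x‖ ^ 2 + ∫ s in (0:ℝ)..t, W s)
    (P' : Prof) : α * R.Q P'.D x = ell (α * ‖R.P 0 x‖ ^ 2) W P'.D := by
  rw [ell_prof hW, M_one hW hM, R.Q_eq_integral (D_continuousOn P') P'.int (fun t _ => rfl) x,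
    mul_add, ← intervalIntegral.integral_const_mul]
  have : ∫ t in (0:ℝ)..1, α * (P'.m t * ‖R.P t x‖ ^ 2) =
      ∫ s in (0:ℝ)..1, P'.m s * I (α * ‖R.P 0 x‖ ^ 2) W s := by
    rw [intervalIntegral.integral_of_le zero_le_one, intervalIntegral.integral_of_le zero_le_one,
      integral_Ioc_eq_integral_Ioo, integral_Ioc_eq_integral_Ioo]
    apply setIntegral_congr_fun measurableSet_Ioo
    intro t ht
    simp only [I]
    rw [← hM t ⟨ht.1.le, ht.2⟩]
    ring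
  rw [this]
  ring

theorem vi_of_kkt {R : Res H} {α : ℝ} {x : H} (P : Prof)
    (hpos : ∀ t ∈ Ico (0:ℝ) 1, 0 < P.D t)
    (hi : IntervalIntegrable (fun t => 1 / P.D t) volume 0 1) (hk : KKTD R α x P.D)
    {T : ℝ → ℝ} (hT : ContinuousOn T (Ico 0 1)) (hTb : ∃ C, ∀ t ∈ Ico (0:ℝ) 1, |T t| ≤ C)
    (hM : ∀ t ∈ Ico (0:ℝ) 1, ‖R.P t x‖ ^ 2 = ‖R.P 0 x‖ ^ 2 + ∫ s in (0:ℝ)..t, T s / (P.D s) ^ 2) :
    IntervalIntegrable (fun t => 1 / (P.D t) ^ 2) volume 0 1 ∧
      VI (α * ‖R.P 0 x‖ ^ 2) (fun t => (α * T t - 1) / (P.D t) ^ 2) P := by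
  have hDc : ContinuousOn P.D (Icc 0 1) := D_continuousOn P
  have hDnn : ∀ t ∈ Icc (0:ℝ) 1, 0 ≤ P.D t := fun t ht => prof_nonneg P ht
  -- `1/D²` integrable
  have hE : IntervalIntegrable (fun t => 1 / (P.D t) ^ 2) volume 0 1 := by
    have h1 := hk (fun t => P.D t + 1) ((prof_concave P).add_const 1)
      ((prof_anti P).add_const 1) (hDc.add continuousOn_const)
      (fun t ht => by have := hpos t ht; linarith)
      (by have := hDnn 1 ⟨zero_le_one, le_rfl⟩; linarith)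
      (by
        apply ContinuousOn.intervalIntegrable
        rw [uIcc_of_le (zero_le_one' ℝ)]
        refine continuousOn_const.div (hDc.add continuousOn_const) ?_
        intro t ht
        have := hDnn t ht
        positivity)
    refine h1.1.congr ?_
    intro t _
    simp only [add_sub_cancel_left]
  refine ⟨hE, ?_⟩
  obtain ⟨C, hC⟩ := hTb
  -- `W = α T / D²`
  set W : ℝ → ℝ := fun t => α * T t / (P.D t) ^ 2 with hWdef
  have hW : IntervalIntegrable W volume 0 1 := by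
    have h1 := hE.const_mul (|α| * C)
    refine h1.mono_fun' ?_ ?_
    · rw [uIoc_of_le zero_le_one, Measure.restrict_congr_set Ioo_ae_eq_Ioc.symm]
      refine ContinuousOn.aestronglyMeasurable ?_ measurableSet_Ioo
      refine ContinuousOn.div (continuousOn_const.mul (hT.mono Ioo_subset_Ico_self))
        ((hDc.mono Ioo_subset_Icc_self).pow 2) ?_
      intro t ht
      exact (pow_pos (hpos t (Ioo_subset_Ico_self ht)) 2).ne'
    · rw [uIoc_of_le zero_le_one, Measure.restrict_congr_set Ioo_ae_eq_Ioc.symm]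
      filter_upwards [ae_restrict_mem measurableSet_Ioo] with t ht
      have ht' : t ∈ Ico (0:ℝ) 1 := Ioo_subset_Ico_self ht
      have h2 := hC t ht'
      have h3 := hpos t ht'
      rw [hWdef]
      simp only
      rw [norm_div, Real.norm_eq_abs, Real.norm_eq_abs, abs_of_pos (pow_pos h3 2),
        div_eq_mul_one_div, abs_mul]
      exact mul_le_mul_of_nonneg_right (mul_le_mul_of_nonneg_left h2 (abs_nonneg α))
        (by positivity)
  have hM' : ∀ t ∈ Ico (0:ℝ) 1,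
      α * ‖R.P t x‖ ^ 2 = α * ‖R.P 0 x‖ ^ 2 + ∫ s in (0:ℝ)..t, W s := by
    intro t ht
    rw [hM t ht, mul_add, ← intervalIntegral.integral_const_mul]
    congr 1
    apply intervalIntegral.integral_congr
    intro s _
    simp only [hWdef]
    ring
  -- `ell` with `ρ`
  have hell : ∀ P' : Prof, ell (α * ‖R.P 0 x‖ ^ 2) (fun t => (α * T t - 1) / (P.D t) ^ 2) P'.D =
      α * R.Q P'.D x - ∫ t in (0:ℝ)..1, P'.D t / (P.D t) ^ 2 := by
    intro P'
    have h1 : IntervalIntegrable (fun t => P'.D t * W t) volume 0 1 :=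
      int_mul_cont hW (D_continuousOn P')
    have h2 : IntervalIntegrable (fun t => P'.D t * (1 / (P.D t) ^ 2)) volume 0 1 :=
      int_mul_cont hE (D_continuousOn P')
    rw [Q_eq_ell hW hM' P']
    unfold ell
    rw [add_sub_assoc]
    congr 1
    have h3 : ∫ t in (0:ℝ)..1, P'.D t / (P.D t) ^ 2 =
        ∫ t in (0:ℝ)..1, P'.D t * (1 / (P.D t) ^ 2) := by
      congr 1
      ext t
      ring
    rw [h3, ← intervalIntegral.integral_sub h1 h2]
    congr 1
    ext t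
    simp only [hWdef]
    ring
  intro P'
  -- the inequality for `P' + r P`
  have key : ∀ r : ℝ, (hr : 0 < r) →
      ell (α * ‖R.P 0 x‖ ^ 2) (fun t => (α * T t - 1) / (P.D t) ^ 2) P.D ≤
        ell (α * ‖R.P 0 x‖ ^ 2) (fun t => (α * T t - 1) / (P.D t) ^ 2) P'.D +
        r * ell (α * ‖R.P 0 x‖ ^ 2) (fun t => (α * T t - 1) / (P.D t) ^ 2) P.D := by
    intro r hr
    set P2 := comb P' P hr.le with hP2
    have hD2 : ∀ t ∈ Icc (0:ℝ) 1, P2.D t = P'.D t + r * P.D t := fun t ht => comb_D P' P hr.le ht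
    have h1 := hk P2.D (prof_concave P2) (prof_anti P2) (D_continuousOn P2)
      (fun t ht => by
        rw [hD2 t (Ico_subset_Icc_self ht)]
        have := prof_nonneg P' (Ico_subset_Icc_self ht)
        have := mul_pos hr (hpos t ht)
        linarith)
      (prof_nonneg P2 ⟨zero_le_one, le_rfl⟩)
      (by
        have h2 := hi.const_mul (1 / r)
        refine h2.mono_fun' ?_ ?_
        · rw [uIoc_of_le zero_le_one, Measure.restrict_congr_set Ioo_ae_eq_Ioc.symm]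
          refine ContinuousOn.aestronglyMeasurable ?_ measurableSet_Ioo
          refine continuousOn_const.div ((D_continuousOn P2).mono Ioo_subset_Icc_self) ?_
          intro t ht
          rw [hD2 t (Ioo_subset_Icc_self ht)]
          have h3 := prof_nonneg P' (Ioo_subset_Icc_self ht)
          have h4 := mul_pos hr (hpos t (Ioo_subset_Ico_self ht))
          linarith
        · rw [uIoc_of_le zero_le_one, Measure.restrict_congr_set Ioo_ae_eq_Ioc.symm]
          filter_upwards [ae_restrict_mem measurableSet_Ioo] with t ht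
          rw [hD2 t (Ioo_subset_Icc_self ht)]
          have h3 := prof_nonneg P' (Ioo_subset_Icc_self ht)
          have h4 := hpos t (Ioo_subset_Ico_self ht)
          have h5 := mul_pos hr h4
          rw [Real.norm_eq_abs, abs_of_pos (by positivity), one_div_mul_one_div]
          exact one_div_le_one_div_of_le h5 (by linarith))
    have h6 : ∫ t in (0:ℝ)..1, (P2.D t - P.D t) / P.D t ^ 2 =
        (∫ t in (0:ℝ)..1, P2.D t / (P.D t) ^ 2) - ∫ t in (0:ℝ)..1, P.D t / (P.D t) ^ 2 := by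
      have h7 : IntervalIntegrable (fun t => P2.D t / (P.D t) ^ 2) volume 0 1 :=
        (int_mul_cont hE (D_continuousOn P2)).congr fun t _ => by ring
      have h8 : IntervalIntegrable (fun t => P.D t / (P.D t) ^ 2) volume 0 1 :=
        (int_mul_cont hE hDc).congr fun t _ => by ring
      rw [← intervalIntegral.integral_sub h7 h8]
      congr 1
      ext t
      ring
    rw [h6] at h1
    have h9 := hell P2
    have h10 := hell P
    have h11 : ell (α * ‖R.P 0 x‖ ^ 2) (fun t => (α * T t - 1) / (P.D t) ^ 2) P2.D =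
        ell (α * ‖R.P 0 x‖ ^ 2) (fun t => (α * T t - 1) / (P.D t) ^ 2) P'.D +
        r * ell (α * ‖R.P 0 x‖ ^ 2) (fun t => (α * T t - 1) / (P.D t) ^ 2) P.D := by
      have hρ : IntervalIntegrable (fun t => (α * T t - 1) / (P.D t) ^ 2) volume 0 1 :=
        (hW.sub hE).congr fun t _ => by simp only [hWdef]; ring
      unfold ell
      rw [hD2 0 ⟨le_rfl, zero_le_one⟩]
      have h12 : ∫ t in (0:ℝ)..1, P2.D t * ((α * T t - 1) / (P.D t) ^ 2) =
          (∫ t in (0:ℝ)..1, P'.D t * ((α * T t - 1) / (P.D t) ^ 2)) +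
          r * ∫ t in (0:ℝ)..1, P.D t * ((α * T t - 1) / (P.D t) ^ 2) := by
        rw [← intervalIntegral.integral_const_mul, ← intervalIntegral.integral_add
          (int_mul_cont hρ (D_continuousOn P')) ((int_mul_cont hρ hDc).const_mul r)]
        apply intervalIntegral.integral_congr
        intro t ht
        rw [uIcc_of_le (zero_le_one' ℝ)] at ht
        simp only [hD2 t ht]
        ring
      rw [h12]
      ring
    rw [← h11, h9, h10]
    linarith [h1.2]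
  have hlim : Tendsto (fun r : ℝ =>
      ell (α * ‖R.P 0 x‖ ^ 2) (fun t => (α * T t - 1) / (P.D t) ^ 2) P'.D +
        r * ell (α * ‖R.P 0 x‖ ^ 2) (fun t => (α * T t - 1) / (P.D t) ^ 2) P.D) (𝓝[>] 0)
      (𝓝 (ell (α * ‖R.P 0 x‖ ^ 2) (fun t => (α * T t - 1) / (P.D t) ^ 2) P'.D +
        0 * ell (α * ‖R.P 0 x‖ ^ 2) (fun t => (α * T t - 1) / (P.D t) ^ 2) P.D)) :=
    (tendsto_const_nhds.add (tendsto_id.mul_const _)).mono_left nhdsWithin_le_nhds
  rw [zero_mul, add_zero] at hlim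
  refine ge_of_tendsto hlim ?_
  filter_upwards [self_mem_nhdsWithin] with r hr using key r hr


/-- non-strict form (`T ≤ S`, `0 ≤ c0`) of **the tip in the Hilbert frame**: at a jamming minimiser (`KKTD` is `HilbD.kkt_D`), with the
limit identities for `‖P_t x‖²` and `S/D`, and the quasi-convexity of `T` on affine pieces of `D`. -/
theorem tip_hilb_le {R : Res H} {α : ℝ} (hα : 0 < α) {x : H} {D : ℝ → ℝ} (P : Prof)
    (hP : ∀ t ∈ Icc (0:ℝ) 1, P.D t = D t) (hd : D 1 = 0)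
    (hpos : ∀ t ∈ Ico (0:ℝ) 1, 0 < D t)
    (hi : IntervalIntegrable (fun t => 1 / D t) volume 0 1) (hk : KKTD R α x D)
    {S T : ℝ → ℝ} (hT : ContinuousOn T (Ico 0 1))
    (hT0 : ∀ t ∈ Ico (0:ℝ) 1, 0 ≤ T t) (hTS : ∀ t ∈ Ico (0:ℝ) 1, T t ≤ S t)
    (hS1 : ∀ t ∈ Ico (0:ℝ) 1, S t ≤ 1)
    (hM : ∀ t ∈ Ico (0:ℝ) 1, ‖R.P t x‖ ^ 2 = ‖R.P 0 x‖ ^ 2 + ∫ s in (0:ℝ)..t, T s / (D s) ^ 2)
    (hR2 : ∀ t ∈ Ico (0:ℝ) 1,
      S t / D t = S 0 / D 0 + ∫ s in (0:ℝ)..t, P.m s * T s / (D s) ^ 2)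
    {t0 : ℝ} (ht0 : t0 < 1)
    (hQC : ∀ a b, t0 ≤ a → 0 ≤ a → a < b → b < 1 → (∀ t ∈ Icc a b, P.m t = P.m a) →
      ∀ x y z, a ≤ x → x ≤ y → y ≤ z → z ≤ b → T y ≤ max (T x) (T z)) :
    ∃ t1 c0, t0 ≤ t1 ∧ 0 < t1 ∧ t1 < 1 ∧ 0 ≤ c0 ∧ (∀ t ∈ Ico t1 1, α * T t = 1) ∧
      ∀ t ∈ Ico t1 1, S t - T t = c0 * D t := by
  have hd' : P.d = 0 := by rw [← prof_one P, hP 1 ⟨zero_le_one, le_rfl⟩, hd]
  have hpos' : ∀ t ∈ Ico (0:ℝ) 1, 0 < P.D t := fun t ht => by
    rw [hP t (Ico_subset_Icc_self ht)]; exact hpos t ht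
  have hcg : ∀ (f : ℝ → ℝ → ℝ) {t : ℝ}, t ∈ Ico (0:ℝ) 1 →
      ∫ s in (0:ℝ)..t, f s (D s) = ∫ s in (0:ℝ)..t, f s (P.D s) := by
    intro f t ht
    apply intervalIntegral.integral_congr
    intro s hs
    rw [uIcc_of_le ht.1] at hs
    simp only [hP s ⟨hs.1, hs.2.trans ht.2.le⟩]
  obtain ⟨hE, hVI⟩ := vi_of_kkt (R := R) (α := α) (x := x) P hpos'
    (hi.congr fun t ht => by
      rw [uIoc_of_le zero_le_one] at ht
      simp only [hP t ⟨ht.1.le, ht.2⟩]) (hk.congr hP) hT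
    ⟨1, fun t ht => by
      rw [abs_of_nonneg (hT0 t ht)]
      exact (hTS t ht).trans (hS1 t ht)⟩
    (fun t ht => by rw [hM t ht, hcg (fun s y => T s / y ^ 2) ht])
  obtain ⟨t1, c0, h1, h2, h3, h4, h5, h6⟩ := tip_full_le hα P S T hd' hpos' hT hT0 hTS hS1 hE hVI
    (fun t ht => by
      rw [hP t (Ico_subset_Icc_self ht), hP 0 ⟨le_rfl, zero_le_one⟩, hR2 t ht,
        hcg (fun s y => P.m s * T s / y ^ 2) ht]) ht0 hQC
  refine ⟨t1, c0, h1, h2, h3, h4, h5, fun t ht => ?_⟩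
  rw [← hP t ⟨h2.le.trans ht.1, ht.2.le⟩]
  exact h6 t ht

end Hil

end Crest.Agent.R146.PtScalC_45
end

-- ▼ part R146/StepAsm_791

/-!
Row 146, package PT-STEP, ASSEMBLY (helper791): from a jamming minimiser in the Hilbert frame to
`TipSeq P`.

Open inputs are hypotheses (Props):
* `PLAW` (R2, helper534), `START` (helper384), `PUB` (bound of `V_x`), `Bridge R K ξ` (R3, helper256),
  `NOGAP` (PT-APRI).
`tipSeq_of` : conclusion.
-/

set_option autoImplicit false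

namespace Crest.Agent.R146.StepAsm_791

open MeasureTheory ProbabilityTheory Set Filter Topology
open Crest.Agent.R146.StepDef_791 Crest.Agent.R146.StepApx_856 Crest.Agent.R146.TipSeq_791
open Crest.Agent.R146.StepAppr_522 Crest.Agent.R146.PtS4b_489
open Crest.Agent.R146.PtHlim_45 Crest.Agent.R146.PtScalC_45
open Crest.Agent.R146.PtScalA_45 (Prof)
open Crest.Agent.R146.Cell_534 (pd)
open Crest.Agent.R146.Hilb
open scoped RealInnerProductSpace

noncomputable section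

/-- **R2** (helper534): the law with density `pd A 1` of `Cell_534`, started at `1`, with the explicit
slope on the first cell, and the universal lower bound of the slope for nondecreasing weights -/
def PLAW : Prop := ∃ Y Yx Yxx : SD → ℝ → ℝ → ℝ, ∀ A : SD,
  Law A 1 (pd A 1) (Y A) (Yx A) (Yxx A) ∧
  (∃ s1 ∈ Ioc 0 A.T, ∀ t ∈ Ioc 0 s1, ∀ x, Y A t x = (x - 1) / t - A.bl t * A.u t x) ∧
  ((∀ x y, 0 ≤ x → x ≤ y → y < A.T → A.m x ≤ A.m y) →
    ∀ t ∈ Ioc 0 A.T, ∀ x, (x - 1) / t - A.bl t * A.u t x ≤ Y A t x)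

/-- **START** (helper384): one-sided bounds of the slope at a fixed time, uniform in the datum -/
def START : Prop := ∀ t0 ∈ Ioo (0 : ℝ) 1, ∀ B : ℝ, ∃ C : ℝ, ∀ (A : SD) (p Y Yx Yxx : ℝ → ℝ → ℝ),
  Law A 1 p Y Yx Yxx →
  (∃ s1 ∈ Ioc 0 A.T, ∀ t ∈ Ioc 0 s1, ∀ x, Y t x = (x - 1) / t - A.bl t * A.u t x) →
  t0 < A.T → (∀ t ∈ Ico 0 A.T, (1 - t) * A.b t ≤ 1) → (∀ t ∈ Icc 0 t0, A.b t ≤ B) →
  ∀ x, -(C * (1 + A.u t0 x)) ≤ Y t0 x ∧ Y t0 x ≤ C * (1 + A.w t0 x)

/-- bound of `V_x` -/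
def PUB : Prop := ∀ A : SD, (∀ t ∈ Ico 0 A.T, (1 - t) * A.b t ≤ 1) →
  ∀ t ∈ Icc 0 A.T, ∀ x, (1 - t) * A.P t x ^ 2 ≤ 2 * A.V t x * (1 - A.V t x)

/-- **R3** (helper256), for the density `pd A 1` -/
def Bridge {H : Type*} [NormedAddCommGroup H] [InnerProductSpace ℝ H] [CompleteSpace H]
    (R : Res H) (K : Set H) (ξ : H) : Prop :=
  ∀ A : SD, ∃ l : H, Kkt R K ξ A.D l ∧ (∀ t ∈ Icc 0 A.T, ‖R.P t l‖ ^ 2 = Lams A 1 (pd A 1) t) ∧
    ∀ t ∈ Icc 0 A.T, ⟪R.P t (ξ + R.Dop A.D l), l⟫ = Cs A 1 (pd A 1) t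

section

variable {H : Type*} [NormedAddCommGroup H] [InnerProductSpace ℝ H] [CompleteSpace H]
  {R : Res H} {K : Set H} {ξ x : H}

/-- dyadic grids -/
def dyads (n : ℕ) : Finset ℝ := (Finset.range (2 ^ n + 1)).image fun k : ℕ => (k : ℝ) / 2 ^ n

theorem mem_dyads {n k : ℕ} (hk : k ≤ 2 ^ n) : ((k : ℝ) / 2 ^ n) ∈ dyads n :=
  Finset.mem_image.2 ⟨k, Finset.mem_range.2 (by omega), rfl⟩

theorem dyads_sub {n : ℕ} {y : ℝ} (hy : y ∈ dyads n) : y ∈ Icc (0 : ℝ) 1 := by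
  obtain ⟨k, hk, rfl⟩ := Finset.mem_image.1 hy
  have hk' : k ≤ 2 ^ n := by
    have := Finset.mem_range.1 hk
    omega
  have h2 : (k : ℝ) ≤ 2 ^ n := by exact_mod_cast hk'
  exact ⟨by positivity, by rw [div_le_one (by positivity)]; exact h2⟩

theorem S_unique {P : Prof} (hpos : ∀ t ∈ Ico (0 : ℝ) 1, 0 < P.D t) {C0 q q' : ℝ → ℝ}
    (hq : ContinuousOn q (Ico 0 1)) (hq' : ContinuousOn q' (Ico 0 1))
    (h : ∀ x y : ℝ, 0 ≤ x → x ≤ y → y < 1 → C0 x - C0 y = ∫ z in x..y, q z / P.D z)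
    (h' : ∀ x y : ℝ, 0 ≤ x → x ≤ y → y < 1 → C0 x - C0 y = ∫ z in x..y, q' z / P.D z) :
    ∀ t ∈ Ico (0 : ℝ) 1, q t = q' t := by
  have hDc : ContinuousOn P.D (Ico 0 1) := (D_contOn P).mono Ico_subset_Icc_self
  have key : ∀ r : ℝ → ℝ, (∀ x y : ℝ, 0 ≤ x → x ≤ y → y < 1 →
      C0 x - C0 y = ∫ z in x..y, r z / P.D z) →
      ∀ x y : ℝ, 0 ≤ x → x ≤ y → y < 1 →
        (fun t => -C0 t) y - (fun t => -C0 t) x = ∫ z in x..y, (r z * P.D z) / (P.D z) ^ 2 := by
    intro r hr x y hx hxy hy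
    have h1 : (fun t => -C0 t) y - (fun t => -C0 t) x = C0 x - C0 y := by ring
    rw [h1, hr x y hx hxy hy]
    refine intervalIntegral.integral_congr fun z hz => ?_
    rw [uIcc_of_le hxy] at hz
    have h2 := (hpos z ⟨hx.trans hz.1, hz.2.trans_lt hy⟩).ne'
    show r z / P.D z = r z * P.D z / P.D z ^ 2
    field_simp
  have h3 := T_unique hpos (L0 := fun t => -C0 t) (hq.mul hDc) (hq'.mul hDc) (key q h) (key q' h')
  intro t ht
  have h4 := h3 t ht
  exact mul_right_cancel₀ (hpos t ht).ne' h4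

/-- all approximating sequences with given grid points -/
theorem exists_pre {D : ℝ → ℝ} (hk : Kkt R K ξ D x) (hcont : ContinuousOn D (Icc 0 1))
    (hanti : AntitoneOn D (Icc 0 1)) (P : Prof) (hP : ∀ t ∈ Icc (0:ℝ) 1, P.D t = D t)
    (hpos : ∀ t ∈ Ico (0 : ℝ) 1, 0 < P.D t)
    (hint : IntervalIntegrable (fun t => (P.D t)⁻¹) volume 0 1)
    (hback : ∀ A : SD, Back A) (hlaw : PLAW) (hst : START) (hpub : PUB) (hbr : Bridge R K ξ) :
    ∃ CY : ℝ → ℝ, ∀ (F0 : Finset ℝ), (∀ y ∈ F0, y ∈ Icc (0 : ℝ) 1) →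
    ∃ (A : ℕ → SD) (ε : ℕ → ℝ) (F : ℕ → Finset ℝ) (Kn : ℕ → ℕ) (g : ℕ → ℕ → ℝ) (e : ℕ → ℝ)
      (p Y Yx Yxx : ℕ → ℝ → ℝ → ℝ),
      (∀ n, Apx P.D P.m (ε n) (F n) (A n) (Kn n) (g n) (e n)) ∧ Tendsto ε atTop (𝓝 0) ∧
      (∀ n k : ℕ, k ≤ 2 ^ n → ((k : ℝ) / 2 ^ n) ∈ F n) ∧ (∀ n, F0 ⊆ F n) ∧
      (∀ n, Law (A n) 1 (p n) (Y n) (Yx n) (Yxx n)) ∧
      (∀ t0 ∈ Ioo (0 : ℝ) 1, ∀ᶠ n in atTop, ∀ x,
        -(CY t0 * (1 + (A n).u t0 x)) ≤ Y n t0 x ∧ Y n t0 x ≤ CY t0 * (1 + (A n).w t0 x)) ∧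
      (∀ n, ∀ t ∈ Ioc 0 (A n).T, ∀ x, (x - 1) / t - (A n).bl t * (A n).u t x ≤ Y n t x) ∧
      Appr P A 1 p (fun t => ‖R.P t x‖ ^ 2) (fun t => ⟪R.P t (ξ + R.Dop D x), x⟫) := by
  classical
  obtain ⟨YA, YxA, YxxA, hlawA⟩ := hlaw
  -- the universal constant
  let q : ℝ → ℝ := fun t0 => (1 + t0) / 2
  let B : ℝ → ℝ := fun t0 => (P.m (q t0) + 1) / P.D t0
  have hq0 : ∀ t0 ∈ Ioo (0:ℝ) 1, 0 < q t0 := fun t0 ht0 => by simp only [q]; linarith [ht0.1]
  have hq1 : ∀ t0 ∈ Ioo (0:ℝ) 1, q t0 < 1 := fun t0 ht0 => by simp only [q]; linarith [ht0.2]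
  have hCex : ∀ t0 : ℝ, ∃ C : ℝ, t0 ∈ Ioo (0:ℝ) 1 → ∀ (A : SD) (p Y Yx Yxx : ℝ → ℝ → ℝ),
      Law A 1 p Y Yx Yxx →
      (∃ s1 ∈ Ioc 0 A.T, ∀ t ∈ Ioc 0 s1, ∀ x, Y t x = (x - 1) / t - A.bl t * A.u t x) →
      t0 < A.T → (∀ t ∈ Ico 0 A.T, (1 - t) * A.b t ≤ 1) → (∀ t ∈ Icc 0 t0, A.b t ≤ B t0) →
      ∀ x, -(C * (1 + A.u t0 x)) ≤ Y t0 x ∧ Y t0 x ≤ C * (1 + A.w t0 x) := by
    intro t0
    by_cases ht0 : t0 ∈ Ioo (0:ℝ) 1
    · obtain ⟨C, hC⟩ := hst t0 ht0 (B t0)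
      exact ⟨C, fun _ => hC⟩
    · exact ⟨0, fun h => absurd h ht0⟩
  choose CY hCY using hCex
  refine ⟨CY, fun F0 hF0 => ?_⟩
  have h1 : ∀ n : ℕ, ∃ (A : SD) (K : ℕ) (t : ℕ → ℝ) (e : ℝ),
      Apx P.D P.m (1 / ((n : ℝ) + 1)) (F0 ∪ dyads n) A K t e := fun n =>
    exists_SD (isProf P) hpos hint (by positivity) _ (fun y hy => by
      rcases Finset.mem_union.1 hy with h | h
      · exact hF0 y h
      · exact dyads_sub h)
  choose A Kn g e hA using h1
  have hε : Tendsto (fun n : ℕ => 1 / ((n : ℝ) + 1)) atTop (𝓝 0) :=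
    tendsto_one_div_add_atTop_nhds_zero_nat
  have hT := StepApx_856.tendsto_T hA hε
  choose l hl hlam hC using fun n => hbr (A n)
  have hev : ∀ t ∈ Ico (0 : ℝ) 1, ∀ᶠ n in atTop, t ∈ Icc 0 (A n).T := by
    intro t ht
    filter_upwards [hT.eventually (lt_mem_nhds ht.2)] with n hn using ⟨ht.1, hn.le⟩
  have hDc : ∀ n, ContinuousOn (A n).D (Icc 0 1) := fun n =>
    (StepClk_900.clock (A n)).D_cont.continuousOn
  have hle : ∀ n, ∀ t ∈ Icc (0:ℝ) 1, D t ≤ (A n).D t := fun n t ht => by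
    rw [← hP t ht]; exact (hA n).D_le t ht
  have hge : ∀ n, ∀ t ∈ Icc (0:ℝ) 1, (A n).D t ≤ D t + 1 / ((n : ℝ) + 1) := fun n t ht => by
    rw [← hP t ht]; exact (hA n).le_D t ht
  have hD1 : 0 ≤ D 1 := by
    rw [← hP 1 ⟨zero_le_one, le_rfl⟩]
    exact prof_nonneg P ⟨zero_le_one, le_rfl⟩
  have hDpos : ∀ t ∈ Ico (0 : ℝ) 1, 0 < D t := fun t ht => by
    rw [← hP t (Ico_subset_Icc_self ht)]; exact hpos t ht
  refine ⟨A, fun n => 1 / ((n : ℝ) + 1), fun n => F0 ∪ dyads n, Kn, g, e, fun n => pd (A n) 1,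
    fun n => YA (A n), fun n => YxA (A n), fun n => YxxA (A n), hA, hε,
    fun n k hk => Finset.mem_union_right _ (mem_dyads hk), fun n => Finset.subset_union_left,
    fun n => (hlawA (A n)).1, ?_,
    fun n => (hlawA (A n)).2.2 fun x y hx hxy hy => (hA n).m_mono hx hxy hy, ?_⟩
  · -- uniform slope bound
    intro t0 ht0
    have hq1' := hq1 t0 ht0
    have hDt0 : 0 < P.D t0 := hpos t0 ⟨ht0.1.le, ht0.2⟩
    filter_upwards [hT.eventually (lt_mem_nhds ht0.2), hε.eventually (gt_mem_nhds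
      (show (0:ℝ) < q t0 - t0 by simp only [q]; linarith [ht0.2]))] with n hn1 hn2 y
    refine hCY t0 ht0 (A n) _ _ _ _ (hlawA (A n)).1 (hlawA (A n)).2.1 hn1
      (fun t ht => (hA n).b_le ⟨ht.1, ht.2.le.trans (A n).hT1.le⟩) (fun t ht => ?_) y
    have ht1 : t ∈ Icc (0:ℝ) 1 := ⟨ht.1, ht.2.trans ht0.2.le⟩
    have hn3 : 1 / ((n : ℝ) + 1) ≤ 1 := by
      rw [div_le_one (by positivity)]
      linarith [(Nat.cast_nonneg n : (0:ℝ) ≤ n)]
    have h2 := (hA n).m_le_of (isProf P) (x := t) (y := q t0) ⟨ht.1, ht.2.trans_lt hn1⟩ hq1'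
      (by linarith [ht.2])
    have h3 := (hA n).D_le t ht1
    have h4 := prof_anti P ht1 ⟨ht0.1.le, ht0.2.le⟩ ht.2
    have h5 := (A n).m_nonneg t
    show (A n).m t / (A n).D t ≤ (P.m (q t0) + 1) / P.D t0
    exact div_le_div₀ (by linarith) (by linarith) hDt0 (by linarith)
  · -- the scalar limits
    refine appr_of hA hε (fun n => hback (A n)) (fun n => (hlawA (A n)).1) ?_ ?_ ?_
    · intro n
      refine hpub (A n) fun t ht => ?_
      exact (hA n).b_le ⟨ht.1, ht.2.le.trans (A n).hT1.le⟩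
    · intro t ht
      have h2 := hk.tendsto_norm hl hcont hDc hanti hD1 hle hge hε
        (Ico_subset_Icc_self ht) (hDpos t ht)
      refine h2.congr' ?_
      filter_upwards [hev t ht] with n hn using hlam n t hn
    · intro t ht
      have h2 := hk.tendsto_C hl hcont hDc hanti hD1 hle hge hε
        (Ico_subset_Icc_self ht) (hDpos t ht)
      refine h2.congr' ?_
      filter_upwards [hev t ht] with n hn using hC n t hn

/-- **PT-STEP assembly** -/
theorem tipSeq_of {α : ℝ} (hα : 0 < α) {D : ℝ → ℝ} (hk : Kkt R K ξ D x) (hkd : KKTD R α x D)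
    (hconc : ConcaveOn ℝ (Icc 0 1) D) (hanti : AntitoneOn D (Icc 0 1))
    (hcont : ContinuousOn D (Icc 0 1)) (hD1 : D 1 = 0) (hDpos : ∀ t ∈ Ico (0 : ℝ) 1, 0 < D t)
    (hint : IntervalIntegrable (fun t => 1 / D t) volume 0 1)
    (hcp : ∀ t ∈ Ico (0 : ℝ) 1, 0 < ⟪R.P t (ξ + R.Dop D x), x⟫)
    (hback : ∀ A : SD, Back A) (hlaw : PLAW) (hst : START) (hpub : PUB) (hbr : Bridge R K ξ)
    (hng : NOGAP) :
    ∃ P : Prof, (∀ t ∈ Icc (0:ℝ) 1, P.D t = D t) ∧ ∃ τ : TipSeq P,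
      ∀ t ∈ Ico τ.t1 1, ⟪R.P t (ξ + R.Dop D x), x⟫ = τ.c0 * (1 - t) := by
  obtain ⟨P, hPd, hP, -⟩ := exists_prof hconc hanti hcont hD1.ge
  have hd : P.d = 0 := by rw [hPd, hD1]
  have hpos : ∀ t ∈ Ico (0 : ℝ) 1, 0 < P.D t := fun t ht => by
    rw [hP t (Ico_subset_Icc_self ht)]; exact hDpos t ht
  have hint' : IntervalIntegrable (fun t => 1 / P.D t) volume 0 1 := hint.congr fun t ht => by
    rw [uIoc_of_le zero_le_one] at ht
    simp only [hP t ⟨ht.1.le, ht.2⟩]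
  have hint'' : IntervalIntegrable (fun t => (P.D t)⁻¹) volume 0 1 := by
    simpa only [one_div] using hint'
  obtain ⟨CY, hpre⟩ := exists_pre hk hcont hanti P hP hpos hint'' hback hlaw hst hpub hbr
  -- the base sequence
  obtain ⟨A, ε, F, Kn, g, e, p, Y, Yx, Yxx, hA, hε, hdy, -, hL, -, -, hap⟩ := hpre ∅ (by simp)
  obtain ⟨T, S, hTc, hSc, hT, hQ, hT0, hTS, hS1, hLint, hCint, hR2⟩ := hap.limit hpos
  have hM : ∀ t ∈ Ico (0:ℝ) 1, ‖R.P t x‖ ^ 2 = ‖R.P 0 x‖ ^ 2 +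
      ∫ s in (0:ℝ)..t, T s / (P.D s) ^ 2 := fun t ht => by
    have h1 : ‖R.P t x‖ ^ 2 - ‖R.P 0 x‖ ^ 2 = ∫ s in (0:ℝ)..t, T s / (P.D s) ^ 2 :=
      hLint 0 t le_rfl ht.1 ht.2
    linarith
  have hTb : ∃ C, ∀ t ∈ Ico (0:ℝ) 1, |T t| ≤ C := ⟨1, fun t ht => by
    rw [abs_of_nonneg (hT0 t ht)]; exact (hTS t ht).trans (hS1 t ht)⟩
  have hkdP : KKTD R α x P.D := hkd.congr hP
  obtain ⟨hint2, -⟩ := vi_of_kkt (R := R) (α := α) (x := x) P hpos hint' hkdP hTc hTb hM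
  -- all sequences have the same limits
  have hall : ∀ F0 : Finset ℝ, (∀ y ∈ F0, y ∈ Icc (0 : ℝ) 1) →
      ∃ Q : PreSeq P T S, (∀ n, F0 ⊆ Q.F n) ∧
        ∀ t0 ∈ Ioo (0 : ℝ) 1, ∀ᶠ n in atTop, ∀ x,
          -(CY t0 * (1 + (Q.A n).u t0 x)) ≤ Q.Y n t0 x ∧
            Q.Y n t0 x ≤ CY t0 * (1 + (Q.A n).w t0 x) := by
    intro F0 hF0
    obtain ⟨A', ε', F', Kn', g', e', p', Y', Yx', Yxx', hA', hε', hdy', hF', hL', hY', hYst',
      hap'⟩ :=
      hpre F0 hF0
    obtain ⟨T', S', hTc', hSc', hT', hQ', hT0', hTS', hS1', hLint', hCint', hR2'⟩ :=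
      hap'.limit hpos
    have hTT : ∀ t ∈ Ico (0 : ℝ) 1, T' t = T t := T_unique hpos hTc' hTc hLint' hLint
    have hSS : ∀ t ∈ Ico (0 : ℝ) 1, S' t - T' t = S t - T t :=
      S_unique hpos (hSc'.sub hTc') (hSc.sub hTc) hCint' hCint
    refine ⟨{ A := A', ε := ε', F := F', K := Kn', g := g', e := e', p := p', Y := Y', Yx := Yx'
              Yxx := Yxx', d0 := hd, pos := hpos, int1 := hint'', int2 := hint2, apx := hA'
              ε_lim := hε', dyad := hdy', back := fun n => hback (A' n)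
              clock := fun n => StepClk_900.clock (A' n), law := hL'
              scal := fun n => scal_full (hback (A' n)) (hL' n), Ys := fun t0 ht0 => ⟨CY t0, hY' t0 ht0⟩, Yst := hYst'
              T_cont := hTc
              S_cont := hSc, T_nonneg := hT0, T_le_S := hTS, S_le := hS1
              T_lim := fun q hq => (hT' q hq).congr_right fun t ht =>
                hTT t ⟨ht.1, ht.2.trans_lt hq.2⟩
              Q_lim := fun q hq => (hQ' q hq).congr_right fun t ht =>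
                hSS t ⟨ht.1, ht.2.trans_lt hq.2⟩ }, hF', hY'⟩
  obtain ⟨t0, ht0, hQC⟩ := hng P T S CY hall
  have hcgi : ∀ (f : ℝ → ℝ → ℝ) {t : ℝ}, t ∈ Ico (0:ℝ) 1 →
      ∫ s in (0:ℝ)..t, f s (P.D s) = ∫ s in (0:ℝ)..t, f s (D s) := by
    intro f t ht
    apply intervalIntegral.integral_congr
    intro s hs
    rw [uIcc_of_le ht.1] at hs
    simp only [hP s ⟨hs.1, hs.2.trans ht.2.le⟩]
  obtain ⟨t1, c0, h1, h2, h3, h4, h5, h6⟩ := tip_hilb_le (R := R) hα P hP hD1 hDpos hint hkd hTc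
    hT0 hTS hS1 (fun t ht => by rw [hM t ht, hcgi (fun s y => T s / y ^ 2) ht])
    (fun t ht => by
      rw [← hP t (Ico_subset_Icc_self ht), ← hP 0 ⟨le_rfl, zero_le_one⟩, hR2 t ht,
        hcgi (fun s y => P.m s * T s / y ^ 2) ht]) ht0 hQC
  -- the charge
  have hchg : ∀ t ∈ Ico t1 1, ⟪R.P t (ξ + R.Dop D x), x⟫ = c0 * (1 - t) := by
    intro t ht
    have ht0' : 0 ≤ t := h2.le.trans ht.1
    have hlim : Tendsto (fun y => ⟪R.P y (ξ + R.Dop D x), x⟫) (𝓝[<] 1) (𝓝 0) := by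
      have h7 : Tendsto (fun y => ⟪R.P y (ξ + R.Dop D x), x⟫) (𝓝[<] 1)
          (𝓝 ⟪ξ + R.Dop D x, x⟫) :=
        (R.left (ξ + R.Dop D x)).inner (tendsto_const_nhds (x := x)) (𝕜 := ℝ)
      rwa [real_inner_comm, hk.zero] at h7
    have hlim2 : Tendsto (fun y => ⟪R.P t (ξ + R.Dop D x), x⟫ - c0 * (y - t)) (𝓝[<] 1)
        (𝓝 (⟪R.P t (ξ + R.Dop D x), x⟫ - c0 * (1 - t))) := by
      have : Continuous fun y : ℝ => ⟪R.P t (ξ + R.Dop D x), x⟫ - c0 * (y - t) := by fun_prop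
      exact (this.tendsto 1).mono_left nhdsWithin_le_nhds
    have heq : (fun y => ⟪R.P t (ξ + R.Dop D x), x⟫ - c0 * (y - t)) =ᶠ[𝓝[<] 1]
        fun y => ⟪R.P y (ξ + R.Dop D x), x⟫ := by
      filter_upwards [Ioo_mem_nhdsLT ht.2] with y hy
      have h8 := hCint t y ht0' hy.1.le hy.2
      have h9 : ∫ z in t..y, (S z - T z) / P.D z = ∫ z in t..y, c0 := by
        refine intervalIntegral.integral_congr fun z hz => ?_
        rw [uIcc_of_le hy.1.le] at hz
        have hz' : z ∈ Ico t1 1 := ⟨ht.1.trans hz.1, hz.2.trans_lt hy.2⟩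
        have hz0 : z ∈ Ico (0:ℝ) 1 := ⟨ht0'.trans hz.1, hz.2.trans_lt hy.2⟩
        show (S z - T z) / P.D z = c0
        rw [h6 z hz', ← hP z (Ico_subset_Icc_self hz0), mul_div_assoc, div_self (hpos z hz0).ne',
          mul_one]
      rw [h9, intervalIntegral.integral_const, smul_eq_mul] at h8
      linarith
    have := tendsto_nhds_unique (hlim2.congr' heq) hlim
    linarith
  have hc0 : 0 < c0 := by
    have h7 := hcp t1 ⟨h2.le, h3⟩
    rw [hchg t1 ⟨le_rfl, h3⟩] at h7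
    exact pos_of_mul_pos_left h7 (by linarith)
  obtain ⟨Q, -⟩ := hall ∅ (by simp)
  refine ⟨P, hP, { T := T, S := S, seq := Q, c := 1 / α, c0 := c0, t1 := t1, hc := by positivity
                   hc0 := hc0, ht1 := ⟨h2.le, h3⟩, T_eq := ?_, Q_eq := ?_ }, hchg⟩
  · intro t ht
    have := h5 t ht
    field_simp
    linarith
  · intro t ht
    rw [h6 t ht, hP t ⟨h2.le.trans ht.1, ht.2.le⟩]

end

end

end Crest.Agent.R146.StepAsm_791
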