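import Crest.Agent.R146.DZero_106
import Crest.Agent.R146.DualG2_256
import Crest.Agent.R146.P5Def_12
import Crest.Agent.R146.HilbD_356
import Crest.Agent.R146.ProfF_540
import Crest.Agent.R146.StepStart_483
import Crest.Agent.R146.SlopeT_371
import Crest.Agent.R146.Lev2_576
import Crest.Agent.R146.StepAsm_791
import Crest.Agent.R146.Back_847
import Crest.Agent.R146.PtTipC_52

-- ▼ part R146/DZero2_106
section

/-!
Row 146, node DZERO (helper106), part 2: at the jamming minimiser `D(1-) = 0`.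

`J0 P F W α lam m d` is the jamming functional, `D(t) = d + ∫_t^1 m`.  Hypothesis `HJ`: `J0 ≥ 0` for
the time-dilated Brownian motions `W'(t) = W(at)/√a`, `F'(t) = F(at)`, `0 < a ≤ 1`.
Conclusion: `d = 0`, and `m` is not eventually constant at `1`.
-/

open MeasureTheory ProbabilityTheory Set Filter Topology
open scoped NNReal ENNReal

namespace Crest.Agent.R146.DZero_106

set_option linter.unusedSectionVars false

variable {Ω : Type*} {mΩ : MeasurableSpace Ω}

/-- `W` is a Brownian motion on `[0,1]` for `F`. -/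
structure Brown (P : Measure Ω) (F : ℝ → MeasurableSpace Ω) (W : ℝ → Ω → ℝ) : Prop where
  le : ∀ t ∈ Icc (0 : ℝ) 1, F t ≤ mΩ
  mono : ∀ s t, 0 ≤ s → s ≤ t → t ≤ 1 → F s ≤ F t
  meas : ∀ t ∈ Icc (0 : ℝ) 1, Measurable[F t] (W t)
  zero : ∀ᵐ ω ∂P, W 0 ω = 0
  indep : ∀ s t, 0 ≤ s → s ≤ t → t ≤ 1 →
    Indep (F s) (MeasurableSpace.comap (fun ω => W t ω - W s ω) inferInstance) P
  law : ∀ s t, 0 ≤ s → s ≤ t → t ≤ 1 →
    P.map (fun ω => W t ω - W s ω) = gaussianReal 0 (Real.toNNReal (t - s))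

/-- `D(t) = d + ∫_t^1 m`. -/
noncomputable def DD (m : ℝ → ℝ) (d t : ℝ) : ℝ := d + ∫ s in t..1, m s

/-- Admissible profiles. -/
structure Adm (m : ℝ → ℝ) (d : ℝ) : Prop where
  nonneg : ∀ t ∈ Ioo (0 : ℝ) 1, 0 ≤ m t
  mono : MonotoneOn m (Ioo 0 1)
  int : IntervalIntegrable m volume 0 1
  d_nonneg : 0 ≤ d
  pos : ∀ t ∈ Ico (0 : ℝ) 1, 0 < DD m d t
  E_int : IntervalIntegrable (fun t => 1 / DD m d t) volume 0 1

/-- The jamming functional. -/
noncomputable def J0 (P : Measure Ω) (F : ℝ → MeasurableSpace Ω) (W : ℝ → Ω → ℝ) (α : ℝ)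
    (lam : Ω → ℝ) (m : ℝ → ℝ) (d : ℝ) : ℝ :=
  α * (∫ ω, lam ω * (1 + W 1 ω) ∂P)
    + α / 2 * ((∫ t in (0 : ℝ)..1, m t * ∫ ω, (P[lam|F t]) ω ^ 2 ∂P) + d * ∫ ω, lam ω ^ 2 ∂P)
    + 1 / 2 * ∫ t in (0 : ℝ)..1, 1 / DD m d t

variable {P : Measure Ω} [IsProbabilityMeasure P] {F : ℝ → MeasurableSpace Ω} {W : ℝ → Ω → ℝ}
  {lam A : Ω → ℝ} {m : ℝ → ℝ} {d α : ℝ}

lemma Brown.W2 (hB : Brown P F W) {t : ℝ} (ht : t ∈ Icc (0 : ℝ) 1) : MemLp (W t) 2 P := by
  have h1 := hB.law 0 t le_rfl ht.1 ht.2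
  have hm : Measurable (fun ω => W t ω - W 0 ω) :=
    ((hB.meas t ht).mono (hB.le t ht) le_rfl).sub
      ((hB.meas 0 ⟨le_rfl, zero_le_one⟩).mono (hB.le 0 ⟨le_rfl, zero_le_one⟩) le_rfl)
  have h2 : MemLp (fun ω => W t ω - W 0 ω) 2 P := by
    have h3 : MemLp (id : ℝ → ℝ) 2 (P.map (fun ω => W t ω - W 0 ω)) := by
      rw [h1]; exact memLp_id_gaussianReal 2
    exact (memLp_map_measure_iff aestronglyMeasurable_id hm.aemeasurable).1 h3
  refine (memLp_congr_ae ?_).1 h2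
  filter_upwards [hB.zero] with ω hω
  rw [hω, sub_zero]

/-- `M(t) = E (E_t lam)²`. -/
noncomputable def MM (P : Measure Ω) (F : ℝ → MeasurableSpace Ω) (lam : Ω → ℝ) (t : ℝ) : ℝ :=
  ∫ ω, (P[lam|F t]) ω ^ 2 ∂P

/-- Pythagoras. -/
lemma rho_sq {t : ℝ} (ht : F t ≤ mΩ) (hlam : MemLp lam 2 P) :
    rho P F lam t ^ 2 = (∫ ω, lam ω ^ 2 ∂P) - MM P F lam t := by
  have hE : MemLp (P[lam|F t]) 2 P := hlam.condExp (by norm_num)
  have h0 := orth ht hlam hE stronglyMeasurable_condExp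
  rw [rho, n2_sq, MM]
  have e : ∀ ω, (lam ω - (P[lam|F t]) ω) ^ 2 = lam ω ^ 2 - (P[lam|F t]) ω ^ 2
      - 2 * ((lam ω - (P[lam|F t]) ω) * (P[lam|F t]) ω) := by
    intro ω; ring
  simp_rw [e]
  have i1 : Integrable (fun ω => lam ω ^ 2) P := hlam.integrable_sq
  have i2 : Integrable (fun ω => (P[lam|F t]) ω ^ 2) P := hE.integrable_sq
  have hl : MemLp (fun ω => lam ω - (P[lam|F t]) ω) 2 P := hlam.sub hE
  have i3 : Integrable (fun ω => 2 * ((lam ω - (P[lam|F t]) ω) * (P[lam|F t]) ω)) P :=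
    (int_mul hl hE).const_mul 2
  have i4 : Integrable (fun ω => lam ω ^ 2 - (P[lam|F t]) ω ^ 2) P := i1.sub i2
  rw [integral_sub i4 i3, integral_sub i1 i2, integral_const_mul, h0]
  ring

lemma MM_nonneg (t : ℝ) : 0 ≤ MM P F lam t := integral_nonneg fun _ => sq_nonneg _

lemma MM_le {t : ℝ} (ht : F t ≤ mΩ) (hlam : MemLp lam 2 P) :
    MM P F lam t ≤ ∫ ω, lam ω ^ 2 ∂P := by
  have := rho_sq (F := F) ht hlam
  have h2 := sq_nonneg (rho P F lam t)
  linarith

lemma MM_mono (hB : Brown P F W) (hlam : MemLp lam 2 P) {s t : ℝ} (hs : 0 ≤ s) (hst : s ≤ t)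
    (ht : t ≤ 1) : MM P F lam s ≤ MM P F lam t := by
  have hles := hB.le s ⟨hs, hst.trans ht⟩
  have hlet := hB.le t ⟨hs.trans hst, ht⟩
  have h1 := rho_sq (F := F) hles hlam
  have h2 := rho_sq (F := F) hlet hlam
  have h3 : rho P F lam t ≤ rho P F lam s :=
    n2_sub_condExp_le hlet hlam (hlam.condExp (by norm_num))
      (stronglyMeasurable_condExp.mono (hB.mono s t hs hst ht))
  have h4 : rho P F lam t ^ 2 ≤ rho P F lam s ^ 2 := pow_le_pow_left₀ (rho_nonneg _) h3 2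
  linarith

lemma mM_int (hB : Brown P F W) (hlam : MemLp lam 2 P) {k : ℝ → ℝ} {a b : ℝ} (ha : 0 ≤ a)
    (hab : a ≤ b) (hb : b ≤ 1) (hk : IntervalIntegrable k volume a b) :
    IntervalIntegrable (fun t => k t * MM P F lam t) volume a b := by
  rw [intervalIntegrable_iff_integrableOn_Icc_of_le hab] at hk ⊢
  have hmono : MonotoneOn (MM P F lam) (Icc a b) := fun s hs t ht hst =>
    MM_mono hB hlam (ha.trans hs.1) hst (ht.2.trans hb)
  have hM : AEStronglyMeasurable (MM P F lam) (volume.restrict (Icc a b)) :=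
    (aemeasurable_restrict_of_monotoneOn measurableSet_Icc hmono).aestronglyMeasurable
  refine Integrable.mul_bdd (c := ∫ ω, lam ω ^ 2 ∂P) hk hM ?_
  refine (ae_restrict_iff' measurableSet_Icc).2 (ae_of_all _ fun t ht => ?_)
  rw [Real.norm_eq_abs, abs_of_nonneg (MM_nonneg t)]
  exact MM_le (hB.le t ⟨ha.trans ht.1, ht.2.trans hb⟩) hlam

lemma Adm.ge (h : Adm m d) {t : ℝ} (ht : t ∈ Icc (0 : ℝ) 1) : d ≤ DD m d t := by
  have : 0 ≤ ∫ s in t..1, m s := by
    rw [intervalIntegral.integral_of_le ht.2, integral_Ioc_eq_integral_Ioo]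
    refine setIntegral_nonneg measurableSet_Ioo fun s hs => ?_
    exact h.nonneg s ⟨ht.1.trans_lt hs.1, hs.2⟩
  rw [DD]; linarith

lemma DD_cont (hm : IntervalIntegrable m volume 0 1) : ContinuousOn (DD m d) (Icc 0 1) := by
  have h1 : IntegrableOn m (uIcc (0 : ℝ) 1) := by
    rw [intervalIntegrable_iff_integrableOn_Icc_of_le zero_le_one] at hm
    rwa [uIcc_of_le zero_le_one]
  have h2 := intervalIntegral.continuousOn_primitive_interval_left h1
  rw [uIcc_of_le zero_le_one] at h2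
  exact continuousOn_const.add h2

lemma int_ind {r t : ℝ} (hr : r ∈ Icc (0 : ℝ) 1) (ht : t ∈ Icc (0 : ℝ) 1) :
    ∫ s in t..1, (Ioi r).indicator (fun _ => (1 : ℝ)) s = 1 - max t r := by
  rw [intervalIntegral.integral_of_le ht.2, setIntegral_indicator measurableSet_Ioi]
  have : Ioc t 1 ∩ Ioi r = Ioc (max t r) 1 := by
    ext s
    simp only [mem_inter_iff, mem_Ioc, mem_Ioi, max_lt_iff]
    tauto
  rw [this, setIntegral_const, measureReal_def, Real.volume_Ioc, smul_eq_mul, mul_one,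
    ENNReal.toReal_ofReal]
  have := max_le ht.2 hr.2
  linarith

lemma ind_int (r : ℝ) (a b : ℝ) :
    IntervalIntegrable ((Ioi r).indicator (fun _ => (1 : ℝ))) volume a b := by
  have : MonotoneOn ((Ioi r).indicator (fun _ => (1 : ℝ))) (uIcc a b) := by
    intro s _ t _ hst
    by_cases hs : s ∈ Ioi r
    · have ht : t ∈ Ioi r := lt_of_lt_of_le hs hst
      rw [indicator_of_mem hs, indicator_of_mem ht]
    · rw [indicator_of_notMem hs]
      exact indicator_nonneg (fun _ _ => zero_le_one) t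
  exact this.intervalIntegrable

/-- The perturbed profile `D - d (t-r)_+`. -/
lemma DD_pert (hm : IntervalIntegrable m volume 0 1) {r t : ℝ} (hr : r ∈ Icc (0 : ℝ) 1)
    (ht : t ∈ Icc (0 : ℝ) 1) :
    DD (fun s => m s + d * (Ioi r).indicator (fun _ => (1 : ℝ)) s) (d * r) t
      = DD m d t - d * max (t - r) 0 := by
  have hmt : IntervalIntegrable m volume t 1 :=
    hm.mono_set (by rw [uIcc_of_le ht.2, uIcc_of_le zero_le_one]
                    exact Icc_subset_Icc_left ht.1)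
  rw [DD, DD, intervalIntegral.integral_add hmt ((ind_int r t 1).const_mul d),
    intervalIntegral.integral_const_mul, int_ind hr ht]
  rcases le_total t r with h | h
  · rw [max_eq_right h, max_eq_right (by linarith : t - r ≤ 0)]; ring
  · rw [max_eq_left h, max_eq_left (by linarith : 0 ≤ t - r)]; ring

lemma Adm.pert (h : Adm m d) (hd : 0 < d) {r : ℝ} (hr : r ∈ Ioo (0 : ℝ) 1) :
    Adm (fun s => m s + d * (Ioi r).indicator (fun _ => (1 : ℝ)) s) (d * r) := by
  have hr' : r ∈ Icc (0 : ℝ) 1 := ⟨hr.1.le, hr.2.le⟩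
  have hpos : ∀ t ∈ Icc (0 : ℝ) 1, d * r
      ≤ DD (fun s => m s + d * (Ioi r).indicator (fun _ => (1 : ℝ)) s) (d * r) t := by
    intro t ht
    rw [DD_pert h.int hr' ht]
    have h1 := h.ge ht
    have h2 : max (t - r) 0 ≤ 1 - r := max_le (by linarith [ht.2]) (by linarith [hr.2])
    nlinarith
  have hint : IntervalIntegrable (fun s => m s + d * (Ioi r).indicator (fun _ => (1 : ℝ)) s)
      volume 0 1 := h.int.add ((ind_int r 0 1).const_mul d)
  refine ⟨?_, ?_, hint, by nlinarith [hr.1], ?_, ?_⟩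
  · intro t ht
    have h1 := h.nonneg t ht
    have h2 : 0 ≤ (Ioi r).indicator (fun _ => (1 : ℝ)) t :=
      indicator_nonneg (fun _ _ => zero_le_one) t
    positivity
  · intro s hs t ht hst
    have h1 := h.mono hs ht hst
    have h2 : (Ioi r).indicator (fun _ => (1 : ℝ)) s ≤ (Ioi r).indicator (fun _ => (1 : ℝ)) t := by
      by_cases hs : s ∈ Ioi r
      · have ht : t ∈ Ioi r := lt_of_lt_of_le hs hst
        rw [indicator_of_mem hs, indicator_of_mem ht]
      · rw [indicator_of_notMem hs]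
        exact indicator_nonneg (fun _ _ => zero_le_one) t
    simp only
    gcongr
  · intro t ht
    have := hpos t ⟨ht.1, ht.2.le⟩
    have : 0 < d * r := mul_pos hd hr.1
    linarith
  · apply ContinuousOn.intervalIntegrable
    rw [uIcc_of_le zero_le_one]
    refine continuousOn_const.div (DD_cont hint) fun t ht => ?_
    have := hpos t ht
    have h2 : 0 < d * r := mul_pos hd hr.1
    linarith

lemma int_max {r : ℝ} (hr : r ∈ Ioo (0 : ℝ) 1) (c : ℝ) :
    ∫ t in (0 : ℝ)..1, max (t - r) 0 / c = (1 - r) ^ 2 / (2 * c) := by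
  have h1 : ∀ a b : ℝ, IntervalIntegrable (fun t : ℝ => max (t - r) 0 / c) volume a b := by
    intro a b
    apply Continuous.intervalIntegrable
    fun_prop
  rw [← intervalIntegral.integral_add_adjacent_intervals (h1 0 r) (h1 r 1)]
  have h2 : ∫ t in (0 : ℝ)..r, max (t - r) 0 / c = 0 := by
    rw [intervalIntegral.integral_congr (g := fun _ => (0 : ℝ))]
    · simp
    · intro t ht
      rw [uIcc_of_le hr.1.le] at ht
      simp only
      rw [max_eq_right (by linarith [ht.2]), zero_div]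
  have h3 : ∫ t in r..1, max (t - r) 0 / c = ∫ t in r..1, (t - r) / c := by
    refine intervalIntegral.integral_congr ?_
    intro t ht
    rw [uIcc_of_le hr.2.le] at ht
    simp only
    rw [max_eq_left (by linarith [ht.1])]
  rw [h2, h3, zero_add, intervalIntegral.integral_div, intervalIntegral.integral_sub (by simp)
    (by simp), integral_id, intervalIntegral.integral_const, smul_eq_mul]
  have : (1 ^ 2 - r ^ 2) / 2 - (1 - r) * r = (1 - r) ^ 2 / 2 := by ring
  rw [this]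
  rw [div_div]

/-- Inequality (1) from the minimality in `D`. -/
lemma hU_of (hB : Brown P F W) (hlam : MemLp lam 2 P) (hA : Adm m d) (hd : 0 < d)
    (h0 : J0 P F W α lam m d ≤ 0)
    (hJ : ∀ m' d', Adm m' d' → 0 ≤ J0 P F W α lam m' d') {r : ℝ} (hr : r ∈ Ioo (0 : ℝ) 1) :
    α * ∫ t in r..1, rho P F lam t ^ 2 ≤ (1 - r) ^ 2 / (2 * d ^ 2 * r) := by
  have hr' : r ∈ Icc (0 : ℝ) 1 := ⟨hr.1.le, hr.2.le⟩
  have hpert := hA.pert hd hr
  have h1 := hJ _ _ hpert
  set m' : ℝ → ℝ := fun s => m s + d * (Ioi r).indicator (fun _ => (1 : ℝ)) s with hm'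
  set L2 := ∫ ω, lam ω ^ 2 ∂P with hL2
  -- the quadratic part
  have e1 : ∫ t in (0 : ℝ)..1, m' t * ∫ ω, (P[lam|F t]) ω ^ 2 ∂P
      = (∫ t in (0 : ℝ)..1, m t * ∫ ω, (P[lam|F t]) ω ^ 2 ∂P)
        + d * ∫ t in r..1, MM P F lam t := by
    have i1 := mM_int hB hlam le_rfl zero_le_one le_rfl hA.int
    have i2 := mM_int hB hlam le_rfl zero_le_one le_rfl (ind_int r 0 1)
    have e2 : ∀ t, m' t * ∫ ω, (P[lam|F t]) ω ^ 2 ∂P
        = m t * MM P F lam t + d * ((Ioi r).indicator (fun _ => (1 : ℝ)) t * MM P F lam t) := by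
      intro t
      simp only [hm', MM]
      ring
    simp_rw [e2]
    rw [intervalIntegral.integral_add i1 (i2.const_mul d), intervalIntegral.integral_const_mul]
    congr 2
    rw [intervalIntegral.integral_of_le zero_le_one, intervalIntegral.integral_of_le hr.2.le]
    have e3 : ∀ t, (Ioi r).indicator (fun _ => (1 : ℝ)) t * MM P F lam t
        = (Ioi r).indicator (MM P F lam) t := by
      intro t
      by_cases ht : t ∈ Ioi r
      · rw [indicator_of_mem ht, indicator_of_mem ht, one_mul]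
      · rw [indicator_of_notMem ht, indicator_of_notMem ht, zero_mul]
    simp_rw [e3]
    rw [setIntegral_indicator measurableSet_Ioi]
    congr 2
    ext s
    simp only [mem_inter_iff, mem_Ioc, mem_Ioi]
    constructor
    · rintro ⟨⟨_, h2⟩, h3⟩; exact ⟨h3, h2⟩
    · rintro ⟨h2, h3⟩; exact ⟨⟨hr.1.trans h2, h3⟩, h2⟩
  -- the entropy part
  have e4 : ∫ t in (0 : ℝ)..1, 1 / DD m' (d * r) t
      ≤ (∫ t in (0 : ℝ)..1, 1 / DD m d t) + (1 - r) ^ 2 / (2 * (d * r)) := by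
    rw [← int_max hr (d * r), ← intervalIntegral.integral_add hA.E_int
      (by apply Continuous.intervalIntegrable; fun_prop)]
    refine intervalIntegral.integral_mono_on zero_le_one hpert.E_int
      (hA.E_int.add (by apply Continuous.intervalIntegrable; fun_prop)) ?_
    intro t ht
    have k1 := hA.ge ht
    have k2 := hpert.ge ht
    have k3 := DD_pert (d := d) hA.int hr' ht
    rw [← hm'] at k3
    have hdr : 0 < d * r := mul_pos hd hr.1
    have hD : 0 < DD m d t := by linarith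
    have hD' : 0 < DD m' (d * r) t := by linarith
    have k4 : 0 ≤ max (t - r) 0 := le_max_right _ _
    rw [div_add_div _ _ hD.ne' hdr.ne', div_le_div_iff₀ hD' (by positivity)]
    rw [k3] at k2 hD' ⊢
    nlinarith [mul_nonneg (mul_nonneg hdr.le k4) (sub_nonneg.2 k1),
      mul_nonneg (mul_nonneg k4 hD.le) (sub_nonneg.2 k2)]
  -- rho
  have e5 : ∫ t in r..1, rho P F lam t ^ 2 = (1 - r) * L2 - ∫ t in r..1, MM P F lam t := by
    have i1 : IntervalIntegrable (MM P F lam) volume r 1 := by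
      have := mM_int hB hlam hr.1.le hr.2.le le_rfl
        (intervalIntegrable_const (c := (1 : ℝ)) (μ := volume) (a := r) (b := 1))
      simpa using this
    have e6 : ∫ t in r..1, rho P F lam t ^ 2 = ∫ t in r..1, (L2 - MM P F lam t) := by
      refine intervalIntegral.integral_congr ?_
      intro t ht
      rw [uIcc_of_le hr.2.le] at ht
      exact rho_sq (hB.le t ⟨hr.1.le.trans ht.1, ht.2⟩) hlam
    rw [e6, intervalIntegral.integral_sub (by simp) i1, intervalIntegral.integral_const,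
      smul_eq_mul]
  rw [J0, e1] at h1
  rw [J0] at h0
  have h2 : α * d * ∫ t in r..1, rho P F lam t ^ 2 ≤ (1 - r) ^ 2 / (2 * (d * r)) := by
    rw [e5]
    rw [← hL2] at h0 h1
    nlinarith
  have h3 : (1 - r) ^ 2 / (2 * d ^ 2 * r) = ((1 - r) ^ 2 / (2 * (d * r))) / d := by
    have := hr.1
    field_simp
  rw [h3, le_div_iff₀ hd]
  linarith

/-! ### The time-dilated competitor -/

lemma sqrt_facts {a : ℝ} (ha : 0 < a) : 0 < √a ∧ √a * √a = a ∧ √a * a⁻¹ = 1 / √a := by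
  have h1 : 0 < √a := Real.sqrt_pos.2 ha
  have h2 : √a * √a = a := Real.mul_self_sqrt ha.le
  refine ⟨h1, h2, ?_⟩
  rw [eq_div_iff h1.ne']
  calc √a * a⁻¹ * √a = (√a * √a) * a⁻¹ := by ring
    _ = 1 := by rw [h2]; exact mul_inv_cancel₀ ha.ne'

lemma DD_split (hm : IntervalIntegrable m volume 0 1) {t u : ℝ} (ht : 0 ≤ t) (htu : t ≤ u)
    (hu : u ≤ 1) : DD m d t = DD m d u + ∫ s in t..u, m s := by
  have h1 : IntervalIntegrable m volume t u :=
    hm.mono_set (by rw [uIcc_of_le htu, uIcc_of_le zero_le_one]; exact Icc_subset_Icc ht hu)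
  have h2 : IntervalIntegrable m volume u 1 :=
    hm.mono_set (by rw [uIcc_of_le hu, uIcc_of_le zero_le_one]
                    exact Icc_subset_Icc_left (ht.trans htu))
  rw [DD, DD, ← intervalIntegral.integral_add_adjacent_intervals h1 h2]
  ring

lemma DD_dil (hm : IntervalIntegrable m volume 0 1) {a : ℝ} (ha : a ∈ Ioc (0 : ℝ) 1) {s : ℝ}
    (hs : s ∈ Icc (0 : ℝ) 1) :
    DD (fun u => √a * m (a * u)) (DD m d a / √a) s = DD m d (a * s) / √a := by
  obtain ⟨h1, h2, h3⟩ := sqrt_facts ha.1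
  have h4 : a * s ≤ a := by nlinarith [hs.2, ha.1]
  have h5 : 0 ≤ a * s := mul_nonneg ha.1.le hs.1
  rw [DD_split hm h5 h4 ha.2]
  rw [DD, intervalIntegral.integral_const_mul,
    intervalIntegral.integral_comp_mul_left _ ha.1.ne', smul_eq_mul, mul_one, ← mul_assoc, h3]
  ring

lemma comp_int {f : ℝ → ℝ} (hf : IntervalIntegrable f volume 0 1) {a : ℝ}
    (ha : a ∈ Ioc (0 : ℝ) 1) : IntervalIntegrable (fun u => f (a * u)) volume 0 1 := by
  have h1 : IntervalIntegrable f volume 0 a :=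
    hf.mono_set (by rw [uIcc_of_le ha.1.le, uIcc_of_le zero_le_one]
                    exact Icc_subset_Icc_right ha.2)
  have h2 := h1.comp_mul_left (c := a)
  rwa [zero_div, div_self ha.1.ne'] at h2

lemma Adm.dil (h : Adm m d) {a : ℝ} (ha : a ∈ Ioo (0 : ℝ) 1) :
    Adm (fun u => √a * m (a * u)) (DD m d a / √a) := by
  have ha' : a ∈ Ioc (0 : ℝ) 1 := ⟨ha.1, ha.2.le⟩
  obtain ⟨h1, h2, h3⟩ := sqrt_facts ha.1
  have hmem : ∀ t ∈ Ioo (0 : ℝ) 1, a * t ∈ Ioo (0 : ℝ) 1 := fun t ht =>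
    ⟨mul_pos ha.1 ht.1, by nlinarith [ht.2, ha.1, ha.2, ht.1]⟩
  have hmem' : ∀ t ∈ Icc (0 : ℝ) 1, a * t ∈ Ico (0 : ℝ) 1 := fun t ht =>
    ⟨mul_nonneg ha.1.le ht.1, by nlinarith [ht.2, ha.1, ha.2, ht.1]⟩
  refine ⟨?_, ?_, ?_, ?_, ?_, ?_⟩
  · intro t ht
    exact mul_nonneg h1.le (h.nonneg _ (hmem t ht))
  · intro s hs t ht hst
    have h4 : a * s ≤ a * t := by gcongr; exact ha.1.le
    have := h.mono (hmem s hs) (hmem t ht) h4
    exact mul_le_mul_of_nonneg_left this h1.le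
  · exact (comp_int h.int ha').const_mul _
  · exact (div_pos (h.pos a ⟨ha.1.le, ha.2⟩) h1).le
  · intro t ht
    rw [DD_dil h.int ha' ⟨ht.1, ht.2.le⟩]
    exact div_pos (h.pos _ (hmem' t ⟨ht.1, ht.2.le⟩)) h1
  · have h5 := (comp_int h.E_int ha').const_mul (√a)
    refine h5.congr ?_
    intro t ht
    rw [uIoc_of_le zero_le_one] at ht
    have ht' : t ∈ Icc (0 : ℝ) 1 := ⟨ht.1.le, ht.2⟩
    simp only
    rw [DD_dil h.int ha' ht']
    have := h.pos _ (hmem' t ht')
    field_simp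

/-- Inequality (2) from the time-dilated competitor. -/
lemma hL_of (hB : Brown P F W) (hlam : MemLp lam 2 P) (hA : Adm m d) (hα : 0 < α)
    (h0 : J0 P F W α lam m d ≤ 0) {a : ℝ} (ha : a ∈ Ioo (0 : ℝ) 1)
    (hJ : 0 ≤ J0 P (fun s => F (a * s)) (fun s ω => W (a * s) ω / √a) α (P[lam|F a])
      (fun u => √a * m (a * u)) (DD m d a / √a)) :
    α / 2 * d * rho P F lam a ^ 2 + (1 - a) / (2 * (d + ∫ s in a..1, m s))
        + (1 - √a) * (α * ∫ ω, lam ω ∂P) ≤ -(α * ∫ ω, lam ω * (W 1 ω - W a ω) ∂P) := by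
  have ha' : a ∈ Ioc (0 : ℝ) 1 := ⟨ha.1, ha.2.le⟩
  have haI : a ∈ Icc (0 : ℝ) 1 := ⟨ha.1.le, ha.2.le⟩
  obtain ⟨h1, h2, h3⟩ := sqrt_facts ha.1
  have hFa := hB.le a haI
  have hE : MemLp (P[lam|F a]) 2 P := hlam.condExp (by norm_num)
  have hWa : MemLp (W a) 2 P := hB.W2 haI
  have hW1 : MemLp (W 1) 2 P := hB.W2 ⟨zero_le_one, le_rfl⟩
  have hlamI : Integrable lam P := hlam.integrable (by norm_num)
  -- linear part
  have hlin : √a * (∫ ω, (P[lam|F a]) ω * (1 + W (a * 1) ω / √a) ∂P)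
      = √a * (∫ ω, lam ω ∂P) + ∫ ω, lam ω * W a ω ∂P := by
    have hEI : Integrable (P[lam|F a]) P := integrable_condExp
    have e1 : ∀ ω, (P[lam|F a]) ω * (1 + W (a * 1) ω / √a)
        = (P[lam|F a]) ω + (1 / √a) * ((P[lam|F a]) ω * W a ω) := by
      intro ω; rw [mul_one]; field_simp
    simp_rw [e1]
    rw [integral_add hEI ((int_mul hE hWa).const_mul _), integral_const_mul,
      integral_condExp hFa]
    have e2 : ∫ ω, (P[lam|F a]) ω * W a ω ∂P = ∫ ω, lam ω * W a ω ∂P := by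
      have h4 := orth hFa hlam hWa (hB.meas a haI).stronglyMeasurable
      have e3 : ∀ ω, (lam ω - (P[lam|F a]) ω) * W a ω
          = lam ω * W a ω - (P[lam|F a]) ω * W a ω := fun ω => by ring
      simp_rw [e3] at h4
      rw [integral_sub (int_mul hlam hWa) (int_mul hE hWa)] at h4
      linarith
    rw [e2]
    field_simp
  -- quadratic part
  have hquad : √a * (∫ s in (0 : ℝ)..1, √a * m (a * s)
        * ∫ ω, (P[P[lam|F a]|F (a * s)]) ω ^ 2 ∂P)
      = ∫ s in (0 : ℝ)..a, m s * MM P F lam s := by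
    have e1 : ∫ s in (0 : ℝ)..1, √a * m (a * s) * ∫ ω, (P[P[lam|F a]|F (a * s)]) ω ^ 2 ∂P
        = ∫ s in (0 : ℝ)..1, √a * (m (a * s) * MM P F lam (a * s)) := by
      refine intervalIntegral.integral_congr ?_
      intro s hs
      rw [uIcc_of_le zero_le_one] at hs
      have h4 : a * s ≤ a := by nlinarith [hs.2, ha.1]
      have h5 : 0 ≤ a * s := mul_nonneg ha.1.le hs.1
      have h6 : P[P[lam|F a]|F (a * s)] =ᵐ[P] P[lam|F (a * s)] :=
        condExp_condExp_of_le (hB.mono _ _ h5 h4 ha.2.le) hFa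
      have h7 : ∫ ω, (P[P[lam|F a]|F (a * s)]) ω ^ 2 ∂P = MM P F lam (a * s) := by
        rw [MM]
        refine integral_congr_ae ?_
        filter_upwards [h6] with ω hω
        rw [hω]
      simp only
      rw [h7]; ring
    rw [e1, intervalIntegral.integral_const_mul,
      intervalIntegral.integral_comp_mul_left (fun s => m s * MM P F lam s) ha.1.ne', smul_eq_mul,
      mul_zero, mul_one]
    calc √a * (√a * (a⁻¹ * ∫ s in (0 : ℝ)..a, m s * MM P F lam s))
        = (√a * √a) * a⁻¹ * ∫ s in (0 : ℝ)..a, m s * MM P F lam s := by ring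
      _ = _ := by rw [h2, mul_inv_cancel₀ ha.1.ne', one_mul]
  -- entropy part
  have hent : √a * (∫ s in (0 : ℝ)..1, 1 / DD (fun u => √a * m (a * u)) (DD m d a / √a) s)
      = ∫ s in (0 : ℝ)..a, 1 / DD m d s := by
    have e1 : ∫ s in (0 : ℝ)..1, 1 / DD (fun u => √a * m (a * u)) (DD m d a / √a) s
        = ∫ s in (0 : ℝ)..1, √a * (1 / DD m d (a * s)) := by
      refine intervalIntegral.integral_congr ?_
      intro s hs
      rw [uIcc_of_le zero_le_one] at hs
      simp only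
      rw [DD_dil hA.int ha' hs]
      have h5 : 0 < DD m d (a * s) := hA.pos _ ⟨mul_nonneg ha.1.le hs.1, by
        nlinarith [hs.2, ha.1, ha.2, hs.1]⟩
      field_simp
    rw [e1, intervalIntegral.integral_const_mul,
      intervalIntegral.integral_comp_mul_left (fun s => 1 / DD m d s) ha.1.ne', smul_eq_mul,
      mul_zero, mul_one]
    calc √a * (√a * (a⁻¹ * ∫ s in (0 : ℝ)..a, 1 / DD m d s))
        = (√a * √a) * a⁻¹ * ∫ s in (0 : ℝ)..a, 1 / DD m d s := by ring
      _ = _ := by rw [h2, mul_inv_cancel₀ ha.1.ne', one_mul]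
  have hJ2 : 0 ≤ α * (√a * (∫ ω, lam ω ∂P) + ∫ ω, lam ω * W a ω ∂P)
      + α / 2 * ((∫ s in (0 : ℝ)..a, m s * MM P F lam s) + DD m d a * MM P F lam a)
      + 1 / 2 * ∫ s in (0 : ℝ)..a, 1 / DD m d s := by
    have h4 := mul_nonneg h1.le hJ
    rw [J0] at h4
    have e1 : √a * (α * (∫ ω, (P[lam|F a]) ω * (1 + W (a * 1) ω / √a) ∂P)
        + α / 2 * ((∫ s in (0 : ℝ)..1, √a * m (a * s)
          * ∫ ω, (P[P[lam|F a]|F (a * s)]) ω ^ 2 ∂P)
          + DD m d a / √a * ∫ ω, (P[lam|F a]) ω ^ 2 ∂P)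
        + 1 / 2 * ∫ s in (0 : ℝ)..1, 1 / DD (fun u => √a * m (a * u)) (DD m d a / √a) s)
        = α * (√a * (∫ ω, (P[lam|F a]) ω * (1 + W (a * 1) ω / √a) ∂P))
        + α / 2 * ((√a * (∫ s in (0 : ℝ)..1, √a * m (a * s)
          * ∫ ω, (P[P[lam|F a]|F (a * s)]) ω ^ 2 ∂P))
          + DD m d a * ∫ ω, (P[lam|F a]) ω ^ 2 ∂P)
        + 1 / 2 * (√a * ∫ s in (0 : ℝ)..1, 1 / DD (fun u => √a * m (a * u)) (DD m d a / √a) s) := by
      field_simp
    rw [e1, hlin, hquad, hent] at h4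
    exact h4
  -- the original functional
  have i1 := mM_int hB hlam le_rfl ha.1.le ha.2.le (hA.int.mono_set (by
    rw [uIcc_of_le ha.1.le, uIcc_of_le zero_le_one]; exact Icc_subset_Icc_right ha.2.le))
  have hma : IntervalIntegrable m volume a 1 := hA.int.mono_set (by
    rw [uIcc_of_le ha.2.le, uIcc_of_le zero_le_one]; exact Icc_subset_Icc_left ha.1.le)
  have i2 := mM_int hB hlam ha.1.le ha.2.le le_rfl hma
  have j1 : IntervalIntegrable (fun s => 1 / DD m d s) volume 0 a := hA.E_int.mono_set (by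
    rw [uIcc_of_le ha.1.le, uIcc_of_le zero_le_one]; exact Icc_subset_Icc_right ha.2.le)
  have j2 : IntervalIntegrable (fun s => 1 / DD m d s) volume a 1 := hA.E_int.mono_set (by
    rw [uIcc_of_le ha.2.le, uIcc_of_le zero_le_one]; exact Icc_subset_Icc_left ha.1.le)
  have hJ1 : α * ((∫ ω, lam ω ∂P) + ∫ ω, lam ω * W 1 ω ∂P)
      + α / 2 * (((∫ s in (0 : ℝ)..a, m s * MM P F lam s) + ∫ s in a..1, m s * MM P F lam s)
        + d * ∫ ω, lam ω ^ 2 ∂P)
      + 1 / 2 * ((∫ s in (0 : ℝ)..a, 1 / DD m d s) + ∫ s in a..1, 1 / DD m d s) ≤ 0 := by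
    rw [J0] at h0
    rw [intervalIntegral.integral_add_adjacent_intervals i1 i2,
      intervalIntegral.integral_add_adjacent_intervals j1 j2]
    have e1 : ∫ ω, lam ω * (1 + W 1 ω) ∂P = (∫ ω, lam ω ∂P) + ∫ ω, lam ω * W 1 ω ∂P := by
      rw [← integral_add hlamI (int_mul hlam hW1)]
      refine integral_congr_ae (ae_of_all _ fun ω => ?_)
      simp only; ring
    rw [e1] at h0
    exact h0
  -- estimates on [a,1]
  have k1 : MM P F lam a * (∫ s in a..1, m s) ≤ ∫ s in a..1, m s * MM P F lam s := by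
    rw [mul_comm, ← intervalIntegral.integral_mul_const]
    refine intervalIntegral.integral_mono_on_of_le_Ioo ha.2.le (hma.mul_const _) i2 ?_
    intro s hs
    have h4 := MM_mono hB hlam ha.1.le hs.1.le hs.2.le
    have h5 := hA.nonneg s ⟨ha.1.trans hs.1, hs.2⟩
    gcongr
  have hDa : 0 < DD m d a := hA.pos a ⟨ha.1.le, ha.2⟩
  have k2 : (1 - a) / DD m d a ≤ ∫ s in a..1, 1 / DD m d s := by
    have e1 : (1 - a) / DD m d a = ∫ s in a..1, 1 / DD m d a := by
      rw [intervalIntegral.integral_const, smul_eq_mul]; ring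
    rw [e1]
    refine intervalIntegral.integral_mono_on_of_le_Ioo ha.2.le (by simp) j2 ?_
    intro s hs
    have h4 : 0 < DD m d s := hA.pos s ⟨(ha.1.trans hs.1).le, hs.2⟩
    have h5 : DD m d s ≤ DD m d a := by
      rw [DD_split (d := d) hA.int ha.1.le hs.1.le hs.2.le]
      have : 0 ≤ ∫ u in a..s, m u := by
        rw [intervalIntegral.integral_of_le hs.1.le, integral_Ioc_eq_integral_Ioo]
        refine setIntegral_nonneg measurableSet_Ioo fun u hu => ?_
        exact hA.nonneg u ⟨ha.1.trans hu.1, hu.2.trans hs.2⟩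
      linarith
    exact one_div_le_one_div_of_le h4 h5
  have k3 := rho_sq (F := F) hFa hlam
  have k4 : ∫ ω, lam ω * (W 1 ω - W a ω) ∂P
      = (∫ ω, lam ω * W 1 ω ∂P) - ∫ ω, lam ω * W a ω ∂P := by
    rw [← integral_sub (int_mul hlam hW1) (int_mul hlam hWa)]
    refine integral_congr_ae (ae_of_all _ fun ω => ?_)
    simp only; ring
  have hDD : DD m d a = d + ∫ s in a..1, m s := rfl
  have k5 : (1 - a) / (2 * (d + ∫ s in a..1, m s)) = (1 / 2) * ((1 - a) / DD m d a) := by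
    rw [← hDD]; field_simp
  rw [k5, k3, k4]
  have k6 : α / 2 * (MM P F lam a * (∫ s in a..1, m s))
      ≤ α / 2 * ∫ s in a..1, m s * MM P F lam s := by gcongr
  rw [hDD] at hJ2
  rw [hDD] at k2
  rw [hDD]
  nlinarith

/-- **D(1-) = 0 at jamming.** `x = 1 + W_1 + A`, `A = ∫ m E_s lam` in the weak sense,
`h = x + d lam`, complementarity `h ≥ 0`, `lam h = 0`.  `HJ`: the functional is nonnegative for the
time-dilated Brownian motions (`a = 1` is the original one). -/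
theorem dzero (hα : 0 < α) (hB : Brown P F W) (hlam : MemLp lam 2 P) (hlam0 : 0 ≤ᵐ[P] lam)
    (hlamF : StronglyMeasurable[F 1] lam) (hA : Adm m d)
    (h0 : J0 P F W α lam m d ≤ 0)
    (HJ : ∀ a ∈ Ioc (0 : ℝ) 1, ∀ lam' : Ω → ℝ, MemLp lam' 2 P → 0 ≤ᵐ[P] lam' →
      StronglyMeasurable[F a] lam' → ∀ m' d', Adm m' d' →
      0 ≤ J0 P (fun s => F (a * s)) (fun s ω => W (a * s) ω / √a) α lam' m' d')
    (hA2 : MemLp A 2 P)
    (hAw : ∀ ψ : Ω → ℝ, MemLp ψ 2 P → ∫ ω, ψ ω * A ω ∂P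
      = ∫ s in (0 : ℝ)..1, m s * ∫ ω, ψ ω * (P[lam|F s]) ω ∂P)
    (hh : ∀ᵐ ω ∂P, 0 ≤ 1 + W 1 ω + A ω + d * lam ω)
    (hc : ∀ᵐ ω ∂P, lam ω * (1 + W 1 ω + A ω + d * lam ω) = 0)
    (hE : 0 < ∫ ω, lam ω ∂P) : d = 0 := by
  by_contra hd0
  have hd : 0 < d := lt_of_le_of_ne hA.d_nonneg (Ne.symm hd0)
  have hcore : Core P F W lam A m d := by
    refine ⟨hB.le, hB.mono, hB.meas, fun t ht => hB.W2 ht, ?_, ?_, hlam, hA2, hA.nonneg, hA.int,
      hAw, hd, ?_⟩
    · intro t ht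
      exact hB.indep t 1 ht.1 ht.2.le le_rfl
    · intro t ht
      exact hB.law t 1 ht.1 ht.2.le le_rfl
    · filter_upwards [hlam0, hh, hc] with ω h1 h2 h3
      have h1' : 0 ≤ lam ω := h1
      rcases h1'.eq_or_lt with h4 | h4
      · rw [← h4] at h2 ⊢
        rw [mul_zero, add_zero] at h2
        rw [max_eq_right (by linarith), zero_div]
      · have h5 : 1 + W 1 ω + A ω + d * lam ω = 0 := by
          rcases mul_eq_zero.1 h3 with h6 | h6
          · exact absurd h6 h4.ne'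
          · exact h6
        have h6 : -(1 + W 1 ω + A ω) = d * lam ω := by linarith
        rw [h6, max_eq_left (by positivity)]
        field_simp
  have hone : ∀ m' d', Adm m' d' → 0 ≤ J0 P F W α lam m' d' := by
    intro m' d' h1
    have h2 := HJ 1 ⟨one_pos, le_rfl⟩ lam hlam hlam0 hlamF m' d' h1
    simpa using h2
  have hU : ∀ r ∈ Ioo (0 : ℝ) 1,
      α * ∫ t in r..1, rho P F lam t ^ 2 ≤ (1 - r) ^ 2 / (2 * d ^ 2 * r) := fun r hr =>
    hU_of hB hlam hA hd h0 hone hr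
  have hL : ∀ t ∈ Ioo (0 : ℝ) 1,
      α / 2 * d * rho P F lam t ^ 2 + (1 - t) / (2 * (d + ∫ s in t..1, m s))
        + (1 - √t) * (α * ∫ ω, lam ω ∂P) ≤ -(α * ∫ ω, lam ω * (W 1 ω - W t ω) ∂P) := by
    intro t ht
    refine hL_of hB hlam hA hα h0 ht ?_
    refine HJ t ⟨ht.1, ht.2.le⟩ _ (hlam.condExp (by norm_num)) ?_ stronglyMeasurable_condExp _ _
      (hA.dil ht)
    exact condExp_nonneg hlam0
  have := hcore.main hα hU hL
  linarith


end Crest.Agent.R146.DZero_106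
end

-- ▼ part R146/BrFull_106
section

/-!
Row 146 (helper106): fullness of the Brownian Hilbert space of helper256.

`mem_HH` : every `x ∈ L²(P)` which is a.e. `F_1`-measurable belongs to `HH P B hBm`
(i.e. `E_t x → x` as `t ↑ 1`), for the NATURAL filtration.  `full`: function form for `modelB`.
-/

set_option autoImplicit false

open MeasureTheory ProbabilityTheory Set Filter Topology
open scoped NNReal ENNReal

namespace Crest.Agent.R146.BrFull_106

open Crest.ProbabilityR.Perceptron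
open Crest.Agent.R146.DualC1_256 Crest.Agent.R146.DualG_256 Crest.Agent.R146.DualV_256
open Crest.Agent.R146.DualL_256

lemma sm_lim {Ω : Type*} {m : MeasurableSpace Ω} {f : ℕ → Ω → ℝ}
    (hf : ∀ n, StronglyMeasurable[m] (f n)) :
    StronglyMeasurable[m] (fun ω => limUnder atTop (fun n => f n ω)) :=
  StronglyMeasurable.limUnder hf

lemma sm_comp {Ω E : Type*} {m : MeasurableSpace Ω} {mE : MeasurableSpace E} {Φ : E → ℝ}
    {p : Ω → E} (hΦ : StronglyMeasurable Φ) (hp : Measurable[m] p) :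
    StronglyMeasurable[m] (Φ ∘ p) := hΦ.comp_measurable hp

lemma meas_pi {Ω ι : Type*} {m : MeasurableSpace Ω} {p : Ω → ι → ℝ}
    (h : ∀ j, Measurable[m] (fun ω => p ω j)) : Measurable[m] p := measurable_pi_iff.2 h

variable {Ω : Type*} {mΩ : MeasurableSpace Ω} {P : Measure Ω} [IsProbabilityMeasure P]
  {B : ℝ≥0 → Ω → ℝ}

/-- `t_n = n/(n+1)`. -/
noncomputable def tn (n : ℕ) : ℝ≥0 := (n : ℝ≥0) / ((n : ℝ≥0) + 1)

lemma tn_lt (n : ℕ) : tn n < 1 := by
  unfold tn
  rw [div_lt_one (by positivity)]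
  exact lt_add_of_pos_right _ one_pos

lemma tn_mono : Monotone tn := by
  intro n k h
  unfold tn
  rw [div_le_div_iff₀ (by positivity) (by positivity)]
  have h1 : (n : ℝ≥0) ≤ k := by exact_mod_cast h
  calc (n : ℝ≥0) * (k + 1) = n * k + n := by ring
    _ ≤ n * k + k := by gcongr
    _ = k * (n + 1) := by ring

lemma tn_tendsto : Tendsto tn atTop (𝓝 1) := by
  rw [← NNReal.tendsto_coe]
  have : (fun n : ℕ => ((tn n : ℝ≥0) : ℝ)) = fun n : ℕ => (n : ℝ) / ((n : ℝ) + 1) := by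
    funext n; simp [tn]
  rw [this]
  simpa using tendsto_natCast_div_add_atTop (1 : ℝ)

section

variable (𝓕 : Filtration ℝ≥0 mΩ)

/-- the discrete filtration `𝓕 (t_n)` -/
noncomputable def Gn : Filtration ℕ mΩ where
  seq n := 𝓕 (tn n)
  mono' _ _ h := 𝓕.mono (tn_mono h)
  le' n := 𝓕.le _

lemma le_iSup_Gn {s : ℝ≥0} (hs : s < 1) : 𝓕 s ≤ ⨆ n, Gn 𝓕 n := by
  have h1 : ∀ᶠ n in atTop, s < tn n := tn_tendsto.eventually (lt_mem_nhds hs)
  obtain ⟨n, hn⟩ := h1.exists
  exact (𝓕.mono hn.le).trans (le_iSup (fun n => (Gn 𝓕 n : MeasurableSpace Ω)) n)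

/-- bounded functions measurable for `⨆ 𝓕 (t_n)` are in `HB` -/
lemma bdd_mem_HB {f : Ω → ℝ} {C : ℝ} (hf : StronglyMeasurable[⨆ n, Gn 𝓕 n] f)
    (hC : ∀ ω, |f ω| ≤ C) (hm : MemLp f 2 P) : hm.toLp f ∈ HB P 𝓕 := by
  have hle : (⨆ n, Gn 𝓕 n : MeasurableSpace Ω) ≤ mΩ := iSup_le fun n => (Gn 𝓕).le n
  have hC0 : 0 ≤ C := by
    obtain ⟨ω⟩ : Nonempty Ω := nonempty_of_isProbabilityMeasure P
    exact (abs_nonneg _).trans (hC ω)
  have hint : Integrable f P := hm.integrable one_le_two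
  have hconv := hint.tendsto_eLpNorm_condExp (ℱ := Gn 𝓕) hf
  -- the norm of `f - E_t f` is antitone in t
  rw [mem_HB, tendsto_iff_norm_sub_tendsto_zero]
  have key : Tendsto (fun n : ℕ => ‖condPi 𝓕 P (tn n) (hm.toLp f) - hm.toLp f‖ ^ 2) atTop
      (𝓝 0) := by
    have hb : ∀ n, ‖condPi 𝓕 P (tn n) (hm.toLp f) - hm.toLp f‖ ^ 2
        ≤ 2 * C * (eLpNorm (P[f|Gn 𝓕 n] - f) 1 P).toReal := by
      intro n
      have h1 : (condPi 𝓕 P (tn n) (hm.toLp f) : Ω → ℝ) =ᵐ[P] P[f|Gn 𝓕 n] := by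
        refine (condPi_coe (𝓕 := 𝓕) (tn n : ℝ) (hm.toLp f)).trans ?_
        rw [Real.toNNReal_coe]
        exact condExp_congr_ae hm.coeFn_toLp
      have h2 : ∀ᵐ ω ∂P, |(P[f|Gn 𝓕 n]) ω| ≤ C := by
        have h0 : ∀ᵐ ω ∂P, ‖f ω‖ ≤ C := ae_of_all _ hC
        exact ae_bdd_norm_condExp_of_ae_bdd_norm h0
      have h3 : (eLpNorm (P[f|Gn 𝓕 n] - f) 1 P).toReal
          = ∫ ω, |(P[f|Gn 𝓕 n]) ω - f ω| ∂P := by
        rw [eLpNorm_one_eq_lintegral_enorm, ← integral_norm_eq_lintegral_enorm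
          (integrable_condExp.sub hint).aestronglyMeasurable]
        rfl
      rw [norm_sq_eq, h3, ← integral_const_mul]
      refine integral_mono_of_nonneg (ae_of_all _ fun ω => sq_nonneg _)
        ((integrable_condExp.sub hint).abs.const_mul _) ?_
      filter_upwards [h1, h2, hm.coeFn_toLp, Lp.coeFn_sub (condPi 𝓕 P (tn n) (hm.toLp f))
        (hm.toLp f)] with ω h4 h5 h6 h7
      rw [h7, Pi.sub_apply, h4, h6, ← sq_abs, pow_two]
      have h8 : |(P[f|Gn 𝓕 n]) ω - f ω| ≤ 2 * C := by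
        have := abs_sub ((P[f|Gn 𝓕 n]) ω) (f ω)
        have := hC ω
        linarith
      exact mul_le_mul_of_nonneg_right h8 (abs_nonneg _)
    have hz : Tendsto (fun n : ℕ => 2 * C * (eLpNorm (P[f|Gn 𝓕 n] - f) 1 P).toReal) atTop
        (𝓝 0) := by
      have h1 := (ENNReal.tendsto_toReal ENNReal.zero_ne_top).comp hconv
      simpa using h1.const_mul (2 * C)
    exact squeeze_zero (fun n => sq_nonneg _) hb hz
  have key2 : Tendsto (fun n : ℕ => ‖condPi 𝓕 P (tn n) (hm.toLp f) - hm.toLp f‖) atTop (𝓝 0) := by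
    have := (Real.continuous_sqrt.tendsto 0).comp key
    simpa [Function.comp_def, Real.sqrt_sq (norm_nonneg _)] using this
  rw [Metric.tendsto_nhds]
  intro ε hε
  obtain ⟨n, hn⟩ := ((Metric.tendsto_nhds.1 key2) ε hε).exists
  have hn' : ‖condPi 𝓕 P (tn n) (hm.toLp f) - hm.toLp f‖ < ε := by
    simpa [Real.dist_eq, abs_of_nonneg (norm_nonneg _)] using hn
  have htn : ((tn n : ℝ≥0) : ℝ) < 1 := by exact_mod_cast tn_lt n
  filter_upwards [Ioo_mem_nhdsLT htn] with t ht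
  rw [Real.dist_eq, sub_zero, abs_of_nonneg (norm_nonneg _)]
  refine lt_of_le_of_lt ?_ hn'
  rw [norm_sub_rev, norm_sub_rev (condPi 𝓕 P (tn n) (hm.toLp f))]
  have h9 : condPi 𝓕 P t (condPi 𝓕 P (tn n) (hm.toLp f)) = condPi 𝓕 P (tn n) (hm.toLp f) := by
    refine condPi_of_meas _ _ _ ?_
    have h10 := condPi_meas (P := P) 𝓕 (tn n : ℝ) (hm.toLp f)
    refine AEStronglyMeasurable.mono (𝓕.mono ?_) h10
    exact Real.toNNReal_le_toNNReal ht.1.le
  exact norm_sub_condPi_le (𝓕 := 𝓕) (P := P) t h9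

/-- functions measurable for `⨆ 𝓕 (t_n)` are in `HB` -/
lemma mem_HB_of_sup {f : Ω → ℝ} (hf : StronglyMeasurable[⨆ n, Gn 𝓕 n] f)
    (hm : MemLp f 2 P) : hm.toLp f ∈ HB P 𝓕 := by
  have hle : (⨆ n, Gn 𝓕 n : MeasurableSpace Ω) ≤ mΩ := iSup_le fun n => (Gn 𝓕).le n
  set g : ℕ → Ω → ℝ := fun k ω => max (-(k : ℝ)) (min (k : ℝ) (f ω)) with hg
  have hgm : ∀ k, StronglyMeasurable[⨆ n, Gn 𝓕 n] (g k) := by
    intro k
    have h1 : Measurable[⨆ n, Gn 𝓕 n] (g k) :=
      Measurable.max measurable_const (Measurable.min measurable_const hf.measurable)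
    exact h1.stronglyMeasurable
  have hgb : ∀ k ω, |g k ω| ≤ k := by
    intro k ω
    have hk : (0 : ℝ) ≤ k := Nat.cast_nonneg k
    rw [abs_le]
    exact ⟨le_max_left _ _, max_le (by linarith) (min_le_left _ _)⟩
  have hgf : ∀ k ω, |f ω - g k ω| ≤ |f ω| := by
    intro k ω
    have hk : (0 : ℝ) ≤ k := Nat.cast_nonneg k
    simp only [hg]
    rcases le_total (f ω) 0 with h | h
    · rw [min_eq_right (by linarith), abs_of_nonpos h]
      rcases le_total (-(k : ℝ)) (f ω) with h1 | h1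
      · rw [max_eq_right h1, sub_self, abs_zero]; linarith
      · rw [max_eq_left h1, abs_of_nonpos (by linarith)]; linarith
    · rw [abs_of_nonneg h]
      rcases le_total (k : ℝ) (f ω) with h1 | h1
      · rw [min_eq_left h1, max_eq_right (by linarith), abs_of_nonneg (by linarith)]; linarith
      · rw [min_eq_right h1, max_eq_right (by linarith), sub_self, abs_zero]; linarith
  have hgL : ∀ k, MemLp (g k) 2 P := fun k =>
    MemLp.of_bound ((hgm k).mono hle).aestronglyMeasurable (k : ℝ) (ae_of_all _ (hgb k))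
  have hmem : ∀ k, (hgL k).toLp (g k) ∈ HB P 𝓕 := fun k => bdd_mem_HB 𝓕 (hgm k) (hgb k) (hgL k)
  have hlim : Tendsto (fun k => (hgL k).toLp (g k)) atTop (𝓝 (hm.toLp f)) := by
    rw [tendsto_iff_norm_sub_tendsto_zero]
    have h1 : Tendsto (fun k : ℕ => ∫ ω, (g k ω - f ω) ^ 2 ∂P) atTop (𝓝 (∫ _, (0 : ℝ) ∂P)) := by
      refine tendsto_integral_of_dominated_convergence (fun ω => f ω ^ 2) ?_ hm.integrable_sq ?_ ?_
      · intro k
        exact ((hgL k).aestronglyMeasurable.sub hm.aestronglyMeasurable).pow 2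
      · intro k
        refine ae_of_all _ fun ω => ?_
        rw [Real.norm_eq_abs, abs_of_nonneg (sq_nonneg _)]
        have := hgf k ω
        rw [← sq_abs, ← sq_abs (f ω), abs_sub_comm]
        exact pow_le_pow_left₀ (abs_nonneg _) this 2
      · refine ae_of_all _ fun ω => ?_
        refine tendsto_const_nhds.congr' ?_
        obtain ⟨k0, hk0⟩ := exists_nat_ge |f ω|
        filter_upwards [eventually_ge_atTop k0] with k hk
        have h2 : |f ω| ≤ k := hk0.trans (by exact_mod_cast hk)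
        have h3 := abs_le.1 h2
        simp only [hg]
        rw [min_eq_right h3.2, max_eq_right h3.1, sub_self]
        norm_num
    rw [integral_zero] at h1
    have h2 : ∀ k, ‖(hgL k).toLp (g k) - hm.toLp f‖ = √(∫ ω, (g k ω - f ω) ^ 2 ∂P) := by
      intro k
      rw [← Real.sqrt_sq (norm_nonneg ((hgL k).toLp (g k) - hm.toLp f)), norm_sq_eq]
      congr 1
      refine integral_congr_ae ?_
      filter_upwards [(hgL k).coeFn_toLp, hm.coeFn_toLp,
        Lp.coeFn_sub ((hgL k).toLp (g k)) (hm.toLp f)] with ω h3 h4 h5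
      rw [h5, Pi.sub_apply, h3, h4]
    simp_rw [h2]
    have := (Real.continuous_sqrt.tendsto 0).comp h1
    simpa [Function.comp_def] using this
  exact HB_closed.mem_of_tendsto hlim (Eventually.of_forall hmem)

end

section Brownian

variable (hBm : ∀ t, Measurable (B t)) (hB : IsBrownianReal B P)

/-- `B_1` is a.e. equal to a function measurable for `⨆ 𝓕 (t_n)` -/
lemma exists_B1 (hB : IsBrownianReal B P) :
    ∃ Y : Ω → ℝ, StronglyMeasurable[⨆ n, Gn (brownianFiltration B hBm) n] Y ∧ Y =ᵐ[P] B 1 := by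
  refine ⟨fun ω => limUnder atTop (fun n => B (tn n) ω), ?_, ?_⟩
  · refine sm_lim fun n => ?_
    have h1 : StronglyMeasurable[brownianFiltration B hBm (tn n)] (B (tn n)) :=
      Filtration.stronglyAdapted_natural (fun t => (hBm t).stronglyMeasurable) _
    exact h1.mono (le_iSup (fun n => (Gn (brownianFiltration B hBm) n : MeasurableSpace Ω)) n)
  · filter_upwards [hB.cont] with ω hω
    exact ((hω.tendsto 1).comp tn_tendsto).limUnder_eq

/-- **Fullness**: everything `F_1`-measurable is in the Hilbert space. -/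
theorem mem_HH (hB : IsBrownianReal B P) (x : Ω →₂[P] ℝ)
    (hx : AEStronglyMeasurable[brownianFiltration B hBm 1] (x : Ω → ℝ) P) :
    x ∈ HH P B hBm := by
  obtain ⟨f, hf, hxf⟩ := hx
  obtain ⟨Y, hY, hYB⟩ := exists_B1 hBm hB
  -- factor through the path
  have hf2 : StronglyMeasurable[(inferInstance : MeasurableSpace (Iic (1 : ℝ≥0) → ℝ)).comap
      (fun ω (j : Iic (1 : ℝ≥0)) => B j ω)] f := by
    have e := Filtration.natural_eq_comap (fun t => B t) (fun t => (hBm t).stronglyMeasurable) 1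
    have e2 : brownianFiltration B hBm 1
        = (inferInstance : MeasurableSpace (Iic (1 : ℝ≥0) → ℝ)).comap
          (fun ω (j : Iic (1 : ℝ≥0)) => B j ω) := e
    rw [e2] at hf
    exact hf
  obtain ⟨Φ, hΦ, hfΦ⟩ := hf2.exists_eq_measurable_comp
  set path' : Ω → (Iic (1 : ℝ≥0) → ℝ) := fun ω j => if (j : ℝ≥0) < 1 then B j ω else Y ω with hp
  have hpm : Measurable[⨆ n, Gn (brownianFiltration B hBm) n] path' := by
    refine meas_pi fun j => ?_
    by_cases hj : (j : ℝ≥0) < 1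
    · have e : (fun ω => path' ω j) = B j := by
        funext ω; simp only [hp, if_pos hj]
      rw [e]
      have h1 : StronglyMeasurable[brownianFiltration B hBm (j : ℝ≥0)] (B j) :=
        Filtration.stronglyAdapted_natural (fun t => (hBm t).stronglyMeasurable) _
      exact (h1.mono (le_iSup_Gn _ hj)).measurable
    · have e : (fun ω => path' ω j) = Y := by
        funext ω; simp only [hp, if_neg hj]
      rw [e]
      exact hY.measurable
  have hf' : StronglyMeasurable[⨆ n, Gn (brownianFiltration B hBm) n] (Φ ∘ path') :=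
    sm_comp hΦ hpm
  have hae : (x : Ω → ℝ) =ᵐ[P] Φ ∘ path' := by
    filter_upwards [hxf, hYB] with ω h1 h2
    rw [h1, hfΦ]
    simp only [Function.comp_apply]
    congr 1
    funext j
    simp only [hp]
    split_ifs with hj
    · rfl
    · have hj1 : (j : ℝ≥0) = 1 := le_antisymm j.2 (not_lt.1 hj)
      rw [hj1, h2]
  have hm : MemLp (Φ ∘ path') 2 P := (memLp_congr_ae hae).1 (Lp.memLp x)
  have e : x = hm.toLp (Φ ∘ path') := by
    refine Lp.ext ?_
    exact hae.trans hm.coeFn_toLp.symm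
  rw [e]
  exact mem_HB_of_sup _ hf' hm

/-- function form of fullness for `modelB` -/
theorem full (hB : IsBrownianReal B P) (f : Ω → ℝ) (hf : MemLp f 2 P)
    (hfm : StronglyMeasurable[brownianFiltration B hBm 1] f) :
    ∃ z : HH P B hBm, (modelB P B hBm).J z =ᵐ[P] f := by
  refine ⟨⟨hf.toLp f, mem_HH hBm hB _ ?_⟩, ?_⟩
  · exact ⟨f, hfm, hf.coeFn_toLp⟩
  · rw [modelB_J]
    exact hf.coeFn_toLp

end Brownian

end Crest.Agent.R146.BrFull_106
end

-- ▼ part R146/BrLaw_106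
section

/-!
Row 146 (helper106): law invariance of the jamming functional `J0` (DZero2_106).

`J0_law` : two processes with the same law give the same `J0` (same functional `Φ` of the path).
`HJ_of_one` : `J0 ≥ 0` for the Brownian motion `B` and its natural filtration implies `J0 ≥ 0` for
all time-dilated Brownian motions `s ↦ B(as)/√a`.
-/

set_option autoImplicit false

open MeasureTheory ProbabilityTheory Set Filter Topology
open scoped NNReal ENNReal

namespace Crest.Agent.R146.BrLaw_106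

open Crest.ProbabilityR.Perceptron Crest.Agent.R146.DZero_106

/-- transfer of conditional expectations through a measurable map -/
theorem condExp_comp {Ω E : Type*} {mΩ : MeasurableSpace Ω} {𝒢 : MeasurableSpace E}
    {mE : MeasurableSpace E}
    {P : Measure Ω} [IsProbabilityMeasure P] {T : Ω → E} (hT : Measurable T)
    (h𝒢 : 𝒢 ≤ mE) {Φ : E → ℝ} (hΦ : Integrable Φ (P.map T)) :
    P[Φ ∘ T | 𝒢.comap T] =ᵐ[P] ((P.map T)[Φ | 𝒢]) ∘ T := by
  have hP : IsProbabilityMeasure (P.map T) := Measure.isProbabilityMeasure_map hT.aemeasurable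
  have hm : 𝒢.comap T ≤ mΩ := (MeasurableSpace.comap_mono h𝒢).trans hT.comap_le
  have hint : Integrable (Φ ∘ T) P :=
    (integrable_map_measure hΦ.aestronglyMeasurable hT.aemeasurable).1 hΦ
  have hgi : Integrable (((P.map T)[Φ | 𝒢]) ∘ T) P :=
    (integrable_map_measure integrable_condExp.aestronglyMeasurable hT.aemeasurable).1
      integrable_condExp
  refine (ae_eq_condExp_of_forall_setIntegral_eq hm hint (fun s _ _ => hgi.integrableOn) ?_ ?_).symm
  · rintro s ⟨S, hS, rfl⟩ _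
    have h1 := setIntegral_map (h𝒢 S hS) (integrable_condExp (μ := P.map T) (m := 𝒢)
      (f := Φ)).aestronglyMeasurable hT.aemeasurable
    have h2 := setIntegral_map (h𝒢 S hS) hΦ.aestronglyMeasurable hT.aemeasurable
    have h3 := setIntegral_condExp h𝒢 hΦ hS
    calc ∫ x in T ⁻¹' S, (((P.map T)[Φ | 𝒢]) ∘ T) x ∂P
        = ∫ y in S, ((P.map T)[Φ | 𝒢]) y ∂(P.map T) := h1.symm
      _ = ∫ y in S, Φ y ∂(P.map T) := h3
      _ = _ := h2
  · have h1 : StronglyMeasurable[𝒢] ((P.map T)[Φ | 𝒢]) := stronglyMeasurable_condExp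
    exact (h1.comp_measurable (comap_measurable T)).aestronglyMeasurable

variable {Ω : Type*} {mΩ : MeasurableSpace Ω} {P : Measure Ω} [IsProbabilityMeasure P]

/-- the index `1` -/
def i1 : Iic (1 : ℝ≥0) := ⟨1, Set.mem_Iic.2 le_rfl⟩

/-- the path on `[0,1]` -/
def pth (X : ℝ≥0 → Ω → ℝ) (ω : Ω) : Iic (1 : ℝ≥0) → ℝ := fun j => X j ω

lemma pth_meas {X : ℝ≥0 → Ω → ℝ} (hX : ∀ t, Measurable (X t)) : Measurable (pth X) :=
  measurable_pi_iff.2 fun j => hX j

/-- coordinates up to time `s` -/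
@[instance_reducible]
def 𝒢 (s : ℝ≥0) : MeasurableSpace (Iic (1 : ℝ≥0) → ℝ) :=
  ⨆ (j : Iic (1 : ℝ≥0)) (_ : (j : ℝ≥0) ≤ s), MeasurableSpace.comap (fun e => e j) inferInstance

lemma 𝒢_le (s : ℝ≥0) : 𝒢 s ≤ (inferInstance : MeasurableSpace (Iic (1 : ℝ≥0) → ℝ)) :=
  iSup₂_le fun j _ => (measurable_pi_apply j).comap_le

lemma nat_eq {X : ℝ≥0 → Ω → ℝ} (hX : ∀ t, Measurable (X t)) {s : ℝ≥0} (hs : s ≤ 1) :
    (brownianFiltration X hX s : MeasurableSpace Ω) = (𝒢 s).comap (pth X) := by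
  have e1 : (brownianFiltration X hX s : MeasurableSpace Ω)
      = ⨆ j ≤ s, MeasurableSpace.comap (X j) inferInstance := rfl
  rw [e1, 𝒢]
  simp only [MeasurableSpace.comap_iSup, MeasurableSpace.comap_comp]
  refine le_antisymm ?_ ?_
  · refine iSup₂_le fun j hj => ?_
    exact le_iSup₂_of_le (⟨j, hj.trans hs⟩ : Iic (1 : ℝ≥0)) hj le_rfl
  · refine iSup₂_le fun j hj => ?_
    exact le_iSup₂_of_le (j : ℝ≥0) hj le_rfl

/-- natural filtration, real time -/
@[instance_reducible]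
noncomputable def NF (X : ℝ≥0 → Ω → ℝ) (hX : ∀ t, Measurable (X t)) (t : ℝ) :
    MeasurableSpace Ω := brownianFiltration X hX t.toNNReal

/-- the process, real time -/
def NW (X : ℝ≥0 → Ω → ℝ) (t : ℝ) : Ω → ℝ := X t.toNNReal

lemma quad_eq {X : ℝ≥0 → Ω → ℝ} (hX : ∀ t, Measurable (X t)) {t : ℝ} (ht : t ∈ Icc (0 : ℝ) 1)
    {Φ : (Iic (1 : ℝ≥0) → ℝ) → ℝ} (hΦ : Integrable Φ (P.map (pth X))) :
    ∫ ω, (P[Φ ∘ pth X | NF X hX t]) ω ^ 2 ∂P
      = ∫ e, ((P.map (pth X))[Φ | 𝒢 t.toNNReal]) e ^ 2 ∂(P.map (pth X)) := by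
  have hs : t.toNNReal ≤ 1 := by
    rw [Real.toNNReal_le_iff_le_coe]; simpa using ht.2
  have h1 := condExp_comp (P := P) (pth_meas hX) (𝒢_le t.toNNReal) hΦ
  rw [← nat_eq hX hs] at h1
  have h2 : ∫ ω, (P[Φ ∘ pth X | NF X hX t]) ω ^ 2 ∂P
      = ∫ ω, (((P.map (pth X))[Φ | 𝒢 t.toNNReal]) (pth X ω)) ^ 2 ∂P := by
    refine integral_congr_ae ?_
    filter_upwards [h1] with ω hω
    have : (P[Φ ∘ pth X | NF X hX t]) ω = (((P.map (pth X))[Φ | 𝒢 t.toNNReal]) ∘ pth X) ω := hω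
    rw [this]; rfl
  rw [h2]
  have h3 : AEStronglyMeasurable (fun e => ((P.map (pth X))[Φ | 𝒢 t.toNNReal]) e ^ 2)
      (P.map (pth X)) :=
    (integrable_condExp.aestronglyMeasurable.pow 2)
  exact (integral_map (pth_meas hX).aemeasurable h3).symm

/-- **Law invariance of `J0`.** -/
theorem J0_law {Ω' : Type*} {mΩ' : MeasurableSpace Ω'} {P' : Measure Ω'} [IsProbabilityMeasure P']
    {X : ℝ≥0 → Ω → ℝ} (hX : ∀ t, Measurable (X t)) {X' : ℝ≥0 → Ω' → ℝ}
    (hX' : ∀ t, Measurable (X' t)) (hlaw : P.map (pth X) = P'.map (pth X'))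
    {Φ : (Iic (1 : ℝ≥0) → ℝ) → ℝ} (hΦ : StronglyMeasurable Φ)
    (hΦi : Integrable Φ (P.map (pth X))) (α : ℝ) (m : ℝ → ℝ) (d : ℝ) :
    J0 P (NF X hX) (NW X) α (Φ ∘ pth X) m d = J0 P' (NF X' hX') (NW X') α (Φ ∘ pth X') m d := by
  have hone : (1 : ℝ).toNNReal = 1 := Real.toNNReal_one
  have hΦi' : Integrable Φ (P'.map (pth X')) := hlaw ▸ hΦi
  have e1 : ∫ ω, (Φ ∘ pth X) ω * (1 + NW X 1 ω) ∂P
      = ∫ e, Φ e * (1 + e i1) ∂(P.map (pth X)) := by
    have h1 : AEStronglyMeasurable (fun e : Iic (1 : ℝ≥0) → ℝ => Φ e * (1 + e i1))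
        (P.map (pth X)) :=
      (hΦ.mul (by
        have : Measurable (fun e : Iic (1 : ℝ≥0) → ℝ => 1 + e i1) := by fun_prop
        exact this.stronglyMeasurable)).aestronglyMeasurable
    rw [integral_map (pth_meas hX).aemeasurable h1]
    simp only [NW, hone, Function.comp_apply, pth, i1]
  have e1' : ∫ ω, (Φ ∘ pth X') ω * (1 + NW X' 1 ω) ∂P'
      = ∫ e, Φ e * (1 + e i1) ∂(P'.map (pth X')) := by
    have h1 : AEStronglyMeasurable (fun e : Iic (1 : ℝ≥0) → ℝ => Φ e * (1 + e i1))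
        (P'.map (pth X')) :=
      (hΦ.mul (by
        have : Measurable (fun e : Iic (1 : ℝ≥0) → ℝ => 1 + e i1) := by fun_prop
        exact this.stronglyMeasurable)).aestronglyMeasurable
    rw [integral_map (pth_meas hX').aemeasurable h1]
    simp only [NW, hone, Function.comp_apply, pth, i1]
  have e2 : ∫ ω, (Φ ∘ pth X) ω ^ 2 ∂P = ∫ e, Φ e ^ 2 ∂(P.map (pth X)) :=
    (integral_map (f := fun e => Φ e ^ 2) (pth_meas hX).aemeasurable
      (hΦ.pow 2).aestronglyMeasurable).symm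
  have e2' : ∫ ω, (Φ ∘ pth X') ω ^ 2 ∂P' = ∫ e, Φ e ^ 2 ∂(P'.map (pth X')) :=
    (integral_map (f := fun e => Φ e ^ 2) (pth_meas hX').aemeasurable
      (hΦ.pow 2).aestronglyMeasurable).symm
  have e3 : ∫ t in (0 : ℝ)..1, m t * ∫ ω, (P[Φ ∘ pth X | NF X hX t]) ω ^ 2 ∂P
      = ∫ t in (0 : ℝ)..1, m t * ∫ ω, (P'[Φ ∘ pth X' | NF X' hX' t]) ω ^ 2 ∂P' := by
    refine intervalIntegral.integral_congr fun t ht => ?_
    rw [uIcc_of_le zero_le_one] at ht
    rw [quad_eq hX ht hΦi, quad_eq hX' ht hΦi', hlaw]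
  unfold J0
  rw [e1, e1', e2, e2', e3, hlaw]

/-- two pre-Brownian processes have the same law on `[0,1]` -/
theorem law_eq {Ω' : Type*} {mΩ' : MeasurableSpace Ω'} {P' : Measure Ω'}
    {X : ℝ≥0 → Ω → ℝ} (hX : ∀ t, Measurable (X t)) {X' : ℝ≥0 → Ω' → ℝ}
    (hX' : ∀ t, Measurable (X' t)) (h : IsPreBrownianReal X P) (h' : IsPreBrownianReal X' P') :
    P.map (pth X) = P'.map (pth X') := by
  have m1 : Measurable (fun ω (t : ℝ≥0) => X t ω) := measurable_pi_iff.2 fun t => hX t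
  have m2 : Measurable (fun ω (t : ℝ≥0) => X' t ω) := measurable_pi_iff.2 fun t => hX' t
  have l1 : IsProjectiveLimit (P.map (fun ω (t : ℝ≥0) => X t ω)) ProbabilityTheory.BrownianReal.projectiveFamily := by
    intro I
    rw [Measure.map_map (Finset.measurable_restrict I) m1]
    exact (h.hasLaw I).map_eq
  have l2 : IsProjectiveLimit (P'.map (fun ω (t : ℝ≥0) => X' t ω)) ProbabilityTheory.BrownianReal.projectiveFamily := by
    intro I
    rw [Measure.map_map (Finset.measurable_restrict I) m2]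
    exact (h'.hasLaw I).map_eq
  have e := l1.unique l2
  have m3 : Measurable (fun (f : ℝ≥0 → ℝ) (j : Iic (1 : ℝ≥0)) => f j) :=
    measurable_pi_iff.2 fun j => measurable_pi_apply (j : ℝ≥0)
  have f1 : P.map (pth X) = (P.map (fun ω (t : ℝ≥0) => X t ω)).map
      (fun (f : ℝ≥0 → ℝ) (j : Iic (1 : ℝ≥0)) => f j) := by
    rw [Measure.map_map m3 m1]; rfl
  have f2 : P'.map (pth X') = (P'.map (fun ω (t : ℝ≥0) => X' t ω)).map
      (fun (f : ℝ≥0 → ℝ) (j : Iic (1 : ℝ≥0)) => f j) := by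
    rw [Measure.map_map m3 m2]; rfl
  rw [f1, f2, e]

/-! ### the dilated Brownian motion -/

variable {B : ℝ≥0 → Ω → ℝ} (hBm : ∀ t, Measurable (B t))

/-- `B'(t) = B(at)/√a` -/
noncomputable def dil (B : ℝ≥0 → Ω → ℝ) (a : ℝ≥0) (t : ℝ≥0) (ω : Ω) : ℝ :=
  (√(a : ℝ))⁻¹ * B (a * t) ω

include hBm in
lemma dil_meas (a : ℝ≥0) (t : ℝ≥0) : Measurable (dil B a t) := (hBm (a * t)).const_mul _

lemma comap_const_mul {c : ℝ} (hc : c ≠ 0) (f : Ω → ℝ) :
    MeasurableSpace.comap (fun ω => c * f ω) inferInstance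
      = MeasurableSpace.comap f (inferInstance : MeasurableSpace ℝ) := by
  have h1 : (fun ω => c * f ω) = (fun x : ℝ => c * x) ∘ f := rfl
  rw [h1, ← MeasurableSpace.comap_comp]
  congr 1
  exact (measurableEmbedding_mulLeft₀ hc).comap_eq

lemma nat_dil {a : ℝ≥0} (ha : a ≠ 0) (s : ℝ≥0) :
    (brownianFiltration (dil B a) (dil_meas hBm a) s : MeasurableSpace Ω)
      = brownianFiltration B hBm (a * s) := by
  have hc : (√(a : ℝ))⁻¹ ≠ 0 := by
    have : (0 : ℝ) < a := by positivity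
    positivity
  have e1 : (brownianFiltration (dil B a) (dil_meas hBm a) s : MeasurableSpace Ω)
      = ⨆ j ≤ s, MeasurableSpace.comap (dil B a j) inferInstance := rfl
  have e2 : (brownianFiltration B hBm (a * s) : MeasurableSpace Ω)
      = ⨆ j ≤ a * s, MeasurableSpace.comap (B j) inferInstance := rfl
  have e3 : ∀ j, MeasurableSpace.comap (dil B a j) inferInstance
      = MeasurableSpace.comap (B (a * j)) (inferInstance : MeasurableSpace ℝ) :=
    fun j => comap_const_mul hc (B (a * j))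
  rw [e1, e2]
  simp only [e3]
  refine le_antisymm ?_ ?_
  · refine iSup₂_le fun j hj => ?_
    exact le_iSup₂_of_le (a * j) (by gcongr) le_rfl
  · refine iSup₂_le fun j hj => ?_
    have h1 : a * (a⁻¹ * j) = j := by rw [← mul_assoc, mul_inv_cancel₀ ha, one_mul]
    have h2 : a⁻¹ * j ≤ s := by
      rw [inv_mul_le_iff₀ (pos_of_ne_zero ha)]; exact hj
    refine le_iSup₂_of_le (a⁻¹ * j) h2 ?_
    rw [h1]

lemma NF_dil {a : ℝ≥0} (ha : a ≠ 0) :
    NF (dil B a) (dil_meas hBm a) = fun s => NF B hBm ((a : ℝ) * s) := by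
  funext s
  have h1 : ((a : ℝ) * s).toNNReal = a * s.toNNReal := by
    rw [Real.toNNReal_mul (NNReal.coe_nonneg a), Real.toNNReal_coe]
  show (brownianFiltration (dil B a) (dil_meas hBm a) s.toNNReal : MeasurableSpace Ω)
    = brownianFiltration B hBm ((a : ℝ) * s).toNNReal
  rw [h1, nat_dil hBm ha]

lemma NW_dil (a : ℝ≥0) :
    NW (dil B a) = fun (s : ℝ) (ω : Ω) => NW B ((a : ℝ) * s) ω / √(a : ℝ) := by
  funext s ω
  have h1 : ((a : ℝ) * s).toNNReal = a * s.toNNReal := by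
    rw [Real.toNNReal_mul (NNReal.coe_nonneg a), Real.toNNReal_coe]
  simp only [NW, dil, h1]
  rw [div_eq_inv_mul]

/-- `J0 ≥ 0` for `B` implies `J0 ≥ 0` for the dilated Brownian motions (hypothesis `HJ` of
`DZero_106.dzero`). -/
theorem HJ_of_one (hB : IsPreBrownianReal B P) {α : ℝ}
    (h1 : ∀ lam' : Ω → ℝ, MemLp lam' 2 P → 0 ≤ᵐ[P] lam' → StronglyMeasurable[NF B hBm 1] lam' →
      ∀ m' d', Adm m' d' → 0 ≤ J0 P (NF B hBm) (NW B) α lam' m' d') :
    ∀ a ∈ Ioc (0 : ℝ) 1, ∀ lam' : Ω → ℝ, MemLp lam' 2 P → 0 ≤ᵐ[P] lam' →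
      StronglyMeasurable[NF B hBm a] lam' → ∀ m' d', Adm m' d' →
      0 ≤ J0 P (fun s => NF B hBm (a * s)) (fun s ω => NW B (a * s) ω / √a) α lam' m' d' := by
  intro a ha lam' hl2 hl0 hlm m' d' hA
  obtain ⟨b, rfl⟩ : ∃ b : ℝ≥0, (b : ℝ) = a := ⟨⟨a, ha.1.le⟩, rfl⟩
  have hb : b ≠ 0 := by
    intro h; rw [h] at ha; exact lt_irrefl _ ha.1
  have e0 : NF B hBm (b : ℝ) = (brownianFiltration (dil B b) (dil_meas hBm b) 1
      : MeasurableSpace Ω) := by
    rw [nat_dil hBm hb, mul_one]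
    show (brownianFiltration B hBm (b : ℝ).toNNReal : MeasurableSpace Ω) = _
    rw [Real.toNNReal_coe]
  have e1 := Filtration.natural_eq_comap (fun t => dil B b t)
    (fun t => (dil_meas hBm b t).stronglyMeasurable) 1
  have hlm2 : StronglyMeasurable[(inferInstance : MeasurableSpace (Iic (1 : ℝ≥0) → ℝ)).comap
      (pth (dil B b))] lam' := by
    have e2 : (brownianFiltration (dil B b) (dil_meas hBm b) 1 : MeasurableSpace Ω)
        = (inferInstance : MeasurableSpace (Iic (1 : ℝ≥0) → ℝ)).comap (pth (dil B b)) := e1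
    rw [e0, e2] at hlm
    exact hlm
  obtain ⟨Φ, hΦ, rfl⟩ := hlm2.exists_eq_measurable_comp
  have hpre := hB.smul (c := b) hb
  have hlaw : P.map (pth (dil B b)) = P.map (pth B) :=
    law_eq (dil_meas hBm b) hBm hpre hB
  have md := pth_meas (dil_meas hBm b)
  have mb := pth_meas hBm
  have hΦ2 : MemLp Φ 2 (P.map (pth (dil B b))) :=
    (memLp_map_measure_iff hΦ.aestronglyMeasurable md.aemeasurable).2 hl2
  have hΦ2' : MemLp Φ 2 (P.map (pth B)) := hlaw ▸ hΦ2
  have hprob : IsProbabilityMeasure (P.map (pth (dil B b))) :=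
    Measure.isProbabilityMeasure_map md.aemeasurable
  have hpos : ∀ᵐ e ∂(P.map (pth (dil B b))), 0 ≤ Φ e :=
    (ae_map_iff md.aemeasurable (measurableSet_le measurable_const hΦ.measurable)).2 hl0
  have hpos' : ∀ᵐ e ∂(P.map (pth B)), 0 ≤ Φ e := hlaw ▸ hpos
  have key := J0_law (dil_meas hBm b) hBm hlaw hΦ (hΦ2.integrable (by norm_num)) α m' d'
  rw [NF_dil hBm hb, NW_dil] at key
  rw [key]
  refine h1 _ ?_ ?_ ?_ m' d' hA
  · exact (memLp_map_measure_iff hΦ.aestronglyMeasurable mb.aemeasurable).1 hΦ2'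
  · exact (ae_map_iff mb.aemeasurable (measurableSet_le measurable_const hΦ.measurable)).1 hpos'
  · have e3 := Filtration.natural_eq_comap (fun t => B t)
      (fun t => (hBm t).stronglyMeasurable) 1
    have e4 : (NF B hBm 1 : MeasurableSpace Ω)
        = (inferInstance : MeasurableSpace (Iic (1 : ℝ≥0) → ℝ)).comap (pth B) := by
      show (brownianFiltration B hBm (1 : ℝ).toNNReal : MeasurableSpace Ω) = _
      rw [Real.toNNReal_one]
      exact e3
    rw [e4]
    exact BrFull_106.sm_comp hΦ (comap_measurable (pth B))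

/-- the Brownian structure of DZero2_106 -/
theorem brown (hB : IsPreBrownianReal B P) : Brown P (NF B hBm) (NW B) where
  le t _ := (brownianFiltration B hBm).le _
  mono s t hs hst _ := (brownianFiltration B hBm).mono (Real.toNNReal_le_toNNReal hst)
  meas t _ := (Filtration.stronglyAdapted_natural (fun t => (hBm t).stronglyMeasurable)
    t.toNNReal).measurable
  zero := by
    have := hB.eval_zero_ae_eq_zero
    simp only [NW, Real.toNNReal_zero]
    exact this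
  indep s t hs hst _ := by
    have h1 := hB.indepFun_shift s.toNNReal
    have e : (NF B hBm s : MeasurableSpace Ω)
        = MeasurableSpace.comap (fun ω (j : Iic s.toNNReal) => B j ω) inferInstance :=
      Filtration.natural_eq_comap (fun t => B t) (fun t => (hBm t).stronglyMeasurable) s.toNNReal
    rw [e]
    have h2 := h1.symm
    have h3 : IndepFun (fun ω (j : Iic s.toNNReal) => B j ω) (fun ω => NW B t ω - NW B s ω) P := by
      have hm4 : Measurable (fun g : ℝ≥0 → ℝ => g (t - s).toNNReal) :=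
        measurable_pi_apply (t - s).toNNReal
      have h4 := h2.comp (φ := id) (ψ := fun g : ℝ≥0 → ℝ => g (t - s).toNNReal) measurable_id
        hm4
      have h5 : s.toNNReal + (t - s).toNNReal = t.toNNReal := by
        rw [← Real.toNNReal_add hs (by linarith)]; congr 1; ring
      simpa [Function.comp_def, NW, h5] using h4
    exact h3
  law s t hs hst _ := by
    have h1 := hB.hasLaw_sub t.toNNReal s.toNNReal
    have h2 := h1.map_eq
    have e : nndist (t.toNNReal : ℝ≥0).1 (s.toNNReal : ℝ≥0).1 = (t - s).toNNReal := by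
      apply NNReal.eq
      rw [coe_nndist, Real.dist_eq]
      show |(t.toNNReal : ℝ) - (s.toNNReal : ℝ)| = _
      rw [Real.coe_toNNReal t (hs.trans hst), Real.coe_toNNReal s hs,
        Real.coe_toNNReal _ (by linarith), abs_of_nonneg (by linarith)]
    rw [← e, ← h2]
    rfl

end Crest.Agent.R146.BrLaw_106
end

-- ▼ part R146/DZeroW_106
section

/-!
Row 146 (helper106): first field of `TipOut` at the literal instance.

`D_one` : `IsJam (RW W) (KW W) (xiW W) αc x D → D 1 = 0`.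
Also: `J0_eq` (bridge `J0` of functions = `Je` of the Hilbert frame), `kkt_ae` (`h ≥ 0`,
`lam h = 0` a.e.), `support_end` (`mOf D` is not constant near `1`).
-/

set_option autoImplicit false

open MeasureTheory ProbabilityTheory Set Filter Topology
open scoped NNReal ENNReal RealInnerProductSpace

namespace Crest.Agent.R146.DZeroW_106

open Crest.ProbabilityR.Perceptron
open Crest.Agent.R146.DZero_106 (J0 DD n2 orth int_mul MM Brown rho_sq)
open Crest.Agent.R146.BrLaw_106 Crest.Agent.R146.BrFull_106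
open Crest.Agent.R146.Hilb Crest.Agent.R146.ProfB_540 Crest.Agent.R146.ProfF_540
open Crest.Agent.R146.HilbE Crest.Agent.R146.HilbD
open Crest.Agent.R146.Lev2_576 Crest.Agent.R146.P34_734 Crest.Agent.R146.DualG_256
open Crest.Agent.R146.DualL_256 Crest.Agent.R146.DualV_256
open Crest.Agent.R146.JamIface_776 Crest.Agent.R146.P5Def_12

variable (W : BS)

/-- natural filtration of `W` in real time -/
@[instance_reducible]
noncomputable def FW (t : ℝ) : MeasurableSpace W.Ω := NF W.B W.meas t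

lemma FW_le (t : ℝ) : FW W t ≤ W.mΩ := (brownianFiltration W.B W.meas).le _

lemma FW_one : FW W 1 = (brownianFiltration W.B W.meas 1 : MeasurableSpace W.Ω) := by
  show (brownianFiltration W.B W.meas (1 : ℝ).toNNReal : MeasurableSpace W.Ω) = _
  rw [Real.toNNReal_one]

/-- `J x` is `F_1`-measurable -/
lemma J_eq_cond (x : HW W) : (MW W).J x =ᵐ[W.P] W.P[(MW W).J x | FW W 1] := by
  have h := (MW W).cond 1 ⟨zero_le_one, le_rfl⟩ x
  rw [(RW W).one] at h
  exact h

/-- pairing with a function which is not `F_1`-measurable -/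
lemma pair_cond (x : HW W) {ψ : W.Ω → ℝ} (hψ : MemLp ψ 2 W.P) :
    ∫ ω, ψ ω * (MW W).J x ω ∂W.P = ∫ ω, (W.P[ψ | FW W 1]) ω * (MW W).J x ω ∂W.P := by
  have hJ := (MW W).memLp x
  have hE : MemLp (W.P[ψ | FW W 1]) 2 W.P := hψ.condExp (by norm_num)
  have hc : MemLp (W.P[(MW W).J x | FW W 1]) 2 W.P := hJ.condExp (by norm_num)
  have h0 := orth (FW_le W 1) hψ hc stronglyMeasurable_condExp
  have e : ∀ ω, (ψ ω - (W.P[ψ | FW W 1]) ω) * (W.P[(MW W).J x | FW W 1]) ω
      = ψ ω * (W.P[(MW W).J x | FW W 1]) ω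
        - (W.P[ψ | FW W 1]) ω * (W.P[(MW W).J x | FW W 1]) ω := fun ω => by ring
  simp_rw [e] at h0
  rw [integral_sub (int_mul hψ hc) (int_mul hE hc)] at h0
  have e1 : ∫ ω, ψ ω * (MW W).J x ω ∂W.P
      = ∫ ω, ψ ω * (W.P[(MW W).J x | FW W 1]) ω ∂W.P := by
    refine integral_congr_ae ?_
    filter_upwards [J_eq_cond W x] with ω hω
    rw [← hω]
  have e2 : ∫ ω, (W.P[ψ | FW W 1]) ω * (MW W).J x ω ∂W.P
      = ∫ ω, (W.P[ψ | FW W 1]) ω * (W.P[(MW W).J x | FW W 1]) ω ∂W.P := by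
    refine integral_congr_ae ?_
    filter_upwards [J_eq_cond W x] with ω hω
    rw [← hω]
  rw [e1, e2]
  linarith

/-- every `F_1`-measurable function is `J z` -/
lemma exists_J {f : W.Ω → ℝ} (hf : MemLp f 2 W.P) (hm : StronglyMeasurable[FW W 1] f) :
    ∃ z : HW W, (MW W).J z =ᵐ[W.P] f := by
  rw [FW_one] at hm
  exact full W.meas W.br f hf hm

lemma cond_norm {z : HW W} {f : W.Ω → ℝ} (hz : (MW W).J z =ᵐ[W.P] f) {t : ℝ}
    (ht : t ∈ Icc (0 : ℝ) 1) :
    ∫ ω, (W.P[f | FW W t]) ω ^ 2 ∂W.P = ‖(RW W).P t z‖ ^ 2 := by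
  rw [← (MW W).norm_sq]
  refine integral_congr_ae ?_
  have h1 := (MW W).cond t ht z
  have h2 : W.P[(MW W).J z | FW W t] =ᵐ[W.P] W.P[f | FW W t] := condExp_congr_ae hz
  filter_upwards [h1, h2] with ω h3 h4
  rw [h3, ← h4]; rfl

/-- the bridge `J0 = Je` -/
theorem J0_eq {z : HW W} {f : W.Ω → ℝ} (hz : (MW W).J z =ᵐ[W.P] f) (α : ℝ) {m : ℝ → ℝ} {d : ℝ}
    {D : ℝ → ℝ} (hD : ContinuousOn D (Icc 0 1)) (hm : IntervalIntegrable m volume 0 1)
    (h : ∀ t ∈ Icc (0 : ℝ) 1, D t = DD m d t) :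
    J0 W.P (NF W.B W.meas) (NW W.B) α f m d = Je (RW W) α 0 0 (xiW W) z D := by
  have hξ : (MW W).J (xiW W) =ᵐ[W.P] fun ω => 1 + W.B 1 ω := DualG_256.modelB_xi W.meas W.br 1
  have e1 : ∫ ω, f ω * (1 + NW W.B 1 ω) ∂W.P = ⟪z, xiW W⟫ := by
    rw [← (MW W).inner]
    refine integral_congr_ae ?_
    filter_upwards [hz, hξ] with ω h1 h2
    rw [h1, h2]
    simp only [NW, Real.toNNReal_one]
  have e2 : ∫ ω, f ω ^ 2 ∂W.P = ‖z‖ ^ 2 := by
    rw [← (MW W).norm_sq]
    refine integral_congr_ae ?_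
    filter_upwards [hz] with ω h1
    rw [h1]
  have e3 : ∫ t in (0 : ℝ)..1, m t * ∫ ω, (W.P[f | NF W.B W.meas t]) ω ^ 2 ∂W.P
      = ∫ t in (0 : ℝ)..1, m t * ‖(RW W).P t z‖ ^ 2 := by
    refine intervalIntegral.integral_congr fun t ht => ?_
    rw [uIcc_of_le zero_le_one] at ht
    have := cond_norm W hz ht
    rw [← this]
    rfl
  have e4 : Ent 0 D = ∫ t in (0 : ℝ)..1, 1 / DD m d t := by
    rw [Ent, entF_zero]
    refine intervalIntegral.integral_congr fun t ht => ?_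
    rw [uIcc_of_le zero_le_one] at ht
    show 1 / D t = 1 / DD m d t
    rw [h t ht]
  rw [Je, (RW W).Q_eq_integral hD hm h, e4, J0, e1, e2, e3]
  ring

/-- my `Adm` gives the `Adm 0` of helper540 -/
lemma adm_of {m : ℝ → ℝ} {d : ℝ} (h : DZero_106.Adm m d) : ProfB_540.Adm 0 (DD m d) := by
  have hp : Prof (DD m d) := prof_dOf h.mono h.nonneg h.int h.d_nonneg h.pos
  refine ⟨hp, ?_, ?_⟩
  · intro t ht
    rw [zero_mul]; linarith [ht.2]
  · rw [entF_zero]
    exact h.E_int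

/-- and back -/
lemma of_adm {D : ℝ → ℝ} (h : ProfB_540.Adm 0 D) : DZero_106.Adm (mOf D) (D 1) := by
  have hp := h.prof
  have e : ∀ t ∈ Icc (0 : ℝ) 1, DD (mOf D) (D 1) t = D t := fun t ht =>
    (eq_add_integral hp ht).symm
  refine ⟨fun t ht => mOf_nonneg hp ht, mOf_mono hp, mOf_intervalIntegrable hp, hp.one, ?_, ?_⟩
  · intro t ht
    rw [e t ⟨ht.1, ht.2.le⟩]
    exact hp.pos t ht
  · have h1 := h.int
    rw [entF_zero] at h1
    refine h1.congr ?_
    intro t ht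
    rw [uIoc_of_le zero_le_one] at ht
    simp only
    rw [e t ⟨ht.1.le, ht.2⟩]

lemma mem_KW {z : HW W} : z ∈ KW W ↔ 0 ≤ᵐ[W.P] (MW W).J z := by
  show (z : W.Ω →₂[W.P] ℝ) ∈ cone W.P ↔ _
  rw [mem_cone]
  rfl

lemma isCone_KW : IsCone (KW W) where
  zero := KB_zero W.meas
  add := KB_add W.meas
  smul := KB_smul W.meas

/-- KKT in `x` for a jamming minimiser -/
lemma kkt {αc : ℝ} (hα : 0 < αc) {x : HW W} {D : ℝ → ℝ}
    (h : IsJam (RW W) (KW W) (xiW W) αc x D) :
    (∀ y ∈ KW W, 0 ≤ ⟪y, xiW W + (RW W).Dop D x⟫) ∧ ⟪x, xiW W + (RW W).Dop D x⟫ = 0 := by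
  have h1 := HilbD.kkt_x (RW W) (isCone_KW W) h.adm.prof.cont 0 (xiW W) x h.xK (by
    intro y hy
    have h2 := h.min y hy D h.adm
    have h3 := h.zero
    rw [Je_eq_Fx] at h2 h3
    have h4 : αc * Fx (RW W) 0 (xiW W) D x ≤ αc * Fx (RW W) 0 (xiW W) D y := by linarith
    exact le_of_mul_le_mul_left h4 hα)
  have e : hvec (RW W) 0 (xiW W) D x = xiW W + (RW W).Dop D x := by
    unfold hvec; rw [zero_smul, add_zero]
  rw [e] at h1
  exact h1

/-- `h ≥ 0` a.e. from the dual cone -/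
lemma nonneg_of_dual {h : HW W} (hd : ∀ y ∈ KW W, 0 ≤ ⟪y, h⟫) : 0 ≤ᵐ[W.P] (MW W).J h := by
  set f : W.Ω → ℝ := fun ω => max (-(W.P[(MW W).J h | FW W 1]) ω) 0 with hf
  have hJ := (MW W).memLp h
  have hE : MemLp (W.P[(MW W).J h | FW W 1]) 2 W.P := hJ.condExp (by norm_num)
  have hfm : StronglyMeasurable[FW W 1] f := by
    have h1 : Measurable[FW W 1] (W.P[(MW W).J h | FW W 1]) :=
      stronglyMeasurable_condExp.measurable
    have h2 : Measurable[FW W 1] f := Measurable.max (Measurable.neg h1) measurable_const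
    exact h2.stronglyMeasurable
  have hf2 : MemLp f 2 W.P := by
    refine MemLp.mono hE (hfm.mono (FW_le W 1)).aestronglyMeasurable (ae_of_all _ fun ω => ?_)
    simp only [hf, Real.norm_eq_abs]
    rcases le_total (-(W.P[(MW W).J h | FW W 1]) ω) 0 with h1 | h1
    · rw [max_eq_right h1]; simp
    · rw [max_eq_left h1, abs_neg]
  obtain ⟨z, hz⟩ := exists_J W hf2 hfm
  have hzK : z ∈ KW W := by
    rw [mem_KW]
    filter_upwards [hz] with ω h1
    rw [h1]; exact le_max_right _ _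
  have h1 := hd z hzK
  rw [← (MW W).inner] at h1
  have h2 : ∫ ω, (MW W).J z ω * (MW W).J h ω ∂W.P = -∫ ω, f ω ^ 2 ∂W.P := by
    rw [← integral_neg]
    refine integral_congr_ae ?_
    filter_upwards [hz, J_eq_cond W h] with ω h3 h4
    rw [h3, h4]
    simp only [hf]
    rcases le_total (-(W.P[(MW W).J h | FW W 1]) ω) 0 with h5 | h5
    · rw [max_eq_right h5]; ring
    · rw [max_eq_left h5]; ring
  rw [h2] at h1
  have h3 : ∫ ω, f ω ^ 2 ∂W.P = 0 :=
    le_antisymm (by linarith) (integral_nonneg fun _ => sq_nonneg _)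
  have h4 := (integral_eq_zero_iff_of_nonneg_ae (ae_of_all _ fun ω => sq_nonneg (f ω))
    hf2.integrable_sq).1 h3
  filter_upwards [h4, J_eq_cond W h] with ω h5 h6
  have h7 : f ω = 0 := by
    have : f ω ^ 2 = 0 := h5
    exact pow_eq_zero_iff (two_ne_zero) |>.1 this
  have h8 : -(W.P[(MW W).J h | FW W 1]) ω ≤ 0 := by
    have : -(W.P[(MW W).J h | FW W 1]) ω ≤ f ω := le_max_left _ _
    rwa [h7] at this
  show (0 : ℝ) ≤ (MW W).J h ω
  rw [h6]; linarith

/-- complementarity: `h ≥ 0` and `lam h = 0` a.e. -/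
theorem kkt_ae {αc : ℝ} (hα : 0 < αc) {x : HW W} {D : ℝ → ℝ}
    (h : IsJam (RW W) (KW W) (xiW W) αc x D) :
    (0 ≤ᵐ[W.P] (MW W).J (xiW W + (RW W).Dop D x)) ∧
    ∀ᵐ ω ∂W.P, (MW W).J x ω * (MW W).J (xiW W + (RW W).Dop D x) ω = 0 := by
  obtain ⟨h1, h2⟩ := kkt W hα h
  have h3 := nonneg_of_dual W h1
  refine ⟨h3, ?_⟩
  rw [← (MW W).inner] at h2
  have h4 : ∀ᵐ ω ∂W.P, 0 ≤ (MW W).J x ω * (MW W).J (xiW W + (RW W).Dop D x) ω := by
    filter_upwards [h3, (mem_KW W).1 h.xK] with ω h5 h6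
    exact mul_nonneg h6 h5
  have h5 := (integral_eq_zero_iff_of_nonneg_ae h4
    (int_mul ((MW W).memLp _) ((MW W).memLp _))).1 h2
  filter_upwards [h5] with ω h6
  exact h6

/-- **First field of `TipOut`**: `D 1 = 0` at jamming. -/
theorem D_one {αc : ℝ} (hα : 0 < αc) {x : HW W} {D : ℝ → ℝ}
    (h : IsJam (RW W) (KW W) (xiW W) αc x D) : D 1 = 0 := by
  have hB : IsPreBrownianReal W.B W.P := W.br.toIsPreBrownianReal
  have hp := h.adm.prof
  have hAdm := of_adm h.adm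
  have hDD : ∀ t ∈ Icc (0 : ℝ) 1, D t = DD (mOf D) (D 1) t := fun t ht =>
    eq_add_integral hp ht
  set lam : W.Ω → ℝ := W.P[(MW W).J x | FW W 1] with hlam
  have hx : (MW W).J x =ᵐ[W.P] lam := J_eq_cond W x
  have hJx := (MW W).memLp x
  have hl2 : MemLp lam 2 W.P := hJx.condExp (by norm_num)
  have hlm : StronglyMeasurable[FW W 1] lam := stronglyMeasurable_condExp
  have hK := (mem_KW W).1 h.xK
  have hl0 : 0 ≤ᵐ[W.P] lam := by
    filter_upwards [hx, hK] with ω h1 h2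
    rw [← h1]; exact h2
  have hξ : (MW W).J (xiW W) =ᵐ[W.P] fun ω => 1 + W.B 1 ω := DualG_256.modelB_xi W.meas W.br 1
  -- A
  set A : W.Ω → ℝ := fun ω => (MW W).J ((RW W).Dop D x) ω - D 1 * (MW W).J x ω with hA
  have hA2 : MemLp A 2 W.P := ((MW W).memLp _).sub (hJx.const_mul _)
  have hh : ∀ᵐ ω ∂W.P, 1 + NW W.B 1 ω + A ω + D 1 * lam ω
      = (MW W).J (xiW W + (RW W).Dop D x) ω := by
    filter_upwards [hx, hξ, (MW W).add (xiW W) ((RW W).Dop D x)] with ω h1 h2 h3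
    rw [h3, h2, ← h1]
    simp only [hA, NW, Real.toNNReal_one]
    ring
  obtain ⟨k1, k2⟩ := kkt_ae W hα h
  have hw : ∀ ψ : W.Ω → ℝ, MemLp ψ 2 W.P → ∫ ω, ψ ω * A ω ∂W.P
      = ∫ s in (0 : ℝ)..1, mOf D s * ∫ ω, ψ ω * (W.P[lam | FW W s]) ω ∂W.P := by
    intro ψ hψ
    obtain ⟨z, hz⟩ := exists_J W (hψ.condExp (m := FW W 1) (by norm_num))
      stronglyMeasurable_condExp
    have pair : ∀ w : HW W, ∫ ω, ψ ω * (MW W).J w ω ∂W.P = ⟪z, w⟫ := by
      intro w
      rw [pair_cond W w hψ, ← (MW W).inner]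
      refine integral_congr_ae ?_
      filter_upwards [hz] with ω h1
      rw [h1]
    have e1 : ∫ ω, ψ ω * A ω ∂W.P = ⟪z, (RW W).Dop D x⟫ - D 1 * ⟪z, x⟫ := by
      have e : ∀ ω, ψ ω * A ω = ψ ω * (MW W).J ((RW W).Dop D x) ω
          - D 1 * (ψ ω * (MW W).J x ω) := by
        intro ω; simp only [hA]; ring
      simp_rw [e]
      rw [integral_sub (int_mul hψ ((MW W).memLp _)) ((int_mul hψ hJx).const_mul _),
        integral_const_mul, pair, pair]
    rw [e1, (RW W).inner_Dop_eq_integral hp.cont (mOf_intervalIntegrable hp) hDD]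
    rw [add_sub_cancel_right]
    refine intervalIntegral.integral_congr fun s hs => ?_
    rw [uIcc_of_le zero_le_one] at hs
    show mOf D s * _ = mOf D s * _
    rw [← pair]
    congr 1
    refine integral_congr_ae ?_
    have h1 := (MW W).cond s hs x
    have h2 : W.P[(MW W).J x | FW W s] =ᵐ[W.P] W.P[lam | FW W s] := condExp_congr_ae hx
    filter_upwards [h1, h2] with ω h3 h4
    rw [h3, ← h4]; rfl
  have hE : 0 < ∫ ω, lam ω ∂W.P := by
    have h0 : 0 ≤ ∫ ω, lam ω ∂W.P := integral_nonneg_of_ae hl0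
    refine lt_of_le_of_ne h0 fun h1 => h.x0 ?_
    have h2 := (integral_eq_zero_iff_of_nonneg_ae hl0 (hl2.integrable (by norm_num))).1 h1.symm
    have h3 : ‖x‖ ^ 2 = 0 := by
      rw [← (MW W).norm_sq]
      have : ∫ ω, (MW W).J x ω ^ 2 ∂W.P = ∫ _, (0 : ℝ) ∂W.P := by
        refine integral_congr_ae ?_
        filter_upwards [hx, h2] with ω h4 h5
        rw [h4]
        have : lam ω = 0 := h5
        rw [this]; norm_num
      rw [this, integral_zero]
    have h4 : ‖x‖ = 0 := by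
      exact pow_eq_zero_iff (two_ne_zero) |>.1 h3
    exact norm_eq_zero.1 h4
  refine DZero_106.dzero (P := W.P) (F := NF W.B W.meas) (W := NW W.B) (lam := lam) (A := A)
    (m := mOf D) (d := D 1) (α := αc) hα (brown W.meas hB) hl2 hl0 hlm hAdm ?_ ?_ hA2 hw ?_ ?_ hE
  · rw [J0_eq W hx αc hp.cont (mOf_intervalIntegrable hp) hDD, h.zero]
  · refine HJ_of_one W.meas hB ?_
    intro lam' h1 h2 h3 m' d' h4
    obtain ⟨z, hz⟩ := exists_J W h1 h3
    have hzK : z ∈ KW W := by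
      rw [mem_KW]
      filter_upwards [hz, h2] with ω h5 h6
      rw [h5]; exact h6
    have h5 := adm_of h4
    rw [J0_eq W hz αc h5.prof.cont h4.int (fun t _ => rfl)]
    exact h.min z hzK _ h5
  · filter_upwards [hh, k1] with ω h1 h2
    rw [h1]; exact h2
  · filter_upwards [hh, k2, hx] with ω h1 h2 h3
    rw [h1, ← h3]; exact h2


end Crest.Agent.R146.DZeroW_106
end

-- ▼ part R146/StepPub_679
section

/-!
Row 146, package PT-STEP, leaf (L1) STEP-PUB of helper791 (helper679): the universal upper slope bound in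
the OLD clock.  If `(1-t) b ≤ 1` on `[0,T)` then `(1-t) P² ≤ 2 V (1-V)` on `[0,T]`
(`S = √(2v(1-v))` is a supersolution of the slope equation for every `0 ≤ ν ≤ 1`, and
`φ(z)² ≤ 2 Φ(z)(1-Φ(z))` at the start).  Corollaries: `(1-t) P² ≤ 1/2`, `Ns ≤ 1/(2(1-t))`.
-/

set_option autoImplicit false

namespace Crest.Agent.R146.StepPub_679

open MeasureTheory ProbabilityTheory Set Filter Topology
open Crest.Agent.R146.StepDef_791 Crest.Agent.R146.StepStart_483
open MaxP2_371 MaxPCmp_371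

noncomputable section

/-! ### the start inequality -/

theorem abs_mul_ph_le (z : ℝ) : |z| * ph z ≤ 1 / 2 := by
  rw [ph_eq]
  have h1 : |z| * Real.exp (-z ^ 2 / 2) ≤ 1 := by
    have h2 : |z| ≤ Real.exp (z ^ 2 / 2) := by
      have h3 := Real.add_one_le_exp (z ^ 2 / 2)
      have h4 : |z| ≤ z ^ 2 / 2 + 1 := by
        have h5 := sq_nonneg (|z| - 1)
        have h6 := sq_abs z
        nlinarith
      linarith
    have h7 : Real.exp (-z ^ 2 / 2) = (Real.exp (z ^ 2 / 2))⁻¹ := by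
      rw [← Real.exp_neg]; congr 1; ring
    rw [h7, mul_inv_le_iff₀ (Real.exp_pos _), one_mul]
    exact h2
  have h2 : (√(2 * Real.pi))⁻¹ ≤ 1 / 2 := by
    rw [one_div]
    apply inv_anti₀ (by norm_num)
    have h3 : (2:ℝ) = √(2 ^ 2) := by rw [Real.sqrt_sq (by norm_num)]
    rw [h3]
    apply Real.sqrt_le_sqrt
    nlinarith [Real.pi_gt_three, Real.sqrt_sq (show (0:ℝ) ≤ 2 by norm_num),
      Real.sqrt_nonneg (2 ^ 2 : ℝ)]
  have h3 : (0:ℝ) ≤ (√(2 * Real.pi))⁻¹ := by positivity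
  have h4 : 0 ≤ |z| * Real.exp (-z ^ 2 / 2) := by positivity
  calc |z| * ((√(2 * Real.pi))⁻¹ * Real.exp (-z ^ 2 / 2))
      = (√(2 * Real.pi))⁻¹ * (|z| * Real.exp (-z ^ 2 / 2)) := by ring
    _ ≤ 1 / 2 * 1 := mul_le_mul h2 h1 h4 (by norm_num)
    _ = 1 / 2 := by ring

theorem ph_sq_le_Phi {z : ℝ} (hz : z ≤ 0) : ph z ^ 2 ≤ Phi z := by
  have hd : ∀ y, HasDerivAt (fun y => Phi y - ph y ^ 2) (ph y * (1 + 2 * (y * ph y))) y := by
    intro y
    have h1 := (Phi_deriv y).sub ((ph_deriv y).pow 2)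
    refine h1.congr_deriv ?_
    simp only [Nat.cast_ofNat]
    ring
  have hlim : Tendsto (fun y => Phi y - ph y ^ 2) atBot (𝓝 0) := by
    have h1 := Phi_tendsto_atBot.sub (ph_tendsto_atBot.pow 2)
    simpa using h1
  have hmono : MonotoneOn (fun y => Phi y - ph y ^ 2) (Iic 0) := by
    apply monotoneOn_of_deriv_nonneg (convex_Iic 0)
    · exact fun y _ => (hd y).continuousAt.continuousWithinAt
    · exact fun y _ => (hd y).differentiableAt.differentiableWithinAt
    · intro y hy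
      rw [interior_Iic] at hy
      rw [(hd y).deriv]
      apply mul_nonneg (ph_pos y).le
      have h1 := abs_mul_ph_le y
      rw [abs_of_neg hy] at h1
      linarith
  have h2 : 0 ≤ Phi z - ph z ^ 2 := by
    apply le_of_tendsto hlim
    filter_upwards [eventually_le_atBot z] with y hy
    exact hmono (hy.trans hz) hz hy
  linarith

theorem Phi_le_half {z : ℝ} (hz : z ≤ 0) : Phi z ≤ 1 / 2 := by
  have h1 := Phi_neg z
  have h2 := Phi_strictMono.monotone (show z ≤ -z by linarith)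
  linarith

/-- `φ² ≤ 2 Φ (1-Φ)` -/
theorem ph_sq_le (z : ℝ) : ph z ^ 2 ≤ 2 * Phi z * (1 - Phi z) := by
  have key : ∀ y : ℝ, y ≤ 0 → ph y ^ 2 ≤ 2 * Phi y * (1 - Phi y) := by
    intro y hy
    have h1 := ph_sq_le_Phi hy
    have h2 := Phi_le_half hy
    have h3 := Phi_nonneg y
    nlinarith
  rcases le_total z 0 with h | h
  · exact key z h
  · have h1 := key (-z) (by linarith)
    rw [ph_neg, Phi_neg] at h1
    linarith

/-! ### the barrier `K = √(2v(1-v))` -/

def KS (v : ℝ) : ℝ := √(2 * v * (1 - v))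

theorem KS_arg_pos {v : ℝ} (hv : v ∈ Ioo (0:ℝ) 1) : 0 < 2 * v * (1 - v) := by
  have h1 := hv.1
  have h2 : 0 < 1 - v := by linarith [hv.2]
  positivity

theorem KS_pos {v : ℝ} (hv : v ∈ Ioo (0:ℝ) 1) : 0 < KS v := Real.sqrt_pos.2 (KS_arg_pos hv)

theorem KS_sq {v : ℝ} (hv : v ∈ Ioo (0:ℝ) 1) : KS v ^ 2 = 2 * v * (1 - v) :=
  Real.sq_sqrt (KS_arg_pos hv).le

theorem KS_deriv {v : ℝ} (hv : v ∈ Ioo (0:ℝ) 1) : HasDerivAt KS ((1 - 2 * v) / KS v) v := by
  have h1 : HasDerivAt (fun v : ℝ => 2 * v * (1 - v)) (2 * (1 - 2 * v)) v := by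
    have h2 := ((hasDerivAt_id v).const_mul 2).mul ((hasDerivAt_id v).const_sub 1)
    refine h2.congr_deriv ?_
    simp only [id]; ring
  have h3 := h1.sqrt (KS_arg_pos hv).ne'
  refine h3.congr_deriv ?_
  unfold KS
  have := (KS_pos hv).ne'
  unfold KS at this
  field_simp

theorem KS_deriv2 {v : ℝ} (hv : v ∈ Ioo (0:ℝ) 1) :
    HasDerivAt (fun v => (1 - 2 * v) / KS v) (-1 / KS v ^ 3) v := by
  have h1 : HasDerivAt (fun v : ℝ => 1 - 2 * v) (-2) v := by
    have h2 := ((hasDerivAt_id v).const_mul 2).const_sub 1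
    refine h2.congr_deriv ?_
    ring
  have h3 := h1.div (KS_deriv hv) (KS_pos hv).ne'
  refine h3.congr_deriv ?_
  have h4 := (KS_pos hv).ne'
  have h5 := KS_sq hv
  field_simp
  nlinarith

/-- **(L1) STEP-PUB** -/
theorem step_pub (A : SD) (hB : Back A) (h : ∀ t ∈ Ico 0 A.T, (1 - t) * A.b t ≤ 1) :
    ∀ t ∈ Icc 0 A.T, ∀ x, (1 - t) * A.P t x ^ 2 ≤ 2 * A.V t x * (1 - A.V t x) := by
  obtain ⟨M, hS⟩ := hB.bsys
  have hT1 := A.hT1
  have hpos : ∀ t ∈ Icc 0 A.T, 0 < 1 - t := fun t ht => by linarith [ht.2]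
  have key := hS.slope_le (g := fun t => (√(1 - t))⁻¹) (g' := fun t => (√(1 - t))⁻¹ ^ 3 / 2)
    (K := KS) (K' := fun v => (1 - 2 * v) / KS v) (K'' := fun v => -1 / KS v ^ 3)
    (fun t ht => ?_) (fun t ht => ?_) (fun t ht => ?_) (fun v hv => ?_) (fun v hv => (KS_pos hv).le)
    (fun v hv => KS_deriv hv) (fun v hv => HasSide.of_hasDerivAt (KS_deriv2 hv)) (fun v hv => ?_)
    (fun t ht v hv => ?_) (fun x => ?_)
  · intro t ht x
    have h1 := key t ht x
    have h2 := hpos t ht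
    have hv : A.V t x ∈ Ioo (0:ℝ) 1 := ⟨hS.V_pos t ht x, hS.V_lt t ht x⟩
    have h3 := KS_sq hv
    have h4 := hS.P_nonneg t ht x
    have hs := Real.sqrt_pos.2 h2
    have h5 : √(1 - t) * A.P t x ≤ KS (A.V t x) := by
      have h6 := mul_le_mul_of_nonneg_left h1 hs.le
      rwa [← mul_assoc, mul_inv_cancel₀ hs.ne', one_mul] at h6
    have h7 : (√(1 - t) * A.P t x) ^ 2 ≤ KS (A.V t x) ^ 2 :=
      pow_le_pow_left₀ (mul_nonneg hs.le h4) h5 2
    rw [mul_pow, Real.sq_sqrt h2.le, h3] at h7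
    exact h7
  · -- derivative of g
    have h2 := hpos t ⟨ht.1, ht.2.le⟩
    have hs := Real.sqrt_pos.2 h2
    have h3 : HasDerivAt (fun t : ℝ => 1 - t) (-1) t := by
      simpa using (hasDerivAt_id t).const_sub 1
    have h4 := (h3.sqrt h2.ne').inv hs.ne'
    refine (h4.congr_deriv ?_).hasDerivWithinAt
    field_simp
  · have h2 := hpos t ht
    have hs := Real.sqrt_pos.2 h2
    have hc : ContinuousAt (fun t : ℝ => √(1 - t)) t := by fun_prop
    exact (hc.inv₀ hs.ne').continuousWithinAt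
  · have h2 := hpos t ht
    positivity
  · exact (KS_deriv hv).continuousAt.continuousWithinAt
  · have := KS_pos hv
    rw [neg_div]
    have : 0 ≤ 1 / KS v ^ 3 := by positivity
    linarith
  · have htI : t ∈ Icc 0 A.T := ⟨ht.1, ht.2.le⟩
    have h2 := hpos t htI
    have hs := Real.sqrt_pos.2 h2
    have hk := KS_pos hv
    have hk2 := KS_sq hv
    set g := (√(1 - t))⁻¹ with hg
    have hgp : 0 < g := inv_pos.2 hs
    have hg2 : g ^ 2 * (1 - t) = 1 := by
      rw [hg, inv_pow, Real.sq_sqrt h2.le]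
      exact inv_mul_cancel₀ h2.ne'
    have hb0 := hS.b_nonneg t htI
    have hb : A.b t ≤ g ^ 2 := by
      have h6 := h t ht
      have h7 : g ^ 2 * ((1 - t) * A.b t) ≤ g ^ 2 * 1 :=
        mul_le_mul_of_nonneg_left h6 (by positivity)
      rw [← mul_assoc, hg2] at h7
      linarith
    have hv1 := hv.1
    have hv2 : 0 < 1 - v := by linarith [hv.2]
    have hvv : v * (1 - v) ≤ 1 / 4 := by nlinarith [sq_nonneg (v - 1 / 2)]
    have hvv0 : 0 < v * (1 - v) := by positivity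
    -- multiply by `KS v / g`
    have hE : g ^ 3 / 2 * KS v + g ^ 3 * (KS v ^ 2 * (-1 / KS v ^ 3)) / 2 +
        A.b t * g * (v * (1 - v) * ((1 - 2 * v) / KS v) - (2 - 3 * v) * KS v) =
        g / KS v * (g ^ 2 / 2 * (KS v ^ 2) - g ^ 2 / 2 +
          A.b t * (v * (1 - v) * (1 - 2 * v) - (2 - 3 * v) * KS v ^ 2)) := by
      field_simp
      ring
    rw [hE, hk2]
    apply mul_nonpos_of_nonneg_of_nonpos (by positivity)
    have h8 : g ^ 2 / 2 * (2 * v * (1 - v)) - g ^ 2 / 2 +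
        A.b t * (v * (1 - v) * (1 - 2 * v) - (2 - 3 * v) * (2 * v * (1 - v))) =
        g ^ 2 * (v * (1 - v) - 1 / 2) + A.b t * (v * (1 - v) * (4 * v - 3)) := by ring
    rw [h8]
    have h9 : A.b t * (v * (1 - v) * (4 * v - 3)) ≤ g ^ 2 * (v * (1 - v)) := by
      have h10 : v * (1 - v) * (4 * v - 3) ≤ v * (1 - v) := by nlinarith [hv.2]
      calc A.b t * (v * (1 - v) * (4 * v - 3)) ≤ A.b t * (v * (1 - v)) :=
            mul_le_mul_of_nonneg_left h10 hb0
        _ ≤ g ^ 2 * (v * (1 - v)) := mul_le_mul_of_nonneg_right hb hvv0.le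
    nlinarith [sq_nonneg g]
  · -- terminal
    have hx := hB.P_T x
    have hxv := hB.V_T x
    have hd := A.dl_pos
    have e1 : A.dl = 1 - A.T := rfl
    rw [hx, hxv]
    have e2 : (gaussianReal 0 1).real (Iic (x / √A.dl)) = Phi (x / √A.dl) := rfl
    rw [e2, ← e1, div_eq_inv_mul]
    have hs : 0 ≤ (√A.dl)⁻¹ := by positivity
    apply mul_le_mul_of_nonneg_left _ hs
    unfold KS
    apply Real.le_sqrt_of_sq_le
    exact ph_sq_le _



end

end Crest.Agent.R146.StepPub_679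
end

-- ▼ part R146/PtPos_45
section

/-!
Row 146 (S0205), PT (helper45): strict positivity of the charge.

* `pos_core`   : `L ≥ 0`, `F_t`-measurable, not a.e. `0`; `h ≥ 0`, `h ≥ 1 + B_1`  ⟹  `0 < E[L h]`;
* `P_ne_zero`  : in a Brownian model, `0 ≤ J x`, `x ≠ 0`  ⟹  `P_t x ≠ 0`;
* `charge_pos` : `0 < ⟪P_t (ξ + Dop D x), x⟫` for `t < 1`.
-/

set_option autoImplicit false

namespace Crest.Agent.R146.PtPos_45

open Set Filter Topology MeasureTheory ProbabilityTheory Crest.Agent.R146.Hilb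
open Crest.Agent.R146.Lev_576 Crest.Agent.R146.Lev2_576 Crest.ProbabilityR.Perceptron
open scoped RealInnerProductSpace NNReal ENNReal

variable {Ω : Type*} {mΩ : MeasurableSpace Ω} {P : Measure Ω} {B : ℝ≥0 → Ω → ℝ}

theorem gauss_Ici_pos {v : ℝ≥0} (hv : v ≠ 0) (a : ℝ) : 0 < gaussianReal 0 v (Ici a) := by
  rw [pos_iff_ne_zero]
  intro h
  have h1 := (gaussianReal_absolutelyContinuous' 0 hv) h
  rw [Real.volume_Ici] at h1
  exact ENNReal.top_ne_zero h1

theorem pos_core [IsProbabilityMeasure P] (hB : IsPreBrownianReal B P)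
    (hBm : ∀ t, Measurable (B t)) {t : ℝ≥0} (ht : t < 1) {L h : Ω → ℝ}
    (hL : Measurable[brownianFiltration B hBm t] L) (hL0 : 0 ≤ᵐ[P] L) (hLne : ¬ L =ᵐ[P] 0)
    (hh0 : 0 ≤ᵐ[P] h) (hh1 : ∀ᵐ ω ∂P, 1 + B 1 ω ≤ h ω)
    (hint : Integrable (fun ω => L ω * h ω) P) : 0 < ∫ ω, L ω * h ω ∂P := by
  have hnn : 0 ≤ᵐ[P] fun ω => L ω * h ω := by
    filter_upwards [hL0, hh0] with ω h1 h2 using mul_nonneg h1 h2
  refine lt_of_le_of_ne (integral_nonneg_of_ae hnn) ?_
  intro h0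
  have hz := (integral_eq_zero_iff_of_nonneg_ae hnn hint).1 h0.symm
  -- on `{L > 0}`, `1 + B_1 ≤ 0`
  have hbad : ∀ᵐ ω ∂P, 0 < L ω → 1 + B 1 ω ≤ 0 := by
    filter_upwards [hz, hh1] with ω h1 h2 h3
    have h4 : L ω * h ω = 0 := h1
    rcases mul_eq_zero.1 h4 with h5 | h5
    · exact absurd h5 h3.ne'
    · rw [h5] at h2; exact h2
  set A : ℕ → Set Ω := fun n => {ω | 0 < L ω} ∩ {ω | -(n:ℝ) < B t ω} with hA
  have hle : brownianFiltration B hBm t ≤ mΩ := (brownianFiltration B hBm).le t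
  have hBt : Measurable[brownianFiltration B hBm t] (B t) := by
    rw [measurable_iff_comap_le]
    change MeasurableSpace.comap (B t) _ ≤ ⨆ j ≤ t, MeasurableSpace.comap (B j) _
    exact le_iSup₂_of_le t le_rfl le_rfl
  have hAm : ∀ n, MeasurableSet[brownianFiltration B hBm t] (A n) := fun n =>
    (measurableSet_lt measurable_const hL).inter (measurableSet_lt measurable_const hBt)
  have hAz : ∀ n, P (A n) = 0 := by
    intro n
    set E : Set Ω := (fun ω => B 1 ω - B t ω) ⁻¹' Ici (n:ℝ) with hE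
    have hEm : MeasurableSet[MeasurableSpace.comap (fun ω => B 1 ω - B t ω) inferInstance] E :=
      ⟨Ici (n:ℝ), measurableSet_Ici, rfl⟩
    have hI := (Indep_iff _ _ P).1 (indep_past hB hBm ht.le) (A n) E (hAm n) hEm
    have hPE : P E ≠ 0 := by
      have h1 : P E = gaussianReal 0 (1 - t) (Ici (n:ℝ)) := by
        have hm : Measurable (fun ω => B 1 ω - B t ω) := (hBm 1).sub (hBm t)
        rw [← law_incr hB ht.le, Measure.map_apply hm measurableSet_Ici]
      rw [h1]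
      exact (gauss_Ici_pos (tsub_pos_of_lt ht).ne' _).ne'
    have hz2 : P (A n ∩ E) = 0 := by
      have h2 : ∀ᵐ ω ∂P, ω ∉ A n ∩ E := by
        filter_upwards [hbad] with ω h3 h4
        have h5 := h3 h4.1.1
        have h6 : -(n:ℝ) < B t ω := h4.1.2
        have h7 : (n:ℝ) ≤ B 1 ω - B t ω := h4.2
        linarith
      exact measure_eq_zero_iff_ae_notMem.2 h2
    rw [hz2] at hI
    rcases mul_eq_zero.1 hI.symm with h3 | h3
    · exact h3
    · exact absurd h3 hPE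
  have hU : P {ω | 0 < L ω} = 0 := by
    have h1 : {ω | 0 < L ω} ⊆ ⋃ n, A n := by
      intro ω hω
      obtain ⟨n, hn⟩ := exists_nat_gt (-(B t ω))
      exact mem_iUnion.2 ⟨n, hω, by show -(n:ℝ) < B t ω; linarith⟩
    exact measure_mono_null h1 (measure_iUnion_null hAz)
  apply hLne
  have h2 : ∀ᵐ ω ∂P, ω ∉ {ω | 0 < L ω} := measure_eq_zero_iff_ae_notMem.1 hU
  filter_upwards [hL0, h2] with ω h3 h4
  have h5 : ¬ 0 < L ω := h4
  exact le_antisymm (not_lt.1 h5) h3

section Mod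

variable {H : Type*} [NormedAddCommGroup H] [InnerProductSpace ℝ H] {R : Res H}
  {hBm : ∀ t, Measurable (B t)}

theorem P_nonneg [IsProbabilityMeasure P] (M : Model R P B hBm) {x : H} (hx : 0 ≤ᵐ[P] M.J x)
    {t : ℝ} (ht : t ∈ Icc (0:ℝ) 1) : 0 ≤ᵐ[P] M.J (R.P t x) := by
  have h1 : 0 ≤ᵐ[P] P[M.J x | brownianFiltration B hBm t.toNNReal] := condExp_nonneg hx
  filter_upwards [M.cond t ht x, h1] with ω h2 h3
  rw [h2]; exact h3

theorem int_pos [IsProbabilityMeasure P] (M : Model R P B hBm) {x : H} (hx : 0 ≤ᵐ[P] M.J x)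
    (hne : x ≠ 0) : 0 < ∫ ω, M.J x ω ∂P := by
  refine lt_of_le_of_ne (integral_nonneg_of_ae hx) ?_
  intro h0
  have hz := (integral_eq_zero_iff_of_nonneg_ae hx
    ((M.memLp x).integrable (by norm_num))).1 h0.symm
  have h1 := M.norm_sq x
  have h2 : ∫ ω, M.J x ω ^ 2 ∂P = 0 := by
    rw [integral_eq_zero_of_ae]
    filter_upwards [hz] with ω h3
    have h4 : M.J x ω = 0 := h3
    simp [h4]
  rw [h2] at h1
  exact hne (norm_eq_zero.1 (pow_eq_zero_iff two_ne_zero |>.1 h1.symm))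

theorem P_ae_ne [IsProbabilityMeasure P] (M : Model R P B hBm) {x : H} (hx : 0 ≤ᵐ[P] M.J x)
    (hne : x ≠ 0) {t : ℝ} (ht : t ∈ Icc (0:ℝ) 1) : ¬ M.J (R.P t x) =ᵐ[P] 0 := by
  intro h0
  have h1 := int_pos M hx hne
  have h2 : ∫ ω, M.J (R.P t x) ω ∂P = ∫ ω, M.J x ω ∂P := by
    rw [integral_congr_ae (M.cond t ht x)]
    exact integral_condExp ((brownianFiltration B hBm).le _)
  rw [integral_congr_ae h0] at h2
  simp at h2
  linarith


variable [CompleteSpace H]

/-- `J (ξ + Dop D x) ≥ 1 + B_1` -/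
theorem h_ge [IsProbabilityMeasure P] (M : Model R P B hBm) {ξ x : H}
    (hξ : M.J ξ =ᵐ[P] fun ω => 1 + B 1 ω) {D : ℝ → ℝ} (hD : ContinuousOn D (Icc 0 1))
    (ha : AntitoneOn D (Icc 0 1)) (h1 : 0 ≤ D 1) (hx : 0 ≤ᵐ[P] M.J x) :
    ∀ᵐ ω ∂P, 1 + B 1 ω ≤ M.J (ξ + R.Dop D x) ω := by
  have hK : R.Dop D x ∈ {z : H | 0 ≤ᵐ[P] M.J z} := by
    refine Dop_mem_cone R hD ha h1 M.isClosed_nonneg ?_ ?_ ?_ ?_ hx
    · have h2 := M.smul 0 (0:H)
      rw [zero_smul] at h2
      show 0 ≤ᵐ[P] M.J 0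
      filter_upwards [h2] with ω h3
      rw [h3]; simp
    · intro y hy z hz
      have hy' : 0 ≤ᵐ[P] M.J y := hy
      have hz' : 0 ≤ᵐ[P] M.J z := hz
      show 0 ≤ᵐ[P] M.J (y + z)
      filter_upwards [M.add y z, hy', hz'] with ω h2 h3 h4
      rw [h2]; exact add_nonneg h3 h4
    · intro c hc y hy
      have hy' : 0 ≤ᵐ[P] M.J y := hy
      show 0 ≤ᵐ[P] M.J (c • y)
      filter_upwards [M.smul c y, hy'] with ω h2 h3
      rw [h2]; exact mul_nonneg hc h3
    · intro t ht y hy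
      exact P_nonneg M hy ht
  have hK' : 0 ≤ᵐ[P] M.J (R.Dop D x) := hK
  filter_upwards [M.add ξ (R.Dop D x), hξ, hK'] with ω h2 h3 h4
  rw [h2, h3]
  have h5 : 0 ≤ M.J (R.Dop D x) ω := h4
  linarith

/-- strict positivity of the charge -/
theorem charge_pos [IsProbabilityMeasure P] (M : Model R P B hBm) (hB : IsPreBrownianReal B P)
    {ξ x : H} (hξ : M.J ξ =ᵐ[P] fun ω => 1 + B 1 ω) {D : ℝ → ℝ}
    (hD : ContinuousOn D (Icc 0 1)) (ha : AntitoneOn D (Icc 0 1)) (h1 : 0 ≤ D 1)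
    (hx : 0 ≤ᵐ[P] M.J x) (hne : x ≠ 0) (hh : 0 ≤ᵐ[P] M.J (ξ + R.Dop D x))
    {t : ℝ} (ht : t ∈ Ico (0:ℝ) 1) : 0 < ⟪R.P t (ξ + R.Dop D x), x⟫ := by
  have ht' : t ∈ Icc (0:ℝ) 1 := ⟨ht.1, ht.2.le⟩
  have htn : t.toNNReal < 1 := by
    rw [← NNReal.coe_lt_coe, Real.coe_toNNReal _ ht.1]; exact ht.2
  rw [R.symm, real_inner_comm, ← M.inner]
  set h := M.J (ξ + R.Dop D x) with hh'
  have hc := M.cond t ht' x
  have e1 : ∫ ω, M.J (R.P t x) ω * h ω ∂P =
      ∫ ω, (P[M.J x | brownianFiltration B hBm t.toNNReal]) ω * h ω ∂P := by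
    apply integral_congr_ae
    filter_upwards [hc] with ω h2
    rw [h2]
  rw [e1]
  refine pos_core hB hBm htn stronglyMeasurable_condExp.measurable ?_ ?_ hh
    (h_ge M hξ hD ha h1 hx) ?_
  · exact condExp_nonneg hx
  · intro h0
    exact P_ae_ne M hx hne ht' (hc.trans h0)
  · have h2 : MemLp (M.J (R.P t x)) 2 P := M.memLp _
    have h3 : Integrable (fun ω => M.J (R.P t x) ω * h ω) P :=
      MemLp.integrable_mul (p := 2) (q := 2) h2 (M.memLp _)
    refine h3.congr ?_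
    filter_upwards [hc] with ω h4
    rw [h4]

end Mod

end Crest.Agent.R146.PtPos_45
end

-- ▼ part R146/PtEdge_791
section

/-!
Row 146: LAST EDGE of PT (helper791): `PLAW → START → Bridge → NOGAP → PTMAIN → TIPW W`.
-/

set_option autoImplicit false

namespace Crest.Agent.R146.PtEdge_791

open MeasureTheory ProbabilityTheory Set Filter Topology
open Crest.Agent.R146.StepDef_791 Crest.Agent.R146.TipSeq_791 Crest.Agent.R146.StepAsm_791
open Crest.Agent.R146.PtHlim_45 Crest.Agent.R146.PtScalC_45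
open Crest.Agent.R146.Hilb Crest.Agent.R146.HilbE Crest.Agent.R146.HilbD
open Crest.Agent.R146.JamIface_776 Crest.Agent.R146.P5Def_12 Crest.Agent.R146.P34_734
open Crest.Agent.R146.ProfB_540
open scoped RealInnerProductSpace

noncomputable section

theorem pub : PUB := fun A h => StepPub_679.step_pub A (Back_847.back A) h

section

variable {H : Type*} [NormedAddCommGroup H] [InnerProductSpace ℝ H] [CompleteSpace H]
  {R : Res H} {K : Set H} {ξ x : H} {α : ℝ} {D : ℝ → ℝ}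

theorem jam_isMin (h : IsJam R K ξ α x D) : IsMin R α 0 0 ξ K x D where
  mem := h.xK
  adm := h.adm
  le := fun y hy D' hD' => by rw [h.zero]; exact h.min y hy D' hD'

theorem jam_kkt (hα : 0 < α) (hK : IsCone K) (h : IsJam R K ξ α x D) : Kkt R K ξ D x := by
  obtain ⟨h1, h2⟩ := (jam_isMin h).kkt_x R hα hK
  have e : hvec R 0 ξ D x = ξ + R.Dop D x := by unfold hvec; simp
  rw [e] at h2
  exact ⟨h.xK, fun y hy => by have := h1 y hy; rwa [e] at this, h2⟩

theorem jam_kktD (h : IsJam R K ξ α x D) : KKTD R α x D := by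
  intro D' h1 h2 h3 h4 h5 h6
  have hadm : Adm 0 D' :=
    { prof := { conc := h1, anti := h2, cont := h3, pos := h4, one := h5 }
      cap := fun t ht => by rw [zero_mul]; linarith [ht.2]
      int := by
        have e : entF 0 D' = fun t => 1 / D' t := by funext t; simp only [entF, zero_div, sub_zero]
        rw [e]; exact h6 }
  refine kkt_D R x h.adm hadm fun E hE => ?_
  have h7 := (jam_isMin h).le x h.xK E hE
  rw [Je_eq_Gd, Je_eq_Gd] at h7
  linarith

end

/-- `1 ↦` the Brownian instance -/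
theorem tipw (W : BS) (hlaw : PLAW) (hst : START) (hbr : Bridge (RW W) (KW W) (xiW W))
    (hng : NOGAP) (hmain : PTMAIN) : TIPW W := by
  intro αc hα x D h
  have hK : IsCone (KW W) := DZeroW_106.isCone_KW W
  have hk := jam_kkt hα hK h
  have hD1 := DZeroW_106.D_one W hα h
  have hp := h.adm.prof
  have hint : IntervalIntegrable (fun t => 1 / D t) volume 0 1 := by
    have := h.adm.int
    have e : entF 0 D = fun t => 1 / D t := by funext t; simp only [entF, zero_div, sub_zero]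
    rwa [e] at this
  have hcp : ∀ t ∈ Ico (0 : ℝ) 1, 0 < ⟪(RW W).P t (xiW W + (RW W).Dop D x), x⟫ := by
    intro t ht
    exact PtPos_45.charge_pos (MW W) W.br.toIsPreBrownianReal
      (DualG_256.modelB_xi W.meas W.br 1) hp.cont hp.anti hp.one
      ((DZeroW_106.mem_KW W).1 h.xK) h.x0 (DZeroW_106.kkt_ae W hα h).1 ht
  obtain ⟨P, hP, τ, hc⟩ := tipSeq_of hα hk (jam_kktD h) hp.conc hp.anti hp.cont hD1 hp.pos hint
    hcp Back_847.back hlaw hst pub hbr hng
  obtain ⟨ν, h1, h2, h3⟩ := hmain P τ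
  refine ⟨ν, hD1, ⟨τ.c0, τ.hc0, τ.t1, τ.ht1, hc⟩, ?_, h2, h3⟩
  refine h1.congr' ?_
  filter_upwards [Ioo_mem_nhdsLT (zero_lt_one' ℝ)] with t ht
  rw [hP t (Ioo_subset_Icc_self ht)]

end

end Crest.Agent.R146.PtEdge_791
end

-- ▼ part R146/TipW_131

/-!
Row 146 (S0205), package PT: LAST EDGE (helper131, PM-C).  The tip theorem `P5Def_12.TIPW W` at the
literal Brownian instance from the open nodes
`PLAW` (534), `START` (384), `Bridge` (256), `NOGAP` (546), `PTMAIN` (T1, T2, CLOSED, REFC through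
52/164).  Version 2: = `PtEdge_791.tipw`.
-/

set_option autoImplicit false

namespace Crest.Agent.R146.TipW_131

open Crest.Agent.R146.P34_734 Crest.Agent.R146.P5Def_12
open Crest.Agent.R146.TipSeq_791 Crest.Agent.R146.StepAsm_791
open Crest.Agent.R146.PtHlim_45 Crest.Agent.R146.PtScalC_45

/-- **TIPW** from the open nodes of PT. -/
theorem tipw_of (W : BS) (hlaw : PLAW) (hst : START)
    (hbr : Bridge (RW W) (KW W) (xiW W)) (hng : NOGAP) (hmain : PTMAIN) : TIPW W :=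
  PtEdge_791.tipw W hlaw hst hbr hng hmain

end Crest.Agent.R146.TipW_131
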