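import Crest.Agent.R146.PD_534
import Crest.Agent.R146.TiltA_534
import Crest.Agent.R146.FlatStep_384
import Crest.Agent.R146.Back_847
import Crest.Agent.R146.StepAsm_791
import Crest.Agent.R146.PtRefIf_847
import Crest.Agent.R146.StepClk_900
import Crest.Agent.R146.WinTail_746
import Crest.Agent.R146.PtTipC_52
import Crest.Agent.R146.Band_371
import Crest.Agent.R146.PtRef_846
import Crest.Agent.R146.YWRef_177

-- ▼ part R146/PLaw_791
section

/-!
Row 146, package PT-STEP (helper791): the slope of the explicit density `pd A x0` of `Cell_534`.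

* `first_cell` : `Y = (x - x0)/t - bl u` on the first cell;
* `yst` : `(x - x0)/t - bl u ≤ Y` at all times for nondecreasing weights.
-/

set_option autoImplicit false

namespace Crest.Agent.R146.PLaw_791

open MeasureTheory ProbabilityTheory Filter Topology Set
open Crest.Agent.R146.Hg_534 Crest.Agent.R146.PB_534 Crest.Agent.R146.GG_534 Crest.Agent.R146.SG_534
open Crest.Agent.R146.StepDef_791 Crest.Agent.R146.Cell_534 Crest.Agent.R146.PD_534

noncomputable section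

/-- comparison of the logarithmic slope with the Gaussian slope is preserved by the heat flow -/
theorem H_slope {κ a s x0 : ℝ} {q : ℝ → ℝ} (hκ : 0 ≤ κ) (hq : SG κ q) (hs : 0 ≤ s)
    (hk : κ * Real.sqrt s ^ 2 < 1) (h : ∀ y, a * deriv q y ≤ -(y - x0) * q y) (x : ℝ) :
    (a + s) * deriv (H (Real.sqrt s) q) x ≤ -(x - x0) * H (Real.sqrt s) q x := by
  have h1 : GG κ (fun y => a * deriv q y) := hq.deriv.gg.const_mul a
  have h2 : GG κ (fun y => -(y - x0) * q y) := by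
    have h3 : PG (fun y : ℝ => -(y - x0)) := ((Sm.id.sub_const x0).neg).pg
    exact GG.pg_mul h3 hq.gg
  have h3 := H_mono hκ h1 h2 h hk x
  have h4 : H (Real.sqrt s) (fun y => a * deriv q y) x = a * H (Real.sqrt s) (deriv q) x := by
    unfold H
    rw [integral_const_mul]
  have h5 : H (Real.sqrt s) (fun y => -(y - x0) * q y) x =
      -(x - x0) * H (Real.sqrt s) q x - s * H (Real.sqrt s) (deriv q) x := by
    have h6 := stein hκ hq.gg hq.deriv.gg hq.hd hk x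
    have h7 : H (Real.sqrt s) (fun y => -(y - x0) * q y) x =
        ∫ g, (-(x - x0) * q (x + Real.sqrt s * g) -
          Real.sqrt s * (g * q (x + Real.sqrt s * g))) ∂gaussianReal 0 1 := by
      unfold H
      refine integral_congr_ae (Eventually.of_forall fun g => ?_)
      show -(x + Real.sqrt s * g - x0) * q (x + Real.sqrt s * g) = _
      ring
    rw [h7, integral_sub ((hq.gg.int hκ hk x).const_mul _) ((hq.gg.int_mul hκ hk x).const_mul _),
      integral_const_mul, integral_const_mul, h6]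
    unfold H
    rw [← mul_assoc, Real.mul_self_sqrt hs]
  rw [deriv_H hκ hq hk]
  rw [h4, h5] at h3
  linarith

theorem gauss_deriv {x0 t : ℝ} (ht : 0 < t) (x : ℝ) :
    HasDerivAt (gaussianPDFReal x0 (Real.toNNReal t))
      (-(x - x0) / t * gaussianPDFReal x0 (Real.toNNReal t) x) x := by
  unfold gaussianPDFReal
  have hc : ((Real.toNNReal t : NNReal) : ℝ) = t := Real.coe_toNNReal t ht.le
  rw [hc]
  have h1 : HasDerivAt (fun y : ℝ => (y - x0) ^ 2) (2 * (x - x0)) x := by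
    have := ((hasDerivAt_id' x).sub_const x0).fun_pow 2
    simpa using this
  have h2 : HasDerivAt (fun y : ℝ => -(y - x0) ^ 2 / (2 * t)) (-(x - x0) / t) x := by
    have h3 := (h1.fun_neg).div_const (2 * t)
    refine h3.congr_deriv ?_
    field_simp
  have h4 := (h2.exp).const_mul ((Real.sqrt (2 * Real.pi * t))⁻¹)
  refine h4.congr_deriv ?_
  ring

section

variable {A : SD} {x0 : ℝ}

/-- first cell -/
theorem deriv_zero (hB : Back A) {a b z : ℝ} (hc : IsCell A a b z) (hp : PCell A x0 a b z)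
    (ha : a = 0) {t : ℝ} (ht : t ∈ Ioc a b) (x : ℝ) :
    HasDerivAt (pd A x0 t) ((-(x - x0) / t + A.bl t * A.u t x) * pd A x0 t x) x := by
  have ht0 : 0 < t := by rw [← ha]; exact ht.1
  have htI : t ∈ Icc a b := Ioc_subset_Icc_self ht
  have e : pd A x0 t = fun y => Gz A z t y *
      (gaussianPDFReal x0 (Real.toNNReal t) y / Gz A z 0 x0) := funext fun y => hp.zero ha t ht y
  have h1 := (Gz_x hB z (hc.mem htI) x).mul ((gauss_deriv (x0 := x0) ht0 x).div_const (Gz A z 0 x0))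
  rw [e]
  refine HasDerivAt.congr_deriv (f := fun y => Gz A z t y *
      (gaussianPDFReal x0 (Real.toNNReal t) y / Gz A z 0 x0)) h1 ?_
  unfold SD.bl
  rw [hc.ml_eq t ht]
  ring

/-- other cells -/
theorem deriv_pos (hB : Back A) {a b z : ℝ} (hc : IsCell A a b z) (hp : PCell A x0 a b z)
    (ha : 0 < a) {t : ℝ} (ht : t ∈ Ioc a b) (x : ℝ) :
    HasDerivAt (pd A x0 t) (A.bl t * A.u t x * pd A x0 t x +
      Gz A z t x * deriv (H (Real.sqrt (t - a)) (qa A x0 z a)) x) x := by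
  have htI : t ∈ Icc a b := Ioc_subset_Icc_self ht
  have hq := qa_sg (z := z) hB hc (pd_sg hB x0 a ⟨ha, (hc.mem hc.aI).2⟩).1
  have hk := kappa_lt hc htI
  have e : pd A x0 t = fun y => Gz A z t y * H (Real.sqrt (t - a)) (qa A x0 z a) y :=
    funext fun y => hp.pos ha t ht y
  have h1 := (Gz_x hB z (hc.mem htI) x).mul
    (H_deriv_x (kappa_nonneg hc) hq.gg hq.deriv.gg hq.hd hk x)
  rw [e, deriv_H (kappa_nonneg hc) hq hk]
  refine HasDerivAt.congr_deriv (f := fun y => Gz A z t y *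
    H (Real.sqrt (t - a)) (qa A x0 z a) y) h1 ?_
  unfold SD.bl
  rw [hc.ml_eq t ht]
  ring

theorem slope_up (hB : Back A)
    (hm : ∀ x y, 0 ≤ x → x ≤ y → y < A.T → A.m x ≤ A.m y) :
    ∀ t ∈ Ioc 0 A.T, ∀ x,
      t * deriv (pd A x0 t) x ≤ (-(x - x0) + t * (A.bl t * A.u t x)) * pd A x0 t x := by
  refine cells_induct A x0 (fun s => ∀ t ∈ Ioc 0 s, ∀ x,
      t * deriv (pd A x0 t) x ≤ (-(x - x0) + t * (A.bl t * A.u t x)) * pd A x0 t x) ?_ ?_
  · intro t ht
    exact absurd ht.1 (not_lt.2 ht.2)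
  · intro a b z hc hp ih t ht x
    rcases le_or_gt t a with h | h
    · exact ih t ⟨ht.1, h⟩ x
    have htc : t ∈ Ioc a b := ⟨h, ht.2⟩
    have htI : t ∈ Icc a b := ⟨h.le, ht.2⟩
    rcases eq_or_lt_of_le hc.a0 with h0 | h0
    · rw [(deriv_zero hB hc hp h0.symm htc x).deriv]
      have := ht.1.ne'
      refine le_of_eq ?_
      field_simp
    · have haT : a ∈ Ioc 0 A.T := ⟨h0, (hc.mem hc.aI).2⟩
      have hq := qa_sg (z := z) hB hc (pd_sg hB x0 a haT).1
      have hk := kappa_lt hc htI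
      -- weights
      have hw : A.bl a ≤ z / A.D a := by
        obtain ⟨a', b', z', hc', -, ha'⟩ := exists_cell_l A x0 a haT
        unfold SD.bl
        rw [hc'.ml_eq a ha']
        have h1 := hm a' a hc'.a0 ha'.1.le (h.trans_le (ht.2.trans hc.bT))
        rw [hc'.m_eq a' ⟨le_rfl, hc'.ab⟩, hc.m_eq a ⟨le_rfl, hc.ab⟩] at h1
        exact div_le_div_of_nonneg_right h1 (A.D_pos a).le
      have h1 : ∀ y, a * deriv (qa A x0 z a) y ≤ -(y - x0) * qa A x0 z a y := by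
        intro y
        have hpd := (pd_sg hB x0 a haT).1.hd y
        have hG := Gz_x hB z (hc.mem hc.aI) y
        have hGp := Gz_pos A z a y
        have h2 : HasDerivAt (qa A x0 z a) ((deriv (pd A x0 a) y * Gz A z a y -
            pd A x0 a y * (z / A.D a * A.u a y * Gz A z a y)) / Gz A z a y ^ 2) y :=
          hpd.div hG hGp.ne'
        rw [h2.deriv]
        have h3 := ih a ⟨h0, le_rfl⟩ y
        have hpp := (pd_sg hB x0 a haT).2 y
        have hu := hB.u_pos a (hc.mem hc.aI) y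
        have h4 : a * (A.bl a * A.u a y) * pd A x0 a y ≤
            a * (z / A.D a * A.u a y) * pd A x0 a y := by gcongr
        have e1 : a * ((deriv (pd A x0 a) y * Gz A z a y -
            pd A x0 a y * (z / A.D a * A.u a y * Gz A z a y)) / Gz A z a y ^ 2) =
            (a * deriv (pd A x0 a) y - a * (z / A.D a * A.u a y) * pd A x0 a y) / Gz A z a y := by
          field_simp
        have e2 : -(y - x0) * qa A x0 z a y = (-(y - x0) * pd A x0 a y) / Gz A z a y := by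
          unfold qa
          ring
        rw [e1, e2]
        refine div_le_div_of_nonneg_right ?_ hGp.le
        linarith
      have h5 := H_slope (x0 := x0) (kappa_nonneg hc) hq (by linarith : (0:ℝ) ≤ t - a) hk h1 x
      have h6 : a + (t - a) = t := by ring
      rw [h6] at h5
      have e : pd A x0 t x = Gz A z t x * H (Real.sqrt (t - a)) (qa A x0 z a) x :=
        hp.pos h0 t htc x
      rw [(deriv_pos hB hc hp h0 htc x).deriv]
      have h7 := mul_le_mul_of_nonneg_left h5 (Gz_pos A z t x).le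
      rw [e]
      linarith

variable {Y Yx Yxx : ℝ → ℝ → ℝ}

theorem yst (hB : Back A) (hL : Law A x0 (pd A x0) Y Yx Yxx)
    (hm : ∀ x y, 0 ≤ x → x ≤ y → y < A.T → A.m x ≤ A.m y) :
    ∀ t ∈ Ioc 0 A.T, ∀ x, (x - x0) / t - A.bl t * A.u t x ≤ Y t x := by
  intro t ht x
  have h1 := slope_up (x0 := x0) hB hm t ht x
  rw [(hL.p_x t ht x).deriv] at h1
  have hp := hL.p_pos t ht x
  have h2 : t * -Y t x ≤ -(x - x0) + t * (A.bl t * A.u t x) := by
    refine le_of_mul_le_mul_right ?_ hp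
    linarith
  have h3 : (x - x0) / t ≤ Y t x + A.bl t * A.u t x := by
    rw [div_le_iff₀ ht.1]
    linarith
  linarith

theorem first_cell (hB : Back A) (hL : Law A x0 (pd A x0) Y Yx Yxx) :
    ∃ s1 ∈ Ioc 0 A.T, ∀ t ∈ Ioc 0 s1, ∀ x, Y t x = (x - x0) / t - A.bl t * A.u t x := by
  obtain ⟨a, b, z, hc, hp, h0⟩ := exists_cell_r A x0 0 ⟨le_rfl, A.hT0⟩
  have ha : a = 0 := le_antisymm h0.1 hc.a0
  refine ⟨b, ⟨h0.2, hc.bT⟩, fun t ht x => ?_⟩
  have h1 := (deriv_zero hB hc hp ha ⟨by rw [ha]; exact ht.1, ht.2⟩ x).unique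
    (hL.p_x t ⟨ht.1, ht.2.trans hc.bT⟩ x)
  have hp := hL.p_pos t ⟨ht.1, ht.2.trans hc.bT⟩ x
  have h2 := mul_right_cancel₀ hp.ne' h1
  have h3 : -(x - x0) / t = -((x - x0) / t) := by ring
  rw [h3] at h2
  linarith

end

end

end Crest.Agent.R146.PLaw_791
end

-- ▼ part R146/LawA_534
section

/-!
Row 146 (PT-STEP, helper534): the expectation identities of `Law`: continuity, right and left
derivatives for test functions; mass and moments.
-/

set_option autoImplicit false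

namespace Crest.Agent.R146.LawA_534

open MeasureTheory ProbabilityTheory Filter Topology Set
open Crest.ProbabilityR.InvariantGlass
open Crest.Agent.R146.Hg_534 Crest.Agent.R146.PB_534 Crest.Agent.R146.GG_534 Crest.Agent.R146.SG_534
open Crest.Agent.R146.StepDef_791 Crest.Agent.R146.Cell_534 Crest.Agent.R146.TiltA_534
open Crest.Agent.R146.TiltB_534 Crest.Agent.R146.TiltC_534 Crest.Agent.R146.PD_534

noncomputable section

/-- continuity on `[0,T]` from continuity on the cells -/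
theorem glue {X : Type*} [TopologicalSpace X] {A : SD} {x0 : ℝ} (f : ℝ → X)
    (h : ∀ a b z, IsCell A a b z → PCell A x0 a b z → ContinuousOn f (Icc a b)) :
    ContinuousOn f (Icc 0 A.T) := by
  refine cells_induct A x0 (fun s => ContinuousOn f (Icc 0 s)) ?_ ?_
  · rw [Icc_self]
    exact continuousOn_singleton f 0
  · intro a b z hc hp ih
    have e : Icc 0 b = Icc 0 a ∪ Icc a b := (Icc_union_Icc_eq_Icc hc.a0 hc.ab.le).symm
    rw [e]
    exact ih.union_of_isClosed (h a b z hc hp) isClosed_Icc isClosed_Icc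

/-- continuity on a strip `[ε,T] × Y` from continuity on the cells -/
theorem glue2 {X Y : Type*} [TopologicalSpace X] [TopologicalSpace Y] {A : SD} {x0 : ℝ}
    (f : ℝ × Y → X) {ε : ℝ} (hε : 0 < ε)
    (h : ∀ a b z, IsCell A a b z → PCell A x0 a b z →
      ContinuousOn f (Icc (max a ε) b ×ˢ univ)) :
    ContinuousOn f (Icc ε A.T ×ˢ univ) := by
  refine cells_induct A x0 (fun s => ContinuousOn f (Icc ε s ×ˢ univ)) ?_ ?_
  · rw [Icc_eq_empty (not_le.2 hε), empty_prod]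
    exact continuousOn_empty f
  · intro a b z hc hp ih
    rcases le_or_gt ε a with h1 | h1
    · have e : Icc ε b ×ˢ (univ : Set Y) = Icc ε a ×ˢ univ ∪ Icc a b ×ˢ univ := by
        rw [← union_prod, Icc_union_Icc_eq_Icc h1 hc.ab.le]
      rw [e]
      have h2 := h a b z hc hp
      rw [max_eq_left h1] at h2
      exact ih.union_of_isClosed h2 (isClosed_Icc.prod isClosed_univ)
        (isClosed_Icc.prod isClosed_univ)
    · have h2 := h a b z hc hp
      rwa [max_eq_right h1.le] at h2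

section test

variable {A : SD} {x0 : ℝ} {F Fr Fl Fx Fxx : ℝ → ℝ → ℝ}

theorem Test_F (hT : Test A F Fr Fl Fx Fxx) {t : ℝ} (ht : t ∈ Icc 0 A.T) : PG (F t) := by
  obtain ⟨C, n, hC, h⟩ := hT.growth
  exact ⟨continuous_iff_continuousAt.2 fun x => (hT.hx t ht x).continuousAt, C, n, hC,
    fun x => (h t ht x).1⟩

theorem Test_Fx (hT : Test A F Fr Fl Fx Fxx) {t : ℝ} (ht : t ∈ Icc 0 A.T) : PG (Fx t) := by
  obtain ⟨C, n, hC, h⟩ := hT.growth
  exact ⟨continuous_iff_continuousAt.2 fun x => (hT.hxx t ht x).continuousAt, C, n, hC,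
    fun x => (h t ht x).2.2.2.1⟩

theorem Test_Fxx (hT : Test A F Fr Fl Fx Fxx) {t : ℝ} (ht : t ∈ Icc 0 A.T) : PG (Fxx t) := by
  obtain ⟨C, n, hC, h⟩ := hT.growth
  refine ⟨?_, C, n, hC, fun x => (h t ht x).2.2.2.2⟩
  have h2 : Continuous (fun y : ℝ => ((t, y) : ℝ × ℝ)) := by fun_prop
  exact continuousOn_univ.1 (hT.cxx.comp h2.continuousOn (fun y _ => ⟨ht, mem_univ _⟩))

theorem Test_cF (hT : Test A F Fr Fl Fx Fxx) {s t : ℝ} (hs : 0 ≤ s) (ht : t ≤ A.T) (y : ℝ) :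
    ContinuousOn (fun τ => F τ y) (Icc s t) := by
  have h2 : Continuous (fun τ : ℝ => ((τ, y) : ℝ × ℝ)) := by fun_prop
  exact hT.cF.comp h2.continuousOn (fun τ hτ => ⟨⟨hs.trans hτ.1, hτ.2.trans ht⟩, mem_univ _⟩)

theorem Test_Fr (hT : Test A F Fr Fl Fx Fxx) {t : ℝ} (ht : t ∈ Ico 0 A.T) : Continuous (Fr t) := by
  rw [continuous_iff_continuousAt]
  intro y
  have h1 := hT.cr t ht y
  have h2 : ContinuousWithinAt (fun y : ℝ => ((t, y) : ℝ × ℝ)) univ y := by fun_prop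
  have h3 := ContinuousWithinAt.comp (x := y) (f := fun y : ℝ => ((t, y) : ℝ × ℝ))
    (g := fun q : ℝ × ℝ => Fr q.1 q.2) h1 h2 (fun y _ => ⟨mem_Ici.2 le_rfl, mem_univ _⟩)
  exact continuousWithinAt_univ _ _ |>.1 h3

theorem Test_Fl (hT : Test A F Fr Fl Fx Fxx) {t : ℝ} (ht : t ∈ Ioc 0 A.T) : Continuous (Fl t) := by
  rw [continuous_iff_continuousAt]
  intro y
  have h1 := hT.cl t ht y
  have h2 : ContinuousWithinAt (fun y : ℝ => ((t, y) : ℝ × ℝ)) univ y := by fun_prop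
  have h3 := ContinuousWithinAt.comp (x := y) (f := fun y : ℝ => ((t, y) : ℝ × ℝ))
    (g := fun q : ℝ × ℝ => Fl q.1 q.2) h1 h2 (fun y _ => ⟨mem_Iic.2 le_rfl, mem_univ _⟩)
  exact continuousWithinAt_univ _ _ |>.1 h3

theorem ex_cont (hB : Back A) (x0 : ℝ) (hT : Test A F Fr Fl Fx Fxx) :
    ContinuousOn (fun t => ex x0 (pd A x0) t (F t)) (Icc 0 A.T) := by
  refine glue (x0 := x0) _ fun a b z hc hp => ?_
  obtain ⟨hpr, hm⟩ := muA_mom hB x0 a (hc.mem hc.aI)
  obtain ⟨C, n, hC, h⟩ := hT.growth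
  have h1 : ContinuousOn (fun t => ev A z a (muA A x0 a) t (F t)) (Icc a b) := by
    intro s0 hs0
    refine ev_cont hB hc hm (Subset.refl _) hs0 hC (fun s hs => (Test_F hT (hc.mem hs)).cont)
      (fun y => ?_) (fun s hs y => (h s (hc.mem hs) y).1)
    exact (hT.cF (s0, y) ⟨hc.mem hs0, mem_univ _⟩).mono
      (prod_mono (fun s hs => hc.mem hs) (Subset.refl _))
  exact h1.congr fun t ht => base hB hc hp ht (Test_F hT (hc.mem ht))

theorem ex_fix_cont (hB : Back A) (x0 : ℝ) {φ : ℝ → ℝ} (hφ : PG φ) :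
    ContinuousOn (fun t => ex x0 (pd A x0) t φ) (Icc 0 A.T) := by
  refine glue (x0 := x0) _ fun a b z hc hp => ?_
  obtain ⟨hpr, hm⟩ := muA_mom hB x0 a (hc.mem hc.aI)
  exact (ev_fix_cont hB hc hm hφ).congr fun t ht => base hB hc hp ht hφ

theorem ex_r (hB : Back A) (x0 : ℝ) (hT : Test A F Fr Fl Fx Fxx) {t : ℝ} (ht : t ∈ Ico 0 A.T) :
    HasDerivWithinAt (fun s => ex x0 (pd A x0) s (F s))
      (ex x0 (pd A x0) t (fun x => Fr t x + Fxx t x / 2 + A.b t * A.u t x * Fx t x)) (Ici t) t := by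
  obtain ⟨a, b, z, hc, hp, hm⟩ := exists_cell_r A x0 t ht
  obtain ⟨hpr, hmom⟩ := muA_mom hB x0 a (hc.mem hc.aI)
  obtain ⟨C, n, hC, h⟩ := hT.growth
  have htI : t ∈ Icc a b := ⟨hm.1, hm.2.le⟩
  have htT := hc.mem htI
  have hsub : Icc t b ⊆ Icc a b := Icc_subset_Icc hm.1 le_rfl
  obtain ⟨q1, q2⟩ := dq_right (F := F) (Fr := Fr) (s0 := t) (t1 := b) (C := C) (n := n) hm.2
    (fun y => Test_cF hT ht.1 hc.bT y)
    (fun τ hτ y => hT.hr τ ⟨ht.1.trans hτ.1, hτ.2.trans_le hc.bT⟩ y)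
    (fun y => hT.cr t ht y)
    (fun τ hτ y => (h τ ⟨ht.1.trans hτ.1, hτ.2.le.trans hc.bT⟩ y).2.1)
  have h1 := ev_time hB hc hmom hsub ⟨le_rfl, hm.2.le⟩
    (fun s hs => Test_F hT (hc.mem (hsub hs))) (Test_Fr hT ht) (Test_Fx hT htT) (Test_Fxx hT htT)
    (hT.hx t htT) (hT.hxx t htT) hC q1 q2
  have hb : z / A.D t = A.b t := by
    unfold SD.b
    rw [hc.m_eq t hm]
  have hgen : PG (fun x => Fr t x + Fxx t x / 2 + z / A.D t * A.u t x * Fx t x) := by
    have g1 := gen_pg hB hc (Test_Fx hT htT) (Test_Fxx hT htT) htI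
    have g2 : PG (Fr t) := ⟨Test_Fr hT ht, C, n, hC, fun y => (h t htT y).2.1⟩
    refine (congrArg PG ?_).mp (g2.add g1)
    funext x
    ring
  rw [← hb, base hB hc hp htI hgen]
  have h2 := h1.congr (fun s hs => base hB hc hp (hsub hs) (Test_F hT (hc.mem (hsub hs))))
    (base hB hc hp htI (Test_F hT htT))
  exact h2.mono_of_mem_nhdsWithin (Icc_mem_nhdsGE hm.2)

theorem ex_l (hB : Back A) (x0 : ℝ) (hT : Test A F Fr Fl Fx Fxx) {t : ℝ} (ht : t ∈ Ioc 0 A.T) :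
    HasDerivWithinAt (fun s => ex x0 (pd A x0) s (F s))
      (ex x0 (pd A x0) t (fun x => Fl t x + Fxx t x / 2 + A.bl t * A.u t x * Fx t x))
      (Iic t) t := by
  obtain ⟨a, b, z, hc, hp, hm⟩ := exists_cell_l A x0 t ht
  obtain ⟨hpr, hmom⟩ := muA_mom hB x0 a (hc.mem hc.aI)
  obtain ⟨C, n, hC, h⟩ := hT.growth
  have htI : t ∈ Icc a b := ⟨hm.1.le, hm.2⟩
  have htT := hc.mem htI
  have hsub : Icc a t ⊆ Icc a b := Icc_subset_Icc le_rfl hm.2
  obtain ⟨q1, q2⟩ := dq_left (F := F) (Fl := Fl) (s0 := t) (t1 := a) (C := C) (n := n) hm.1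
    (fun y => Test_cF hT hc.a0 ht.2 y)
    (fun τ hτ y => hT.hl τ ⟨lt_of_le_of_lt hc.a0 hτ.1, hτ.2.trans ht.2⟩ y)
    (fun y => hT.cl t ht y)
    (fun τ hτ y => (h τ ⟨hc.a0.trans hτ.1.le, hτ.2.trans ht.2⟩ y).2.2.1)
  have h1 := ev_time hB hc hmom hsub ⟨hm.1.le, le_rfl⟩
    (fun s hs => Test_F hT (hc.mem (hsub hs))) (Test_Fl hT ht) (Test_Fx hT htT) (Test_Fxx hT htT)
    (hT.hx t htT) (hT.hxx t htT) hC q1 q2
  have hb : z / A.D t = A.bl t := by
    unfold SD.bl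
    rw [hc.ml_eq t hm]
  have hgen : PG (fun x => Fl t x + Fxx t x / 2 + z / A.D t * A.u t x * Fx t x) := by
    have g1 := gen_pg hB hc (Test_Fx hT htT) (Test_Fxx hT htT) htI
    have g2 : PG (Fl t) := ⟨Test_Fl hT ht, C, n, hC, fun y => (h t htT y).2.2.1⟩
    refine (congrArg PG ?_).mp (g2.add g1)
    funext x
    ring
  rw [← hb, base hB hc hp htI hgen]
  have h2 := h1.congr (fun s hs => base hB hc hp (hsub hs) (Test_F hT (hc.mem (hsub hs))))
    (base hB hc hp htI (Test_F hT htT))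
  exact h2.mono_of_mem_nhdsWithin (Icc_mem_nhdsLE hm.1)

end test

theorem mass {A : SD} (hB : Back A) (x0 : ℝ) {t : ℝ} (ht : t ∈ Ioc 0 A.T) :
    ∫ x, pd A x0 t x = 1 := by
  obtain ⟨hpr, _⟩ := muA_mom hB x0 t ⟨ht.1.le, ht.2⟩
  have h1 := int_muA hB x0 (t := t) ⟨ht.1.le, ht.2⟩ (fun _ => (1:ℝ))
  unfold ex at h1
  rw [if_neg (not_le.2 ht.1)] at h1
  simp only [mul_one] at h1
  rw [← h1]
  simp

theorem mom {A : SD} (hB : Back A) (x0 : ℝ) (n : ℕ) : ∃ C : ℝ, ∀ t ∈ Ioc 0 A.T,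
    Integrable (fun x => pd A x0 t x * (1 + |x|) ^ n) ∧
    ∫ x, pd A x0 t x * (1 + |x|) ^ n ≤ C := by
  have hpg : PG (fun x : ℝ => (1 + |x|) ^ n) := PG.pow ((PG.const 1).add PG.id.abs) n
  obtain ⟨C, hC⟩ := isCompact_Icc.exists_bound_of_continuousOn (ex_fix_cont hB x0 hpg)
  refine ⟨C, fun t ht => ?_⟩
  have h1 := (muA_mom hB x0 t ⟨ht.1.le, ht.2⟩).2 n
  refine ⟨(integrable_muA hB x0 ht _).1 h1, ?_⟩
  have h2 := hC t ⟨ht.1.le, ht.2⟩
  unfold ex at h2
  rw [if_neg (not_le.2 ht.1), Real.norm_eq_abs] at h2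
  exact (le_abs_self _).trans h2

end

end Crest.Agent.R146.LawA_534
end

-- ▼ part R146/YA_534
section

/-!
Row 146 (PT-STEP, helper534): linear growth of the logarithmic derivative is preserved by the heat
flow in the class `GG κ` (`κ L < 1`), uniformly in the variance `≤ L`.
-/

set_option autoImplicit false

namespace Crest.Agent.R146.YA_534

open MeasureTheory ProbabilityTheory Filter Topology Set
open Crest.Agent.R146.Hg_534 Crest.Agent.R146.PB_534 Crest.Agent.R146.GG_534 Crest.Agent.R146.SG_534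
open Crest.Agent.R146.TiltA_534

noncomputable section

theorem GG.exp_bd {κ : ℝ} (hκ : 0 ≤ κ) {q : ℝ → ℝ} (hq : GG κ q) : ∃ K A : ℝ, 0 ≤ K ∧ 0 ≤ A ∧
    ∀ x, |q x| ≤ K * Real.exp (κ / 2 * x ^ 2 + A * |x|) := by
  obtain ⟨K, A, hK, hA, h⟩ := hq.bd
  refine ⟨K, A, hK, hA, fun x => (h x).trans (mul_le_mul_of_nonneg_left ?_ hK)⟩
  unfold wt
  refine Real.exp_le_exp.2 (add_le_add ?_ le_rfl)
  refine mul_le_mul_of_nonneg_left ?_ (by positivity)
  rcases le_total x 0 with h2 | h2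
  · rw [min_eq_left h2]
  · rw [min_eq_right h2, zero_pow two_ne_zero]
    positivity

theorem heat_ratio_bd {κ L : ℝ} (hκ : 0 ≤ κ) (hL : 0 ≤ L) (hκL : κ * L < 1) {q : ℝ → ℝ}
    (hq : GG κ q) (hpos : ∀ x, 0 < q x) {c0 c1 : ℝ} (hc0 : 0 < c0) (hc1 : 0 ≤ c1)
    (hlow : ∀ x, c0 * Real.exp (-c1 * x ^ 2) ≤ q x) :
    ∃ M, 0 ≤ M ∧ ∀ τ : ℝ, τ ^ 2 ≤ L → ∀ y,
      H τ (fun x => (1 + |x|) * q x) y ≤ M * (1 + |y|) * H τ q y := by
  obtain ⟨K, A, hK, hA, hb⟩ := GG.exp_bd hκ hq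
  set s := 1 - κ * L with hs
  have hs0 : 0 < s := by linarith
  set η := s / 4 with hη
  have hη0 : 0 < η := by positivity
  set ε := s / 4 with hε
  have hε0 : 0 < ε := by positivity
  set c := (1 + η) * (κ * L) + 2 * ε with hc
  have hκL0 : 0 ≤ κ * L := mul_nonneg hκ hL
  have hc1' : c < 1 := by
    have h1 : η * (κ * L) ≤ η * 1 := mul_le_mul_of_nonneg_left hκL.le hη0.le
    rw [hc]
    have h2 : (1 + η) * (κ * L) + 2 * ε = κ * L + η * (κ * L) + 2 * ε := by ring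
    rw [h2, hη]
    rw [hη] at h1
    have h3 : κ * L = 1 - s := by rw [hs]; ring
    have h4 : s = 4 * ε := by rw [hε]; ring
    linarith
  set a1 := (A + 1) * Real.sqrt L with ha1
  have ha1' : 0 ≤ a1 := by positivity
  set I1 := ∫ g, Real.exp (c / 2 * g ^ 2 + a1 * |g|) ∂gaussianReal 0 1 with hI1
  have hI1' : 0 ≤ I1 := integral_nonneg fun g => (Real.exp_pos _).le
  set C3 := κ / 2 * (1 + 1 / η) + (A + 1) with hC3
  have hC3' : 0 ≤ C3 := by positivity
  set J := ∫ g, Real.exp ((-(4 * c1 * L)) / 2 * g ^ 2 + 0 * |g|) ∂gaussianReal 0 1 with hJ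
  have hJint : Integrable (fun g : ℝ => Real.exp ((-(4 * c1 * L)) / 2 * g ^ 2 + 0 * |g|))
      (gaussianReal 0 1) := integrable_exp_quad (by
        have : 0 ≤ 4 * c1 * L := by positivity
        linarith) 0
  have hJpos : 0 < J := by
    rw [hJ, integral_pos_iff_support_of_nonneg (fun _ => (Real.exp_pos _).le) hJint]
    have : Function.support (fun g : ℝ => Real.exp ((-(4 * c1 * L)) / 2 * g ^ 2 + 0 * |g|)) =
        univ := by
      ext g
      simp [(Real.exp_pos _).ne']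
    rw [this, measure_univ]
    exact one_pos
  set N := Real.sqrt ((C3 + 2 * c1) / ε) with hN
  have hN0 : 0 ≤ N := Real.sqrt_nonneg _
  have hN2 : ε * N ^ 2 = C3 + 2 * c1 := by
    rw [hN, Real.sq_sqrt (by positivity)]
    field_simp
  refine ⟨1 + Real.sqrt L * N + K * I1 / (c0 * J), by positivity, fun τ hτ y => ?_⟩
  have hτκ : κ * τ ^ 2 < 1 := lt_of_le_of_lt (mul_le_mul_of_nonneg_left hτ hκ) hκL
  have hτL : |τ| ≤ Real.sqrt L := by
    rw [← Real.sqrt_sq_eq_abs]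
    exact Real.sqrt_le_sqrt hτ
  have hY0 : 0 ≤ |y| := abs_nonneg y
  have hpg : PG (fun x : ℝ => 1 + |x|) := (PG.const 1).add PG.id.abs
  have hq1 : GG κ (fun x => (1 + |x|) * q x) := GG.pg_mul hpg hq
  have hHq : 0 < H τ q y := GG_534.H_pos hκ hq hpos hτκ y
  -- lower bound
  have hlow' : c0 * J * Real.exp (-(2 * c1) * (1 + |y|) ^ 2) ≤ H τ q y := by
    have h1 : c0 * Real.exp (-(2 * c1) * y ^ 2) * J ≤ H τ q y := by
      rw [hJ, ← integral_const_mul]
      unfold H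
      refine integral_mono (hJint.const_mul _) (hq.int hκ hτκ y) fun g => ?_
      refine le_trans ?_ (hlow _)
      rw [mul_assoc, ← Real.exp_add]
      refine mul_le_mul_of_nonneg_left (Real.exp_le_exp.2 ?_) hc0.le
      have h2 : (y + τ * g) ^ 2 ≤ 2 * y ^ 2 + 2 * (L * g ^ 2) := by
        have h3 : τ ^ 2 * g ^ 2 ≤ L * g ^ 2 := mul_le_mul_of_nonneg_right hτ (sq_nonneg g)
        have h3' := sq_nonneg (y - τ * g)
        have h3'' : (y - τ * g) ^ 2 + (y + τ * g) ^ 2 = 2 * y ^ 2 + 2 * (τ ^ 2 * g ^ 2) := by ring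
        linarith
      have h4 := mul_le_mul_of_nonneg_left h2 hc1
      linarith
    refine le_trans ?_ h1
    have h2 : Real.exp (-(2 * c1) * (1 + |y|) ^ 2) ≤ Real.exp (-(2 * c1) * y ^ 2) := by
      refine Real.exp_le_exp.2 ?_
      have h3 : y ^ 2 ≤ (1 + |y|) ^ 2 := by
        rw [← sq_abs y]
        exact pow_le_pow_left₀ hY0 (by linarith) 2
      have h4 := mul_le_mul_of_nonneg_left h3 (by positivity : 0 ≤ 2 * c1)
      linarith
    have h3 := mul_le_mul_of_nonneg_left h2 (by positivity : 0 ≤ c0 * J)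
    linarith
  -- pointwise upper bound
  have hpt : ∀ g : ℝ, (1 + |y + τ * g|) * q (y + τ * g) ≤
      (1 + Real.sqrt L * N) * (1 + |y|) * q (y + τ * g) +
      K * Real.exp (-(2 * c1) * (1 + |y|) ^ 2) * Real.exp (c / 2 * g ^ 2 + a1 * |g|) := by
    intro g
    have hqx := (hpos (y + τ * g)).le
    rcases le_or_gt |g| (N * (1 + |y|)) with h1 | h1
    · have h2 : 1 + |y + τ * g| ≤ (1 + Real.sqrt L * N) * (1 + |y|) := by
        have h3 : |y + τ * g| ≤ |y| + |τ| * |g| := (abs_add_le _ _).trans_eq (by rw [abs_mul])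
        have h4 : |τ| * |g| ≤ Real.sqrt L * (N * (1 + |y|)) :=
          mul_le_mul hτL h1 (abs_nonneg g) (Real.sqrt_nonneg _)
        linarith
      have h5 := mul_le_mul_of_nonneg_right h2 hqx
      have h6 : 0 ≤ K * Real.exp (-(2 * c1) * (1 + |y|) ^ 2) *
        Real.exp (c / 2 * g ^ 2 + a1 * |g|) := by positivity
      linarith
    · have h2 : (1 + |y + τ * g|) * q (y + τ * g) ≤
          K * Real.exp (-(2 * c1) * (1 + |y|) ^ 2) * Real.exp (c / 2 * g ^ 2 + a1 * |g|) := by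
        have h3 : 1 + |y + τ * g| ≤ Real.exp |y + τ * g| := by
          have := Real.add_one_le_exp |y + τ * g|
          linarith
        have h4 : q (y + τ * g) ≤ K * Real.exp (κ / 2 * (y + τ * g) ^ 2 + A * |y + τ * g|) :=
          (le_abs_self _).trans (hb _)
        have h5 : (1 + |y + τ * g|) * q (y + τ * g) ≤
            Real.exp |y + τ * g| * (K * Real.exp (κ / 2 * (y + τ * g) ^ 2 + A * |y + τ * g|)) :=
          mul_le_mul h3 h4 hqx (Real.exp_pos _).le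
        refine h5.trans ?_
        have h6 : Real.exp |y + τ * g| *
            (K * Real.exp (κ / 2 * (y + τ * g) ^ 2 + A * |y + τ * g|)) =
            K * Real.exp (κ / 2 * (y + τ * g) ^ 2 + (A + 1) * |y + τ * g|) := by
          rw [mul_left_comm, ← Real.exp_add]
          congr 2
          ring
        rw [h6, mul_assoc, ← Real.exp_add]
        refine mul_le_mul_of_nonneg_left (Real.exp_le_exp.2 ?_) hK
        have h7 : (y + τ * g) ^ 2 ≤ (1 + 1 / η) * y ^ 2 + (1 + η) * (L * g ^ 2) := by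
          have h8 : 0 ≤ (y / η - τ * g) ^ 2 * η := by positivity
          have h9 : (y / η - τ * g) ^ 2 * η = y ^ 2 / η - 2 * (y * (τ * g)) +
              η * (τ ^ 2 * g ^ 2) := by
            field_simp
            ring
          have h10 : τ ^ 2 * g ^ 2 ≤ L * g ^ 2 := mul_le_mul_of_nonneg_right hτ (sq_nonneg g)
          have h11 : (1 + η) * (τ ^ 2 * g ^ 2) ≤ (1 + η) * (L * g ^ 2) :=
            mul_le_mul_of_nonneg_left h10 (by positivity)
          have h12 : (1 + 1 / η) * y ^ 2 = y ^ 2 + y ^ 2 / η := by ring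
          have h13 : (y + τ * g) ^ 2 = y ^ 2 + 2 * (y * (τ * g)) + τ ^ 2 * g ^ 2 := by ring
          have h14 : (1 + η) * (τ ^ 2 * g ^ 2) = τ ^ 2 * g ^ 2 + η * (τ ^ 2 * g ^ 2) := by ring
          rw [h12, h13]
          rw [h14] at h11
          rw [h9] at h8
          linarith
        have h8 : (A + 1) * |y + τ * g| ≤ (A + 1) * |y| + a1 * |g| := by
          have h9 : |y + τ * g| ≤ |y| + |τ| * |g| := (abs_add_le _ _).trans_eq (by rw [abs_mul])
          have h10 : |τ| * |g| ≤ Real.sqrt L * |g| := mul_le_mul_of_nonneg_right hτL (abs_nonneg g)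
          have h11 := mul_le_mul_of_nonneg_left (h9.trans (add_le_add le_rfl h10))
            (by positivity : 0 ≤ A + 1)
          rw [ha1]
          linarith
        have h9 : κ / 2 * (y + τ * g) ^ 2 ≤
            κ / 2 * ((1 + 1 / η) * y ^ 2 + (1 + η) * (L * g ^ 2)) :=
          mul_le_mul_of_nonneg_left h7 (by positivity)
        have h10 : y ^ 2 ≤ (1 + |y|) ^ 2 := by
          rw [← sq_abs y]
          exact pow_le_pow_left₀ hY0 (by linarith) 2
        have h11 : |y| ≤ (1 + |y|) ^ 2 := by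
          have e : (1 + |y|) ^ 2 = 1 + 2 * |y| + |y| ^ 2 := by ring
          have e2 := sq_nonneg |y|
          linarith
        have h12 : κ / 2 * (1 + 1 / η) * y ^ 2 ≤ κ / 2 * (1 + 1 / η) * (1 + |y|) ^ 2 :=
          mul_le_mul_of_nonneg_left h10 (by positivity)
        have h13 : (A + 1) * |y| ≤ (A + 1) * (1 + |y|) ^ 2 :=
          mul_le_mul_of_nonneg_left h11 (by positivity)
        have h14 : ε * (N * (1 + |y|)) ^ 2 ≤ ε * g ^ 2 := by
          refine mul_le_mul_of_nonneg_left ?_ hε0.le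
          rw [← sq_abs g]
          exact pow_le_pow_left₀ (by positivity) h1.le 2
        have h15 : ε * (N * (1 + |y|)) ^ 2 = (C3 + 2 * c1) * (1 + |y|) ^ 2 := by
          rw [mul_pow, ← mul_assoc, hN2]
        have h16 : κ / 2 * ((1 + η) * (L * g ^ 2)) = c / 2 * g ^ 2 - ε * g ^ 2 := by
          rw [hc]; ring
        rw [h15] at h14
        have h17 : (C3 + 2 * c1) * (1 + |y|) ^ 2 = κ / 2 * (1 + 1 / η) * (1 + |y|) ^ 2 +
            (A + 1) * (1 + |y|) ^ 2 + 2 * c1 * (1 + |y|) ^ 2 := by rw [hC3]; ring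
        rw [h17] at h14
        linarith
      have h3 : 0 ≤ (1 + Real.sqrt L * N) * (1 + |y|) * q (y + τ * g) := by positivity
      linarith
  have hint2 : Integrable (fun g : ℝ => Real.exp (c / 2 * g ^ 2 + a1 * |g|)) (gaussianReal 0 1) :=
    integrable_exp_quad hc1' a1
  have h1 : H τ (fun x => (1 + |x|) * q x) y ≤ (1 + Real.sqrt L * N) * (1 + |y|) * H τ q y +
      K * Real.exp (-(2 * c1) * (1 + |y|) ^ 2) * I1 := by
    unfold H
    rw [hI1, ← integral_const_mul, ← integral_const_mul,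
      ← integral_add ((hq.int hκ hτκ y).const_mul _) (hint2.const_mul _)]
    exact integral_mono (hq1.int hκ hτκ y)
      (((hq.int hκ hτκ y).const_mul _).add (hint2.const_mul _)) hpt
  have h2 : K * Real.exp (-(2 * c1) * (1 + |y|) ^ 2) * I1 ≤
      K * I1 / (c0 * J) * ((1 + |y|) * H τ q y) := by
    have h3 : Real.exp (-(2 * c1) * (1 + |y|) ^ 2) ≤ H τ q y / (c0 * J) := by
      rw [le_div_iff₀ (by positivity)]
      linarith
    have h4 : H τ q y / (c0 * J) ≤ (1 + |y|) * H τ q y / (c0 * J) := by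
      refine div_le_div_of_nonneg_right ?_ (by positivity)
      nlinarith
    have h5 := mul_le_mul_of_nonneg_left (h3.trans h4) (by positivity : 0 ≤ K * I1)
    calc K * Real.exp (-(2 * c1) * (1 + |y|) ^ 2) * I1
        = K * I1 * Real.exp (-(2 * c1) * (1 + |y|) ^ 2) := by ring
      _ ≤ K * I1 * ((1 + |y|) * H τ q y / (c0 * J)) := h5
      _ = _ := by ring
  calc H τ (fun x => (1 + |x|) * q x) y
      ≤ (1 + Real.sqrt L * N) * (1 + |y|) * H τ q y +
        K * I1 / (c0 * J) * ((1 + |y|) * H τ q y) := h1.trans (add_le_add le_rfl h2)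
    _ = _ := by ring

/-- linear growth of the logarithmic derivative gives a Gaussian lower bound -/
theorem low_of_log {q q1 : ℝ → ℝ} (hd : ∀ x, HasDerivAt q (q1 x) x) (hpos : ∀ x, 0 < q x) {M : ℝ}
    (hM : ∀ x, |q1 x| ≤ M * (1 + |x|) * q x) :
    ∀ x, q 0 * Real.exp (-M / 2) * Real.exp (-(3 / 2 * M) * x ^ 2) ≤ q x := by
  intro x
  have hM0 : 0 ≤ M := by
    have h1 := hM 0
    have h2 := abs_nonneg (q1 0)
    rw [abs_zero, add_zero, mul_one] at h1
    by_contra h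
    have := mul_neg_of_neg_of_pos (not_le.1 h) (hpos 0)
    linarith
  have hl : ∀ y, HasDerivAt (fun y => Real.log (q y)) (q1 y / q y) y :=
    fun y => (hd y).log (hpos y).ne'
  have hbd : ∀ y ∈ uIcc 0 x, ‖q1 y / q y‖ ≤ M * (1 + |x|) := by
    intro y hy
    rw [Real.norm_eq_abs, abs_div, abs_of_pos (hpos y), div_le_iff₀ (hpos y)]
    refine (hM y).trans (mul_le_mul_of_nonneg_right ?_ (hpos y).le)
    refine mul_le_mul_of_nonneg_left ?_ hM0
    have h1 := abs_sub_left_of_mem_uIcc hy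
    rw [sub_zero, sub_zero] at h1
    linarith
  have h1 := (convex_uIcc (0:ℝ) x).norm_image_sub_le_of_norm_hasDerivWithin_le
    (fun y _ => (hl y).hasDerivWithinAt) hbd left_mem_uIcc right_mem_uIcc
  rw [Real.norm_eq_abs, Real.norm_eq_abs, sub_zero] at h1
  have h2 : Real.log (q 0) - M * (1 + |x|) * |x| ≤ Real.log (q x) := by
    have := (abs_le.1 h1).1
    linarith
  have h3 : (1 + |x|) * |x| ≤ 1 / 2 + 3 / 2 * x ^ 2 := by
    rw [← sq_abs x]
    nlinarith [sq_nonneg (|x| - 1)]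
  have h4 : Real.log (q 0) + -M / 2 + -(3 / 2 * M) * x ^ 2 ≤ Real.log (q x) := by
    have := mul_le_mul_of_nonneg_left h3 hM0
    linarith
  have h5 := Real.exp_le_exp.2 h4
  rw [Real.exp_log (hpos x), Real.exp_add, Real.exp_add, Real.exp_log (hpos 0)] at h5
  exact h5

/-- **linear growth of the logarithmic derivative along the heat flow** -/
theorem log_growth {κ L : ℝ} (hκ : 0 ≤ κ) (hL : 0 ≤ L) (hκL : κ * L < 1) {q : ℝ → ℝ}
    (hq : SG κ q) (hpos : ∀ x, 0 < q x) {M : ℝ} (hM : ∀ x, |deriv q x| ≤ M * (1 + |x|) * q x) :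
    ∃ M', 0 ≤ M' ∧ ∀ τ : ℝ, τ ^ 2 ≤ L → ∀ y,
      |H τ (deriv q) y| ≤ M' * (1 + |y|) * H τ q y := by
  have hM0 : 0 ≤ M := by
    have h1 := hM 0
    have h2 := abs_nonneg (deriv q 0)
    rw [abs_zero, add_zero, mul_one] at h1
    by_contra h
    have := mul_neg_of_neg_of_pos (not_le.1 h) (hpos 0)
    linarith
  have hlow := low_of_log hq.hd hpos hM
  have hc0 : 0 < q 0 * Real.exp (-M / 2) := mul_pos (hpos 0) (Real.exp_pos _)
  obtain ⟨M1, hM1, h⟩ := heat_ratio_bd hκ hL hκL hq.gg hpos hc0 (c1 := 3 / 2 * M)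
    (by positivity) hlow
  refine ⟨M * M1, by positivity, fun τ hτ y => ?_⟩
  have hτκ : κ * τ ^ 2 < 1 := lt_of_le_of_lt (mul_le_mul_of_nonneg_left hτ hκ) hκL
  have hpg : PG (fun x : ℝ => 1 + |x|) := (PG.const 1).add PG.id.abs
  have hq1 : GG κ (fun x => (1 + |x|) * q x) := GG.pg_mul hpg hq.gg
  have h1 : |H τ (deriv q) y| ≤ M * H τ (fun x => (1 + |x|) * q x) y := by
    unfold H
    rw [← integral_const_mul, ← Real.norm_eq_abs]
    refine norm_integral_le_of_norm_le ((hq1.int hκ hτκ y).const_mul M)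
      (Eventually.of_forall fun g => ?_)
    rw [Real.norm_eq_abs]
    refine (hM _).trans_eq ?_
    ring
  have h2 := mul_le_mul_of_nonneg_left (h τ hτ y) hM0
  calc |H τ (deriv q) y| ≤ M * H τ (fun x => (1 + |x|) * q x) y := h1
    _ ≤ M * (M1 * (1 + |y|) * H τ q y) := h2
    _ = _ := by ring

end

end Crest.Agent.R146.YA_534
end

-- ▼ part R146/YB_534
section

/-!
Row 146 (PT-STEP, helper534): the logarithmic derivative `Y = -(log p)_x` of the density: formula on the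
cells, equation, joint continuity, linear growth.
-/

set_option autoImplicit false

namespace Crest.Agent.R146.YB_534

open MeasureTheory ProbabilityTheory Filter Topology Set
open Crest.ProbabilityR.InvariantGlass
open Crest.Agent.R146.Hg_534 Crest.Agent.R146.PB_534 Crest.Agent.R146.GG_534 Crest.Agent.R146.SG_534
open Crest.Agent.R146.StepDef_791 Crest.Agent.R146.Cell_534 Crest.Agent.R146.TiltA_534
open Crest.Agent.R146.TiltB_534 Crest.Agent.R146.TiltC_534 Crest.Agent.R146.PD_534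
open Crest.Agent.R146.LawA_534 Crest.Agent.R146.YA_534

noncomputable section

/-- `Y = -(log p)_x` -/
def Yp (A : SD) (x0 t x : ℝ) : ℝ := -(deriv (pd A x0 t) x) / pd A x0 t x
/-- `Y_x` -/
def Yxp (A : SD) (x0 t x : ℝ) : ℝ := deriv (Yp A x0 t) x
/-- `Y_xx` -/
def Yxxp (A : SD) (x0 t x : ℝ) : ℝ := deriv (Yxp A x0 t) x

/-- the free part `θ` of the logarithmic derivative on a cell -/
structure Th (A : SD) (x0 a b z : ℝ) (θ θ1 θ2 : ℝ → ℝ → ℝ) : Prop where
  form : ∀ t ∈ Ioc a b, ∀ x,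
    deriv (pd A x0 t) x = (z / A.D t * A.u t x + θ t x) * pd A x0 t x
  x1 : ∀ t ∈ Ioc a b, ∀ x, HasDerivAt (θ t) (θ1 t x) x
  x2 : ∀ t ∈ Ioc a b, ∀ x, HasDerivAt (θ1 t) (θ2 t x) x
  t1 : ∀ t ∈ Ioc a b, ∀ x, HasDerivWithinAt (fun s => θ s x)
    (θ2 t x / 2 + θ t x * θ1 t x) (Iic t) t
  cont : ∀ ε, 0 < ε → ContinuousOn (fun q : ℝ × ℝ => θ q.1 q.2) (Icc (max a ε) b ×ˢ univ)
  form' : 0 < a → ∀ t ∈ Icc a b, ∀ x,
    deriv (pd A x0 t) x = (z / A.D t * A.u t x + θ t x) * pd A x0 t x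

section cell

variable {A : SD} {x0 a b z : ℝ}

theorem th_zero (hB : Back A) (hc : IsCell A a b z) (hp : PCell A x0 a b z) (ha : a = 0) :
    Th A x0 a b z (fun t x => -(x - x0) / t) (fun t _ => -1 / t) (fun _ _ => 0) := by
  have hform : ∀ t ∈ Ioc a b, ∀ x, deriv (pd A x0 t) x =
      (z / A.D t * A.u t x + -(x - x0) / t) * pd A x0 t x := by
    intro t ht x
    have htI : t ∈ Icc a b := ⟨ht.1.le, ht.2⟩
    have htp : 0 < t := by rw [ha] at ht; exact ht.1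
    have e1 : pd A x0 t = fun x => Gz A z t x *
        (gaussianPDFReal x0 (Real.toNNReal t) x / Gz A z 0 x0) := by
      funext y
      exact hp.zero ha t ht y
    have hv : ((Real.toNNReal t : NNReal) : ℝ) = t := Real.coe_toNNReal t htp.le
    have h2 : HasDerivAt (gaussianPDFReal x0 (Real.toNNReal t))
        (-(x - x0) / t * gaussianPDFReal x0 (Real.toNNReal t) x) x := by
      unfold gaussianPDFReal
      have h3 : HasDerivAt (fun y : ℝ => -(y - x0) ^ 2 / (2 * ((Real.toNNReal t : NNReal) : ℝ)))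
          (-(x - x0) / t) x := by
        have h4 := (((hasDerivAt_id' x).sub_const x0).fun_pow 2).fun_neg.div_const
          (2 * ((Real.toNNReal t : NNReal) : ℝ))
        refine h4.congr_deriv ?_
        rw [hv]
        simp only [Nat.cast_ofNat, Nat.add_one_sub_one, pow_one, mul_one]
        field_simp
      refine (h3.exp.const_mul _).congr_deriv ?_
      ring
    have h3 := (Gz_x hB z (hc.mem htI) x).fun_mul (h2.div_const (Gz A z 0 x0))
    rw [e1]
    rw [h3.deriv]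
    ring
  refine ⟨hform, ?_, ?_, ?_, ?_, fun h => absurd ha h.ne'⟩
  · intro t _ x
    have := (((hasDerivAt_id' x).sub_const x0).fun_neg).div_const t
    exact this
  · intro t _ x
    exact hasDerivAt_const x _
  · intro t ht x
    have htp : 0 < t := by rw [ha] at ht; exact ht.1
    have h1 := ((hasDerivAt_id' t).fun_inv htp.ne').const_mul (-(x - x0))
    have h2 : HasDerivAt (fun s => -(x - x0) / s) (0 / 2 + -(x - x0) / t * (-1 / t)) t := by
      refine (h1.congr_deriv ?_).congr_of_eventuallyEq (Eventually.of_forall fun s => ?_)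
      · field_simp
        ring
      · simp only [div_eq_mul_inv]
    exact h2.hasDerivWithinAt
  · intro ε hε
    refine ContinuousOn.div (by fun_prop) (by fun_prop) ?_
    rintro q ⟨h1, _⟩
    have := (le_max_right a ε).trans h1.1
    exact (lt_of_lt_of_le hε this).ne'

/-- heat extensions of `qa` and its derivatives -/
def Qk (_A : SD) (a : ℝ) (k : ℝ → ℝ) (t x : ℝ) : ℝ := H (Real.sqrt (t - a)) k x

theorem Qk_x (hc : IsCell A a b z) {k : ℝ → ℝ} (hk : SG (z / A.D a) k) {t : ℝ}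
    (ht : t ∈ Icc a b) (x : ℝ) : HasDerivAt (Qk A a k t) (Qk A a (deriv k) t x) x :=
  GG_534.H_deriv_x (kappa_nonneg hc) hk.gg hk.deriv.gg hk.hd (kappa_lt hc ht) x

theorem Qk_t (hc : IsCell A a b z) {k : ℝ → ℝ} (hk : SG (z / A.D a) k) {t : ℝ}
    (ht : t ∈ Ioc a b) (x : ℝ) :
    HasDerivAt (fun s => Qk A a k s x) (1 / 2 * Qk A a (deriv (deriv k)) t x) t := by
  have htI : t ∈ Icc a b := ⟨ht.1.le, ht.2⟩
  have h0 : 0 < t - a := sub_pos.2 ht.1
  have hk2 := kappa_lt hc htI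
  rw [Real.sq_sqrt h0.le] at hk2
  have h1 := GG_534.H_deriv_v (kappa_nonneg hc) hk.gg hk.deriv.gg hk.deriv.deriv.gg hk.hd
    hk.deriv.hd h0 hk2 x
  have h2 : HasDerivAt (fun s : ℝ => s - a) 1 t := (hasDerivAt_id t).sub_const a
  have h3 := h1.comp t h2
  rw [mul_one] at h3
  exact h3

theorem Qk_cont (hc : IsCell A a b z) {k : ℝ → ℝ} (hk : GG (z / A.D a) k) :
    ContinuousOn (fun q : ℝ × ℝ => Qk A a k q.1 q.2) (Icc a b ×ˢ univ) := by
  rintro q ⟨hq, _⟩
  have h1 := GG_534.H_continuousAt (kappa_nonneg hc) hk (p := (Real.sqrt (q.1 - a), q.2))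
    (kappa_lt hc hq)
  have h2 : ContinuousAt (fun q : ℝ × ℝ => ((Real.sqrt (q.1 - a), q.2) : ℝ × ℝ)) q := by fun_prop
  exact (ContinuousAt.comp (x := q) (f := fun q : ℝ × ℝ => ((Real.sqrt (q.1 - a), q.2) : ℝ × ℝ))
    (g := fun p : ℝ × ℝ => H p.1 k p.2) h1 h2).continuousWithinAt

theorem pd_eq_Qk (hp : PCell A x0 a b z) (ha : 0 < a) {t : ℝ} (ht : t ∈ Icc a b) (x : ℝ) :
    pd A x0 t x = Gz A z t x * Qk A a (qa A x0 z a) t x := by
  rcases eq_or_lt_of_le ht.1 with h | h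
  · subst h
    unfold Qk
    rw [sub_self, Real.sqrt_zero, H_zero]
    unfold qa
    rw [mul_div_cancel₀ _ (Gz_pos A z a x).ne']
  · exact hp.pos ha t ⟨h, ht.2⟩ x

theorem th_pos (hB : Back A) (hc : IsCell A a b z) (hp : PCell A x0 a b z) (ha : 0 < a) :
    ∃ θ θ1 θ2, Th A x0 a b z θ θ1 θ2 ∧
      (∀ t x, θ t x = Qk A a (deriv (qa A x0 z a)) t x / Qk A a (qa A x0 z a) t x) := by
  have haT : a ∈ Ioc 0 A.T := ⟨ha, hc.ab.le.trans hc.bT⟩
  obtain ⟨hsg, hpos⟩ := pd_sg hB x0 a haT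
  have hq := qa_sg (z := z) hB hc hsg
  set q := qa A x0 z a with hqdef
  have hqpos : ∀ x, 0 < q x := fun x => div_pos (hpos x) (Gz_pos A z a x)
  have hQ0 : ∀ t ∈ Icc a b, ∀ x, 0 < Qk A a q t x := fun t ht x =>
    GG_534.H_pos (kappa_nonneg hc) hq.gg hqpos (kappa_lt hc ht) x
  set Q0 := Qk A a q with hQ0d
  set Q1 := Qk A a (deriv q) with hQ1d
  set Q2 := Qk A a (deriv (deriv q)) with hQ2d
  set Q3 := Qk A a (deriv (deriv (deriv q))) with hQ3d
  have hform' : ∀ t ∈ Icc a b, ∀ x, deriv (pd A x0 t) x =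
      (z / A.D t * A.u t x + Q1 t x / Q0 t x) * pd A x0 t x := by
    intro t ht x
    have e1 : pd A x0 t = fun x => Gz A z t x * Q0 t x := by
      funext y
      exact pd_eq_Qk hp ha ht y
    have h3 := (Gz_x hB z (hc.mem ht) x).fun_mul (Qk_x hc hq ht x)
    rw [e1, h3.deriv]
    have h4 := (hQ0 t ht x).ne'
    have h5 : Qk A a q t x = Q0 t x := rfl
    have h6 : Qk A a (deriv q) t x = Q1 t x := rfl
    rw [h5, h6]
    field_simp
  refine ⟨fun t x => Q1 t x / Q0 t x, fun t x => Q2 t x / Q0 t x - (Q1 t x / Q0 t x) ^ 2,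
    fun t x => Q3 t x / Q0 t x - Q2 t x * Q1 t x / Q0 t x ^ 2 -
      2 * (Q1 t x / Q0 t x) * (Q2 t x / Q0 t x - (Q1 t x / Q0 t x) ^ 2), ⟨?_, ?_, ?_, ?_, ?_, ?_⟩,
      fun t x => rfl⟩
  · exact fun t ht x => hform' t ⟨ht.1.le, ht.2⟩ x
  · intro t ht x
    have htI : t ∈ Icc a b := ⟨ht.1.le, ht.2⟩
    have h0 := (hQ0 t htI x).ne'
    refine ((Qk_x hc hq.deriv htI x).fun_div (Qk_x hc hq htI x) h0).congr_deriv ?_
    simp only [← hQ0d, ← hQ1d, ← hQ2d]
    field_simp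
  · intro t ht x
    have htI : t ∈ Icc a b := ⟨ht.1.le, ht.2⟩
    have h0 := (hQ0 t htI x).ne'
    have h1 := (Qk_x hc hq.deriv.deriv htI x).fun_div (Qk_x hc hq htI x) h0
    have h2 := ((Qk_x hc hq.deriv htI x).fun_div (Qk_x hc hq htI x) h0).fun_pow 2
    refine (h1.fun_sub h2).congr_deriv ?_
    simp only [← hQ0d, ← hQ1d, ← hQ2d, ← hQ3d]
    simp only [Nat.cast_ofNat, Nat.add_one_sub_one, pow_one]
    have h0' : Q0 t x ≠ 0 := h0
    field_simp
  · intro t ht x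
    have htI : t ∈ Icc a b := ⟨ht.1.le, ht.2⟩
    have h0 := (hQ0 t htI x).ne'
    have h1 := (Qk_t hc hq.deriv ht x).fun_div (Qk_t hc hq ht x) h0
    refine (h1.congr_deriv ?_).hasDerivWithinAt
    simp only [← hQ0d, ← hQ1d, ← hQ2d, ← hQ3d]
    have h0' : Q0 t x ≠ 0 := h0
    field_simp
    ring
  · intro ε _
    have hsub : Icc (max a ε) b ×ˢ (univ : Set ℝ) ⊆ Icc a b ×ˢ univ :=
      prod_mono (Icc_subset_Icc (le_max_left _ _) le_rfl) (Subset.refl _)
    refine ContinuousOn.div ((Qk_cont hc hq.deriv.gg).mono hsub) ((Qk_cont hc hq.gg).mono hsub) ?_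
    rintro p ⟨hp1, _⟩
    exact (hQ0 p.1 ⟨(le_max_left _ _).trans hp1.1, hp1.2⟩ p.2).ne'
  · exact fun _ t ht x => hform' t ht x

theorem th_exists (hB : Back A) (hc : IsCell A a b z) (hp : PCell A x0 a b z) :
    ∃ θ θ1 θ2, Th A x0 a b z θ θ1 θ2 := by
  rcases eq_or_lt_of_le hc.a0 with h | h
  · exact ⟨_, _, _, th_zero hB hc hp h.symm⟩
  · obtain ⟨θ, θ1, θ2, h1, _⟩ := th_pos hB hc hp h
    exact ⟨θ, θ1, θ2, h1⟩

variable {θ θ1 θ2 : ℝ → ℝ → ℝ}

theorem Yp_eq (hB : Back A) (hc : IsCell A a b z) (hT : Th A x0 a b z θ θ1 θ2) {t : ℝ}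
    (ht : t ∈ Ioc a b) : Yp A x0 t = fun x => -(z / A.D t * A.u t x) - θ t x := by
  funext x
  have htT : t ∈ Ioc 0 A.T := ⟨lt_of_le_of_lt hc.a0 ht.1, ht.2.trans hc.bT⟩
  have h0 := ((pd_sg hB x0 t htT).2 x).ne'
  unfold Yp
  rw [hT.form t ht x]
  field_simp
  ring

theorem Yp_eq' (hB : Back A) (hc : IsCell A a b z) (hT : Th A x0 a b z θ θ1 θ2) (ha : 0 < a)
    {t : ℝ} (ht : t ∈ Icc a b) : Yp A x0 t = fun x => -(z / A.D t * A.u t x) - θ t x := by
  funext x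
  have htT : t ∈ Ioc 0 A.T := ⟨lt_of_lt_of_le ha ht.1, ht.2.trans hc.bT⟩
  have h0 := ((pd_sg hB x0 t htT).2 x).ne'
  unfold Yp
  rw [hT.form' ha t ht x]
  field_simp
  ring

theorem Yxp_eq (hB : Back A) (hc : IsCell A a b z) (hT : Th A x0 a b z θ θ1 θ2) {t : ℝ}
    (ht : t ∈ Ioc a b) : Yxp A x0 t = fun x => -(z / A.D t * (A.V t x - 1)) - θ1 t x := by
  funext x
  have htT := hc.mem (t := t) ⟨ht.1.le, ht.2⟩
  unfold Yxp
  rw [Yp_eq hB hc hT ht]
  exact (((hB.u_x t htT x).const_mul (z / A.D t)).fun_neg.fun_sub (hT.x1 t ht x)).deriv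

theorem Yxxp_eq (hB : Back A) (hc : IsCell A a b z) (hT : Th A x0 a b z θ θ1 θ2) {t : ℝ}
    (ht : t ∈ Ioc a b) : Yxxp A x0 t = fun x => -(z / A.D t * A.P t x) - θ2 t x := by
  funext x
  have htT := hc.mem (t := t) ⟨ht.1.le, ht.2⟩
  unfold Yxxp
  rw [Yxp_eq hB hc hT ht]
  exact ((((hB.V_x t htT x).sub_const 1).const_mul (z / A.D t)).fun_neg.fun_sub
    (hT.x2 t ht x)).deriv

theorem bl_eq (hc : IsCell A a b z) {t : ℝ} (ht : t ∈ Ioc a b) : A.bl t = z / A.D t := by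
  unfold SD.bl
  rw [hc.ml_eq t ht]

theorem D_left (hc : IsCell A a b z) {t : ℝ} (ht : t ∈ Ioc a b) :
    HasDerivWithinAt A.D (-z) (Iic t) t := by
  have h1 : HasDerivAt (fun s => A.D b + z * (b - s)) (-z) t := by
    have := (((hasDerivAt_id' t).const_sub b).const_mul z).const_add (A.D b)
    refine this.congr_deriv ?_
    ring
  have h2 : HasDerivWithinAt A.D (-z) (Icc a t) t :=
    h1.hasDerivWithinAt.congr (fun s hs => hc.D_eq s ⟨hs.1, hs.2.trans ht.2⟩)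
      (hc.D_eq t ⟨ht.1.le, ht.2⟩)
  exact h2.mono_of_mem_nhdsWithin (Icc_mem_nhdsLE ht.1)

end cell

theorem Yt {A : SD} (hB : Back A) (x0 : ℝ) {t : ℝ} (ht : t ∈ Ioc 0 A.T) (x : ℝ) :
    HasDerivWithinAt (fun s => Yp A x0 s x)
      (Yxxp A x0 t x / 2 - (Yp A x0 t x + A.bl t * A.u t x) * Yxp A x0 t x +
        A.bl t * (1 - A.V t x) * Yp A x0 t x + A.bl t * A.P t x) (Iic t) t := by
  obtain ⟨a, b, z, hc, hp, hm⟩ := exists_cell_l A x0 t ht
  obtain ⟨θ, θ1, θ2, hT⟩ := th_exists hB hc hp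
  have hD := D_left hc hm
  have hD0 := (A.D_pos t).ne'
  have h1 : HasDerivWithinAt (fun s => z / A.D s) (z ^ 2 / A.D t ^ 2) (Iic t) t := by
    have h2 := (hasDerivWithinAt_const t (Iic t) z).fun_div hD hD0
    refine h2.congr_deriv ?_
    ring
  have hu := hB.u_tl t ht x
  have h2 := (h1.fun_mul hu).fun_neg.fun_sub (hT.t1 t hm x)
  have hev : (fun s => Yp A x0 s x) =ᶠ[𝓝[≤] t] fun s => -(z / A.D s * A.u s x) - θ s x := by
    filter_upwards [Ioc_mem_nhdsLE hm.1] with s hs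
    rw [Yp_eq hB hc hT ⟨hs.1, hs.2.trans hm.2⟩]
  refine (h2.congr_of_eventuallyEq hev (by rw [Yp_eq hB hc hT hm])).congr_deriv ?_
  rw [Yp_eq hB hc hT hm, Yxp_eq hB hc hT hm, Yxxp_eq hB hc hT hm, bl_eq hc hm]
  field_simp
  ring

theorem Yx {A : SD} (hB : Back A) (x0 : ℝ) {t : ℝ} (ht : t ∈ Ioc 0 A.T) (x : ℝ) :
    HasDerivAt (Yp A x0 t) (Yxp A x0 t x) x := by
  obtain ⟨a, b, z, hc, hp, hm⟩ := exists_cell_l A x0 t ht
  obtain ⟨θ, θ1, θ2, hT⟩ := th_exists hB hc hp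
  have htT : t ∈ Icc 0 A.T := ⟨ht.1.le, ht.2⟩
  have h1 := ((hB.u_x t htT x).const_mul (z / A.D t)).fun_neg.fun_sub (hT.x1 t hm x)
  rw [Yxp_eq hB hc hT hm, Yp_eq hB hc hT hm]
  exact h1

theorem Yxx {A : SD} (hB : Back A) (x0 : ℝ) {t : ℝ} (ht : t ∈ Ioc 0 A.T) (x : ℝ) :
    HasDerivAt (Yxp A x0 t) (Yxxp A x0 t x) x := by
  obtain ⟨a, b, z, hc, hp, hm⟩ := exists_cell_l A x0 t ht
  obtain ⟨θ, θ1, θ2, hT⟩ := th_exists hB hc hp
  have htT : t ∈ Icc 0 A.T := ⟨ht.1.le, ht.2⟩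
  have h1 := (((hB.V_x t htT x).sub_const 1).const_mul (z / A.D t)).fun_neg.fun_sub
    (hT.x2 t hm x)
  rw [Yxxp_eq hB hc hT hm, Yxp_eq hB hc hT hm]
  exact h1

/-- joint continuity of `Y` -/
theorem Y_cont {A : SD} (hB : Back A) (x0 : ℝ) {ε : ℝ} (hε : 0 < ε) :
    ContinuousOn (fun q : ℝ × ℝ => Yp A x0 q.1 q.2) (Icc ε A.T ×ˢ univ) := by
  obtain ⟨M, hb⟩ := hB.bsys
  refine glue2 (x0 := x0) _ hε fun a b z hc hp => ?_
  obtain ⟨θ, θ1, θ2, hT⟩ := th_exists hB hc hp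
  have hsub : Icc (max a ε) b ⊆ Icc a b := Icc_subset_Icc (le_max_left _ _) le_rfl
  have hD : ContinuousOn (fun q : ℝ × ℝ => A.D q.1) (Icc (max a ε) b ×ˢ univ) :=
    (D_cont_cell hc).comp continuousOn_fst (fun q hq => hsub hq.1)
  have hu : ContinuousOn (fun q : ℝ × ℝ => A.u q.1 q.2) (Icc (max a ε) b ×ˢ univ) :=
    hb.cu.mono (fun q hq => ⟨hc.mem (hsub hq.1), mem_univ _⟩)
  have h1 : ContinuousOn (fun q : ℝ × ℝ => -(z / A.D q.1 * A.u q.1 q.2) - θ q.1 q.2)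
      (Icc (max a ε) b ×ˢ univ) :=
    (((continuousOn_const.div hD (fun q _ => (A.D_pos q.1).ne')).mul hu).neg).sub (hT.cont ε hε)
  refine h1.congr fun q hq => ?_
  rcases eq_or_lt_of_le hc.a0 with h | h
  · have hq1 : q.1 ∈ Ioc a b := ⟨by
      rw [← h]
      exact lt_of_lt_of_le hε ((le_max_right _ _).trans hq.1.1), hq.1.2⟩
    rw [Yp_eq hB hc hT hq1]
  · rw [Yp_eq' hB hc hT h (hsub hq.1)]

/-- joint continuity of the density -/
theorem pd_cont {A : SD} (hB : Back A) (x0 : ℝ) {ε : ℝ} (hε : 0 < ε) :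
    ContinuousOn (fun q : ℝ × ℝ => pd A x0 q.1 q.2) (Icc ε A.T ×ˢ univ) := by
  refine glue2 (x0 := x0) _ hε fun a b z hc hp => ?_
  have hsub : Icc (max a ε) b ⊆ Icc a b := Icc_subset_Icc (le_max_left _ _) le_rfl
  have hG : ContinuousOn (fun q : ℝ × ℝ => Gz A z q.1 q.2) (Icc (max a ε) b ×ˢ univ) := by
    unfold Gz
    exact Real.continuous_exp.comp_continuousOn (continuousOn_const.mul
      (hB.psi_cont.mono (fun q hq => ⟨hc.mem (hsub hq.1), mem_univ _⟩)))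
  rcases eq_or_lt_of_le hc.a0 with h | h
  · have h1 : ContinuousOn (fun q : ℝ × ℝ => Gz A z q.1 q.2 *
        ((√(2 * Real.pi * q.1))⁻¹ * Real.exp (-(q.2 - x0) ^ 2 / (2 * q.1)) / Gz A z 0 x0))
        (Icc (max a ε) b ×ˢ univ) := by
      refine hG.mul (ContinuousOn.div_const (ContinuousOn.mul ?_ ?_) _)
      · refine ContinuousOn.inv₀ (by fun_prop) ?_
        rintro q ⟨hq, _⟩
        have hq0 : 0 < q.1 := lt_of_lt_of_le hε ((le_max_right _ _).trans hq.1)
        exact (Real.sqrt_pos.2 (by positivity)).ne'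
      · refine Real.continuous_exp.comp_continuousOn (ContinuousOn.div (by fun_prop)
          (by fun_prop) ?_)
        rintro q ⟨hq, _⟩
        have hq0 : 0 < q.1 := lt_of_lt_of_le hε ((le_max_right _ _).trans hq.1)
        positivity
    refine h1.congr fun q hq => ?_
    have hq0 : 0 < q.1 := lt_of_lt_of_le hε ((le_max_right _ _).trans hq.1.1)
    rw [hp.zero h.symm q.1 ⟨by rw [← h]; exact hq0, hq.1.2⟩ q.2]
    unfold gaussianPDFReal
    rw [Real.coe_toNNReal q.1 hq0.le]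
  · have haT : a ∈ Ioc 0 A.T := ⟨h, hc.ab.le.trans hc.bT⟩
    obtain ⟨hsg, hpos⟩ := pd_sg hB x0 a haT
    have hq := qa_sg (z := z) hB hc hsg
    have h1 := hG.mul ((Qk_cont hc hq.gg).mono
      (prod_mono hsub (Subset.refl (univ : Set ℝ))))
    exact h1.congr fun q hq => pd_eq_Qk hp h (hsub hq.1) q.2

/-- **linear growth of `Y`**, in product form -/
theorem pd_log_growth {A : SD} (hB : Back A) (x0 : ℝ) : ∀ ε : ℝ, 0 < ε → ∃ M, 0 ≤ M ∧
    ∀ t ∈ Icc ε A.T, ∀ x, |deriv (pd A x0 t) x| ≤ M * (1 + |x|) * pd A x0 t x := by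
  obtain ⟨Mu, hMu, hu⟩ := exists_M hB
  obtain ⟨M2, hb⟩ := hB.bsys
  refine cells_induct A x0 (fun s => ∀ ε : ℝ, 0 < ε → ∃ M, 0 ≤ M ∧
    ∀ t ∈ Icc ε s, ∀ x, |deriv (pd A x0 t) x| ≤ M * (1 + |x|) * pd A x0 t x) ?_ ?_
  · intro ε hε
    exact ⟨0, le_rfl, fun t ht => absurd (lt_of_lt_of_le hε ht.1) (not_lt.2 ht.2)⟩
  · intro a b z hc hp ih ε hε
    have hzd : 0 ≤ z / A.d := div_nonneg hc.z0.le A.hd.le
    -- it suffices to bound θ on (a,b] ∩ [ε,b]
    have hdrift : ∀ t ∈ Icc a b, ∀ x, |z / A.D t * A.u t x| ≤ z / A.d * Mu * (1 + |x|) := by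
      intro t ht x
      have hr0 : 0 ≤ z / A.D t := div_nonneg hc.z0.le (A.D_pos t).le
      have hu0 := hb.u_nonneg t (hc.mem ht) x
      rw [abs_of_nonneg (mul_nonneg hr0 hu0), mul_assoc]
      exact mul_le_mul (ratio_le hc t) (hu t (hc.mem ht) x) hu0 hzd
    have key : ∃ M, 0 ≤ M ∧ ∀ t ∈ Icc ε b, a < t → ∀ x,
        |deriv (pd A x0 t) x| ≤ M * (1 + |x|) * pd A x0 t x := by
      rcases eq_or_lt_of_le hc.a0 with h | h
      · have hT := th_zero hB hc hp h.symm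
        refine ⟨z / A.d * Mu + (1 + |x0|) / ε, by positivity, fun t ht hat x => ?_⟩
        have htp : 0 < t := lt_of_lt_of_le hε ht.1
        have htT : t ∈ Ioc 0 A.T := ⟨htp, ht.2.trans hc.bT⟩
        have hpp := (pd_sg hB x0 t htT).2 x
        rw [hT.form t ⟨hat, ht.2⟩ x, abs_mul, abs_of_pos hpp]
        refine mul_le_mul_of_nonneg_right ?_ hpp.le
        refine (abs_add_le _ _).trans ?_
        rw [add_mul]
        refine add_le_add (hdrift t ⟨hat.le, ht.2⟩ x) ?_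
        rw [abs_div, abs_neg, abs_of_pos htp, div_mul_eq_mul_div]
        have h1 : |x - x0| ≤ (1 + |x0|) * (1 + |x|) := by
          have h2 := abs_sub x x0
          have h3 : 0 ≤ |x0| * |x| := by positivity
          linarith
        exact div_le_div₀ (by positivity) h1 hε ht.1
      · have haT : a ∈ Ioc 0 A.T := ⟨h, hc.ab.le.trans hc.bT⟩
        obtain ⟨hsg, hpos⟩ := pd_sg hB x0 a haT
        obtain ⟨Ma, hMa, hMa2⟩ := ih (min ε a) (lt_min hε h)
        have hMa3 := hMa2 a ⟨min_le_right _ _, le_rfl⟩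
        have hq := qa_sg (z := z) hB hc hsg
        have hqpos : ∀ x, 0 < qa A x0 z a x := fun x => div_pos (hpos x) (Gz_pos A z a x)
        -- growth of `qa`
        have hqg : ∀ x, |deriv (qa A x0 z a) x| ≤
            (Ma + z / A.d * Mu) * (1 + |x|) * qa A x0 z a x := by
          intro x
          have hg0 := Gz_pos A z a x
          have h1 := (hsg.hd x).fun_div (Gz_x hB z (hc.mem hc.aI) x) hg0.ne'
          have h2 : deriv (qa A x0 z a) x = (deriv (pd A x0 a) x -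
              z / A.D a * A.u a x * pd A x0 a x) / Gz A z a x := by
            have h3 : HasDerivAt (qa A x0 z a) _ x := h1
            rw [h3.deriv]
            field_simp
          rw [h2, abs_div, abs_of_pos hg0]
          unfold qa
          rw [← mul_div_assoc]
          refine div_le_div_of_nonneg_right ?_ hg0.le
          have h4 : |z / A.D a * A.u a x * pd A x0 a x| ≤
              z / A.d * Mu * (1 + |x|) * pd A x0 a x := by
            rw [abs_mul, abs_of_pos (hpos x)]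
            exact mul_le_mul_of_nonneg_right (hdrift a hc.aI x) (hpos x).le
          calc |deriv (pd A x0 a) x - z / A.D a * A.u a x * pd A x0 a x|
              ≤ |deriv (pd A x0 a) x| + |z / A.D a * A.u a x * pd A x0 a x| := abs_sub _ _
            _ ≤ Ma * (1 + |x|) * pd A x0 a x + z / A.d * Mu * (1 + |x|) * pd A x0 a x :=
              add_le_add (hMa3 x) h4
            _ = _ := by ring
        have hkl := kappa_lt hc hc.bI
        rw [Real.sq_sqrt (by linarith [hc.ab])] at hkl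
        obtain ⟨M', hM', hM'2⟩ := log_growth (kappa_nonneg hc) (L := b - a)
          (by linarith [hc.ab]) hkl hq hqpos hqg
        obtain ⟨θ, θ1, θ2, hT, hθ⟩ := th_pos hB hc hp h
        refine ⟨z / A.d * Mu + M', by positivity, fun t ht hat x => ?_⟩
        have htI : t ∈ Icc a b := ⟨hat.le, ht.2⟩
        have htT : t ∈ Ioc 0 A.T := ⟨h.trans hat, ht.2.trans hc.bT⟩
        have hpp := (pd_sg hB x0 t htT).2 x
        rw [hT.form t ⟨hat, ht.2⟩ x, abs_mul, abs_of_pos hpp]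
        refine mul_le_mul_of_nonneg_right ?_ hpp.le
        refine (abs_add_le _ _).trans ?_
        rw [add_mul]
        refine add_le_add (hdrift t htI x) ?_
        rw [hθ]
        have hQ0 : 0 < Qk A a (qa A x0 z a) t x :=
          GG_534.H_pos (kappa_nonneg hc) hq.gg hqpos (kappa_lt hc htI) x
        rw [abs_div, abs_of_pos hQ0, div_le_iff₀ hQ0]
        exact hM'2 (Real.sqrt (t - a)) (by
          rw [Real.sq_sqrt (by linarith)]
          linarith [ht.2]) x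
    obtain ⟨M1, hM1, hM1'⟩ := ih ε hε
    obtain ⟨M3, hM3, hM3'⟩ := key
    refine ⟨M1 + M3, by positivity, fun t ht x => ?_⟩
    have htp : 0 < t := lt_of_lt_of_le hε ht.1
    have htT : t ∈ Ioc 0 A.T := ⟨htp, ht.2.trans hc.bT⟩
    have hpp := (pd_sg hB x0 t htT).2 x
    have h0 : 0 ≤ (1 + |x|) * pd A x0 t x := by positivity
    rcases le_or_gt t a with h | h
    · have h1 := hM1' t ⟨ht.1, h⟩ x
      nlinarith
    · have h1 := hM3' t ht h x
      nlinarith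

theorem Y_le {A : SD} (hB : Back A) (x0 : ℝ) {ε : ℝ} (hε : 0 < ε) : ∃ M, 0 ≤ M ∧
    ∀ t ∈ Icc ε A.T, ∀ x, |Yp A x0 t x| ≤ M * (1 + |x|) := by
  obtain ⟨M, hM, h⟩ := pd_log_growth hB x0 ε hε
  refine ⟨M, hM, fun t ht x => ?_⟩
  have hpp := (pd_sg hB x0 t ⟨lt_of_lt_of_le hε ht.1, ht.2⟩).2 x
  unfold Yp
  rw [abs_div, abs_neg, abs_of_pos hpp, div_le_iff₀ hpp]
  exact h t ht x

theorem bl_bd (A : SD) : ∃ M, 0 ≤ M ∧ ∀ t ∈ Ioc 0 A.T, A.bl t ≤ M := by
  refine cells_induct A 0 (fun s => ∃ M, 0 ≤ M ∧ ∀ t ∈ Ioc 0 s, A.bl t ≤ M) ?_ ?_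
  · exact ⟨0, le_rfl, fun t ht => absurd ht.1 (not_lt.2 ht.2)⟩
  · rintro a b z hc _ ⟨M, hM, h⟩
    have hzd : 0 ≤ z / A.d := div_nonneg hc.z0.le A.hd.le
    refine ⟨M + z / A.d, by positivity, fun t ht => ?_⟩
    rcases le_or_gt t a with h1 | h1
    · have := h t ⟨ht.1, h1⟩
      linarith
    · rw [bl_eq hc ⟨h1, ht.2⟩]
      have := ratio_le hc t
      linarith

end

end Crest.Agent.R146.YB_534
end

-- ▼ part R146/Law_534
section

/-!
Row 146 (PT-STEP, helper534): **R2**, the law of the step system.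
`theorem law (A : SD) (hB : Back A) (x0 : ℝ) : Law A x0 (pd A x0) (Yp A x0) (Yxp A x0) (Yxxp A x0)`.
-/

set_option autoImplicit false

namespace Crest.Agent.R146.Law_534

open MeasureTheory ProbabilityTheory Filter Topology Set
open Crest.ProbabilityR.InvariantGlass
open Crest.Agent.R146.Hg_534 Crest.Agent.R146.PB_534 Crest.Agent.R146.GG_534 Crest.Agent.R146.SG_534
open Crest.Agent.R146.StepDef_791 Crest.Agent.R146.Cell_534
open Crest.Agent.R146.PD_534 Crest.Agent.R146.LawA_534 Crest.Agent.R146.YB_534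
open Crest.Agent.R146.TiltB_534
open Crest.Agent.R146.MaxPCmp2_371 (YSys)

noncomputable section

theorem p_cont {A : SD} (hB : Back A) (x0 : ℝ) :
    ContinuousOn (fun q : ℝ × ℝ => pd A x0 q.1 q.2) (Ioc 0 A.T ×ˢ univ) := by
  rintro ⟨t, x⟩ ⟨ht, _⟩
  have ht0 : 0 < t := ht.1
  have h1 := pd_cont hB x0 (half_pos ht0) (t, x) ⟨⟨by simp only; linarith, ht.2⟩, mem_univ _⟩
  refine h1.mono_of_mem_nhdsWithin ?_
  have h2 : {q : ℝ × ℝ | t / 2 < q.1} ∈ 𝓝 (t, x) :=
    (isOpen_lt continuous_const continuous_fst).mem_nhds (by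
      show t / 2 < t
      linarith)
  filter_upwards [mem_nhdsWithin_of_mem_nhds h2, self_mem_nhdsWithin] with q hq1 hq2
  have hq3 : t / 2 < q.1 := hq1
  exact ⟨⟨hq3.le, hq2.1.2⟩, mem_univ _⟩

theorem p_x {A : SD} (hB : Back A) (x0 : ℝ) {t : ℝ} (ht : t ∈ Ioc 0 A.T) (x : ℝ) :
    HasDerivAt (pd A x0 t) (-Yp A x0 t x * pd A x0 t x) x := by
  obtain ⟨hsg, hpos⟩ := pd_sg hB x0 t ht
  refine (hsg.hd x).congr_deriv ?_
  unfold Yp
  have := (hpos x).ne'
  field_simp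
  try ring

theorem tail {A : SD} (hB : Back A) (x0 : ℝ) {t : ℝ} (ht : t ∈ Ioc 0 A.T) (n : ℕ) :
    Tendsto (fun x => pd A x0 t x * (1 + |x|) ^ n) (cocompact ℝ) (𝓝 0) := by
  obtain ⟨hsg, hpos⟩ := pd_sg hB x0 t ht
  obtain ⟨M, hM, hYM⟩ := Y_le hB x0 ht.1
  have hY := hYM t ⟨le_rfl, ht.2⟩
  have hint : ∀ m : ℕ, Integrable (fun x => pd A x0 t x * (1 + |x|) ^ m) := by
    intro m
    obtain ⟨C, hC⟩ := mom hB x0 m
    exact (hC t ht).1
  have hYc : Continuous (Yp A x0 t) :=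
    continuous_iff_continuousAt.2 fun x => (YB_534.Yx hB x0 ht x).continuousAt
  have hpc := hsg.cont
  -- the smooth comparison function
  set f : ℝ → ℝ := fun x => pd A x0 t x * (1 + x ^ 2) ^ n with hf
  have hbase : ∀ x : ℝ, 1 + x ^ 2 ≤ (1 + |x|) ^ 2 := by
    intro x
    rw [← sq_abs x]
    nlinarith [abs_nonneg x]
  have hbasen : ∀ (k : ℕ) (x : ℝ), (1 + x ^ 2) ^ k ≤ (1 + |x|) ^ (2 * k) := by
    intro k x
    rw [pow_mul]
    exact pow_le_pow_left₀ (by positivity) (hbase x) k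
  have hd : ∀ x, HasDerivAt f (-Yp A x0 t x * pd A x0 t x * (1 + x ^ 2) ^ n +
      pd A x0 t x * (n * (1 + x ^ 2) ^ (n - 1) * (2 * x))) x := by
    intro x
    have h1 : HasDerivAt (fun x : ℝ => 1 + x ^ 2) (2 * x) x := by
      have := ((hasDerivAt_id' x).fun_pow 2).const_add 1
      simpa using this
    exact (p_x hB x0 ht x).fun_mul (h1.fun_pow n)
  have hfi : Integrable f := by
    refine Integrable.mono' (hint (2 * n)) (by fun_prop) (Eventually.of_forall fun x => ?_)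
    rw [Real.norm_eq_abs, hf, abs_of_nonneg (mul_nonneg (hpos x).le (by positivity))]
    exact mul_le_mul_of_nonneg_left (hbasen n x) (hpos x).le
  have hfi' : Integrable (fun x => -Yp A x0 t x * pd A x0 t x * (1 + x ^ 2) ^ n +
      pd A x0 t x * (n * (1 + x ^ 2) ^ (n - 1) * (2 * x))) := by
    refine Integrable.mono' ((hint (1 + 2 * n)).const_mul (M + 2 * n)) (by fun_prop)
      (Eventually.of_forall fun x => ?_)
    rw [Real.norm_eq_abs]
    have hp := (hpos x).le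
    have h1 : |(-Yp A x0 t x * pd A x0 t x * (1 + x ^ 2) ^ n)| ≤
        M * (pd A x0 t x * (1 + |x|) ^ (1 + 2 * n)) := by
      rw [abs_mul, abs_mul, abs_neg, abs_of_nonneg hp, abs_of_nonneg (by positivity :
        (0:ℝ) ≤ (1 + x ^ 2) ^ n)]
      calc |Yp A x0 t x| * pd A x0 t x * (1 + x ^ 2) ^ n
          ≤ (M * (1 + |x|)) * pd A x0 t x * (1 + |x|) ^ (2 * n) := by
            refine mul_le_mul (mul_le_mul_of_nonneg_right (hY x) hp) (hbasen n x)
              (by positivity) (by positivity)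
        _ = _ := by rw [pow_add]; ring
    have h2 : |pd A x0 t x * (n * (1 + x ^ 2) ^ (n - 1) * (2 * x))| ≤
        2 * n * (pd A x0 t x * (1 + |x|) ^ (1 + 2 * n)) := by
      rw [abs_mul, abs_mul, abs_mul, abs_mul, abs_of_nonneg hp, abs_of_nonneg (by positivity :
        (0:ℝ) ≤ (1 + x ^ 2) ^ (n - 1)), abs_of_nonneg (by norm_num : (0:ℝ) ≤ 2),
        abs_of_nonneg (Nat.cast_nonneg n : (0:ℝ) ≤ (n:ℝ))]
      have h3 : (1 + x ^ 2) ^ (n - 1) * |x| ≤ (1 + |x|) ^ (1 + 2 * n) := by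
        calc (1 + x ^ 2) ^ (n - 1) * |x| ≤ (1 + |x|) ^ (2 * (n - 1)) * (1 + |x|) :=
              mul_le_mul (hbasen _ x) (by linarith) (abs_nonneg x) (by positivity)
          _ = (1 + |x|) ^ (2 * (n - 1) + 1) := by rw [pow_succ]
          _ ≤ _ := pow_le_pow_right₀ (one_le_base x) (by omega)
      calc pd A x0 t x * (n * (1 + x ^ 2) ^ (n - 1) * (2 * |x|))
          = 2 * n * (pd A x0 t x * ((1 + x ^ 2) ^ (n - 1) * |x|)) := by ring
        _ ≤ _ := mul_le_mul_of_nonneg_left (mul_le_mul_of_nonneg_left h3 hp) (by positivity)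
    calc _ ≤ _ := abs_add_le _ _
      _ ≤ _ := add_le_add h1 h2
      _ = _ := by ring
  have htop : Tendsto f atTop (𝓝 0) :=
    tendsto_zero_of_hasDerivAt_of_integrableOn_Ioi (a := 0) (fun x _ => hd x)
      hfi'.integrableOn hfi.integrableOn
  have hbot : Tendsto f atBot (𝓝 0) :=
    tendsto_zero_of_hasDerivAt_of_integrableOn_Iic (a := 0) (fun x _ => hd x)
      hfi'.integrableOn hfi.integrableOn
  have hlim : Tendsto (fun x => 2 ^ n * f x) (cocompact ℝ) (𝓝 0) := by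
    rw [cocompact_eq_atBot_atTop]
    have := (hbot.sup htop).const_mul (2 ^ n)
    rwa [mul_zero] at this
  refine squeeze_zero (fun x => mul_nonneg (hpos x).le (by positivity)) (fun x => ?_) hlim
  have h1 : 1 + |x| ≤ 2 * (1 + x ^ 2) := by
    rw [← sq_abs x]
    nlinarith [sq_nonneg (|x| - 1), sq_nonneg |x|]
  have h2 : (1 + |x|) ^ n ≤ 2 ^ n * (1 + x ^ 2) ^ n := by
    rw [← mul_pow]
    exact pow_le_pow_left₀ (by positivity) h1 n
  calc pd A x0 t x * (1 + |x|) ^ n ≤ pd A x0 t x * (2 ^ n * (1 + x ^ 2) ^ n) :=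
        mul_le_mul_of_nonneg_left h2 (hpos x).le
    _ = 2 ^ n * f x := by rw [hf]; ring

theorem ysys {A : SD} (hB : Back A) (x0 : ℝ) {t0 : ℝ} (ht0 : t0 ∈ Ioo 0 A.T) :
    ∃ M, YSys t0 A.T A.bl A.u A.V A.P (Yp A x0) (Yxp A x0) (Yxxp A x0) M := by
  obtain ⟨M1, hM1, hY⟩ := Y_le hB x0 ht0.1
  obtain ⟨M2, hM2, hbl⟩ := bl_bd A
  obtain ⟨M3, hM3, hu⟩ := exists_M hB
  obtain ⟨M4, hb⟩ := hB.bsys
  have hsub : ∀ t ∈ Icc t0 A.T, t ∈ Ioc 0 A.T := fun t ht => ⟨lt_of_lt_of_le ht0.1 ht.1, ht.2⟩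
  have hsub' : ∀ t ∈ Icc t0 A.T, t ∈ Icc 0 A.T := fun t ht => ⟨ht0.1.le.trans ht.1, ht.2⟩
  refine ⟨M1 + M2 + M2 * M3, ⟨Y_cont hB x0 ht0.1, ?_, ?_, ?_, ?_, ?_, ?_, ?_, ?_⟩⟩
  · exact fun t ht x => Yt hB x0 (hsub t ⟨ht.1.le, ht.2⟩) x
  · exact fun t ht x => YB_534.Yx hB x0 (hsub t ⟨ht.1.le, ht.2⟩) x
  · exact fun t ht x => YB_534.Yxx hB x0 (hsub t ⟨ht.1.le, ht.2⟩) x
  · exact fun t _ => A.bl_nonneg t
  · intro t ht
    have := hbl t (hsub t ht)
    have : 0 ≤ M2 * M3 := by positivity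
    linarith
  · exact fun t ht x => (hb.V_pos t (hsub' t ht) x).le
  · intro t ht x
    have h1 := hY t ht x
    have h2 := hbl t (hsub t ht)
    have h3 := hu t (hsub' t ht) x
    have h4 := hb.u_nonneg t (hsub' t ht) x
    have h5 := A.bl_nonneg t
    have h6 : A.bl t * A.u t x ≤ M2 * (M3 * (1 + |x|)) := mul_le_mul h2 h3 h4 hM2
    have h7 := abs_add_le (Yp A x0 t x) (A.bl t * A.u t x)
    rw [abs_of_nonneg (mul_nonneg h5 h4)] at h7
    have h8 : 0 ≤ M2 * (1 + |x|) := by positivity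
    have e : (M1 + M2 + M2 * M3) * (1 + |x|) =
        M1 * (1 + |x|) + M2 * (1 + |x|) + M2 * (M3 * (1 + |x|)) := by ring
    rw [e]
    linarith
  · intro t ht x
    have h1 := hY t ht x
    have h8 : 0 ≤ M2 * (1 + |x|) := by positivity
    have h9 : 0 ≤ M2 * (M3 * (1 + |x|)) := by positivity
    have e : (M1 + M2 + M2 * M3) * (1 + |x|) =
        M1 * (1 + |x|) + M2 * (1 + |x|) + M2 * (M3 * (1 + |x|)) := by ring
    rw [e]
    linarith

/-- **R2** -/
theorem law (A : SD) (hB : Back A) (x0 : ℝ) :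
    Law A x0 (pd A x0) (Yp A x0) (Yxp A x0) (Yxxp A x0) where
  p_pos := fun t ht x => (pd_sg hB x0 t ht).2 x
  p_cont := p_cont hB x0
  p_x := fun _ ht x => p_x hB x0 ht x
  mass := fun _ ht => mass hB x0 ht
  mom := fun n => mom hB x0 n
  tail := fun _ ht n => tail hB x0 ht n
  ysys := fun _ ht0 => ysys hB x0 ht0
  ex_cont := fun _ _ _ _ _ hT => LawA_534.ex_cont hB x0 hT
  ex_r := fun _ _ _ _ _ hT _ ht => LawA_534.ex_r hB x0 hT ht
  ex_l := fun _ _ _ _ _ hT _ ht => LawA_534.ex_l hB x0 hT ht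

end

end Crest.Agent.R146.Law_534
end

-- ▼ part R146/Start_384
section

/-!
Row 146: `StepAsm_791.START` (helper384): one-sided bounds of the slope of the law at a fixed time,
uniform in the step datum.
-/

set_option autoImplicit false

open Set Filter Topology

namespace Crest.Agent.R146.Start_384

open StepDef_791 FlatStep_384

lemma bl_le {A : SD} {t0 B : ℝ} (h : ∀ t ∈ Icc 0 t0, A.b t ≤ B) {t : ℝ} (ht : t ∈ Ioc 0 t0) :
    A.bl t ≤ B := by
  obtain ⟨η, hη, -, hm, -⟩ := StepClk_900.left_struct A t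
  have h1 : Tendsto (fun s => A.ml t / A.D s) (𝓝[<] t) (𝓝 (A.ml t / A.D t)) :=
    (tendsto_const_nhds.div ((StepClk_900.D_cont A).tendsto t) (A.D_pos t).ne').mono_left
      nhdsWithin_le_nhds
  have h2 : ∀ᶠ s in 𝓝[<] t, A.ml t / A.D s ≤ B := by
    have h3 : ∀ᶠ s in 𝓝[<] t, max 0 (t - η) < s :=
      (eventually_gt_nhds (max_lt ht.1 (by linarith))).filter_mono nhdsWithin_le_nhds
    filter_upwards [h3, self_mem_nhdsWithin] with s hs hst
    have h4 : 0 < s := (le_max_left _ _).trans_lt hs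
    have h5 : t - η < s := (le_max_right _ _).trans_lt hs
    have hst' : s < t := hst
    have h6 := h s ⟨h4.le, hst'.le.trans ht.2⟩
    unfold SD.b at h6
    rwa [hm s ⟨h5.le, hst'⟩] at h6
  exact le_of_tendsto h1 h2

/-- `b ≤ ...` in the form `b (1-t) ≤ 1` -/
theorem start : StepAsm_791.START := by
  intro t0 ht0 B
  set B' := max B 0 with hB'
  set m := mst B' (√(1 - t0))⁻¹ t0 with hm
  refine ⟨1 / t0 + m, ?_⟩
  intro A p Y Yx Yxx hL hfirst ht0T hν hb x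
  obtain ⟨s1, hs1, hf⟩ := hfirst
  have hBk := Back_847.back A
  have hν' : ∀ t ∈ Ico 0 A.T, A.b t * (1 - t) ≤ 1 := fun t ht => by
    rw [mul_comm]; exact hν t ht
  have hB0 : 0 ≤ B' := le_max_right _ _
  have hBt : ∀ t ∈ Ioc 0 t0, A.bl t ≤ B' := fun t ht => (bl_le hb ht).trans (le_max_left _ _)
  have hP0 : 0 ≤ (√(1 - t0))⁻¹ := by positivity
  have hm0 : 0 ≤ m := by rw [hm]; unfold mst; positivity
  have hU : ∀ t ∈ Ioc 0 t0, A.u t 1 ≤ 1 := fun t ht =>
    step_u_x0 hBk hν' ⟨ht.1.le, ht.2.trans ht0T.le⟩ zero_le_one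
  have h1 := start_up (x0 := 1) hBk hL.ysys ⟨s1, hs1.1, hf⟩ ht0T.le hB0 hBt hP0
    (step_P_le' hBk hν' ht0T.le) hU t0 ⟨ht0.1, le_refl _⟩ x
  have h2 := start_low (x0 := 1) hBk hL.ysys ⟨s1, hs1.1, hf⟩ ht0T.le hB0 hBt hP0
    (step_P_le' hBk hν' ht0T.le) hU t0 ⟨ht0.1, le_refl _⟩ x
  rw [← hm] at h1 h2
  have htI : t0 ∈ Icc 0 A.T := ⟨ht0.1.le, ht0T.le⟩
  have hu := hBk.u_pos t0 htI x
  have hw := hBk.w_pos t0 htI x
  have hwe : A.w t0 x = x + A.u t0 x := rfl
  have ht0p := ht0.1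
  have hx1 : (x - 1) / t0 ≤ 1 / t0 * A.w t0 x := by
    rw [div_le_iff₀ ht0p]
    have : 1 / t0 * A.w t0 x * t0 = A.w t0 x := by field_simp
    rw [this, hwe]; linarith
  have hx2 : -(1 / t0 * (1 + A.u t0 x)) ≤ (x - 1) / t0 := by
    rw [le_div_iff₀ ht0p]
    have : -(1 / t0 * (1 + A.u t0 x)) * t0 = -(1 + A.u t0 x) := by field_simp
    rw [this]; linarith
  have hmw : 0 ≤ m * A.w t0 x := mul_nonneg hm0 hw.le
  have ht0i : 0 ≤ 1 / t0 := by positivity
  constructor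
  · nlinarith
  · nlinarith

end Crest.Agent.R146.Start_384
end

-- ▼ part R146/PtRefAsm_847
section

/-!
Row 146, PT (helper847): ASSEMBLY `winref_of : SLOPE → LAW → CLOS → WINREF`.
-/

set_option autoImplicit false

namespace Crest.Agent.R146.PtRefAsm_847

open MeasureTheory ProbabilityTheory Set Filter Topology
open Crest.Agent.R146.StepDef_791 Crest.Agent.R146.StepApx_856 Crest.Agent.R146.TipSeq_791
open Crest.Agent.R146.PtScalA_45 (Prof)
open Crest.Agent.R146.PtRef_846 Crest.Agent.R146.PtLim_847 Crest.Agent.R146.PtRefIf_847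
open Crest.Agent.R146.WinLim_746 Crest.Agent.R146.StepAppr_522
open Crest.Agent.R146.YW_177 (sN thN sN_pos)

noncomputable section

variable {P : Prof} {T S : ℝ → ℝ}

theorem bchi (A : SD) (t : ℝ) : A.b t * A.chi t = A.m t * A.K0 t := by
  have := (A.D_pos t).ne'
  unfold SD.b SD.chi
  field_simp

theorem SB.mono {A : SD} (hB : Back A) (hC : Clock A) {D : WData} {e e' t : ℝ} (ht : t ∈ Icc 0 A.T)
    (hp : ∀ v ∈ Ioo (0:ℝ) 1, 0 < D.Kp v) (hm : ∀ v ∈ Ioo (0:ℝ) 1, 0 < D.Km v) (he : e ≤ e')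
    (h : SB A D e t) : SB A D e' t := by
  intro x
  obtain ⟨h1, h2⟩ := h x
  have hs := sN_pos hC (ht.2.trans_lt A.hT1)
  have hV := V_bd hB ht x
  have a1 := mul_pos hs (hm _ hV)
  have a2 := mul_pos hs (hp _ hV)
  constructor
  · refine le_trans ?_ h1
    nlinarith
  · refine h2.trans ?_
    nlinarith

theorem LB.mono {A : SD} (hC : Clock A) {Y : ℝ → ℝ → ℝ} {D : WData} {e e' t : ℝ} (ht : t < 1)
    (hu : ∀ x, 0 ≤ A.u t x) (hw : ∀ x, 0 ≤ A.w t x) (he : e ≤ e')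
    (h : LB A Y D e t) : LB A Y D e' t := by
  intro x
  obtain ⟨h1, h2, h3⟩ := h x
  have hs := sN_pos hC ht
  have a1 : 0 ≤ sN A t * A.u t x := mul_nonneg hs.le (hu x)
  have a2 : 0 ≤ sN A t * A.w t x := mul_nonneg hs.le (hw x)
  have b1 : e * (1 + sN A t * A.u t x) ≤ e' * (1 + sN A t * A.u t x) :=
    mul_le_mul_of_nonneg_right he (by linarith)
  have b2 : e * (1 + sN A t * A.w t x) ≤ e' * (1 + sN A t * A.w t x) :=
    mul_le_mul_of_nonneg_right he (by linarith)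
  refine ⟨?_, ?_, ?_⟩
  · exact (mul_le_mul_of_nonneg_left (by linarith) hs.le).trans h1
  · exact (neg_le_neg (mul_le_mul_of_nonneg_left b1 hs.le)).trans h2
  · exact h3.trans (mul_le_mul_of_nonneg_left (by linarith) hs.le)

/-- `C (K0 q1 / K0 t)^k` is small, eventually, for `q1` close to `1` -/
theorem ratio_small (Q : PreSeq P T S) {C k ε : ℝ} (hk : 0 < k) (hε : 0 < ε) {t : ℝ}
    (ht : t ∈ Ico (0 : ℝ) 1) :
    ∃ q1 ∈ Ioo t 1, ∀ᶠ n in atTop, C * ((Q.A n).K0 q1 / (Q.A n).K0 t) ^ k ≤ ε := by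
  have hKt : 0 < Ks P.D t := by
    have h1 := (Q.apx 0).K0_le t ⟨ht.1, ht.2.le⟩
    exact ((Q.clock 0).K0_pos t ht.2).trans_le h1
  -- continuity at `0`
  have hcont : Tendsto (fun r : ℝ => C * r ^ k) (𝓝 0) (𝓝 0) := by
    have h1 : ContinuousAt (fun r : ℝ => C * r ^ k) 0 :=
      continuousAt_const.mul (Real.continuousAt_rpow_const 0 k (Or.inr hk.le))
    have h2 := h1.tendsto
    simpa [Real.zero_rpow hk.ne'] using h2
  obtain ⟨δ, hδ, hδ'⟩ := Metric.eventually_nhds_iff.1 (hcont.eventually (gt_mem_nhds hε))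
  obtain ⟨tb, hb0, hb1, hb2⟩ := WinTail_746.tail_small Q.int1 (ε := δ / 2 * Ks P.D t) (by positivity)
  set q1 : ℝ := (max t tb + 1) / 2 with hq1
  have hm1 : max t tb < 1 := max_lt ht.2 hb1
  have hq1I : q1 ∈ Ioo t 1 := by
    have := le_max_left t tb
    constructor
    · rw [hq1]; linarith
    · rw [hq1]; linarith
  have hq1b : q1 ∈ Ico tb 1 := by
    have := le_max_right t tb
    exact ⟨by rw [hq1]; linarith, hq1I.2⟩
  refine ⟨q1, hq1I, ?_⟩
  have hK1 : Ks P.D q1 ≤ δ / 2 * Ks P.D t := (le_abs_self _).trans (hb2 q1 hq1b)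
  have hlim : Tendsto (fun n => (Q.A n).K0 q1 / (Q.A n).K0 t) atTop (𝓝 (Ks P.D q1 / Ks P.D t)) :=
    (K0_lim Q ⟨ht.1.trans hq1I.1.le, hq1I.2.le⟩).div (K0_lim Q ⟨ht.1, ht.2.le⟩) hKt.ne'
  have hlt : Ks P.D q1 / Ks P.D t < δ := by
    rw [div_lt_iff₀ hKt]
    nlinarith
  filter_upwards [hlim.eventually (gt_mem_nhds hlt)] with n hn
  have h1 : 0 < (Q.A n).K0 q1 / (Q.A n).K0 t :=
    div_pos ((Q.clock n).K0_pos _ hq1I.2) ((Q.clock n).K0_pos _ ht.2)
  exact (hδ' (by rw [Real.dist_eq, sub_zero, abs_of_pos h1]; exact hn)).le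

/-- exact step windows -/
theorem windows (Q : PreSeq P T S) {lo hi e : ℝ} (he : 0 < e) (hw : Win P 1 lo hi) :
    ∃ t3 ∈ Ioo (0 : ℝ) 1, (∀ᶠ n in atTop, (∀ x ∈ Ico t3 (Q.A n).T, (Q.A n).b x * (Q.A n).chi x ≤ hi + e)
        ∧ ∀ x ∈ Icc t3 (Q.A n).T, (Q.A n).ml x * (Q.A n).K0 x ≤ hi + e) ∧
      ∀ q < 1, ∀ᶠ n in atTop, ∀ x ∈ Icc t3 q, lo - e ≤ (Q.A n).b x * (Q.A n).chi x ∧
        lo - e ≤ (Q.A n).ml x * (Q.A n).K0 x := by
  obtain ⟨ta, ha1, ha0, hY⟩ := hw (e / 2) (by positivity)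
  have hY' : ∀ x ∈ Ico ta 1, lo - e / 2 ≤ P.m x * Ks P.D x ∧ P.m x * Ks P.D x ≤ hi + e / 2 := by
    intro x hx
    have := hY x hx
    unfold Ystar at this
    rwa [if_neg (by decide)] at this
  have hlt : ta < (ta + 1) / 2 := by linarith
  have hlt1 : (ta + 1) / 2 < 1 := by linarith
  refine ⟨(ta + 1) / 2, ⟨by linarith, hlt1⟩, ?_, ?_⟩
  · filter_upwards [ev_win_up Q.apx Q.ε_lim ha0 hlt hlt1 (fun x hx => (hY' x hx).2)
      (δ := e / 2) (by positivity)] with n hn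
    refine ⟨fun x hx => ?_, fun x hx => ?_⟩
    · rw [bchi]; have := hn.1 x hx; linarith
    · have := hn.2 x hx; linarith
  · intro q hq
    filter_upwards [ev_win_lo Q.apx Q.ε_lim ha0 hlt hlt1 hq (fun x hx => (hY' x hx).1)
      (δ := e / 2) (by positivity)] with n hn x hx
    have := hn x hx
    rw [bchi]
    constructor
    · linarith [this.1]
    · linarith [this.2]

theorem u_nonneg {A : SD} (hB : Back A) {t : ℝ} (ht : t ∈ Icc 0 A.T) (x : ℝ) : 0 ≤ A.u t x :=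
  (hB.u_pos t ht x).le

theorem w_nonneg {A : SD} (hB : Back A) {t : ℝ} (ht : t ∈ Icc 0 A.T) (x : ℝ) : 0 ≤ A.w t x :=
  (hB.w_pos t ht x).le

/-- **WINREF** from the three step-level theorems. -/
theorem winref_of (hS : SLOPE) (hL : LAW) (hCl : CLOS) : WINREF := by
  intro P TS lo hi tlo thi e0 κ M D h hw
  set Q := TS.seq with hQ
  have he0 := h.e0_pos
  obtain ⟨t3, ht3, w1, w2⟩ := windows Q he0 hw
  obtain ⟨C, k, hC0, hk, hS'⟩ := hS h
  -- slope bands, `Late` with the fixed left end `t3`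
  have slope : ∀ ε : ℝ, 0 < ε → ∀ q ∈ Ioo t3 1, ∀ᶠ n in atTop, ∀ t ∈ Icc t3 q, SB (Q.A n) D ε t := by
    intro ε hε q hq
    have hq0 : 0 ≤ q := ht3.1.le.trans hq.1.le
    obtain ⟨q1, hq1, hr⟩ := ratio_small Q (C := C) hk hε ⟨hq0, hq.2⟩
    filter_upwards [hr, w1, w2 q1 hq1.2, ev_T Q hq1.2] with n hn hn1 hn2 hnT t ht
    have hcl := Q.clock n
    have htT : t ∈ Icc 0 (Q.A n).T := ⟨ht3.1.le.trans ht.1, ht.2.trans (hq1.1.le.trans hnT.le)⟩
    have h1 := hS' (Q.A n) (Q.back n) hcl t3 q1 ht3.1.le (hq.1.le.trans hq1.1.le) hnT.le hn1.1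
      (fun s hs => (hn2 s ⟨hs.1, hs.2.le⟩).1) t ⟨ht.1, ht.2.trans hq1.1.le⟩
    refine SB.mono (Q.back n) hcl htT h.Kp_pos h.Km_pos ?_ h1
    refine le_trans ?_ hn
    have ht1 : t < 1 := ht.2.trans_lt hq.2
    have hKq := hcl.K0_pos q hq.2
    have hKt := hcl.K0_pos t ht1
    have hK1 := hcl.K0_pos q1 hq1.2
    have hanti : (Q.A n).K0 q ≤ (Q.A n).K0 t := (StepClk_900.K0_anti (Q.A n)).antitone ht.2
    refine mul_le_mul_of_nonneg_left ?_ hC0
    refine Real.rpow_le_rpow (div_pos hK1 hKt).le ?_ hk.le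
    exact div_le_div_of_nonneg_left hK1.le hKq hanti
  -- start of the law
  set t4 : ℝ := (t3 + 1) / 2 with ht4
  have ht4I : t4 ∈ Ioo (0 : ℝ) 1 := ⟨by rw [ht4]; linarith [ht3.1], by rw [ht4]; linarith [ht3.2]⟩
  have ht34 : t3 < t4 := by rw [ht4]; linarith [ht3.2]
  obtain ⟨C1, hC1⟩ := Q.Ys t4 ht4I
  set C0 : ℝ := max C1 1 with hC0'
  have hC00 : 0 < C0 := lt_max_of_lt_right one_pos
  -- lower bound of the scale at `t4`
  obtain ⟨s0, hs0, hs0'⟩ : ∃ s0 > 0, ∀ᶠ n in atTop, s0 ≤ sN (Q.A n) t4 := by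
    have h1 := sc_lim Q true (t := t4) ⟨ht4I.1.le, ht4I.2⟩
    set χ := scs true P t4 with hχ
    have hχ0 : 0 ≤ χ := ge_of_tendsto h1 (Eventually.of_forall fun n => by
      have := sc_ge (Q.clock n) true ht4I.2
      linarith [ht4I.2])
    refine ⟨(Real.sqrt (χ + 1))⁻¹, by positivity, ?_⟩
    filter_upwards [h1.eventually (gt_mem_nhds (lt_add_one χ))] with n hn
    have h2 : (Q.A n).chi t4 < χ + 1 := by simpa [sc] using hn
    have h3 := (Q.clock n).chi_pos t4 ht4I.2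
    unfold sN
    exact inv_anti₀ (Real.sqrt_pos.2 h3) (Real.sqrt_le_sqrt h2.le)
  obtain ⟨θ, k', hθ0, hk', hL'⟩ := hL h C0 s0 hC00 hs0
  -- law bands with a transient
  have law0 : ∀ q ∈ Ioo t4 1, ∀ᶠ n in atTop, ∀ t ∈ Icc t4 q,
      LB (Q.A n) (Q.Y n) D (θ * ((Q.A n).K0 t / (Q.A n).K0 t4) ^ k') t := by
    intro q hq
    filter_upwards [slope (e0 / 2) (by positivity) q ⟨ht34.trans hq.1, hq.2⟩, hC1, hs0', w1,
      w2 q hq.2, ev_T Q hq.2] with n hn1 hn2 hn3 hn4 hn5 hnT t ht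
    have hcl := Q.clock n
    have ht4T : t4 ∈ Icc 0 (Q.A n).T := ⟨ht4I.1.le, hq.1.le.trans hnT.le⟩
    refine hL' (Q.A n) (Q.back n) hcl _ _ _ _ (Q.law n) t4 q ht4I.1 hq.1 hnT.le hn3 ?_ ?_ ?_ t ht
    · intro s hs
      exact ⟨(hn5 s ⟨ht34.le.trans hs.1, hs.2⟩).2, hn4.2 s ⟨ht34.le.trans hs.1, hs.2.trans hnT.le⟩⟩
    · intro s hs
      exact hn1 s ⟨ht34.le.trans hs.1, hs.2⟩
    · intro x
      obtain ⟨a1, a2⟩ := hn2 x
      have hu := u_nonneg (Q.back n) ht4T x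
      have hw' := w_nonneg (Q.back n) ht4T x
      have hcc : C1 ≤ C0 := le_max_left _ _
      constructor
      · refine le_trans (neg_le_neg ?_) a1
        exact mul_le_mul_of_nonneg_right hcc (by linarith)
      · exact a2.trans (mul_le_mul_of_nonneg_right hcc (by linarith))
  -- law bands, `Late`
  have law : ∀ ε : ℝ, 0 < ε → ∃ t5 ∈ Ioo t4 1, ∀ q ∈ Ioo t5 1, ∀ᶠ n in atTop, ∀ t ∈ Icc t5 q,
      LB (Q.A n) (Q.Y n) D ε t := by
    intro ε hε
    obtain ⟨t5, ht5, hr⟩ := ratio_small Q (C := θ) hk' hε ⟨ht4I.1.le, ht4I.2⟩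
    refine ⟨t5, ht5, fun q hq => ?_⟩
    filter_upwards [hr, law0 q ⟨ht5.1.trans hq.1, hq.2⟩, ev_T Q hq.2] with n hn hn1 hnT t ht
    have hcl := Q.clock n
    have ht1 : t < 1 := ht.2.trans_lt hq.2
    have htT : t ∈ Icc 0 (Q.A n).T := ⟨ht4I.1.le.trans (ht5.1.le.trans ht.1), ht.2.trans hnT.le⟩
    refine LB.mono hcl ht1 (u_nonneg (Q.back n) htT) (w_nonneg (Q.back n) htT) ?_
      (hn1 t ⟨ht5.1.le.trans ht.1, ht.2⟩)
    refine le_trans ?_ hn
    have hK4 := hcl.K0_pos t4 ht4I.2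
    have hKt := hcl.K0_pos t ht1
    have hanti : (Q.A n).K0 t ≤ (Q.A n).K0 t5 := (StepClk_900.K0_anti (Q.A n)).antitone ht.1
    refine mul_le_mul_of_nonneg_left ?_ hθ0
    refine Real.rpow_le_rpow (div_pos hKt hK4).le ?_ hk'.le
    exact div_le_div_of_nonneg_right hanti hK4.le
  -- closure, `Late`
  have clo : ∀ ε : ℝ, 0 < ε → ∃ t2 ∈ Ico (0 : ℝ) 1, ∀ q ∈ Ioo t2 1, ∀ᶠ n in atTop,
      q < (Q.A n).T ∧ ∀ t ∈ Icc t2 q,
        (Q.A n).chi t * Ns (Q.A n) 1 (Q.p n) t ≤ 2 * (thi + ε) * Zs (Q.A n) 1 (Q.p n) t ∧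
        2 * (tlo - ε) * Zs (Q.A n) 1 (Q.p n) t ≤ (Q.A n).chi t * Ns (Q.A n) 1 (Q.p n) t := by
    intro ε hε
    obtain ⟨e, he, hcl⟩ := hCl h ε hε
    obtain ⟨t5, ht5, hl⟩ := law e he
    have ht50 : 0 < t5 := ht4I.1.trans ht5.1
    refine ⟨t5, ⟨ht50.le, ht5.2⟩, fun q hq => ?_⟩
    filter_upwards [hl q hq, slope e he q ⟨ht34.trans (ht5.1.trans hq.1), hq.2⟩, ev_T Q hq.2]
      with n hn1 hn2 hnT
    refine ⟨hnT, fun t ht => ?_⟩
    exact hcl (Q.A n) (Q.back n) (Q.clock n) _ _ _ _ (Q.law n) t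
      ⟨ht50.trans_le ht.1, ht.2.trans hnT.le⟩
      (hn2 t ⟨(ht34.trans ht5.1).le.trans ht.1, ht.2⟩) (hn1 t ht)
  have hup : CUp true Q thi := by
    intro ε hε
    obtain ⟨t2, ht2, h2⟩ := clo ε hε
    refine ⟨t2, ht2, fun q hq => ?_⟩
    filter_upwards [h2 q hq] with n hn
    refine ⟨hn.1, fun t ht => ?_⟩
    simpa [sc] using (hn.2 t ht).1
  have hlo : CLo true Q tlo := by
    intro ε hε
    obtain ⟨t2, ht2, h2⟩ := clo ε hε
    refine ⟨t2, ht2, fun q hq => ?_⟩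
    filter_upwards [h2 q hq] with n hn
    refine ⟨hn.1, fun t ht => ?_⟩
    simpa [sc] using (hn.2 t ht).2
  have homega : om 1 = true := by unfold om; rw [if_neg (by decide)]
  -- `0 ≤ thi`
  have hthi : 0 ≤ thi := by
    by_contra hneg
    push Not at hneg
    obtain ⟨t2, ht2, h2⟩ := clo (-thi / 2) (by linarith)
    have h01 := TS.ht1
    set a := max t2 TS.t1 with ha
    have ha1 : a < 1 := max_lt ht2.2 h01.2
    set q : ℝ := (a + 1) / 2 with hq
    have haq : a < q := by rw [hq]; linarith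
    have hq1 : q < 1 := by rw [hq]; linarith
    obtain ⟨z0, hz0, hZ⟩ := Z_low TS (q := q) ⟨(le_max_right _ _).trans_lt haq, hq1⟩
    obtain ⟨n, hn1, hn2⟩ := ((h2 q ⟨(le_max_left _ _).trans_lt haq, hq1⟩).and hZ).exists
    have h3 := (hn1.2 q ⟨(le_max_left _ _).trans haq.le, le_rfl⟩).1
    have h4 := (hn2 q ⟨(le_max_right _ _).trans haq.le, le_rfl⟩).1
    have h5 : 0 ≤ (Q.A n).chi q := ((Q.clock n).chi_pos q hq1).le
    have hq0 : 0 ≤ q := h01.1.trans ((le_max_right _ _).trans haq.le)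
    have h6 : 0 ≤ Ns (Q.A n) 1 (Q.p n) q :=
      StepTest_168.ex_nonneg (Q.law n) hn1.1.le fun x => sq_nonneg _
    have h7 := mul_nonneg h5 h6
    have h8 : 2 * (thi + -thi / 2) * Zs (Q.A n) 1 (Q.p n) q = thi * Zs (Q.A n) 1 (Q.p n) q := by
      ring
    rw [h8] at h3
    nlinarith
  exact win_of_clo TS 1 hthi (homega ▸ hup) (homega ▸ hlo)

/-- `REFC` from `WINREF` and the static certificate -/
theorem refc_of (hW : WINREF) (hN : NUMREF) : PtTipC_52.REFC gr := by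
  intro P hP c W V I k hp δ hδ hδc hw
  obtain ⟨e0, κ, M, D, h⟩ := hN c W V I k hp δ hδ hδc
  refine hW P hP _ _ _ _ e0 κ M D h ?_
  have : PtTip_164.hiA = 7 / 10 := rfl
  rwa [this] at hw

/-- **PTMAIN** from `T1`, `T2`, a closed pair, the three step-level theorems and the certificate -/
theorem ptmain_of (h1 : PtTip_164.T1) (h2 : PtTip_164.T2) (hC : PtTipC_52.CLOSED) (hS : SLOPE)
    (hL : LAW) (hCl : CLOS) (hN : NUMREF) : PTMAIN :=
  PtTipC_52.ptmainC (g := gr) (by unfold gr; norm_num) h1 h2 hC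
    (refc_of (winref_of hS hL hCl) hN)

end

end Crest.Agent.R146.PtRefAsm_847
end

-- ▼ part R146/WSBand_371
section

/-!
Row 146 (helper371): adapter `PtRef_846.WS` → the two-sided slope band of the step system.

`ws_band` : under the slope part of `WS lo hi tlo thi e0 κ M D` (and a lower bound of `K₋ K₋''`) there are constants
`C ≥ 0`, `κ' > 0`, depending only on the data, with
`(1 - (K0 tb/K0 t)^κ') s K₋(V) ≤ V_x ≤ (1 + C (K0 tb/K0 t)^κ) s K₊(V)` on `[ta, tb]`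
as soon as `0 ≤ Y ≤ hi + e0` on `[tb, T)` and `lo - e0 ≤ Y ≤ hi + e0` on `[ta, tb)`.
-/

set_option autoImplicit false

open Set Filter Topology

namespace Crest.Agent.R146.WSBand_371

open MaxP_371 MaxP2_371 MaxPCmp_371 SlopeT_371 SlopeV_371 Band_371 StepDef_791 PtRef_846
open StepStart_483 (ph Phi)

/-- a positive function with negative one-sided second derivatives: `v K' ≤ K` -/
theorem mul_deriv_le {K K1 K2 : ℝ → ℝ} (hpos : ∀ v ∈ Ioo (0:ℝ) 1, 0 < K v)
    (h1 : ∀ v ∈ Ioo (0:ℝ) 1, HasDerivAt K (K1 v) v)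
    (h2 : ∀ v ∈ Ioo (0:ℝ) 1, HasSide K1 (K2 v) v) (h3 : ∀ v ∈ Ioo (0:ℝ) 1, K2 v < 0)
    {v : ℝ} (hv : v ∈ Ioo (0:ℝ) 1) : v * K1 v ≤ K v := by
  -- tangent inequality
  have key : ∀ ε ∈ Ioo 0 v, K1 v * (v - ε) ≤ K v - K ε := by
    intro ε hε
    by_contra hcon
    push Not at hcon
    set d : ℝ := K1 v * (v - ε) - (K v - K ε) with hd
    have hdpos : 0 < d := by rw [hd]; linarith
    have hve : 0 < v - ε := by linarith [hε.2]
    set η : ℝ := d / (2 * (v - ε)) with hη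
    have hηpos : 0 < η := by positivity
    have hηe : η * (v - ε) = d / 2 := by rw [hη]; field_simp
    set h : ℝ → ℝ := fun y => K y - (K1 v - η) * y with hh
    have hsub : Icc ε v ⊆ Ioo 0 1 := fun y hy => ⟨hε.1.trans_le hy.1, hy.2.trans_lt hv.2⟩
    have hder : ∀ y ∈ Ioo (0:ℝ) 1, HasDerivAt h (K1 y - (K1 v - η)) y := by
      intro y hy
      have := (h1 y hy).sub ((hasDerivAt_id y).const_mul (K1 v - η))
      refine this.congr_deriv ?_
      ring
    have hcont : ContinuousOn h (Icc ε v) := fun y hy =>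
      (hder y (hsub hy)).continuousAt.continuousWithinAt
    obtain ⟨y0, hy0, hmin⟩ := isCompact_Icc.exists_isMinOn ⟨ε, left_mem_Icc.2 hε.2.le⟩ hcont
    have hne1 : y0 ≠ ε := by
      intro he
      have h4 : h y0 ≤ h v := hmin (right_mem_Icc.2 hε.2.le)
      rw [he] at h4
      simp only [hh] at h4
      nlinarith
    have hne2 : y0 ≠ v := by
      intro he
      have h5 : HasDerivWithinAt (fun y => -h y) (-(K1 v - (K1 v - η))) (Iic v) v :=
        ((hder v hv).neg).hasDerivWithinAt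
      have h6 := deriv_left_nonneg h5 (by
        filter_upwards [Ioo_mem_nhdsLT hε.2] with s hs
        have : h y0 ≤ h s := hmin ⟨hs.1.le, hs.2.le⟩
        rw [he] at this
        linarith)
      linarith
    have hy0' : y0 ∈ Ioo ε v := ⟨lt_of_le_of_ne hy0.1 (Ne.symm hne1), lt_of_le_of_ne hy0.2 hne2⟩
    have hy01 : y0 ∈ Ioo (0:ℝ) 1 := hsub hy0
    have hmax : IsLocalMax (fun y => -h y) y0 := by
      filter_upwards [isOpen_Ioo.mem_nhds hy0'] with y hy
      have : h y0 ≤ h y := hmin ⟨hy.1.le, hy.2.le⟩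
      linarith
    have hside : HasSide (fun y => -(K1 y - (K1 v - η))) (-(K2 y0)) y0 := by
      rcases h2 y0 hy01 with h7 | h7
      · exact Or.inl ((h7.sub_const _).neg)
      · exact Or.inr ((h7.sub_const _).neg)
    have h8 := hside.nonpos (f := fun y => -h y) (by
      filter_upwards [isOpen_Ioo.mem_nhds hy01] with y hy
      exact (hder y hy).neg) hmax
    have := h3 y0 hy01
    linarith [h8.2]
  by_contra hcon
  push Not at hcon
  have hK := hpos v hv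
  have hK1 : 0 < K1 v := by
    by_contra h; push Not at h
    have := mul_nonpos_of_nonneg_of_nonpos hv.1.le h
    linarith
  set ε : ℝ := min (v / 2) ((v * K1 v - K v) / K1 v) with hε
  have he1 : ε ≤ v / 2 := min_le_left _ _
  have he2 : ε ≤ (v * K1 v - K v) / K1 v := min_le_right _ _
  have he0 : 0 < ε := lt_min (by linarith [hv.1]) (div_pos (by linarith) hK1)
  have h4 := key ε ⟨he0, by linarith [hv.1]⟩
  have h5 := hpos ε ⟨he0, by linarith [hv.1, hv.2]⟩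
  have h6 : ε * K1 v ≤ v * K1 v - K v := (le_div_iff₀ hK1).1 he2
  nlinarith

/-- **the two-sided slope band of a window step.** -/
theorem ws_band {lo hi tlo thi e0 κ M : ℝ} {D : WData} (hW : WS lo hi tlo thi e0 κ M D)
    (hge : ∃ M', ∀ v ∈ Ioo (0:ℝ) 1, -M' ≤ D.Km v * D.Km2 v) :
    ∃ C κ' : ℝ, 0 ≤ C ∧ 0 < κ' ∧ ∀ A : SD, Back A → Clock A →
      ∀ ta tb : ℝ, 0 ≤ ta → tb ≤ A.T →
      (∀ t ∈ Ico tb A.T, A.b t * A.chi t ≤ hi + e0) →
      (∀ t ∈ Ico ta tb, lo - e0 ≤ A.b t * A.chi t ∧ A.b t * A.chi t ≤ hi + e0) →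
      ∀ t ∈ Icc ta tb, ∀ x,
        (1 - tr A.K0 tb 1 κ' t) * sf A.chi t * D.Km (A.V t x) ≤ A.P t x ∧
        A.P t x ≤ (1 + tr A.K0 tb C κ t) * sf A.chi t * D.Kp (A.V t x) := by
  obtain ⟨M', hM'⟩ := hge
  have he0 := hW.e0_pos
  have hlh := hW.lo_le
  have hlo0 := hW.lo_nonneg
  have hκ := hW.κ_pos
  have hMpos := hW.M_pos
  set lo' : ℝ := max 0 (lo - e0) with hlo'
  have hl1 : 0 ≤ lo' := le_max_left _ _
  have hl2 : lo - e0 ≤ lo' := le_max_right _ _
  have hl3 : lo' ≤ hi + e0 := max_le (by linarith) (by linarith)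
  have hh0 : 0 ≤ hi + e0 := by linarith
  have hS : UpBand 1 κ lo' (hi + e0) D.Kp D.Kp1 D.Kp2 := by
    refine ⟨fun v hv => (hW.dKp v hv).continuousAt.continuousWithinAt, hW.Kp_pos,
      fun v hv => TouchAbove.of_Ioo hW.dKp hW.dKp1 hv, hκ.le, hW.KKp, ?_, ?_⟩
    · intro v hv; exact hW.stat_p v hv lo' hl1 hl2 hl3
    · intro v hv; exact hW.stat_p v hv (hi + e0) hh0 (by linarith) le_rfl
  have hS' : LowBand 1 lo' (hi + e0) D.Km D.Km1 D.Km2 := by
    refine ⟨fun v hv => (hW.dKm v hv).continuousAt.continuousWithinAt, hW.Km_pos,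
      ⟨M, fun v hv => (hW.Km_le v hv).trans (hW.Kp_le v hv)⟩,
      fun v hv => TouchBelow.of_Ioo hW.dKm hW.dKm1 hv, ⟨M, hW.KKm_le⟩, ?_, ?_⟩
    · intro v hv; exact hW.stat_m v hv lo' hl1 hl2 hl3
    · intro v hv; exact hW.stat_m v hv (hi + e0) hh0 (by linarith) le_rfl
  have hT : LowTr 1 κ lo' (hi + e0) D.Km D.Km1 D.Km2 := by
    refine ⟨fun v hv => ?_, fun v hv => ?_, fun v hv => ?_, fun v hv => ?_⟩
    · have := hW.lin_m v hv lo' hl1 hl3; unfold LinR at this; unfold Lin; linarith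
    · have := hW.lin_m v hv (hi + e0) hh0 le_rfl; unfold LinR at this; unfold Lin; linarith
    · have := hW.lin_m2 v hv lo' hl1 hl3; unfold LinR at this; unfold Lin; linarith
    · have := hW.lin_m2 v hv (hi + e0) hh0 le_rfl; unfold LinR at this; unfold Lin; linarith
  have hK2 : ∀ v ∈ Ioo (0:ℝ) 1, D.Kp2 v < 0 := by
    intro v hv
    have h1 := hW.KKp v hv
    have h2 := hW.Kp_pos v hv
    by_contra h; push Not at h
    have := mul_nonneg h2.le h
    linarith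
  obtain ⟨C, hC0, hCC⟩ := ref_up (lo0 := 0) (hi0 := hi + e0) (B := 1 / 2 + 3 / 2 * (hi + e0))
    (c2 := M) hS hκ
    (by
      intro v hv
      have h1 := hW.Kp_pos v hv
      unfold Lin
      have h2 : 0 ≤ 3 / 2 * (hi + e0) * D.Kp v := by positivity
      nlinarith)
    (by
      intro v hv
      have h1 := hW.Kp_pos v hv
      have h2 := mul_deriv_le hW.Kp_pos hW.dKp hW.dKp1 hK2 hv
      unfold Lin
      set n := hi + e0 with hn
      have h3 : v * (1 - v) * D.Kp1 v ≤ (1 - v) * D.Kp v := by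
        have := mul_le_mul_of_nonneg_left h2 (show (0:ℝ) ≤ 1 - v by linarith [hv.2])
        linarith
      have h4 : n * (v * (1 - v) * D.Kp1 v - (2 - 3 * v) * D.Kp v) ≤
          n * ((1 - v) * D.Kp v - (2 - 3 * v) * D.Kp v) :=
        mul_le_mul_of_nonneg_left (by linarith) hh0
      have h5 : n * ((1 - v) * D.Kp v - (2 - 3 * v) * D.Kp v) = n * ((2 * v - 1) * D.Kp v) := by ring
      have h6 : n * ((2 * v - 1) * D.Kp v) ≤ n * (1 * D.Kp v) :=
        mul_le_mul_of_nonneg_left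
          (mul_le_mul_of_nonneg_right (by linarith [hv.2]) h1.le) hh0
      nlinarith)
    hW.gau_p
  obtain ⟨κ', hκ', hCC'⟩ := ref_low (lo0 := 0) (hi0 := hi + e0) (m1 := κ) (κ3 := M')
    (c1 := M⁻¹) hS' hT hκ hκ
    (fun v hv => by
      have := hW.lin_m v hv 0 le_rfl hh0; unfold LinR at this; unfold Lin; linarith)
    (fun v hv => by
      have := hW.lin_m v hv (hi + e0) hh0 le_rfl; unfold LinR at this; unfold Lin; linarith)
    hM' (inv_pos.2 hMpos)
    (fun z => by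
      have := hW.gau_m z
      rw [inv_mul_eq_div, div_le_iff₀ hMpos, mul_comm]
      exact this)
  refine ⟨C, κ', hC0, hκ', ?_⟩
  intro A hB hCl ta tb hta htb hYb hYa t ht x
  have hk := clk1 hCl
  have hb : ∀ s ∈ Icc 0 A.T, 0 ≤ A.b s * A.chi s := fun s hs =>
    mul_nonneg (A.b_nonneg s) (hk.pos s hs).le
  have htab : ta ≤ tb := ht.1.trans ht.2
  have hYb' : ∀ t ∈ Ico tb A.T, A.b t * A.chi t ∈ Icc 0 (hi + e0) := fun s hs =>
    ⟨hb s ⟨(hta.trans htab).trans hs.1, hs.2.le⟩, hYb s hs⟩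
  have hYa' : ∀ t ∈ Ico ta tb, A.b t * A.chi t ∈ Icc lo' (hi + e0) := fun s hs =>
    ⟨max_le (hb s ⟨hta.trans hs.1, hs.2.le.trans htb⟩) (hYa s hs).1, (hYa s hs).2⟩
  exact ⟨hCC' A A.chi A.K0 hB hk ta tb hta htb hYb' hYa' t ht x,
    hCC A A.chi A.K0 hB hk ta tb hta htb hYb' hYa' t ht x⟩

end Crest.Agent.R146.WSBand_371
end

-- ▼ part R146/SlopeThm_371
section

/-!
Row 146 (helper371): `PtRefIf_847.SLOPE`, from the adapter `WSBand_371.ws_band`.
-/

set_option autoImplicit false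

open Set Filter Topology

namespace Crest.Agent.R146.SlopeThm_371

open Band_371 WSBand_371 StepDef_791 PtRef_846 PtRefIf_847
open YW_177 (sN)

/-- the slope band in the form `SB`, with one rate -/
theorem slope_core {lo hi tlo thi e0 κ M : ℝ} {D : WData} (hW : WS lo hi tlo thi e0 κ M D)
    (hge : ∃ M', ∀ v ∈ Ioo (0:ℝ) 1, -M' ≤ D.Km v * D.Km2 v) :
    ∃ C k : ℝ, 0 ≤ C ∧ 0 < k ∧ ∀ A : SD, Back A → Clock A → ∀ ta tb : ℝ, 0 ≤ ta → ta ≤ tb →
      tb ≤ A.T →
      (∀ t ∈ Ico ta A.T, A.b t * A.chi t ≤ hi + e0) →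
      (∀ t ∈ Ico ta tb, lo - e0 ≤ A.b t * A.chi t) →
      ∀ t ∈ Icc ta tb, SB A D (C * (A.K0 tb / A.K0 t) ^ k) t := by
  obtain ⟨C, κ', hC, hκ', h⟩ := ws_band hW hge
  have hκ := hW.κ_pos
  refine ⟨max C 1, min κ κ', hC.trans (le_max_left _ _), lt_min hκ hκ', ?_⟩
  intro A hB hCl ta tb hta hab htb hY1 hY2 t ht x
  have hk := clk1 hCl
  have htI : t ∈ Icc 0 A.T := ⟨hta.trans ht.1, ht.2.trans htb⟩
  have htbI : tb ∈ Icc 0 A.T := ⟨hta.trans hab, htb⟩
  obtain ⟨h1, h2⟩ := h A hB hCl ta tb hta htb (fun s hs => hY1 s ⟨hab.trans hs.1, hs.2⟩)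
    (fun s hs => ⟨hY2 s hs, hY1 s ⟨hs.1, hs.2.trans_le htb⟩⟩) t ht x
  have hr0 : 0 < A.K0 tb / A.K0 t := div_pos (hk.kpos _ htbI) (hk.kpos _ htI)
  have hr1 : A.K0 tb / A.K0 t ≤ 1 :=
    (div_le_one (hk.kpos _ htI)).2 (k_anti hk htI htbI ht.2)
  set r := A.K0 tb / A.K0 t with hr
  have hVI : A.V t x ∈ Ioo (0:ℝ) 1 := by
    obtain ⟨M, hM⟩ := hB.bsys
    exact ⟨hM.V_pos t htI x, hM.V_lt t htI x⟩
  have hs : 0 < sf A.chi t := sf_pos hk htI
  have hsN : sN A t = sf A.chi t := rfl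
  have hrk : 0 ≤ r ^ (min κ κ') := Real.rpow_nonneg hr0.le _
  have e1 : tr A.K0 tb 1 κ' t ≤ max C 1 * r ^ (min κ κ') := by
    unfold tr
    rw [← hr, one_mul]
    calc r ^ κ' ≤ r ^ (min κ κ') :=
          Real.rpow_le_rpow_of_exponent_ge hr0 hr1 (min_le_right _ _)
      _ = 1 * r ^ (min κ κ') := (one_mul _).symm
      _ ≤ _ := mul_le_mul_of_nonneg_right (le_max_right _ _) hrk
  have e2 : tr A.K0 tb C κ t ≤ max C 1 * r ^ (min κ κ') := by
    unfold tr
    rw [← hr]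
    exact mul_le_mul (le_max_left _ _)
      (Real.rpow_le_rpow_of_exponent_ge hr0 hr1 (min_le_left _ _)) (Real.rpow_nonneg hr0.le _)
      (hC.trans (le_max_left _ _))
  rw [hsN]
  constructor
  · refine le_trans ?_ h1
    exact mul_le_mul_of_nonneg_right
      (mul_le_mul_of_nonneg_right (by linarith) hs.le) (hW.Km_pos _ hVI).le
  · refine h2.trans ?_
    exact mul_le_mul_of_nonneg_right
      (mul_le_mul_of_nonneg_right (by linarith) hs.le) (hW.Kp_pos _ hVI).le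


/-- **SLOPE** -/
theorem slope : SLOPE := by
  intro lo hi tlo thi e0 κ M D hW
  exact slope_core hW ⟨M, hW.KKm_ge⟩

end Crest.Agent.R146.SlopeThm_371
end

-- ▼ part R146/YWStep_177
section

/-!
Row 146, PT-CMP (helper177): the law half of `WS → Win` on the step system, against `PtRef_846.WS`.

* `SBand A D e t` : the one-time slope band `(1-e) s K₋(V) ≤ P ≤ (1+e) s K₊(V)`, `s = χ^{-1/2}`;
* `adm_of` : slope band ⇒ `AdmR` at every `x` (static positions); `u_le` : `s u ≤ (1+e0) Ub(V)`;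
* `law_band` : slope bands + window + start on `[t0,q]` ⇒ two-sided law band with an `ε (1 + s w)`, `ε (1 + s u)` error
  as soon as `K0 t ≤ r K0 t0`, `r` depending only on the constants.
-/

set_option autoImplicit false

open Set Filter Topology

namespace Crest.Agent.R146.YWStep_177

open MaxP_371 MaxP2_371 MaxPCmp_371 MaxPCmp2_371 YW_177 YWRef_177 StepDef_791 StepLim_692 PtRef_846

variable {lo hi tlo thi e0 κ M : ℝ} {D : WData}

/-- one-time slope band -/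
def SBand (A : SD) (D : WData) (e t : ℝ) : Prop :=
  ∀ x, (1 - e) * (sN A t * D.Km (A.V t x)) ≤ A.P t x ∧
    A.P t x ≤ (1 + e) * (sN A t * D.Kp (A.V t x))

/-! ### positions -/

/-- a primitive from `0` with nonnegative derivative is nonnegative -/
lemma nonneg_of_lim {N N' : ℝ → ℝ} (hN : ∀ v ∈ Ioo (0:ℝ) 1, HasDerivAt N (N' v) v)
    (hN' : ∀ v ∈ Ioo (0:ℝ) 1, 0 ≤ N' v) (hlim : Tendsto N (𝓝[>] 0) (𝓝 0)) :
    ∀ v ∈ Ioo (0:ℝ) 1, 0 ≤ N v := by
  intro v hv
  have hmono : MonotoneOn N (Ioo 0 1) := by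
    refine monotoneOn_of_deriv_nonneg (convex_Ioo 0 1)
      (fun x hx => (hN x hx).continuousAt.continuousWithinAt) ?_ ?_
    · rw [interior_Ioo]
      exact fun x hx => (hN x hx).differentiableAt.differentiableWithinAt
    · rw [interior_Ioo]
      intro x hx
      rw [(hN x hx).deriv]
      exact hN' x hx
  refine le_of_tendsto hlim ?_
  filter_upwards [Ioo_mem_nhdsGT hv.1] with y hy
  exact hmono ⟨hy.1, hy.2.trans hv.2⟩ hv hy.2.le


/-- `le_pos` with `P ≥ 0` instead of `N' ≥ 0` -/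
theorem le_pos' {w V P : ℝ → ℝ} {s : ℝ} {K N N' : ℝ → ℝ} (hs : 0 < s)
    (hw : ∀ x, HasDerivAt w (V x) x) (hV : ∀ x, HasDerivAt V (P x) x)
    (hVm : ∀ x, V x ∈ Ioo (0:ℝ) 1) (hP : ∀ x, 0 ≤ P x) (hlim : Tendsto w atBot (𝓝 0))
    (hVlim : Tendsto V atBot (𝓝 0))
    (hN : ∀ v ∈ Ioo (0:ℝ) 1, HasDerivAt N (N' v) v)
    (hN' : ∀ v ∈ Ioo (0:ℝ) 1, N' v * K v ≤ v) (hN0 : Tendsto N (𝓝[>] 0) (𝓝 0))
    (hband : ∀ x, P x ≤ s * K (V x)) (x : ℝ) : N (V x) ≤ s * w x := by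
  have hd : ∀ x, HasDerivAt (fun x => s * w x - N (V x)) (s * V x - N' (V x) * P x) x := fun x =>
    ((hw x).const_mul s).sub ((hN _ (hVm x)).comp x (hV x))
  have hmono : Monotone (fun x => s * w x - N (V x)) := by
    apply monotone_of_deriv_nonneg (fun x => (hd x).differentiableAt)
    intro x
    rw [(hd x).deriv]
    have h3 := mul_le_mul_of_nonneg_left (hN' _ (hVm x)) hs.le
    rcases le_or_gt 0 (N' (V x)) with h0 | h0
    · have h2 := mul_le_mul_of_nonneg_left (hband x) h0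
      have h4 : N' (V x) * (s * K (V x)) = s * (N' (V x) * K (V x)) := by ring
      linarith
    · have h2 : N' (V x) * P x ≤ 0 := mul_nonpos_of_nonpos_of_nonneg h0.le (hP x)
      have h5 : 0 ≤ s * V x := mul_nonneg hs.le (hVm x).1.le
      linarith
  have hV' : Tendsto V atBot (𝓝[>] 0) :=
    tendsto_nhdsWithin_iff.2 ⟨hVlim, Eventually.of_forall fun y => (hVm y).1⟩
  have hlim' : Tendsto (fun y => s * w y - N (V y)) atBot (𝓝 (s * 0 - 0)) :=
    (hlim.const_mul s).sub (hN0.comp hV')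
  have h5 : s * 0 - 0 ≤ s * w x - N (V x) := by
    refine le_of_tendsto hlim' ?_
    filter_upwards [eventually_le_atBot x] with y hy
    exact hmono hy
  linarith


section adm

variable {A : SD} {e t : ℝ}

lemma t_lt (ht : t ∈ Icc 0 A.T) : t < 1 := ht.2.trans_lt A.hT1

/-- **positions**: a one-time slope band gives `AdmR` at every point -/
theorem adm_of (hw : WS lo hi tlo thi e0 κ M D) (hA : Back A) (hC : Clock A)
    (ht : t ∈ Icc 0 A.T) (he0 : 0 ≤ e) (he : e ≤ e0 / 2) (hb : SBand A D e t) (x : ℝ) :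
    AdmR e0 D (A.V t x) (sN A t * A.w t x) (A.P t x / sN A t) := by
  have hs := sN_pos hC (t_lt ht)
  have hVm : ∀ x, A.V t x ∈ Ioo (0:ℝ) 1 := fun x => V_mem hA ht x
  have h01 := hw.e0_pos
  have h02 := hw.e0_le
  have he1 : 0 < 1 - e := by linarith
  have he2 : 0 < 1 + e := by linarith
  have hKm := fun x => hw.Km_pos _ (hVm x)
  have hKp := fun x => hw.Kp_pos _ (hVm x)
  have hNp1 : ∀ v ∈ Ioo (0:ℝ) 1, 0 ≤ D.Np1 v := by
    intro v hv
    by_contra hcon
    push Not at hcon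
    have h1 := hw.Np_ge v hv
    have h2 := mul_neg_of_neg_of_pos hcon (hw.Km_pos v hv)
    linarith [hv.1]
  have hNp0 := nonneg_of_lim hw.dNp hNp1 hw.Np_lim
  refine ⟨(hVm x).1, (hVm x).2, mul_pos hs (hA.w_pos t ht x), ?_, ?_, ?_, ?_⟩
  · have h1 := le_pos' (K := fun v => (1 + e) * D.Kp v) (N := fun v => (1 + e)⁻¹ * D.Nm v)
      (N' := fun v => (1 + e)⁻¹ * D.Nm1 v) hs (w_x hA ht) (hA.V_x t ht) hVm
      (fun x => (hA.P_pos t ht x).le) (w_bot hA ht) (V_bot hA ht)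
      (fun v hv => (hw.dNm v hv).const_mul _)
      (fun v hv => by
        have h2 : (1 + e)⁻¹ * D.Nm1 v * ((1 + e) * D.Kp v) = D.Nm1 v * D.Kp v := by
          field_simp
        rw [h2]
        exact hw.Nm_le v hv)
      (by simpa using hw.Nm_lim.const_mul (1 + e)⁻¹)
      (fun x => by
        have h3 := (hb x).2
        have h4 : sN A t * ((1 + e) * D.Kp (A.V t x)) = (1 + e) * (sN A t * D.Kp (A.V t x)) := by
          ring
        rw [h4]; exact h3) x
    refine le_trans ?_ h1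
    refine mul_le_mul_of_nonneg_right ?_ (hw.Nm_nonneg _ (hVm x))
    rw [le_inv_comm₀ (by linarith) he2, ← one_div, le_div_iff₀ (by linarith)]
    nlinarith
  · have h1 := pos_le (K := fun v => (1 - e) * D.Km v) (N := fun v => (1 - e)⁻¹ * D.Np v)
      (N' := fun v => (1 - e)⁻¹ * D.Np1 v) hs (w_x hA ht) (hA.V_x t ht) hVm
      (w_bot hA ht)
      (fun v hv => (hw.dNp v hv).const_mul _)
      (fun v hv => mul_nonneg (inv_nonneg.2 he1.le) (hNp1 v hv))
      (fun v hv => by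
        have h2 : (1 - e)⁻¹ * D.Np1 v * ((1 - e) * D.Km v) = D.Np1 v * D.Km v := by
          field_simp
        rw [h2]
        exact hw.Np_ge v hv)
      (fun v hv => mul_nonneg (inv_nonneg.2 he1.le) (hNp0 v hv))
      (fun x => by
        have h3 := (hb x).1
        have h4 : sN A t * ((1 - e) * D.Km (A.V t x)) = (1 - e) * (sN A t * D.Km (A.V t x)) := by
          ring
        rw [h4]; exact h3) x
    refine h1.trans ?_
    refine mul_le_mul_of_nonneg_right ?_ (hNp0 _ (hVm x))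
    rw [inv_le_comm₀ he1 (by linarith), ← one_div, div_le_iff₀ (by linarith)]
    nlinarith
  · rw [le_div_iff₀ hs]
    have h3 := (hb x).1
    have h4 : 0 ≤ sN A t * D.Km (A.V t x) := mul_nonneg hs.le (hKm x).le
    nlinarith
  · rw [div_le_iff₀ hs]
    have h3 := (hb x).2
    have h4 : 0 ≤ sN A t * D.Kp (A.V t x) := mul_nonneg hs.le (hKp x).le
    nlinarith


end adm

/-! ### the law band -/

section law

variable {A : SD} {x0 : ℝ} {p Y Yx Yxx : ℝ → ℝ → ℝ} {t0 q k B θ0 : ℝ}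

/-- the window of `Y = m K0` on `(t0, q]` -/
def Wn (A : SD) (lo hi e0 t : ℝ) : Prop :=
  0 ≤ A.ml t * A.K0 t ∧ lo - e0 ≤ A.ml t * A.K0 t ∧ A.ml t * A.K0 t ≤ hi + e0

/-- **upper law band** with explicit transient -/
theorem law_up (hw : WS lo hi tlo thi e0 κ M D) (hA : Back A) (hC : Clock A)
    (hL : Law A x0 p Y Yx Yxx) (h0 : 0 < t0) (h0T : t0 < A.T) (hq : q ≤ A.T)
    (hB : 0 ≤ B) (hk : k ≤ 1 / 2) (hBk : (1 + e0) * M ≤ B * (κ - k)) (hθ : 0 ≤ θ0)
    (hn : ∀ t ∈ Ioc t0 q, Wn A lo hi e0 t) (hb : ∀ t ∈ Ioc t0 q, SBand A D (e0 / 2) t)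
    (hstart : ∀ x, Y t0 x ≤ sN A t0 * (θ0 * (B + sN A t0 * A.w t0 x))) :
    ∀ t ∈ Icc t0 q, ∀ x, Y t x ≤
      sN A t * (D.Fp (sN A t * A.w t x) + thN A t0 θ0 k t * (B + sN A t * A.w t x)) := by
  have h01 : t0 < 1 := h0T.trans A.hT1
  obtain ⟨M', hYs⟩ := hL.ysys t0 ⟨h0, h0T⟩
  have hYq := YSys.restrict hYs hq
  have hLq := LSys.restrict (LSys.of_back hA h0.le) hq
  have hCq := LClock.restrict (lclock_new hC h0 h01 θ0 k) hq
  have hlt : ∀ t ∈ Icc t0 q, t < 1 := fun t ht => (ht.2.trans hq).trans_lt A.hT1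
  have hy : ∀ t ∈ Ioc t0 q, A.bl t / sN A t ^ 2 = A.ml t * A.K0 t :=
    fun t ht => y_eq hC (hlt t ⟨ht.1.le, ht.2⟩)
  have hI : ∀ t ∈ Ioc t0 q, t ∈ Icc 0 A.T := fun t ht => ⟨(h0.trans ht.1).le, ht.2.trans hq⟩
  have e1 := hw.e0_pos
  have hadm : ∀ t ∈ Ioc t0 q, ∀ x,
      AdmR e0 D (A.V t x) (sN A t * A.w t x) (A.P t x / sN A t) := fun t ht x =>
    adm_of hw hA hC (hI t ht) (by linarith) le_rfl (hb t ht) x
  have h0I : t0 ∈ Icc 0 A.T := ⟨h0.le, h0T.le⟩
  refine law_le_trans (F := D.Fp) (F1 := D.Fp1) (F2 := D.Fp2) (Fm := 0) (μ := κ)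
    (Im := (1 + e0) * M) hYq hLq hCq zero_le_one le_rfl
    hw.dFp hw.dFp1 hk hB (fun t ht => thN_nonneg hC h01 (hlt t ht) hθ) le_rfl hw.κ_pos.le
    (by linarith) (fun η hη => by have := hw.Fp_nonneg η hη; linarith) ?_ ?_ ?_ ?_
  · intro t ht x
    rw [hy t ht]
    obtain ⟨n1, n2, n3⟩ := hn t ht
    have := hw.pot_p _ _ _ _ (hadm t ht x) n1 n2 n3
    unfold PotR at this
    unfold Pot
    rw [one_mul]
    exact this
  · intro t ht x
    have h1 := (hadm t ht x).J_hi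
    have h2 := hw.Kp_le _ (V_mem hA (hI t ht) x)
    have h3 : (1 + e0) * D.Kp (A.V t x) ≤ (1 + e0) * M :=
      mul_le_mul_of_nonneg_left h2 (by linarith)
    exact h1.trans h3
  · intro t ht x
    rw [hy t ht]
    obtain ⟨n1, n2, n3⟩ := hn t ht
    exact hw.law_p _ _ _ _ (hadm t ht x) n1 n2 n3
  · intro x
    rw [thN_self hC h01]
    refine (hstart x).trans ?_
    have hs := sN_pos hC h01
    have h3 : 0 ≤ D.Fp (sN A t0 * (x + A.u t0 x)) :=
      hw.Fp_nonneg _ (mul_pos hs (hA.w_pos t0 h0I x))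
    have h7 : A.w t0 x = x + A.u t0 x := rfl
    rw [h7]
    exact mul_le_mul_of_nonneg_left (by linarith) hs.le

/-- **lower law band** with explicit transient -/
theorem law_low (hw : WS lo hi tlo thi e0 κ M D) (hA : Back A) (hC : Clock A)
    (hL : Law A x0 p Y Yx Yxx) (h0 : 0 < t0) (h0T : t0 < A.T) (hq : q ≤ A.T)
    (hB : 0 ≤ B) (hk : k ≤ κ) (hBk : (1 + e0) * M + M ≤ B * (κ - k)) (hθ : 0 ≤ θ0)
    (hn : ∀ t ∈ Ioc t0 q, Wn A lo hi e0 t) (hb : ∀ t ∈ Ioc t0 q, SBand A D (e0 / 2) t)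
    (hstart : ∀ x, sN A t0 * (M - θ0 * (B + sN A t0 * A.u t0 x)) ≤ Y t0 x) :
    ∀ t ∈ Icc t0 q, ∀ x,
      sN A t * (D.Fm (sN A t * A.w t x) - thN A t0 θ0 k t * (B + sN A t * A.u t x)) ≤ Y t x := by
  have h01 : t0 < 1 := h0T.trans A.hT1
  obtain ⟨M', hYs⟩ := hL.ysys t0 ⟨h0, h0T⟩
  have hYq := YSys.restrict hYs hq
  have hLq := LSys.restrict (LSys.of_back hA h0.le) hq
  have hCq := LClock.restrict (lclock_new hC h0 h01 θ0 k) hq
  have hlt : ∀ t ∈ Icc t0 q, t < 1 := fun t ht => (ht.2.trans hq).trans_lt A.hT1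
  have hy : ∀ t ∈ Ioc t0 q, A.bl t / sN A t ^ 2 = A.ml t * A.K0 t :=
    fun t ht => y_eq hC (hlt t ⟨ht.1.le, ht.2⟩)
  have hI : ∀ t ∈ Ioc t0 q, t ∈ Icc 0 A.T := fun t ht => ⟨(h0.trans ht.1).le, ht.2.trans hq⟩
  have e1 := hw.e0_pos
  have hadm : ∀ t ∈ Ioc t0 q, ∀ x,
      AdmR e0 D (A.V t x) (sN A t * A.w t x) (A.P t x / sN A t) := fun t ht x =>
    adm_of hw hA hC (hI t ht) (by linarith) le_rfl (hb t ht) x
  have h0I : t0 ∈ Icc 0 A.T := ⟨h0.le, h0T.le⟩
  have hFM : ∀ η, 0 < η → D.Fm η ≤ M := fun η hη => (hw.Fm_le η hη).trans (hw.Fp_le η hη)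
  refine le_law_trans (F := D.Fm) (F1 := D.Fm1) (F2 := D.Fm2) (Fm := M) (μ := κ)
    (Im := (1 + e0) * M) hYq hLq hCq
    hw.dFm hw.dFm1 hB (fun t ht => thN_nonneg hC h01 (hlt t ht) hθ) hw.M_pos.le hk hBk hFM
    ?_ ?_ hw.κ_pos.le ?_ ?_ ?_
  · intro t ht
    rw [hy t ht]
    have := (hn t ht).2.2
    linarith [hw.hi_lt]
  · intro t ht x
    rw [hy t ht]
    obtain ⟨n1, n2, n3⟩ := hn t ht
    have := hw.pot_m _ _ _ _ (hadm t ht x) n1 n2 n3
    unfold PotR at this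
    unfold Pot
    rw [one_mul]
    exact this
  · intro t ht x
    have h1 := (hadm t ht x).J_hi
    have h2 := hw.Kp_le _ (V_mem hA (hI t ht) x)
    have h3 : (1 + e0) * D.Kp (A.V t x) ≤ (1 + e0) * M :=
      mul_le_mul_of_nonneg_left h2 (by linarith)
    exact h1.trans h3
  · intro t ht x
    rw [hy t ht]
    obtain ⟨n1, n2, n3⟩ := hn t ht
    exact hw.law_m _ _ _ _ (hadm t ht x) n1 n2 n3
  · intro x
    rw [thN_self hC h01]
    refine le_trans ?_ (hstart x)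
    have hs := sN_pos hC h01
    have h3 : D.Fm (sN A t0 * (x + A.u t0 x)) ≤ M :=
      hFM _ (mul_pos hs (hA.w_pos t0 h0I x))
    exact mul_le_mul_of_nonneg_left (by linarith) hs.le



end law

end Crest.Agent.R146.YWStep_177
end

-- ▼ part R146/YWLaw_177

/-!
Row 146, PT (helper177): the Prop `PtRefIf_847.LAW` (law bands from a start at `t0`).
-/

set_option autoImplicit false

open Set Filter Topology

namespace Crest.Agent.R146.YWLaw_177

open MaxP_371 MaxP2_371 MaxPCmp_371 MaxPCmp2_371 YW_177 YWRef_177 YWStep_177 StepDef_791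
  StepLim_692 PtRef_846 PtRefIf_847

variable {lo hi tlo thi e0 κ M : ℝ} {D : WData}

lemma sband_of_SB {A : SD} {e t : ℝ} (h : SB A D e t) : SBand A D e t := fun x => by
  obtain ⟨h1, h2⟩ := h x
  rw [mul_assoc] at h1 h2
  exact ⟨h1, h2⟩


/-- lower bound by `0` with explicit transient -/
theorem neg_low (hw : WS lo hi tlo thi e0 κ M D) {A : SD} {x0 : ℝ} {p Y Yx Yxx : ℝ → ℝ → ℝ}
    {t0 q k B θ0 : ℝ} (hA : Back A) (hC : Clock A)
    (hL : Law A x0 p Y Yx Yxx) (h0 : 0 < t0) (h0T : t0 < A.T) (hq : q ≤ A.T)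
    (hB : 0 ≤ B) (hk : k ≤ (1 - (hi + e0)) / 2)
    (hBk : (1 + e0) * M ≤ B * ((1 - (hi + e0)) / 2 - k)) (hθ : 0 ≤ θ0)
    (hn : ∀ t ∈ Ioc t0 q, Wn A lo hi e0 t) (hb : ∀ t ∈ Ioc t0 q, SBand A D (e0 / 2) t)
    (hstart : ∀ x, -(sN A t0 * (θ0 * (B + sN A t0 * A.u t0 x))) ≤ Y t0 x) :
    ∀ t ∈ Icc t0 q, ∀ x,
      -(sN A t * (thN A t0 θ0 k t * (B + sN A t * A.u t x))) ≤ Y t x := by
  have h01 : t0 < 1 := h0T.trans A.hT1
  obtain ⟨M', hYs⟩ := hL.ysys t0 ⟨h0, h0T⟩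
  have hYq := YSys.restrict hYs hq
  have hLq := LSys.restrict (LSys.of_back hA h0.le) hq
  have hCq := LClock.restrict (lclock_new hC h0 h01 θ0 k) hq
  have hlt : ∀ t ∈ Icc t0 q, t < 1 := fun t ht => (ht.2.trans hq).trans_lt A.hT1
  have hy : ∀ t ∈ Ioc t0 q, A.bl t / sN A t ^ 2 = A.ml t * A.K0 t :=
    fun t ht => y_eq hC (hlt t ⟨ht.1.le, ht.2⟩)
  have hI : ∀ t ∈ Ioc t0 q, t ∈ Icc 0 A.T := fun t ht => ⟨(h0.trans ht.1).le, ht.2.trans hq⟩
  have e1 := hw.e0_pos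
  have hhi := hw.hi_lt
  have hadm : ∀ t ∈ Ioc t0 q, ∀ x,
      AdmR e0 D (A.V t x) (sN A t * A.w t x) (A.P t x / sN A t) := fun t ht x =>
    adm_of hw hA hC (hI t ht) (by linarith) le_rfl (hb t ht) x
  refine neg_le_law (μ := (1 - (hi + e0)) / 2) (Im := (1 + e0) * M) hYq hLq hCq hB
    (fun t ht => thN_nonneg hC h01 (hlt t ht) hθ) (by linarith) hk hBk ?_ ?_ ?_ ?_
  · intro t ht
    rw [hy t ht]
    have := (hn t ht).2.2
    linarith
  · intro t ht x
    rw [hy t ht]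
    obtain ⟨n1, n2, n3⟩ := hn t ht
    obtain ⟨v1, v2⟩ := V_mem hA (hI t ht) x
    have h5 : 0 ≤ A.ml t * A.K0 t * A.V t x := mul_nonneg n1 v1.le
    have h6 : (1 + A.ml t * A.K0 t) / 2 - A.ml t * A.K0 t * (1 - A.V t x) =
      (1 - A.ml t * A.K0 t) / 2 + A.ml t * A.K0 t * A.V t x := by ring
    rw [h6]
    linarith
  · intro t ht x
    have h1 := (hadm t ht x).J_hi
    have h2 := hw.Kp_le _ (V_mem hA (hI t ht) x)
    have h3 : (1 + e0) * D.Kp (A.V t x) ≤ (1 + e0) * M :=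
      mul_le_mul_of_nonneg_left h2 (by linarith)
    exact h1.trans h3
  · intro x
    rw [thN_self hC h01]
    exact hstart x

/-- **LAW** -/
theorem law : LAW := by
  intro lo hi tlo thi e0 κ M D hw C0 s0 hC0 hs0
  have hκ := hw.κ_pos
  have hM := hw.M_pos
  have he := hw.e0_pos
  have hhi := hw.hi_lt
  set μ : ℝ := min κ ((1 - (hi + e0)) / 2) with hμ
  have hμ0 : 0 < μ := lt_min hκ (by linarith)
  have hμκ : μ ≤ κ := min_le_left _ _
  have hμh : μ ≤ (1 - (hi + e0)) / 2 := min_le_right _ _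
  set k : ℝ := min (μ / 2) (1 / 2) with hk
  have hk0 : 0 < k := lt_min (by linarith) (by norm_num)
  have hk1 : k ≤ μ / 2 := min_le_left _ _
  have hk2 : k ≤ 1 / 2 := min_le_right _ _
  set B : ℝ := 2 * ((1 + e0) * M + M) / μ + 1 with hBdef
  have hB1 : 1 ≤ B := by
    have : 0 ≤ 2 * ((1 + e0) * M + M) / μ := by positivity
    linarith
  have hB0 : 0 < B := by linarith
  have hBμ : (1 + e0) * M + M ≤ B * (μ - k) := by
    have h1 : B * (μ / 2) ≤ B * (μ - k) := mul_le_mul_of_nonneg_left (by linarith) hB0.le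
    have h2 : B * (μ / 2) = (1 + e0) * M + M + μ / 2 := by
      rw [hBdef]; field_simp
    linarith
  have hBκ : (1 + e0) * M + M ≤ B * (κ - k) :=
    hBμ.trans (mul_le_mul_of_nonneg_left (by linarith) hB0.le)
  have hBh : (1 + e0) * M ≤ B * ((1 - (hi + e0)) / 2 - k) := by
    have := mul_le_mul_of_nonneg_left (show μ - k ≤ (1 - (hi + e0)) / 2 - k by linarith) hB0.le
    linarith
  set θ0 : ℝ := C0 / s0 ^ 2 + (C0 / s0 + M) with hθdef
  have hθ0 : 0 < θ0 := by positivity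
  refine ⟨θ0 * B, k, by positivity, hk0, ?_⟩
  intro A hA hC p Y Yx Yxx hL t0 q h0 h0q hq hs hn' hb' hstart t ht x
  have h0T : t0 < A.T := h0q.trans_le hq
  have h01 : t0 < 1 := h0T.trans A.hT1
  have ht1 : t < 1 := (ht.2.trans hq).trans_lt A.hT1
  have hst0 : 0 < sN A t0 := sN_pos hC h01
  have hst : 0 < sN A t := sN_pos hC ht1
  have h0I : t0 ∈ Icc 0 A.T := ⟨h0.le, h0T.le⟩
  have htI : t ∈ Icc 0 A.T := ⟨h0.le.trans ht.1, ht.2.trans hq⟩
  have hn : ∀ t ∈ Ioc t0 q, Wn A lo hi e0 t := fun r hr =>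
    ⟨mul_nonneg (A.ml_nonneg r) (hC.K0_pos r ((hr.2.trans hq).trans_lt A.hT1)).le,
      hn' r ⟨hr.1.le, hr.2⟩⟩
  have hb : ∀ t ∈ Ioc t0 q, SBand A D (e0 / 2) t := fun r hr =>
    sband_of_SB (hb' r ⟨hr.1.le, hr.2⟩)
  -- start constants
  have hc1 : C0 + sN A t0 * M ≤ sN A t0 * (C0 / s0 + M) := by
    have h1 : C0 ≤ sN A t0 * (C0 / s0) := by
      have h2 : C0 = s0 * (C0 / s0) := by field_simp
      calc C0 = s0 * (C0 / s0) := h2
        _ ≤ _ := mul_le_mul_of_nonneg_right hs (by positivity)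
    linarith
  have hc2 : C0 ≤ sN A t0 ^ 2 * (C0 / s0 ^ 2) := by
    have h2 : C0 = s0 ^ 2 * (C0 / s0 ^ 2) := by field_simp
    calc C0 = s0 ^ 2 * (C0 / s0 ^ 2) := h2
      _ ≤ _ := mul_le_mul_of_nonneg_right (pow_le_pow_left₀ hs0.le hs 2) (by positivity)
  have hθB : C0 / s0 + M ≤ θ0 * B := by
    have h1 : 0 ≤ C0 / s0 ^ 2 := by positivity
    have h2 : θ0 * 1 ≤ θ0 * B := mul_le_mul_of_nonneg_left hB1 hθ0.le
    linarith
  have hc3 : C0 + sN A t0 * M ≤ sN A t0 * (θ0 * B) :=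
    hc1.trans (mul_le_mul_of_nonneg_left hθB hst0.le)
  have hc4 : C0 ≤ sN A t0 ^ 2 * θ0 := by
    refine hc2.trans (mul_le_mul_of_nonneg_left ?_ (sq_nonneg _))
    have : 0 ≤ C0 / s0 + M := by positivity
    linarith
  have hsM : 0 ≤ sN A t0 * M := mul_nonneg hst0.le hM.le
  have hth0 : 0 ≤ thN A t0 θ0 k t := thN_nonneg hC h01 ht1 hθ0.le
  -- the error
  have herr : ∀ z : ℝ, 0 ≤ z → thN A t0 θ0 k t * (B + z) ≤
      θ0 * B * (A.K0 t / A.K0 t0) ^ k * (1 + z) := by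
    intro z hz
    have h1 : θ0 * B * (A.K0 t / A.K0 t0) ^ k * (1 + z) = thN A t0 θ0 k t * (B * (1 + z)) := by
      unfold thN; ring
    rw [h1]
    refine mul_le_mul_of_nonneg_left ?_ hth0
    have : z ≤ B * z := by nlinarith
    linarith
  have hu0 := hA.u_pos t htI x
  have hw0 := hA.w_pos t htI x
  have eu := herr _ (mul_pos hst hu0).le
  have ew := herr _ (mul_pos hst hw0).le
  refine ⟨?_, ?_, ?_⟩
  · refine le_trans ?_ (law_low (B := B) (k := k) (θ0 := θ0) hw hA hC hL h0 h0T hq hB0.le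
      (by linarith) hBκ hθ0.le hn hb ?_ t ht x)
    · exact mul_le_mul_of_nonneg_left (by linarith) hst.le
    · intro y
      refine le_trans ?_ (hstart y).1
      have hu := (hA.u_pos t0 h0I y).le
      have h3 := mul_le_mul_of_nonneg_right hc4 hu
      have h4 : sN A t0 * (M - θ0 * (B + sN A t0 * A.u t0 y)) =
        sN A t0 * M - sN A t0 * (θ0 * B) - sN A t0 ^ 2 * θ0 * A.u t0 y := by ring
      have h5 : C0 * (1 + A.u t0 y) = C0 + C0 * A.u t0 y := by ring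
      linarith
  · refine le_trans ?_ (neg_low (B := B) (k := k) (θ0 := θ0) hw hA hC hL h0 h0T hq hB0.le
      (by linarith) hBh hθ0.le hn hb ?_ t ht x)
    · exact neg_le_neg (mul_le_mul_of_nonneg_left eu hst.le)
    · intro y
      refine le_trans ?_ (hstart y).1
      have hu := (hA.u_pos t0 h0I y).le
      have h3 := mul_le_mul_of_nonneg_right hc4 hu
      have h4 : sN A t0 * (θ0 * (B + sN A t0 * A.u t0 y)) =
        sN A t0 * (θ0 * B) + sN A t0 ^ 2 * θ0 * A.u t0 y := by ring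
      have h5 : C0 * (1 + A.u t0 y) = C0 + C0 * A.u t0 y := by ring
      linarith
  · refine (law_up (B := B) (k := k) (θ0 := θ0) hw hA hC hL h0 h0T hq hB0.le hk2
      (by linarith) hθ0.le hn hb ?_ t ht x).trans ?_
    · intro y
      refine (hstart y).2.trans ?_
      have hw1 := (hA.w_pos t0 h0I y).le
      have h3 := mul_le_mul_of_nonneg_right hc4 hw1
      have h4 : sN A t0 * (θ0 * (B + sN A t0 * A.w t0 y)) =
        sN A t0 * (θ0 * B) + sN A t0 ^ 2 * θ0 * A.w t0 y := by ring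
      have h5 : C0 * (1 + A.w t0 y) = C0 + C0 * A.w t0 y := by ring
      linarith
    · exact mul_le_mul_of_nonneg_left (by linarith) hst.le

end Crest.Agent.R146.YWLaw_177
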