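import Crest.Agent.R146.StepAsm_791
import Crest.Agent.R146.YWLaw_177_Mg
import Crest.Agent.R146.PtWin_746_Mg
import Crest.Agent.R146.BrFin_861_Mg
import Crest.Agent.R146.P5Def_12
import Mathlib
import Crest.Agent.R146.LevC_4
import Crest.Agent.R146.SnapA_778
import Crest.Agent.R146.LevE_4
import Crest.Agent.R146.LevK_4
import Crest.Agent.R146.Emg_288
import Crest.Agent.R146.S0205Asm_12
import Crest.Agent.R146.TipW_131
import Crest.Agent.R146.NoGap_546_Mg
import Crest.Agent.R146.LocUb_393_Mg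
import Crest.Agent.R146.S6Fin_734

-- ▼ part R146/Nodes_131
section

/-!
Row 146 (helper131, PM-C): the nodes of S0205 which are theorems (glue only).

* `plaw : PLAW` (534, 791, 847); `start : START` (384);
* `winref : WINREF` (371, 177, 42, 847); `wina : WINA` (746, 454, 937).
-/

set_option autoImplicit false

namespace Crest.Agent.R146.Nodes_131

open Set Filter Topology
open Crest.Agent.R146.TipSeq_791 Crest.Agent.R146.StepAsm_791

theorem plaw : PLAW := by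
  refine ⟨fun A => YB_534.Yp A 1, fun A => YB_534.Yxp A 1, fun A => YB_534.Yxxp A 1, fun A => ?_⟩
  have hB := Back_847.back A
  have hL := Law_534.law A hB 1
  exact ⟨hL, PLaw_791.first_cell hB hL, PLaw_791.yst hB hL⟩

theorem start : START := Start_384.start

theorem winref : PtRefIf_847.WINREF :=
  PtRefAsm_847.winref_of SlopeThm_371.slope YWLaw_177.law RefClo_42.clos

theorem wina : RefEdge_131.WINA := PtWin_746.winA

/-- `PTMAIN` from `NUMREF` -/
theorem ptmain_of (hN : PtRef_846.NUMREF) : PTMAIN :=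
  RefEdge_131.ptmain_of wina winref hN

end Crest.Agent.R146.Nodes_131
end

-- ▼ part R146/BrAll_256
section

/-!
# Row 146, R3 bridge (helper256): ASSEMBLY
-/

set_option autoImplicit false

noncomputable section

open MeasureTheory Set Filter Topology ProbabilityTheory
open scoped InnerProductSpace RealInnerProductSpace NNReal ENNReal

namespace Crest.Agent.R146.BrAll_256

open Crest.ProbabilityR.Perceptron
open Crest.Agent.R146.DualG_256 Crest.Agent.R146.Br_256 Crest.Agent.R146.StepDef_791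
open Crest.Agent.R146.P34_734 (BS)

variable {Ω : Type*} [mΩ : MeasurableSpace Ω] {P : Measure Ω} [IsProbabilityMeasure P]
  {B : ℝ≥0 → Ω → ℝ} (hBm : ∀ t, Measurable (B t)) (hB : IsBrownianReal B P)

theorem up : UP hBm hB := BrUp_52.up hBm hB (cell hBm hB)
theorem lb : LB hBm hB := fun A x0 _ hx => BrLB_952.psi_le_QQ hBm hB A x0 hx
theorem eqt : EQT hBm hB := BrEq_151.eqt_of (up hBm hB) (lb hBm hB)
theorem idt : IDT hBm hB := BrId_109.idt_of hBm hB (up hBm hB) (eqt hBm hB)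
theorem lawt : LAWT hBm hB := BrLt_168.lawt_of hBm hB (cell hBm hB) (eqt hBm hB)
theorem exl : EXL hBm hB := BrEx_952.exl hBm hB
theorem fin : FIN hBm hB := BrFin_861.fin_of hBm hB (exl hBm hB) (idt hBm hB) (lawt hBm hB)

/-- **R3** in the form of `StepAsm_791.Bridge` -/
theorem bridge (W : BS) : StepAsm_791.Bridge (P5Def_12.RW W) (P5Def_12.KW W) (P5Def_12.xiW W) :=
  fun A => fin W.meas W.br A 1

end Crest.Agent.R146.BrAll_256
end
end

-- ▼ part R146/ExpoA_778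
section

/-!
# Inputs of the exponents package (helper778), row 146: abstract part

* `IG_lint`   : joint law of a `G`-measurable variable and an independent Gaussian, on `C ∈ G`;
* `s1_abs`    : `X + Z ≤ h` and `h ≥ 0` give `E (X + √τ g)₊ ≤ E_G h`;
* `s3_prob`   : approximate lower bound for the probability of staying nonnegative;
* `s3_abs`    : comparison between two times.
-/

set_option autoImplicit false

open MeasureTheory ProbabilityTheory Filter Topology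
open scoped ENNReal NNReal

namespace Crest.Agent.R146.Expo_778
open Crest.Agent.R146.LevC_4 Crest.Agent.R146.Gauss_778 Crest.Agent.R146.Snap_778

variable {Ω : Type*} {G mΩ : MeasurableSpace Ω} {P : Measure[mΩ] Ω}

lemma IG_joint [IsProbabilityMeasure P] (hG : G ≤ mΩ) {Y Z : Ω → ℝ} {v : ℝ≥0} (h : IG P G Z v)
    (hZ : Measurable Z) (hY : Measurable[G] Y) {C : Set Ω} (hC : MeasurableSet[G] C) :
    (P.restrict C).map (fun ω => (Y ω, Z ω)) = ((P.restrict C).map Y).prod (gaussianReal 0 v) := by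
  have hYm : Measurable Y := hY.mono hG le_rfl
  have hCm : MeasurableSet C := hG C hC
  symm
  apply Measure.prod_eq
  intro s t hs ht
  rw [Measure.map_apply (hYm.prodMk hZ) (hs.prod ht), Measure.restrict_apply
    ((hYm.prodMk hZ) (hs.prod ht)), Measure.map_apply hYm hs, Measure.restrict_apply (hYm hs)]
  have e : (fun ω => (Y ω, Z ω)) ⁻¹' s ×ˢ t ∩ C = (C ∩ Y ⁻¹' s) ∩ Z ⁻¹' t := by
    ext ω
    simp only [Set.mem_inter_iff, Set.mem_preimage, Set.mem_prod]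
    tauto
  rw [e, h _ (hC.inter (hY hs)) t ht, Set.inter_comm C]

lemma IG_lint [IsProbabilityMeasure P] (hG : G ≤ mΩ) {Y Z : Ω → ℝ} {v : ℝ≥0} (h : IG P G Z v)
    (hZ : Measurable Z) (hY : Measurable[G] Y) {C : Set Ω} (hC : MeasurableSet[G] C)
    {ψ : ℝ × ℝ → ℝ≥0∞} (hψ : Measurable ψ) :
    ∫⁻ ω in C, ψ (Y ω, Z ω) ∂P = ∫⁻ ω in C, ∫⁻ z, ψ (Y ω, z) ∂(gaussianReal 0 v) ∂P := by
  have hYm : Measurable Y := hY.mono hG le_rfl
  have h1 : ∫⁻ ω in C, ψ (Y ω, Z ω) ∂P =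
      ∫⁻ p, ψ p ∂((P.restrict C).map (fun ω => (Y ω, Z ω))) := by
    rw [lintegral_map hψ (hYm.prodMk hZ)]
  rw [h1, IG_joint hG h hZ hY hC, lintegral_prod _ hψ.aemeasurable,
    lintegral_map (f := fun x => ∫⁻ y, ψ (x, y) ∂(gaussianReal 0 v)) (hψ.lintegral_prod_right') hYm]

lemma gauss_scale {v : ℝ} (hv : 0 ≤ v) {f : ℝ → ℝ≥0∞} (hf : Measurable f) :
    ∫⁻ z, f z ∂(gaussianReal 0 v.toNNReal) = ∫⁻ y, f (√v * y) ∂γ := by
  have h1 : gaussianReal 0 v.toNNReal = (gaussianReal 0 1).map (fun x => √v * x) := by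
    rw [gaussianReal_map_const_mul, mul_zero, mul_one]
    congr 1
    rw [← NNReal.coe_inj, Real.coe_toNNReal _ hv]
    exact (Real.sq_sqrt hv).symm
  rw [h1, lintegral_map hf (measurable_const_mul _)]

lemma gauss_Ici' {v : ℝ} (hv : 0 < v) (a : ℝ) :
    gaussianReal 0 v.toNNReal (Set.Ici a) = γ (Set.Ici (a / √v)) := by
  have h := gauss_scale hv.le (f := (Set.Ici a).indicator 1)
    (measurable_one.indicator measurableSet_Ici)
  rw [lintegral_indicator_one measurableSet_Ici] at h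
  rw [h, ← lintegral_indicator_one measurableSet_Ici]
  refine lintegral_congr fun y => ?_
  have hs : 0 < √v := Real.sqrt_pos.2 hv
  by_cases hy : a / √v ≤ y
  · rw [Set.indicator_of_mem (show y ∈ Set.Ici (a / √v) from hy), Set.indicator_of_mem]
    · rfl
    · rw [div_le_iff₀ hs] at hy
      show a ≤ √v * y
      linarith
  · rw [Set.indicator_of_notMem (show y ∉ Set.Ici (a / √v) from hy), Set.indicator_of_notMem]
    intro h2
    have h3 : a ≤ √v * y := h2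
    apply hy
    rw [div_le_iff₀ hs]; linarith

lemma ae_le_of_sets [IsProbabilityMeasure P] (hG : G ≤ mΩ) {f g : Ω → ℝ≥0∞}
    (hf : Measurable[G] f) (hg : Measurable[G] g)
    (h : ∀ C, MeasurableSet[G] C → ∫⁻ ω in C, f ω ∂P ≤ ∫⁻ ω in C, g ω ∂P) : f ≤ᵐ[P] g := by
  apply ae_le_of_ae_le_trim (hm := hG)
  refine @ae_le_of_forall_setLIntegral_le_of_sigmaFinite Ω G (P.trim hG) _ f g hf ?_
  intro C hC _
  rw [← lintegral_indicator hC, ← lintegral_indicator hC, lintegral_trim hG (hf.indicator hC),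
    lintegral_trim hG (hg.indicator hC), lintegral_indicator (hG C hC),
    lintegral_indicator (hG C hC)]
  exact h C hC

lemma ofReal_phi (τ x : ℝ) :
    ENNReal.ofReal (phi τ x) = ∫⁻ y, ENNReal.ofReal (max (x + √τ * y) 0) ∂γ := by
  unfold phi
  rw [ofReal_integral_eq_lintegral_ofReal (intg_phi τ x)
    (Eventually.of_forall fun y => le_max_right _ _)]

lemma measurable_gphi (τ : ℝ) :
    Measurable fun x : ℝ => ∫⁻ y, ENNReal.ofReal (max (x + √τ * y) 0) ∂γ := by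
  have h : Measurable fun p : ℝ × ℝ => ENNReal.ofReal (max (p.1 + √τ * p.2) 0) := by fun_prop
  exact h.lintegral_prod_right'

/-- `h ≥ (X + Z)₊` ⟹ `E (X + √τ g)₊ ≤ E_G h` -/
lemma s1_abs [IsProbabilityMeasure P] (hG : G ≤ mΩ) {h H X Z : Ω → ℝ} {τ : ℝ} (hτ : 0 < τ)
    (mH : Measurable[G] H) (mX : Measurable[G] X) (mZ : Measurable Z)
    (ig : IG P G Z τ.toNNReal)
    (iH : ∀ A, MeasurableSet[G] A →
      ∫⁻ ω in A, ENNReal.ofReal (h ω) ∂P = ∫⁻ ω in A, ENNReal.ofReal (H ω) ∂P)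
    (pos : ∀ᵐ ω ∂P, X ω + Z ω ≤ h ω) (h0 : ∀ᵐ ω ∂P, 0 ≤ h ω) (H0 : ∀ᵐ ω ∂P, 0 ≤ H ω) :
    ∀ᵐ ω ∂P, phi τ (X ω) ≤ H ω := by
  have key : (fun ω => ∫⁻ y, ENNReal.ofReal (max (X ω + √τ * y) 0) ∂γ) ≤ᵐ[P]
      fun ω => ENNReal.ofReal (H ω) := by
    refine ae_le_of_sets hG ((measurable_gphi τ).comp mX)
      (ENNReal.measurable_ofReal.comp mH) fun C hC => ?_
    rw [← iH C hC]
    have hψ : Measurable fun p : ℝ × ℝ => ENNReal.ofReal (max (p.1 + p.2) 0) := by fun_prop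
    have h1 := IG_lint hG ig mZ mX hC hψ
    have h2 : ∫⁻ ω in C, ∫⁻ y, ENNReal.ofReal (max (X ω + √τ * y) 0) ∂γ ∂P =
        ∫⁻ ω in C, ∫⁻ z, ENNReal.ofReal (max (X ω + z) 0) ∂(gaussianReal 0 τ.toNNReal) ∂P := by
      refine lintegral_congr fun ω => ?_
      rw [gauss_scale hτ.le (f := fun z => ENNReal.ofReal (max (X ω + z) 0)) (by fun_prop)]
    rw [h2]
    refine le_trans (le_of_eq h1.symm) ?_
    refine lintegral_mono_ae ?_
    filter_upwards [ae_restrict_of_ae pos, ae_restrict_of_ae h0] with ω h3 h4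
    exact ENNReal.ofReal_le_ofReal (max_le h3 h4)
  filter_upwards [key, H0] with ω h1 h2
  have h3 : ENNReal.ofReal (phi τ (X ω)) ≤ ENNReal.ofReal (H ω) := by
    rw [ofReal_phi]; exact h1
  exact (ENNReal.ofReal_le_ofReal_iff h2).1 h3

lemma gLip {y y' : ℝ} : γ.real (Set.Ici y) ≤ γ.real (Set.Ici y') + |y' - y| := by
  rcases le_total y' y with h | h
  · have : γ.real (Set.Ici y) ≤ γ.real (Set.Ici y') := measureReal_mono (Set.Ici_subset_Ici.2 h)
    have h2 := abs_nonneg (y' - y)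
    linarith
  · have h1 : Set.Ici y ⊆ Set.Ici y' ∪ Set.Ico y y' := by
      intro x hx
      rcases le_or_gt y' x with h2 | h2
      · exact Or.inl h2
      · exact Or.inr ⟨hx, h2⟩
    have h2 : γ.real (Set.Ico y y') ≤ y' - y := by
      rw [measureReal_def]
      refine ENNReal.toReal_le_of_le_ofReal (by linarith) ?_
      rw [γ, gaussianReal_apply 0 one_ne_zero]
      calc ∫⁻ x in Set.Ico y y', gaussianPDF 0 1 x ≤ ∫⁻ x in Set.Ico y y', 1 := by
            refine lintegral_mono fun x => ?_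
            unfold gaussianPDF
            rw [← ENNReal.ofReal_one]
            apply ENNReal.ofReal_le_ofReal
            rw [pdf_eq]
            have h3 : (√(2 * Real.pi))⁻¹ ≤ 1 := by
              apply inv_le_one_of_one_le₀
              rw [Real.one_le_sqrt]
              have := Real.pi_gt_three
              linarith
            have h4 : Real.exp (-x ^ 2 / 2) ≤ 1 := by
              rw [Real.exp_le_one_iff]
              nlinarith [sq_nonneg x]
            have h5 : 0 < Real.exp (-x ^ 2 / 2) := Real.exp_pos _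
            calc (√(2 * Real.pi))⁻¹ * Real.exp (-x ^ 2 / 2) ≤ 1 * 1 := by gcongr
              _ = 1 := one_mul 1
        _ = ENNReal.ofReal (y' - y) := by simp
    calc γ.real (Set.Ici y) ≤ γ.real (Set.Ici y' ∪ Set.Ico y y') := measureReal_mono h1
      _ ≤ γ.real (Set.Ici y') + γ.real (Set.Ico y y') := measureReal_union_le _ _
      _ ≤ γ.real (Set.Ici y') + (y' - y) := by linarith
      _ ≤ _ := by gcongr; exact le_abs_self _

lemma measurable_gIci : Measurable fun y : ℝ => γ.real (Set.Ici y) := by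
  have h : Antitone fun y : ℝ => γ.real (Set.Ici y) := fun a b hab =>
    measureReal_mono (Set.Ici_subset_Ici.2 hab)
  exact h.measurable

/-- one approximation step -/
lemma s3_step [IsProbabilityMeasure P] (hG : G ≤ mΩ) {Y N R : Ω → ℝ} {v vn ε rn : ℝ} {A' C : Set Ω}
    (mY : Measurable[G] Y) (iY : Integrable Y P) (mN : Measurable N) (ig : IG P G N vn.toNNReal)
    (hvn : 0 < vn) (hR : Integrable (fun ω => R ω ^ 2) P)
    (hRn : ∫ ω, R ω ^ 2 ∂P ≤ rn) (hε : 0 < ε)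
    (hA : ∀ᵐ ω ∂P, 0 ≤ Y ω + N ω + R ω → ω ∈ A') (hC : MeasurableSet[G] C) :
    ∫ ω in C, γ.real (Set.Ici (-(Y ω) / √v)) ∂P ≤ P.real (C ∩ A') + rn / ε ^ 2 + ε / √vn +
      |1 / √v - 1 / √vn| * ∫ ω, |Y ω| ∂P := by
  have hYm : Measurable Y := mY.mono hG le_rfl
  have hCm : MeasurableSet C := hG C hC
  have hs : 0 < √vn := Real.sqrt_pos.2 hvn
  -- the Gaussian integral
  have h1 : P (C ∩ {ω | ε ≤ Y ω + N ω}) = ∫⁻ ω in C, γ (Set.Ici ((ε - Y ω) / √vn)) ∂P := by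
    have hm : MeasurableSet {p : ℝ × ℝ | ε ≤ p.1 + p.2} :=
      measurableSet_le measurable_const (by fun_prop)
    have h2 := IG_lint hG ig mN mY hC (ψ := {p : ℝ × ℝ | ε ≤ p.1 + p.2}.indicator 1)
      (measurable_one.indicator hm)
    have h3 : P (C ∩ {ω | ε ≤ Y ω + N ω}) =
        ∫⁻ ω in C, {p : ℝ × ℝ | ε ≤ p.1 + p.2}.indicator (1 : ℝ × ℝ → ℝ≥0∞) (Y ω, N ω) ∂P := by
      have hE : MeasurableSet {ω | ε ≤ Y ω + N ω} := measurableSet_le measurable_const (hYm.add mN)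
      rw [Set.inter_comm, ← Measure.restrict_apply hE, ← lintegral_indicator_one hE]
      refine lintegral_congr fun ω => ?_
      by_cases hω : ε ≤ Y ω + N ω
      · rw [Set.indicator_of_mem (show ω ∈ {ω | ε ≤ Y ω + N ω} from hω), Set.indicator_of_mem
          (show (Y ω, N ω) ∈ {p : ℝ × ℝ | ε ≤ p.1 + p.2} from hω)]
        rfl
      · rw [Set.indicator_of_notMem (show ω ∉ {ω | ε ≤ Y ω + N ω} from hω),
          Set.indicator_of_notMem (show (Y ω, N ω) ∉ {p : ℝ × ℝ | ε ≤ p.1 + p.2} from hω)]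
    rw [h3, h2]
    refine lintegral_congr fun ω => ?_
    rw [← gauss_Ici' hvn, ← lintegral_indicator_one measurableSet_Ici]
    refine lintegral_congr fun z => ?_
    by_cases hz : ε ≤ Y ω + z
    · rw [Set.indicator_of_mem (show (Y ω, z) ∈ {p : ℝ × ℝ | ε ≤ p.1 + p.2} from hz),
        Set.indicator_of_mem (show z ∈ Set.Ici (ε - Y ω) from by
          show ε - Y ω ≤ z
          linarith)]
      rfl
    · rw [Set.indicator_of_notMem (show (Y ω, z) ∉ {p : ℝ × ℝ | ε ≤ p.1 + p.2} from hz),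
        Set.indicator_of_notMem (show z ∉ Set.Ici (ε - Y ω) from by
          intro h4
          have h4' : ε - Y ω ≤ z := h4
          exact hz (by linarith))]
  have mg : Measurable fun ω => γ.real (Set.Ici ((ε - Y ω) / √vn)) :=
    measurable_gIci.comp ((measurable_const.sub hYm).div_const _)
  have mg0 : Measurable fun ω => γ.real (Set.Ici (-(Y ω) / √v)) :=
    measurable_gIci.comp (hYm.neg.div_const _)
  have bd : ∀ y : ℝ, γ.real (Set.Ici y) ≤ 1 := fun y => measureReal_le_one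
  have ig1 : Integrable (fun ω => γ.real (Set.Ici ((ε - Y ω) / √vn))) P := by
    refine Integrable.of_bound mg.aestronglyMeasurable 1 (Eventually.of_forall fun ω => ?_)
    rw [Real.norm_of_nonneg measureReal_nonneg]; exact bd _
  have ig0 : Integrable (fun ω => γ.real (Set.Ici (-(Y ω) / √v))) P := by
    refine Integrable.of_bound mg0.aestronglyMeasurable 1 (Eventually.of_forall fun ω => ?_)
    rw [Real.norm_of_nonneg measureReal_nonneg]; exact bd _
  have h2 : ∫ ω in C, γ.real (Set.Ici ((ε - Y ω) / √vn)) ∂P = P.real (C ∩ {ω | ε ≤ Y ω + N ω}) := by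
    rw [integral_eq_lintegral_of_nonneg_ae (Eventually.of_forall fun ω => measureReal_nonneg)
      mg.aestronglyMeasurable, measureReal_def, h1]
    congr 1
    refine lintegral_congr fun ω => ?_
    rw [measureReal_def, ENNReal.ofReal_toReal (measure_ne_top _ _)]
  -- the bad event
  have h3 : P.real {ω | ε ^ 2 ≤ R ω ^ 2} ≤ rn / ε ^ 2 := by
    have h4 := mul_meas_ge_le_integral_of_nonneg (μ := P) (f := fun ω => R ω ^ 2)
      (Eventually.of_forall fun ω => sq_nonneg _) hR (ε ^ 2)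
    rw [le_div_iff₀ (by positivity), mul_comm]
    exact h4.trans hRn
  have h5 : P.real (C ∩ {ω | ε ≤ Y ω + N ω}) ≤ P.real (C ∩ A') + P.real {ω | ε ^ 2 ≤ R ω ^ 2} := by
    have h6 : P.real (C ∩ {ω | ε ≤ Y ω + N ω}) ≤ P.real ((C ∩ A') ∪ {ω | ε ^ 2 ≤ R ω ^ 2}) := by
      rw [measureReal_def, measureReal_def]
      refine ENNReal.toReal_mono (measure_ne_top _ _) (measure_mono_ae ?_)
      filter_upwards [hA] with ω h7 h8
      rcases le_or_gt (ε ^ 2) (R ω ^ 2) with h9 | h9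
      · exact Or.inr h9
      · refine Or.inl ⟨h8.1, h7 ?_⟩
        have h10 : ε ≤ Y ω + N ω := h8.2
        have h11 := abs_lt_of_sq_lt_sq h9 hε.le
        have := (abs_lt.1 h11).1
        linarith
    exact h6.trans (measureReal_union_le _ _)
  -- Lipschitz comparison
  have h6 : ∫ ω in C, γ.real (Set.Ici (-(Y ω) / √v)) ∂P ≤
      ∫ ω in C, (γ.real (Set.Ici ((ε - Y ω) / √vn)) +
        (ε / √vn + |1 / √v - 1 / √vn| * |Y ω|)) ∂P := by
    refine integral_mono ig0.integrableOn ?_ fun ω => ?_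
    · exact (ig1.add ((integrable_const _).add (iY.abs.const_mul _))).integrableOn
    · refine (gLip (y' := (ε - Y ω) / √vn)).trans ?_
      have h7 : (ε - Y ω) / √vn - -(Y ω) / √v = ε / √vn + (1 / √v - 1 / √vn) * Y ω := by ring
      have h8 : |(ε - Y ω) / √vn - -(Y ω) / √v| ≤ ε / √vn + |1 / √v - 1 / √vn| * |Y ω| := by
        rw [h7]
        refine (abs_add_le _ _).trans ?_
        rw [abs_mul, abs_of_nonneg (by positivity : 0 ≤ ε / √vn)]
      gcongr
  have h7 : ∫ ω in C, (γ.real (Set.Ici ((ε - Y ω) / √vn)) +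
        (ε / √vn + |1 / √v - 1 / √vn| * |Y ω|)) ∂P ≤
      P.real (C ∩ {ω | ε ≤ Y ω + N ω}) + (ε / √vn + |1 / √v - 1 / √vn| * ∫ ω, |Y ω| ∂P) := by
    have i2 : Integrable (fun ω => ε / √vn + |1 / √v - 1 / √vn| * |Y ω|) P :=
      (integrable_const _).add (iY.abs.const_mul _)
    rw [integral_add ig1.integrableOn i2.integrableOn, h2]
    have h8 : ∫ ω in C, (ε / √vn + |1 / √v - 1 / √vn| * |Y ω|) ∂P ≤
        ∫ ω, (ε / √vn + |1 / √v - 1 / √vn| * |Y ω|) ∂P :=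
      setIntegral_le_integral i2 (Eventually.of_forall fun ω => by
        show 0 ≤ ε / √vn + |1 / √v - 1 / √vn| * |Y ω|
        positivity)
    rw [integral_add (integrable_const _) (iY.abs.const_mul _), integral_const_mul] at h8
    simp only [integral_const, probReal_univ, smul_eq_mul, one_mul] at h8
    linarith
  linarith

/-- limit of `s3_step` -/
lemma s3_prob [IsProbabilityMeasure P] (hG : G ≤ mΩ) {Y : Ω → ℝ} {N R : ℕ → Ω → ℝ} {v : ℝ}
    {vn rn : ℕ → ℝ} {A' C : Set Ω}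
    (mY : Measurable[G] Y) (iY : Integrable Y P) (mN : ∀ n, Measurable (N n))
    (ig : ∀ n, IG P G (N n) (vn n).toNNReal) (hv : 0 < v) (hvn : ∀ n, 0 < vn n)
    (lv : Tendsto vn atTop (𝓝 v)) (hR : ∀ n, Integrable (fun ω => R n ω ^ 2) P)
    (hRn : ∀ n, ∫ ω, R n ω ^ 2 ∂P ≤ rn n) (lr : Tendsto rn atTop (𝓝 0))
    (hA : ∀ n, ∀ᵐ ω ∂P, 0 ≤ Y ω + N n ω + R n ω → ω ∈ A') (hC : MeasurableSet[G] C) :
    ∫ ω in C, γ.real (Set.Ici (-(Y ω) / √v)) ∂P ≤ P.real (C ∩ A') := by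
  have hs : 0 < √v := Real.sqrt_pos.2 hv
  have lsv : Tendsto (fun n => √(vn n)) atTop (𝓝 √v) := (Real.continuous_sqrt.tendsto v).comp lv
  have step : ∀ ε : ℝ, 0 < ε → ∫ ω in C, γ.real (Set.Ici (-(Y ω) / √v)) ∂P ≤
      P.real (C ∩ A') + ε / √v := by
    intro ε hε
    have l1 : Tendsto (fun n => P.real (C ∩ A') + rn n / ε ^ 2 + ε / √(vn n) +
        |1 / √v - 1 / √(vn n)| * ∫ ω, |Y ω| ∂P) atTop
        (𝓝 (P.real (C ∩ A') + 0 / ε ^ 2 + ε / √v + |1 / √v - 1 / √v| * ∫ ω, |Y ω| ∂P)) := by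
      refine Tendsto.add (Tendsto.add (Tendsto.add tendsto_const_nhds (lr.div_const _))
        (Tendsto.div tendsto_const_nhds lsv hs.ne')) ?_
      exact ((tendsto_const_nhds.sub (Tendsto.div tendsto_const_nhds lsv hs.ne')).abs).mul_const _
    have l2 := ge_of_tendsto' l1 fun n => s3_step (v := v) hG mY iY (mN n) (ig n) (hvn n) (hR n)
      (hRn n) hε (hA n) hC
    simpa using l2
  have l3 : Tendsto (fun ε : ℝ => P.real (C ∩ A') + ε / √v) (𝓝[>] 0)
      (𝓝 (P.real (C ∩ A') + 0 / √v)) := by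
    refine (tendsto_const_nhds.add ?_).mono_left nhdsWithin_le_nhds
    exact (continuous_id.div_const _).tendsto 0
  rw [zero_div, add_zero] at l3
  exact ge_of_tendsto l3 (by filter_upwards [self_mem_nhdsWithin] with ε hε using step ε hε)

/-- comparison between two times -/
lemma s3_abs [IsProbabilityMeasure P] (hG : G ≤ mΩ) {Y H H' : Ω → ℝ} {v a : ℝ} {A' : Set Ω}
    (mY : Measurable[G] Y) (mH : Measurable[G] H) (iHi : Integrable H P) (iH' : Integrable H' P)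
    (hprob : ∀ C, MeasurableSet[G] C →
      ∫ ω in C, γ.real (Set.Ici (-(Y ω) / √v)) ∂P ≤ P.real (C ∩ A'))
    (mA : MeasurableSet A') (ha : 0 ≤ a) (hH' : ∀ᵐ ω ∂P, ω ∈ A' → a ≤ H' ω)
    (H0' : ∀ᵐ ω ∂P, 0 ≤ H' ω) (H0 : ∀ᵐ ω ∂P, 0 ≤ H ω)
    (eq : ∀ C, MeasurableSet[G] C → ∫ ω in C, H' ω ∂P = ∫ ω in C, H ω ∂P) :
    ∀ᵐ ω ∂P, a * γ.real (Set.Ici (-(Y ω) / √v)) ≤ H ω := by
  have hYm : Measurable Y := mY.mono hG le_rfl
  have mg0' : Measurable[G] fun ω => γ.real (Set.Ici (-(Y ω) / √v)) :=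
    measurable_gIci.comp (mY.neg.div_const _)
  have mg0 : Measurable fun ω => γ.real (Set.Ici (-(Y ω) / √v)) := mg0'.mono hG le_rfl
  have ig0 : Integrable (fun ω => γ.real (Set.Ici (-(Y ω) / √v))) P := by
    refine Integrable.of_bound mg0.aestronglyMeasurable 1 (Eventually.of_forall fun ω => ?_)
    rw [Real.norm_of_nonneg measureReal_nonneg]; exact measureReal_le_one
  have key : (fun ω => ENNReal.ofReal (a * γ.real (Set.Ici (-(Y ω) / √v)))) ≤ᵐ[P]
      fun ω => ENNReal.ofReal (H ω) := by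
    refine ae_le_of_sets hG (ENNReal.measurable_ofReal.comp (mg0'.const_mul a))
      (ENNReal.measurable_ofReal.comp mH) fun C hC => ?_
    have hCm := hG C hC
    rw [← ofReal_integral_eq_lintegral_ofReal (ig0.const_mul a).integrableOn
      (Eventually.of_forall fun ω => mul_nonneg ha measureReal_nonneg),
      ← ofReal_integral_eq_lintegral_ofReal iHi.integrableOn (ae_restrict_of_ae H0)]
    apply ENNReal.ofReal_le_ofReal
    rw [integral_const_mul, ← eq C hC]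
    calc a * ∫ ω in C, γ.real (Set.Ici (-(Y ω) / √v)) ∂P ≤ a * P.real (C ∩ A') :=
          mul_le_mul_of_nonneg_left (hprob C hC) ha
      _ = ∫ ω in C, A'.indicator (fun _ => a) ω ∂P := by
          rw [setIntegral_indicator mA, setIntegral_const, smul_eq_mul, mul_comm]
      _ ≤ ∫ ω in C, H' ω ∂P := by
          refine setIntegral_mono_on_ae ((integrable_const a).indicator mA).integrableOn
            iH'.integrableOn hCm ?_
          filter_upwards [hH', H0'] with ω h1 h2 _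
          by_cases h3 : ω ∈ A'
          · rw [Set.indicator_of_mem h3]; exact h1 h3
          · rw [Set.indicator_of_notMem h3]; exact h2
  filter_upwards [key, H0] with ω h1 h2
  exact (ENNReal.ofReal_le_ofReal_iff h2).1 h1

end Crest.Agent.R146.Expo_778
end

-- ▼ part R146/SnapB_778
section

/-!
# Snapshot estimates (helper778), exponents package of row 146

`Snap F P h l H Λ D τ κ c0 C`: at one time `t` (`τ = 1 - t`), `F = F_t`, `H = E_t h`, `Λ = E_t λ`,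
`D = D(t)`, `κ² = ∫_t^1 1/D²`, charge `E H Λ = c0 τ`, second moments `≤ C`.

* `G_up`  : upper bound for `P (u/2 < h ≤ u)`, `u = √τ / L`;
* `F_up`  : upper bound for `P (s/2 < λ ≤ s)`, `s ≤ κ / L`;
* `G_low`, `F_low` : lower bounds for `P (0 < h ≤ M² √τ)`, `P (0 < λ ≤ M² κ)`.
-/

set_option autoImplicit false

open MeasureTheory ProbabilityTheory Real
open scoped ENNReal

namespace Crest.Agent.R146.Snap_778
open Gauss_778

structure Snap {Ω : Type*} (F : MeasurableSpace Ω) [m0 : MeasurableSpace Ω] (P : Measure Ω)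
    (h l H Λ : Ω → ℝ) (D τ κ c0 C : ℝ) : Prop where
  prob : IsProbabilityMeasure P
  hF : F ≤ m0
  mh : Measurable h
  ml : Measurable l
  h0 : ∀ᵐ ω ∂P, 0 ≤ h ω
  l0 : ∀ᵐ ω ∂P, 0 ≤ l ω
  hl : ∀ᵐ ω ∂P, h ω * l ω = 0
  mH : Measurable[F] H
  mL : Measurable[F] Λ
  H0 : ∀ᵐ ω ∂P, 0 ≤ H ω
  L0 : ∀ᵐ ω ∂P, 0 ≤ Λ ω
  iH : ∀ A, MeasurableSet[F] A →
    ∫⁻ ω in A, ENNReal.ofReal (h ω) ∂P = ∫⁻ ω in A, ENNReal.ofReal (H ω) ∂P
  iL : ∀ A, MeasurableSet[F] A →
    ∫⁻ ω in A, ENNReal.ofReal (l ω) ∂P = ∫⁻ ω in A, ENNReal.ofReal (Λ ω) ∂P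
  bh : ∫⁻ ω, ENNReal.ofReal (h ω) ^ 2 ∂P ≤ ENNReal.ofReal C
  bl : ∫⁻ ω, ENNReal.ofReal (l ω) ^ 2 ∂P ≤ ENNReal.ofReal C
  bH : ∫⁻ ω, ENNReal.ofReal (H ω) ^ 2 ∂P ≤ ENNReal.ofReal C
  bL : ∫⁻ ω, ENNReal.ofReal (Λ ω) ^ 2 ∂P ≤ ENNReal.ofReal C
  sh : ∀ (θ : ℝ) A, MeasurableSet[F] A →
    ∫⁻ ω in A, ENNReal.ofReal (exp (θ * (h ω - H ω))) ∂P ≤
      ENNReal.ofReal (exp (θ ^ 2 * τ / 2)) * P A
  sl : ∀ (θ : ℝ) A, MeasurableSet[F] A →
    ∫⁻ ω in A, ENNReal.ofReal (exp (θ * (l ω - Λ ω))) ∂P ≤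
      ENNReal.ofReal (exp (θ ^ 2 * κ ^ 2 / 2)) * P A
  s1 : ∀ᵐ ω ∂P, phi τ (H ω - D * Λ ω) ≤ H ω
  charge : ∫⁻ ω, ENNReal.ofReal (H ω) * ENNReal.ofReal (Λ ω) ∂P = ENNReal.ofReal (c0 * τ)
  D0 : 0 < D
  τ0 : 0 < τ
  κ0 : 0 < κ
  c00 : 0 < c0
  C0 : 0 ≤ C

lemma div_help {A : ℝ≥0∞} {x b : ℝ} (hx : 0 < x)
    (h : ENNReal.ofReal x * A ≤ ENNReal.ofReal b) : A ≤ ENNReal.ofReal (b / x) := by
  have h1 : A = ENNReal.ofReal (1 / x) * (ENNReal.ofReal x * A) := by
    rw [← mul_assoc, ← ENNReal.ofReal_mul (by positivity), one_div_mul_cancel hx.ne']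
    simp
  rw [h1]
  refine (mul_le_mul_right h _).trans (le_of_eq ?_)
  rw [← ENNReal.ofReal_mul (by positivity)]
  congr 1; ring

section
variable {Ω : Type*} {F : MeasurableSpace Ω} [m0 : MeasurableSpace Ω] {P : Measure Ω}
  {h l H Λ : Ω → ℝ} {D τ κ c0 C : ℝ}

/-- the free field `X = H - D Λ` -/
abbrev XX (H Λ : Ω → ℝ) (D : ℝ) (ω : Ω) : ℝ := H ω - D * Λ ω

lemma Snap.mX (S : Snap F P h l H Λ D τ κ c0 C) : Measurable[F] (XX H Λ D) :=
  S.mH.sub (S.mL.const_mul D)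

lemma Snap.mH' (S : Snap F P h l H Λ D τ κ c0 C) : Measurable H := S.mH.mono S.hF le_rfl
lemma Snap.mL' (S : Snap F P h l H Λ D τ κ c0 C) : Measurable Λ := S.mL.mono S.hF le_rfl
lemma Snap.mX' (S : Snap F P h l H Λ D τ κ c0 C) : Measurable (XX H Λ D) := S.mX.mono S.hF le_rfl

/-- weights for `h` -/
lemma Snap.wh (S : Snap F P h l H Λ D τ κ c0 C) {Y : Ω → ℝ≥0∞} (hY : Measurable[F] Y) :
    ∫⁻ ω, Y ω * ENNReal.ofReal (h ω) ∂P = ∫⁻ ω, Y ω * ENNReal.ofReal (H ω) ∂P :=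
  wt S.hF S.mh.ennreal_ofReal.aemeasurable S.mH'.ennreal_ofReal.aemeasurable S.iH hY

lemma Snap.wl (S : Snap F P h l H Λ D τ κ c0 C) {Y : Ω → ℝ≥0∞} (hY : Measurable[F] Y) :
    ∫⁻ ω, Y ω * ENNReal.ofReal (l ω) ∂P = ∫⁻ ω, Y ω * ENNReal.ofReal (Λ ω) ∂P :=
  wt S.hF S.ml.ennreal_ofReal.aemeasurable S.mL'.ennreal_ofReal.aemeasurable S.iL hY

/-- `E [Λ ; X ≥ 0] ≤ c0 √τ / c1` -/
lemma Snap.L4 (S : Snap F P h l H Λ D τ κ c0 C) :
    ∫⁻ ω in {ω | 0 ≤ XX H Λ D ω}, ENNReal.ofReal (Λ ω) ∂P ≤ ENNReal.ofReal (c0 * √τ / c1) := by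
  have hτ : 0 < √τ := sqrt_pos.2 S.τ0
  have hx : 0 < √τ * c1 := mul_pos hτ c1_pos
  have hA : MeasurableSet {ω | 0 ≤ XX H Λ D ω} := measurableSet_le measurable_const S.mX'
  have h1 : ENNReal.ofReal (√τ * c1) * ∫⁻ ω in {ω | 0 ≤ XX H Λ D ω}, ENNReal.ofReal (Λ ω) ∂P ≤
      ENNReal.ofReal (c0 * τ) := by
    rw [← lintegral_const_mul' _ _ ENNReal.ofReal_ne_top, ← S.charge]
    refine le_trans ?_ (setLIntegral_le_lintegral {ω | 0 ≤ XX H Λ D ω} _)
    refine lintegral_mono_ae ?_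
    filter_upwards [ae_restrict_mem hA, ae_restrict_of_ae S.s1] with ω h2 h3
    refine mul_le_mul_left ?_ _
    exact ENNReal.ofReal_le_ofReal ((phi_ge τ _ h2).trans h3)
  refine (div_help hx h1).trans (le_of_eq ?_)
  congr 1
  have : τ = √τ * √τ := (mul_self_sqrt S.τ0.le).symm
  have hc1 := c1_pos
  field_simp
  rw [sq_sqrt S.τ0.le]

/-- `E [H ; X ≤ 0] ≤ c0 D √τ / c1` -/
lemma Snap.L5 (S : Snap F P h l H Λ D τ κ c0 C) :
    ∫⁻ ω in {ω | XX H Λ D ω ≤ 0}, ENNReal.ofReal (H ω) ∂P ≤ ENNReal.ofReal (c0 * D * √τ / c1) := by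
  have hτ : 0 < √τ := sqrt_pos.2 S.τ0
  have hD := S.D0
  have hc1 := c1_pos
  have hx : 0 < √τ * c1 / D := by positivity
  have hA : MeasurableSet {ω | XX H Λ D ω ≤ 0} := measurableSet_le S.mX' measurable_const
  have h1 : ENNReal.ofReal (√τ * c1 / D) * ∫⁻ ω in {ω | XX H Λ D ω ≤ 0}, ENNReal.ofReal (H ω) ∂P ≤
      ENNReal.ofReal (c0 * τ) := by
    rw [← lintegral_const_mul' _ _ ENNReal.ofReal_ne_top, ← S.charge]
    refine le_trans ?_ (setLIntegral_le_lintegral {ω | XX H Λ D ω ≤ 0} _)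
    refine lintegral_mono_ae ?_
    filter_upwards [ae_restrict_mem hA, ae_restrict_of_ae S.s1] with ω h2 h3
    rw [mul_comm]
    refine mul_le_mul_right ?_ _
    apply ENNReal.ofReal_le_ofReal
    have h4 := psi_ge τ _ h2
    rw [div_le_iff₀ hD]
    have h5 : XX H Λ D ω = H ω - D * Λ ω := rfl
    rw [h5] at h4
    linarith
  refine (div_help hx h1).trans (le_of_eq ?_)
  congr 1
  field_simp
  rw [sq_sqrt S.τ0.le]

lemma Snap.HX (S : Snap F P h l H Λ D τ κ c0 C) : ∀ᵐ ω ∂P, XX H Λ D ω ≤ H ω := by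
  filter_upwards [S.L0] with ω h1
  show H ω - D * Λ ω ≤ H ω
  nlinarith [mul_nonneg S.D0.le h1]

/-- dyadic upper bound for the gap law -/
lemma Snap.G_up (S : Snap F P h l H Λ D τ κ c0 C) {L : ℝ} (hL : 1 ≤ L) :
    P {ω | √τ / L / 2 < h ω ∧ h ω ≤ √τ / L} ≤ ENNReal.ofReal (2 * L * D * c0 / c1) +
      ENNReal.ofReal (exp 1 * (1 + L) ^ 2 * D * c0 / (c1 * c2)) +
      ENNReal.ofReal (exp (1 - L ^ 2 / 2)) := by
  have hτ := S.τ0
  have hs : 0 < √τ := sqrt_pos.2 S.τ0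
  have hss : √τ * √τ = τ := mul_self_sqrt hτ.le
  have hD := S.D0
  have hc0 := S.c00
  have hc1 := c1_pos
  have hc2 := c2_pos
  have hL0 : 0 < L := by linarith
  set u : ℝ := √τ / L with hu
  have hu0 : 0 < u := by positivity
  set E : Set Ω := {ω | u / 2 < h ω ∧ h ω ≤ u} with hE
  have mE : MeasurableSet E :=
    (measurableSet_lt measurable_const S.mh).inter (measurableSet_le S.mh measurable_const)
  set A1 : Set Ω := {ω | XX H Λ D ω ≤ 0} with hA1
  set A2 : Set Ω := {ω | 0 < XX H Λ D ω ∧ XX H Λ D ω ≤ L * √τ} with hA2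
  set A3 : Set Ω := {ω | L * √τ < XX H Λ D ω} with hA3
  have fA1 : MeasurableSet[F] A1 := by
    have := S.mX (measurableSet_Iic (a := (0 : ℝ))); exact this
  have fA2 : MeasurableSet[F] A2 := by
    have := S.mX (measurableSet_Ioc (a := (0 : ℝ)) (b := L * √τ)); exact this
  have fA3 : MeasurableSet[F] A3 := by
    have := S.mX (measurableSet_Ioi (a := L * √τ)); exact this
  have mA1 := S.hF _ fA1
  have mA2 := S.hF _ fA2
  have mA3 := S.hF _ fA3
  have hsub : E ⊆ (E ∩ A1) ∪ (E ∩ A2) ∪ (E ∩ A3) := by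
    intro ω hω
    rcases le_or_gt (XX H Λ D ω) 0 with h1 | h1
    · exact Or.inl (Or.inl ⟨hω, h1⟩)
    · rcases le_or_gt (XX H Λ D ω) (L * √τ) with h2 | h2
      · exact Or.inl (Or.inr ⟨hω, h1, h2⟩)
      · exact Or.inr ⟨hω, h2⟩
  refine (measure_mono hsub).trans ?_
  refine (measure_union_le _ _).trans (add_le_add ((measure_union_le _ _).trans
    (add_le_add ?_ ?_)) ?_)
  · -- on X ≤ 0
    have h1 : P (E ∩ A1) ≤ ENNReal.ofReal (2 / u) * ∫⁻ ω in A1, ENNReal.ofReal (h ω) ∂P := by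
      rw [← lintegral_indicator_one (mE.inter mA1), ← lintegral_const_mul' _ _ ENNReal.ofReal_ne_top,
        ← lintegral_indicator mA1]
      refine lintegral_mono fun ω => ?_
      by_cases hω : ω ∈ E ∩ A1
      · rw [Set.indicator_of_mem hω, Set.indicator_of_mem hω.2,
          ← ENNReal.ofReal_mul (by positivity)]
        simp only [Pi.one_apply]
        rw [← ENNReal.ofReal_one]
        apply ENNReal.ofReal_le_ofReal
        have h2 : u / 2 < h ω := hω.1.1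
        rw [div_mul_eq_mul_div, le_div_iff₀ hu0]; linarith
      · rw [Set.indicator_of_notMem hω]; exact bot_le
    refine h1.trans ?_
    rw [S.iH A1 fA1]
    refine (mul_le_mul_right S.L5 _).trans (le_of_eq ?_)
    rw [← ENNReal.ofReal_mul (by positivity), hu]
    congr 1
    field_simp
  · -- on 0 < X ≤ L √τ
    have h1 : P (E ∩ A2) ≤ ∫⁻ ω, A2.indicator (fun ω =>
        ENNReal.ofReal (exp (1 - (XX H Λ D ω / √τ) ^ 2 / 2))) ω *
        ENNReal.ofReal (exp ((-(XX H Λ D ω) / τ) * (h ω - H ω) -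
          (-(XX H Λ D ω) / τ) ^ 2 * τ / 2)) ∂P := by
      rw [← lintegral_indicator_one (mE.inter mA2)]
      refine lintegral_mono_ae ?_
      filter_upwards [S.HX] with ω hHX
      by_cases hω : ω ∈ E ∩ A2
      · rw [Set.indicator_of_mem hω, Set.indicator_of_mem hω.2,
          ← ENNReal.ofReal_mul (exp_pos _).le, ← exp_add]
        simp only [Pi.one_apply]
        rw [← ENNReal.ofReal_one]
        apply ENNReal.ofReal_le_ofReal
        apply one_le_exp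
        obtain ⟨⟨_, hhu⟩, hX0, hXL⟩ := hω
        set x := XX H Λ D ω with hx
        set z := x / √τ with hz
        have hxz : x = √τ * z := by rw [hz]; field_simp
        have hz0 : 0 ≤ z := by rw [hz]; positivity
        have hzL : z ≤ L := by rw [hz, div_le_iff₀ hs]; exact hXL
        have e1 : -x / τ * (h ω - H ω) - (-x / τ) ^ 2 * τ / 2 =
            (x / τ) * (H ω - h ω) - x ^ 2 / τ / 2 := by field_simp; ring
        have e2 : x ^ 2 / τ = z ^ 2 := by rw [hxz, mul_pow, sq_sqrt hτ.le]; field_simp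
        have e3 : (x / τ) * (x - u) ≤ (x / τ) * (H ω - h ω) :=
          mul_le_mul_of_nonneg_left (by linarith) (by positivity)
        have e4 : (x / τ) * (x - u) = z ^ 2 - z / L := by
          have h4 : (x / τ) * x = z ^ 2 := by rw [← e2]; ring
          have h5 : (x / τ) * u = z / L := by
            rw [hu, hxz]
            have : τ = √τ * √τ := hss.symm
            field_simp
            rw [sq_sqrt hτ.le, mul_comm]
          rw [mul_sub, h4, h5]
        have e5 : z / L ≤ 1 := by rw [div_le_one hL0]; exact hzL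
        rw [e1, e2]
        linarith
      · rw [Set.indicator_of_notMem hω]; exact bot_le
    refine h1.trans ?_
    have hYm : Measurable[F] (A2.indicator fun ω =>
        ENNReal.ofReal (exp (1 - (XX H Λ D ω / √τ) ^ 2 / 2))) := by
      refine Measurable.indicator ?_ fA2
      exact ENNReal.measurable_ofReal.comp (measurable_exp.comp
        (measurable_const.sub (((S.mX.div_const _).pow_const 2).div_const 2)))
    have hΘ : Measurable[F] fun ω => -(XX H Λ D ω) / τ := (S.mX.neg).div_const _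
    refine (emVar S.hF (S.mh.sub S.mH').aemeasurable S.sh hΘ hYm).trans ?_
    set K : ℝ := exp 1 * (1 + L) ^ 2 * D / (c2 * √τ) with hK
    have hK0 : 0 ≤ K := by positivity
    have h2 : ∫⁻ ω, A2.indicator (fun ω =>
        ENNReal.ofReal (exp (1 - (XX H Λ D ω / √τ) ^ 2 / 2))) ω ∂P ≤
        ENNReal.ofReal K * ∫⁻ ω in {ω | 0 ≤ XX H Λ D ω}, ENNReal.ofReal (Λ ω) ∂P := by
      have mA0 : MeasurableSet {ω | 0 ≤ XX H Λ D ω} := measurableSet_le measurable_const S.mX'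
      rw [← lintegral_const_mul' _ _ ENNReal.ofReal_ne_top, ← lintegral_indicator mA0]
      refine lintegral_mono_ae ?_
      filter_upwards [S.s1] with ω hs1
      by_cases hω : ω ∈ A2
      · rw [Set.indicator_of_mem hω, Set.indicator_of_mem (show ω ∈ {ω | 0 ≤ XX H Λ D ω} from hω.1.le),
          ← ENNReal.ofReal_mul hK0]
        apply ENNReal.ofReal_le_ofReal
        obtain ⟨hX0, hXL⟩ := hω
        have h3 := psi_ge2 τ (XX H Λ D ω) hτ hX0.le
        have h4 : phi τ (XX H Λ D ω) - XX H Λ D ω ≤ D * Λ ω := by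
          have : XX H Λ D ω = H ω - D * Λ ω := rfl
          have h5 : phi τ (XX H Λ D ω) ≤ H ω := hs1
          linarith
        set z := XX H Λ D ω / √τ with hz
        have hz0 : 0 ≤ z := by rw [hz]; positivity
        have hzL : z ≤ L := by rw [hz, div_le_iff₀ hs]; exact hXL
        have h6 : √τ * (c2 * exp (-z ^ 2 / 2) / (1 + z) ^ 2) ≤ D * Λ ω := h3.trans h4
        have h7 : √τ * (c2 * exp (-z ^ 2 / 2) / (1 + L) ^ 2) ≤ D * Λ ω := by
          refine le_trans ?_ h6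
          gcongr
        have h8 : exp (1 - z ^ 2 / 2) =
            (exp 1 * (1 + L) ^ 2 / (c2 * √τ)) * (√τ * (c2 * exp (-z ^ 2 / 2) / (1 + L) ^ 2)) := by
          rw [show (1 : ℝ) - z ^ 2 / 2 = 1 + -z ^ 2 / 2 by ring, exp_add]
          field_simp
        rw [h8]
        refine (mul_le_mul_of_nonneg_left h7 (by positivity)).trans (le_of_eq ?_)
        rw [hK]; ring
      · rw [Set.indicator_of_notMem hω]; exact bot_le
    refine h2.trans ((mul_le_mul_right S.L4 _).trans (le_of_eq ?_))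
    rw [← ENNReal.ofReal_mul hK0, hK]
    congr 1
    field_simp
  · -- on X > L √τ
    have h1 : P (E ∩ A3) ≤ ∫⁻ ω, A3.indicator (fun _ => ENNReal.ofReal (exp (1 - L ^ 2))) ω *
        ENNReal.ofReal (exp ((-L / √τ) * (h ω - H ω))) ∂P := by
      rw [← lintegral_indicator_one (mE.inter mA3)]
      refine lintegral_mono_ae ?_
      filter_upwards [S.HX] with ω hHX
      by_cases hω : ω ∈ E ∩ A3
      · rw [Set.indicator_of_mem hω, Set.indicator_of_mem hω.2,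
          ← ENNReal.ofReal_mul (exp_pos _).le, ← exp_add]
        simp only [Pi.one_apply]
        rw [← ENNReal.ofReal_one]
        apply ENNReal.ofReal_le_ofReal
        apply one_le_exp
        obtain ⟨⟨_, hhu⟩, hX⟩ := hω
        have hX' : L * √τ < XX H Λ D ω := hX
        have e1 : (L / √τ) * (L * √τ - u) ≤ (L / √τ) * (H ω - h ω) :=
          mul_le_mul_of_nonneg_left (by linarith) (by positivity)
        have e2 : (L / √τ) * (L * √τ - u) = L ^ 2 - 1 := by rw [hu]; field_simp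
        have e3 : -L / √τ * (h ω - H ω) = (L / √τ) * (H ω - h ω) := by ring
        rw [e3]; linarith
      · rw [Set.indicator_of_notMem hω]; exact bot_le
    refine h1.trans ?_
    have hYm : Measurable[F] (A3.indicator fun _ => ENNReal.ofReal (exp (1 - L ^ 2))) :=
      Measurable.indicator measurable_const fA3
    refine (emY S.hF (S.mh.sub S.mH').aemeasurable S.sh (-L / √τ) hYm).trans ?_
    have h2 : ∫⁻ ω, A3.indicator (fun _ => ENNReal.ofReal (exp (1 - L ^ 2))) ω ∂P ≤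
        ENNReal.ofReal (exp (1 - L ^ 2)) := by
      rw [lintegral_indicator mA3, setLIntegral_const]
      have := S.prob
      calc ENNReal.ofReal (exp (1 - L ^ 2)) * P A3 ≤ ENNReal.ofReal (exp (1 - L ^ 2)) * 1 :=
            mul_le_mul_right prob_le_one _
        _ = _ := mul_one _
    refine (mul_le_mul_right h2 _).trans (le_of_eq ?_)
    rw [← ENNReal.ofReal_mul (exp_pos _).le, ← exp_add]
    congr 2
    rw [div_pow, sq_sqrt hτ.le]
    field_simp
    ring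

/-- the Gaussian factor in the upper bound for the force law -/
noncomputable def c3 : ℝ := √(2 * π) * exp 3 * exp 1 * 3

lemma c3_pos : 0 < c3 := by unfold c3; positivity

/-- dyadic upper bound for the force law; `τ'`, `v = κ_t² - κ_{t'}²` belong to a later time -/
lemma Snap.F_up (S : Snap F P h l H Λ D τ κ c0 C) {L s τ' v : ℝ} (hL : 1 ≤ L) (hs0 : 0 < s)
    (hs : s ≤ κ / L) (hτ' : 0 < τ') (hv : 0 < v) (hv1 : v ≤ κ ^ 2) (hv2 : L ^ 2 * (κ ^ 2 / v - 1) ≤ 2)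
    (s3 : ∀ᵐ ω ∂P, c1 * √τ' * γ.real (Set.Ici (-(XX H Λ D ω) / (D * √v))) ≤ H ω) :
    P {ω | s / 2 < l ω ∧ l ω ≤ s} ≤ ENNReal.ofReal (2 * c0 * √τ / (c1 * s)) +
      ENNReal.ofReal (c3 * (1 + L) * c0 * D * √τ / (c1 ^ 2 * √τ')) +
      ENNReal.ofReal (exp (1 - L ^ 2 / 2)) := by
  have hτ := S.τ0
  have hst : 0 < √τ := sqrt_pos.2 S.τ0
  have hst' : 0 < √τ' := sqrt_pos.2 hτ'
  have hsv : 0 < √v := sqrt_pos.2 hv
  have hD := S.D0
  have hκ := S.κ0
  have hc0 := S.c00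
  have hc1 := c1_pos
  have hL0 : 0 < L := by linarith
  have hc3 := c3_pos
  set E : Set Ω := {ω | s / 2 < l ω ∧ l ω ≤ s} with hE
  have mE : MeasurableSet E :=
    (measurableSet_lt measurable_const S.ml).inter (measurableSet_le S.ml measurable_const)
  set A1 : Set Ω := {ω | 0 ≤ XX H Λ D ω} with hA1
  set A2 : Set Ω := {ω | XX H Λ D ω < 0 ∧ -(L * (D * κ)) ≤ XX H Λ D ω} with hA2
  set A3 : Set Ω := {ω | XX H Λ D ω < -(L * (D * κ))} with hA3
  have fA1 : MeasurableSet[F] A1 := by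
    have := S.mX (measurableSet_Ici (a := (0 : ℝ))); exact this
  have fA2 : MeasurableSet[F] A2 := by
    have := (S.mX (measurableSet_Iio (a := (0 : ℝ)))).inter
      (S.mX (measurableSet_Ici (a := -(L * (D * κ))))); exact this
  have fA3 : MeasurableSet[F] A3 := by
    have := S.mX (measurableSet_Iio (a := -(L * (D * κ)))); exact this
  have mA1 := S.hF _ fA1
  have mA2 := S.hF _ fA2
  have mA3 := S.hF _ fA3
  have hsub : E ⊆ (E ∩ A1) ∪ (E ∩ A2) ∪ (E ∩ A3) := by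
    intro ω hω
    rcases le_or_gt 0 (XX H Λ D ω) with h1 | h1
    · exact Or.inl (Or.inl ⟨hω, h1⟩)
    · rcases le_or_gt (-(L * (D * κ))) (XX H Λ D ω) with h2 | h2
      · exact Or.inl (Or.inr ⟨hω, h1, h2⟩)
      · exact Or.inr ⟨hω, h2⟩
  -- `Λ ≥ |X| / D`
  have hLX : ∀ᵐ ω ∂P, -(XX H Λ D ω) / D ≤ Λ ω := by
    filter_upwards [S.H0] with ω h1
    have h2 : XX H Λ D ω = H ω - D * Λ ω := rfl
    rw [div_le_iff₀ hD, h2]; linarith
  refine (measure_mono hsub).trans ?_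
  refine (measure_union_le _ _).trans (add_le_add ((measure_union_le _ _).trans
    (add_le_add ?_ ?_)) ?_)
  · -- on X ≥ 0
    have h1 : P (E ∩ A1) ≤ ENNReal.ofReal (2 / s) * ∫⁻ ω in A1, ENNReal.ofReal (l ω) ∂P := by
      rw [← lintegral_indicator_one (mE.inter mA1), ← lintegral_const_mul' _ _ ENNReal.ofReal_ne_top,
        ← lintegral_indicator mA1]
      refine lintegral_mono fun ω => ?_
      by_cases hω : ω ∈ E ∩ A1
      · rw [Set.indicator_of_mem hω, Set.indicator_of_mem hω.2,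
          ← ENNReal.ofReal_mul (by positivity)]
        simp only [Pi.one_apply]
        rw [← ENNReal.ofReal_one]
        apply ENNReal.ofReal_le_ofReal
        have h2 : s / 2 < l ω := hω.1.1
        rw [div_mul_eq_mul_div, le_div_iff₀ hs0]; linarith
      · rw [Set.indicator_of_notMem hω]; exact bot_le
    refine h1.trans ?_
    rw [S.iL A1 fA1]
    refine (mul_le_mul_right S.L4 _).trans (le_of_eq ?_)
    rw [← ENNReal.ofReal_mul (by positivity)]
    congr 1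
    field_simp
  · -- on -L D κ ≤ X < 0
    have h1 : P (E ∩ A2) ≤ ∫⁻ ω, A2.indicator (fun ω =>
        ENNReal.ofReal (exp (1 - (XX H Λ D ω / (D * κ)) ^ 2 / 2))) ω *
        ENNReal.ofReal (exp ((XX H Λ D ω / (D * κ ^ 2)) * (l ω - Λ ω) -
          (XX H Λ D ω / (D * κ ^ 2)) ^ 2 * κ ^ 2 / 2)) ∂P := by
      rw [← lintegral_indicator_one (mE.inter mA2)]
      refine lintegral_mono_ae ?_
      filter_upwards [hLX] with ω hLX
      by_cases hω : ω ∈ E ∩ A2
      · rw [Set.indicator_of_mem hω, Set.indicator_of_mem hω.2,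
          ← ENNReal.ofReal_mul (exp_pos _).le, ← exp_add]
        simp only [Pi.one_apply]
        rw [← ENNReal.ofReal_one]
        apply ENNReal.ofReal_le_ofReal
        apply one_le_exp
        obtain ⟨⟨_, hhu⟩, hX0, hXL⟩ := hω
        set x := XX H Λ D ω with hx
        set a := -x / (D * κ) with ha
        have hxa : x = -(D * κ * a) := by rw [ha]; field_simp
        have ha0 : 0 ≤ a := by
          rw [ha]; apply div_nonneg (by linarith) (by positivity)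
        have haL : a ≤ L := by rw [ha, div_le_iff₀ (by positivity)]; linarith
        have hΛ : κ * a ≤ Λ ω := by
          refine le_trans (le_of_eq ?_) hLX
          rw [hxa]; field_simp
        have e1 : (x / (D * κ)) ^ 2 = a ^ 2 := by rw [ha]; ring
        have e2 : x / (D * κ ^ 2) = -(a / κ) := by rw [hxa]; field_simp
        rw [e1, e2]
        have e3 : (-(a / κ)) ^ 2 * κ ^ 2 = a ^ 2 := by field_simp
        rw [e3]
        have e4 : (a / κ) * (κ * a - s) ≤ (a / κ) * (Λ ω - l ω) :=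
          mul_le_mul_of_nonneg_left (by linarith) (by positivity)
        have e5 : (a / κ) * (κ * a - s) = a ^ 2 - a * (s / κ) := by field_simp
        have e6 : a * (s / κ) ≤ 1 := by
          have h6 : s / κ ≤ 1 / L := by
            rw [div_le_iff₀ hκ]; refine hs.trans (le_of_eq ?_); ring
          calc a * (s / κ) ≤ L * (1 / L) := mul_le_mul haL h6 (by positivity) hL0.le
            _ = 1 := by field_simp
        have e7 : -(a / κ) * (l ω - Λ ω) = (a / κ) * (Λ ω - l ω) := by ring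
        rw [e7]; linarith
      · rw [Set.indicator_of_notMem hω]; exact bot_le
    refine h1.trans ?_
    have hYm : Measurable[F] (A2.indicator fun ω =>
        ENNReal.ofReal (exp (1 - (XX H Λ D ω / (D * κ)) ^ 2 / 2))) := by
      refine Measurable.indicator ?_ fA2
      exact ENNReal.measurable_ofReal.comp (measurable_exp.comp
        (measurable_const.sub (((S.mX.div_const _).pow_const 2).div_const 2)))
    have hΘ : Measurable[F] fun ω => XX H Λ D ω / (D * κ ^ 2) := S.mX.div_const _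
    refine (emVar S.hF (S.ml.sub S.mL').aemeasurable S.sl hΘ hYm).trans ?_
    set K : ℝ := c3 * (1 + L) / (c1 * √τ') with hK
    have hK0 : 0 ≤ K := by positivity
    have h2 : ∫⁻ ω, A2.indicator (fun ω =>
        ENNReal.ofReal (exp (1 - (XX H Λ D ω / (D * κ)) ^ 2 / 2))) ω ∂P ≤
        ENNReal.ofReal K * ∫⁻ ω in {ω | XX H Λ D ω ≤ 0}, ENNReal.ofReal (H ω) ∂P := by
      have mA0 : MeasurableSet {ω | XX H Λ D ω ≤ 0} := measurableSet_le S.mX' measurable_const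
      rw [← lintegral_const_mul' _ _ ENNReal.ofReal_ne_top, ← lintegral_indicator mA0]
      refine lintegral_mono_ae ?_
      filter_upwards [s3] with ω hs3
      by_cases hω : ω ∈ A2
      · rw [Set.indicator_of_mem hω, Set.indicator_of_mem (show ω ∈ {ω | XX H Λ D ω ≤ 0} from hω.1.le),
          ← ENNReal.ofReal_mul hK0]
        apply ENNReal.ofReal_le_ofReal
        obtain ⟨hX0, hXL⟩ := hω
        set x := XX H Λ D ω with hx
        set a := -x / (D * κ) with ha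
        have hxa : x = -(D * κ * a) := by rw [ha]; field_simp
        have ha0 : 0 ≤ a := by
          rw [ha]; apply div_nonneg (by linarith) (by positivity)
        have haL : a ≤ L := by rw [ha, div_le_iff₀ (by positivity)]; linarith
        set y := -x / (D * √v) with hy
        have hya : y = a * (κ / √v) := by rw [hy, hxa]; field_simp
        have hy0 : 0 ≤ y := by rw [hya]; positivity
        have hy2 : y ^ 2 = a ^ 2 + a ^ 2 * (κ ^ 2 / v - 1) := by
          have : (κ / √v) ^ 2 = κ ^ 2 / v := by rw [div_pow, sq_sqrt hv.le]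
          rw [hya, mul_pow, this]; ring
        have hr0 : 0 ≤ κ ^ 2 / v - 1 := by
          rw [sub_nonneg, le_div_iff₀ hv, one_mul]; exact hv1
        have hy3 : y ^ 2 ≤ a ^ 2 + 2 := by
          have : a ^ 2 * (κ ^ 2 / v - 1) ≤ L ^ 2 * (κ ^ 2 / v - 1) := by gcongr
          linarith
        have hy4 : 1 + y ≤ 3 * (1 + L) := by
          have : y ≤ a + 2 := by
            refine le_of_sq_le_sq ?_ (by positivity)
            nlinarith
          linarith
        have h3 := tail_ge y hy0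
        have h4 : (√(2 * π))⁻¹ * exp (-2) / (1 + y) * exp (-y ^ 2 / 2) ≤ γ.real (Set.Ici y) := by
          rw [measureReal_def]
          exact (ENNReal.ofReal_le_iff_le_toReal (measure_ne_top _ _)).1 h3
        have h5 : (√(2 * π))⁻¹ * exp (-2) / (3 * (1 + L)) * exp (-a ^ 2 / 2 - 1) ≤
            γ.real (Set.Ici y) := by
          refine le_trans ?_ h4
          have : -a ^ 2 / 2 - 1 ≤ -y ^ 2 / 2 := by linarith
          gcongr
        have h6 : exp (1 - (x / (D * κ)) ^ 2 / 2) = (√(2 * π) * exp 3 * exp 1 * (3 * (1 + L))) *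
            ((√(2 * π))⁻¹ * exp (-2) / (3 * (1 + L)) * exp (-a ^ 2 / 2 - 1)) := by
          have h7 : (x / (D * κ)) ^ 2 = a ^ 2 := by rw [ha]; ring
          rw [h7]
          have h8 : (1 : ℝ) - a ^ 2 / 2 = 3 + 1 + -2 + (-a ^ 2 / 2 - 1) := by ring
          rw [h8, exp_add, exp_add, exp_add]
          field_simp
        have h9 : γ.real (Set.Ici y) ≤ H ω / (c1 * √τ') := by
          rw [le_div_iff₀ (by positivity)]; linarith
        rw [h6]
        calc (√(2 * π) * exp 3 * exp 1 * (3 * (1 + L))) *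
            ((√(2 * π))⁻¹ * exp (-2) / (3 * (1 + L)) * exp (-a ^ 2 / 2 - 1))
            ≤ (√(2 * π) * exp 3 * exp 1 * (3 * (1 + L))) * (H ω / (c1 * √τ')) :=
              mul_le_mul_of_nonneg_left (h5.trans h9) (by positivity)
          _ = K * H ω := by rw [hK]; unfold c3; ring
      · rw [Set.indicator_of_notMem hω]; exact bot_le
    refine h2.trans ((mul_le_mul_right S.L5 _).trans (le_of_eq ?_))
    rw [← ENNReal.ofReal_mul hK0, hK]
    congr 1
    field_simp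
  · -- on X < - L D κ
    have h1 : P (E ∩ A3) ≤ ∫⁻ ω, A3.indicator (fun _ => ENNReal.ofReal (exp (1 - L ^ 2))) ω *
        ENNReal.ofReal (exp ((-L / κ) * (l ω - Λ ω))) ∂P := by
      rw [← lintegral_indicator_one (mE.inter mA3)]
      refine lintegral_mono_ae ?_
      filter_upwards [hLX] with ω hLX
      by_cases hω : ω ∈ E ∩ A3
      · rw [Set.indicator_of_mem hω, Set.indicator_of_mem hω.2,
          ← ENNReal.ofReal_mul (exp_pos _).le, ← exp_add]
        simp only [Pi.one_apply]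
        rw [← ENNReal.ofReal_one]
        apply ENNReal.ofReal_le_ofReal
        apply one_le_exp
        obtain ⟨⟨_, hhu⟩, hX⟩ := hω
        have hX' : XX H Λ D ω < -(L * (D * κ)) := hX
        have h2 : L * κ ≤ Λ ω := by
          refine le_trans ?_ hLX
          rw [le_div_iff₀ hD]; nlinarith
        have e1 : (L / κ) * (L * κ - s) ≤ (L / κ) * (Λ ω - l ω) :=
          mul_le_mul_of_nonneg_left (by linarith) (by positivity)
        have e2 : L ^ 2 - 1 ≤ (L / κ) * (L * κ - s) := by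
          have h3 : (L / κ) * s ≤ 1 := by
            calc (L / κ) * s ≤ (L / κ) * (κ / L) := mul_le_mul_of_nonneg_left hs (by positivity)
              _ = 1 := by field_simp
          have h4 : (L / κ) * (L * κ) = L ^ 2 := by field_simp
          rw [mul_sub, h4]; linarith
        have e3 : -L / κ * (l ω - Λ ω) = (L / κ) * (Λ ω - l ω) := by ring
        rw [e3]; linarith
      · rw [Set.indicator_of_notMem hω]; exact bot_le
    refine h1.trans ?_
    have hYm : Measurable[F] (A3.indicator fun _ => ENNReal.ofReal (exp (1 - L ^ 2))) :=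
      Measurable.indicator measurable_const fA3
    refine (emY S.hF (S.ml.sub S.mL').aemeasurable S.sl (-L / κ) hYm).trans ?_
    have h2 : ∫⁻ ω, A3.indicator (fun _ => ENNReal.ofReal (exp (1 - L ^ 2))) ω ∂P ≤
        ENNReal.ofReal (exp (1 - L ^ 2)) := by
      rw [lintegral_indicator mA3, setLIntegral_const]
      have := S.prob
      calc ENNReal.ofReal (exp (1 - L ^ 2)) * P A3 ≤ ENNReal.ofReal (exp (1 - L ^ 2)) * 1 :=
            mul_le_mul_right prob_le_one _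
        _ = _ := mul_one _
    refine (mul_le_mul_right h2 _).trans (le_of_eq ?_)
    rw [← ENNReal.ofReal_mul (exp_pos _).le, ← exp_add]
    congr 2
    rw [div_pow]
    field_simp
    ring

end

end Crest.Agent.R146.Snap_778
end

-- ▼ part R146/ExpoB_778
section

/-!
# Comparison of two times at a jamming minimiser (helper778), row 146

Frame `Lev2_576.Model`, `JamAsm_576.LCP` with `c = 0`.  `X_t = E_t h - D(t) E_t λ`.
* `s1_frame` : `E (X_t + √(1-t) g)₊ ≤ E_t h`;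
* `tele`     : `X_{t'}/D(t') ≥ X_t/D(t) + ∑ D(t_i)⁻¹ (B_{i+1} - B_i) + error`;
* `s3_frame` : `c1 √(1-t') P(g ≥ -X_t/(D(t) √(K t - K t'))) ≤ E_t h`.
-/

set_option autoImplicit false

open Set Filter Topology MeasureTheory ProbabilityTheory Crest.Agent.R146.Hilb
  Crest.Agent.R146.Lev_576 Crest.Agent.R146.Lev2_576 Crest.Agent.R146.JamAsm_576
open Crest.Agent.R146.LevC_4 Crest.Agent.R146.LevK_4 Crest.Agent.R146.LevE_4
open Crest.ProbabilityR.Perceptron
open scoped RealInnerProductSpace NNReal ENNReal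

namespace Crest.Agent.R146.Expo_778
open Crest.Agent.R146.Gauss_778 Crest.Agent.R146.Snap_778

section Grid

/-- the grid of `[s,s']` with `n+1` cells -/
noncomputable def gr (s s' : ℝ) (n i : ℕ) : ℝ := s + i * ((s' - s) / (n + 1))

lemma gr_zero (s s' : ℝ) (n : ℕ) : gr s s' n 0 = s := by simp [gr]

lemma gr_last (s s' : ℝ) (n : ℕ) : gr s s' n (n + 1) = s' := by
  have h : ((n : ℝ) + 1) ≠ 0 := by positivity
  simp only [gr]; push_cast; field_simp; ring

lemma gr_mono {s s' : ℝ} (h : s ≤ s') (n : ℕ) : Monotone (gr s s' n) := by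
  intro i j hij
  have h1 : (i : ℝ) ≤ j := by exact_mod_cast hij
  have h2 : 0 ≤ (s' - s) / ((n : ℝ) + 1) := div_nonneg (by linarith) (by positivity)
  simp only [gr]
  have := mul_le_mul_of_nonneg_right h1 h2
  linarith

lemma gr_succ (s s' : ℝ) (n i : ℕ) : gr s s' n (i + 1) - gr s s' n i = (s' - s) / (n + 1) := by
  simp only [gr]; push_cast; ring

lemma gr_mem {s s' : ℝ} (h : s ≤ s') {n i : ℕ} (hi : i ≤ n + 1) : gr s s' n i ∈ Icc s s' := by
  constructor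
  · have := gr_mono h n (Nat.zero_le i)
    rwa [gr_zero] at this
  · have := gr_mono h n hi
    rwa [gr_last] at this

end Grid

section Clock
variable {D : ℝ → ℝ}

lemma K_inc (H : Prf D) {s t : ℝ} (hs : 0 ≤ s) (hst : s ≤ t) (ht : t < 1) :
    K D s - K D t ≤ (t - s) * (D t)⁻¹ ^ 2 := by
  obtain ⟨M, hM, hi, _⟩ := H.K_bound
  rw [H.K_sub hs hst ht.le]
  have h1 : ∫ r in s..t, (D t)⁻¹ ^ 2 = (t - s) * (D t)⁻¹ ^ 2 := by simp
  rw [← h1]
  refine intervalIntegral.integral_mono_on hst (Prf.sub_int hi hs hst ht.le) (by simp)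
    fun r hr => ?_
  have h2 := H.inv_mono (hs.trans hr.1) hr.2 ht
  have h3 := (H.inv_pos' (hs.trans hr.1) (lt_of_le_of_lt hr.2 ht)).le
  gcongr

/-- variance of the Wiener sum -/
noncomputable def vs (D : ℝ → ℝ) (s s' : ℝ) (n : ℕ) : ℝ :=
  ∑ i ∈ Finset.range (n + 1), (D (gr s s' n i))⁻¹ ^ 2 * ((s' - s) / (n + 1))

lemma vs_pos (H : Prf D) {s s' : ℝ} (hs : 0 ≤ s) (hss : s < s') (hs' : s' < 1) (n : ℕ) :
    0 < vs D s s' n := by
  refine Finset.sum_pos (fun i hi => ?_) ⟨0, Finset.mem_range.2 (Nat.succ_pos n)⟩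
  have hi' := gr_mem hss.le (n := n) (Finset.mem_range.1 hi).le
  have h1 : 0 < D (gr s s' n i) := H.pos _ ⟨hs.trans hi'.1, lt_of_le_of_lt hi'.2 hs'⟩
  have h2 : 0 < s' - s := by linarith
  positivity

lemma vs_bounds (H : Prf D) {s s' : ℝ} (hs : 0 ≤ s) (hss : s < s') (hs' : s' < 1) (n : ℕ) :
    vs D s s' n ≤ K D s - K D s' ∧ K D s - K D s' ≤ vs D s s' n +
      ((D s')⁻¹ ^ 2 - (D s)⁻¹ ^ 2) * ((s' - s) / (n + 1)) := by
  set g := gr s s' n with hg
  have hmem : ∀ i ≤ n + 1, g i ∈ Icc s s' := fun i hi => gr_mem hss.le hi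
  have tel : K D s - K D s' = ∑ i ∈ Finset.range (n + 1), (K D (g i) - K D (g (i + 1))) := by
    rw [Finset.sum_range_sub' (fun i => K D (g i)), hg, gr_zero, gr_last]
  have tel2 : ((D s')⁻¹ ^ 2 - (D s)⁻¹ ^ 2) * ((s' - s) / (n + 1)) =
      ∑ i ∈ Finset.range (n + 1), ((D (g (i + 1)))⁻¹ ^ 2 - (D (g i))⁻¹ ^ 2) *
        ((s' - s) / (n + 1)) := by
    rw [← Finset.sum_mul, Finset.sum_range_sub (fun i => (D (g i))⁻¹ ^ 2), hg, gr_zero, gr_last]
  constructor
  · rw [tel, vs]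
    refine Finset.sum_le_sum fun i hi => ?_
    have h0 := hmem i (Finset.mem_range.1 hi).le
    have h1 := hmem (i + 1) (Finset.mem_range.1 hi)
    have h2 := H.K_dec (hs.trans h0.1) (gr_mono hss.le n i.le_succ) (lt_of_le_of_lt h1.2 hs')
    rw [Nat.succ_eq_add_one, gr_succ] at h2
    rw [mul_comm]; exact h2
  · rw [tel, vs, tel2, ← Finset.sum_add_distrib]
    refine Finset.sum_le_sum fun i hi => ?_
    have h0 := hmem i (Finset.mem_range.1 hi).le
    have h1 := hmem (i + 1) (Finset.mem_range.1 hi)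
    have h2 := K_inc H (hs.trans h0.1) (gr_mono hss.le n i.le_succ) (lt_of_le_of_lt h1.2 hs')
    rw [Nat.succ_eq_add_one, gr_succ] at h2
    refine h2.trans (le_of_eq ?_)
    rw [← hg]; ring

lemma tendsto_mesh (a : ℝ) : Tendsto (fun n : ℕ => a / ((n : ℝ) + 1)) atTop (𝓝 0) := by
  have h := (tendsto_one_div_add_atTop_nhds_zero_nat (𝕜 := ℝ)).const_mul a
  rw [mul_zero] at h
  refine h.congr fun n => ?_
  ring

lemma vs_lim (H : Prf D) {s s' : ℝ} (hs : 0 ≤ s) (hss : s < s') (hs' : s' < 1) :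
    Tendsto (vs D s s') atTop (𝓝 (K D s - K D s')) := by
  have h1 := (tendsto_mesh (s' - s)).const_mul ((D s')⁻¹ ^ 2 - (D s)⁻¹ ^ 2)
  rw [mul_zero] at h1
  have h2 := (tendsto_const_nhds (x := K D s - K D s')).sub h1
  rw [sub_zero] at h2
  refine tendsto_of_tendsto_of_tendsto_of_le_of_le h2 tendsto_const_nhds (fun n => ?_) fun n => ?_
  · have := (vs_bounds H hs hss hs' n).2
    show K D s - K D s' - _ ≤ _
    linarith
  · exact (vs_bounds H hs hss hs' n).1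

end Clock

section Frame

variable {H : Type*} [NormedAddCommGroup H] [InnerProductSpace ℝ H] [CompleteSpace H] {R : Res H}
  {Ω : Type*} {mΩ : MeasurableSpace Ω} {P : Measure Ω} {B : ℝ≥0 → Ω → ℝ}
  {hBm : ∀ t, Measurable (B t)} {M : Model R P B hBm} {ξ : H} {D : ℝ → ℝ} {x : H}

omit [CompleteSpace H] in
/-- integrals on the sets of `F_s` -/
lemma lint_cond [IsProbabilityMeasure P] (M : Model R P B hBm) (y : H) (hy : 0 ≤ᵐ[P] M.J y)
    (s : ℝ) {A : Set Ω} (hA : MeasurableSet[Fl hBm s] A) :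
    ∫⁻ ω in A, ENNReal.ofReal (M.J y ω) ∂P =
      ∫⁻ ω in A, ENNReal.ofReal ((P[M.J y | Fl hBm s]) ω) ∂P := by
  have hi : Integrable (M.J y) P := (M.memLp y).integrable (by norm_num)
  have hle : Fl hBm s ≤ mΩ := (brownianFiltration B hBm).le _
  rw [← ofReal_integral_eq_lintegral_ofReal hi.integrableOn (ae_restrict_of_ae hy),
    ← ofReal_integral_eq_lintegral_ofReal integrable_condExp.integrableOn
      (ae_restrict_of_ae (condExp_nonneg hy)), setIntegral_condExp hle hi hA]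

theorem s1_frame [IsProbabilityMeasure P] (hB : IsPreBrownianReal B P) {κ : ℝ}
    (hξ : M.J ξ =ᵐ[P] fun ω => κ + B 1 ω) (L : LCP M ξ 0 D x) (hD1 : 0 ≤ D 1) {s : ℝ}
    (hs : s ∈ Ico (0 : ℝ) 1) : ∀ᵐ ω ∂P,
      phi (1 - s) ((P[M.J (ξ + R.Dop D x) | Fl hBm s]) ω - D s * (P[M.J x | Fl hBm s]) ω) ≤
        (P[M.J (ξ + R.Dop D x) | Fl hBm s]) ω := by
  have hbm := bm_of_brown hBm hB
  have hle : Fl hBm s ≤ mΩ := (brownianFiltration B hBm).le _
  have hh0 : 0 ≤ᵐ[P] M.J (ξ + R.Dop D x) := by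
    have := L.h_nonneg
    rwa [zero_smul, add_zero] at this
  have hig := hbm.incr s 1 hs.1 hs.2.le le_rfl
  have mX : Measurable[Fl hBm s] fun ω =>
      (P[M.J (ξ + R.Dop D x) | Fl hBm s]) ω - D s * (P[M.J x | Fl hBm s]) ω :=
    stronglyMeasurable_condExp.measurable.sub (stronglyMeasurable_condExp.measurable.const_mul _)
  refine s1_abs (P := P) hle (h := M.J (ξ + R.Dop D x))
    (Z := fun ω => B (1 : ℝ).toNNReal ω - B s.toNNReal ω) (sub_pos.2 hs.2)
    stronglyMeasurable_condExp.measurable mX ((hBm _).sub (hBm _)) hig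
    (fun A hA => lint_cond M _ hh0 s hA) ?_ hh0 (condExp_nonneg hh0)
  filter_upwards [pos_frame hB hξ L hD1 (s := s) ⟨hs.1, hs.2.le⟩] with ω hω
  rw [Real.toNNReal_one]
  exact hω

variable (R) (D) (x) in
/-- the increments of the error -/
noncomputable def zz (s t : ℝ) : H := R.inc s t (R.Dop D x) - D s • R.inc s t x

variable (R) (D) (x) in
/-- the error vector -/
noncomputable def SS (g : ℕ → ℝ) (k : ℕ) : H :=
  ∑ i ∈ Finset.range k, (D (g i))⁻¹ • zz R D x (g i) (g (i + 1))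

omit [CompleteSpace H] in
lemma P_inc_high {a b T : ℝ} (hab : a ≤ b) (hb : b ≤ T) (y : H) :
    R.P T (R.inc a b y) = R.inc a b y := by
  rw [R.inc_apply, map_sub, R.mul' hb, R.mul' (hab.trans hb)]

omit [CompleteSpace H] in
lemma P_zz_low {s t : ℝ} (hst : s ≤ t) : R.P s (zz R D x s t) = 0 := by
  rw [zz, map_sub, map_smul, R.P_inc hst, R.P_inc hst, smul_zero, sub_zero]

omit [CompleteSpace H] in
lemma P_zz_high {s t T : ℝ} (hst : s ≤ t) (ht : t ≤ T) : R.P T (zz R D x s t) = zz R D x s t := by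
  rw [zz, map_sub, map_smul, P_inc_high hst ht, P_inc_high hst ht]

lemma SS_norm (hD : ContinuousOn D (Icc 0 1)) (ha : AntitoneOn D (Icc 0 1))
    (hpos : ∀ t ∈ Ico (0 : ℝ) 1, 0 < D t) {s s' : ℝ} (hs : 0 ≤ s) (hs' : s' < 1)
    {g : ℕ → ℝ} (hg : Monotone g) (hg0 : g 0 = s) {n : ℕ} (hgn : g n = s') {δ : ℝ}
    (hδ : ∀ i < n, D (g i) - D (g (i + 1)) ≤ δ) :
    ∀ k ≤ n, ‖SS R D x g k‖ ^ 2 ≤ ((D s')⁻¹ * δ) ^ 2 * (‖R.P (g k) x‖ ^ 2 - ‖R.P s x‖ ^ 2) := by
  intro k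
  induction k with
  | zero => intro _; simp [SS, hg0]
  | succ k ih =>
    intro hk
    have ih := ih (by omega)
    have hst : g k ≤ g (k + 1) := hg k.le_succ
    have hk0 : 0 ≤ g k := by have := hg (Nat.zero_le k); rw [hg0] at this; linarith
    have hk1 : g (k + 1) ≤ s' := by have := hg hk; rwa [hgn] at this
    have hkI : g k ∈ Icc (0 : ℝ) 1 := ⟨hk0, (hst.trans hk1).trans hs'.le⟩
    have hk1I : g (k + 1) ∈ Icc (0 : ℝ) 1 := ⟨hk0.trans hst, hk1.trans hs'.le⟩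
    have hs'I : s' ∈ Icc (0 : ℝ) 1 := ⟨hk0.trans (hst.trans hk1), hs'.le⟩
    set z := zz R D x (g k) (g (k + 1)) with hz
    have e1 : SS R D x g (k + 1) = SS R D x g k + (D (g k))⁻¹ • z := by
      rw [SS, Finset.sum_range_succ]; rfl
    -- `SS k` is measurable with respect to the past of `g k`
    have e2 : R.P (g k) (SS R D x g k) = SS R D x g k := by
      rw [SS, map_sum]
      refine Finset.sum_congr rfl fun i hi => ?_
      rw [map_smul, P_zz_high (hg i.le_succ) (hg (Finset.mem_range.1 hi))]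
    have e3 : ⟪SS R D x g k, (D (g k))⁻¹ • z⟫ = 0 := by
      rw [inner_smul_right, ← e2, R.symm, P_zz_low hst, inner_zero_right, mul_zero]
    have e4 : ‖SS R D x g (k + 1)‖ ^ 2 = ‖SS R D x g k‖ ^ 2 + ‖(D (g k))⁻¹ • z‖ ^ 2 := by
      rw [e1, norm_add_sq_real, e3]; ring
    have hDk : 0 < D (g k) := hpos _ ⟨hk0, lt_of_le_of_lt (hst.trans hk1) hs'⟩
    have hDs' : 0 < D s' := hpos _ ⟨hs'I.1, hs'⟩
    have hEk : (D (g k))⁻¹ ≤ (D s')⁻¹ := inv_anti₀ hDs' (ha hkI hs'I (hst.trans hk1))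
    have e5 : ‖z‖ ≤ δ * ‖R.inc (g k) (g (k + 1)) x‖ := by
      refine (rel_norm R hD ha hk0 hst hk1I.2 x).trans ?_
      have := hδ k (by omega)
      gcongr
    have hδ0 : 0 ≤ δ := le_trans (sub_nonneg.2 (ha hkI hk1I hst)) (hδ k (by omega))
    have e6 : ‖(D (g k))⁻¹ • z‖ ^ 2 ≤ ((D s')⁻¹ * δ) ^ 2 * ‖R.inc (g k) (g (k + 1)) x‖ ^ 2 := by
      rw [norm_smul, Real.norm_of_nonneg (inv_pos.2 hDk).le, ← mul_pow]
      have h0 : 0 ≤ (D (g k))⁻¹ := (inv_pos.2 hDk).le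
      have h1 : (D (g k))⁻¹ * ‖z‖ ≤ (D s')⁻¹ * (δ * ‖R.inc (g k) (g (k + 1)) x‖) :=
        mul_le_mul hEk e5 (norm_nonneg _) (inv_pos.2 hDs').le
      have h2 : (D s')⁻¹ * (δ * ‖R.inc (g k) (g (k + 1)) x‖) =
          (D s')⁻¹ * δ * ‖R.inc (g k) (g (k + 1)) x‖ := by ring
      rw [h2] at h1
      gcongr
    rw [e4]
    have e7 := R.norm_sq_inc hst x
    calc ‖SS R D x g k‖ ^ 2 + ‖(D (g k))⁻¹ • z‖ ^ 2
        ≤ ((D s')⁻¹ * δ) ^ 2 * (‖R.P (g k) x‖ ^ 2 - ‖R.P s x‖ ^ 2) +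
          ((D s')⁻¹ * δ) ^ 2 * ‖R.inc (g k) (g (k + 1)) x‖ ^ 2 := add_le_add ih e6
      _ = _ := by rw [e7]; ring

/-- telescoping -/
lemma tele [IsProbabilityMeasure P] (hB : IsPreBrownianReal B P) {κ : ℝ}
    (hξ : M.J ξ =ᵐ[P] fun ω => κ + B 1 ω) (L : LCP M ξ 0 D x)
    (hpos : ∀ t ∈ Ico (0 : ℝ) 1, 0 < D t) {s s' : ℝ} (hs : 0 ≤ s) (hs' : s' < 1)
    {g : ℕ → ℝ} (hg : Monotone g) (hg0 : g 0 = s) {n : ℕ} (hgn : g n = s') :
    ∀ k ≤ n, ∀ᵐ ω ∂P,
      (D s)⁻¹ * ((P[M.J (ξ + R.Dop D x) | Fl hBm s]) ω - D s * (P[M.J x | Fl hBm s]) ω) +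
      ∑ i ∈ Finset.range k, (D (g i))⁻¹ * (B (g (i + 1)).toNNReal ω - B (g i).toNNReal ω) +
      M.J (SS R D x g k) ω ≤
      (D (g k))⁻¹ * ((P[M.J (ξ + R.Dop D x) | Fl hBm (g k)]) ω -
        D (g k) * (P[M.J x | Fl hBm (g k)]) ω) := by
  intro k
  induction k with
  | zero =>
    intro _
    have h0 : M.J (0 : H) =ᵐ[P] fun _ => 0 := by
      have := M.smul 0 (0 : H)
      rw [zero_smul] at this
      filter_upwards [this] with ω h
      rw [h, zero_mul]
    filter_upwards [h0] with ω h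
    simp only [Finset.range_zero, Finset.sum_empty, SS, h, add_zero, hg0, le_refl]
  | succ k ih =>
    intro hk
    have ih := ih (by omega)
    have hst : g k ≤ g (k + 1) := hg k.le_succ
    have hk0 : 0 ≤ g k := by have := hg (Nat.zero_le k); rw [hg0] at this; linarith
    have hk1 : g (k + 1) ≤ s' := by have := hg hk; rwa [hgn] at this
    have hkI : g k ∈ Icc (0 : ℝ) 1 := ⟨hk0, (hst.trans hk1).trans hs'.le⟩
    have hk1I : g (k + 1) ∈ Icc (0 : ℝ) 1 := ⟨hk0.trans hst, hk1.trans hs'.le⟩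
    have hDk : 0 < D (g k) := hpos _ ⟨hk0, lt_of_le_of_lt (hst.trans hk1) hs'⟩
    have hDk1 : 0 < D (g (k + 1)) := hpos _ ⟨hk1I.1, lt_of_le_of_lt hk1 hs'⟩
    have hEk : (D (g k))⁻¹ ≤ (D (g (k + 1)))⁻¹ := inv_anti₀ hDk1 (L.anti hkI hk1I hst)
    set h : H := ξ + R.Dop D x with hh
    set z := zz R D x (g k) (g (k + 1)) with hz
    have e1 : SS R D x g (k + 1) = SS R D x g k + (D (g k))⁻¹ • z := by
      rw [SS, Finset.sum_range_succ]; rfl
    have hh0 : 0 ≤ᵐ[P] M.J h := by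
      have := L.h_nonneg
      rwa [zero_smul, add_zero] at this
    have j1 := J_inc M hkI hk1I x
    have j2 := J_inc M hkI hk1I h
    have j4 := M.sub (R.inc (g k) (g (k + 1)) (R.Dop D x)) (D (g k) • R.inc (g k) (g (k + 1)) x)
    have j5 := M.smul (D (g k)) (R.inc (g k) (g (k + 1)) x)
    have j6 : M.J (R.inc (g k) (g (k + 1)) h) =ᵐ[P] fun ω =>
        M.J (R.inc (g k) (g (k + 1)) ξ) ω + M.J (R.inc (g k) (g (k + 1)) (R.Dop D x)) ω := by
      rw [hh, map_add]; exact M.add _ _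
    have j7 := M.sub (R.P (g (k + 1)) ξ) (R.P (g k) ξ)
    have j8 := cond_xi M hB hξ hkI
    have j9 := cond_xi M hB hξ hk1I
    have j10 := M.add (SS R D x g k) ((D (g k))⁻¹ • z)
    have j11 := M.smul (D (g k))⁻¹ z
    have j12 : 0 ≤ᵐ[P] P[M.J h | Fl hBm (g (k + 1))] := condExp_nonneg hh0
    filter_upwards [ih, j1, j2, j4, j5, j6, j7, j8, j9, j10, j11, j12] with ω ih j1 j2 j4 j5 j6 j7
      j8 j9 j10 j11 j12
    have j12 : 0 ≤ (P[M.J h | Fl hBm (g (k + 1))]) ω := j12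
    have j7' : M.J (R.inc (g k) (g (k + 1)) ξ) ω =
        B (g (k + 1)).toNNReal ω - B (g k).toNNReal ω := by
      rw [R.inc_apply, j7, j8, j9]; ring
    have j13 : M.J z ω = ((P[M.J h | Fl hBm (g (k + 1))]) ω - (P[M.J h | Fl hBm (g k)]) ω) -
        (B (g (k + 1)).toNNReal ω - B (g k).toNNReal ω) -
        D (g k) * ((P[M.J x | Fl hBm (g (k + 1))]) ω - (P[M.J x | Fl hBm (g k)]) ω) := by
      rw [hz, zz, j4, j5, ← j1, ← j2, j6, j7']; ring
    rw [e1, j10, j11, j13, Finset.sum_range_succ]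
    set a := (P[M.J h | Fl hBm (g (k + 1))]) ω
    set b := (P[M.J h | Fl hBm (g k)]) ω
    set c := (P[M.J x | Fl hBm (g (k + 1))]) ω
    set d := (P[M.J x | Fl hBm (g k)]) ω
    have e2 : (D (g k))⁻¹ * (b - D (g k) * d) = (D (g k))⁻¹ * b - d := by field_simp
    have e3 : (D (g (k + 1)))⁻¹ * (a - D (g (k + 1)) * c) = (D (g (k + 1)))⁻¹ * a - c := by
      field_simp
    rw [e2] at ih
    rw [e3]
    have e4 : (D (g k))⁻¹ * (a - b - (B (g (k + 1)).toNNReal ω - B (g k).toNNReal ω) -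
        D (g k) * (c - d)) = (D (g k))⁻¹ * a - (D (g k))⁻¹ * b -
        (D (g k))⁻¹ * (B (g (k + 1)).toNNReal ω - B (g k).toNNReal ω) - (c - d) := by
      field_simp
    rw [e4]
    have e5 : (D (g k))⁻¹ * a ≤ (D (g (k + 1)))⁻¹ * a := mul_le_mul_of_nonneg_right hEk j12
    linarith

/-- **comparison of two times** -/
theorem s3_frame [IsProbabilityMeasure P] (hB : IsPreBrownianReal B P) {κ : ℝ}
    (hξ : M.J ξ =ᵐ[P] fun ω => κ + B 1 ω) (L : LCP M ξ 0 D x) (hPrf : Prf D) (hD1 : 0 ≤ D 1)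
    {s s' : ℝ} (hs : 0 ≤ s) (hss : s < s') (hs' : s' < 1) :
    ∀ᵐ ω ∂P, c1 * √(1 - s') * γ.real (Ici (-(XX (P[M.J (ξ + R.Dop D x) | Fl hBm s])
      (P[M.J x | Fl hBm s]) (D s) ω) / (D s * √(K D s - K D s')))) ≤
      (P[M.J (ξ + R.Dop D x) | Fl hBm s]) ω := by
  have hbm := bm_of_brown hBm hB
  have hle : ∀ t, Fl hBm t ≤ mΩ := fun t => (brownianFiltration B hBm).le _
  set h : H := ξ + R.Dop D x with hh
  have hh0 : 0 ≤ᵐ[P] M.J h := by
    have := L.h_nonneg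
    rwa [zero_smul, add_zero] at this
  have hhi : Integrable (M.J h) P := (M.memLp h).integrable (by norm_num)
  have hDs : 0 < D s := hPrf.pos s ⟨hs, hss.trans hs'⟩
  have hDs' : 0 < D s' := hPrf.pos s' ⟨hs.trans hss.le, hs'⟩
  set v : ℝ := K D s - K D s' with hv
  have hv0 : 0 < v := by
    have h1 := hPrf.K_dec hs hss.le hs'
    have h2 : 0 < (s' - s) * (D s)⁻¹ ^ 2 := mul_pos (by linarith) (by positivity)
    linarith
  set X : Ω → ℝ := fun ω => (P[M.J h | Fl hBm s]) ω - D s * (P[M.J x | Fl hBm s]) ω with hX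
  set X' : Ω → ℝ := fun ω => (P[M.J h | Fl hBm s']) ω - D s' * (P[M.J x | Fl hBm s']) ω with hX'
  set Y : Ω → ℝ := fun ω => (D s)⁻¹ * X ω with hY
  have mX : Measurable[Fl hBm s] X :=
    stronglyMeasurable_condExp.measurable.sub (stronglyMeasurable_condExp.measurable.const_mul _)
  have mX' : Measurable[Fl hBm s'] X' :=
    stronglyMeasurable_condExp.measurable.sub (stronglyMeasurable_condExp.measurable.const_mul _)
  have mY : Measurable[Fl hBm s] Y := mX.const_mul _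
  have iY : Integrable Y P :=
    ((integrable_condExp).sub ((integrable_condExp).const_mul _)).const_mul _
  set A' : Set Ω := {ω | 0 ≤ X' ω} with hA'
  have mA' : MeasurableSet A' := measurableSet_le measurable_const (mX'.mono (hle _) le_rfl)
  set N : ℕ → Ω → ℝ := fun n ω => ∑ i ∈ Finset.range (n + 1), (D (gr s s' n i))⁻¹ *
    (B (gr s s' n (i + 1)).toNNReal ω - B (gr s s' n i).toNNReal ω) with hN
  set Rn : ℕ → Ω → ℝ := fun n => M.J (SS R D x (gr s s' n) (n + 1)) with hRn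
  have mN : ∀ n, Measurable (N n) := fun n => by
    refine Finset.measurable_sum _ fun i _ => ?_
    exact ((hBm _).sub (hBm _)).const_mul _
  have igN : ∀ n, IG P (Fl hBm s) (N n) (vs D s s' n).toNNReal := by
    intro n
    have h1 := (IG_wsum hbm (gr_mono hss.le n) (by rw [gr_zero]; exact hs) (n := n + 1)
      (by rw [gr_last]; exact hs'.le) (fun i => (D (gr s s' n i))⁻¹)).2
    rw [gr_zero] at h1
    have h2 : (∑ i ∈ Finset.range (n + 1), NNReal.mk ((D (gr s s' n i))⁻¹ ^ 2) (sq_nonneg _) *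
        (gr s s' n (i + 1) - gr s s' n i).toNNReal) = (vs D s s' n).toNNReal := by
      rw [← NNReal.coe_inj, Real.coe_toNNReal _ (vs_pos hPrf hs hss hs' n).le, NNReal.coe_sum, vs]
      refine Finset.sum_congr rfl fun i _ => ?_
      rw [NNReal.coe_mul, gr_succ, Real.coe_toNNReal _ (div_nonneg (by linarith) (by positivity))]
      rfl
    rw [h2] at h1
    exact h1
  -- the error tends to zero
  have lr : Tendsto (fun n => ‖SS R D x (gr s s' n) (n + 1)‖ ^ 2) atTop (𝓝 0) := by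
    have huc : UniformContinuousOn D (Icc 0 1) :=
      isCompact_Icc.uniformContinuousOn_of_continuous L.cont
    rw [Metric.tendsto_atTop]
    intro ε hε
    set δ : ℝ := √(ε / 2) / ((D s')⁻¹ * (‖x‖ + 1)) with hδ
    have hE : 0 < (D s')⁻¹ := inv_pos.2 hDs'
    have hδ0 : 0 < δ := by positivity
    obtain ⟨ρ, hρ, huc⟩ := Metric.uniformContinuousOn_iff.1 huc δ hδ0
    have hm := (tendsto_mesh (s' - s)).eventually_lt_const hρ
    obtain ⟨n0, hn0⟩ := eventually_atTop.1 hm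
    refine ⟨n0, fun n hn => ?_⟩
    have hmesh := hn0 n hn
    have hmono := gr_mono hss.le n
    have hinc : ∀ i < n + 1, D (gr s s' n i) - D (gr s s' n (i + 1)) ≤ δ := by
      intro i hi
      have h0 := gr_mem hss.le (n := n) hi.le
      have h1 := gr_mem hss.le (n := n) (show i + 1 ≤ n + 1 from hi)
      have h2 := huc _ ⟨hs.trans h0.1, h0.2.trans hs'.le⟩ _ ⟨hs.trans h1.1, h1.2.trans hs'.le⟩ (by
        rw [Real.dist_eq, abs_sub_comm, gr_succ, abs_of_nonneg (div_nonneg (by linarith)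
          (by positivity))]
        exact hmesh)
      rw [Real.dist_eq] at h2
      exact (le_abs_self _).trans h2.le
    have h3 := SS_norm (R := R) (x := x) L.cont L.anti hPrf.pos hs hs' hmono (gr_zero s s' n)
      (n := n + 1) (gr_last s s' n) hinc (n + 1) le_rfl
    rw [Real.dist_eq, sub_zero, abs_of_nonneg (sq_nonneg _)]
    refine lt_of_le_of_lt h3 ?_
    have h4 : ‖R.P (gr s s' n (n + 1)) x‖ ^ 2 - ‖R.P s x‖ ^ 2 ≤ (‖x‖ + 1) ^ 2 := by
      have h5 : ‖R.P (gr s s' n (n + 1)) x‖ ≤ ‖x‖ := by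
        rw [gr_last]; exact R.norm_P_le hs'.le x
      have h6 : ‖R.P (gr s s' n (n + 1)) x‖ ^ 2 ≤ (‖x‖ + 1) ^ 2 := by
        have := norm_nonneg (R.P (gr s s' n (n + 1)) x)
        gcongr; linarith
      have := sq_nonneg ‖R.P s x‖
      linarith
    calc ((D s')⁻¹ * δ) ^ 2 * (‖R.P (gr s s' n (n + 1)) x‖ ^ 2 - ‖R.P s x‖ ^ 2)
        ≤ ((D s')⁻¹ * δ) ^ 2 * (‖x‖ + 1) ^ 2 := by gcongr
      _ = (((D s')⁻¹ * (‖x‖ + 1)) * δ) ^ 2 := by ring
      _ = (√(ε / 2)) ^ 2 := by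
          rw [hδ]
          congr 1
          have : (D s')⁻¹ * (‖x‖ + 1) ≠ 0 := by positivity
          field_simp
      _ = ε / 2 := Real.sq_sqrt (by positivity)
      _ < ε := by linarith
  have hRint : ∀ n, Integrable (fun ω => Rn n ω ^ 2) P := fun n => (M.memLp _).integrable_sq
  have hRbd : ∀ n, ∫ ω, Rn n ω ^ 2 ∂P ≤ ‖SS R D x (gr s s' n) (n + 1)‖ ^ 2 := fun n =>
    (M.norm_sq _).le
  have hA : ∀ n, ∀ᵐ ω ∂P, 0 ≤ Y ω + N n ω + Rn n ω → ω ∈ A' := by
    intro n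
    have h1 := tele hB hξ L hPrf.pos hs hs' (gr_mono hss.le n) (gr_zero s s' n)
      (n := n + 1) (gr_last s s' n) (n + 1) le_rfl
    filter_upwards [h1] with ω h1 h2
    rw [gr_last] at h1
    have h3 : 0 ≤ (D s')⁻¹ * X' ω := le_trans h2 h1
    exact nonneg_of_mul_nonneg_right h3 (inv_pos.2 hDs')
  have hprob : ∀ C, MeasurableSet[Fl hBm s] C →
      ∫ ω in C, γ.real (Ici (-(Y ω) / √v)) ∂P ≤ P.real (C ∩ A') := fun C hC =>
    s3_prob (hle s) mY iY mN igN hv0 (vs_pos hPrf hs hss hs') (vs_lim hPrf hs hss hs') hRint hRbd lr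
      hA hC
  have hHp : ∀ᵐ ω ∂P, ω ∈ A' → c1 * √(1 - s') ≤ (P[M.J h | Fl hBm s']) ω := by
    filter_upwards [s1_frame hB hξ L hD1 (s := s') ⟨hs.trans hss.le, hs'⟩] with ω h1 h2
    have h3 := phi_ge (1 - s') _ h2
    rw [mul_comm]
    exact h3.trans h1
  have hmono : Fl hBm s ≤ Fl hBm s' := hbm.mono s s' hs hss.le hs'.le
  have heq : ∀ C, MeasurableSet[Fl hBm s] C → ∫ ω in C, (P[M.J h | Fl hBm s']) ω ∂P =
      ∫ ω in C, (P[M.J h | Fl hBm s]) ω ∂P := by
    intro C hC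
    rw [setIntegral_condExp (hle s') hhi (hmono C hC), setIntegral_condExp (hle s) hhi hC]
  have hfin := s3_abs (hle s) (a := c1 * √(1 - s')) mY
    stronglyMeasurable_condExp.measurable integrable_condExp integrable_condExp hprob mA'
    (mul_nonneg c1_pos.le (Real.sqrt_nonneg _)) hHp (condExp_nonneg hh0) (condExp_nonneg hh0) heq
  filter_upwards [hfin] with ω h1
  have h2 : -(XX (P[M.J h | Fl hBm s]) (P[M.J x | Fl hBm s]) (D s) ω) / (D s * √v) =
      -(Y ω) / √v := by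
    have h3 : XX (P[M.J h | Fl hBm s]) (P[M.J x | Fl hBm s]) (D s) ω = X ω := rfl
    have hsv : 0 < √v := Real.sqrt_pos.2 hv0
    rw [h3, hY]
    field_simp
  rw [h2]
  exact h1

end Frame

end Crest.Agent.R146.Expo_778
end

-- ▼ part R146/SnapC_778
section

/-!
# Snapshot estimates, lower bounds (helper778), exponents package of row 146

`Snap.G_low`: `c0 τ ≤ M κ (M² √τ · P(0<h≤M²√τ) + √τ e^{-M²/4}) + 2 C e^{-M²/4}`;
`Snap.F_low`: `c0 τ ≤ M √τ (M² κ · P(0<λ≤M²κ) + κ e^{-M²/4}) + 2 C e^{-M²/4}`.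
-/

set_option autoImplicit false

open MeasureTheory ProbabilityTheory Real
open scoped ENNReal

namespace Crest.Agent.R146.Snap_778
open Gauss_778

section gen
variable {Ω : Type*} {F : MeasurableSpace Ω} [m0 : MeasurableSpace Ω] {P : Measure Ω}

/-- the product `Hf · g` is negligible where the martingale `Hf` of `f` is large -/
lemma tail_gen (hF : F ≤ m0) {f g Hf : Ω → ℝ} {r C M : ℝ} (mf : Measurable f) (_mg : Measurable g)
    (mH : Measurable[F] Hf) (fg : ∀ᵐ ω ∂P, f ω * g ω = 0) (hr : 0 < r) (hM : 0 ≤ M) (hC : 0 ≤ C)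
    (em : ∀ (θ : ℝ) A, MeasurableSet[F] A →
      ∫⁻ ω in A, ENNReal.ofReal (exp (θ * (f ω - Hf ω))) ∂P ≤
        ENNReal.ofReal (exp (θ ^ 2 * r ^ 2 / 2)) * P A)
    (bH : ∫⁻ ω, ENNReal.ofReal (Hf ω) ^ 2 ∂P ≤ ENNReal.ofReal C)
    (bg : ∫⁻ ω, ENNReal.ofReal (g ω) ^ 2 ∂P ≤ ENNReal.ofReal C) :
    ∫⁻ ω in {ω | M * r ≤ Hf ω}, ENNReal.ofReal (Hf ω) * ENNReal.ofReal (g ω) ∂P ≤
      ENNReal.ofReal (C * exp (-M ^ 2 / 4)) := by
  have mH' : Measurable Hf := mH.mono hF le_rfl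
  set A : Set Ω := {ω | M * r ≤ Hf ω} with hA
  have fA : MeasurableSet[F] A := by
    have := mH (measurableSet_Ici (a := M * r)); exact this
  have mA := hF _ fA
  set η : ℝ := exp (-M ^ 2 / 4) with hη
  have hη0 : 0 < η := exp_pos _
  set Y : Ω → ℝ≥0∞ := A.indicator fun ω => ENNReal.ofReal (Hf ω) ^ 2 with hY
  have mY : Measurable[F] Y :=
    Measurable.indicator ((ENNReal.measurable_ofReal.comp mH).pow_const 2) fA
  have e0 := emY hF (P := P) (mf.sub mH').aemeasurable em (-M / r) mY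
  have e1 : ∫⁻ ω, Y ω ∂P ≤ ENNReal.ofReal C := by
    refine le_trans (lintegral_mono fun ω => ?_) bH
    exact Set.indicator_le_self _ _ ω
  have e2 : ∫⁻ ω in A, ENNReal.ofReal (Hf ω) * ENNReal.ofReal (g ω) ∂P ≤
      ∫⁻ ω, (ENNReal.ofReal (1 / (2 * η) * exp (-M ^ 2)) *
        (Y ω * ENNReal.ofReal (exp (-M / r * (f ω - Hf ω)))) +
        ENNReal.ofReal (η / 2) * ENNReal.ofReal (g ω) ^ 2) ∂P := by
    rw [← lintegral_indicator mA]
    refine lintegral_mono_ae ?_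
    filter_upwards [fg] with ω hfg
    by_cases hω : ω ∈ A
    · rw [Set.indicator_of_mem hω]
      by_cases hg : g ω = 0
      · rw [hg]; simp
      have hf0 : f ω = 0 := by
        rcases mul_eq_zero.1 hfg with h | h
        · exact h
        · exact absurd h hg
      have hHM : M * r ≤ Hf ω := hω
      have hH0 : 0 ≤ Hf ω := le_trans (by positivity) hHM
      rw [hY]
      simp only [Set.indicator_of_mem hω]
      rcases le_or_gt (g ω) 0 with hg0 | hg0
      · rw [ENNReal.ofReal_of_nonpos hg0]; simp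
      rw [← ENNReal.ofReal_pow hH0, ← ENNReal.ofReal_pow hg0.le, ← ENNReal.ofReal_mul hH0,
        ← ENNReal.ofReal_mul (by positivity), ← ENNReal.ofReal_mul (by positivity),
        ← ENNReal.ofReal_mul (by positivity), ← ENNReal.ofReal_add (by positivity) (by positivity)]
      apply ENNReal.ofReal_le_ofReal
      rw [hf0]
      have h1 : exp (-M ^ 2) * exp (-M / r * (0 - Hf ω)) ≥ 1 := by
        rw [← exp_add]
        apply one_le_exp
        have : -M / r * (0 - Hf ω) = (M / r) * Hf ω := by ring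
        rw [this]
        have h2 : (M / r) * (M * r) ≤ (M / r) * Hf ω :=
          mul_le_mul_of_nonneg_left hHM (by positivity)
        have h3 : (M / r) * (M * r) = M ^ 2 := by field_simp
        linarith
      have h2 : Hf ω * g ω ≤ 1 / (2 * η) * (Hf ω) ^ 2 + η / 2 * g ω ^ 2 := by
        have h3 : 0 ≤ (Hf ω - η * g ω) ^ 2 := sq_nonneg _
        have h4 : 1 / (2 * η) * (Hf ω - η * g ω) ^ 2 =
            1 / (2 * η) * (Hf ω) ^ 2 - Hf ω * g ω + η / 2 * g ω ^ 2 := by field_simp; ring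
        have h5 : 0 ≤ 1 / (2 * η) * (Hf ω - η * g ω) ^ 2 := by positivity
        linarith
      have h6 : 1 / (2 * η) * (Hf ω) ^ 2 ≤
          1 / (2 * η) * exp (-M ^ 2) * (Hf ω ^ 2 * exp (-M / r * (0 - Hf ω))) := by
        have h7 : 0 ≤ 1 / (2 * η) * (Hf ω) ^ 2 := by positivity
        calc 1 / (2 * η) * (Hf ω) ^ 2 = 1 / (2 * η) * (Hf ω) ^ 2 * 1 := (mul_one _).symm
          _ ≤ 1 / (2 * η) * (Hf ω) ^ 2 * (exp (-M ^ 2) * exp (-M / r * (0 - Hf ω))) :=
              mul_le_mul_of_nonneg_left h1 h7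
          _ = _ := by ring
      linarith
    · rw [Set.indicator_of_notMem hω]; exact bot_le
  refine e2.trans ?_
  rw [lintegral_add_left' (by
      have := mY.mono hF le_rfl
      fun_prop), lintegral_const_mul' _ _ ENNReal.ofReal_ne_top,
    lintegral_const_mul' _ _ ENNReal.ofReal_ne_top]
  refine (add_le_add (mul_le_mul_right (e0.trans (mul_le_mul_right e1 _)) _)
    (mul_le_mul_right bg _)).trans (le_of_eq ?_)
  rw [← ENNReal.ofReal_mul (by positivity), ← ENNReal.ofReal_mul (by positivity),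
    ← ENNReal.ofReal_mul (by positivity), ← ENNReal.ofReal_add (by positivity) (by positivity)]
  congr 1
  have h1 : (-M / r) ^ 2 * r ^ 2 / 2 = M ^ 2 / 2 := by field_simp
  rw [h1]
  have h2 : exp (-M ^ 2) * exp (M ^ 2 / 2) = η * η := by
    rw [hη, ← exp_add, ← exp_add]; congr 1; ring
  calc 1 / (2 * η) * exp (-M ^ 2) * (exp (M ^ 2 / 2) * C) + η / 2 * C
      = 1 / (2 * η) * (exp (-M ^ 2) * exp (M ^ 2 / 2)) * C + η / 2 * C := by ring
    _ = C * η := by rw [h2]; field_simp; ring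

/-- large values of `f` where its martingale is small -/
lemma tail_gen2 (hF : F ≤ m0) [IsProbabilityMeasure P] {f Hf : Ω → ℝ} {r M : ℝ}
    (mf : Measurable f) (mH : Measurable[F] Hf) (hr : 0 < r) (hM : 4 ≤ M)
    (em : ∀ (θ : ℝ) A, MeasurableSet[F] A →
      ∫⁻ ω in A, ENNReal.ofReal (exp (θ * (f ω - Hf ω))) ∂P ≤
        ENNReal.ofReal (exp (θ ^ 2 * r ^ 2 / 2)) * P A)
    {A : Set Ω} (fA : MeasurableSet[F] A) (hA : ∀ ω ∈ A, Hf ω ≤ M * r) :
    ∫⁻ ω in A ∩ {ω | M ^ 2 * r < f ω}, ENNReal.ofReal (f ω) ∂P ≤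
      ENNReal.ofReal (r * exp (-M ^ 2 / 4)) := by
  have mH' : Measurable Hf := mH.mono hF le_rfl
  have mA := hF _ fA
  have mB : MeasurableSet {ω | M ^ 2 * r < f ω} := measurableSet_lt measurable_const mf
  set Y : Ω → ℝ≥0∞ := A.indicator fun _ => ENNReal.ofReal (r * exp (2 * M - M ^ 2)) with hY
  have mY : Measurable[F] Y := Measurable.indicator measurable_const fA
  have e0 := emY hF (P := P) (mf.sub mH').aemeasurable em (2 / r) mY
  have e1 : ∫⁻ ω, Y ω ∂P ≤ ENNReal.ofReal (r * exp (2 * M - M ^ 2)) := by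
    rw [hY, lintegral_indicator mA, setLIntegral_const]
    calc ENNReal.ofReal (r * exp (2 * M - M ^ 2)) * P A
        ≤ ENNReal.ofReal (r * exp (2 * M - M ^ 2)) * 1 := mul_le_mul_right prob_le_one _
      _ = _ := mul_one _
  have e2 : ∫⁻ ω in A ∩ {ω | M ^ 2 * r < f ω}, ENNReal.ofReal (f ω) ∂P ≤
      ∫⁻ ω, Y ω * ENNReal.ofReal (exp (2 / r * (f ω - Hf ω))) ∂P := by
    rw [← lintegral_indicator (mA.inter mB)]
    refine lintegral_mono fun ω => ?_
    by_cases hω : ω ∈ A ∩ {ω | M ^ 2 * r < f ω}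
    · rw [Set.indicator_of_mem hω, hY]
      simp only [Set.indicator_of_mem hω.1]
      rw [← ENNReal.ofReal_mul (by positivity)]
      apply ENNReal.ofReal_le_ofReal
      have h1 : Hf ω ≤ M * r := hA ω hω.1
      have h2 : M ^ 2 * r < f ω := hω.2
      have h3 : f ω / r + 1 ≤ exp (f ω / r) := add_one_le_exp _
      have h4 : f ω ≤ r * exp (f ω / r) := by
        have : f ω = r * (f ω / r) := by field_simp
        calc f ω = r * (f ω / r) := this
          _ ≤ r * exp (f ω / r) := mul_le_mul_of_nonneg_left (by linarith) hr.le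
      refine h4.trans ?_
      rw [mul_assoc, ← exp_add]
      refine mul_le_mul_of_nonneg_left (exp_le_exp.2 ?_) hr.le
      have h5 : M ^ 2 ≤ f ω / r := by rw [le_div_iff₀ hr]; exact h2.le
      have h6 : Hf ω / r ≤ M := by rw [div_le_iff₀ hr]; exact h1
      have h7 : 2 / r * (f ω - Hf ω) = 2 * (f ω / r) - 2 * (Hf ω / r) := by ring
      rw [h7]; linarith
    · rw [Set.indicator_of_notMem hω]; exact bot_le
  refine e2.trans (e0.trans ((mul_le_mul_right e1 _).trans ?_))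
  rw [← ENNReal.ofReal_mul (by positivity)]
  apply ENNReal.ofReal_le_ofReal
  have h1 : (2 / r) ^ 2 * r ^ 2 / 2 = 2 := by field_simp
  rw [h1]
  calc exp 2 * (r * exp (2 * M - M ^ 2)) = r * exp (2 + (2 * M - M ^ 2)) := by
        rw [exp_add]; ring
    _ ≤ r * exp (-M ^ 2 / 4) := by
        refine mul_le_mul_of_nonneg_left (exp_le_exp.2 ?_) hr.le
        nlinarith

end gen

section
variable {Ω : Type*} {F : MeasurableSpace Ω} [m0 : MeasurableSpace Ω] {P : Measure Ω}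
  {h l H Λ : Ω → ℝ} {D τ κ c0 C : ℝ}

lemma Snap.sh' (S : Snap F P h l H Λ D τ κ c0 C) : ∀ (θ : ℝ) A, MeasurableSet[F] A →
    ∫⁻ ω in A, ENNReal.ofReal (exp (θ * (h ω - H ω))) ∂P ≤
      ENNReal.ofReal (exp (θ ^ 2 * √τ ^ 2 / 2)) * P A := by
  rw [sq_sqrt S.τ0.le]; exact S.sh

lemma Snap.tailH (S : Snap F P h l H Λ D τ κ c0 C) {M : ℝ} (hM : 0 ≤ M) :
    ∫⁻ ω in {ω | M * √τ ≤ H ω}, ENNReal.ofReal (H ω) * ENNReal.ofReal (Λ ω) ∂P ≤
      ENNReal.ofReal (C * exp (-M ^ 2 / 4)) := by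
  have fA : MeasurableSet[F] {ω | M * √τ ≤ H ω} := by
    have := S.mH (measurableSet_Ici (a := M * √τ)); exact this
  have mA := S.hF _ fA
  have h1 := S.wl (Y := {ω | M * √τ ≤ H ω}.indicator fun ω => ENNReal.ofReal (H ω))
    (Measurable.indicator (ENNReal.measurable_ofReal.comp S.mH) fA)
  have h2 := tail_gen S.hF S.mh S.ml S.mH S.hl (sqrt_pos.2 S.τ0) hM S.C0 S.sh' S.bH S.bl
  refine le_trans (le_of_eq ?_) h2
  rw [← lintegral_indicator mA, ← lintegral_indicator mA]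
  calc _ = ∫⁻ ω, {ω | M * √τ ≤ H ω}.indicator (fun ω => ENNReal.ofReal (H ω)) ω *
        ENNReal.ofReal (Λ ω) ∂P := by
        refine lintegral_congr fun ω => ?_
        by_cases hω : ω ∈ {ω | M * √τ ≤ H ω}
        · simp [Set.indicator_of_mem hω]
        · simp [Set.indicator_of_notMem hω]
    _ = _ := h1.symm
    _ = _ := by
        refine lintegral_congr fun ω => ?_
        by_cases hω : ω ∈ {ω | M * √τ ≤ H ω}
        · simp [Set.indicator_of_mem hω]
        · simp [Set.indicator_of_notMem hω]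

lemma Snap.tailL (S : Snap F P h l H Λ D τ κ c0 C) {M : ℝ} (hM : 0 ≤ M) :
    ∫⁻ ω in {ω | M * κ ≤ Λ ω}, ENNReal.ofReal (H ω) * ENNReal.ofReal (Λ ω) ∂P ≤
      ENNReal.ofReal (C * exp (-M ^ 2 / 4)) := by
  have fA : MeasurableSet[F] {ω | M * κ ≤ Λ ω} := by
    have := S.mL (measurableSet_Ici (a := M * κ)); exact this
  have mA := S.hF _ fA
  have h1 := S.wh (Y := {ω | M * κ ≤ Λ ω}.indicator fun ω => ENNReal.ofReal (Λ ω))
    (Measurable.indicator (ENNReal.measurable_ofReal.comp S.mL) fA)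
  have h2 := tail_gen S.hF S.ml S.mh S.mL (by
    filter_upwards [S.hl] with ω h; rw [mul_comm]; exact h) S.κ0 hM S.C0 S.sl S.bL S.bh
  refine le_trans (le_of_eq ?_) h2
  rw [← lintegral_indicator mA, ← lintegral_indicator mA]
  calc _ = ∫⁻ ω, {ω | M * κ ≤ Λ ω}.indicator (fun ω => ENNReal.ofReal (Λ ω)) ω *
        ENNReal.ofReal (H ω) ∂P := by
        refine lintegral_congr fun ω => ?_
        by_cases hω : ω ∈ {ω | M * κ ≤ Λ ω}
        · rw [Set.indicator_of_mem hω, Set.indicator_of_mem hω, mul_comm]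
        · simp [Set.indicator_of_notMem hω]
    _ = _ := h1.symm
    _ = _ := by
        refine lintegral_congr fun ω => ?_
        by_cases hω : ω ∈ {ω | M * κ ≤ Λ ω}
        · simp [Set.indicator_of_mem hω]
        · simp [Set.indicator_of_notMem hω]

/-- common part of the two lower bounds -/
lemma Snap.low (S : Snap F P h l H Λ D τ κ c0 C) {M : ℝ} (hM : 0 ≤ M) :
    ENNReal.ofReal (c0 * τ) ≤
      ∫⁻ ω in {ω | H ω < M * √τ} ∩ {ω | Λ ω < M * κ}, ENNReal.ofReal (H ω) * ENNReal.ofReal (Λ ω) ∂P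
        + ENNReal.ofReal (2 * C * exp (-M ^ 2 / 4)) := by
  rw [← S.charge]
  have hC := S.C0
  have h1 : ∫⁻ ω, ENNReal.ofReal (H ω) * ENNReal.ofReal (Λ ω) ∂P ≤
      ∫⁻ ω in {ω | H ω < M * √τ} ∩ {ω | Λ ω < M * κ}, ENNReal.ofReal (H ω) * ENNReal.ofReal (Λ ω) ∂P
      + (∫⁻ ω in {ω | M * √τ ≤ H ω}, ENNReal.ofReal (H ω) * ENNReal.ofReal (Λ ω) ∂P
      + ∫⁻ ω in {ω | M * κ ≤ Λ ω}, ENNReal.ofReal (H ω) * ENNReal.ofReal (Λ ω) ∂P) := by
    rw [← setLIntegral_univ (μ := P)]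
    refine le_trans (lintegral_mono_set (t := ({ω | H ω < M * √τ} ∩ {ω | Λ ω < M * κ}) ∪
      ({ω | M * √τ ≤ H ω} ∪ {ω | M * κ ≤ Λ ω})) ?_) ?_
    · intro ω _
      rcases lt_or_ge (H ω) (M * √τ) with h1 | h1
      · rcases lt_or_ge (Λ ω) (M * κ) with h2 | h2
        · exact Or.inl ⟨h1, h2⟩
        · exact Or.inr (Or.inr h2)
      · exact Or.inr (Or.inl h1)
    · refine (lintegral_union_le _ _ _).trans (add_le_add le_rfl ?_)
      exact lintegral_union_le _ _ _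
  refine h1.trans (add_le_add le_rfl ((add_le_add (S.tailH hM) (S.tailL hM)).trans (le_of_eq ?_)))
  rw [← ENNReal.ofReal_add (by positivity) (by positivity)]
  congr 1; ring

lemma Snap.G_low (S : Snap F P h l H Λ D τ κ c0 C) {M : ℝ} (hM : 4 ≤ M) :
    c0 * τ ≤ M * κ * (M ^ 2 * √τ * P.real {ω | 0 < h ω ∧ h ω ≤ M ^ 2 * √τ} +
      √τ * exp (-M ^ 2 / 4)) + 2 * C * exp (-M ^ 2 / 4) := by
  have := S.prob
  have hκ := S.κ0
  have hτ := S.τ0
  have hC := S.C0
  have hs : 0 < √τ := sqrt_pos.2 hτ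
  have hM0 : 0 < M := by linarith
  set O : Set Ω := {ω | H ω < M * √τ} ∩ {ω | Λ ω < M * κ} with hO
  have fO : MeasurableSet[F] O := by
    have h1 := S.mH (measurableSet_Iio (a := M * √τ))
    have h2 := S.mL (measurableSet_Iio (a := M * κ))
    exact h1.inter h2
  have mO := S.hF _ fO
  set B : Set Ω := {ω | M ^ 2 * √τ < h ω} with hB
  have mB : MeasurableSet B := measurableSet_lt measurable_const S.mh
  have e1 : ∫⁻ ω in O, ENNReal.ofReal (H ω) * ENNReal.ofReal (Λ ω) ∂P ≤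
      ENNReal.ofReal (M * κ) * ∫⁻ ω in O, ENNReal.ofReal (h ω) ∂P := by
    rw [S.iH O fO, ← lintegral_const_mul' _ _ ENNReal.ofReal_ne_top]
    refine lintegral_mono_ae ?_
    filter_upwards [ae_restrict_mem mO] with ω hω
    rw [mul_comm]
    exact mul_le_mul_left (ENNReal.ofReal_le_ofReal (le_of_lt hω.2)) _
  have e2 : ∫⁻ ω in O, ENNReal.ofReal (h ω) ∂P ≤
      ENNReal.ofReal (M ^ 2 * √τ) * P {ω | 0 < h ω ∧ h ω ≤ M ^ 2 * √τ} +
      ENNReal.ofReal (√τ * exp (-M ^ 2 / 4)) := by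
    rw [← lintegral_inter_add_sdiff (μ := P) (fun ω => ENNReal.ofReal (h ω)) O mB, add_comm]
    refine add_le_add ?_ ?_
    · have mE : MeasurableSet {ω | 0 < h ω ∧ h ω ≤ M ^ 2 * √τ} :=
        (measurableSet_lt measurable_const S.mh).inter (measurableSet_le S.mh measurable_const)
      rw [← lintegral_indicator_one mE, ← lintegral_const_mul' _ _ ENNReal.ofReal_ne_top,
        ← lintegral_indicator (mO.diff mB)]
      refine lintegral_mono fun ω => ?_
      by_cases hω : ω ∈ O \ B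
      · rw [Set.indicator_of_mem hω]
        have hle : h ω ≤ M ^ 2 * √τ := not_lt.1 hω.2
        rcases le_or_gt (h ω) 0 with h0 | h0
        · rw [ENNReal.ofReal_of_nonpos h0]; exact bot_le
        · rw [Set.indicator_of_mem (show ω ∈ {ω | 0 < h ω ∧ h ω ≤ M ^ 2 * √τ} from ⟨h0, hle⟩)]
          simp only [Pi.one_apply, mul_one]
          exact ENNReal.ofReal_le_ofReal hle
      · rw [Set.indicator_of_notMem hω]; exact bot_le
    · exact tail_gen2 S.hF S.mh S.mH hs hM S.sh' fO fun ω hω => le_of_lt hω.1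
  have e3 := S.low (M := M) hM0.le
  have e4 : ENNReal.ofReal (c0 * τ) ≤ ENNReal.ofReal (M * κ) *
      (ENNReal.ofReal (M ^ 2 * √τ) * P {ω | 0 < h ω ∧ h ω ≤ M ^ 2 * √τ} +
      ENNReal.ofReal (√τ * exp (-M ^ 2 / 4))) + ENNReal.ofReal (2 * C * exp (-M ^ 2 / 4)) :=
    e3.trans (add_le_add (e1.trans (mul_le_mul_right e2 _)) le_rfl)
  have e5 : P {ω | 0 < h ω ∧ h ω ≤ M ^ 2 * √τ} =
      ENNReal.ofReal (P.real {ω | 0 < h ω ∧ h ω ≤ M ^ 2 * √τ}) := by
    rw [measureReal_def, ENNReal.ofReal_toReal (measure_ne_top _ _)]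
  rw [e5, ← ENNReal.ofReal_mul (by positivity), ← ENNReal.ofReal_add (by positivity) (by positivity),
    ← ENNReal.ofReal_mul (by positivity), ← ENNReal.ofReal_add (by positivity) (by positivity)] at e4
  exact (ENNReal.ofReal_le_ofReal_iff (by positivity)).1 e4

lemma Snap.F_low (S : Snap F P h l H Λ D τ κ c0 C) {M : ℝ} (hM : 4 ≤ M) :
    c0 * τ ≤ M * √τ * (M ^ 2 * κ * P.real {ω | 0 < l ω ∧ l ω ≤ M ^ 2 * κ} +
      κ * exp (-M ^ 2 / 4)) + 2 * C * exp (-M ^ 2 / 4) := by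
  have := S.prob
  have hκ := S.κ0
  have hτ := S.τ0
  have hC := S.C0
  have hs : 0 < √τ := sqrt_pos.2 hτ
  have hM0 : 0 < M := by linarith
  set O : Set Ω := {ω | H ω < M * √τ} ∩ {ω | Λ ω < M * κ} with hO
  have fO : MeasurableSet[F] O := by
    have h1 := S.mH (measurableSet_Iio (a := M * √τ))
    have h2 := S.mL (measurableSet_Iio (a := M * κ))
    exact h1.inter h2
  have mO := S.hF _ fO
  set B : Set Ω := {ω | M ^ 2 * κ < l ω} with hB
  have mB : MeasurableSet B := measurableSet_lt measurable_const S.ml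
  have e1 : ∫⁻ ω in O, ENNReal.ofReal (H ω) * ENNReal.ofReal (Λ ω) ∂P ≤
      ENNReal.ofReal (M * √τ) * ∫⁻ ω in O, ENNReal.ofReal (l ω) ∂P := by
    rw [S.iL O fO, ← lintegral_const_mul' _ _ ENNReal.ofReal_ne_top]
    refine lintegral_mono_ae ?_
    filter_upwards [ae_restrict_mem mO] with ω hω
    exact mul_le_mul_left (ENNReal.ofReal_le_ofReal (le_of_lt hω.1)) _
  have e2 : ∫⁻ ω in O, ENNReal.ofReal (l ω) ∂P ≤
      ENNReal.ofReal (M ^ 2 * κ) * P {ω | 0 < l ω ∧ l ω ≤ M ^ 2 * κ} +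
      ENNReal.ofReal (κ * exp (-M ^ 2 / 4)) := by
    rw [← lintegral_inter_add_sdiff (μ := P) (fun ω => ENNReal.ofReal (l ω)) O mB, add_comm]
    refine add_le_add ?_ ?_
    · have mE : MeasurableSet {ω | 0 < l ω ∧ l ω ≤ M ^ 2 * κ} :=
        (measurableSet_lt measurable_const S.ml).inter (measurableSet_le S.ml measurable_const)
      rw [← lintegral_indicator_one mE, ← lintegral_const_mul' _ _ ENNReal.ofReal_ne_top,
        ← lintegral_indicator (mO.diff mB)]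
      refine lintegral_mono fun ω => ?_
      by_cases hω : ω ∈ O \ B
      · rw [Set.indicator_of_mem hω]
        have hle : l ω ≤ M ^ 2 * κ := not_lt.1 hω.2
        rcases le_or_gt (l ω) 0 with h0 | h0
        · rw [ENNReal.ofReal_of_nonpos h0]; exact bot_le
        · rw [Set.indicator_of_mem (show ω ∈ {ω | 0 < l ω ∧ l ω ≤ M ^ 2 * κ} from ⟨h0, hle⟩)]
          simp only [Pi.one_apply, mul_one]
          exact ENNReal.ofReal_le_ofReal hle
      · rw [Set.indicator_of_notMem hω]; exact bot_le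
    · exact tail_gen2 S.hF S.ml S.mL hκ hM S.sl fO fun ω hω => le_of_lt hω.2
  have e3 := S.low (M := M) hM0.le
  have e4 : ENNReal.ofReal (c0 * τ) ≤ ENNReal.ofReal (M * √τ) *
      (ENNReal.ofReal (M ^ 2 * κ) * P {ω | 0 < l ω ∧ l ω ≤ M ^ 2 * κ} +
      ENNReal.ofReal (κ * exp (-M ^ 2 / 4))) + ENNReal.ofReal (2 * C * exp (-M ^ 2 / 4)) :=
    e3.trans (add_le_add (e1.trans (mul_le_mul_right e2 _)) le_rfl)
  have e5 : P {ω | 0 < l ω ∧ l ω ≤ M ^ 2 * κ} =
      ENNReal.ofReal (P.real {ω | 0 < l ω ∧ l ω ≤ M ^ 2 * κ}) := by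
    rw [measureReal_def, ENNReal.ofReal_toReal (measure_ne_top _ _)]
  rw [e5, ← ENNReal.ofReal_mul (by positivity), ← ENNReal.ofReal_add (by positivity) (by positivity),
    ← ENNReal.ofReal_mul (by positivity), ← ENNReal.ofReal_add (by positivity) (by positivity)] at e4
  exact (ENNReal.ofReal_le_ofReal_iff (by positivity)).1 e4

end

end Crest.Agent.R146.Snap_778
end

-- ▼ part R146/ExpsA_778
section

/-!
# Real analysis for the exponents package of row 146 (helper778)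

* `bounds_of_lim`, `lim_of_bounds`: `log f / log x → a` versus `x^(a+ε) ≤ f x ≤ x^(a-ε)`;
* `ev_const`, `ev_exp`: constants and `exp (-k x^(-b))` are absorbed by small powers;
* `ev_rpow`: substitution `x ↦ x^β`;
* `dyadic`: from dyadic shells to the distribution function.
-/

set_option autoImplicit false

open MeasureTheory Real Filter Topology
open scoped ENNReal

namespace Crest.Agent.R146.Exps_778

lemma ev_lt (a : ℝ) (ha : 0 < a) : ∀ᶠ x in 𝓝[>] (0 : ℝ), 0 < x ∧ x < a := by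
  filter_upwards [Ioo_mem_nhdsGT ha] with x hx using hx

lemma bounds_of_lim {f : ℝ → ℝ} {a : ℝ} (hf : ∀ᶠ x in 𝓝[>] (0 : ℝ), 0 < f x)
    (h : Tendsto (fun x => log (f x) / log x) (𝓝[>] 0) (𝓝 a)) {ε : ℝ} (hε : 0 < ε) :
    ∀ᶠ x in 𝓝[>] (0 : ℝ), x ^ (a + ε) ≤ f x ∧ f x ≤ x ^ (a - ε) := by
  have h1 : ∀ᶠ x in 𝓝[>] (0 : ℝ), log (f x) / log x ∈ Set.Ioo (a - ε) (a + ε) :=
    h (Ioo_mem_nhds (by linarith) (by linarith))
  filter_upwards [hf, h1, ev_lt 1 one_pos] with x h2 h3 h4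
  have hl : log x < 0 := log_neg h4.1 h4.2
  obtain ⟨h5, h6⟩ := h3
  rw [lt_div_iff_of_neg hl] at h5
  rw [div_lt_iff_of_neg hl] at h6
  constructor
  · rw [rpow_def_of_pos h4.1, ← exp_log h2]
    apply exp_le_exp.2
    linarith
  · rw [rpow_def_of_pos h4.1, ← exp_log h2]
    apply exp_le_exp.2
    linarith

lemma lim_of_bounds {f : ℝ → ℝ} {a : ℝ}
    (h : ∀ ε : ℝ, 0 < ε → ∀ᶠ x in 𝓝[>] (0 : ℝ), x ^ (a + ε) ≤ f x ∧ f x ≤ x ^ (a - ε)) :
    Tendsto (fun x => log (f x) / log x) (𝓝[>] 0) (𝓝 a) := by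
  rw [Metric.tendsto_nhds]
  intro ε hε
  filter_upwards [h (ε / 2) (by positivity), ev_lt 1 one_pos] with x h1 h4
  have hl : log x < 0 := log_neg h4.1 h4.2
  obtain ⟨h2, h3⟩ := h1
  have hp : 0 < x ^ (a + ε / 2) := rpow_pos_of_pos h4.1 _
  have hf : 0 < f x := hp.trans_le h2
  have h5 := log_le_log hp h2
  have h6 := log_le_log hf h3
  rw [log_rpow h4.1] at h5 h6
  rw [Real.dist_eq, abs_lt]
  constructor
  · have : a - ε / 2 ≤ log (f x) / log x := by rw [le_div_iff_of_neg hl]; exact h6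
    linarith
  · have : log (f x) / log x ≤ a + ε / 2 := by rw [div_le_iff_of_neg hl]; exact h5
    linarith

lemma ev_const (C : ℝ) {δ : ℝ} (hδ : 0 < δ) : ∀ᶠ x in 𝓝[>] (0 : ℝ), C ≤ x ^ (-δ) :=
  (tendsto_rpow_neg_nhdsGT_zero (neg_lt_zero.2 hδ)).eventually_ge_atTop C

/-- `C x^b ≤ x^a` for small `x`, `a < b` -/
lemma ev_mul (C : ℝ) {a b : ℝ} (hab : a < b) : ∀ᶠ x in 𝓝[>] (0 : ℝ), C * x ^ b ≤ x ^ a := by
  filter_upwards [ev_const C (sub_pos.2 hab), ev_lt 1 one_pos] with x h1 h2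
  have h3 : x ^ a = x ^ (-(b - a)) * x ^ b := by
    rw [← rpow_add h2.1]; congr 1; ring
  rw [h3]
  exact mul_le_mul_of_nonneg_right h1 (rpow_pos_of_pos h2.1 _).le

lemma ev_exp (C : ℝ) {k b : ℝ} (a : ℝ) (hk : 0 < k) (hb : 0 < b) :
    ∀ᶠ x in 𝓝[>] (0 : ℝ), C * exp (-(k * x ^ (-b))) ≤ x ^ a := by
  have h1 := tendsto_rpow_mul_exp_neg_mul_atTop_nhds_zero (a / b) k hk
  have h2 : Tendsto (fun x : ℝ => C * (x ^ (a / b) * exp (-k * x))) atTop (𝓝 (C * 0)) :=
    h1.const_mul C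
  rw [mul_zero] at h2
  have h3 : ∀ᶠ y in atTop, C * (y ^ (a / b) * exp (-k * y)) < 1 := h2.eventually_lt_const one_pos
  have h4 := (tendsto_rpow_neg_nhdsGT_zero (neg_lt_zero.2 hb)).eventually h3
  filter_upwards [h4, ev_lt 1 one_pos] with x h5 h6
  have h7 : (x ^ (-b)) ^ (a / b) = x ^ (-a) := by
    rw [← rpow_mul h6.1.le]; congr 1; field_simp
  rw [h7] at h5
  have h8 : 0 < x ^ a := rpow_pos_of_pos h6.1 _
  have h9 : x ^ a * x ^ (-a) = 1 := by rw [← rpow_add h6.1]; simp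
  calc C * exp (-(k * x ^ (-b))) = x ^ a * (C * (x ^ (-a) * exp (-k * x ^ (-b)))) := by
        rw [show -(k * x ^ (-b)) = -k * x ^ (-b) by ring]
        calc C * exp (-k * x ^ (-b)) = (x ^ a * x ^ (-a)) * (C * exp (-k * x ^ (-b))) := by
              rw [h9, one_mul]
          _ = _ := by ring
    _ ≤ x ^ a * 1 := mul_le_mul_of_nonneg_left h5.le h8.le
    _ = x ^ a := mul_one _

lemma ev_rpow {p : ℝ → Prop} {β : ℝ} (hβ : 0 < β) (h : ∀ᶠ x in 𝓝[>] (0 : ℝ), p x) :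
    ∀ᶠ x in 𝓝[>] (0 : ℝ), p (x ^ β) := by
  have h1 : Tendsto (fun x : ℝ => x ^ β) (𝓝[>] 0) (𝓝[>] 0) := by
    rw [tendsto_nhdsWithin_iff]
    constructor
    · have h2 : ContinuousAt (fun x : ℝ => x ^ β) 0 := continuousAt_rpow_const 0 β (Or.inr hβ.le)
      have h3 : Tendsto (fun x : ℝ => x ^ β) (𝓝 0) (𝓝 ((0 : ℝ) ^ β)) := h2
      rw [zero_rpow hβ.ne'] at h3
      exact h3.mono_left nhdsWithin_le_nhds
    · filter_upwards [self_mem_nhdsWithin] with x hx
      exact rpow_pos_of_pos hx _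
  exact h1.eventually h

/-- choice of a small parameter by continuity -/
lemma small_param {φ : ℝ → ℝ} (hφ : ContinuousAt φ 0) {ε δ1 : ℝ} (hε : 0 < ε) (hδ1 : 0 < δ1) :
    ∃ δ, 0 < δ ∧ δ < δ1 ∧ |φ δ - φ 0| < ε := by
  have h1 : ∀ᶠ x in 𝓝 (0 : ℝ), |φ x - φ 0| < ε := by
    have := Metric.tendsto_nhds.1 hφ ε hε
    simpa [Real.dist_eq] using this
  have h2 : ∀ᶠ x in 𝓝[>] (0 : ℝ), |φ x - φ 0| < ε := h1.filter_mono nhdsWithin_le_nhds
  obtain ⟨x, h3, h4⟩ := (h2.and (ev_lt δ1 hδ1)).exists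
  exact ⟨x, h4.1, h4.2, h3⟩

section
variable {Ω : Type*} [MeasurableSpace Ω] {P : Measure Ω} [IsFiniteMeasure P]

lemma dyadic {f : Ω → ℝ} {K a u0 : ℝ} (hK : 0 ≤ K) (ha : 0 < a)
    (hb : ∀ u, 0 < u → u < u0 → P.real {ω | u / 2 < f ω ∧ f ω ≤ u} ≤ K * u ^ a) :
    ∀ u, 0 < u → u < u0 → P.real {ω | 0 < f ω ∧ f ω ≤ u} ≤ K / (1 - (1 / 2) ^ a) * u ^ a := by
  intro u hu hu0
  set r : ℝ := (1 / 2) ^ a with hr
  have hr0 : 0 < r := rpow_pos_of_pos (by norm_num) _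
  have hr1 : r < 1 := rpow_lt_one (by norm_num) (by norm_num) ha
  have hsub : {ω | 0 < f ω ∧ f ω ≤ u} ⊆
      ⋃ k : ℕ, {ω | u * (1 / 2) ^ k / 2 < f ω ∧ f ω ≤ u * (1 / 2) ^ k} := by
    intro ω ⟨h1, h2⟩
    rw [Set.mem_iUnion]
    have hex : ∃ k : ℕ, u * (1 / 2) ^ k < f ω := by
      have h3 : Tendsto (fun k : ℕ => u * (1 / 2 : ℝ) ^ k) atTop (𝓝 (u * 0)) :=
        (tendsto_pow_atTop_nhds_zero_of_lt_one (by norm_num) (by norm_num)).const_mul u
      rw [mul_zero] at h3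
      exact (h3.eventually_lt_const h1).exists
    classical
    have hne : Nat.find hex ≠ 0 := by
      intro h0
      have := Nat.find_spec hex
      rw [h0] at this
      simp at this
      linarith
    obtain ⟨k, hk⟩ := Nat.exists_eq_succ_of_ne_zero hne
    refine ⟨k, ?_, ?_⟩
    · have h3 := Nat.find_spec hex
      rw [hk] at h3
      calc u * (1 / 2) ^ k / 2 = u * (1 / 2) ^ (k.succ) := by rw [pow_succ]; ring
        _ < f ω := h3
    · have h3 : ¬ (u * (1 / 2) ^ k < f ω) := Nat.find_min hex (by omega)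
      exact not_lt.1 h3
  have h1 : P {ω | 0 < f ω ∧ f ω ≤ u} ≤ ∑' k : ℕ, ENNReal.ofReal (K * u ^ a * r ^ k) := by
    refine (measure_mono hsub).trans ((measure_iUnion_le _).trans (ENNReal.tsum_le_tsum fun k => ?_))
    have hk0 : 0 < u * (1 / 2 : ℝ) ^ k := by positivity
    have hk1 : u * (1 / 2 : ℝ) ^ k ≤ u := by
      have : (1 / 2 : ℝ) ^ k ≤ 1 := pow_le_one₀ (by norm_num) (by norm_num)
      nlinarith
    have h2 := hb (u * (1 / 2) ^ k) hk0 (hk1.trans_lt hu0)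
    have h3 : P {ω | u * (1 / 2) ^ k / 2 < f ω ∧ f ω ≤ u * (1 / 2) ^ k} =
        ENNReal.ofReal (P.real {ω | u * (1 / 2) ^ k / 2 < f ω ∧ f ω ≤ u * (1 / 2) ^ k}) := by
      rw [measureReal_def, ENNReal.ofReal_toReal (measure_ne_top _ _)]
    rw [h3]
    refine ENNReal.ofReal_le_ofReal (h2.trans (le_of_eq ?_))
    rw [mul_rpow hu.le (by positivity), ← rpow_natCast, ← rpow_mul (by norm_num), mul_comm (k : ℝ) a,
      rpow_mul (by norm_num), rpow_natCast]
    ring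
  have hsum : Summable fun k : ℕ => K * u ^ a * r ^ k :=
    (summable_geometric_of_lt_one hr0.le hr1).mul_left _
  have hKu : 0 ≤ K * u ^ a := mul_nonneg hK (rpow_pos_of_pos hu _).le
  rw [← ENNReal.ofReal_tsum_of_nonneg (fun k => mul_nonneg hKu (pow_nonneg hr0.le _)) hsum,
    tsum_mul_left, tsum_geometric_of_lt_one hr0.le hr1] at h1
  have h4 : P.real {ω | 0 < f ω ∧ f ω ≤ u} ≤ K * u ^ a * (1 - r)⁻¹ := by
    rw [measureReal_def]
    refine ENNReal.toReal_le_of_le_ofReal ?_ h1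
    have : 0 < 1 - r := by linarith
    positivity
  refine h4.trans (le_of_eq ?_)
  ring

end

end Crest.Agent.R146.Exps_778
end

-- ▼ part R146/ExpsB_778
section

/-!
# Exponents of the gap law and of the force law (helper778), row 146

`exponents`: from snapshots at all small `τ` (`Snap`), the comparison `s3` between two times,
`log D / log τ → ν` and `log κ / log τ → 1/2 - ν`, `0 < ν < 1/2`:
`log P(0 < h ≤ u) / log u → 2ν` and `log P(0 < λ ≤ s) / log s → 2ν / (1 - 2ν)`.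
-/

set_option autoImplicit false

open MeasureTheory ProbabilityTheory Real Filter Topology
open scoped ENNReal

namespace Crest.Agent.R146.Exps_778
open Gauss_778 Snap_778

section
variable {Ω : Type*} [m0 : MeasurableSpace Ω] {P : Measure Ω} {h l : Ω → ℝ}
  {F : ℝ → MeasurableSpace Ω} {H Λ : ℝ → Ω → ℝ} {D κ : ℝ → ℝ} {c0 C τ0 ν : ℝ}

/-- upper bound for the gap law -/
lemma G_upper (hτ0 : 0 < τ0) (hν : 0 < ν)
    (S : ∀ τ, 0 < τ → τ < τ0 → Snap (F τ) P h l (H τ) (Λ τ) (D τ) τ (κ τ) c0 C)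
    (hD : Tendsto (fun τ => log (D τ) / log τ) (𝓝[>] 0) (𝓝 ν)) {ε : ℝ} (hε : 0 < ε) :
    ∀ᶠ u in 𝓝[>] (0 : ℝ), P.real {ω | 0 < h ω ∧ h ω ≤ u} ≤ u ^ (2 * ν - ε) := by
  have hprob : IsProbabilityMeasure P := (S (τ0 / 2) (by linarith) (by linarith)).prob
  have hc0 : 0 < c0 := (S (τ0 / 2) (by linarith) (by linarith)).c00
  have hDpos : ∀ᶠ x in 𝓝[>] (0 : ℝ), 0 < D x := by
    filter_upwards [ev_lt τ0 hτ0] with x hx using (S x hx.1 hx.2).D0
  -- choose δ
  obtain ⟨δ, hδ0, hδ1, hδ2⟩ := small_param (φ := fun δ : ℝ => (2 - 2 * δ) * (ν - δ) - 2 * δ)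
    (by fun_prop) (ε := min (ε / 2) ν) (δ1 := 1 / 2) (lt_min (by positivity) hν) (by norm_num)
  have hφ0 : (2 - 2 * 0) * (ν - 0) - 2 * 0 = 2 * ν := by ring
  rw [hφ0] at hδ2
  set a : ℝ := (2 - 2 * δ) * (ν - δ) - 2 * δ with ha
  have ha1 : 2 * ν - ε / 2 < a := by
    have := (abs_lt.1 hδ2).1
    have h2 := min_le_left (ε / 2) ν
    linarith
  have ha0 : 0 < a := by
    have := (abs_lt.1 hδ2).1
    have h2 := min_le_right (ε / 2) ν
    linarith
  have hc1 := c1_pos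
  have hc2 := c2_pos
  set C1 : ℝ := 2 * c0 / c1 + exp 1 * 4 * c0 / (c1 * c2) with hC1
  have hC10 : 0 ≤ C1 := by positivity
  -- shells
  have hβ : 0 < 2 - 2 * δ := by linarith
  have shell : ∀ᶠ u in 𝓝[>] (0 : ℝ),
      P.real {ω | u / 2 < h ω ∧ h ω ≤ u} ≤ (C1 + 1) * u ^ a := by
    filter_upwards [ev_lt 1 one_pos, ev_rpow hβ (bounds_of_lim hDpos hD hδ0),
      ev_rpow hβ (ev_lt τ0 hτ0), ev_exp (exp 1) a (k := 1 / 2) (b := 2 * δ) (by norm_num)
        (by linarith)] with u hu hDb hτ hex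
    set τ : ℝ := u ^ (2 - 2 * δ) with hτdef
    set L : ℝ := u ^ (-δ) with hL
    have hL1 : 1 ≤ L := one_le_rpow_of_pos_of_le_one_of_nonpos hu.1 hu.2.le (by linarith)
    have hsq : √τ = u ^ (1 - δ) := by
      rw [hτdef, sqrt_eq_rpow, ← rpow_mul hu.1.le]; congr 1; ring
    have huL : √τ / L = u := by
      rw [hsq, hL, ← rpow_sub hu.1]
      have : 1 - δ - -δ = 1 := by ring
      rw [this, rpow_one]
    have h1 := (S τ hτ.1 hτ.2).G_up hL1
    rw [huL] at h1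
    have hD0 := (S τ hτ.1 hτ.2).D0
    rw [← ENNReal.ofReal_add (by positivity) (by positivity),
      ← ENNReal.ofReal_add (by positivity) (by positivity)] at h1
    have h2 : P.real {ω | u / 2 < h ω ∧ h ω ≤ u} ≤ 2 * L * D τ * c0 / c1 +
      exp 1 * (1 + L) ^ 2 * D τ * c0 / (c1 * c2) + exp (1 - L ^ 2 / 2) := by
      rw [measureReal_def]
      exact ENNReal.toReal_le_of_le_ofReal (by positivity) h1
    have hLL : L ^ 2 = u ^ (-(2 * δ)) := by
      rw [hL, ← rpow_natCast, ← rpow_mul hu.1.le]; congr 1; push_cast; ring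
    have h3 : 2 * L * D τ * c0 / c1 ≤ (2 * c0 / c1) * (L ^ 2 * D τ) := by
      have : L ≤ L ^ 2 := by nlinarith only [hL1]
      calc 2 * L * D τ * c0 / c1 = (2 * c0 / c1) * (L * D τ) := by ring
        _ ≤ _ := by gcongr
    have h4 : exp 1 * (1 + L) ^ 2 * D τ * c0 / (c1 * c2) ≤
        (exp 1 * 4 * c0 / (c1 * c2)) * (L ^ 2 * D τ) := by
      have : (1 + L) ^ 2 ≤ 4 * L ^ 2 := by nlinarith only [hL1]
      calc exp 1 * (1 + L) ^ 2 * D τ * c0 / (c1 * c2) =
          (exp 1 * c0 / (c1 * c2)) * ((1 + L) ^ 2 * D τ) := by ring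
        _ ≤ (exp 1 * c0 / (c1 * c2)) * (4 * L ^ 2 * D τ) := by gcongr
        _ = _ := by ring
    have h5 : L ^ 2 * D τ ≤ u ^ a := by
      calc L ^ 2 * D τ ≤ L ^ 2 * τ ^ (ν - δ) := by gcongr; exact hDb.2
        _ = u ^ a := by
          rw [hLL, hτdef, ← rpow_mul hu.1.le, ← rpow_add hu.1]; congr 1; rw [ha]; ring
    have h6 : exp (1 - L ^ 2 / 2) ≤ u ^ a := by
      refine le_trans (le_of_eq ?_) hex
      rw [← exp_add, hLL]; congr 1; ring
    calc P.real {ω | u / 2 < h ω ∧ h ω ≤ u} ≤ _ := h2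
      _ ≤ (2 * c0 / c1) * (L ^ 2 * D τ) + (exp 1 * 4 * c0 / (c1 * c2)) * (L ^ 2 * D τ) + u ^ a := by
          linarith
      _ = C1 * (L ^ 2 * D τ) + u ^ a := by rw [hC1]; ring
      _ ≤ C1 * u ^ a + u ^ a := by gcongr
      _ = (C1 + 1) * u ^ a := by ring
  obtain ⟨u0, hu0, hsh⟩ : ∃ u0 > 0, ∀ u, 0 < u → u < u0 →
      P.real {ω | u / 2 < h ω ∧ h ω ≤ u} ≤ (C1 + 1) * u ^ a := by
    rw [eventually_nhdsWithin_iff] at shell
    obtain ⟨u0, hu0, hh⟩ := Metric.eventually_nhds_iff.1 shell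
    refine ⟨u0, hu0, fun u h1 h2 => hh ?_ h1⟩
    rw [Real.dist_eq, sub_zero, abs_of_pos h1]; exact h2
  have hdy := dyadic (P := P) (f := h) (by positivity) ha0 hsh
  filter_upwards [ev_lt u0 hu0, ev_mul ((C1 + 1) / (1 - (1 / 2) ^ a)) (a := 2 * ν - ε) (b := a)
    (by linarith)] with u hu hm
  exact (hdy u hu.1 hu.2).trans hm

set_option maxHeartbeats 1600000 in
/-- upper bound for the force law -/
lemma F_upper (hτ0 : 0 < τ0) (hν : 0 < ν) (hν' : ν < 1 / 2)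
    (S : ∀ τ, 0 < τ → τ < τ0 → Snap (F τ) P h l (H τ) (Λ τ) (D τ) τ (κ τ) c0 C)
    (s3 : ∀ τ' τ, 0 < τ' → τ' < τ → τ < τ0 → κ τ' < κ τ → ∀ᵐ ω ∂P,
      c1 * √τ' * γ.real (Set.Ici (-(XX (H τ) (Λ τ) (D τ) ω) /
        (D τ * √(κ τ ^ 2 - κ τ' ^ 2)))) ≤ H τ ω)
    (hD : Tendsto (fun τ => log (D τ) / log τ) (𝓝[>] 0) (𝓝 ν))
    (hκ : Tendsto (fun τ => log (κ τ) / log τ) (𝓝[>] 0) (𝓝 (1 / 2 - ν))) {ε : ℝ} (hε : 0 < ε) :
    ∀ᶠ s in 𝓝[>] (0 : ℝ), P.real {ω | 0 < l ω ∧ l ω ≤ s} ≤ s ^ (2 * ν / (1 - 2 * ν) - ε) := by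
  have hprob : IsProbabilityMeasure P := (S (τ0 / 2) (by linarith) (by linarith)).prob
  have hc0 : 0 < c0 := (S (τ0 / 2) (by linarith) (by linarith)).c00
  have hDpos : ∀ᶠ x in 𝓝[>] (0 : ℝ), 0 < D x := by
    filter_upwards [ev_lt τ0 hτ0] with x hx using (S x hx.1 hx.2).D0
  have hκpos : ∀ᶠ x in 𝓝[>] (0 : ℝ), 0 < κ x := by
    filter_upwards [ev_lt τ0 hτ0] with x hx using (S x hx.1 hx.2).κ0
  have hw : 0 < 1 - 2 * ν := by linarith
  have hw2 : 0 < 1 / 2 - ν := by linarith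
  have hval : (ν - 2 * 0 - 12 * 0 / (1 - 2 * ν) / 2) / (1 / 2 - ν + 2 * 0) = 2 * ν / (1 - 2 * ν) := by
    field_simp
    ring
  have hpos : 0 < 2 * ν / (1 - 2 * ν) := by positivity
  -- choose δ
  obtain ⟨δ, hδ0, hδ1, hδ2⟩ := small_param
    (φ := fun δ : ℝ => (ν - 2 * δ - 12 * δ / (1 - 2 * ν) / 2) / (1 / 2 - ν + 2 * δ))
    (by
      refine ContinuousAt.div (by fun_prop) (by fun_prop) ?_
      simp; linarith) (ε := min (ε / 2) (2 * ν / (1 - 2 * ν))) (δ1 := (1 - 2 * ν) / 4)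
    (lt_min (by positivity) hpos) (by positivity)
  rw [hval] at hδ2
  set ρ : ℝ := 12 * δ / (1 - 2 * ν) with hρ
  have hρ0 : 0 < ρ := by positivity
  have hβ0 : 0 < 1 / 2 - ν + 2 * δ := by linarith
  set a : ℝ := (ν - 2 * δ - ρ / 2) / (1 / 2 - ν + 2 * δ) with ha
  have ha1 : 2 * ν / (1 - 2 * ν) - ε / 2 < a := by
    have := (abs_lt.1 hδ2).1
    have h2 := min_le_left (ε / 2) (2 * ν / (1 - 2 * ν))
    linarith
  have ha0 : 0 < a := by
    have := (abs_lt.1 hδ2).1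
    have h2 := min_le_right (ε / 2) (2 * ν / (1 - 2 * ν))
    linarith
  have hc1 := c1_pos
  have hc3 := c3_pos
  set C1 : ℝ := 2 * c0 / c1 + 2 * c3 * c0 / c1 ^ 2 with hC1
  have hC10 : 0 ≤ C1 := by positivity
  -- events in τ
  have evτ : ∀ᶠ τ in 𝓝[>] (0 : ℝ), P.real {ω | τ ^ (1 / 2 - ν + 2 * δ) / 2 < l ω ∧
      l ω ≤ τ ^ (1 / 2 - ν + 2 * δ)} ≤ (C1 + 1) * τ ^ (ν - 2 * δ - ρ / 2) := by
    filter_upwards [ev_lt 1 one_pos, bounds_of_lim hDpos hD hδ0, bounds_of_lim hκpos hκ hδ0,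
      ev_lt τ0 hτ0, ev_rpow (β := 1 + ρ) (by linarith) (bounds_of_lim hκpos hκ hδ0),
      ev_rpow (β := 1 + ρ) (by linarith) (ev_lt τ0 hτ0),
      ev_exp (exp 1) (ν - 2 * δ - ρ / 2) (k := 1 / 2) (b := 2 * δ) (by norm_num) (by linarith),
      ev_const 2 (δ := 2 * δ) (by linarith)]
      with τ hu hDb hκb hτ hκb' hτ' hex h2L
    set τ' : ℝ := τ ^ (1 + ρ) with hτ'def
    set L : ℝ := τ ^ (-δ) with hL
    set s : ℝ := τ ^ (1 / 2 - ν + 2 * δ) with hs
    have hL1 : 1 ≤ L := one_le_rpow_of_pos_of_le_one_of_nonpos hu.1 hu.2.le (by linarith)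
    have hL0 : 0 < L := by linarith
    have hLL : L ^ 2 = τ ^ (-(2 * δ)) := by
      rw [hL, ← rpow_natCast, ← rpow_mul hu.1.le]; congr 1; push_cast; ring
    have hτ'lt : τ' < τ := by
      calc τ' = τ ^ (1 + ρ) := rfl
        _ < τ ^ (1 : ℝ) := rpow_lt_rpow_of_exponent_gt hu.1 hu.2 (by linarith)
        _ = τ := rpow_one τ
    have S1 := S τ hτ.1 hτ.2
    have hκ0 : 0 < κ τ := S1.κ0
    have hD0 : 0 < D τ := S1.D0
    have hκ0' : 0 < κ τ' := (S τ' hτ'.1 hτ'.2).κ0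
    have hs0 : 0 < s := rpow_pos_of_pos hu.1 _
    -- the ratio of the clocks
    have hη : κ τ' ^ 2 * L ^ 2 ≤ κ τ ^ 2 := by
      have h1 : κ τ' * L ≤ κ τ := by
        calc κ τ' * L ≤ τ' ^ (1 / 2 - ν - δ) * L := by gcongr; exact hκb'.2
          _ = τ ^ ((1 + ρ) * (1 / 2 - ν - δ) - δ) := by
              rw [hτ'def, hL, ← rpow_mul hu.1.le, ← rpow_add hu.1]; congr 1
          _ ≤ τ ^ (1 / 2 - ν + δ) := by
              apply rpow_le_rpow_of_exponent_ge hu.1 hu.2.le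
              have h2 : ρ * (1 - 2 * ν) = 12 * δ := by rw [hρ]; field_simp
              have h3 : ρ * δ ≤ ρ * ((1 - 2 * ν) / 4) := mul_le_mul_of_nonneg_left hδ1.le hρ0.le
              have h4 : ρ * ((1 - 2 * ν) / 4) = 3 * δ := by linear_combination (1 / 4) * h2
              have h5 : (1 + ρ) * (1 / 2 - ν - δ) - δ =
                  1 / 2 - ν - 2 * δ + (ρ * (1 - 2 * ν)) / 2 - ρ * δ := by ring
              rw [h5, h2]
              linarith only [h3, h4]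
          _ ≤ κ τ := hκb.1
      calc κ τ' ^ 2 * L ^ 2 = (κ τ' * L) ^ 2 := by ring
        _ ≤ κ τ ^ 2 := by gcongr
    have h2L' : 2 ≤ L ^ 2 := by rw [hLL]; exact h2L
    have h0' : 0 < κ τ' ^ 2 := by positivity
    have h2κ : κ τ' ^ 2 * 2 ≤ κ τ ^ 2 :=
      le_trans (mul_le_mul_of_nonneg_left h2L' h0'.le) hη
    have hκlt2 : κ τ' ^ 2 < κ τ ^ 2 := by linarith only [h0', h2κ]
    have hκlt : κ τ' < κ τ := lt_of_pow_lt_pow_left₀ 2 hκ0.le hκlt2
    have hv : 0 < κ τ ^ 2 - κ τ' ^ 2 := by linarith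
    have hv2 : L ^ 2 * (κ τ ^ 2 / (κ τ ^ 2 - κ τ' ^ 2) - 1) ≤ 2 := by
      have h1 : κ τ ^ 2 / (κ τ ^ 2 - κ τ' ^ 2) - 1 = κ τ' ^ 2 / (κ τ ^ 2 - κ τ' ^ 2) := by
        field_simp; ring
      rw [h1, ← mul_div_assoc, div_le_iff₀ hv]
      linarith only [hη, h2κ]
    have hsκ : s ≤ κ τ / L := by
      rw [le_div_iff₀ hL0]
      calc s * L = τ ^ (1 / 2 - ν + δ) := by
            rw [hs, hL, ← rpow_add hu.1]; congr 1; ring
        _ ≤ κ τ := hκb.1
    have h1 := S1.F_up hL1 hs0 hsκ hτ'.1 hv (by linarith [sq_nonneg (κ τ')]) hv2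
      (s3 τ' τ hτ'.1 hτ'lt hτ.2 hκlt)
    rw [← ENNReal.ofReal_add (by positivity) (by positivity),
      ← ENNReal.ofReal_add (by positivity) (by positivity)] at h1
    have h2 : P.real {ω | s / 2 < l ω ∧ l ω ≤ s} ≤ 2 * c0 * √τ / (c1 * s) +
      c3 * (1 + L) * c0 * D τ * √τ / (c1 ^ 2 * √τ') + exp (1 - L ^ 2 / 2) := by
      rw [measureReal_def]
      exact ENNReal.toReal_le_of_le_ofReal (by positivity) h1
    have hsq : √τ = τ ^ (1 / 2 : ℝ) := sqrt_eq_rpow τ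
    have hsq' : √τ' = τ ^ ((1 + ρ) / 2) := by
      rw [hτ'def, sqrt_eq_rpow, ← rpow_mul hu.1.le]; congr 1; ring
    have h3 : 2 * c0 * √τ / (c1 * s) ≤ (2 * c0 / c1) * τ ^ (ν - 2 * δ - ρ / 2) := by
      have h4 : √τ / s = τ ^ (ν - 2 * δ) := by
        rw [hsq, hs, ← rpow_sub hu.1]; congr 1; ring
      calc 2 * c0 * √τ / (c1 * s) = (2 * c0 / c1) * (√τ / s) := by field_simp
        _ = (2 * c0 / c1) * τ ^ (ν - 2 * δ) := by rw [h4]
        _ ≤ _ := by
          have h5 : τ ^ (ν - 2 * δ) ≤ τ ^ (ν - 2 * δ - ρ / 2) :=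
            rpow_le_rpow_of_exponent_ge hu.1 hu.2.le (by linarith)
          gcongr
    have h4 : c3 * (1 + L) * c0 * D τ * √τ / (c1 ^ 2 * √τ') ≤
        (2 * c3 * c0 / c1 ^ 2) * τ ^ (ν - 2 * δ - ρ / 2) := by
      have h5 : L * D τ * (√τ / √τ') ≤ τ ^ (ν - 2 * δ - ρ / 2) := by
        calc L * D τ * (√τ / √τ') ≤ L * τ ^ (ν - δ) * (√τ / √τ') := by
              gcongr; exact hDb.2
          _ = τ ^ (ν - 2 * δ - ρ / 2) := by
              rw [hL, hsq, hsq', ← rpow_sub hu.1, ← rpow_add hu.1, ← rpow_add hu.1]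
              congr 1; ring
      have hst' : 0 < √τ' := sqrt_pos.2 hτ'.1
      calc c3 * (1 + L) * c0 * D τ * √τ / (c1 ^ 2 * √τ')
          = (c3 * c0 / c1 ^ 2) * ((1 + L) * D τ * (√τ / √τ')) := by field_simp
        _ ≤ (c3 * c0 / c1 ^ 2) * (2 * L * D τ * (√τ / √τ')) := by
            have : 1 + L ≤ 2 * L := by linarith
            gcongr
        _ = (2 * c3 * c0 / c1 ^ 2) * (L * D τ * (√τ / √τ')) := by ring
        _ ≤ _ := by gcongr
    have h6 : exp (1 - L ^ 2 / 2) ≤ τ ^ (ν - 2 * δ - ρ / 2) := by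
      refine le_trans (le_of_eq ?_) hex
      rw [← exp_add, hLL]; congr 1; ring
    calc P.real {ω | s / 2 < l ω ∧ l ω ≤ s} ≤ _ := h2
      _ ≤ (2 * c0 / c1) * τ ^ (ν - 2 * δ - ρ / 2) + (2 * c3 * c0 / c1 ^ 2) *
          τ ^ (ν - 2 * δ - ρ / 2) + τ ^ (ν - 2 * δ - ρ / 2) := by linarith
      _ = (C1 + 1) * τ ^ (ν - 2 * δ - ρ / 2) := by rw [hC1]; ring
  have shell : ∀ᶠ s in 𝓝[>] (0 : ℝ),
      P.real {ω | s / 2 < l ω ∧ l ω ≤ s} ≤ (C1 + 1) * s ^ a := by
    filter_upwards [ev_lt 1 one_pos, ev_rpow (β := 1 / (1 / 2 - ν + 2 * δ)) (by positivity) evτ]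
      with s hs h1
    have e1 : (s ^ (1 / (1 / 2 - ν + 2 * δ))) ^ (1 / 2 - ν + 2 * δ) = s := by
      rw [← rpow_mul hs.1.le, one_div_mul_cancel hβ0.ne', rpow_one]
    have e2 : (s ^ (1 / (1 / 2 - ν + 2 * δ))) ^ (ν - 2 * δ - ρ / 2) = s ^ a := by
      rw [← rpow_mul hs.1.le, ha]; congr 1; ring
    rw [e1, e2] at h1
    exact h1
  obtain ⟨u0, hu0, hsh⟩ : ∃ u0 > 0, ∀ u, 0 < u → u < u0 →
      P.real {ω | u / 2 < l ω ∧ l ω ≤ u} ≤ (C1 + 1) * u ^ a := by
    rw [eventually_nhdsWithin_iff] at shell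
    obtain ⟨u0, hu0, hh⟩ := Metric.eventually_nhds_iff.1 shell
    refine ⟨u0, hu0, fun u h1 h2 => hh ?_ h1⟩
    rw [Real.dist_eq, sub_zero, abs_of_pos h1]; exact h2
  have hdy := dyadic (P := P) (f := l) (by positivity) ha0 hsh
  filter_upwards [ev_lt u0 hu0, ev_mul ((C1 + 1) / (1 - (1 / 2) ^ a))
    (a := 2 * ν / (1 - 2 * ν) - ε) (b := a) (by linarith)] with u hu hm
  exact (hdy u hu.1 hu.2).trans hm

/-- common part of the lower bounds -/
lemma low_aux (hτ0 : 0 < τ0) (_hν : 0 < ν) (hν' : ν < 1 / 2)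
    (S : ∀ τ, 0 < τ → τ < τ0 → Snap (F τ) P h l (H τ) (Λ τ) (D τ) τ (κ τ) c0 C)
    (hκ : Tendsto (fun τ => log (κ τ) / log τ) (𝓝[>] 0) (𝓝 (1 / 2 - ν))) {δ : ℝ} (hδ0 : 0 < δ)
    (hδ1 : δ < 1 / 8) :
    ∀ᶠ τ in 𝓝[>] (0 : ℝ),
      c0 / 2 * τ ^ (ν + 4 * δ) ≤ P.real {ω | 0 < h ω ∧ h ω ≤ τ ^ (1 / 2 - 2 * δ)} ∧
      c0 / 2 * τ ^ (ν + 4 * δ) ≤ P.real {ω | 0 < l ω ∧ l ω ≤ τ ^ (1 / 2 - ν - 3 * δ)} := by
  have hprob : IsProbabilityMeasure P := (S (τ0 / 2) (by linarith) (by linarith)).prob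
  have hc0 : 0 < c0 := (S (τ0 / 2) (by linarith) (by linarith)).c00
  have hC : 0 ≤ C := (S (τ0 / 2) (by linarith) (by linarith)).C0
  have hκpos : ∀ᶠ x in 𝓝[>] (0 : ℝ), 0 < κ x := by
    filter_upwards [ev_lt τ0 hτ0] with x hx using (S x hx.1 hx.2).κ0
  filter_upwards [ev_lt 1 one_pos, bounds_of_lim hκpos hκ hδ0, ev_lt τ0 hτ0,
    ev_exp ((1 + 2 * C) * (2 / c0)) 1 (k := 1 / 4) (b := 2 * δ) (by norm_num) (by linarith),
    ev_const 4 hδ0] with τ hu hκb hτ hex hM4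
  set M : ℝ := τ ^ (-δ) with hM
  have hM0 : 0 < M := by linarith
  have S1 := S τ hτ.1 hτ.2
  have hκ0 : 0 < κ τ := S1.κ0
  have hst : 0 < √τ := sqrt_pos.2 hu.1
  have hMM : M ^ 2 = τ ^ (-(2 * δ)) := by
    rw [hM, ← rpow_natCast, ← rpow_mul hu.1.le]; congr 1; push_cast; ring
  have hsq : √τ = τ ^ (1 / 2 : ℝ) := sqrt_eq_rpow τ
  have hprod : M * κ τ * √τ ≤ 1 := by
    calc M * κ τ * √τ ≤ M * τ ^ (1 / 2 - ν - δ) * √τ := by gcongr; exact hκb.2
      _ = τ ^ (-δ + (1 / 2 - ν - δ) + 1 / 2) := by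
          rw [hM, hsq, ← rpow_add hu.1, ← rpow_add hu.1]
      _ ≤ 1 := rpow_le_one hu.1.le hu.2.le (by linarith)
  have hE0 : 0 < exp (-M ^ 2 / 4) := exp_pos _
  have hsmall : M * κ τ * (√τ * exp (-M ^ 2 / 4)) + 2 * C * exp (-M ^ 2 / 4) ≤ c0 * τ / 2 := by
    have h1 : (1 + 2 * C) * (2 / c0) * exp (-M ^ 2 / 4) ≤ τ := by
      have h2 : -M ^ 2 / 4 = -(1 / 4 * τ ^ (-(2 * δ))) := by rw [← hMM]; ring
      rw [h2]
      calc _ ≤ τ ^ (1 : ℝ) := hex
        _ = τ := rpow_one τ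
    calc M * κ τ * (√τ * exp (-M ^ 2 / 4)) + 2 * C * exp (-M ^ 2 / 4)
        = (M * κ τ * √τ) * exp (-M ^ 2 / 4) + 2 * C * exp (-M ^ 2 / 4) := by ring
      _ ≤ 1 * exp (-M ^ 2 / 4) + 2 * C * exp (-M ^ 2 / 4) := by gcongr
      _ = (c0 / 2) * ((1 + 2 * C) * (2 / c0) * exp (-M ^ 2 / 4)) := by field_simp
      _ ≤ (c0 / 2) * τ := by gcongr
      _ = c0 * τ / 2 := by ring
  have hmain : c0 / 2 * τ ^ (ν + 4 * δ) * (M ^ 3 * κ τ * √τ) ≤ c0 * τ / 2 := by
    have h1 : M ^ 3 = τ ^ (-(3 * δ)) := by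
      rw [hM, ← rpow_natCast, ← rpow_mul hu.1.le]; congr 1; push_cast; ring
    calc c0 / 2 * τ ^ (ν + 4 * δ) * (M ^ 3 * κ τ * √τ)
        ≤ c0 / 2 * τ ^ (ν + 4 * δ) * (M ^ 3 * τ ^ (1 / 2 - ν - δ) * √τ) := by
          have := hκb.2
          have hτpos := hu.1
          have h0 : 0 ≤ c0 / 2 * τ ^ (ν + 4 * δ) := by positivity
          gcongr
      _ = c0 / 2 * τ ^ ((ν + 4 * δ) + ((-(3 * δ)) + (1 / 2 - ν - δ) + 1 / 2)) := by
          rw [h1, hsq, ← rpow_add hu.1, ← rpow_add hu.1, mul_assoc, ← rpow_add hu.1]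
      _ = c0 * τ / 2 := by
          rw [show (ν + 4 * δ) + ((-(3 * δ)) + (1 / 2 - ν - δ) + 1 / 2) = 1 by ring, rpow_one]; ring
  have hK0 : 0 < M ^ 3 * κ τ * √τ := by positivity
  constructor
  · have h1 := S1.G_low hM4
    have h2 : c0 * τ / 2 ≤ (M ^ 3 * κ τ * √τ) * P.real {ω | 0 < h ω ∧ h ω ≤ M ^ 2 * √τ} := by
      have h3 : M * κ τ * (M ^ 2 * √τ * P.real {ω | 0 < h ω ∧ h ω ≤ M ^ 2 * √τ} +
          √τ * exp (-M ^ 2 / 4)) = (M ^ 3 * κ τ * √τ) * P.real {ω | 0 < h ω ∧ h ω ≤ M ^ 2 * √τ} +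
          M * κ τ * (√τ * exp (-M ^ 2 / 4)) := by ring
      rw [h3] at h1
      linarith
    have h4 : M ^ 2 * √τ = τ ^ (1 / 2 - 2 * δ) := by
      rw [hMM, hsq, ← rpow_add hu.1]; congr 1; ring
    rw [h4] at h2
    have h5 := hmain.trans h2
    rw [mul_comm (M ^ 3 * κ τ * √τ)] at h5
    exact le_of_mul_le_mul_right h5 hK0
  · have h1 := S1.F_low hM4
    have h2 : c0 * τ / 2 ≤ (M ^ 3 * κ τ * √τ) * P.real {ω | 0 < l ω ∧ l ω ≤ M ^ 2 * κ τ} := by
      have h3 : M * √τ * (M ^ 2 * κ τ * P.real {ω | 0 < l ω ∧ l ω ≤ M ^ 2 * κ τ} +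
          κ τ * exp (-M ^ 2 / 4)) = (M ^ 3 * κ τ * √τ) * P.real {ω | 0 < l ω ∧ l ω ≤ M ^ 2 * κ τ} +
          M * κ τ * (√τ * exp (-M ^ 2 / 4)) := by ring
      rw [h3] at h1
      linarith
    have h4 : M ^ 2 * κ τ ≤ τ ^ (1 / 2 - ν - 3 * δ) := by
      calc M ^ 2 * κ τ ≤ M ^ 2 * τ ^ (1 / 2 - ν - δ) := by gcongr; exact hκb.2
        _ = τ ^ (1 / 2 - ν - 3 * δ) := by
          rw [hMM, ← rpow_add hu.1]; congr 1; ring
    have h6 : P.real {ω | 0 < l ω ∧ l ω ≤ M ^ 2 * κ τ} ≤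
        P.real {ω | 0 < l ω ∧ l ω ≤ τ ^ (1 / 2 - ν - 3 * δ)} :=
      measureReal_mono (fun ω hω => ⟨hω.1, hω.2.trans h4⟩)
    have h5 := hmain.trans h2
    rw [mul_comm (M ^ 3 * κ τ * √τ)] at h5
    exact (le_of_mul_le_mul_right h5 hK0).trans h6

lemma G_lower (hτ0 : 0 < τ0) (hν : 0 < ν) (hν' : ν < 1 / 2)
    (S : ∀ τ, 0 < τ → τ < τ0 → Snap (F τ) P h l (H τ) (Λ τ) (D τ) τ (κ τ) c0 C)
    (hκ : Tendsto (fun τ => log (κ τ) / log τ) (𝓝[>] 0) (𝓝 (1 / 2 - ν))) {ε : ℝ} (hε : 0 < ε) :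
    ∀ᶠ u in 𝓝[>] (0 : ℝ), u ^ (2 * ν + ε) ≤ P.real {ω | 0 < h ω ∧ h ω ≤ u} := by
  have hc0 : 0 < c0 := (S (τ0 / 2) (by linarith) (by linarith)).c00
  have hval : (ν + 4 * 0) / (1 / 2 - 2 * 0) = 2 * ν := by norm_num; ring
  obtain ⟨δ, hδ0, hδ1, hδ2⟩ := small_param
    (φ := fun δ : ℝ => (ν + 4 * δ) / (1 / 2 - 2 * δ))
    (by
      refine ContinuousAt.div (by fun_prop) (by fun_prop) ?_
      norm_num) (ε := ε / 2) (δ1 := 1 / 8) (by positivity) (by norm_num)
  rw [hval] at hδ2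
  have hβ0 : 0 < 1 / 2 - 2 * δ := by linarith
  set a : ℝ := (ν + 4 * δ) / (1 / 2 - 2 * δ) with ha
  have ha1 : a < 2 * ν + ε / 2 := by
    have := (abs_lt.1 hδ2).2
    linarith
  filter_upwards [ev_lt 1 one_pos, ev_rpow (β := 1 / (1 / 2 - 2 * δ)) (by positivity)
    (low_aux hτ0 hν hν' S hκ hδ0 hδ1), ev_mul (2 / c0) (a := a) (b := 2 * ν + ε) (by linarith)]
    with u hu h1 h2
  have e1 : (u ^ (1 / (1 / 2 - 2 * δ))) ^ (1 / 2 - 2 * δ) = u := by
    rw [← rpow_mul hu.1.le, one_div_mul_cancel hβ0.ne', rpow_one]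
  have e2 : (u ^ (1 / (1 / 2 - 2 * δ))) ^ (ν + 4 * δ) = u ^ a := by
    rw [← rpow_mul hu.1.le, ha]; congr 1; ring
  have h3 := h1.1
  rw [e1, e2] at h3
  refine le_trans ?_ h3
  calc u ^ (2 * ν + ε) = (c0 / 2) * (2 / c0 * u ^ (2 * ν + ε)) := by field_simp
    _ ≤ (c0 / 2) * u ^ a := by gcongr

lemma F_lower (hτ0 : 0 < τ0) (hν : 0 < ν) (hν' : ν < 1 / 2)
    (S : ∀ τ, 0 < τ → τ < τ0 → Snap (F τ) P h l (H τ) (Λ τ) (D τ) τ (κ τ) c0 C)
    (hκ : Tendsto (fun τ => log (κ τ) / log τ) (𝓝[>] 0) (𝓝 (1 / 2 - ν))) {ε : ℝ} (hε : 0 < ε) :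
    ∀ᶠ s in 𝓝[>] (0 : ℝ), s ^ (2 * ν / (1 - 2 * ν) + ε) ≤ P.real {ω | 0 < l ω ∧ l ω ≤ s} := by
  have hc0 : 0 < c0 := (S (τ0 / 2) (by linarith) (by linarith)).c00
  have hw : 0 < 1 - 2 * ν := by linarith
  have hw2 : 0 < 1 / 2 - ν := by linarith
  have hval : (ν + 4 * 0) / (1 / 2 - ν - 3 * 0) = 2 * ν / (1 - 2 * ν) := by
    field_simp
    ring
  obtain ⟨δ, hδ0, hδ1, hδ2⟩ := small_param
    (φ := fun δ : ℝ => (ν + 4 * δ) / (1 / 2 - ν - 3 * δ))
    (by
      refine ContinuousAt.div (by fun_prop) (by fun_prop) ?_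
      simp; linarith) (ε := ε / 2) (δ1 := min (1 / 8) ((1 / 2 - ν) / 4)) (by positivity)
    (lt_min (by norm_num) (by positivity))
  rw [hval] at hδ2
  have hδ3 : δ < 1 / 8 := hδ1.trans_le (min_le_left _ _)
  have hδ4 : δ < (1 / 2 - ν) / 4 := hδ1.trans_le (min_le_right _ _)
  have hβ0 : 0 < 1 / 2 - ν - 3 * δ := by linarith
  set a : ℝ := (ν + 4 * δ) / (1 / 2 - ν - 3 * δ) with ha
  have ha1 : a < 2 * ν / (1 - 2 * ν) + ε / 2 := by
    have := (abs_lt.1 hδ2).2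
    linarith
  filter_upwards [ev_lt 1 one_pos, ev_rpow (β := 1 / (1 / 2 - ν - 3 * δ)) (by positivity)
    (low_aux hτ0 hν hν' S hκ hδ0 hδ3), ev_mul (2 / c0) (a := a) (b := 2 * ν / (1 - 2 * ν) + ε)
      (by linarith)]
    with u hu h1 h2
  have e1 : (u ^ (1 / (1 / 2 - ν - 3 * δ))) ^ (1 / 2 - ν - 3 * δ) = u := by
    rw [← rpow_mul hu.1.le, one_div_mul_cancel hβ0.ne', rpow_one]
  have e2 : (u ^ (1 / (1 / 2 - ν - 3 * δ))) ^ (ν + 4 * δ) = u ^ a := by
    rw [← rpow_mul hu.1.le, ha]; congr 1; ring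
  have h3 := h1.2
  rw [e1, e2] at h3
  refine le_trans ?_ h3
  calc u ^ (2 * ν / (1 - 2 * ν) + ε) = (c0 / 2) * (2 / c0 * u ^ (2 * ν / (1 - 2 * ν) + ε)) := by
        field_simp
    _ ≤ (c0 / 2) * u ^ a := by gcongr

/-- **Exponents of the gap law and of the force law.** -/
theorem exponents (hτ0 : 0 < τ0) (hν : 0 < ν) (hν' : ν < 1 / 2)
    (S : ∀ τ, 0 < τ → τ < τ0 → Snap (F τ) P h l (H τ) (Λ τ) (D τ) τ (κ τ) c0 C)
    (s3 : ∀ τ' τ, 0 < τ' → τ' < τ → τ < τ0 → κ τ' < κ τ → ∀ᵐ ω ∂P,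
      c1 * √τ' * γ.real (Set.Ici (-(XX (H τ) (Λ τ) (D τ) ω) /
        (D τ * √(κ τ ^ 2 - κ τ' ^ 2)))) ≤ H τ ω)
    (hD : Tendsto (fun τ => log (D τ) / log τ) (𝓝[>] 0) (𝓝 ν))
    (hκ : Tendsto (fun τ => log (κ τ) / log τ) (𝓝[>] 0) (𝓝 (1 / 2 - ν))) :
    Tendsto (fun u => log (P.real {ω | 0 < h ω ∧ h ω ≤ u}) / log u) (𝓝[>] 0) (𝓝 (2 * ν)) ∧
    Tendsto (fun s => log (P.real {ω | 0 < l ω ∧ l ω ≤ s}) / log s) (𝓝[>] 0)
      (𝓝 (2 * ν / (1 - 2 * ν))) := by
  constructor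
  · refine lim_of_bounds fun ε hε => ?_
    filter_upwards [G_lower hτ0 hν hν' S hκ hε, G_upper hτ0 hν S hD hε] with u h1 h2
    exact ⟨h1, h2⟩
  · refine lim_of_bounds fun ε hε => ?_
    filter_upwards [F_lower hτ0 hν hν' S hκ hε, F_upper hτ0 hν hν' S s3 hD hκ hε] with u h1 h2
    exact ⟨h1, h2⟩

end

end Crest.Agent.R146.Exps_778
end

-- ▼ part R146/Kap_778
section

/-!
# The second clock (helper778), row 146

`kap_lim`: `log D(1-τ) / log τ → ν` implies `log √(K D (1-τ)) / log τ → 1/2 - ν`,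
`K D s = ∫_s^1 1/D²`.
-/

set_option autoImplicit false

open MeasureTheory Real Filter Topology Set
open Crest.Agent.R146.LevK_4

namespace Crest.Agent.R146.Exps_778

lemma tendsto_one_sub : Tendsto (fun τ : ℝ => 1 - τ) (𝓝[>] 0) (𝓝[<] 1) := by
  rw [tendsto_nhdsWithin_iff]
  constructor
  · have h : Tendsto (fun τ : ℝ => 1 - τ) (𝓝 0) (𝓝 (1 - 0)) :=
      (continuous_const.sub continuous_id).tendsto 0
    rw [sub_zero] at h
    exact h.mono_left nhdsWithin_le_nhds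
  · filter_upwards [self_mem_nhdsWithin] with τ hτ
    have : (0 : ℝ) < τ := hτ
    simp; exact this

/-- change of variables in `K` -/
lemma K_eq (D : ℝ → ℝ) (τ : ℝ) : K D (1 - τ) = ∫ r in (0 : ℝ)..τ, (D (1 - r))⁻¹ ^ 2 := by
  have h := intervalIntegral.integral_comp_sub_left (a := 0) (b := τ) (fun x => (D x)⁻¹ ^ 2) 1
  rw [sub_zero] at h
  rw [h]; rfl

lemma log_D_flip {D : ℝ → ℝ} {ν : ℝ}
    (h : Tendsto (fun t => log (D t) / log (1 - t)) (𝓝[<] 1) (𝓝 ν)) :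
    Tendsto (fun τ => log (D (1 - τ)) / log τ) (𝓝[>] 0) (𝓝 ν) := by
  have h1 := h.comp tendsto_one_sub
  refine h1.congr fun τ => ?_
  simp only [Function.comp]
  rw [sub_sub_cancel]

lemma kap_lim {D : ℝ → ℝ} (H : Prf D) {ν : ℝ} (hν : ν < 1 / 2)
    (h : Tendsto (fun τ => log (D (1 - τ)) / log τ) (𝓝[>] 0) (𝓝 ν)) :
    Tendsto (fun τ => log (√(K D (1 - τ))) / log τ) (𝓝[>] 0) (𝓝 (1 / 2 - ν)) := by
  refine lim_of_bounds fun ε hε => ?_
  have hw : 0 < 1 - 2 * ν := by linarith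
  set δ : ℝ := min (ε / 2) ((1 - 2 * ν) / 4) with hδ
  have hδ0 : 0 < δ := lt_min (by positivity) (by positivity)
  have hδ1 : δ ≤ ε / 2 := min_le_left _ _
  have hδ2 : δ ≤ (1 - 2 * ν) / 4 := min_le_right _ _
  have hDpos : ∀ᶠ x in 𝓝[>] (0 : ℝ), 0 < D (1 - x) := by
    filter_upwards [ev_lt 1 one_pos] with x hx
    exact H.pos _ ⟨by linarith [hx.2], by linarith [hx.1]⟩
  have hb := bounds_of_lim (f := fun x => D (1 - x)) hDpos h hδ0
  obtain ⟨u0, hu0, hh⟩ : ∃ u0 > 0, ∀ x, 0 < x → x < u0 →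
      x ^ (ν + δ) ≤ D (1 - x) ∧ D (1 - x) ≤ x ^ (ν - δ) := by
    rw [eventually_nhdsWithin_iff] at hb
    obtain ⟨u0, hu0, hh⟩ := Metric.eventually_nhds_iff.1 hb
    refine ⟨u0, hu0, fun u h1 h2 => hh ?_ h1⟩
    rw [Real.dist_eq, sub_zero, abs_of_pos h1]; exact h2
  obtain ⟨M, hM, hi, -⟩ := H.K_bound
  have hi' : IntervalIntegrable (fun r => (D (1 - r))⁻¹ ^ 2) volume 0 1 := by
    have := hi.comp_sub_left 1
    simpa using this.symm
  set p1 : ℝ := -(2 * ν) - 2 * δ with hp1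
  set p2 : ℝ := -(2 * ν) + 2 * δ with hp2
  have hp1' : -1 < p1 := by rw [hp1]; linarith
  have hp2' : -1 < p2 := by rw [hp2]; linarith
  have ub : ∀ τ, 0 < τ → τ < u0 → τ < 1 → K D (1 - τ) ≤ 1 / (p1 + 1) * τ ^ (p1 + 1) := by
    intro τ h1 h2 h3
    rw [K_eq]
    have h4 : ∫ r in (0 : ℝ)..τ, (D (1 - r))⁻¹ ^ 2 ≤ ∫ r in (0 : ℝ)..τ, r ^ p1 := by
      refine intervalIntegral.integral_mono_on_of_le_Ioo h1.le
        (hi'.mono_set (by rw [uIcc_of_le h1.le, uIcc_of_le zero_le_one]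
                          exact Icc_subset_Icc_right h3.le))
        (intervalIntegral.intervalIntegrable_rpow' hp1') fun r hr => ?_
      have h5 := (hh r hr.1 (hr.2.trans h2)).1
      have h6 : 0 < r ^ (ν + δ) := rpow_pos_of_pos hr.1 _
      have h7 : 0 ≤ (D (1 - r))⁻¹ := inv_nonneg.2 (h6.le.trans h5)
      calc (D (1 - r))⁻¹ ^ 2 ≤ (r ^ (ν + δ))⁻¹ ^ 2 := by gcongr
        _ = r ^ p1 := by
          rw [← rpow_neg hr.1.le, ← rpow_natCast, ← rpow_mul hr.1.le, hp1]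
          congr 1; push_cast; ring
    refine h4.trans (le_of_eq ?_)
    rw [integral_rpow (Or.inl hp1'), zero_rpow (by linarith), sub_zero]
    ring
  have lb : ∀ τ, 0 < τ → τ < u0 → τ < 1 → 1 / (p2 + 1) * τ ^ (p2 + 1) ≤ K D (1 - τ) := by
    intro τ h1 h2 h3
    rw [K_eq]
    have h4 : ∫ r in (0 : ℝ)..τ, r ^ p2 ≤ ∫ r in (0 : ℝ)..τ, (D (1 - r))⁻¹ ^ 2 := by
      refine intervalIntegral.integral_mono_on_of_le_Ioo h1.le
        (intervalIntegral.intervalIntegrable_rpow' hp2')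
        (hi'.mono_set (by rw [uIcc_of_le h1.le, uIcc_of_le zero_le_one]
                          exact Icc_subset_Icc_right h3.le)) fun r hr => ?_
      have h5 := (hh r hr.1 (hr.2.trans h2)).2
      have h6 : 0 < D (1 - r) := H.pos _ ⟨by linarith [hr.2], by linarith [hr.1]⟩
      have h7 : 0 ≤ (r ^ (ν - δ))⁻¹ := inv_nonneg.2 (h6.le.trans h5)
      calc r ^ p2 = (r ^ (ν - δ))⁻¹ ^ 2 := by
            rw [← rpow_neg hr.1.le, ← rpow_natCast, ← rpow_mul hr.1.le, hp2]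
            congr 1; push_cast; ring
        _ ≤ (D (1 - r))⁻¹ ^ 2 := by gcongr
    refine le_trans (le_of_eq ?_) h4
    rw [integral_rpow (Or.inl hp2'), zero_rpow (by linarith), sub_zero]
    ring
  have hc1 : 0 < 1 / (p1 + 1) := by have : 0 < p1 + 1 := by linarith
                                    positivity
  have hc2 : 0 < 1 / (p2 + 1) := by have : 0 < p2 + 1 := by linarith
                                    positivity
  filter_upwards [ev_lt u0 hu0, ev_lt 1 one_pos,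
    ev_mul (√(1 / (p1 + 1))) (a := 1 / 2 - ν - ε) (b := (p1 + 1) / 2) (by rw [hp1]; linarith),
    ev_mul (1 / √(1 / (p2 + 1))) (a := (p2 + 1) / 2) (b := 1 / 2 - ν + ε) (by rw [hp2]; linarith)]
    with τ h1 h2 h3 h4
  have hsq : ∀ p : ℝ, √(τ ^ p) = τ ^ (p / 2) := by
    intro p
    rw [sqrt_eq_rpow, ← rpow_mul h1.1.le]; congr 1; ring
  constructor
  · have h5 := sqrt_le_sqrt (lb τ h1.1 h1.2 h2.2)
    rw [sqrt_mul hc2.le, hsq] at h5
    refine le_trans ?_ h5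
    have h6 : 0 < √(1 / (p2 + 1)) := sqrt_pos.2 hc2
    rw [div_mul_eq_mul_div, one_mul, div_le_iff₀ h6] at h4
    linarith
  · have h5 := sqrt_le_sqrt (ub τ h1.1 h1.2 h2.2)
    rw [sqrt_mul hc1.le, hsq] at h5
    exact h5.trans h3

end Crest.Agent.R146.Exps_778
end

-- ▼ part R146/ExpoC_778
section

/-!
# Exponents at a jamming minimiser, in the frame (helper778), row 146

`expo_frame`: LCP at `c = 0`, sub-Gaussian bounds (EMh), (EMl), charge, `log D(t)/log(1-t) → ν`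
⟹ the exponents `2ν` and `2ν/(1-2ν)` of the gap law and of the force law.
-/

set_option autoImplicit false

open Set Filter Topology MeasureTheory ProbabilityTheory Crest.Agent.R146.Hilb
  Crest.Agent.R146.Lev_576 Crest.Agent.R146.Lev2_576 Crest.Agent.R146.JamAsm_576
open Crest.Agent.R146.LevC_4 Crest.Agent.R146.LevK_4 Crest.Agent.R146.LevE_4
  Crest.Agent.R146.SubG_4
open Crest.ProbabilityR.Perceptron
open scoped RealInnerProductSpace NNReal ENNReal

namespace Crest.Agent.R146.Expo_778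
open Crest.Agent.R146.Gauss_778 Crest.Agent.R146.Snap_778 Crest.Agent.R146.Exps_778

section Frame

variable {H : Type*} [NormedAddCommGroup H] [InnerProductSpace ℝ H] [CompleteSpace H] {R : Res H}
  {Ω : Type*} {mΩ : MeasurableSpace Ω} {P : Measure Ω} {B : ℝ≥0 → Ω → ℝ}
  {hBm : ∀ t, Measurable (B t)} {M : Model R P B hBm} {ξ : H} {D : ℝ → ℝ} {x : H}

omit [CompleteSpace H] in
lemma lint_sq (M : Model R P B hBm) {y : H} {f : Ω → ℝ} (hf : f =ᵐ[P] M.J y) (h0 : 0 ≤ᵐ[P] f) :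
    ∫⁻ ω, ENNReal.ofReal (f ω) ^ 2 ∂P = ENNReal.ofReal (‖y‖ ^ 2) := by
  rw [← M.norm_sq, ofReal_integral_eq_lintegral_ofReal (M.memLp y).integrable_sq
    (Eventually.of_forall fun ω => sq_nonneg _)]
  refine lintegral_congr_ae ?_
  filter_upwards [hf, h0] with ω h1 h2
  have h2 : 0 ≤ f ω := h2
  rw [← ENNReal.ofReal_pow h2, h1]

omit [CompleteSpace H] in
lemma lint_mul (M : Model R P B hBm) {y z : H} {f g : Ω → ℝ} (hf : f =ᵐ[P] M.J y)
    (hg : g =ᵐ[P] M.J z) (h0 : 0 ≤ᵐ[P] f) (g0 : 0 ≤ᵐ[P] g) :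
    ∫⁻ ω, ENNReal.ofReal (f ω) * ENNReal.ofReal (g ω) ∂P = ENNReal.ofReal ⟪y, z⟫ := by
  have hnn : 0 ≤ᵐ[P] fun ω => M.J y ω * M.J z ω := by
    filter_upwards [hf, hg, h0, g0] with ω h1 h2 h3 h4
    have h3 : 0 ≤ f ω := h3
    have h4 : 0 ≤ g ω := h4
    show 0 ≤ M.J y ω * M.J z ω
    rw [← h1, ← h2]; exact mul_nonneg h3 h4
  have hint : Integrable (fun ω => M.J y ω * M.J z ω) P := (M.memLp y).integrable_mul (M.memLp z)
  rw [← M.inner, ofReal_integral_eq_lintegral_ofReal hint hnn]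
  refine lintegral_congr_ae ?_
  filter_upwards [hf, hg, h0] with ω h1 h2 h3
  have h3 : 0 ≤ f ω := h3
  rw [← ENNReal.ofReal_mul h3, h1, h2]

/-- the snapshot at time `s` -/
theorem snap_frame [IsProbabilityMeasure P] (hB : IsPreBrownianReal B P) {κ : ℝ}
    (hξ : M.J ξ =ᵐ[P] fun ω => κ + B 1 ω) (L : LCP M ξ 0 D x) (hPrf : Prf D) (hD1 : 0 ≤ D 1)
    {h' l' : Ω → ℝ} (mh : Measurable h') (ml : Measurable l')
    (eh : M.J (ξ + R.Dop D x) =ᵐ[P] h') (el : M.J x =ᵐ[P] l')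
    (EMh : ∀ s ∈ Ico (0 : ℝ) 1, SubG P (Fl hBm s)
      (fun ω => M.J (ξ + R.Dop D x) ω - (P[M.J (ξ + R.Dop D x) | Fl hBm s]) ω) (1 - s))
    (EMl : ∀ s ∈ Ico (0 : ℝ) 1, SubG P (Fl hBm s)
      (fun ω => M.J x ω - (P[M.J x | Fl hBm s]) ω) (K D s))
    {c0 : ℝ} (hc0 : 0 < c0) {s : ℝ} (hs : s ∈ Ico (0 : ℝ) 1)
    (hch : ⟪R.P s (ξ + R.Dop D x), x⟫ = c0 * (1 - s)) :
    Snap (Fl hBm s) P h' l' (P[M.J (ξ + R.Dop D x) | Fl hBm s]) (P[M.J x | Fl hBm s]) (D s)
      (1 - s) (√(K D s)) c0 (max (‖ξ + R.Dop D x‖ ^ 2) (‖x‖ ^ 2)) := by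
  set h : H := ξ + R.Dop D x with hh
  have hle : Fl hBm s ≤ mΩ := (brownianFiltration B hBm).le _
  have hsI : s ∈ Icc (0 : ℝ) 1 := ⟨hs.1, hs.2.le⟩
  have hh0 : 0 ≤ᵐ[P] M.J h := by
    have := L.h_nonneg
    rwa [zero_smul, add_zero] at this
  have hcomp : ∀ᵐ ω ∂P, M.J h ω * M.J x ω = 0 := by
    have := L.ae
    rwa [zero_smul, add_zero] at this
  have eH := (M.cond s hsI h).symm
  have eL := (M.cond s hsI x).symm
  have H0 : 0 ≤ᵐ[P] P[M.J h | Fl hBm s] := condExp_nonneg hh0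
  have L0 : 0 ≤ᵐ[P] P[M.J x | Fl hBm s] := condExp_nonneg L.x_nonneg
  have h0' : 0 ≤ᵐ[P] h' := by
    filter_upwards [hh0, eh] with ω h1 h2
    rw [← h2]; exact h1
  have l0' : 0 ≤ᵐ[P] l' := by
    filter_upwards [L.x_nonneg, el] with ω h1 h2
    rw [← h2]; exact h1
  have hK : 0 < K D s := hPrf.K_pos hs.1 hs.2
  refine
    { prob := inferInstance
      hF := hle
      mh := mh
      ml := ml
      h0 := h0'
      l0 := l0'
      hl := by
        filter_upwards [hcomp, eh, el] with ω h1 h2 h3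
        rw [← h2, ← h3]; exact h1
      mH := stronglyMeasurable_condExp.measurable
      mL := stronglyMeasurable_condExp.measurable
      H0 := H0
      L0 := L0
      iH := fun A hA => by
        rw [← lint_cond M h hh0 s hA]
        refine lintegral_congr_ae ?_
        filter_upwards [ae_restrict_of_ae eh] with ω h1
        rw [h1]
      iL := fun A hA => by
        rw [← lint_cond M x L.x_nonneg s hA]
        refine lintegral_congr_ae ?_
        filter_upwards [ae_restrict_of_ae el] with ω h1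
        rw [h1]
      bh := by
        rw [lint_sq M eh.symm h0']
        exact ENNReal.ofReal_le_ofReal (le_max_left _ _)
      bl := by
        rw [lint_sq M el.symm l0']
        exact ENNReal.ofReal_le_ofReal (le_max_right _ _)
      bH := by
        rw [lint_sq M eH H0]
        apply ENNReal.ofReal_le_ofReal
        refine le_max_of_le_left ?_
        have := R.norm_P_le hs.2.le h
        have h1 := norm_nonneg (R.P s h)
        gcongr
      bL := by
        rw [lint_sq M eL L0]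
        apply ENNReal.ofReal_le_ofReal
        refine le_max_of_le_right ?_
        have := R.norm_P_le hs.2.le x
        have h1 := norm_nonneg (R.P s x)
        gcongr
      sh := fun θ A hA => by
        have h1 := (EMh s hs).congr (Y := fun ω => h' ω - (P[M.J h | Fl hBm s]) ω) (by
          filter_upwards [eh] with ω h1
          rw [h1])
        exact h1 θ A hA
      sl := fun θ A hA => by
        have h1 := (EMl s hs).congr (Y := fun ω => l' ω - (P[M.J x | Fl hBm s]) ω) (by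
          filter_upwards [el] with ω h1
          rw [h1])
        rw [Real.sq_sqrt hK.le]
        exact h1 θ A hA
      s1 := s1_frame hB hξ L hD1 hs
      charge := by
        rw [lint_mul M eH eL H0 L0, ← R.P_inner, hch]
      D0 := hPrf.pos s hs
      τ0 := sub_pos.2 hs.2
      κ0 := Real.sqrt_pos.2 hK
      c00 := hc0
      C0 := le_max_of_le_left (sq_nonneg _) }

/-- **the exponents at a jamming minimiser** -/
theorem expo_frame [IsProbabilityMeasure P] (hB : IsPreBrownianReal B P) {κ : ℝ}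
    (hξ : M.J ξ =ᵐ[P] fun ω => κ + B 1 ω) (L : LCP M ξ 0 D x) (hPrf : Prf D) (hD1 : 0 ≤ D 1)
    (EMh : ∀ s ∈ Ico (0 : ℝ) 1, SubG P (Fl hBm s)
      (fun ω => M.J (ξ + R.Dop D x) ω - (P[M.J (ξ + R.Dop D x) | Fl hBm s]) ω) (1 - s))
    (EMl : ∀ s ∈ Ico (0 : ℝ) 1, SubG P (Fl hBm s)
      (fun ω => M.J x ω - (P[M.J x | Fl hBm s]) ω) (K D s))
    (hch : ∃ c0 : ℝ, 0 < c0 ∧ ∃ t1 ∈ Ico (0 : ℝ) 1, ∀ t ∈ Ico t1 1,
      ⟪R.P t (ξ + R.Dop D x), x⟫ = c0 * (1 - t)) {ν : ℝ} (hν : 0 < ν) (hν' : ν < 1 / 2)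
    (hlog : Tendsto (fun t => Real.log (D t) / Real.log (1 - t)) (𝓝[<] 1) (𝓝 ν)) :
    Tendsto (fun u : ℝ => Real.log (P.real {ω | 0 < M.J (ξ + R.Dop D x) ω ∧
      M.J (ξ + R.Dop D x) ω ≤ u}) / Real.log u) (𝓝[>] 0) (𝓝 (2 * ν)) ∧
    Tendsto (fun s : ℝ => Real.log (P.real {ω | 0 < M.J x ω ∧ M.J x ω ≤ s}) / Real.log s)
      (𝓝[>] 0) (𝓝 (2 * ν / (1 - 2 * ν))) := by
  obtain ⟨c0, hc0, t1, ht1, hch⟩ := hch
  set h : H := ξ + R.Dop D x with hh
  have ah := (M.memLp h).1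
  have al := (M.memLp x).1
  set h' := ah.mk (M.J h) with hh'
  set l' := al.mk (M.J x) with hl'
  have eh : M.J h =ᵐ[P] h' := ah.ae_eq_mk
  have el : M.J x =ᵐ[P] l' := al.ae_eq_mk
  have mh : Measurable h' := ah.stronglyMeasurable_mk.measurable
  have ml : Measurable l' := al.stronglyMeasurable_mk.measurable
  have hτ0 : 0 < 1 - t1 := sub_pos.2 ht1.2
  have S : ∀ τ, 0 < τ → τ < 1 - t1 → Snap (Fl hBm (1 - τ)) P h' l'
      (P[M.J h | Fl hBm (1 - τ)]) (P[M.J x | Fl hBm (1 - τ)]) (D (1 - τ)) τ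
      (√(K D (1 - τ))) c0 (max (‖h‖ ^ 2) (‖x‖ ^ 2)) := by
    intro τ h1 h2
    have hsI : 1 - τ ∈ Ico (0 : ℝ) 1 := ⟨by linarith [ht1.1], by linarith⟩
    have h3 := snap_frame hB hξ L hPrf hD1 mh ml eh el EMh EMl hc0 hsI
      (hch (1 - τ) ⟨by linarith, by linarith⟩)
    rw [sub_sub_cancel] at h3
    exact h3
  have s3 : ∀ τ' τ, 0 < τ' → τ' < τ → τ < 1 - t1 → √(K D (1 - τ')) < √(K D (1 - τ)) →
      ∀ᵐ ω ∂P, c1 * √τ' * γ.real (Set.Ici (-(XX (P[M.J h | Fl hBm (1 - τ)])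
        (P[M.J x | Fl hBm (1 - τ)]) (D (1 - τ)) ω) /
        (D (1 - τ) * √(√(K D (1 - τ)) ^ 2 - √(K D (1 - τ')) ^ 2)))) ≤
        (P[M.J h | Fl hBm (1 - τ)]) ω := by
    intro τ' τ h1 h2 h3 _
    have h4 := s3_frame hB hξ L hPrf hD1 (s := 1 - τ) (s' := 1 - τ') (by linarith [ht1.1])
      (by linarith) (by linarith)
    rw [sub_sub_cancel] at h4
    rw [Real.sq_sqrt (hPrf.K_nonneg (by linarith [ht1.1]) (by linarith)),
      Real.sq_sqrt (hPrf.K_nonneg (by linarith [ht1.1]) (by linarith))]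
    exact h4
  have hD := log_D_flip hlog
  have hκ := kap_lim hPrf hν' hD
  have hfin := exponents (F := fun τ => Fl hBm (1 - τ)) (H := fun τ => P[M.J h | Fl hBm (1 - τ)])
    (Λ := fun τ => P[M.J x | Fl hBm (1 - τ)]) (D := fun τ => D (1 - τ))
    (κ := fun τ => √(K D (1 - τ))) hτ0 hν hν' S s3 hD hκ
  have q1 : ∀ u : ℝ, P.real {ω | 0 < M.J h ω ∧ M.J h ω ≤ u} = P.real {ω | 0 < h' ω ∧ h' ω ≤ u} := by
    intro u
    rw [measureReal_def, measureReal_def]
    congr 1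
    apply measure_congr
    filter_upwards [eh] with ω h1
    apply propext
    change (0 < M.J h ω ∧ M.J h ω ≤ u) ↔ (0 < h' ω ∧ h' ω ≤ u)
    rw [h1]
  have q2 : ∀ u : ℝ, P.real {ω | 0 < M.J x ω ∧ M.J x ω ≤ u} = P.real {ω | 0 < l' ω ∧ l' ω ≤ u} := by
    intro u
    rw [measureReal_def, measureReal_def]
    congr 1
    apply measure_congr
    filter_upwards [el] with ω h1
    apply propext
    change (0 < M.J x ω ∧ M.J x ω ≤ u) ↔ (0 < l' ω ∧ l' ω ≤ u)
    rw [h1]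
  simp only [q1, q2]
  exact hfin

end Frame

end Crest.Agent.R146.Expo_778
end

-- ▼ part R146/Expo_288
section

/-!
Row 146 (helper288, glue only): **EXPO** for every `W`, from `Expo_778.expo_frame` (helper778) and
the sub-Gaussian bounds `Emg_288.emw` (helpers 861, 491, 4).
-/

set_option autoImplicit false

namespace Crest.Agent.R146.Expo_288

open Set Filter Topology MeasureTheory ProbabilityTheory Crest.ProbabilityR.Perceptron
open Crest.Agent.R146.Hilb Crest.Agent.R146.ProfB_540 Crest.Agent.R146.HilbE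
open Crest.Agent.R146.Lev2_576 Crest.Agent.R146.P34_734 Crest.Agent.R146.DualG_256
open Crest.Agent.R146.DualL_256 Crest.Agent.R146.JamIface_776 Crest.Agent.R146.P5A_12
open Crest.Agent.R146.P5Def_12 Crest.Agent.R146.P5Out_576 Crest.Agent.R146.JamAsm_576
open Crest.Agent.R146.SubG_4 Crest.Agent.R146.LevE_4 Crest.Agent.R146.LevK_4
open Crest.Agent.R146.S0205Asm_12
open scoped RealInnerProductSpace NNReal ENNReal

/-- **(EXPO)** the exponents of the gap and force laws at a jamming minimiser -/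
theorem expo (W : BS) : EXPO W := by
  intro αc hαc x D ν hJ hT
  have hprob : IsProbabilityMeasure W.P := inferInstance
  have L := P5Fin_12.lcp_of_jam W hαc hJ
  have hpos := hJ.adm.prof.pos
  have hlow := low_of_log hpos hT.log_D (by have := hT.ν_hi; linarith)
  have hPrf : Prf D := ⟨L.cont, L.anti, hpos, hlow⟩
  obtain ⟨h1, h2⟩ := Emg_288.emw W x D L hpos hJ.adm.prof.one
  have hcont : ContinuousOn (K D) (Icc 0 1) := by
    obtain ⟨M, hM, hi, hb⟩ := hPrf.K_bound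
    have h1 : ContinuousOn (fun t => ∫ r in (0 : ℝ)..t, (D r)⁻¹ ^ 2) (Icc 0 1) := by
      have := intervalIntegral.continuousOn_primitive_interval' (a := 0) hi (by simp)
      rwa [uIcc_of_le zero_le_one] at this
    refine (continuousOn_const (c := K D 0)).sub h1 |>.congr fun t ht => ?_
    have := hPrf.K_sub le_rfl ht.1 ht.2
    change K D t = K D 0 - ∫ r in (0 : ℝ)..t, (D r)⁻¹ ^ 2
    linarith
  have hEl := h2 (fun t => -K D t) (fun s t hs hst ht => by
      have := hPrf.K_dec hs hst ht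
      linarith) hcont.neg
  have hK1 : K D 1 = 0 := by unfold K; simp
  have EMh : ∀ s ∈ Ico (0 : ℝ) 1, SubG W.P (Fl W.meas s)
      (fun ω => (MW W).J (xiW W + (RW W).Dop D x) ω -
        (W.P[(MW W).J (xiW W + (RW W).Dop D x) | Fl W.meas s]) ω) (1 - s) := by
    intro s hs
    have h3 := h1 s 1 hs.1 hs.2.le le_rfl
    refine h3.congr ?_
    filter_upwards [(MW W).cond s ⟨hs.1, hs.2.le⟩ (xiW W + (RW W).Dop D x)] with ω h4
    rw [(RW W).one, h4]
  have EMl : ∀ s ∈ Ico (0 : ℝ) 1, SubG W.P (Fl W.meas s)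
      (fun ω => (MW W).J x ω - (W.P[(MW W).J x | Fl W.meas s]) ω) (K D s) := by
    intro s hs
    have h3 := hEl s 1 hs.1 hs.2.le le_rfl
    have e : (fun t => -K D t) 1 - (fun t => -K D t) s = K D s := by
      beta_reduce; rw [hK1]; ring
    rw [e] at h3
    refine h3.congr ?_
    filter_upwards [(MW W).cond s ⟨hs.1, hs.2.le⟩ x] with ω h4
    rw [(RW W).one, h4]
  exact Expo_778.expo_frame W.br.toIsPreBrownianReal (modelB_xi W.meas W.br 1) L hPrf
    hJ.adm.prof.one EMh EMl hT.charge (by have := hT.ν_lo; linarith)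
    (by have := hT.ν_hi; linarith) hT.log_D

end Crest.Agent.R146.Expo_288
end

-- ▼ part R146/S0205Top_131

/-!
Row 146 (helper131, PM-C): THE LITERAL STATEMENT S0205 from the nodes which are still open.
* `s0205_top` : `S6 W` (= S0206 on `W`), `LOCCORE`, `EXPO`, `PLAW`, `START`, `Bridge`,
  `NOGAP`, `PTMAIN` ⟹ S0205.
* `s0205_num` : `NUMREF` ⟹ S0205 (`S6`, `LOCCORE`, `EXPO`, `PLAW`, `START`, `Bridge`, `NOGAP`,
  `CLOSED`, `WINREF`, `WINA` are theorems).
-/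

set_option autoImplicit false

namespace Crest.Agent.R146.S0205Top_131

open MeasureTheory ProbabilityTheory Filter Crest.ProbabilityR.Perceptron
open Crest.Agent.R146.P34_734 Crest.Agent.R146.P5Def_12 Crest.Agent.R146.S0205Asm_12
open Crest.Agent.R146.TipSeq_791 Crest.Agent.R146.StepAsm_791
open scoped Topology

theorem s0205_top (W : BS) (h6 : S6 W) (hLoc : LocCore_508.LOCCORE) (hEXPO : EXPO W)
    (hlaw : PLAW) (hst : START) (hbr : Bridge (RW W) (KW W) (xiW W)) (hng : NOGAP)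
    (hmain : PTMAIN) (αc : ℝ) (hαc : 0 < αc)
    (hlow : ∀ α : ℝ, 0 < α → α < αc →
      Filter.Tendsto (fun N : ℕ => satProb N α) Filter.atTop (nhds 1))
    (hhigh : ∀ α : ℝ, αc < α →
      Filter.Tendsto (fun N : ℕ => satProb N α) Filter.atTop (nhds 0)) :
    ∃ ε₀ : ℝ, 0 < ε₀ ∧ ε₀ < 1 ∧ ∃ G F : ℝ → ℝ,
      (∀ ε : ℝ, 0 ≤ ε → ε < ε₀ →
        (∀ u : ℝ, 0 < u → ∃ g : ℝ → ℝ,
          (∀ δ : ℝ, 0 < δ → δ < u →
            HasOrderedLimit (fun N β α => gapMean N β α ε δ u) αc (g δ)) ∧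
          Filter.Tendsto g (nhdsWithin 0 (Set.Ioi 0)) (nhds (G u))) ∧
        (∀ s : ℝ, 0 < s → HasOrderedLimit (fun N β α => forceMean N β α ε s) αc (F s))) ∧
      (∃ P : MeasureTheory.Measure ℝ, MeasureTheory.IsProbabilityMeasure P ∧
        P (Set.Iic 0) = 0 ∧ ∫ x, x ∂P = 1 ∧
        ∀ s : ℝ, 0 < s → F s = (P (Set.Iic s)).toReal) ∧
      ∃ γ θ : ℝ, γ = 1 / (2 + θ) ∧ 0.4126930 < γ ∧ γ < 0.4126934 ∧
        0.4231063 < θ ∧ θ < 0.4231088 ∧
        Filter.Tendsto (fun u : ℝ => Real.log (G u) / Real.log u)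
          (nhdsWithin 0 (Set.Ioi 0)) (nhds (1 - γ)) ∧
        Filter.Tendsto (fun s : ℝ => Real.log (F s) / Real.log s)
          (nhdsWithin 0 (Set.Ioi 0)) (nhds (1 + θ)) :=
  Chk05_288.s0205_open4 W h6 hLoc (TipW_131.tipw_of W hlaw hst hbr hng hmain) hEXPO
    αc hαc hlow hhigh

theorem s0205_num (W : BS) (hNR : PtRef_846.NUMREF) (αc : ℝ) (hαc : 0 < αc)
    (hlow : ∀ α : ℝ, 0 < α → α < αc →
      Filter.Tendsto (fun N : ℕ => satProb N α) Filter.atTop (nhds 1))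
    (hhigh : ∀ α : ℝ, αc < α →
      Filter.Tendsto (fun N : ℕ => satProb N α) Filter.atTop (nhds 0)) :
    ∃ ε₀ : ℝ, 0 < ε₀ ∧ ε₀ < 1 ∧ ∃ G F : ℝ → ℝ,
      (∀ ε : ℝ, 0 ≤ ε → ε < ε₀ →
        (∀ u : ℝ, 0 < u → ∃ g : ℝ → ℝ,
          (∀ δ : ℝ, 0 < δ → δ < u →
            HasOrderedLimit (fun N β α => gapMean N β α ε δ u) αc (g δ)) ∧
          Filter.Tendsto g (nhdsWithin 0 (Set.Ioi 0)) (nhds (G u))) ∧
        (∀ s : ℝ, 0 < s → HasOrderedLimit (fun N β α => forceMean N β α ε s) αc (F s))) ∧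
      (∃ P : MeasureTheory.Measure ℝ, MeasureTheory.IsProbabilityMeasure P ∧
        P (Set.Iic 0) = 0 ∧ ∫ x, x ∂P = 1 ∧
        ∀ s : ℝ, 0 < s → F s = (P (Set.Iic s)).toReal) ∧
      ∃ γ θ : ℝ, γ = 1 / (2 + θ) ∧ 0.4126930 < γ ∧ γ < 0.4126934 ∧
        0.4231063 < θ ∧ θ < 0.4231088 ∧
        Filter.Tendsto (fun u : ℝ => Real.log (G u) / Real.log u)
          (nhdsWithin 0 (Set.Ioi 0)) (nhds (1 - γ)) ∧
        Filter.Tendsto (fun s : ℝ => Real.log (F s) / Real.log s)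
          (nhdsWithin 0 (Set.Ioi 0)) (nhds (1 + θ)) :=
  s0205_top W (Fin34_734.s6_of S6Fin_734.s0206 W) LocAsm_508.loccore (Expo_288.expo W) Nodes_131.plaw
    Nodes_131.start (BrAll_256.bridge W) NoGap_546.nogap (Nodes_131.ptmain_of hNR) αc hαc hlow hhigh

end Crest.Agent.R146.S0205Top_131
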