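import Crest.Agent.R146.Stat1_307
import Mathlib
import Crest.Agent.R146.DataP_109
import Crest.Agent.R146.DataM_109
import Crest.Agent.R146.SPair_307

-- ▼ part R146/Stat2_307
section

/-!
# Row 146, stationary family, part 2: the profile `W`

For `0 < ν < 1/2` the equation `W'' + (z + 2ν(W - z)) W' - W = 0` has a solution on the whole line
with `max 0 z ≤ W ≤ (z + sqrt(z²+1/(1-ν)))/2` and `0 ≤ W' ≤ 1`.
-/

namespace Crest.Agent.R146.Stat2_307

open Set Filter Topology Metric Stat1_307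
open scoped NNReal

/-- truncation to `[lo, hi]` -/
noncomputable def clip (lo hi x : ℝ) : ℝ := max lo (min x hi)

lemma clip_of_mem {lo hi x : ℝ} (h : x ∈ Icc lo hi) : clip lo hi x = x := by
  rw [clip, min_eq_left h.2, max_eq_right h.1]

lemma clip_of_le {lo hi x : ℝ} (hlh : lo ≤ hi) (h : x ≤ lo) : clip lo hi x = lo := by
  rw [clip, min_eq_left (h.trans hlh), max_eq_left h]

lemma clip_of_ge {lo hi x : ℝ} (hlh : lo ≤ hi) (h : hi ≤ x) : clip lo hi x = hi := by
  rw [clip, min_eq_right h, max_eq_right hlh]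

lemma clip_mem {lo hi : ℝ} (hlh : lo ≤ hi) (x : ℝ) : clip lo hi x ∈ Icc lo hi :=
  ⟨le_max_left _ _, max_le hlh (min_le_right _ _)⟩

lemma abs_clip_sub_le (lo hi x y : ℝ) : |clip lo hi x - clip lo hi y| ≤ |x - y| := by
  unfold clip
  refine (abs_max_sub_max_le_max _ _ _ _).trans ?_
  refine max_le (by simp) ?_
  refine (abs_min_sub_min_le_max _ _ _ _).trans ?_
  exact max_le le_rfl (by simp)


/-! ## the upper barrier -/

/-- `r = sqrt (z² + 1/(1-ν))` -/
noncomputable def rr (ν z : ℝ) : ℝ := Real.sqrt (z ^ 2 + 1 / (1 - ν))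

/-- upper barrier -/
noncomputable def Wp (ν z : ℝ) : ℝ := (z + rr ν z) / 2

variable {ν : ℝ}

lemma kap_pos (hν : ν < 1 / 2) : 0 < 1 / (1 - ν) := by
  apply one_div_pos.2; linarith

lemma kap_le (hν : ν < 1 / 2) : 1 / (1 - ν) ≤ 2 := by
  rw [div_le_iff₀ (by linarith)]; linarith

lemma rr_sq (hν : ν < 1 / 2) (z : ℝ) : rr ν z ^ 2 = z ^ 2 + 1 / (1 - ν) :=
  Real.sq_sqrt (by have := kap_pos hν; positivity)

lemma rr_pos (hν : ν < 1 / 2) (z : ℝ) : 0 < rr ν z :=
  Real.sqrt_pos.2 (by have := kap_pos hν; positivity)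

lemma abs_lt_rr (hν : ν < 1 / 2) (z : ℝ) : |z| < rr ν z := by
  have h1 := rr_sq hν z
  have h2 := kap_pos hν
  refine abs_lt_of_sq_lt_sq ?_ (rr_pos hν z).le
  rw [h1]; linarith

lemma rr_le (hν : ν < 1 / 2) {z T : ℝ} (h : |z| ≤ T) : rr ν z ≤ T + 2 := by
  have hT : 0 ≤ T := (abs_nonneg z).trans h
  have h1 := rr_sq hν z
  have h2 := kap_le hν
  have h3 : z ^ 2 ≤ T ^ 2 := sq_le_sq.2 (by rwa [abs_of_nonneg hT])
  nlinarith [rr_pos hν z]

lemma hasDerivAt_rr (hν : ν < 1 / 2) (z : ℝ) : HasDerivAt (rr ν) (z / rr ν z) z := by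
  have h1 : HasDerivAt (fun z : ℝ => z ^ 2 + 1 / (1 - ν)) (2 * z) z := by
    have h := (hasDerivAt_pow 2 z).add_const (1 / (1 - ν))
    simpa using h
  have h2 := h1.sqrt (by have := kap_pos hν; positivity)
  have h3 : 2 * z / (2 * Real.sqrt (z ^ 2 + 1 / (1 - ν))) = z / rr ν z := by
    rw [rr, mul_div_mul_left _ _ (by norm_num)]
  rw [h3] at h2
  exact h2

/-- first derivative of the barrier -/
noncomputable def Wp1 (ν z : ℝ) : ℝ := (1 + z / rr ν z) / 2

/-- second derivative of the barrier -/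
noncomputable def Wp2 (ν z : ℝ) : ℝ := 1 / (1 - ν) / (2 * rr ν z ^ 3)

lemma hasDerivAt_Wp (hν : ν < 1 / 2) (z : ℝ) : HasDerivAt (Wp ν) (Wp1 ν z) z := by
  have h := ((hasDerivAt_id z).add (hasDerivAt_rr hν z)).div_const 2
  exact h

lemma hasDerivAt_Wp1 (hν : ν < 1 / 2) (z : ℝ) : HasDerivAt (Wp1 ν) (Wp2 ν z) z := by
  have hr := rr_pos hν z
  have h := (((hasDerivAt_id z).div (hasDerivAt_rr hν z) hr.ne').const_add 1).div_const 2
  refine HasDerivAt.congr_deriv h ?_
  have h1 := rr_sq hν z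
  have h2 : 1 / (1 - ν) = rr ν z ^ 2 - z ^ 2 := by rw [h1]; ring
  simp only [Wp2, id]
  rw [h2]
  field_simp

lemma Wp_pos (hν : ν < 1 / 2) (z : ℝ) : 0 < Wp ν z := by
  have h := abs_lt_rr hν z
  unfold Wp
  linarith [neg_abs_le z]

lemma lt_Wp (hν : ν < 1 / 2) (z : ℝ) : z < Wp ν z := by
  have h := abs_lt_rr hν z
  unfold Wp
  linarith [le_abs_self z]

lemma Wp_lt (hν : ν < 1 / 2) {z T : ℝ} (h : |z| ≤ T) : Wp ν z < T + 2 := by
  have h1 := rr_le hν h
  unfold Wp
  linarith [le_abs_self z]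

lemma Wp1_pos (hν : ν < 1 / 2) (z : ℝ) : 0 < Wp1 ν z := by
  have h := abs_lt_rr hν z
  have hr := rr_pos hν z
  unfold Wp1
  have h1 : -1 < z / rr ν z := by
    rw [lt_div_iff₀ hr]; linarith [neg_abs_le z]
  linarith

lemma Wp1_lt (hν : ν < 1 / 2) (z : ℝ) : Wp1 ν z < 1 := by
  have h := abs_lt_rr hν z
  have hr := rr_pos hν z
  unfold Wp1
  have h1 : z / rr ν z < 1 := by
    rw [div_lt_iff₀ hr]; linarith [le_abs_self z]
  linarith

/-- supersolution property -/
lemma Wp_super (hν : ν < 1 / 2) (z : ℝ) :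
    Wp2 ν z + (z + 2 * ν * (Wp ν z - z)) * Wp1 ν z - Wp ν z ≤ 0 := by
  have hr := rr_pos hν z
  have h1 := rr_sq hν z
  have hk := kap_pos hν
  have hν1 : (1 - ν) ≠ 0 := by linarith
  have e1 : (z + 2 * ν * (Wp ν z - z)) * Wp1 ν z - Wp ν z = - (1 / (2 * rr ν z)) := by
    have h2 : (1 - ν) * (rr ν z ^ 2 - z ^ 2) = 1 := by rw [h1]; field_simp; ring
    unfold Wp Wp1
    field_simp
    linear_combination (-1) * h2
  have e2 : Wp2 ν z ≤ 1 / (2 * rr ν z) := by
    unfold Wp2
    rw [div_le_div_iff₀ (by positivity) (by positivity)]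
    have h3 : 1 / (1 - ν) ≤ rr ν z ^ 2 := by rw [h1]; nlinarith [sq_nonneg z]
    nlinarith
  linarith

end Crest.Agent.R146.Stat2_307
end

-- ▼ part R146/Stat3_307
section

/-!
# Row 146, stationary family, part 3: boundary value problem for the profile

For every `n` a solution of `W'' + (z + 2ν(W - z)) W' - W = 0` on `[-n, n]` with
`max 0 z ≤ W ≤ Wp` and `0 ≤ W' ≤ 1`.
-/

namespace Crest.Agent.R146.Stat3_307

open Set Filter Topology Metric Stat1_307 Stat2_307
open scoped NNReal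

/-- second component of the clipped field -/
noncomputable def gg (ν M t y p : ℝ) : ℝ :=
  -(t + 2 * ν * (clip (-1) M y - t)) * clip 0 1 p + clip (-1) M y

/-- the clipped field -/
noncomputable def FF (ν M R : ℝ) (t : ℝ) (x : ℝ × ℝ) : ℝ × ℝ :=
  (clip (-R) R x.2, gg ν M t x.1 x.2)

variable {ν M R T : ℝ}

lemma gg_abs (hν0 : 0 < ν) (hν : ν < 1 / 2) (hM : 0 ≤ M) {t : ℝ} (ht : |t| ≤ T) (y p : ℝ) :
    |gg ν M t y p| ≤ 2 * (T + M + 1) := by
  have h1 := clip_mem (lo := -1) (hi := M) (by linarith) y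
  have h2 := clip_mem (lo := 0) (hi := 1) (by norm_num) p
  set c := clip (-1) M y
  set q := clip 0 1 p
  have hc : |c| ≤ M + 1 := abs_le.2 ⟨by linarith [h1.1], by linarith [h1.2]⟩
  have hA : |t + 2 * ν * (c - t)| ≤ T + (M + 1) := by
    have e : t + 2 * ν * (c - t) = (1 - 2 * ν) * t + 2 * ν * c := by ring
    rw [e]
    refine (abs_add_le _ _).trans ?_
    rw [abs_mul, abs_mul, abs_of_pos (by linarith : 0 < 1 - 2 * ν),
      abs_of_pos (by linarith : 0 < 2 * ν)]
    have h3 := abs_nonneg t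
    have h4 := abs_nonneg c
    nlinarith
  have hq : |q| ≤ 1 := abs_le.2 ⟨by linarith [h2.1], h2.2⟩
  have : |gg ν M t y p| ≤ |t + 2 * ν * (c - t)| * |q| + |c| := by
    show |-(t + 2 * ν * (c - t)) * q + c| ≤ _
    refine (abs_add_le _ _).trans ?_
    rw [abs_mul, abs_neg]
  have h5 := abs_nonneg (t + 2 * ν * (c - t))
  have h6 : |t + 2 * ν * (c - t)| * |q| ≤ |t + 2 * ν * (c - t)| * 1 :=
    mul_le_mul_of_nonneg_left hq h5
  have h7 := abs_nonneg t
  linarith

lemma gg_lip (hν0 : 0 < ν) (hν : ν < 1 / 2) (hM : 0 ≤ M) {t : ℝ} (ht : |t| ≤ T)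
    (y p y' p' : ℝ) :
    |gg ν M t y p - gg ν M t y' p'| ≤ (T + M + 1) * |p - p'| + 2 * |y - y'| := by
  have h1 := clip_mem (lo := -1) (hi := M) (by linarith) y
  have h2' := clip_mem (lo := 0) (hi := 1) (by norm_num) p'
  have h3 := abs_clip_sub_le (-1) M y y'
  have h4 := abs_clip_sub_le 0 1 p p'
  unfold gg
  set c := clip (-1) M y
  set q := clip 0 1 p
  set c' := clip (-1) M y'
  set q' := clip 0 1 p'
  have hc : |c| ≤ M + 1 := abs_le.2 ⟨by linarith [h1.1], by linarith [h1.2]⟩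
  have hA : |t + 2 * ν * (c - t)| ≤ T + (M + 1) := by
    have e : t + 2 * ν * (c - t) = (1 - 2 * ν) * t + 2 * ν * c := by ring
    rw [e]
    refine (abs_add_le _ _).trans ?_
    rw [abs_mul, abs_mul, abs_of_pos (by linarith : 0 < 1 - 2 * ν),
      abs_of_pos (by linarith : 0 < 2 * ν)]
    have h3 := abs_nonneg t
    have h4 := abs_nonneg c
    nlinarith
  have e : -(t + 2 * ν * (c - t)) * q + c - (-(t + 2 * ν * (c' - t)) * q' + c')
      = -((t + 2 * ν * (c - t)) * (q - q')) + (c - c') * (1 - 2 * ν * q') := by ring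
  rw [e]
  refine (abs_add_le _ _).trans ?_
  rw [abs_neg, abs_mul, abs_mul]
  have h5 : |1 - 2 * ν * q'| ≤ 1 := by
    rw [abs_le]; constructor <;> nlinarith [h2'.1, h2'.2]
  have h6 : |t + 2 * ν * (c - t)| * |q - q'| ≤ (T + M + 1) * |p - p'| := by
    apply mul_le_mul (by linarith) h4 (abs_nonneg _)
    linarith [abs_nonneg t]
  have h7 : |c - c'| * |1 - 2 * ν * q'| ≤ |y - y'| * 1 :=
    mul_le_mul h3 h5 (abs_nonneg _) (abs_nonneg _)
  linarith [abs_nonneg (y - y')]

lemma FF_norm (hν0 : 0 < ν) (hν : ν < 1 / 2) (hM : 0 ≤ M) (hR : 0 ≤ R) {t : ℝ} (ht : |t| ≤ T)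
    (x : ℝ × ℝ) : ‖FF ν M R t x‖ ≤ max R (2 * (T + M + 1)) := by
  unfold FF
  rw [Prod.norm_def]
  apply max_le_max
  · have h := clip_mem (lo := -R) (hi := R) (by linarith) x.2
    rw [Real.norm_eq_abs, abs_le]
    exact ⟨h.1, h.2⟩
  · exact gg_abs hν0 hν hM ht _ _

lemma FF_lip (hν0 : 0 < ν) (hν : ν < 1 / 2) (hM : 0 ≤ M) {t : ℝ} (ht : |t| ≤ T) :
    LipschitzWith (Real.toNNReal (T + M + 3)) (FF ν M R t) := by
  refine LipschitzWith.of_dist_le_mul fun x y => ?_
  have hT : 0 ≤ T := (abs_nonneg t).trans ht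
  rw [Real.coe_toNNReal _ (by linarith), Prod.dist_eq, Prod.dist_eq]
  have h1 : dist x.2 y.2 ≤ max (dist x.1 y.1) (dist x.2 y.2) := le_max_right _ _
  have h2 : dist x.1 y.1 ≤ max (dist x.1 y.1) (dist x.2 y.2) := le_max_left _ _
  set m := max (dist x.1 y.1) (dist x.2 y.2)
  have h0 : 0 ≤ m := dist_nonneg.trans h1
  apply max_le
  · have h3 := abs_clip_sub_le (-R) R x.2 y.2
    rw [Real.dist_eq] at h1 ⊢
    show |clip (-R) R x.2 - clip (-R) R y.2| ≤ _
    nlinarith
  · have h3 := gg_lip (T := T) hν0 hν hM ht x.1 x.2 y.1 y.2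
    rw [Real.dist_eq] at h1 h2 ⊢
    show |gg ν M t x.1 x.2 - gg ν M t y.1 y.2| ≤ _
    nlinarith

lemma FF_cont (x : ℝ × ℝ) : Continuous (fun t => FF ν M R t x) := by
  unfold FF gg
  fun_prop

/-- **BVP for the clipped system** -/
theorem exists_clipped (hν0 : 0 < ν) (hν : ν < 1 / 2) {n : ℝ} (hn : 1 ≤ n) {M : ℝ} (hM : 0 ≤ M) :
    ∃ y p : ℝ → ℝ, y (-n) = 0 ∧ y n = n ∧
      (∀ t ∈ Icc (-n) n, HasDerivAt y (p t) t) ∧
      (∀ t ∈ Icc (-n) n, HasDerivAt p (gg ν M t (y t) (p t)) t) := by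
  set T := n + 1 with hT
  set B := 2 * (T + M + 1) with hB
  have hB0 : 0 ≤ B := by positivity
  set S := 2 * n * B + 1 with hS
  set R := S + 2 * n * B + 1 with hR
  have hR0 : 0 ≤ R := by positivity
  have hTabs : ∀ t ∈ Icc (-T) T, |t| ≤ T := fun t ht => abs_le.2 ⟨ht.1, ht.2⟩
  have hnT : -n ∈ Icc (-T) T := ⟨by linarith, by linarith⟩
  have hex : ∀ s : ℝ, ∃ x : ℝ → ℝ × ℝ, x (-n) = (0, s) ∧
      ∀ t ∈ Ioo (-T) T, HasDerivAt x (FF ν M R t (x t)) t := fun s =>
    exists_sol hnT (fun t ht => FF_lip hν0 hν hM (hTabs t ht))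
      (fun x => (FF_cont x).continuousOn)
      (fun t ht x => FF_norm hν0 hν hM hR0 (hTabs t ht) x) (0, s)
  choose X hX0 hX using hex
  have hsub : Icc (-n) n ⊆ Ioo (-T) T := fun t ht => ⟨by linarith [ht.1], by linarith [ht.2]⟩
  have hnn : n ∈ Icc (-n) n := ⟨by linarith, le_rfl⟩
  -- continuity in the slope
  have hcont : Continuous fun s => (X s n).1 := by
    have hl : LipschitzWith (Real.toNNReal (Real.exp ((Real.toNNReal (T + M + 3) : ℝ) * (n - -n))))
        (fun s => (X s n).1) := by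
      refine LipschitzWith.of_dist_le_mul fun s s' => ?_
      have h := dist_le_right (f := FF ν M R) (s := fun _ => univ) (a := -n) (b := n)
        (K := Real.toNNReal (T + M + 3)) (y := X s) (z := X s')
        (fun t ht => (FF_lip hν0 hν hM (hTabs t (Ioo_subset_Icc_self (hsub ht)))).lipschitzOnWith)
        (fun t ht => ⟨hX s t (hsub ht), trivial⟩) (fun t ht => ⟨hX s' t (hsub ht), trivial⟩) n hnn
      rw [hX0, hX0] at h
      have h1 : dist ((0 : ℝ), s) ((0 : ℝ), s') = dist s s' := by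
        rw [Prod.dist_eq]; simp
      rw [h1] at h
      rw [Real.coe_toNNReal _ (Real.exp_nonneg _), mul_comm]
      refine le_trans ?_ h
      rw [Prod.dist_eq]
      exact le_max_left _ _
    exact hl.continuous
  -- bound on the slope
  have hd1 : ∀ s, ∀ t ∈ Icc (-n) n, HasDerivAt (fun t => (X s t).1) (clip (-R) R (X s t).2) t :=
    fun s t ht => (hX s t (hsub ht)).fst
  have hd2 : ∀ s, ∀ t ∈ Icc (-n) n, HasDerivAt (fun t => (X s t).2)
      (gg ν M t (X s t).1 (X s t).2) t :=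
    fun s t ht => (hX s t (hsub ht)).snd
  have hslope : ∀ s, ∀ t ∈ Icc (-n) n, |(X s t).2 - s| ≤ 2 * n * B := by
    intro s t ht
    have h1 := (convex_Icc (-n) n).norm_image_sub_le_of_norm_hasDerivWithin_le
      (f := fun t => (X s t).2) (C := B)
      (fun t ht => (hd2 s t ht).hasDerivWithinAt)
      (fun t ht => gg_abs hν0 hν hM (hTabs t (Ioo_subset_Icc_self (hsub ht))) _ _)
      (⟨le_rfl, by linarith⟩ : -n ∈ Icc (-n) n) ht
    rw [hX0, Real.norm_eq_abs, Real.norm_eq_abs] at h1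
    have h2 : |t - -n| ≤ 2 * n := by
      rw [abs_of_nonneg (by linarith [ht.1])]; linarith [ht.2]
    nlinarith
  have hclip : ∀ s ∈ Icc (-S) S, ∀ t ∈ Icc (-n) n, clip (-R) R (X s t).2 = (X s t).2 := by
    intro s hs t ht
    have h1 := abs_le.1 (hslope s t ht)
    exact clip_of_mem ⟨by linarith [hs.1, h1.1], by linarith [hs.2, h1.2]⟩
  have hIn : Icc (-n) n ∈ 𝓝[>] (-n) := Icc_mem_nhdsGT (by linarith)
  -- value at the two ends of the slope interval
  have hSS : -S ≤ S := by have : 0 ≤ S := by positivity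
                          linarith
  have hhigh : n ≤ (X S n).1 := by
    have hm : MonotoneOn (fun t => (X S t).1 - t) (Icc (-n) n) := by
      apply monotoneOn_of_deriv_nonneg (convex_Icc _ _)
      · exact fun t ht => ((hd1 S t ht).sub (hasDerivAt_id t)).continuousAt.continuousWithinAt
      · intro t ht
        rw [interior_Icc] at ht
        exact ((hd1 S t ⟨ht.1.le, ht.2.le⟩).sub
          (hasDerivAt_id t)).differentiableAt.differentiableWithinAt
      · intro t ht
        rw [interior_Icc] at ht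
        have ht' : t ∈ Icc (-n) n := ⟨ht.1.le, ht.2.le⟩
        have h := (hd1 S t ht').sub (hasDerivAt_id t)
        have e : deriv (fun t => (X S t).1 - t) t = clip (-R) R (X S t).2 - 1 := h.deriv
        rw [e, hclip S ⟨hSS, le_rfl⟩ t ht']
        have h1 := abs_le.1 (hslope S t ht')
        linarith
    have h := hm ⟨le_rfl, by linarith⟩ hnn (by linarith : -n ≤ n)
    have h' : (X S (-n)).1 - (-n) ≤ (X S n).1 - n := h
    rw [hX0] at h'
    simp only at h'
    linarith
  have hlow : (X (-S) n).1 ≤ n := by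
    have hm : AntitoneOn (fun t => (X (-S) t).1) (Icc (-n) n) := by
      apply antitoneOn_of_deriv_nonpos (convex_Icc _ _)
      · exact fun t ht => (hd1 (-S) t ht).continuousAt.continuousWithinAt
      · intro t ht
        rw [interior_Icc] at ht
        exact (hd1 (-S) t ⟨ht.1.le, ht.2.le⟩).differentiableAt.differentiableWithinAt
      · intro t ht
        rw [interior_Icc] at ht
        have ht' : t ∈ Icc (-n) n := ⟨ht.1.le, ht.2.le⟩
        rw [(hd1 (-S) t ht').deriv, hclip (-S) ⟨le_rfl, hSS⟩ t ht']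
        have h1 := abs_le.1 (hslope (-S) t ht')
        linarith
    have h := hm ⟨le_rfl, by linarith⟩ hnn (by linarith : -n ≤ n)
    have h' : (X (-S) n).1 ≤ (X (-S) (-n)).1 := h
    rw [hX0] at h'
    simp only at h'
    linarith
  obtain ⟨s, hs, hsn⟩ := intermediate_value_Icc hSS hcont.continuousOn ⟨hlow, hhigh⟩
  refine ⟨fun t => (X s t).1, fun t => (X s t).2, ?_, hsn, fun t ht => ?_, fun t ht => ?_⟩
  · show (X s (-n)).1 = 0
    rw [hX0]
  · have h := hd1 s t ht
    rw [hclip s hs t ht] at h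
    exact h
  · exact hd2 s t ht

/-- value of the clipped field when no clip is active -/
lemma gg_eq {t y p : ℝ} (hy : y ∈ Icc (-1) M) (hp : p ∈ Icc (0 : ℝ) 1) :
    gg ν M t y p = -(t + 2 * ν * (y - t)) * p + y := by
  rw [gg, clip_of_mem hy, clip_of_mem hp]

/-- **BVP for the profile** -/
theorem exists_bvp (hν0 : 0 < ν) (hν : ν < 1 / 2) {n : ℝ} (hn : 1 ≤ n) :
    ∃ y p : ℝ → ℝ, ∀ t ∈ Icc (-n) n, HasDerivAt y (p t) t ∧
      HasDerivAt p (-(t + 2 * ν * (y t - t)) * p t + y t) t ∧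
      0 ≤ y t ∧ t ≤ y t ∧ y t ≤ Wp ν t ∧ 0 ≤ p t ∧ p t ≤ 1 := by
  obtain ⟨y, p, hyl, hyr, hy, hp⟩ := exists_clipped hν0 hν hn (M := n + 2) (by linarith)
  set M := n + 2 with hM
  have hcy : ContinuousOn y (Icc (-n) n) := fun t ht => (hy t ht).continuousAt.continuousWithinAt
  have hcp : ContinuousOn p (Icc (-n) n) := fun t ht => (hp t ht).continuousAt.continuousWithinAt
  have hne : (Icc (-n) n).Nonempty := ⟨0, by linarith, by linarith⟩
  have hln : -n ∈ Icc (-n) n := ⟨le_rfl, by linarith⟩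
  have hrn : n ∈ Icc (-n) n := ⟨by linarith, le_rfl⟩
  -- (a) `0 ≤ y`
  have ha : ∀ t ∈ Icc (-n) n, 0 ≤ y t := by
    obtain ⟨x, hx, hmin⟩ := isCompact_Icc.exists_isMinOn hne hcy
    have hx0 : 0 ≤ y x := by
      by_contra hcon
      push Not at hcon
      have h1 : x ≠ -n := by rintro rfl; linarith
      have h2 : x ≠ n := by rintro rfl; linarith
      have hx' : x ∈ Ioo (-n) n := ⟨lt_of_le_of_ne hx.1 (Ne.symm h1), lt_of_le_of_ne hx.2 h2⟩
      obtain ⟨h3, h4⟩ := second_deriv_nonneg hx' (fun t ht => hy t (Ioo_subset_Icc_self ht))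
        (hp x hx) (fun t ht => hmin (Ioo_subset_Icc_self ht))
      rw [gg, h3, clip_of_le (by norm_num) le_rfl] at h4
      have h5 : clip (-1) M (y x) < 0 := by
        unfold clip
        exact max_lt (by norm_num) ((min_le_left _ _).trans_lt hcon)
      linarith
    exact fun t ht => hx0.trans (hmin ht)
  -- (b) `z ≤ y`
  have hb : ∀ t ∈ Icc (-n) n, t ≤ y t := by
    obtain ⟨x, hx, hmin⟩ := isCompact_Icc.exists_isMinOn hne (hcy.sub continuousOn_id)
    have hmin' : ∀ t ∈ Icc (-n) n, y x - x ≤ y t - t := fun t ht => hmin ht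
    have hx0 : 0 ≤ y x - x := by
      by_contra hcon
      push Not at hcon
      have h1 : x ≠ -n := by rintro rfl; linarith
      have h2 : x ≠ n := by rintro rfl; linarith
      have hx' : x ∈ Ioo (-n) n := ⟨lt_of_le_of_ne hx.1 (Ne.symm h1), lt_of_le_of_ne hx.2 h2⟩
      obtain ⟨h3, h4⟩ := second_deriv_nonneg (g := fun t => y t - t) (g1 := fun t => p t - 1) hx'
        (fun t ht => (hy t (Ioo_subset_Icc_self ht)).sub (hasDerivAt_id t))
        ((hp x hx).sub_const 1) (fun t ht => hmin' t (Ioo_subset_Icc_self ht))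
      have h3' : p x = 1 := by linarith
      have hyx := ha x hx
      rw [gg_eq (by constructor <;> linarith [hx.2]) (by rw [h3']; constructor <;> norm_num),
        h3'] at h4
      nlinarith
    intro t ht
    have := hmin' t ht
    linarith
  -- (c) `y ≤ Wp`
  have hcW : ContinuousOn (fun t => y t - Wp ν t) (Icc (-n) n) :=
    hcy.sub (fun t _ => (hasDerivAt_Wp hν t).continuousAt.continuousWithinAt)
  have hWM : ∀ t ∈ Icc (-n) n, Wp ν t < M := fun t ht => Wp_lt hν (abs_le.2 ⟨ht.1, ht.2⟩)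
  have hc : ∀ t ∈ Icc (-n) n, y t ≤ Wp ν t := by
    obtain ⟨x, hx, hmax⟩ := isCompact_Icc.exists_isMaxOn hne hcW
    have hmax' : ∀ t ∈ Icc (-n) n, y t - Wp ν t ≤ y x - Wp ν x := fun t ht => hmax ht
    have hx0 : y x - Wp ν x ≤ 0 := by
      by_contra hcon
      push Not at hcon
      have h1 : x ≠ -n := by
        rintro rfl
        have := Wp_pos hν (-n)
        linarith
      have h2 : x ≠ n := by
        rintro rfl
        have := lt_Wp hν x
        linarith
      have hx' : x ∈ Ioo (-n) n := ⟨lt_of_le_of_ne hx.1 (Ne.symm h1), lt_of_le_of_ne hx.2 h2⟩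
      obtain ⟨h3, h4⟩ := second_deriv_nonpos (g := fun t => y t - Wp ν t)
        (g1 := fun t => p t - Wp1 ν t) hx'
        (fun t ht => (hy t (Ioo_subset_Icc_self ht)).sub (hasDerivAt_Wp hν t))
        ((hp x hx).sub (hasDerivAt_Wp1 hν x)) (fun t ht => hmax' t (Ioo_subset_Icc_self ht))
      have h3' : p x = Wp1 ν x := by linarith
      have hq0 := Wp1_pos hν x
      have hq1 := Wp1_lt hν x
      rw [gg, h3', clip_of_mem ⟨hq0.le, hq1.le⟩] at h4
      have hsup := Wp_super hν x
      have hcl : Wp ν x < clip (-1) M (y x) := by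
        unfold clip
        exact lt_max_of_lt_right (lt_min (by linarith) (hWM x hx))
      set c := clip (-1) M (y x)
      have : (c - Wp ν x) * (1 - 2 * ν * Wp1 ν x) ≤ 0 := by
        have e : (c - Wp ν x) * (1 - 2 * ν * Wp1 ν x) =
          (-(x + 2 * ν * (c - x)) * Wp1 ν x + c - Wp2 ν x) +
          (Wp2 ν x + (x + 2 * ν * (Wp ν x - x)) * Wp1 ν x - Wp ν x) := by ring
        rw [e]; linarith
      have h6 : 0 < (c - Wp ν x) * (1 - 2 * ν * Wp1 ν x) :=
        mul_pos (by linarith) (by nlinarith)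
      linarith
    intro t ht
    have := hmax' t ht
    linarith
  have hmem : ∀ t ∈ Icc (-n) n, y t ∈ Icc (-1) M := fun t ht =>
    ⟨by linarith [ha t ht], by linarith [hc t ht, hWM t ht]⟩
  have hlt : -n < n := by linarith
  -- (d) `p ≤ 1`
  have hd : ∀ t ∈ Icc (-n) n, p t ≤ 1 := by
    have hpn : p n ≤ 1 := by
      have h := deriv_nonneg_left (g := fun t => -(y t - t)) (x := n) (a := -n) hlt
        ((hy n hrn).sub (hasDerivAt_id n)).neg
        (fun t ht => by have := hb t ht; rw [hyr]; linarith)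
      linarith
    have key : ∀ ε > 0, ∀ t ∈ Icc (-n) n, p t ≤ 1 + ε * (n - t) := by
      intro ε hε
      have hcP : ContinuousOn (fun t => p t + ε * (t - n)) (Icc (-n) n) := by fun_prop
      obtain ⟨x, hx, hmax⟩ := isCompact_Icc.exists_isMaxOn hne hcP
      have hmax' : ∀ t ∈ Icc (-n) n, p t + ε * (t - n) ≤ p x + ε * (x - n) :=
        fun t ht => hmax ht
      have hx1 : p x + ε * (x - n) ≤ 1 := by
        rcases eq_or_lt_of_le hx.2 with h | h
        · rw [h]; linarith
        · by_contra hcon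
          push Not at hcon
          have hpx : 1 < p x := by nlinarith
          have hder : HasDerivAt (fun t => p t + ε * (t - n)) (gg ν M x (y x) (p x) + ε * 1) x :=
            (hp x hx).add (((hasDerivAt_id x).sub_const n).const_mul ε)
          have h1 := deriv_nonpos_right h hder
            (fun t ht => hmax' t ⟨by linarith [hx.1, ht.1], ht.2⟩)
          rw [gg, clip_of_ge (by norm_num) hpx.le, clip_of_mem (hmem x hx)] at h1
          have h2 := hb x hx
          nlinarith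
      intro t ht
      have := hmax' t ht
      linarith
    intro t ht
    apply le_of_forall_pos_le_add
    intro ε hε
    have h1 := key (ε / (2 * n)) (by positivity) t ht
    have h2 : ε / (2 * n) * (n - t) ≤ ε := by
      rw [div_mul_eq_mul_div, div_le_iff₀ (by linarith)]
      nlinarith [ht.1]
    linarith
  -- (e) `0 ≤ p`
  have he : ∀ t ∈ Icc (-n) n, 0 ≤ p t := by
    have hpn : 0 ≤ p (-n) := by
      have h := deriv_nonpos_right (g := fun t => -(y t)) (x := -n) (b := n) hlt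
        (hy (-n) hln).neg
        (fun t ht => by have := ha t ht; rw [hyl]; linarith)
      linarith
    have key : ∀ ε > 0, ∀ t ∈ Icc (-n) n, -p t ≤ ε * (t + n) := by
      intro ε hε
      have hcP : ContinuousOn (fun t => -p t - ε * (t + n)) (Icc (-n) n) := by fun_prop
      obtain ⟨x, hx, hmax⟩ := isCompact_Icc.exists_isMaxOn hne hcP
      have hmax' : ∀ t ∈ Icc (-n) n, -p t - ε * (t + n) ≤ -p x - ε * (x + n) :=
        fun t ht => hmax ht
      have hx1 : -p x - ε * (x + n) ≤ 0 := by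
        rcases eq_or_lt_of_le hx.1 with h | h
        · rw [← h]; linarith
        · by_contra hcon
          push Not at hcon
          have hpx : p x < 0 := by nlinarith
          have hder : HasDerivAt (fun t => -p t - ε * (t + n))
              (-gg ν M x (y x) (p x) - ε * 1) x :=
            (hp x hx).neg.sub (((hasDerivAt_id x).add_const n).const_mul ε)
          have h1 := deriv_nonneg_left h hder
            (fun t ht => hmax' t ⟨ht.1, by linarith [hx.2, ht.2]⟩)
          rw [gg, clip_of_le (by norm_num) hpx.le, clip_of_mem (hmem x hx)] at h1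
          have h2 := ha x hx
          nlinarith
      intro t ht
      have := hmax' t ht
      linarith
    intro t ht
    have h3 : -p t ≤ 0 := by
      apply le_of_forall_pos_le_add
      intro ε hε
      have h1 := key (ε / (2 * n)) (by positivity) t ht
      have h2 : ε / (2 * n) * (t + n) ≤ ε := by
        rw [div_mul_eq_mul_div, div_le_iff₀ (by linarith)]
        nlinarith [ht.2]
      linarith
    linarith
  refine ⟨y, p, fun t ht => ⟨hy t ht, ?_, ha t ht, hb t ht, hc t ht, he t ht, hd t ht⟩⟩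
  have h := hp t ht
  rw [gg_eq (hmem t ht) ⟨he t ht, hd t ht⟩] at h
  exact h

/-! ## the profile on the whole line -/

/-- the true field -/
noncomputable def GG (ν : ℝ) (t : ℝ) (x : ℝ × ℝ) : ℝ × ℝ :=
  (x.2, -(t + 2 * ν * (x.1 - t)) * x.2 + x.1)

/-- **Existence of the profile** for every constant `0 < ν < 1/2`. -/
theorem exists_profile (hν0 : 0 < ν) (hν : ν < 1 / 2) :
    ∃ W W1 : ℝ → ℝ, ∀ t, HasDerivAt W (W1 t) t ∧
      HasDerivAt W1 (-(t + 2 * ν * (W t - t)) * W1 t + W t) t ∧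
      0 ≤ W t ∧ t ≤ W t ∧ W t ≤ Wp ν t ∧ 0 ≤ W1 t ∧ W1 t ≤ 1 := by
  have hex : ∀ n : ℕ, ∃ y p : ℝ → ℝ, ∀ t ∈ Icc (-((n : ℝ) + 1)) (n + 1), HasDerivAt y (p t) t ∧
      HasDerivAt p (-(t + 2 * ν * (y t - t)) * p t + y t) t ∧
      0 ≤ y t ∧ t ≤ y t ∧ y t ≤ Wp ν t ∧ 0 ≤ p t ∧ p t ≤ 1 := fun n =>
    exists_bvp hν0 hν (by linarith [(Nat.cast_nonneg n : (0 : ℝ) ≤ n)])
  choose y p hyp using hex
  set s : ℝ → Set (ℝ × ℝ) := fun t => Icc (max 0 t) (Wp ν t) ×ˢ Icc 0 1 with hs
  have hlim := exists_limit (f := GG ν) (s := s) (y := fun n t => (y n t, p n t))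
    (fun t => isClosed_Icc.prod isClosed_Icc) (isCompact_Icc.prod isCompact_Icc) ?_ ?_
  · obtain ⟨w, hw, -⟩ := hlim
    refine ⟨fun t => (w t).1, fun t => (w t).2, fun t => ?_⟩
    obtain ⟨h1, h2⟩ := hw t
    have h3 := (mem_prod.1 h2).1
    have h4 := (mem_prod.1 h2).2
    exact ⟨h1.fst, h1.snd, (le_max_left _ _).trans h3.1, (le_max_right _ _).trans h3.1,
      h3.2, h4.1, h4.2⟩
  · intro N
    refine ⟨Real.toNNReal (2 * N + 4), fun t ht => ?_⟩
    refine LipschitzOnWith.of_dist_le_mul fun x hx x' hx' => ?_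
    rw [Real.coe_toNNReal _ (by positivity), Prod.dist_eq, Prod.dist_eq]
    have h1 : dist x.2 x'.2 ≤ max (dist x.1 x'.1) (dist x.2 x'.2) := le_max_right _ _
    have h2 : dist x.1 x'.1 ≤ max (dist x.1 x'.1) (dist x.2 x'.2) := le_max_left _ _
    set m := max (dist x.1 x'.1) (dist x.2 x'.2)
    have h0 : 0 ≤ m := dist_nonneg.trans h1
    have htN : |t| ≤ N := abs_le.2 ⟨ht.1.le, ht.2.le⟩
    have hx1 := (mem_prod.1 hx).1
    have hx2 := (mem_prod.1 hx').2
    have hWN := Wp_lt hν htN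
    have hN : (0 : ℝ) ≤ N := Nat.cast_nonneg N
    rw [Real.dist_eq] at h1 h2
    apply max_le
    · show dist x.2 x'.2 ≤ _
      rw [Real.dist_eq]
      nlinarith
    · show dist (-(t + 2 * ν * (x.1 - t)) * x.2 + x.1) (-(t + 2 * ν * (x'.1 - t)) * x'.2 + x'.1) ≤ _
      rw [Real.dist_eq]
      have e : -(t + 2 * ν * (x.1 - t)) * x.2 + x.1 - (-(t + 2 * ν * (x'.1 - t)) * x'.2 + x'.1)
        = -((t + 2 * ν * (x.1 - t)) * (x.2 - x'.2)) + (x.1 - x'.1) * (1 - 2 * ν * x'.2) := by
        ring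
      rw [e]
      refine (abs_add_le _ _).trans ?_
      rw [abs_neg, abs_mul, abs_mul]
      have h5 : |1 - 2 * ν * x'.2| ≤ 1 := by
        rw [abs_le]; constructor <;> nlinarith [hx2.1, hx2.2]
      have hA : |t + 2 * ν * (x.1 - t)| ≤ 2 * N + 2 := by
        have e : t + 2 * ν * (x.1 - t) = (1 - 2 * ν) * t + 2 * ν * x.1 := by ring
        have hx0 : 0 ≤ x.1 := (le_max_left _ _).trans hx1.1
        have hxx : x.1 ≤ N + 2 := by linarith [hx1.2]
        rw [e]
        refine (abs_add_le _ _).trans ?_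
        rw [abs_mul, abs_mul, abs_of_pos (by linarith : 0 < 1 - 2 * ν),
          abs_of_pos (by linarith : 0 < 2 * ν), abs_of_nonneg hx0]
        have h3 := abs_nonneg t
        nlinarith
      have h6 : |t + 2 * ν * (x.1 - t)| * |x.2 - x'.2| ≤ (2 * N + 2) * m :=
        mul_le_mul hA h1 (abs_nonneg _) (by positivity)
      have h7 : |x.1 - x'.1| * |1 - 2 * ν * x'.2| ≤ m * 1 :=
        mul_le_mul h2 h5 (abs_nonneg _) h0
      nlinarith
  · intro n t ht
    obtain ⟨h1, h2, h3, h4, h5, h6, h7⟩ := hyp n t ⟨by linarith [ht.1], by linarith [ht.2]⟩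
    exact ⟨h1.prodMk h2, mem_prod.2 ⟨⟨max_le h3 h4, h5⟩, h6, h7⟩⟩

end Crest.Agent.R146.Stat3_307
end

-- ▼ part R146/Stat4_307
section

/-!
# Row 146, stationary family, part 4: properties of the profile

Strict inequalities `0 < W' < 1`, `W'' > 0`, a bound for `W''`, tails.
-/

namespace Crest.Agent.R146.Stat4_307

open Set Filter Topology Metric Stat1_307 Stat2_307 Stat3_307
open scoped NNReal

/-- A profile: global solution of `W'' + (z+2ν(W-z)) W' - W = 0` between the barriers. -/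
structure IsProf (ν : ℝ) (W W1 : ℝ → ℝ) : Prop where
  d0 : ∀ t, HasDerivAt W (W1 t) t
  d1 : ∀ t, HasDerivAt W1 (-(t + 2 * ν * (W t - t)) * W1 t + W t) t
  nonneg : ∀ t, 0 ≤ W t
  le_W : ∀ t, t ≤ W t
  W_le : ∀ t, W t ≤ Wp ν t
  p_nonneg : ∀ t, 0 ≤ W1 t
  p_le : ∀ t, W1 t ≤ 1

theorem exists_isProf {ν : ℝ} (hν0 : 0 < ν) (hν : ν < 1 / 2) : ∃ W W1, IsProf ν W W1 := by
  obtain ⟨W, W1, h⟩ := exists_profile hν0 hν
  exact ⟨W, W1, fun t => (h t).1, fun t => (h t).2.1, fun t => (h t).2.2.1,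
    fun t => (h t).2.2.2.1, fun t => (h t).2.2.2.2.1, fun t => (h t).2.2.2.2.2.1,
    fun t => (h t).2.2.2.2.2.2⟩

/-- drift -/
noncomputable def Af (ν : ℝ) (W : ℝ → ℝ) (t : ℝ) : ℝ := t + 2 * ν * (W t - t)

/-- derivative of the drift -/
noncomputable def A1f (ν : ℝ) (W1 : ℝ → ℝ) (t : ℝ) : ℝ := 1 + 2 * ν * (W1 t - 1)

/-- second derivative of the profile -/
noncomputable def W2f (ν : ℝ) (W W1 : ℝ → ℝ) (t : ℝ) : ℝ := -(Af ν W t) * W1 t + W t

/-- third derivative of the profile -/
noncomputable def W3f (ν : ℝ) (W W1 : ℝ → ℝ) (t : ℝ) : ℝ :=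
  -(Af ν W t) * W2f ν W W1 t + 2 * ν * (1 - W1 t) * W1 t

namespace IsProf

variable {ν : ℝ} {W W1 : ℝ → ℝ}

lemma hA (h : IsProf ν W W1) (t : ℝ) : HasDerivAt (Af ν W) (A1f ν W1 t) t := by
  have h1 := (hasDerivAt_id t).add (((h.d0 t).sub (hasDerivAt_id t)).const_mul (2 * ν))
  exact h1

lemma hW1 (h : IsProf ν W W1) (t : ℝ) : HasDerivAt W1 (W2f ν W W1 t) t := h.d1 t

lemma hA1 (h : IsProf ν W W1) (t : ℝ) : HasDerivAt (A1f ν W1) (2 * ν * W2f ν W W1 t) t := by
  have h1 := (((h.hW1 t).sub_const 1).const_mul (2 * ν)).const_add 1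
  exact h1

lemma hW2 (h : IsProf ν W W1) (t : ℝ) : HasDerivAt (W2f ν W W1) (W3f ν W W1 t) t := by
  have h1 := ((h.hA t).neg.mul (h.hW1 t)).add (h.d0 t)
  refine h1.congr_deriv ?_
  simp only [W3f, A1f, Pi.neg_apply]
  ring

lemma cW (h : IsProf ν W W1) : Continuous W :=
  continuous_iff_continuousAt.2 fun t => (h.d0 t).continuousAt

lemma cW1 (h : IsProf ν W W1) : Continuous W1 :=
  continuous_iff_continuousAt.2 fun t => (h.d1 t).continuousAt

lemma cA (h : IsProf ν W W1) : Continuous (Af ν W) :=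
  continuous_iff_continuousAt.2 fun t => (h.hA t).continuousAt

lemma cA1 (h : IsProf ν W W1) : Continuous (A1f ν W1) :=
  continuous_iff_continuousAt.2 fun t => (h.hA1 t).continuousAt

lemma cW2 (h : IsProf ν W W1) : Continuous (W2f ν W W1) :=
  continuous_iff_continuousAt.2 fun t => (h.hW2 t).continuousAt

/-- Uniqueness of the Cauchy problem. -/
theorem eq_of_eq {V V1 : ℝ → ℝ} (hν0 : 0 < ν) (hν : ν < 1 / 2) (h : IsProf ν W W1)
    (hV : ∀ t, HasDerivAt V (V1 t) t)
    (hV1 : ∀ t, HasDerivAt V1 (-(t + 2 * ν * (V t - t)) * V1 t + V t) t)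
    (hVb : ∀ t, |V t| ≤ |t| + 2) (hV1b : ∀ t, V1 t ∈ Icc (0 : ℝ) 1)
    {x : ℝ} (h0 : W x = V x) (h1 : W1 x = V1 x) (t : ℝ) : W t = V t := by
  obtain ⟨N, hN⟩ := exists_nat_gt (max |x| |t|)
  have hNx : |x| < N := (le_max_left _ _).trans_lt hN
  have hNt : |t| < N := (le_max_right _ _).trans_lt hN
  have hN0 : (0 : ℝ) ≤ N := Nat.cast_nonneg N
  set s : ℝ → Set (ℝ × ℝ) := fun _ => Icc (-((N : ℝ) + 2)) (N + 2) ×ˢ Icc 0 1
  have hL : ∀ r : ℝ, |r| ≤ N → LipschitzOnWith (Real.toNNReal (2 * N + 4)) (GG ν r) (s r) := by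
    intro r hr
    refine LipschitzOnWith.of_dist_le_mul fun y hy y' hy' => ?_
    rw [Real.coe_toNNReal _ (by positivity), Prod.dist_eq, Prod.dist_eq]
    have h1 : dist y.2 y'.2 ≤ max (dist y.1 y'.1) (dist y.2 y'.2) := le_max_right _ _
    have h2 : dist y.1 y'.1 ≤ max (dist y.1 y'.1) (dist y.2 y'.2) := le_max_left _ _
    set m := max (dist y.1 y'.1) (dist y.2 y'.2)
    have h0 : 0 ≤ m := dist_nonneg.trans h1
    have hx1 := (mem_prod.1 hy).1
    have hx2 := (mem_prod.1 hy').2
    rw [Real.dist_eq] at h1 h2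
    apply max_le
    · show dist y.2 y'.2 ≤ _
      rw [Real.dist_eq]
      nlinarith
    · show dist (-(r + 2 * ν * (y.1 - r)) * y.2 + y.1) (-(r + 2 * ν * (y'.1 - r)) * y'.2 + y'.1) ≤ _
      rw [Real.dist_eq]
      have e : -(r + 2 * ν * (y.1 - r)) * y.2 + y.1 - (-(r + 2 * ν * (y'.1 - r)) * y'.2 + y'.1)
        = -((r + 2 * ν * (y.1 - r)) * (y.2 - y'.2)) + (y.1 - y'.1) * (1 - 2 * ν * y'.2) := by
        ring
      rw [e]
      refine (abs_add_le _ _).trans ?_
      rw [abs_neg, abs_mul, abs_mul]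
      have h5 : |1 - 2 * ν * y'.2| ≤ 1 := by
        rw [abs_le]; constructor <;> nlinarith [hx2.1, hx2.2]
      have hA : |r + 2 * ν * (y.1 - r)| ≤ 2 * N + 2 := by
        have e : r + 2 * ν * (y.1 - r) = (1 - 2 * ν) * r + 2 * ν * y.1 := by ring
        have hyb : |y.1| ≤ N + 2 := abs_le.2 ⟨hx1.1, hx1.2⟩
        rw [e]
        refine (abs_add_le _ _).trans ?_
        rw [abs_mul, abs_mul, abs_of_pos (by linarith : 0 < 1 - 2 * ν),
          abs_of_pos (by linarith : 0 < 2 * ν)]
        have h3 := abs_nonneg r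
        have h4 := abs_nonneg y.1
        nlinarith
      have h6 : |r + 2 * ν * (y.1 - r)| * |y.2 - y'.2| ≤ (2 * N + 2) * m :=
        mul_le_mul hA h1 (abs_nonneg _) (by positivity)
      have h7 : |y.1 - y'.1| * |1 - 2 * ν * y'.2| ≤ m * 1 :=
        mul_le_mul h2 h5 (abs_nonneg _) h0
      nlinarith
  have hsol1 : ∀ r : ℝ, |r| ≤ N → HasDerivAt (fun r => (W r, W1 r)) (GG ν r (W r, W1 r)) r ∧
      (W r, W1 r) ∈ s r := by
    intro r hr
    refine ⟨(h.d0 r).prodMk (h.d1 r), mem_prod.2 ⟨⟨?_, ?_⟩, h.p_nonneg r, h.p_le r⟩⟩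
    · have := h.nonneg r
      show -((N : ℝ) + 2) ≤ W r
      linarith
    · have := h.W_le r
      have h2 := Wp_lt hν hr
      show W r ≤ N + 2
      linarith
  have hsol2 : ∀ r : ℝ, |r| ≤ N → HasDerivAt (fun r => (V r, V1 r)) (GG ν r (V r, V1 r)) r ∧
      (V r, V1 r) ∈ s r := by
    intro r hr
    have h1 := abs_le.1 (hVb r)
    refine ⟨(hV r).prodMk (hV1 r), mem_prod.2 ⟨⟨?_, ?_⟩, (hV1b r).1, (hV1b r).2⟩⟩
    · show -((N : ℝ) + 2) ≤ V r
      linarith
    · show V r ≤ N + 2
      linarith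
  have hd : dist ((fun r => (W r, W1 r)) x) ((fun r => (V r, V1 r)) x) = 0 := by
    simp only [h0, h1, dist_self]
  have hfin : dist (W t, W1 t) (V t, V1 t) ≤ 0 := by
    rcases le_total x t with hxt | hxt
    · have h3 := dist_le_right (f := GG ν) (s := s) (a := x) (b := t)
        (y := fun r => (W r, W1 r)) (z := fun r => (V r, V1 r))
        (fun r hr => hL r (abs_le.2 ⟨by linarith [hr.1, (abs_lt.1 hNx).1],
          by linarith [hr.2, (abs_lt.1 hNt).2]⟩))
        (fun r hr => hsol1 r (abs_le.2 ⟨by linarith [hr.1, (abs_lt.1 hNx).1],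
          by linarith [hr.2, (abs_lt.1 hNt).2]⟩))
        (fun r hr => hsol2 r (abs_le.2 ⟨by linarith [hr.1, (abs_lt.1 hNx).1],
          by linarith [hr.2, (abs_lt.1 hNt).2]⟩)) t ⟨hxt, le_rfl⟩
      rw [hd, zero_mul] at h3
      exact h3
    · have h3 := dist_le_left (f := GG ν) (s := s) (a := t) (b := x)
        (y := fun r => (W r, W1 r)) (z := fun r => (V r, V1 r))
        (fun r hr => hL r (abs_le.2 ⟨by linarith [hr.1, (abs_lt.1 hNt).1],
          by linarith [hr.2, (abs_lt.1 hNx).2]⟩))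
        (fun r hr => hsol1 r (abs_le.2 ⟨by linarith [hr.1, (abs_lt.1 hNt).1],
          by linarith [hr.2, (abs_lt.1 hNx).2]⟩))
        (fun r hr => hsol2 r (abs_le.2 ⟨by linarith [hr.1, (abs_lt.1 hNt).1],
          by linarith [hr.2, (abs_lt.1 hNx).2]⟩)) t ⟨le_rfl, hxt⟩
      rw [hd, zero_mul] at h3
      exact h3
  have h4 := dist_le_zero.1 hfin
  exact (Prod.mk.injEq _ _ _ _ ▸ h4).1

/-- `W' > 0`. -/
theorem p_pos (hν0 : 0 < ν) (hν : ν < 1 / 2) (h : IsProf ν W W1) (x : ℝ) : 0 < W1 x := by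
  rcases eq_or_lt_of_le (h.p_nonneg x) with h0 | h0
  swap
  · exact h0
  exfalso
  have hmin : IsLocalMin W1 x := Eventually.of_forall fun t => by rw [← h0]; exact h.p_nonneg t
  have h2 : -(x + 2 * ν * (W x - x)) * W1 x + W x = 0 := hmin.hasDerivAt_eq_zero (h.d1 x)
  rw [← h0, mul_zero, zero_add] at h2
  have h3 := h.eq_of_eq (V := fun _ => 0) (V1 := fun _ => 0) hν0 hν
    (fun t => hasDerivAt_const t 0) (fun t => by simpa using hasDerivAt_const t (0 : ℝ))
    (fun t => by simp; positivity) (fun t => ⟨le_rfl, by norm_num⟩) h2 h0.symm 1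
  have h4 := h.le_W 1
  rw [h3] at h4
  norm_num at h4

/-- `W' < 1`. -/
theorem p_lt (hν0 : 0 < ν) (hν : ν < 1 / 2) (h : IsProf ν W W1) (x : ℝ) : W1 x < 1 := by
  rcases eq_or_lt_of_le (h.p_le x) with h0 | h0
  swap
  · exact h0
  exfalso
  have hmax : IsLocalMax W1 x := Eventually.of_forall fun t => by rw [h0]; exact h.p_le t
  have h2 : -(x + 2 * ν * (W x - x)) * W1 x + W x = 0 := hmax.hasDerivAt_eq_zero (h.d1 x)
  rw [h0] at h2
  have h2' : W x = x := by
    have : (1 - 2 * ν) * (W x - x) = 0 := by linarith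
    rcases mul_eq_zero.1 this with h5 | h5 <;> linarith
  have h3 := h.eq_of_eq (V := fun t => t) (V1 := fun _ => 1) hν0 hν
    (fun t => hasDerivAt_id t) (fun t => by simpa using hasDerivAt_const t (1 : ℝ))
    (fun t => by linarith) (fun t => ⟨by norm_num, le_rfl⟩) h2' h0 (-1)
  have h4 := h.nonneg (-1)
  rw [h3] at h4
  norm_num at h4

/-- integrating factor -/
lemma exists_factor (h : IsProf ν W W1) : ∃ m : ℝ → ℝ, (∀ t, 0 < m t) ∧
    ∀ t, HasDerivAt m (m t * Af ν W t) t := by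
  refine ⟨fun t => Real.exp (∫ r in (0 : ℝ)..t, Af ν W r), fun t => Real.exp_pos _, fun t => ?_⟩
  have h1 := (h.cA.integral_hasStrictDerivAt 0 t).hasDerivAt
  exact h1.exp

/-- `W'' > 0`: the profile is strictly convex. -/
theorem W2_pos (hν0 : 0 < ν) (hν : ν < 1 / 2) (h : IsProf ν W W1) (x : ℝ) :
    0 < W2f ν W W1 x := by
  obtain ⟨m, hm0, hm⟩ := h.exists_factor
  have hmono : StrictMono fun t => m t * W2f ν W W1 t := by
    apply strictMono_of_deriv_pos
    intro t
    have hdd : deriv (fun t => m t * W2f ν W W1 t) t =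
      m t * Af ν W t * W2f ν W W1 t + m t * W3f ν W W1 t := ((hm t).mul (h.hW2 t)).deriv
    rw [hdd]
    have e : m t * Af ν W t * W2f ν W W1 t + m t * W3f ν W W1 t =
        m t * (2 * ν * (1 - W1 t) * W1 t) := by unfold W3f; ring
    rw [e]
    have h1 := h.p_pos hν0 hν t
    have h2 := h.p_lt hν0 hν t
    have h3 := hm0 t
    have h4 : 0 < 1 - W1 t := by linarith
    positivity
  by_contra hcon
  push Not at hcon
  -- `W2 < 0` on `(-∞, x)`
  have hneg : ∀ t < x, W2f ν W W1 t < 0 := by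
    intro t ht
    have h1 := hmono ht
    have h2 : m x * W2f ν W W1 x ≤ 0 := mul_nonpos_of_nonneg_of_nonpos (hm0 x).le hcon
    have h3 : m t * W2f ν W W1 t < 0 := lt_of_lt_of_le h1 h2
    by_contra h4
    push Not at h4
    have h5 := mul_nonneg (hm0 t).le h4
    linarith
  -- `W1` is antitone there
  have hanti : AntitoneOn W1 (Iic x) := by
    apply antitoneOn_of_deriv_nonpos (convex_Iic x) h.cW1.continuousOn
    · exact fun t _ => (h.hW1 t).differentiableAt.differentiableWithinAt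
    · intro t ht
      rw [interior_Iic] at ht
      rw [(h.hW1 t).deriv]
      exact (hneg t ht).le
  set δ := W1 x with hδ
  have hδ0 : 0 < δ := h.p_pos hν0 hν x
  have hge : ∀ t ≤ x, δ ≤ W1 t := fun t ht => hanti ht (le_refl x) ht
  have hmW : MonotoneOn (fun t => W t - δ * t) (Iic x) := by
    apply monotoneOn_of_deriv_nonneg (convex_Iic x)
    · exact (h.cW.sub (continuous_const.mul continuous_id)).continuousOn
    · exact fun t _ => ((h.d0 t).sub ((hasDerivAt_id t).const_mul δ)).differentiableAt.differentiableWithinAt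
    · intro t ht
      rw [interior_Iic] at ht
      have e : deriv (fun t => W t - δ * t) t = W1 t - δ * 1 :=
        ((h.d0 t).sub ((hasDerivAt_id t).const_mul δ)).deriv
      rw [e]
      linarith [hge t (le_of_lt ht)]
  set t := min x (x - (W x + 1) / δ) with ht
  have htx : t ≤ x := min_le_left _ _
  have ht2 : t ≤ x - (W x + 1) / δ := min_le_right _ _
  have h5 := hmW (show t ∈ Iic x from htx) (show x ∈ Iic x from le_refl x) htx
  have h6 : W t ≤ W x - δ * (x - t) := by
    have h5' : W t - δ * t ≤ W x - δ * x := h5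
    linarith
  have h7 : W x + 1 ≤ δ * (x - t) := by
    have h8 : (W x + 1) / δ ≤ x - t := by linarith
    rw [div_le_iff₀ hδ0] at h8
    linarith
  have h9 := h.nonneg t
  linarith

/-- monotonicity of `W'` -/
theorem p_strictMono (hν0 : 0 < ν) (hν : ν < 1 / 2) (h : IsProf ν W W1) : StrictMono W1 :=
  strictMono_of_deriv_pos fun t => by rw [(h.hW1 t).deriv]; exact h.W2_pos hν0 hν t

/-- `W(0) < 1`. -/
lemma W_zero_lt (hν : ν < 1 / 2) (h : IsProf ν W W1) : W 0 < 1 := by
  have h1 := h.W_le 0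
  have h2 := Wp_lt hν (z := 0) (T := 0) (by simp)
  have h3 : Wp ν 0 < 1 := by
    have h4 := rr_sq hν 0
    have h5 := kap_le hν
    have h6 := rr_pos hν 0
    unfold Wp
    nlinarith
  linarith

/-- tangent line inequality -/
lemma tangent (hν0 : 0 < ν) (hν : ν < 1 / 2) (h : IsProf ν W W1) (t r : ℝ) :
    W t + W1 t * (r - t) ≤ W r := by
  have hm := (h.p_strictMono hν0 hν).monotone
  have hc : Continuous fun s => W s - W1 t * s := h.cW.sub (continuous_const.mul continuous_id)
  have hd : ∀ s, HasDerivAt (fun s => W s - W1 t * s) (W1 s - W1 t * 1) s := fun s =>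
    (h.d0 s).sub ((hasDerivAt_id s).const_mul (W1 t))
  have key : W t - W1 t * t ≤ W r - W1 t * r := by
    rcases le_total t r with htr | htr
    · have h1 : MonotoneOn (fun s => W s - W1 t * s) (Ici t) := by
        apply monotoneOn_of_deriv_nonneg (convex_Ici t) hc.continuousOn
        · exact fun s _ => (hd s).differentiableAt.differentiableWithinAt
        · intro s hs
          rw [interior_Ici] at hs
          rw [(hd s).deriv]
          linarith [hm (le_of_lt hs)]
      exact h1 (show t ∈ Ici t from le_refl t) (show r ∈ Ici t from htr) htr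
    · have h1 : AntitoneOn (fun s => W s - W1 t * s) (Iic t) := by
        apply antitoneOn_of_deriv_nonpos (convex_Iic t) hc.continuousOn
        · exact fun s _ => (hd s).differentiableAt.differentiableWithinAt
        · intro s hs
          rw [interior_Iic] at hs
          rw [(hd s).deriv]
          linarith [hm (le_of_lt hs)]
      exact h1 (show r ∈ Iic t from htr) (show t ∈ Iic t from le_refl t) htr
  linarith

/-- `A ≥ z`. -/
lemma le_A (hν0 : 0 < ν) (h : IsProf ν W W1) (t : ℝ) : t ≤ Af ν W t := by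
  have h1 := h.le_W t
  unfold Af
  nlinarith

/-- `W'' ≤ W(0)`. -/
theorem W2_le (hν0 : 0 < ν) (hν : ν < 1 / 2) (h : IsProf ν W W1) (t : ℝ) :
    W2f ν W W1 t ≤ W 0 := by
  have h1 := h.tangent hν0 hν t 0
  have h2 := h.le_A hν0 t
  have h3 := h.p_nonneg t
  unfold W2f
  nlinarith

theorem W2_lt_one (hν0 : 0 < ν) (hν : ν < 1 / 2) (h : IsProf ν W W1) (t : ℝ) :
    W2f ν W W1 t < 1 := (h.W2_le hν0 hν t).trans_lt (h.W_zero_lt hν)

/-! ### strict barriers and tails -/

lemma Wp_neg_le (hν : ν < 1 / 2) {t : ℝ} (ht : t < 0) : Wp ν t ≤ 1 / (2 * (-t)) := by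
  have h1 := rr_sq hν t
  have h2 := kap_le hν
  have h3 := rr_pos hν t
  have h4 := abs_lt_rr hν t
  rw [abs_of_neg ht] at h4
  unfold Wp
  rw [le_div_iff₀ (by linarith)]
  nlinarith

lemma Wp_pos_le (hν : ν < 1 / 2) {t : ℝ} (ht : 0 < t) : Wp ν t - t ≤ 1 / (2 * t) := by
  have h1 := rr_sq hν t
  have h2 := kap_le hν
  have h3 := rr_pos hν t
  have h4 := abs_lt_rr hν t
  rw [abs_of_pos ht] at h4
  unfold Wp
  rw [le_div_iff₀ (by linarith)]
  nlinarith

theorem tendsto_atBot (hν : ν < 1 / 2) (h : IsProf ν W W1) : Tendsto W atBot (𝓝 0) := by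
  have h1 : Tendsto (fun t : ℝ => 1 / (2 * (-t))) atBot (𝓝 0) := by
    have h2 : Tendsto (fun t : ℝ => 2 * (-t)) atBot atTop :=
      tendsto_neg_atBot_atTop.const_mul_atTop (by norm_num)
    exact h2.inv_tendsto_atTop.congr fun t => (one_div _).symm
  refine tendsto_of_tendsto_of_tendsto_of_le_of_le' tendsto_const_nhds h1
    (Eventually.of_forall h.nonneg) ?_
  filter_upwards [eventually_lt_atBot 0] with t ht
  exact (h.W_le t).trans (Wp_neg_le hν ht)

theorem tendsto_atTop (hν : ν < 1 / 2) (h : IsProf ν W W1) :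
    Tendsto (fun t => W t - t) atTop (𝓝 0) := by
  have h1 : Tendsto (fun t : ℝ => 1 / (2 * t)) atTop (𝓝 0) := by
    have h2 : Tendsto (fun t : ℝ => 2 * t) atTop atTop :=
      tendsto_id.const_mul_atTop (by norm_num)
    exact h2.inv_tendsto_atTop.congr fun t => (one_div _).symm
  refine tendsto_of_tendsto_of_tendsto_of_le_of_le' tendsto_const_nhds h1
    (Eventually.of_forall fun t => sub_nonneg.2 (h.le_W t)) ?_
  filter_upwards [eventually_gt_atTop 0] with t ht
  exact (sub_le_sub_right (h.W_le t) t).trans (Wp_pos_le hν ht)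

end IsProf

end Crest.Agent.R146.Stat4_307
end

-- ▼ part R146/Stat5_307
section

/-!
# Row 146, stationary family, part 5: the Riccati equation of the stationary law

For a drift `A` with `a < A' < 1`, `0 < A'' < M A'` there are `λ ∈ [a, 1]` and a bounded positive
global solution of `Y' = Y² + A Y - A' + λ`; it decays like `1/|z|` at both ends.
-/

namespace Crest.Agent.R146.Stat5_307

open Set Filter Topology Metric Stat1_307 Stat2_307
open scoped NNReal

/-- Hypotheses on the drift. -/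
structure Drift (A A1 A2 : ℝ → ℝ) (a M Z : ℝ) : Prop where
  hA : ∀ t, HasDerivAt A (A1 t) t
  hA1 : ∀ t, HasDerivAt A1 (A2 t) t
  a_pos : 0 < a
  M_pos : 0 < M
  Z_pos : 1 ≤ Z
  lt_A1 : ∀ t, a < A1 t
  A1_lt : ∀ t, A1 t < 1
  A2_pos : ∀ t, 0 < A2 t
  A2_lt : ∀ t, A2 t < M * A1 t
  right : ∀ t, 0 < t → t ≤ A t
  left : ∀ t, t ≤ -Z → A t + M ≤ a / 2 * t

variable {A A1 A2 : ℝ → ℝ} {a M Z : ℝ}

lemma Drift.cA (h : Drift A A1 A2 a M Z) : Continuous A :=
  continuous_iff_continuousAt.2 fun t => (h.hA t).continuousAt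

lemma Drift.cA1 (h : Drift A A1 A2 a M Z) : Continuous A1 :=
  continuous_iff_continuousAt.2 fun t => (h.hA1 t).continuousAt

/-- first component of the clipped Riccati field -/
noncomputable def gR (A A1 : ℝ → ℝ) (M t x l : ℝ) : ℝ :=
  clip 0 M x ^ 2 + A t * clip 0 M x - A1 t + clip 0 1 l

/-- clipped Riccati field -/
noncomputable def FR (A A1 : ℝ → ℝ) (M t : ℝ) (x : ℝ × ℝ) : ℝ × ℝ := (gR A A1 M t x.1 x.2, 0)

lemma FR_norm (h : Drift A A1 A2 a M Z) {C t : ℝ} (hC : |A t| ≤ C) (x : ℝ × ℝ) :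
    ‖FR A A1 M t x‖ ≤ M ^ 2 + C * M + 2 := by
  have h1 := clip_mem (lo := 0) (hi := M) h.M_pos.le x.1
  have h2 := clip_mem (lo := 0) (hi := 1) (by norm_num) x.2
  have hC0 : 0 ≤ C := (abs_nonneg _).trans hC
  have hM := h.M_pos
  unfold FR
  rw [Prod.norm_def]
  apply max_le
  · rw [Real.norm_eq_abs]
    show |clip 0 M x.1 ^ 2 + A t * clip 0 M x.1 - A1 t + clip 0 1 x.2| ≤ _
    set c := clip 0 M x.1
    set q := clip 0 1 x.2
    have h3 := abs_le.1 hC
    have h4 := h.lt_A1 t
    have h5 := h.A1_lt t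
    have h6 := h.a_pos
    have e1 : A t * c ≤ C * M := mul_le_mul h3.2 h1.2 h1.1 hC0
    have e2 : -(C * M) ≤ A t * c := by
      have : -C * M ≤ -C * c := by nlinarith [h1.1, h1.2]
      have : -C * c ≤ A t * c := mul_le_mul_of_nonneg_right h3.1 h1.1
      linarith
    have e3 : c ^ 2 ≤ M ^ 2 := pow_le_pow_left₀ h1.1 h1.2 2
    rw [abs_le]
    constructor <;> nlinarith [h2.1, h2.2, sq_nonneg c, sq_nonneg M]
  · simp only [norm_zero]
    positivity

lemma gR_lip (h : Drift A A1 A2 a M Z) {C t : ℝ} (hC : |A t| ≤ C) (x l x' l' : ℝ) :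
    |gR A A1 M t x l - gR A A1 M t x' l'| ≤ (2 * M + C) * |x - x'| + |l - l'| := by
  have h1 := clip_mem (lo := 0) (hi := M) h.M_pos.le x
  have h1' := clip_mem (lo := 0) (hi := M) h.M_pos.le x'
  have h3 := abs_clip_sub_le 0 M x x'
  have h4 := abs_clip_sub_le 0 1 l l'
  unfold gR
  set c := clip 0 M x
  set c' := clip 0 M x'
  have e : c ^ 2 + A t * c - A1 t + clip 0 1 l - (c' ^ 2 + A t * c' - A1 t + clip 0 1 l')
      = (c + c' + A t) * (c - c') + (clip 0 1 l - clip 0 1 l') := by ring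
  rw [e]
  refine (abs_add_le _ _).trans ?_
  rw [abs_mul]
  have h5 : |c + c' + A t| ≤ 2 * M + C := by
    have := abs_le.1 hC
    rw [abs_le]; constructor <;> linarith [h1.1, h1.2, h1'.1, h1'.2]
  have h6 : |c + c' + A t| * |c - c'| ≤ (2 * M + C) * |x - x'| :=
    mul_le_mul h5 h3 (abs_nonneg _) (by linarith [h.M_pos, abs_nonneg (A t)])
  linarith

lemma FR_lip (h : Drift A A1 A2 a M Z) {C t : ℝ} (hC : |A t| ≤ C) :
    LipschitzWith (Real.toNNReal (2 * M + C + 1)) (FR A A1 M t) := by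
  have hM := h.M_pos
  have hC0 : 0 ≤ C := (abs_nonneg _).trans hC
  refine LipschitzWith.of_dist_le_mul fun x y => ?_
  rw [Real.coe_toNNReal _ (by linarith), Prod.dist_eq, Prod.dist_eq]
  have h1 : dist x.2 y.2 ≤ max (dist x.1 y.1) (dist x.2 y.2) := le_max_right _ _
  have h2 : dist x.1 y.1 ≤ max (dist x.1 y.1) (dist x.2 y.2) := le_max_left _ _
  set m := max (dist x.1 y.1) (dist x.2 y.2)
  have h0 : 0 ≤ m := dist_nonneg.trans h1
  rw [Real.dist_eq] at h1 h2
  apply max_le
  · have h3 := gR_lip h hC x.1 x.2 y.1 y.2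
    show dist (gR A A1 M t x.1 x.2) (gR A A1 M t y.1 y.2) ≤ _
    rw [Real.dist_eq]
    nlinarith
  · show dist (0 : ℝ) 0 ≤ _
    rw [dist_self]
    positivity

lemma FR_cont (h : Drift A A1 A2 a M Z) (x : ℝ × ℝ) : Continuous (fun t => FR A A1 M t x) := by
  have h1 := h.cA
  have h2 := h.cA1
  unfold FR gR
  fun_prop

/-- **Shooting for the eigenvalue.** -/
theorem exists_ric_clipped (h : Drift A A1 A2 a M Z) {n : ℝ} (hn : 1 ≤ n) :
    ∃ l ∈ Icc a 1, ∃ Y : ℝ → ℝ, Y (-n) = 0 ∧ Y n = 0 ∧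
      ∀ t ∈ Icc (-n) n, HasDerivAt Y (gR A A1 M t (Y t) l) t := by
  have ha := h.a_pos
  have ha1 : a ≤ 1 := (h.lt_A1 0).le.trans (h.A1_lt 0).le
  have hM := h.M_pos
  set T := n + 1 with hT
  obtain ⟨C, hC⟩ := isCompact_Icc.exists_bound_of_continuousOn (s := Icc (-T) T)
    (f := A) h.cA.continuousOn
  have hC' : ∀ t ∈ Icc (-T) T, |A t| ≤ C := fun t ht => hC t ht
  have hnT : -n ∈ Icc (-T) T := ⟨by linarith, by linarith⟩
  have hC0 : 0 ≤ C := (abs_nonneg _).trans (hC' _ hnT)
  have hex : ∀ l : ℝ, ∃ x : ℝ → ℝ × ℝ, x (-n) = (0, l) ∧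
      ∀ t ∈ Ioo (-T) T, HasDerivAt x (FR A A1 M t (x t)) t := fun l =>
    exists_sol hnT (fun t ht => FR_lip h (hC' t ht)) (fun x => (FR_cont h x).continuousOn)
      (fun t ht x => FR_norm h (hC' t ht) x) (0, l)
  choose X hX0 hX using hex
  have hsub : Icc (-n) n ⊆ Ioo (-T) T := fun t ht => ⟨by linarith [ht.1], by linarith [ht.2]⟩
  have hnn : n ∈ Icc (-n) n := ⟨by linarith, le_rfl⟩
  have hln : -n ∈ Icc (-n) n := ⟨le_rfl, by linarith⟩
  have hne : (Icc (-n) n).Nonempty := ⟨0, by linarith, by linarith⟩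
  have hcont : Continuous fun l => (X l n).1 := by
    have hl : LipschitzWith (Real.toNNReal (Real.exp ((Real.toNNReal (2 * M + C + 1) : ℝ)
        * (n - -n)))) (fun s => (X s n).1) := by
      refine LipschitzWith.of_dist_le_mul fun s s' => ?_
      have h := dist_le_right (f := FR A A1 M) (s := fun _ => univ) (a := -n) (b := n)
        (K := Real.toNNReal (2 * M + C + 1)) (y := X s) (z := X s')
        (fun t ht => (FR_lip h (hC' t (Ioo_subset_Icc_self (hsub ht)))).lipschitzOnWith)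
        (fun t ht => ⟨hX s t (hsub ht), trivial⟩) (fun t ht => ⟨hX s' t (hsub ht), trivial⟩) n hnn
      rw [hX0, hX0] at h
      have h1 : dist ((0 : ℝ), s) ((0 : ℝ), s') = dist s s' := by
        rw [Prod.dist_eq]; simp
      rw [h1] at h
      rw [Real.coe_toNNReal _ (Real.exp_nonneg _), mul_comm]
      refine le_trans ?_ h
      rw [Prod.dist_eq]
      exact le_max_left _ _
    exact hl.continuous
  -- second component is constant
  have hsnd : ∀ l, ∀ t ∈ Icc (-n) n, (X l t).2 = l := by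
    intro l t ht
    have hsd : ∀ t ∈ Icc (-n) n, HasDerivAt (fun t => (X l t).2) 0 t := fun t ht =>
      (hX l t (hsub ht)).snd
    have h1 := (convex_Icc (-n) n).norm_image_sub_le_of_norm_hasDerivWithin_le
      (f := fun t => (X l t).2) (f' := fun _ => 0) (C := 0)
      (fun t ht => (hsd t ht).hasDerivWithinAt)
      (fun t ht => by simp) hln ht
    rw [zero_mul, norm_le_zero_iff, sub_eq_zero, hX0] at h1
    exact h1
  have hd : ∀ l, ∀ t ∈ Icc (-n) n, HasDerivAt (fun t => (X l t).1)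
      (gR A A1 M t (X l t).1 l) t := by
    intro l t ht
    have h1 := (hX l t (hsub ht)).fst
    have h2 : (FR A A1 M t (X l t)).1 = gR A A1 M t (X l t).1 l := by
      show gR A A1 M t (X l t).1 (X l t).2 = _
      rw [hsnd l t ht]
    rw [← h2]
    exact h1
  have hc : ∀ l, ContinuousOn (fun t => (X l t).1) (Icc (-n) n) := fun l t ht =>
    (hd l t ht).continuousAt.continuousWithinAt
  have hend : ∀ l, (X l (-n)).1 = 0 := fun l => by rw [hX0]
  -- upper end
  have hhigh : 0 ≤ (X 1 n).1 := by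
    have key : ∀ ε > 0, -(X 1 n).1 ≤ ε * (n + n) := by
      intro ε hε
      have hcP : ContinuousOn (fun t => -(X 1 t).1 - ε * (t + n)) (Icc (-n) n) :=
        (hc 1).neg.sub (by fun_prop)
      obtain ⟨x, hx, hmax⟩ := isCompact_Icc.exists_isMaxOn hne hcP
      have hmax' : ∀ t ∈ Icc (-n) n, -(X 1 t).1 - ε * (t + n) ≤ -(X 1 x).1 - ε * (x + n) :=
        fun t ht => hmax ht
      have hx1 : -(X 1 x).1 - ε * (x + n) ≤ 0 := by
        rcases eq_or_lt_of_le hx.1 with h' | h'
        · rw [← h', hend]; linarith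
        · by_contra hcon
          push Not at hcon
          have hpx : (X 1 x).1 < 0 := by nlinarith
          have hder : HasDerivAt (fun t => -(X 1 t).1 - ε * (t + n))
              (-gR A A1 M x (X 1 x).1 1 - ε * 1) x :=
            (hd 1 x hx).neg.sub (((hasDerivAt_id x).add_const n).const_mul ε)
          have h1 := deriv_nonneg_left h' hder
            (fun t ht => hmax' t ⟨ht.1, by linarith [hx.2, ht.2]⟩)
          rw [gR, clip_of_le hM.le hpx.le, clip_of_mem ⟨by norm_num, le_rfl⟩] at h1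
          have h2 := h.A1_lt x
          nlinarith
      have := hmax' n hnn
      linarith
    have h3 : -(X 1 n).1 ≤ 0 := by
      apply le_of_forall_pos_le_add
      intro ε hε
      have h1 := key (ε / (2 * n)) (by positivity)
      have h2 : ε / (2 * n) * (n + n) = ε := by field_simp; ring
      linarith
    linarith
  -- lower end
  have hlow : (X a n).1 ≤ 0 := by
    set k := M + C + 1 with hk
    have hcP : ContinuousOn (fun t => (X a t).1 * Real.exp (-k * t)) (Icc (-n) n) :=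
      (hc a).mul (by fun_prop)
    obtain ⟨x, hx, hmax⟩ := isCompact_Icc.exists_isMaxOn hne hcP
    have hmax' : ∀ t ∈ Icc (-n) n, (X a t).1 * Real.exp (-k * t) ≤
        (X a x).1 * Real.exp (-k * x) := fun t ht => hmax ht
    have hx1 : (X a x).1 ≤ 0 := by
      rcases eq_or_lt_of_le hx.1 with h' | h'
      · rw [← h', hend]
      · by_contra hcon
        push Not at hcon
        have hder : HasDerivAt (fun t => (X a t).1 * Real.exp (-k * t))
            (gR A A1 M x (X a x).1 a * Real.exp (-k * x) +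
              (X a x).1 * (Real.exp (-k * x) * (-k * 1))) x :=
          (hd a x hx).mul (((hasDerivAt_id x).const_mul (-k)).exp)
        have h1 := deriv_nonneg_left h' hder
          (fun t ht => hmax' t ⟨ht.1, by linarith [hx.2, ht.2]⟩)
        have h2 : gR A A1 M x (X a x).1 a * Real.exp (-k * x) +
              (X a x).1 * (Real.exp (-k * x) * (-k * 1)) =
            (gR A A1 M x (X a x).1 a - k * (X a x).1) * Real.exp (-k * x) := by ring
        rw [h2] at h1
        have h3 : 0 ≤ gR A A1 M x (X a x).1 a - k * (X a x).1 := by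
          by_contra h4
          push Not at h4
          have := mul_neg_of_neg_of_pos h4 (Real.exp_pos (-k * x))
          linarith
        rw [gR, clip_of_mem ⟨ha.le, ha1⟩] at h3
        have h5 := clip_mem (lo := 0) (hi := M) hM.le (X a x).1
        have h6 : clip 0 M (X a x).1 ≤ (X a x).1 := by
          unfold clip; exact max_le hcon.le (min_le_left _ _)
        have h7 := abs_le.1 (hC' x (Ioo_subset_Icc_self (hsub hx)))
        have h8 := h.lt_A1 x
        set c := clip 0 M (X a x).1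
        have h9 : c ^ 2 + A x * c ≤ (M + C) * c := by nlinarith [h5.1, h5.2]
        have h10 : (M + C) * c ≤ (M + C) * (X a x).1 :=
          mul_le_mul_of_nonneg_left h6 (by linarith)
        nlinarith
    have h1 := hmax' n hnn
    have h2 : (X a n).1 * Real.exp (-k * n) ≤ 0 :=
      h1.trans (mul_nonpos_of_nonpos_of_nonneg hx1 (Real.exp_nonneg _))
    by_contra h3
    push Not at h3
    have := mul_pos h3 (Real.exp_pos (-k * n))
    linarith
  obtain ⟨l, hl, hln0⟩ := intermediate_value_Icc ha1 hcont.continuousOn ⟨hlow, hhigh⟩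
  exact ⟨l, hl, fun t => (X l t).1, hend l, hln0, fun t ht => hd l t ht⟩

/-- upper bound function for `Y` -/
noncomputable def bd (a M Z : ℝ) (t : ℝ) : ℝ :=
  if t ≤ -Z then min M ((2 / a + 1) / (-t)) else if 0 < t then min M ((M + 1) / t) else M

lemma bd_le (a M Z t : ℝ) : bd a M Z t ≤ M := by
  unfold bd
  split_ifs
  · exact min_le_left _ _
  · exact min_le_left _ _
  · exact le_rfl

/-- **Riccati boundary value problem** -/
theorem exists_ric (h : Drift A A1 A2 a M Z) {n : ℝ} (hn : 1 ≤ n) :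
    ∃ l ∈ Icc a 1, ∃ Y : ℝ → ℝ, ∀ t ∈ Icc (-n) n,
      HasDerivAt Y (Y t ^ 2 + A t * Y t - A1 t + l) t ∧ 0 ≤ Y t ∧ Y t ≤ bd a M Z t := by
  obtain ⟨l, hl, Y, hYl, hYr, hY⟩ := exists_ric_clipped h hn
  have ha := h.a_pos
  have hM := h.M_pos
  have hZ := h.Z_pos
  have hcY : ContinuousOn Y (Icc (-n) n) := fun t ht => (hY t ht).continuousAt.continuousWithinAt
  have hne : (Icc (-n) n).Nonempty := ⟨0, by linarith, by linarith⟩
  have hln : -n ∈ Icc (-n) n := ⟨le_rfl, by linarith⟩
  have hrn : n ∈ Icc (-n) n := ⟨by linarith, le_rfl⟩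
  have hl01 : clip 0 1 l = l := clip_of_mem ⟨by linarith [hl.1], hl.2⟩
  -- `0 ≤ Y`
  have h0 : ∀ t ∈ Icc (-n) n, 0 ≤ Y t := by
    obtain ⟨x, hx, hmin⟩ := isCompact_Icc.exists_isMinOn hne hcY
    have hx0 : 0 ≤ Y x := by
      by_contra hcon
      push Not at hcon
      have h1 : x ≠ -n := by rintro rfl; linarith
      have h2 : x ≠ n := by rintro rfl; linarith
      have hx' : x ∈ Ioo (-n) n := ⟨lt_of_le_of_ne hx.1 (Ne.symm h1), lt_of_le_of_ne hx.2 h2⟩
      -- neighbourhood on which `Y < 0`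
      have hcx : ContinuousAt Y x := (hY x hx).continuousAt
      have hev : ∀ᶠ t in 𝓝 x, Y t < 0 ∧ t ∈ Ioo (-n) n :=
        (hcx.eventually_lt_const hcon).and (Ioo_mem_nhds hx'.1 hx'.2)
      obtain ⟨δ, hδ, hball⟩ := Metric.eventually_nhds_iff.1 hev
      have hB : ∀ t ∈ Ioo (x - δ) (x + δ), Y t < 0 ∧ t ∈ Ioo (-n) n := fun t ht =>
        hball (by rw [Real.dist_eq, abs_lt]; constructor <;> linarith [ht.1, ht.2])
      obtain ⟨h3, h4⟩ := second_deriv_nonneg (g := Y) (g1 := fun t => l - A1 t) (g2 := 0 - A2 x)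
        (a := x - δ) (b := x + δ) ⟨by linarith, by linarith⟩
        (fun t ht => by
          obtain ⟨h5, h6⟩ := hB t ht
          have h7 := hY t (Ioo_subset_Icc_self h6)
          rw [gR, clip_of_le hM.le h5.le, hl01] at h7
          refine h7.congr_deriv ?_
          ring)
        ((hasDerivAt_const x l).sub (h.hA1 x))
        (fun t ht => hmin (Ioo_subset_Icc_self (hB t ht).2))
      have := h.A2_pos x
      linarith
    exact fun t ht => hx0.trans (hmin ht)
  -- `Y ≤ M`
  have h1 : ∀ t ∈ Icc (-n) n, Y t ≤ M := by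
    obtain ⟨x, hx, hmax⟩ := isCompact_Icc.exists_isMaxOn hne hcY
    have hx0 : Y x ≤ M := by
      by_contra hcon
      push Not at hcon
      have h1 : x ≠ -n := by rintro rfl; linarith
      have h2 : x ≠ n := by rintro rfl; linarith
      have hx' : x ∈ Ioo (-n) n := ⟨lt_of_le_of_ne hx.1 (Ne.symm h1), lt_of_le_of_ne hx.2 h2⟩
      have hcx : ContinuousAt Y x := (hY x hx).continuousAt
      have hev : ∀ᶠ t in 𝓝 x, M < Y t ∧ t ∈ Ioo (-n) n :=
        (hcx.eventually_const_lt hcon).and (Ioo_mem_nhds hx'.1 hx'.2)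
      obtain ⟨δ, hδ, hball⟩ := Metric.eventually_nhds_iff.1 hev
      have hB : ∀ t ∈ Ioo (x - δ) (x + δ), M < Y t ∧ t ∈ Ioo (-n) n := fun t ht =>
        hball (by rw [Real.dist_eq, abs_lt]; constructor <;> linarith [ht.1, ht.2])
      obtain ⟨h3, h4⟩ := second_deriv_nonpos (g := Y)
        (g1 := fun t => M ^ 2 + A t * M - A1 t + l) (g2 := A1 x * M - A2 x)
        (a := x - δ) (b := x + δ) ⟨by linarith, by linarith⟩
        (fun t ht => by
          obtain ⟨h5, h6⟩ := hB t ht
          have h7 := hY t (Ioo_subset_Icc_self h6)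
          rw [gR, clip_of_ge hM.le h5.le, hl01] at h7
          exact h7)
        ((((h.hA x).mul_const M).const_add (M ^ 2)).sub (h.hA1 x) |>.add_const l)
        (fun t ht => hmax (Ioo_subset_Icc_self (hB t ht).2))
      have := h.A2_lt x
      linarith
    exact fun t ht => (hmax ht).trans hx0
  have hYeq : ∀ t ∈ Icc (-n) n, HasDerivAt Y (Y t ^ 2 + A t * Y t - A1 t + l) t := by
    intro t ht
    have h2 := hY t ht
    rw [gR, clip_of_mem ⟨h0 t ht, h1 t ht⟩, hl01] at h2
    exact h2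
  -- right tail
  have hR : ∀ t ∈ Icc (-n) n, 0 < t → Y t ≤ (M + 1) / t := by
    intro t ht htpos
    rcases le_or_gt t 1 with ht1 | ht1
    · have := h1 t ht
      rw [le_div_iff₀ htpos]
      nlinarith [h0 t ht]
    have hcD : ContinuousOn (fun t => Y t - (M + 1) / t) (Icc 1 n) := by
      apply ContinuousOn.sub
      · exact hcY.mono fun s hs => ⟨by linarith [hs.1], hs.2⟩
      · apply ContinuousOn.div continuousOn_const continuousOn_id
        intro s hs
        have := hs.1
        show s ≠ 0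
        linarith
    obtain ⟨x, hx, hmax⟩ := isCompact_Icc.exists_isMaxOn ⟨1, le_rfl, hn⟩ hcD
    have hmax' : ∀ s ∈ Icc 1 n, Y s - (M + 1) / s ≤ Y x - (M + 1) / x := fun s hs => hmax hs
    have hxI : x ∈ Icc (-n) n := ⟨by linarith [hx.1], hx.2⟩
    have hx0 : (0 : ℝ) < x := by linarith [hx.1]
    have hx1 : Y x - (M + 1) / x ≤ 0 := by
      rcases eq_or_lt_of_le hx.2 with h' | h'
      · rw [h', hYr]
        have : 0 < (M + 1) / n := by positivity
        linarith
      · by_contra hcon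
        push Not at hcon
        have hder : HasDerivAt (fun t => Y t - (M + 1) / t)
            (Y x ^ 2 + A x * Y x - A1 x + l - (M + 1) * (-(x ^ 2)⁻¹)) x := by
          have h2 : HasDerivAt (fun t : ℝ => (M + 1) / t) ((M + 1) * (-(x ^ 2)⁻¹)) x :=
            (hasDerivAt_inv hx0.ne').const_mul (M + 1)
          exact (hYeq x hxI).sub h2
        have h2 := deriv_nonpos_right h' hder
          (fun s hs => hmax' s ⟨by linarith [hx.1, hs.1], hs.2⟩)
        have h3 : (M + 1) / x < Y x := by linarith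
        rw [div_lt_iff₀ hx0] at h3
        have h4 := h.right x hx0
        have h5 := h.A1_lt x
        have h6 := h0 x hxI
        have h7 : 0 < (M + 1) * (x ^ 2)⁻¹ := by positivity
        have h8 : x * Y x ≤ A x * Y x := mul_le_mul_of_nonneg_right h4 h6
        nlinarith [hl.1, sq_nonneg (Y x)]
    have h2 := hmax' t ⟨ht1.le, ht.2⟩
    linarith
  -- left tail
  have hL : ∀ t ∈ Icc (-n) n, t ≤ -Z → Y t ≤ (2 / a + 1) / (-t) := by
    intro t ht htZ
    set k := 2 / a + 1 with hk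
    have hk0 : 0 < k := by positivity
    have hcD : ContinuousOn (fun t => Y t - k / (-t)) (Icc (-n) (-Z)) := by
      apply ContinuousOn.sub
      · exact hcY.mono fun s hs => ⟨hs.1, by linarith [hs.2]⟩
      · apply ContinuousOn.div continuousOn_const continuousOn_id.neg
        intro s hs
        have := hs.2
        show -s ≠ 0
        linarith
    obtain ⟨x, hx, hmax⟩ := isCompact_Icc.exists_isMaxOn ⟨t, ht.1, htZ⟩ hcD
    have hmax' : ∀ s ∈ Icc (-n) (-Z), Y s - k / (-s) ≤ Y x - k / (-x) := fun s hs => hmax hs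
    have hxI : x ∈ Icc (-n) n := ⟨hx.1, by linarith [hx.2]⟩
    have hx0 : x < 0 := by linarith [hx.2]
    have hx1 : Y x - k / (-x) ≤ 0 := by
      rcases eq_or_lt_of_le hx.1 with h' | h'
      · rw [← h', hYl]
        have : 0 < k / (- -n) := by rw [neg_neg]; positivity
        linarith
      · by_contra hcon
        push Not at hcon
        have hder : HasDerivAt (fun t => Y t - k / (-t))
            (Y x ^ 2 + A x * Y x - A1 x + l - k / x ^ 2) x := by
          have h2 : HasDerivAt (fun t : ℝ => k / (-t)) (k / x ^ 2) x := by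
            have h3 := ((hasDerivAt_id x).neg.inv (by simpa using hx0.ne)).const_mul k
            refine h3.congr_deriv ?_
            simp only [Pi.neg_apply, id]
            field_simp
          exact (hYeq x hxI).sub h2
        have h2 := deriv_nonneg_left h' hder
          (fun s hs => hmax' s ⟨hs.1, by linarith [hx.2, hs.2]⟩)
        have hxn : 0 < -x := by linarith
        have h3 : k / (-x) < Y x := by linarith
        rw [div_lt_iff₀ hxn] at h3
        have h4 := h.left x hx.2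
        have h5 := h.lt_A1 x
        have h6 := h0 x hxI
        have h6' := h1 x hxI
        have h7 : 0 < k / x ^ 2 := div_pos hk0 (sq_pos_of_neg hx0)
        have h8 : Y x ^ 2 + A x * Y x ≤ a / 2 * x * Y x := by nlinarith
        have h9 : a / 2 * k = 1 + a / 2 := by rw [hk]; field_simp
        have h10 : a / 2 * x * Y x ≤ -(a / 2 * k) := by nlinarith
        nlinarith [hl.2]
    have h2 := hmax' t ⟨ht.1, htZ⟩
    linarith
  refine ⟨l, hl, Y, fun t ht => ⟨hYeq t ht, h0 t ht, ?_⟩⟩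
  unfold bd
  split_ifs with h2 h3
  · exact le_min (h1 t ht) (hL t ht h2)
  · exact le_min (h1 t ht) (hR t ht h3)
  · exact h1 t ht

/-- **Global Riccati solution** -/
theorem exists_riccati (h : Drift A A1 A2 a M Z) :
    ∃ l ∈ Icc a 1, ∃ Y : ℝ → ℝ, ∀ t,
      HasDerivAt Y (Y t ^ 2 + A t * Y t - A1 t + l) t ∧ 0 ≤ Y t ∧ Y t ≤ bd a M Z t := by
  have hM := h.M_pos
  have hex : ∀ n : ℕ, ∃ l ∈ Icc a 1, ∃ Y : ℝ → ℝ, ∀ t ∈ Icc (-((n : ℝ) + 1)) (n + 1),
      HasDerivAt Y (Y t ^ 2 + A t * Y t - A1 t + l) t ∧ 0 ≤ Y t ∧ Y t ≤ bd a M Z t := fun n =>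
    exists_ric h (by linarith [(Nat.cast_nonneg n : (0 : ℝ) ≤ n)])
  choose l hl Y hY using hex
  set f : ℝ → ℝ × ℝ → ℝ × ℝ := fun t x => (x.1 ^ 2 + A t * x.1 - A1 t + x.2, 0) with hf
  set s : ℝ → Set (ℝ × ℝ) := fun t => Icc 0 (bd a M Z t) ×ˢ Icc a 1 with hs
  have hlim := exists_limit (f := f) (s := s) (y := fun n t => (Y n t, l n))
    (fun t => isClosed_Icc.prod isClosed_Icc) (isCompact_Icc.prod isCompact_Icc) ?_ ?_
  · obtain ⟨w, hw, -⟩ := hlim
    -- the second component is constant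
    have hsd : ∀ t, HasDerivAt (fun t => (w t).2) 0 t := fun t => (hw t).1.snd
    have hconst : ∀ t, (w t).2 = (w 0).2 := by
      intro t
      have hdiff : Differentiable ℝ (fun t => (w t).2) := fun t => (hsd t).differentiableAt
      exact is_const_of_deriv_eq_zero hdiff (fun t => (hsd t).deriv) t 0
    refine ⟨(w 0).2, (mem_prod.1 (hw 0).2).2, fun t => (w t).1, fun t => ?_⟩
    obtain ⟨h1, h2⟩ := hw t
    have h3 := (mem_prod.1 h2).1
    refine ⟨?_, h3.1, h3.2⟩
    have h4 := h1.fst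
    rw [← hconst t]
    exact h4
  · intro N
    obtain ⟨C, hC⟩ := isCompact_Icc.exists_bound_of_continuousOn (s := Icc (-(N : ℝ)) N)
      (f := A) h.cA.continuousOn
    have hC0 : 0 ≤ C := (norm_nonneg _).trans (hC 0 ⟨by simp, by simp⟩)
    refine ⟨Real.toNNReal (2 * M + C + 1), fun t ht => ?_⟩
    have htC : |A t| ≤ C := hC t ⟨ht.1.le, ht.2.le⟩
    refine LipschitzOnWith.of_dist_le_mul fun x hx x' hx' => ?_
    rw [Real.coe_toNNReal _ (by positivity), Prod.dist_eq, Prod.dist_eq]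
    have h1 : dist x.2 x'.2 ≤ max (dist x.1 x'.1) (dist x.2 x'.2) := le_max_right _ _
    have h2 : dist x.1 x'.1 ≤ max (dist x.1 x'.1) (dist x.2 x'.2) := le_max_left _ _
    set m := max (dist x.1 x'.1) (dist x.2 x'.2)
    have h0 : 0 ≤ m := dist_nonneg.trans h1
    have hx1 := (mem_prod.1 hx).1
    have hx2 := (mem_prod.1 hx').1
    have hb := bd_le a M Z t
    rw [Real.dist_eq] at h1 h2
    apply max_le
    · show dist (x.1 ^ 2 + A t * x.1 - A1 t + x.2) (x'.1 ^ 2 + A t * x'.1 - A1 t + x'.2) ≤ _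
      rw [Real.dist_eq]
      have e : x.1 ^ 2 + A t * x.1 - A1 t + x.2 - (x'.1 ^ 2 + A t * x'.1 - A1 t + x'.2)
        = (x.1 + x'.1 + A t) * (x.1 - x'.1) + (x.2 - x'.2) := by ring
      rw [e]
      refine (abs_add_le _ _).trans ?_
      rw [abs_mul]
      have h5 : |x.1 + x'.1 + A t| ≤ 2 * M + C := by
        have := abs_le.1 htC
        rw [abs_le]; constructor <;> linarith [hx1.1, hx1.2, hx2.1, hx2.2]
      have h6 : |x.1 + x'.1 + A t| * |x.1 - x'.1| ≤ (2 * M + C) * m :=
        mul_le_mul h5 h2 (abs_nonneg _) (by linarith)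
      linarith
    · show dist (0 : ℝ) 0 ≤ _
      rw [dist_self]
      positivity
  · intro n t ht
    obtain ⟨h1, h2, h3⟩ := hY n t ⟨by linarith [ht.1], by linarith [ht.2]⟩
    exact ⟨h1.prodMk (hasDerivAt_const t (l n)), mem_prod.2 ⟨⟨h2, h3⟩, hl n⟩⟩

end Crest.Agent.R146.Stat5_307
end

-- ▼ part R146/Cert_109
section

/-!
Numerics certificate of row 146: the closure exponent `ν` of the self-similar tip problem lies in
`(0.2936533, 0.2936535)`, hence `γ = 1 - 2 ν ∈ (0.4126930, 0.4126934)` and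
`θ = (4 ν - 1) / (1 - 2 ν) ∈ (0.4231063, 0.4231088)`.
-/

set_option autoImplicit false

namespace Crest.Agent.R146.Cert_109

open Filter Topology Set
open Crest.Agent.R146.Slide_109 Crest.Agent.R146.Prof_109 Crest.Agent.R146.Trans_109
open Crest.Agent.R146.Encl_109

/-- self-similar profile at exponent `ν` -/
structure Profile (ν : ℝ) (W : ℝ → ℝ) : Prop where
  smooth : ContDiff ℝ 2 W
  ode : ∀ z, deriv (deriv W) z + (z + 2 * ν * (W z - z)) * deriv W z - W z = 0
  left : Tendsto W atBot (𝓝 0)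
  right : Tendsto (fun z => W z - z) atTop (𝓝 0)

/-- positive, at most exponentially growing solution of `q'' - (A q)' + lam q = 0` -/
structure Charge (ν lam : ℝ) (W q : ℝ → ℝ) : Prop where
  smooth : ContDiff ℝ 2 q
  pos : ∀ z, 0 < q z
  ode : ∀ z, deriv (deriv q) z - deriv (fun z => (z + 2 * ν * (W z - z)) * q z) z + lam * q z = 0
  growth : ∃ C c : ℝ, ∀ z, q z ≤ C * Real.exp (c * |z|)

lemma hasDerivAt_of_contDiff2 {f : ℝ → ℝ} (h : ContDiff ℝ 2 f) (z : ℝ) :
    HasDerivAt f (deriv f z) z ∧ HasDerivAt (deriv f) (deriv (deriv f) z) z := by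
  constructor
  · exact ((h.differentiable (by norm_num)) z).hasDerivAt
  · have h1 : ContDiff ℝ 1 (deriv f) := by
      have := (contDiff_succ_iff_deriv (n := 1) (f := f)).1 (by norm_num; exact h)
      exact this.2.2
    exact ((h1.differentiable (by norm_num)) z).hasDerivAt

lemma Profile.toD {ν : ℝ} {W : ℝ → ℝ} (h : Profile ν W) (h0 : 0 < ν) (h1 : ν < 1 / 2) :
    ProfD ν W (deriv W) where
  d0 z := (hasDerivAt_of_contDiff2 h.smooth z).1
  d1 z := by
    have h2 := (hasDerivAt_of_contDiff2 h.smooth z).2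
    have h3 := h.ode z
    refine h2.congr_deriv ?_
    unfold A
    linarith
  left := h.left
  right := h.right
  pos := h0
  lt := h1

lemma Charge.toD {ν lam : ℝ} {W q : ℝ → ℝ} (hW : Profile ν W) (h : Charge ν lam W q) :
    ChargeD ν lam W q (deriv q) where
  pos := h.pos
  d0 z := (hasDerivAt_of_contDiff2 h.smooth z).1
  d1 z := by
    have h2 := (hasDerivAt_of_contDiff2 h.smooth z).2
    have h3 := h.ode z
    have hA : HasDerivAt (fun z => (z + 2 * ν * (W z - z)) * q z)
        (deriv (fun z => (z + 2 * ν * (W z - z)) * q z) z) z := by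
      have e1 := (hasDerivAt_of_contDiff2 hW.smooth z).1
      have e2 := (hasDerivAt_of_contDiff2 h.smooth z).1
      have e3 : HasDerivAt (fun z => (z + 2 * ν * (W z - z)) * q z) _ z :=
        ((hasDerivAt_id z).add ((e1.sub (hasDerivAt_id z)).const_mul (2 * ν))).mul e2
      exact e3.differentiableAt.hasDerivAt
    have h4 := h2.sub hA
    refine h4.congr_deriv ?_
    linarith
  growth := h.growth

/-- **Enclosure.** If the closure `lam = 2 ν` holds at `ν` then `ν` is known to 7 digits. -/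
theorem enclosure {ν : ℝ} {W q : ℝ → ℝ} (h0 : 0 < ν) (h1 : ν < 1 / 2) (hW : Profile ν W)
    (hq : Charge ν (2 * ν) W q) : 0.2936533 < ν ∧ ν < 0.2936535 := by
  constructor
  · by_contra hcon
    push Not at hcon
    obtain ⟨S0, S1, S2, S3, f, f1, f2, D⟩ := DataM_109.data
    exact exclude_below D hcon (hW.toD h0 h1) (hq.toD hW)
  · by_contra hcon
    push Not at hcon
    obtain ⟨U0, U1, U2, U3, f, f1, f2, D⟩ := DataP_109.data
    exact exclude_above D hcon (hW.toD h0 h1) (hq.toD hW)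



end Crest.Agent.R146.Cert_109
end

-- ▼ part R146/Stat6_307
section

/-!
# Row 146, stationary family, part 6: the stationary pair `(W_ν, q_ν)` for every constant `ν`

Output in the literal form of `Cert_109.Profile` and `Cert_109.Charge`.
-/

namespace Crest.Agent.R146.Stat6_307

open Set Filter Topology Metric Stat1_307 Stat2_307 Stat3_307 Stat4_307 Stat5_307
open Crest.Agent.R146.Cert_109
open scoped NNReal

theorem contDiff_two {f f1 f2 : ℝ → ℝ} (h1 : ∀ x, HasDerivAt f (f1 x) x)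
    (h2 : ∀ x, HasDerivAt f1 (f2 x) x) (hc : Continuous f2) : ContDiff ℝ 2 f := by
  have hd : deriv f = f1 := funext fun x => (h1 x).deriv
  have hd1 : deriv f1 = f2 := funext fun x => (h2 x).deriv
  have h3 : ContDiff ℝ 1 f1 := contDiff_one_iff_deriv.2
    ⟨fun x => (h2 x).differentiableAt, by rw [hd1]; exact hc⟩
  have h4 : ContDiff ℝ (1 + 1) f := contDiff_succ_iff_deriv.2
    ⟨fun x => (h1 x).differentiableAt, by simp, by rw [hd]; exact h3⟩
  norm_num at h4
  exact h4

variable {ν : ℝ} {W W1 : ℝ → ℝ}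

/-- The constants of the drift. -/
noncomputable def aC (ν : ℝ) : ℝ := 1 - 2 * ν
noncomputable def MC (ν : ℝ) : ℝ := 1 / (1 - 2 * ν)
noncomputable def ZC (ν : ℝ) : ℝ := (2 * MC ν + 1) / (1 - 2 * ν)

theorem drift (hν0 : 0 < ν) (hν : ν < 1 / 2) (h : IsProf ν W W1) :
    Drift (Af ν W) (A1f ν W1) (fun t => 2 * ν * W2f ν W W1 t) (aC ν) (MC ν) (ZC ν) where
  hA := h.hA
  hA1 := h.hA1
  a_pos := by unfold aC; linarith
  M_pos := by unfold MC; apply one_div_pos.2; linarith
  Z_pos := by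
    have h1 : 0 < 1 - 2 * ν := by linarith
    have h2 : 0 < MC ν := by unfold MC; positivity
    unfold ZC
    rw [le_div_iff₀ h1]
    linarith
  lt_A1 t := by
    have := h.p_pos hν0 hν t
    unfold aC A1f
    nlinarith
  A1_lt t := by
    have := h.p_lt hν0 hν t
    unfold A1f
    nlinarith
  A2_pos t := by
    have := h.W2_pos hν0 hν t
    positivity
  A2_lt t := by
    have h0 : 0 < 1 - 2 * ν := by linarith
    have h1 := h.W2_lt_one hν0 hν t
    have h2 := h.p_pos hν0 hν t
    have h3 : MC ν * (1 - 2 * ν) = 1 := by unfold MC; field_simp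
    have h4 : 0 < MC ν := by unfold MC; positivity
    have h5 : MC ν * A1f ν W1 t = 1 + MC ν * (2 * ν * W1 t) := by
      unfold A1f; linear_combination h3
    have h6 : 0 < MC ν * (2 * ν * W1 t) := by positivity
    show 2 * ν * W2f ν W W1 t < MC ν * A1f ν W1 t
    rw [h5]
    nlinarith
  right t _ := h.le_A hν0 t
  left t ht := by
    have h0 : 0 < 1 - 2 * ν := by linarith
    have h4 : 0 < MC ν := by unfold MC; positivity
    have h5 : ZC ν * (1 - 2 * ν) = 2 * MC ν + 1 := by unfold ZC; field_simp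
    have h6 : 1 ≤ ZC ν := by
      unfold ZC
      rw [le_div_iff₀ h0]
      linarith
    have ht0 : t < 0 := by linarith
    have h7 : W t ≤ 1 / 2 := by
      refine (h.W_le t).trans ((IsProf.Wp_neg_le hν ht0).trans ?_)
      apply one_div_le_one_div_of_le (by norm_num)
      linarith
    have h8 := h.nonneg t
    unfold Af aC
    nlinarith

/-- The stationary pair: profile, eigenvalue, Riccati variable. -/
structure IsStat (ν : ℝ) (W W1 : ℝ → ℝ) (lam : ℝ) (Y : ℝ → ℝ) : Prop where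
  pos : 0 < ν
  lt : ν < 1 / 2
  prof : IsProf ν W W1
  dY : ∀ t, HasDerivAt Y (Y t ^ 2 + Af ν W t * Y t - A1f ν W1 t + lam) t
  Y_nonneg : ∀ t, 0 ≤ Y t
  Y_le : ∀ t, Y t ≤ bd (aC ν) (MC ν) (ZC ν) t
  lam_ge : 1 - 2 * ν ≤ lam
  lam_le : lam ≤ 1

/-- **Existence of the stationary pair for every constant `0 < ν < 1/2`.** -/
theorem exists_isStat (hν0 : 0 < ν) (hν : ν < 1 / 2) :
    ∃ W W1 : ℝ → ℝ, ∃ lam : ℝ, ∃ Y : ℝ → ℝ, IsStat ν W W1 lam Y := by
  obtain ⟨W, W1, h⟩ := exists_isProf hν0 hν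
  obtain ⟨l, hl, Y, hY⟩ := exists_riccati (drift hν0 hν h)
  exact ⟨W, W1, l, Y, hν0, hν, h, fun t => (hY t).1, fun t => (hY t).2.1, fun t => (hY t).2.2,
    hl.1, hl.2⟩

namespace IsStat

variable {lam : ℝ} {Y : ℝ → ℝ}

lemma cY (h : IsStat ν W W1 lam Y) : Continuous Y :=
  continuous_iff_continuousAt.2 fun t => (h.dY t).continuousAt

lemma Y_le_M (h : IsStat ν W W1 lam Y) (t : ℝ) : Y t ≤ MC ν := (h.Y_le t).trans (bd_le _ _ _ _)


/-- first derivative of `Y` -/
noncomputable def Y1 (ν : ℝ) (W W1 : ℝ → ℝ) (lam : ℝ) (Y : ℝ → ℝ) (t : ℝ) : ℝ :=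
  Y t ^ 2 + Af ν W t * Y t - A1f ν W1 t + lam

lemma hY1 (h : IsStat ν W W1 lam Y) (t : ℝ) : HasDerivAt (Y1 ν W W1 lam Y)
    ((2 * Y t + Af ν W t) * Y1 ν W W1 lam Y t + A1f ν W1 t * Y t - 2 * ν * W2f ν W W1 t) t := by
  have h1 := ((((h.dY t).pow 2).add ((h.prof.hA t).mul (h.dY t))).sub (h.prof.hA1 t)).add_const lam
  refine h1.congr_deriv ?_
  simp only [Y1]
  push_cast
  ring

/-- `Y > 0`. -/
theorem Y_pos (h : IsStat ν W W1 lam Y) (x : ℝ) : 0 < Y x := by
  rcases eq_or_lt_of_le (h.Y_nonneg x) with h0 | h0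
  swap
  · exact h0
  exfalso
  obtain ⟨h1, h2⟩ := second_deriv_nonneg (g := Y) (g1 := Y1 ν W W1 lam Y) (a := x - 1)
    (b := x + 1) ⟨by linarith, by linarith⟩ (fun t _ => h.dY t) (h.hY1 x)
    (fun t _ => by rw [← h0]; exact h.Y_nonneg t)
  rw [h1, ← h0] at h2
  have h3 := h.prof.W2_pos h.pos h.lt x
  have h4 := h.pos
  nlinarith [mul_pos h4 h3]

lemma tendsto_Y_atTop (h : IsStat ν W W1 lam Y) : Tendsto Y atTop (𝓝 0) := by
  have h1 : Tendsto (fun t : ℝ => (MC ν + 1) / t) atTop (𝓝 0) :=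
    tendsto_const_nhds.div_atTop tendsto_id
  refine tendsto_of_tendsto_of_tendsto_of_le_of_le' tendsto_const_nhds h1
    (Eventually.of_forall h.Y_nonneg) ?_
  filter_upwards [eventually_gt_atTop 0] with t ht
  refine (h.Y_le t).trans ?_
  have hZ := (drift h.pos h.lt h.prof).Z_pos
  unfold bd
  rw [if_neg (by linarith), if_pos ht]
  exact min_le_right _ _

lemma tendsto_Y_atBot (h : IsStat ν W W1 lam Y) : Tendsto Y atBot (𝓝 0) := by
  have h1 : Tendsto (fun t : ℝ => (2 / aC ν + 1) / (-t)) atBot (𝓝 0) :=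
    tendsto_const_nhds.div_atTop tendsto_neg_atBot_atTop
  refine tendsto_of_tendsto_of_tendsto_of_le_of_le' tendsto_const_nhds h1
    (Eventually.of_forall h.Y_nonneg) ?_
  filter_upwards [eventually_le_atBot (-ZC ν)] with t ht
  refine (h.Y_le t).trans ?_
  unfold bd
  rw [if_pos ht]
  exact min_le_right _ _

/-- `λ < 1`. -/
theorem lam_lt (h : IsStat ν W W1 lam Y) : lam < 1 := by
  rcases eq_or_lt_of_le h.lam_le with h0 | h0
  swap
  · exact h0
  exfalso
  have hmono : MonotoneOn Y (Ici 0) := by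
    apply monotoneOn_of_deriv_nonneg (convex_Ici 0) h.cY.continuousOn
    · exact fun t _ => (h.dY t).differentiableAt.differentiableWithinAt
    · intro t ht
      rw [interior_Ici] at ht
      have ht' : 0 < t := ht
      rw [(h.dY t).deriv, h0]
      have h1 := h.prof.le_A h.pos t
      have h2 := h.Y_nonneg t
      have h3 := (drift h.pos h.lt h.prof).A1_lt t
      nlinarith [sq_nonneg (Y t)]
  have h1 : Y 0 ≤ 0 := by
    refine ge_of_tendsto h.tendsto_Y_atTop ?_
    filter_upwards [eventually_ge_atTop 0] with t ht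
    exact hmono (mem_Ici.2 (le_refl (0 : ℝ))) (show t ∈ Ici 0 from ht) ht
  have := h.Y_pos 0
  linarith

/-- `λ > 1 - 2ν`. -/
theorem lt_lam (h : IsStat ν W W1 lam Y) : 1 - 2 * ν < lam := by
  rcases eq_or_lt_of_le h.lam_ge with h0 | h0
  swap
  · exact h0
  exfalso
  have hD := drift h.pos h.lt h.prof
  have hanti : AntitoneOn Y (Iic (-ZC ν)) := by
    apply antitoneOn_of_deriv_nonpos (convex_Iic _) h.cY.continuousOn
    · exact fun t _ => (h.dY t).differentiableAt.differentiableWithinAt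
    · intro t ht
      rw [interior_Iic] at ht
      have ht' : t < -ZC ν := ht
      rw [(h.dY t).deriv, ← h0]
      have h1 := hD.left t ht'.le
      have h2 := h.Y_nonneg t
      have h3 := h.Y_le_M t
      have h4 := hD.lt_A1 t
      have h5 := hD.Z_pos
      have h6 := hD.a_pos
      unfold aC at h1 h4 h6
      have h7 : Af ν W t + Y t ≤ 0 := by nlinarith
      nlinarith
  have h1 : Y (-ZC ν) ≤ 0 := by
    refine ge_of_tendsto h.tendsto_Y_atBot ?_
    filter_upwards [eventually_le_atBot (-ZC ν)] with t ht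
    exact hanti (show t ∈ Iic (-ZC ν) from ht) (mem_Iic.2 (le_refl (-ZC ν))) ht
  have := h.Y_pos (-ZC ν)
  linarith

/-- the stationary density -/
noncomputable def q (Y : ℝ → ℝ) (t : ℝ) : ℝ := Real.exp (-∫ r in (0 : ℝ)..t, Y r)

lemma q_pos (Y : ℝ → ℝ) (t : ℝ) : 0 < q Y t := Real.exp_pos _

lemma dq (h : IsStat ν W W1 lam Y) (t : ℝ) : HasDerivAt (q Y) (-(Y t) * q Y t) t := by
  have h1 := (h.cY.integral_hasStrictDerivAt 0 t).hasDerivAt
  have h2 := h1.neg.exp
  refine h2.congr_deriv ?_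
  show Real.exp (-∫ r in (0 : ℝ)..t, Y r) * -(Y t) = -(Y t) * Real.exp (-∫ r in (0 : ℝ)..t, Y r)
  ring

lemma dq1 (h : IsStat ν W W1 lam Y) (t : ℝ) : HasDerivAt (fun t => -(Y t) * q Y t)
    ((Y t ^ 2 - Y1 ν W W1 lam Y t) * q Y t) t := by
  have h1 := (h.dY t).neg.mul (h.dq t)
  refine h1.congr_deriv ?_
  simp only [Y1, Pi.neg_apply]
  ring

/-- `Profile` of the certificate. -/
theorem profile (h : IsStat ν W W1 lam Y) : Profile ν W where
  smooth := contDiff_two h.prof.d0 h.prof.hW1 h.prof.cW2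
  ode z := by
    have hd : deriv W = W1 := funext fun x => (h.prof.d0 x).deriv
    rw [hd, (h.prof.hW1 z).deriv]
    unfold W2f Af
    ring
  left := h.prof.tendsto_atBot h.lt
  right := h.prof.tendsto_atTop h.lt

/-- `Charge` of the certificate. -/
theorem charge (h : IsStat ν W W1 lam Y) : Charge ν lam W (q Y) where
  smooth := by
    refine contDiff_two h.dq h.dq1 ?_
    have h1 : Continuous (Y1 ν W W1 lam Y) :=
      continuous_iff_continuousAt.2 fun t => (h.hY1 t).continuousAt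
    have h2 : Continuous (q Y) := continuous_iff_continuousAt.2 fun t => (h.dq t).continuousAt
    exact ((h.cY.pow 2).sub h1).mul h2
  pos := q_pos Y
  ode z := by
    have hd : deriv (q Y) = fun t => -(Y t) * q Y t := funext fun x => (h.dq x).deriv
    rw [hd, (h.dq1 z).deriv]
    have h1 : HasDerivAt (fun z => (z + 2 * ν * (W z - z)) * q Y z)
        (A1f ν W1 z * q Y z + Af ν W z * (-(Y z) * q Y z)) z := (h.prof.hA z).mul (h.dq z)
    rw [h1.deriv]
    unfold Y1
    ring
  growth := by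
    refine ⟨1, MC ν, fun z => ?_⟩
    rw [one_mul, q]
    apply Real.exp_le_exp.2
    have h1 : ‖∫ r in (0 : ℝ)..z, Y r‖ ≤ MC ν * |z - 0| :=
      intervalIntegral.norm_integral_le_of_norm_le_const fun r _ => by
        rw [Real.norm_eq_abs, abs_of_nonneg (h.Y_nonneg r)]
        exact h.Y_le_M r
    rw [sub_zero, Real.norm_eq_abs] at h1
    have h2 := abs_le.1 h1
    linarith


end IsStat

end Crest.Agent.R146.Stat6_307
end

-- ▼ part R146/Stat7_307

/-!
# Row 146: existence of the stationary pair `SPair` for every `0 < c < 1`, and the way back to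
the certificate `Cert_109.enclosure`.
-/

namespace Crest.Agent.R146.Stat7_307

open Set Filter Topology
open Stat2_307 Stat4_307 Stat5_307 Stat6_307 SPair_307 Cert_109

/-- **Existence of the stationary pair** in the clock `χ = D K₀`. -/
theorem exists_spair {c : ℝ} (hc0 : 0 < c) (hc1 : c < 1) :
    ∃ W V I k : ℝ → ℝ, ∃ lam : ℝ, SPair c W V I k lam := by
  set ν := c / (1 + c) with hν
  have h1c : 0 < 1 + c := by linarith
  have hν0 : 0 < ν := by positivity
  have hν1 : ν < 1 / 2 := by rw [hν, div_lt_div_iff₀ h1c (by norm_num)]; linarith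
  obtain ⟨Wo, W1o, lamo, Yo, h⟩ := exists_isStat hν0 hν1
  set s := Real.sqrt (1 + c) with hs
  have hs0 : 0 < s := Real.sqrt_pos.2 h1c
  have hss : s ^ 2 = 1 + c := Real.sq_sqrt h1c.le
  have hνc : ν * (1 + c) = c := by rw [hν]; field_simp
  have hνs : ν * s ^ 2 = c := by rw [hss, hνc]
  have hk1 : 1 / (1 - ν) = s ^ 2 := by
    rw [hss, hν]
    field_simp
    ring
  have hWm : StrictMono Wo := strictMono_of_deriv_pos fun t => by
    rw [(h.prof.d0 t).deriv]; exact h.prof.p_pos hν0 hν1 t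
  have hUm : StrictAnti fun t => Wo t - t := by
    apply strictAnti_of_deriv_neg
    intro t
    have e : deriv (fun t => Wo t - t) t = W1o t - 1 :=
      ((h.prof.d0 t).sub (hasDerivAt_id t)).deriv
    rw [e]
    linarith [h.prof.p_lt hν0 hν1 t]
  have hmul : ∀ x : ℝ, HasDerivAt (fun x => s * x) s x := fun x => by
    simpa using (hasDerivAt_id x).const_mul s
  have hD := drift hν0 hν1 h.prof
  refine ⟨fun x => Wo (s * x) / s, fun x => W1o (s * x), fun x => s * W2f ν Wo W1o (s * x),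
    fun x => s * Yo (s * x), (1 + c) / 2 * lamo, ?_⟩
  refine
    { c_pos := hc0
      c_lt := hc1
      dW := fun x => ?_
      dV := fun x => ?_
      eqI := fun x => ?_
      W_pos := fun x => ?_
      U_pos := fun x => ?_
      W_le := fun x => ?_
      V_pos := fun x => h.prof.p_pos hν0 hν1 _
      V_lt := fun x => h.prof.p_lt hν0 hν1 _
      I_pos := fun x => mul_pos hs0 (h.prof.W2_pos hν0 hν1 _)
      I_le := fun x => ?_
      dk := fun x => ?_
      k_pos := fun x => mul_pos hs0 (h.Y_pos _)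
      k_bdd := ⟨s * MC ν, fun x => mul_le_mul_of_nonneg_left (h.Y_le_M _) hs0.le⟩
      k_right := ⟨MC ν + 1, fun x hx => ?_⟩
      k_left := ⟨max (2 / aC ν + 1) (MC ν * ZC ν), fun x hx => ?_⟩
      lam_gt := ?_
      lam_lt := ?_ }
  · have h1 := ((h.prof.d0 (s * x)).comp x (hmul x)).div_const s
    refine h1.congr_deriv ?_
    field_simp
  · have h1 := (h.prof.hW1 (s * x)).comp x (hmul x)
    refine h1.congr_deriv ?_
    ring
  · simp only [W2f, Af, Ad]
    have e1 : (1 + c) * (Wo (s * x) / s) = s * Wo (s * x) := by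
      rw [← hss]; field_simp
    rw [e1, ← hss, ← hνs]
    field_simp
    ring
  · have h1 := hWm (show s * x - 1 < s * x by linarith)
    have h2 := h.prof.nonneg (s * x - 1)
    have : 0 < Wo (s * x) := by linarith
    positivity
  · have h1 := hUm (show s * x < s * x + 1 by linarith)
    have h2 := h.prof.le_W (s * x + 1)
    simp only at h1
    rw [lt_div_iff₀ hs0]
    linarith
  · have h1 := h.prof.W_le (s * x)
    have h2 : rr ν (s * x) = s * Real.sqrt (x ^ 2 + 1) := by
      rw [rr, hk1, show (s * x) ^ 2 + s ^ 2 = s ^ 2 * (x ^ 2 + 1) by ring,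
        Real.sqrt_mul (by positivity), Real.sqrt_sq hs0.le]
    rw [Wp, h2] at h1
    show Wo (s * x) / s ≤ _
    rw [div_le_iff₀ hs0]
    linarith
  · show s * W2f ν Wo W1o (s * x) ≤ (1 + c) * (Wo (s * 0) / s)
    have h1 := h.prof.W2_le hν0 hν1 (s * x)
    have e1 : (1 + c) * (Wo (s * 0) / s) = s * Wo 0 := by
      rw [mul_zero, ← hss]; field_simp
    rw [e1]
    exact mul_le_mul_of_nonneg_left h1 hs0.le
  · have h1 := ((h.dY (s * x)).comp x (hmul x)).const_mul s
    refine h1.congr_deriv ?_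
    simp only [Af, A1f, Ad, Ad1]
    have hs' : s ≠ 0 := hs0.ne'
    have e1 : s * ((Yo (s * x) ^ 2 + (s * x + 2 * ν * (Wo (s * x) - s * x)) * Yo (s * x)
        - (1 + 2 * ν * (W1o (s * x) - 1)) + lamo) * s) =
        (s * Yo (s * x)) ^ 2 + (s ^ 2 * x + 2 * (ν * s ^ 2) * (Wo (s * x) / s - x)) *
          (s * Yo (s * x)) - (s ^ 2 - 2 * (ν * s ^ 2) * (1 - W1o (s * x))) + s ^ 2 * lamo := by
      field_simp
      ring
    rw [e1, hνs, hss]
    ring
  · show s * Yo (s * x) ≤ (MC ν + 1) / x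
    have h1 := h.Y_le (s * x)
    have hsx : 0 < s * x := mul_pos hs0 hx
    have hZ := hD.Z_pos
    unfold bd at h1
    rw [if_neg (by linarith), if_pos hsx] at h1
    have h2 := h1.trans (min_le_right _ _)
    rw [le_div_iff₀ hsx] at h2
    rw [le_div_iff₀ hx]
    linarith
  · show s * Yo (s * x) ≤ _ / (-x)
    have hnx : 0 < -x := by linarith
    rw [le_div_iff₀ hnx]
    have hZ := hD.Z_pos
    by_cases hcase : s * x ≤ -ZC ν
    · have h1 := h.Y_le (s * x)
      unfold bd at h1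
      rw [if_pos hcase] at h1
      have h2 := h1.trans (min_le_right _ _)
      have h3 : 0 < -(s * x) := by nlinarith
      rw [le_div_iff₀ h3] at h2
      refine le_trans ?_ (le_max_left _ _)
      linarith
    · push Not at hcase
      refine le_trans ?_ (le_max_right _ _)
      have h1 := h.Y_le_M (s * x)
      have h2 := h.Y_nonneg (s * x)
      have h3 : -(s * x) ≤ ZC ν := by linarith
      have h4 : 0 ≤ -(s * x) := by nlinarith
      calc s * Yo (s * x) * -x = Yo (s * x) * (-(s * x)) := by ring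
        _ ≤ MC ν * ZC ν := mul_le_mul h1 h3 h4 (h2.trans h1)
  · have h1 := h.lt_lam
    have h2 : (1 + c) / 2 * (1 - 2 * ν) = (1 - c) / 2 := by linear_combination -hνc
    have h3 : (1 + c) / 2 * (1 - 2 * ν) < (1 + c) / 2 * lamo :=
      mul_lt_mul_of_pos_left h1 (by linarith)
    linarith
  · have h1 := h.lam_lt
    have h3 : (1 + c) / 2 * lamo < (1 + c) / 2 * 1 := mul_lt_mul_of_pos_left h1 (by linarith)
    linarith

/-! ## back to the certificate -/

section back

variable {c : ℝ} {W V I k : ℝ → ℝ} {lam : ℝ}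

/-- stationary density in `ξ` -/
noncomputable def qs (k : ℝ → ℝ) (x : ℝ) : ℝ := Real.exp (-∫ r in (0 : ℝ)..x, k r)

lemma qs_pos (k : ℝ → ℝ) (x : ℝ) : 0 < qs k x := Real.exp_pos _

lemma dqs (h : SPair c W V I k lam) (x : ℝ) : HasDerivAt (qs k) (-(k x) * qs k x) x := by
  have h1 := (h.ck.integral_hasStrictDerivAt 0 x).hasDerivAt
  have h2 := h1.neg.exp
  refine h2.congr_deriv ?_
  show Real.exp (-∫ r in (0 : ℝ)..x, k r) * -(k x) = -(k x) * Real.exp (-∫ r in (0 : ℝ)..x, k r)
  ring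

lemma tendsto_W (h : SPair c W V I k lam) : Tendsto W atBot (𝓝 0) := by
  have h2 : Tendsto (fun x : ℝ => 1 / (-(2 * x))) atBot (𝓝 0) := by
    have h2 : Tendsto (fun t : ℝ => -(2 * t)) atBot atTop := by
      have := tendsto_neg_atBot_atTop.const_mul_atTop (show (0 : ℝ) < 2 by norm_num)
      refine this.congr fun t => ?_
      ring
    exact h2.inv_tendsto_atTop.congr fun t => (one_div _).symm
  refine tendsto_of_tendsto_of_tendsto_of_le_of_le' tendsto_const_nhds h2
    (Eventually.of_forall fun x => (h.W_pos x).le) ?_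
  filter_upwards [eventually_lt_atBot 0] with x hx
  refine (h.W_le x).trans ?_
  have hr := Real.sq_sqrt (show (0 : ℝ) ≤ x ^ 2 + 1 by positivity)
  have hr0 := Real.sqrt_nonneg (x ^ 2 + 1)
  set r := Real.sqrt (x ^ 2 + 1)
  have h3 : -x ≤ r := by nlinarith
  rw [le_div_iff₀ (by linarith)]
  nlinarith

lemma tendsto_U (h : SPair c W V I k lam) : Tendsto (fun x => W x - x) atTop (𝓝 0) := by
  have h2 : Tendsto (fun x : ℝ => 1 / (2 * x)) atTop (𝓝 0) := by
    have h2 : Tendsto (fun t : ℝ => 2 * t) atTop atTop :=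
      tendsto_id.const_mul_atTop (by norm_num)
    exact h2.inv_tendsto_atTop.congr fun t => (one_div _).symm
  refine tendsto_of_tendsto_of_tendsto_of_le_of_le' tendsto_const_nhds h2
    (Eventually.of_forall fun x => sub_nonneg.2 (h.U_pos x).le) ?_
  filter_upwards [eventually_gt_atTop 0] with x hx
  have h1 := h.W_le x
  have hr := Real.sq_sqrt (show (0 : ℝ) ≤ x ^ 2 + 1 by positivity)
  have hr0 := Real.sqrt_nonneg (x ^ 2 + 1)
  set r := Real.sqrt (x ^ 2 + 1)
  have h3 : x ≤ r := by nlinarith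
  have h4 : (r - x) / 2 ≤ 1 / (2 * x) := by
    rw [le_div_iff₀ (by linarith)]
    nlinarith
  linarith

/-- From a stationary pair to `Profile`. -/
theorem profile (h : SPair c W V I k lam) {s : ℝ} (hs0 : 0 < s) (hss : s ^ 2 = 1 + c) :
    Profile (c / (1 + c)) (fun z => s * W (z / s)) := by
  have hdiv : ∀ z : ℝ, HasDerivAt (fun z => z / s) (1 / s) z := fun z =>
    (hasDerivAt_id z).div_const s
  have h1c : 0 < 1 + c := by linarith [h.c_pos]
  have d1 : ∀ z, HasDerivAt (fun z => s * W (z / s)) (V (z / s)) z := fun z => by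
    have h1 := ((h.dW (z / s)).comp z (hdiv z)).const_mul s
    refine h1.congr_deriv ?_
    field_simp
  have d2 : ∀ z, HasDerivAt (fun z => V (z / s)) (I (z / s) / s) z := fun z => by
    have h1 := (h.dV (z / s)).comp z (hdiv z)
    refine h1.congr_deriv ?_
    field_simp
  refine ⟨contDiff_two d1 d2 ((h.cI.comp (continuous_id.div_const s)).div_const s), ?_, ?_, ?_⟩
  · intro z
    have hd : deriv (fun z => s * W (z / s)) = fun z => V (z / s) := funext fun x => (d1 x).deriv
    rw [hd, (d2 z).deriv, h.eqI]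
    have hνc : c / (1 + c) = c / s ^ 2 := by rw [hss]
    rw [hνc]
    unfold Ad
    rw [← hss]
    field_simp
    ring
  · have h1 : Tendsto (fun z : ℝ => z / s) atBot atBot := tendsto_id.atBot_div_const hs0
    have h2 := ((tendsto_W h).comp h1).const_mul s
    simpa using h2
  · have h1 : Tendsto (fun z : ℝ => z / s) atTop atTop := tendsto_id.atTop_div_const hs0
    have h2 := ((tendsto_U h).comp h1).const_mul s
    rw [mul_zero] at h2
    refine h2.congr fun z => ?_
    simp only [Function.comp]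
    field_simp

/-- From a stationary pair to `Charge`. -/
theorem charge (h : SPair c W V I k lam) {s : ℝ} (hs0 : 0 < s) (hss : s ^ 2 = 1 + c) :
    Charge (c / (1 + c)) (2 * lam / (1 + c)) (fun z => s * W (z / s)) (fun z => qs k (z / s)) := by
  have hdiv : ∀ z : ℝ, HasDerivAt (fun z => z / s) (1 / s) z := fun z =>
    (hasDerivAt_id z).div_const s
  have h1c : 0 < 1 + c := by linarith [h.c_pos]
  have dW : ∀ z, HasDerivAt (fun z => s * W (z / s)) (V (z / s)) z := fun z => by
    have h1 := ((h.dW (z / s)).comp z (hdiv z)).const_mul s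
    refine h1.congr_deriv ?_
    field_simp
  have d1 : ∀ z, HasDerivAt (fun z => qs k (z / s)) (-(k (z / s)) / s * qs k (z / s)) z :=
    fun z => by
      have h1 := (dqs h (z / s)).comp z (hdiv z)
      refine h1.congr_deriv ?_
      field_simp
  have d2 : ∀ z, HasDerivAt (fun z => -(k (z / s)) / s * qs k (z / s))
      ((k (z / s) ^ 2 - (k (z / s) ^ 2 + 2 * Ad c W (z / s) * k (z / s) - 2 * Ad1 c V (z / s)
        + 2 * lam)) / s ^ 2 * qs k (z / s)) z := fun z => by
    have h1 := ((((h.dk (z / s)).comp z (hdiv z)).neg).div_const s).mul (d1 z)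
    refine h1.congr_deriv ?_
    simp only [Pi.neg_apply, Function.comp]
    field_simp
    ring
  have hcA : Continuous (Ad c W) := continuous_iff_continuousAt.2 fun x => (h.dA x).continuousAt
  have hcA1 : Continuous (Ad1 c V) := continuous_iff_continuousAt.2 fun x => (h.dA1 x).continuousAt
  have hcq : Continuous (qs k) := continuous_iff_continuousAt.2 fun x => (dqs h x).continuousAt
  have hck := h.ck
  have hcs : Continuous fun z : ℝ => z / s := continuous_id.div_const s
  refine ⟨contDiff_two d1 d2 ?_, fun z => qs_pos _ _, ?_, ?_⟩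
  · fun_prop
  · intro z
    have hd : deriv (fun z => qs k (z / s)) = fun z => -(k (z / s)) / s * qs k (z / s) :=
      funext fun x => (d1 x).deriv
    rw [hd, (d2 z).deriv]
    have hAq : HasDerivAt (fun z => (z + 2 * (c / (1 + c)) * (s * W (z / s) - z)) * qs k (z / s))
        ((1 + 2 * (c / (1 + c)) * (V (z / s) - 1)) * qs k (z / s) +
          (z + 2 * (c / (1 + c)) * (s * W (z / s) - z)) * (-(k (z / s)) / s * qs k (z / s))) z :=
      ((hasDerivAt_id z).add (((dW z).sub (hasDerivAt_id z)).const_mul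
        (2 * (c / (1 + c))))).mul (d1 z)
    rw [hAq.deriv, ← hss]
    unfold Ad Ad1
    rw [← hss]
    field_simp
    ring
  · obtain ⟨C, hC⟩ := h.k_bdd
    refine ⟨1, C / s, fun z => ?_⟩
    rw [one_mul, qs]
    apply Real.exp_le_exp.2
    have h1 : ‖∫ r in (0 : ℝ)..(z / s), k r‖ ≤ C * |z / s - 0| :=
      intervalIntegral.norm_integral_le_of_norm_le_const fun r _ => by
        rw [Real.norm_eq_abs, abs_of_pos (h.k_pos r)]
        exact hC r
    rw [sub_zero, Real.norm_eq_abs, abs_div, abs_of_pos hs0] at h1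
    have h2 := abs_le.1 h1
    have h3 : C / s * |z| = C * (|z| / s) := by ring
    rw [h3]
    linarith

/-- **Digits.** If the closure `λ = c` holds then `ν = c/(1+c)` is known to 7 digits. -/
theorem enclosure_of_closure (h : SPair c W V I k c) :
    0.2936533 < c / (1 + c) ∧ c / (1 + c) < 0.2936535 := by
  have h1c : 0 < 1 + c := by linarith [h.c_pos]
  have hs0 : 0 < Real.sqrt (1 + c) := Real.sqrt_pos.2 h1c
  have hss : Real.sqrt (1 + c) ^ 2 = 1 + c := Real.sq_sqrt h1c.le
  have hν1 : c / (1 + c) < 1 / 2 := by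
    rw [div_lt_div_iff₀ h1c (by norm_num)]; linarith [h.c_lt]
  have h2 := charge h hs0 hss
  rw [show 2 * c / (1 + c) = 2 * (c / (1 + c)) by ring] at h2
  exact enclosure (div_pos h.c_pos h1c) hν1 (profile h hs0 hss) h2

end back

end Crest.Agent.R146.Stat7_307
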