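import Crest.Agent.R146.SPair_307
import Crest.Agent.R146.RefX_355

-- ▼ part R146/Tail_34
section

/-!
# Row 146, helper34: static tails of the exact stationary pair

One-sided comparison (no integrals): if `d' ≤ 0` wherever `d > 0` on `(-∞, X]` and `d → 0` (or merely
`limsup d ≤ 0`) at `-∞`, then `d ≤ 0`.  Consequences for the ratios `W/V` (left), `U/R` (right) and for `k`.
-/

set_option autoImplicit false

namespace Crest.Agent.R146.Tail_34

open Set Filter Topology SPair_307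

/-! ### comparison lemmas -/

/-- if `d > 0` at `x0` and `d' ≤ 0` where `d > 0`, then `d` stays above `d x0 / 2` to the left. -/
lemma back_half {d d' : ℝ → ℝ} {x0 : ℝ} (hd : ∀ x ≤ x0, HasDerivAt d (d' x) x)
    (hle : ∀ x ≤ x0, 0 < d x → d' x ≤ 0) (h0 : 0 < d x0) : ∀ x ≤ x0, d x0 / 2 < d x := by
  intro x1 hx1
  by_contra hcon
  push Not at hcon
  have hcont : ContinuousOn d (Icc x1 x0) := fun x hx =>
    (hd x hx.2).continuousAt.continuousWithinAt
  set S := Icc x1 x0 ∩ d ⁻¹' Iic (d x0 / 2) with hS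
  have hScl : IsClosed S := hcont.preimage_isClosed_of_isClosed isClosed_Icc isClosed_Iic
  have hSne : S.Nonempty := ⟨x1, ⟨le_rfl, hx1⟩, hcon⟩
  have hSbd : BddAbove S := ⟨x0, fun y hy => hy.1.2⟩
  have hzS : sSup S ∈ S := hScl.csSup_mem hSne hSbd
  set z := sSup S with hz
  have hzx0 : z ≤ x0 := hzS.1.2
  have hpos : ∀ y ∈ Ioc z x0, 0 < d y := by
    intro y hy
    by_contra hneg
    push Not at hneg
    have : y ∈ S := ⟨⟨hzS.1.1.trans hy.1.le, hy.2⟩, by
      show d y ≤ d x0 / 2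
      linarith⟩
    exact absurd (le_csSup hSbd this) (not_le.2 hy.1)
  have hanti : AntitoneOn d (Icc z x0) := by
    apply antitoneOn_of_deriv_nonpos (convex_Icc z x0)
    · exact hcont.mono (Icc_subset_Icc_left hzS.1.1)
    · intro y hy
      rw [interior_Icc] at hy
      exact (hd y hy.2.le).differentiableAt.differentiableWithinAt
    · intro y hy
      rw [interior_Icc] at hy
      rw [(hd y hy.2.le).deriv]
      exact hle y hy.2.le (hpos y ⟨hy.1, hy.2.le⟩)
  have h1 := hanti (left_mem_Icc.2 hzx0) (right_mem_Icc.2 hzx0) hzx0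
  have h2 : d z ≤ d x0 / 2 := hzS.2
  linarith

/-- backward comparison on `(-∞, X]`. -/
lemma back_nonpos {d d' : ℝ → ℝ} {X : ℝ} (hd : ∀ x ≤ X, HasDerivAt d (d' x) x)
    (hle : ∀ x ≤ X, 0 < d x → d' x ≤ 0)
    (hlim : ∀ ε > 0, ∀ x0 ≤ X, ∃ x ≤ x0, d x < ε) : ∀ x ≤ X, d x ≤ 0 := by
  intro x0 hx0
  by_contra hcon
  push Not at hcon
  obtain ⟨x, hx, hlt⟩ := hlim (d x0 / 2) (by linarith) x0 hx0
  have := back_half (fun x hx => hd x (hx.trans hx0)) (fun x hx => hle x (hx.trans hx0)) hcon x hx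
  linarith

/-- forward comparison on `[X, ∞)`. -/
lemma fwd_nonpos {d d' : ℝ → ℝ} {X : ℝ} (hd : ∀ x, X ≤ x → HasDerivAt d (d' x) x)
    (hle : ∀ x, X ≤ x → 0 < d x → 0 ≤ d' x)
    (hlim : ∀ ε > 0, ∀ x0, X ≤ x0 → ∃ x, x0 ≤ x ∧ d x < ε) : ∀ x, X ≤ x → d x ≤ 0 := by
  have key : ∀ y ≤ -X, d (-y) ≤ 0 := by
    apply back_nonpos (d := fun y => d (-y)) (d' := fun y => -d' (-y))
    · intro y hy
      have := (hd (-y) (by linarith)).comp y (hasDerivAt_neg y)
      refine HasDerivAt.congr_deriv this ?_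
      ring
    · intro y hy hpos
      have := hle (-y) (by linarith) hpos
      linarith
    · intro ε hε x0 hx0
      obtain ⟨x, hx, hlt⟩ := hlim ε hε (-x0) (by linarith)
      exact ⟨-x, by linarith, by simpa using hlt⟩
  intro x hx
  have := key (-x) (by linarith)
  simpa using this



/-! ### decay at infinity -/

section pair

variable {c : ℝ} {W V I k : ℝ → ℝ} {lam : ℝ}

lemma sqrt_bound {t : ℝ} (ht : 0 < t) : Real.sqrt (t ^ 2 + 1) ≤ t + 1 / (2 * t) := by
  rw [Real.sqrt_le_left (by positivity)]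
  have : (t + 1 / (2 * t)) ^ 2 = t ^ 2 + 1 + 1 / (4 * t ^ 2) := by field_simp; ring
  rw [this]
  have : 0 < 1 / (4 * t ^ 2) := by positivity
  linarith

lemma W_left (h : SPair c W V I k lam) {x : ℝ} (hx : x < 0) : W x * (4 * (-x)) ≤ 1 := by
  have h1 := h.W_le x
  have ht : 0 < -x := by linarith
  have h2 := sqrt_bound ht
  have h3 : (-x) ^ 2 = x ^ 2 := by ring
  rw [h3] at h2
  have h4 : W x ≤ 1 / (4 * (-x)) := by
    have : 1 / (4 * (-x)) = (x + (-x + 1 / (2 * (-x)))) / 2 := by field_simp; ring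
    rw [this]
    linarith
  calc W x * (4 * (-x)) ≤ 1 / (4 * (-x)) * (4 * (-x)) := by gcongr
    _ = 1 := by
      have : (4 * (-x)) ≠ 0 := by nlinarith
      rw [one_div_mul_cancel this]

lemma U_right (h : SPair c W V I k lam) {x : ℝ} (hx : 0 < x) : (W x - x) * (4 * x) ≤ 1 := by
  have h1 := h.W_le x
  have h2 := sqrt_bound hx
  have h4 : W x - x ≤ 1 / (4 * x) := by
    have : 1 / (4 * x) = (x + (x + 1 / (2 * x))) / 2 - x := by field_simp; ring
    rw [this]
    linarith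
  calc (W x - x) * (4 * x) ≤ 1 / (4 * x) * (4 * x) := by gcongr
    _ = 1 := by field_simp

lemma V_le_W (h : SPair c W V I k lam) (x : ℝ) : V x ≤ W (x + 1) := by
  obtain ⟨z, hz, hzz⟩ := exists_hasDerivAt_eq_slope W V (show x < x + 1 by linarith)
    h.cW.continuousOn (fun y _ => h.dW y)
  have h1 := h.V_strictMono hz.1
  have h2 := h.W_pos x
  have h3 : V z = W (x + 1) - W x := by rw [hzz]; ring
  linarith

lemma R_le_U (h : SPair c W V I k lam) (x : ℝ) : 1 - V (x + 1) ≤ W x - x := by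
  obtain ⟨z, hz, hzz⟩ := exists_hasDerivAt_eq_slope W V (show x < x + 1 by linarith)
    h.cW.continuousOn (fun y _ => h.dW y)
  have h1 := h.V_strictMono hz.2
  have h2 := h.U_pos (x + 1)
  have h3 : V z = W (x + 1) - W x := by rw [hzz]; ring
  linarith

lemma W_small (h : SPair c W V I k lam) {ε : ℝ} (hε : 0 < ε) (x0 : ℝ) :
    ∃ x ≤ x0, W x < ε ∧ V x < ε := by
  obtain ⟨x, h1, h2⟩ : ∃ x : ℝ, x ≤ x0 ∧ x < -2 - 1 / ε :=
    ⟨min x0 (-3 - 1 / ε), min_le_left _ _, lt_of_le_of_lt (min_le_right _ _) (by linarith)⟩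
  have hpos : 0 < 1 / ε := by positivity
  have key : ∀ y : ℝ, y < -1 - 1 / ε → W y < ε := by
    intro y hy
    have h3 := W_left h (x := y) (by linarith)
    by_contra hcon
    push Not at hcon
    have h4 : ε * (4 * (-y)) ≤ 1 := le_trans (by gcongr; linarith) h3
    have h5 : 1 / ε < -y := by linarith
    rw [div_lt_iff₀ hε] at h5
    nlinarith
  exact ⟨x, h1, key x (by linarith), lt_of_le_of_lt (V_le_W h x) (key (x + 1) (by linarith))⟩

lemma U_small (h : SPair c W V I k lam) {ε : ℝ} (hε : 0 < ε) (x0 : ℝ) :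
    ∃ x, x0 ≤ x ∧ W x - x < ε ∧ 1 - V x < ε := by
  obtain ⟨x, h1, h2⟩ : ∃ x : ℝ, x0 ≤ x ∧ 2 + 1 / ε < x :=
    ⟨max x0 (3 + 1 / ε), le_max_left _ _, lt_of_lt_of_le (by linarith) (le_max_right _ _)⟩
  have hpos : 0 < 1 / ε := by positivity
  have key : ∀ y : ℝ, 1 + 1 / ε < y → W y - y < ε := by
    intro y hy
    have h3 := U_right h (x := y) (by linarith)
    by_contra hcon
    push Not at hcon
    have h4 : ε * (4 * y) ≤ 1 := le_trans (by gcongr; linarith) h3
    have h5 : 1 / ε < y := by linarith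
    rw [div_lt_iff₀ hε] at h5
    nlinarith
  refine ⟨x, h1, key x (by linarith), lt_of_le_of_lt ?_ (key (x - 1) (by linarith))⟩
  have := R_le_U h (x - 1)
  simpa using this

/-- `I = (1 - c) U + 2 A R`. -/
lemma eqI' (h : SPair c W V I k lam) (x : ℝ) :
    I x = (1 - c) * (W x - x) + 2 * Ad c W x * (1 - V x) := by
  rw [h.eqI x]
  unfold Ad
  ring

/-! ### ratios -/

/-- supersolution for `W / V` on the left. -/
theorem W_le_mul_V (h : SPair c W V I k lam) {φ φ' : ℝ → ℝ} {X : ℝ}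
    (hφ : ∀ x ≤ X, HasDerivAt φ (φ' x) x) (hφ0 : ∀ x ≤ X, 0 ≤ φ x)
    (hsup : ∀ x ≤ X, 1 + 2 * Ad c W x * φ x - (1 + c) * φ x ^ 2 ≤ φ' x) :
    ∀ x ≤ X, W x ≤ φ x * V x := by
  have key : ∀ x ≤ X, W x - φ x * V x ≤ 0 := by
    apply back_nonpos (d := fun x => W x - φ x * V x)
      (d' := fun x => V x - (φ' x * V x + φ x * I x))
    · intro x hx
      exact (h.dW x).sub ((hφ x hx).mul (h.dV x))
    · intro x hx hpos
      have e : V x - (φ' x * V x + φ x * I x)
          = V x * (1 + 2 * Ad c W x * φ x - (1 + c) * φ x ^ 2 - φ' x)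
            - (1 + c) * φ x * (W x - φ x * V x) := by
        rw [h.eqI x]; ring
      simp only [e]
      have h1 := hsup x hx
      have h2 := h.V_pos x
      have h3 := hφ0 x hx
      have h4 := h.c_pos
      have h5 : V x * (1 + 2 * Ad c W x * φ x - (1 + c) * φ x ^ 2 - φ' x) ≤ 0 :=
        mul_nonpos_of_nonneg_of_nonpos h2.le (by linarith)
      have h6 : 0 ≤ (1 + c) * φ x * (W x - φ x * V x) := by positivity
      linarith
    · intro ε hε x0 hx0
      obtain ⟨x, hx, h1, h2⟩ := W_small h hε x0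
      refine ⟨x, hx, ?_⟩
      have := mul_nonneg (hφ0 x (hx.trans hx0)) (h.V_pos x).le
      linarith
  intro x hx
  have := key x hx
  linarith

/-- subsolution for `W / V` on the left. -/
theorem mul_V_le_W (h : SPair c W V I k lam) {φ φ' : ℝ → ℝ} {X B : ℝ}
    (hφ : ∀ x ≤ X, HasDerivAt φ (φ' x) x) (hφ0 : ∀ x ≤ X, 0 ≤ φ x) (hφB : ∀ x ≤ X, φ x ≤ B)
    (hsub : ∀ x ≤ X, φ' x ≤ 1 + 2 * Ad c W x * φ x - (1 + c) * φ x ^ 2) :
    ∀ x ≤ X, φ x * V x ≤ W x := by
  have key : ∀ x ≤ X, φ x * V x - W x ≤ 0 := by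
    apply back_nonpos (d := fun x => φ x * V x - W x)
      (d' := fun x => (φ' x * V x + φ x * I x) - V x)
    · intro x hx
      exact ((hφ x hx).mul (h.dV x)).sub (h.dW x)
    · intro x hx hpos
      have e : (φ' x * V x + φ x * I x) - V x
          = -(V x * (1 + 2 * Ad c W x * φ x - (1 + c) * φ x ^ 2 - φ' x))
            - (1 + c) * φ x * (φ x * V x - W x) := by
        rw [h.eqI x]; ring
      simp only [e]
      have h1 := hsub x hx
      have h2 := h.V_pos x
      have h3 := hφ0 x hx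
      have h4 := h.c_pos
      have h5 : 0 ≤ V x * (1 + 2 * Ad c W x * φ x - (1 + c) * φ x ^ 2 - φ' x) :=
        mul_nonneg h2.le (by linarith)
      have h6 : 0 ≤ (1 + c) * φ x * (φ x * V x - W x) := by positivity
      linarith
    · intro ε hε x0 hx0
      have hB : 0 ≤ B := (hφ0 X le_rfl).trans (hφB X le_rfl)
      obtain ⟨x, hx, h1, h2⟩ := W_small h (ε := ε / (B + 1)) (by positivity) x0
      refine ⟨x, hx, ?_⟩
      have h3 := hφB x (hx.trans hx0)
      have h4 := h.W_pos x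
      have h5 := h.V_pos x
      have h6 : φ x * V x ≤ (B + 1) * V x := by
        have : φ x ≤ B + 1 := by linarith
        gcongr
      rw [lt_div_iff₀ (by positivity)] at h2
      nlinarith
  intro x hx
  have := key x hx
  linarith

/-- supersolution for `U / R` on the right. -/
theorem U_le_mul_R (h : SPair c W V I k lam) {φ φ' : ℝ → ℝ} {X : ℝ}
    (hφ : ∀ x, X ≤ x → HasDerivAt φ (φ' x) x) (hφ0 : ∀ x, X ≤ x → 0 ≤ φ x)
    (hsup : ∀ x, X ≤ x → φ' x ≤ -1 + 2 * Ad c W x * φ x + (1 - c) * φ x ^ 2) :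
    ∀ x, X ≤ x → W x - x ≤ φ x * (1 - V x) := by
  have key : ∀ x, X ≤ x → (W x - x) - φ x * (1 - V x) ≤ 0 := by
    apply fwd_nonpos (d := fun x => (W x - x) - φ x * (1 - V x))
      (d' := fun x => (V x - 1) - (φ' x * (1 - V x) + φ x * (0 - I x)))
    · intro x hx
      exact ((h.dW x).sub (hasDerivAt_id x)).sub
        ((hφ x hx).mul ((hasDerivAt_const x (1 : ℝ)).sub (h.dV x)))
    · intro x hx hpos
      have e : (V x - 1) - (φ' x * (1 - V x) + φ x * (0 - I x))
          = (1 - V x) * (-1 + 2 * Ad c W x * φ x + (1 - c) * φ x ^ 2 - φ' x)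
            + (1 - c) * φ x * ((W x - x) - φ x * (1 - V x)) := by
        rw [eqI' h x]; ring
      simp only [e]
      have h1 := hsup x hx
      have h2 := h.V_lt x
      have h3 := hφ0 x hx
      have h4 := h.c_lt
      have h5 : 0 ≤ (1 - V x) * (-1 + 2 * Ad c W x * φ x + (1 - c) * φ x ^ 2 - φ' x) :=
        mul_nonneg (by linarith) (by linarith)
      have h6 : 0 ≤ (1 - c) * φ x * ((W x - x) - φ x * (1 - V x)) :=
        mul_nonneg (mul_nonneg (by linarith) h3) hpos.le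
      linarith
    · intro ε hε x0 hx0
      obtain ⟨x, hx, h1, h2⟩ := U_small h hε x0
      refine ⟨x, hx, ?_⟩
      have := mul_nonneg (hφ0 x (hx0.trans hx)) (sub_nonneg.2 (h.V_lt x).le)
      linarith
  intro x hx
  have := key x hx
  linarith


/-! ### explicit ratios -/

lemma alg1 (A c x : ℝ) {D : ℝ} (hD : D ≠ 0) :
    (1 + 2 * A * (-x / D) - (1 + c) * (-x / D) ^ 2) * D ^ 2
      = D ^ 2 - 2 * A * x * D - (1 + c) * x ^ 2 := by
  field_simp
  ring

lemma alg2 (A c x : ℝ) {D : ℝ} (hD : D ≠ 0) :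
    (-1 + 2 * A * (x / D) + (1 - c) * (x / D) ^ 2) * D ^ 2
      = -D ^ 2 + 2 * A * x * D + (1 - c) * x ^ 2 := by
  field_simp

/-- `W/V ≤ t / ((1-c) t² + β)`, `t = -x`, for `x ≤ X < 0`. -/
theorem W_le_left (h : SPair c W V I k lam) {β X : ℝ} (hX : X < 0) (hβ : 0 ≤ β)
    (hcond : X ^ 2 * ((1 - c) * β - 2 + c * (1 - c) / 2) + β ^ 2 + β + c * β / 2 ≤ 0) :
    ∀ x ≤ X, W x * ((1 - c) * x ^ 2 + β) ≤ (-x) * V x := by
  have hc1 : 0 < 1 - c := sub_pos.2 h.c_lt
  have hD : ∀ x ≤ X, 0 < (1 - c) * x ^ 2 + β := by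
    intro x hx
    have : 0 < x ^ 2 := by have : x ≠ 0 := by linarith
                           positivity
    positivity
  have key := W_le_mul_V h (φ := fun x => (-x) / ((1 - c) * x ^ 2 + β))
    (φ' := fun x => ((1 - c) * x ^ 2 - β) / ((1 - c) * x ^ 2 + β) ^ 2) (X := X) ?_ ?_ ?_
  · intro x hx
    have h1 := key x hx
    have h2 := hD x hx
    rw [div_mul_eq_mul_div, le_div_iff₀ h2] at h1
    exact h1
  · intro x hx
    have h2 := hD x hx
    have h3 : HasDerivAt (fun x : ℝ => (1 - c) * x ^ 2 + β) ((1 - c) * (2 * x)) x := by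
      have := ((hasDerivAt_pow 2 x).const_mul (1 - c)).add_const β
      simpa using this
    have h4 := (hasDerivAt_neg x).div h3 h2.ne'
    refine h4.congr_deriv ?_
    congr 1
    ring
  · intro x hx
    exact div_nonneg (by linarith) (hD x hx).le
  · intro x hx
    have h2 := hD x hx
    have hx0 : x < 0 := by linarith
    have hW := W_left h hx0
    have hWp := h.W_pos x
    have hcp := h.c_pos
    rw [le_div_iff₀ (by positivity)]
    have e : (1 + 2 * Ad c W x * (-x / ((1 - c) * x ^ 2 + β))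
        - (1 + c) * (-x / ((1 - c) * x ^ 2 + β)) ^ 2) * ((1 - c) * x ^ 2 + β) ^ 2
        = ((1 - c) * x ^ 2 + β) ^ 2 - 2 * Ad c W x * x * ((1 - c) * x ^ 2 + β)
          - (1 + c) * x ^ 2 := alg1 _ _ _ h2.ne'
    rw [e]
    have e2 : ((1 - c) * x ^ 2 + β) ^ 2 - 2 * Ad c W x * x * ((1 - c) * x ^ 2 + β)
          - (1 + c) * x ^ 2 - ((1 - c) * x ^ 2 - β)
        = x ^ 2 * ((1 - c) * β - 2) + β ^ 2 + β
          + c / 2 * ((W x * (4 * -x)) * ((1 - c) * x ^ 2 + β)) := by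
      unfold Ad; ring
    have h5 : (W x * (4 * -x)) * ((1 - c) * x ^ 2 + β) ≤ 1 * ((1 - c) * x ^ 2 + β) := by gcongr
    have h6 : X ^ 2 ≤ x ^ 2 := by nlinarith
    have h7 : (1 - c) * β - 2 + c * (1 - c) / 2 ≤ 0 := by
      by_contra hcon
      push Not at hcon
      have : 0 < X ^ 2 := by have : X ≠ 0 := by linarith
                             positivity
      nlinarith [mul_pos this hcon, mul_nonneg hcp.le hβ]
    have h8 : x ^ 2 * ((1 - c) * β - 2 + c * (1 - c) / 2)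
        ≤ X ^ 2 * ((1 - c) * β - 2 + c * (1 - c) / 2) := by nlinarith
    have h9 : c / 2 * ((W x * (4 * -x)) * ((1 - c) * x ^ 2 + β))
        ≤ c / 2 * (1 * ((1 - c) * x ^ 2 + β)) := by gcongr
    nlinarith

/-- `W/V ≥ t / ((1-c) t² + β)`, `t = -x ≥ 0`, if `(1-c) β ≥ 2`. -/
theorem le_W_left (h : SPair c W V I k lam) {β : ℝ} (hβ : 2 ≤ (1 - c) * β) :
    ∀ x ≤ 0, (-x) * V x ≤ W x * ((1 - c) * x ^ 2 + β) := by
  have hc1 : 0 < 1 - c := sub_pos.2 h.c_lt
  have hβ0 : 0 < β := by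
    by_contra hcon
    push Not at hcon
    nlinarith
  have hD : ∀ x : ℝ, 0 < (1 - c) * x ^ 2 + β := fun x => by positivity
  have key := mul_V_le_W h (φ := fun x => (-x) / ((1 - c) * x ^ 2 + β))
    (φ' := fun x => ((1 - c) * x ^ 2 - β) / ((1 - c) * x ^ 2 + β) ^ 2) (X := 0)
    (B := 1 / β + 1 / (1 - c)) ?_ ?_ ?_ ?_
  · intro x hx
    have h1 := key x hx
    have h2 := hD x
    rw [div_mul_eq_mul_div, div_le_iff₀ h2] at h1
    exact h1
  · intro x hx
    have h2 := hD x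
    have h3 : HasDerivAt (fun x : ℝ => (1 - c) * x ^ 2 + β) ((1 - c) * (2 * x)) x := by
      have := ((hasDerivAt_pow 2 x).const_mul (1 - c)).add_const β
      simpa using this
    have h4 := (hasDerivAt_neg x).div h3 h2.ne'
    refine h4.congr_deriv ?_
    congr 1
    ring
  · intro x hx
    exact div_nonneg (by linarith) (hD x).le
  · intro x hx
    rw [div_le_iff₀ (hD x)]
    have e : (1 / β + 1 / (1 - c)) * ((1 - c) * x ^ 2 + β)
        = 1 + x ^ 2 + ((1 - c) * x ^ 2 / β + β / (1 - c)) := by field_simp; ring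
    rw [e]
    have : 0 ≤ (1 - c) * x ^ 2 / β + β / (1 - c) := by positivity
    nlinarith [sq_nonneg (x + 1)]
  · intro x hx
    have h2 := hD x
    have hWp := h.W_pos x
    have hcp := h.c_pos
    rw [div_le_iff₀ (by positivity)]
    have e : (1 + 2 * Ad c W x * (-x / ((1 - c) * x ^ 2 + β))
        - (1 + c) * (-x / ((1 - c) * x ^ 2 + β)) ^ 2) * ((1 - c) * x ^ 2 + β) ^ 2
        = ((1 - c) * x ^ 2 + β) ^ 2 - 2 * Ad c W x * x * ((1 - c) * x ^ 2 + β)
          - (1 + c) * x ^ 2 := alg1 _ _ _ h2.ne'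
    rw [e]
    have e2 : ((1 - c) * x ^ 2 + β) ^ 2 - 2 * Ad c W x * x * ((1 - c) * x ^ 2 + β)
          - (1 + c) * x ^ 2 - ((1 - c) * x ^ 2 - β)
        = x ^ 2 * ((1 - c) * β - 2) + β ^ 2 + β
          + 2 * c * W x * (-x) * ((1 - c) * x ^ 2 + β) := by
      unfold Ad; ring
    have h5 : 0 ≤ 2 * c * W x * (-x) * ((1 - c) * x ^ 2 + β) := by
      have : 0 ≤ -x := by linarith
      positivity
    have h6 : 0 ≤ x ^ 2 * ((1 - c) * β - 2) := mul_nonneg (sq_nonneg x) (by linarith)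
    nlinarith

/-- `U/R ≤ t / ((1+c) t² + β)` for `t = x ≥ X > 0`. -/
theorem U_le_right (h : SPair c W V I k lam) {β X : ℝ} (hX : 0 < X) (hβ : 0 ≤ β)
    (hcond : β ^ 2 + β ≤ X ^ 2 * (2 - (1 + c) * β)) :
    ∀ x, X ≤ x → (W x - x) * ((1 + c) * x ^ 2 + β) ≤ x * (1 - V x) := by
  have hc1 : 0 < 1 + c := by linarith [h.c_pos]
  have hD : ∀ x, X ≤ x → 0 < (1 + c) * x ^ 2 + β := by
    intro x hx
    have : 0 < x ^ 2 := by have : x ≠ 0 := by linarith
                           positivity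
    positivity
  have key := U_le_mul_R h (φ := fun x => x / ((1 + c) * x ^ 2 + β))
    (φ' := fun x => (β - (1 + c) * x ^ 2) / ((1 + c) * x ^ 2 + β) ^ 2) (X := X) ?_ ?_ ?_
  · intro x hx
    have h1 := key x hx
    have h2 := hD x hx
    rw [div_mul_eq_mul_div, le_div_iff₀ h2] at h1
    exact h1
  · intro x hx
    have h2 := hD x hx
    have h3 : HasDerivAt (fun x : ℝ => (1 + c) * x ^ 2 + β) ((1 + c) * (2 * x)) x := by
      have := ((hasDerivAt_pow 2 x).const_mul (1 + c)).add_const β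
      simpa using this
    have h4 := (hasDerivAt_id x).div h3 h2.ne'
    refine h4.congr_deriv ?_
    congr 1
    simp only [id]
    ring
  · intro x hx
    exact div_nonneg (by linarith) (hD x hx).le
  · intro x hx
    have h2 := hD x hx
    have hx0 : 0 < x := by linarith
    have hUp : 0 < W x - x := sub_pos.2 (h.U_pos x)
    have hcp := h.c_pos
    rw [div_le_iff₀ (by positivity)]
    have e : (-1 + 2 * Ad c W x * (x / ((1 + c) * x ^ 2 + β))
        + (1 - c) * (x / ((1 + c) * x ^ 2 + β)) ^ 2) * ((1 + c) * x ^ 2 + β) ^ 2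
        = -((1 + c) * x ^ 2 + β) ^ 2 + 2 * Ad c W x * x * ((1 + c) * x ^ 2 + β)
          + (1 - c) * x ^ 2 := alg2 _ _ _ h2.ne'
    rw [e]
    have e2 : -((1 + c) * x ^ 2 + β) ^ 2 + 2 * Ad c W x * x * ((1 + c) * x ^ 2 + β)
          + (1 - c) * x ^ 2 - (β - (1 + c) * x ^ 2)
        = x ^ 2 * (2 - (1 + c) * β) - (β ^ 2 + β)
          + 2 * c * (W x - x) * x * ((1 + c) * x ^ 2 + β) := by
      unfold Ad; ring
    have h5 : 0 ≤ 2 * c * (W x - x) * x * ((1 + c) * x ^ 2 + β) := by positivity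
    have h6 : X ^ 2 ≤ x ^ 2 := by nlinarith
    have h7 : 0 ≤ 2 - (1 + c) * β := by
      by_contra hcon
      push Not at hcon
      have : 0 < X ^ 2 := by positivity
      nlinarith [mul_pos this (neg_pos.2 hcon)]
    have h8 : X ^ 2 * (2 - (1 + c) * β) ≤ x ^ 2 * (2 - (1 + c) * β) := by gcongr
    nlinarith


end pair

end Crest.Agent.R146.Tail_34
end

-- ▼ part R146/Tail2_34

/-!
# Row 146, helper34: tails of `q`, `k1`, `s`, `J` of the stationary pair (`|ξ| ≥ 3`)

`c ∈ [.4157, .4158]` (the closed pair).  Inputs (crude numbers, from the enclosure): bounds of `V, W` at `-3`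
and of `R, U` at `3`; they are propagated into the tails by `V t³`, `W t³` (resp. `R x³`, `U x³`) monotone.
-/

set_option autoImplicit false

namespace Crest.Agent.R146.Tail2_34

open Set Filter Topology SPair_307 RefX_355 Tail_34

variable {c : ℝ} {W V I k : ℝ → ℝ} {lam : ℝ}

/-- admissible range of `c` -/
structure CR (c : ℝ) : Prop where
  lo : 4157 / 10000 ≤ c
  hi : c ≤ 4158 / 10000

/-- numeric inputs at `±3` -/
structure In3 (W V : ℝ → ℝ) : Prop where
  V3 : V (-3) ≤ 1 / 200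
  W3 : W (-3) ≤ 1 / 400
  R3 : 1 - V 3 ≤ 1 / 2000
  U3 : W 3 - 3 ≤ 1 / 5000

/-! ### explicit ratio bounds -/

lemma z_up (h : SPair c W V I k lam) (hc : CR c) :
    ∀ x ≤ -3, W x * ((1 - c) * x ^ 2 + 199 / 100) ≤ (-x) * V x :=
  W_le_left h (by norm_num) (by norm_num) (by nlinarith [hc.lo, hc.hi, mul_nonneg (sub_nonneg.2 hc.lo) (sub_nonneg.2 hc.hi)])

lemma z_lo (h : SPair c W V I k lam) (hc : CR c) :
    ∀ x ≤ 0, (-x) * V x ≤ W x * ((1 - c) * x ^ 2 + 137 / 40) :=
  le_W_left h (by nlinarith [hc.lo, hc.hi])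

lemma y_up (h : SPair c W V I k lam) (hc : CR c) :
    ∀ x, 3 ≤ x → (W x - x) * ((1 + c) * x ^ 2 + 119 / 100) ≤ x * (1 - V x) :=
  U_le_right h (by norm_num) (by norm_num) (by nlinarith [hc.lo, hc.hi])



/-! ### decay -/

lemma Wt3 (h : SPair c W V I k lam) (hc : CR c) :
    ∀ x ≤ -3, W x * (-x) ^ 3 ≤ W (-3) * 27 := by
  have hmono : MonotoneOn (fun x => W x * (-x) ^ 3) (Iic (-3)) := by
    apply monotoneOn_of_deriv_nonneg (convex_Iic _)
    · exact (h.cW.mul (continuous_neg.pow 3)).continuousOn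
    · intro x hx
      exact ((h.dW x).mul ((hasDerivAt_neg x).pow 3)).differentiableAt.differentiableWithinAt
    · intro x hx
      rw [interior_Iic] at hx
      have hx' : x < -3 := hx
      have e : HasDerivAt (fun x => W x * (-x) ^ 3)
          (V x * (-x) ^ 3 + W x * (3 * (-x) ^ 2 * (-1))) x := by
        refine ((h.dW x).mul ((hasDerivAt_neg x).pow 3)).congr_deriv ?_
        simp only [Pi.pow_apply]
        push_cast
        ring
      rw [e.deriv]
      have h1 := z_up h hc x hx'.le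
      have h2 := h.W_pos x
      have hp : (0:ℝ) < (-x) ^ 2 := by have : 0 < -x := by linarith
                                       positivity
      have e2 : V x * (-x) ^ 3 + W x * (3 * (-x) ^ 2 * (-1))
          = (-x) ^ 2 * ((-x) * V x - 3 * W x) := by ring
      rw [e2]
      apply mul_nonneg hp.le
      have h3 : 3 ≤ (1 - c) * x ^ 2 + 199 / 100 := by nlinarith [hc.hi]
      nlinarith
  intro x hx
  have := hmono (show x ∈ Iic (-3) from hx) (show (-3:ℝ) ∈ Iic (-3:ℝ) from mem_Iic.2 le_rfl) hx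
  norm_num at this
  linarith


lemma I_left (h : SPair c W V I k lam) (x : ℝ) :
    I x = (1 + c) * W x + ((1 - c) * (-x) - 2 * c * W x) * V x := by
  rw [h.eqI x]; unfold Ad; ring

lemma Vt3 (h : SPair c W V I k lam) (hc : CR c) :
    ∀ x ≤ -3, V x * (-x) ^ 3 ≤ V (-3) * 27 := by
  have hmono : MonotoneOn (fun x => V x * (-x) ^ 3) (Iic (-3)) := by
    apply monotoneOn_of_deriv_nonneg (convex_Iic _)
    · exact (h.cV.mul (continuous_neg.pow 3)).continuousOn
    · intro x hx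
      exact ((h.dV x).mul ((hasDerivAt_neg x).pow 3)).differentiableAt.differentiableWithinAt
    · intro x hx
      rw [interior_Iic] at hx
      have hx' : x < -3 := hx
      have e : HasDerivAt (fun x => V x * (-x) ^ 3)
          (I x * (-x) ^ 3 + V x * (3 * (-x) ^ 2 * (-1))) x := by
        refine ((h.dV x).mul ((hasDerivAt_neg x).pow 3)).congr_deriv ?_
        simp only [Pi.pow_apply]
        push_cast
        ring
      rw [e.deriv]
      have h2 := h.W_pos x
      have h2' := h.V_pos x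
      have h4 := W_left h (x := x) (by linarith)
      have hp : (0:ℝ) < (-x) ^ 2 := by have : 0 < -x := by linarith
                                       positivity
      have e2 : I x * (-x) ^ 3 + V x * (3 * (-x) ^ 2 * (-1))
          = (-x) ^ 2 * ((-x) * I x - 3 * V x) := by ring
      rw [e2]
      apply mul_nonneg hp.le
      rw [I_left h x]
      have h3 : 3 ≤ (-x) * ((1 - c) * (-x) - 2 * c * W x) := by
        have : (-x) * ((1 - c) * (-x) - 2 * c * W x)
            = (1 - c) * x ^ 2 - c / 2 * (W x * (4 * -x)) := by ring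
        rw [this]
        nlinarith [hc.lo, hc.hi]
      have h5 : 0 ≤ (-x) * ((1 + c) * W x) := by
        have := hc.lo
        have : 0 ≤ -x := by linarith
        positivity
      nlinarith
  intro x hx
  have := hmono (show x ∈ Iic (-3) from hx) (show (-3:ℝ) ∈ Iic (-3:ℝ) from mem_Iic.2 le_rfl) hx
  norm_num at this
  linarith



/-- smallness on the left: `V ≤ 1/200`, `W t ≤ 3/400`, `V t² ≤ 9/200`, ... -/
lemma small_left (h : SPair c W V I k lam) (hc : CR c) (h3 : In3 W V) {x : ℝ} (hx : x ≤ -3) :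
    V x ≤ 1 / 200 ∧ W x ≤ 1 / 400 ∧ W x * (-x) ≤ 3 / 400 ∧ V x * (-x) ≤ 3 / 200 ∧
      V x * x ^ 2 ≤ 9 / 200 ∧ W x * x ^ 2 ≤ 9 / 400 := by
  have h1 := Vt3 h hc x hx
  have h2 := Wt3 h hc x hx
  have hV := h.V_pos x
  have hW := h.W_pos x
  have hV3 := h3.V3
  have hW3 := h3.W3
  have ht : 3 ≤ -x := by linarith
  set t := -x with htdef
  have e : x ^ 2 = t ^ 2 := by rw [htdef]; ring
  rw [e]
  have m1 : V x ≤ 1 / 200 := (h.V_strictMono.monotone hx).trans hV3
  have m2 : W x ≤ 1 / 400 := (h.W_strictMono.monotone hx).trans hW3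
  have q1 : V x * t ^ 2 ≤ 9 / 200 := by
    have : V x * t ^ 2 * 3 ≤ V x * t ^ 3 := by nlinarith [mul_pos hV (pow_pos (show 0 < t by linarith) 2)]
    linarith
  have q2 : W x * t ^ 2 ≤ 9 / 400 := by
    have : W x * t ^ 2 * 3 ≤ W x * t ^ 3 := by nlinarith [mul_pos hW (pow_pos (show 0 < t by linarith) 2)]
    linarith
  refine ⟨m1, m2, ?_, ?_, q1, q2⟩
  · have : W x * t * 3 ≤ W x * t ^ 2 := by nlinarith [mul_pos hW (show 0 < t by linarith)]
    linarith
  · have : V x * t * 3 ≤ V x * t ^ 2 := by nlinarith [mul_pos hV (show 0 < t by linarith)]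
    linarith

/-! ### `p = I/V`, `q = R/p`, `s` on the left -/

/-- the drift `a = -2A` on the left -/
noncomputable def al (c : ℝ) (W : ℝ → ℝ) (x : ℝ) : ℝ := (1 - c) * (-x) - 2 * c * W x

/-- `p = I / V` -/
noncomputable def px (V I : ℝ → ℝ) (x : ℝ) : ℝ := I x / V x


lemma p_eq (h : SPair c W V I k lam) (x : ℝ) :
    px V I x = (1 + c) * (W x / V x) + al c W x := by
  unfold px al
  rw [I_left h x]
  have := (h.V_pos x).ne'
  field_simp

lemma p_pos (h : SPair c W V I k lam) (x : ℝ) : 0 < px V I x :=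
  div_pos (h.I_pos x) (h.V_pos x)

lemma q_eq_left (h : SPair c W V I k lam) (x : ℝ) : qx V I x = (1 - V x) / px V I x := by
  unfold qx px
  have := (h.V_pos x).ne'
  have := (h.I_pos x).ne'
  field_simp

lemma k1_eq_left (c : ℝ) (W V I : ℝ → ℝ) (x : ℝ) :
    k1x c W V I x = al c W x + 2 * c * qx V I x := by
  unfold k1x al Ad; ring

lemma s_eq_left (h : SPair c W V I k lam) (x : ℝ) :
    sx c W V I x = (1 - V x) * (al c W x * px V I x + 2 * c * (1 - V x)) / px V I x ^ 2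
      + 3 * V x - 3 / 2 := by
  unfold sx
  rw [k1_eq_left, q_eq_left h x]
  have := (p_pos h x).ne'
  field_simp

/-- lower bound of `s` from `(1-m) p² ≤ a p + 2 c R` -/
lemma s_ge_of (h : SPair c W V I k lam) {x m : ℝ} (hm0 : 0 ≤ m)
    (hk : (1 - m) * px V I x ^ 2 ≤ al c W x * px V I x + 2 * c * (1 - V x)) :
    -1 / 2 - m ≤ sx c W V I x := by
  rw [s_eq_left h x]
  have hp := p_pos h x
  have hR : 0 < 1 - V x := sub_pos.2 (h.V_lt x)
  have hV := h.V_pos x
  have h1 : (1 - m - 3 * V x) ≤ (1 - V x) * (al c W x * px V I x + 2 * c * (1 - V x)) / px V I x ^ 2 := by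
    rw [le_div_iff₀ (by positivity)]
    have h2 : (1 - V x) * ((1 - m) * px V I x ^ 2)
        ≤ (1 - V x) * (al c W x * px V I x + 2 * c * (1 - V x)) := by gcongr
    have h3 : (1 - m - 3 * V x) * px V I x ^ 2 ≤ (1 - V x) * ((1 - m) * px V I x ^ 2) := by
      have : 0 < px V I x ^ 2 := by positivity
      nlinarith [mul_pos hV this, mul_nonneg (mul_nonneg hV.le hm0) this.le]
    linarith
  linarith

lemma cub1 {D : ℝ} (hD : 72 / 10 ≤ D) :
    0 ≤ (613 / 10000 * (D - 199 / 100) + 826 / 1000) * D ^ 2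
          - 79 / 100 * (14158 / 10000 * (D - 199 / 100)) * D
          - 895 / 1000 * (34313 / 10000 * (D - 199 / 100)) := by
  obtain ⟨u, hu⟩ : ∃ u, D = 72 / 10 + u := ⟨D - 72 / 10, by ring⟩
  have hu0 : 0 ≤ u := by linarith
  rw [hu]
  have e : (613 / 10000 * (72 / 10 + u - 199 / 100) + 826 / 1000) * (72 / 10 + u) ^ 2
          - 79 / 100 * (14158 / 10000 * (72 / 10 + u - 199 / 100)) * (72 / 10 + u)
          - 895 / 1000 * (34313 / 10000 * (72 / 10 + u - 199 / 100))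
      = 613 / 10000 * u ^ 3 + (613 / 10000 * (3 * 72 / 10 - 199 / 100) + 826 / 1000
          - 79 / 100 * 14158 / 10000) * u ^ 2
        + (613 / 10000 * (3 * (72 / 10) ^ 2 - 2 * (72 / 10) * (199 / 100)) + 826 / 1000 * (2 * 72 / 10)
          - 79 / 100 * 14158 / 10000 * (2 * 72 / 10 - 199 / 100) - 895 / 1000 * 34313 / 10000) * u
        + ((613 / 10000 * (72 / 10 - 199 / 100) + 826 / 1000) * (72 / 10) ^ 2
          - 79 / 100 * (14158 / 10000 * (72 / 10 - 199 / 100)) * (72 / 10)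
          - 895 / 1000 * (34313 / 10000 * (72 / 10 - 199 / 100))) := by ring
  rw [e]
  norm_num
  positivity

set_option maxHeartbeats 1000000 in
lemma algL {c t w v z : ℝ} (hcl : 4157 / 10000 ≤ c) (hch : c ≤ 4158 / 10000) (ht : 3 ≤ t)
    (hw : 0 < w) (hwt : w * t ≤ 3 / 400) (hv : v ≤ 1 / 200) (hz : 0 < z)
    (hzD : z * ((1 - c) * t ^ 2 + 199 / 100) ≤ t) :
    0 ≤ 105 / 1000 * ((1 - c) * t - 2 * c * w) ^ 2
      - 79 / 100 * ((1 - c) * t - 2 * c * w) * ((1 + c) * z) - 895 / 1000 * ((1 + c) * z) ^ 2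
        + 2 * c * (1 - v) := by
  obtain ⟨D, hD⟩ : ∃ D, D = (1 - c) * t ^ 2 + 199 / 100 := ⟨_, rfl⟩
  obtain ⟨a, hae⟩ : ∃ a, a = (1 - c) * t - 2 * c * w := ⟨_, rfl⟩
  obtain ⟨y, hy⟩ : ∃ y, y = (1 + c) * z := ⟨_, rfl⟩
  rw [← hD] at hzD
  rw [← hae, ← hy]
  have hc1 : 0 < 1 - c := by linarith
  have hyp : 0 < y := by rw [hy]; positivity
  have hD0 : 72 / 10 ≤ D := by
    rw [hD]
    have : 9 ≤ t ^ 2 := by nlinarith
    nlinarith
  have hDpos : 0 < D := by linarith
  have hyD : y * D ≤ (1 + c) * t := by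
    have : y * D = (1 + c) * (z * D) := by rw [hy]; ring
    rw [this]
    gcongr
  have hcw : 0 ≤ 2 * c * w := by positivity
  have hcw2 : 2 * c * w ≤ w := by nlinarith
  have hw3 : w ≤ 1 / 400 := by nlinarith
  have ha1 : a ≤ (1 - c) * t := by rw [hae]; linarith
  have hct0 : 1 ≤ (1 - c) * t := by nlinarith
  have ha0 : 0 ≤ a := by rw [hae]; linarith
  have ha2 : (1 - c) ^ 2 * t ^ 2 - 75 / 10000 ≤ a ^ 2 := by
    have e : a ^ 2 = (1 - c) ^ 2 * t ^ 2 - 4 * c * (1 - c) * (w * t) + 4 * c ^ 2 * w ^ 2 := by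
      rw [hae]; ring
    rw [e]
    have h5 : 4 * c * (1 - c) ≤ 1 := by nlinarith [sq_nonneg (2 * c - 1)]
    have h6 : 0 ≤ w * t := by positivity
    have h7 : 4 * c * (1 - c) * (w * t) ≤ 1 * (w * t) := by gcongr
    have h8 : 0 ≤ 4 * c ^ 2 * w ^ 2 := by positivity
    linarith
  have hyD0 : 0 ≤ y * D := by positivity
  have h1 : a * (y * D) ≤ ((1 - c) * t) * ((1 + c) * t) := by
    apply mul_le_mul ha1 hyD hyD0 (by linarith)
  have h2 : (y * D) ^ 2 ≤ ((1 + c) * t) ^ 2 := by gcongr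
  have ht2 : (1 - c) * t ^ 2 = D - 199 / 100 := by rw [hD]; ring
  have hD1 : 0 ≤ D - 199 / 100 := by linarith
  have hct : (1 + c) ^ 2 * t ^ 2 ≤ 34313 / 10000 * (D - 199 / 100) := by
    rw [← ht2]
    have : (1 + c) ^ 2 ≤ 34313 / 10000 * (1 - c) := by nlinarith
    nlinarith [sq_nonneg t]
  have e : (105 / 1000 * a ^ 2 - 79 / 100 * a * y - 895 / 1000 * y ^ 2 + 2 * c * (1 - v)) * D ^ 2
        = (105 / 1000 * a ^ 2 + 2 * c * (1 - v)) * D ^ 2 - 79 / 100 * (a * (y * D)) * D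
          - 895 / 1000 * (y * D) ^ 2 := by ring
  have f1 : (613 / 10000 * (D - 199 / 100) + 826 / 1000) * D ^ 2
      ≤ (105 / 1000 * a ^ 2 + 2 * c * (1 - v)) * D ^ 2 := by
    have g1 : 613 / 10000 * (D - 199 / 100) ≤ 105 / 1000 * ((1 - c) ^ 2 * t ^ 2) := by
      have e5 : 105 / 1000 * ((1 - c) ^ 2 * t ^ 2) = 105 / 1000 * (1 - c) * (D - 199 / 100) := by
        rw [← ht2]; ring
      rw [e5]
      exact mul_le_mul_of_nonneg_right (by linarith) hD1
    have g2 : 8272 / 10000 ≤ 2 * c * (1 - v) := by nlinarith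
    have g3 : 613 / 10000 * (D - 199 / 100) + 826 / 1000
        ≤ 105 / 1000 * a ^ 2 + 2 * c * (1 - v) := by linarith
    exact mul_le_mul_of_nonneg_right g3 (sq_nonneg D)
  have f2 : 79 / 100 * (a * (y * D)) * D
      ≤ 79 / 100 * (14158 / 10000 * (D - 199 / 100)) * D := by
    have g1 : a * (y * D) ≤ 14158 / 10000 * (D - 199 / 100) := by
      have e1 : ((1 - c) * t) * ((1 + c) * t) = (1 + c) * (D - 199 / 100) := by
        rw [← ht2]; ring
      rw [e1] at h1
      have := mul_le_mul_of_nonneg_right (show 1 + c ≤ 14158 / 10000 by linarith) hD1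
      linarith
    exact mul_le_mul_of_nonneg_right (by linarith) hDpos.le
  have f3 : 895 / 1000 * (y * D) ^ 2 ≤ 895 / 1000 * (34313 / 10000 * (D - 199 / 100)) := by
    have e1 : ((1 + c) * t) ^ 2 = (1 + c) ^ 2 * t ^ 2 := by ring
    rw [e1] at h2
    linarith
  have f4 := cub1 hD0
  by_contra hcon
  push Not at hcon
  have h9 := mul_neg_of_neg_of_pos hcon (show 0 < D ^ 2 by positivity)
  rw [e] at h9
  linarith

/-- `s ≥ -.605` for `x ≤ -3` -/
theorem sx_ge_left (h : SPair c W V I k lam) (hc : CR c) (h3 : In3 W V) {x : ℝ} (hx : x ≤ -3) :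
    -605 / 1000 ≤ sx c W V I x := by
  have key : (1 - (105 / 1000 : ℝ)) * px V I x ^ 2
      ≤ al c W x * px V I x + 2 * c * (1 - V x) := by
    obtain ⟨hVs, hWs, hWt, -, -, -⟩ := small_left h hc h3 hx
    have hzu := z_up h hc x hx
    have hVp := h.V_pos x
    have hWp := h.W_pos x
    have hzD : W x / V x * ((1 - c) * (-x) ^ 2 + 199 / 100) ≤ -x := by
      rw [div_mul_eq_mul_div, div_le_iff₀ hVp]
      have : (-x) ^ 2 = x ^ 2 := by ring
      rw [this]
      exact hzu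
    have := algL hc.lo hc.hi (by linarith : 3 ≤ -x) hWp hWt hVs (div_pos hWp hVp) hzD
    rw [p_eq h x]
    unfold al
    nlinarith
  have := s_ge_of h (by norm_num) key
  linarith

set_option maxHeartbeats 1000000 in
lemma algL2 {c t w z : ℝ} (hcl : 4157 / 10000 ≤ c) (hch : c ≤ 4158 / 10000) (ht : 3 ≤ t)
    (hw : 0 < w) (hwt : w * t ≤ 3 / 400) (hz : 0 < z)
    (hzD : t ≤ z * ((1 - c) * t ^ 2 + 137 / 40)) :
    95 / 100 ≤ (1 + c) * z * (((1 - c) * t - 2 * c * w) + (1 + c) * z) := by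
  obtain ⟨D, hD⟩ : ∃ D, D = (1 - c) * t ^ 2 + 137 / 40 := ⟨_, rfl⟩
  obtain ⟨a, hae⟩ : ∃ a, a = (1 - c) * t - 2 * c * w := ⟨_, rfl⟩
  obtain ⟨y, hy⟩ : ∃ y, y = (1 + c) * z := ⟨_, rfl⟩
  rw [← hD] at hzD
  rw [← hae, ← hy]
  have hc1 : 0 < 1 - c := by linarith
  have hyp : 0 < y := by rw [hy]; positivity
  have hD0 : 868 / 100 ≤ D := by
    rw [hD]
    have : 9 ≤ t ^ 2 := by nlinarith
    nlinarith
  have hDpos : 0 < D := by linarith
  have hyD : (1 + c) * t ≤ y * D := by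
    have : y * D = (1 + c) * (z * D) := by rw [hy]; ring
    rw [this]
    gcongr
  have hcw : 0 ≤ 2 * c * w := by positivity
  have hcw2 : 2 * c * w ≤ w := by nlinarith
  have hw3 : w ≤ 1 / 400 := by nlinarith
  have ha0 : (1 - c) * t - 3 / 1000 ≤ a := by rw [hae]; linarith
  have hct0 : 1 ≤ (1 - c) * t := by nlinarith
  have ht2 : (1 - c) * t ^ 2 = D - 137 / 40 := by rw [hD]; ring
  have h0 : 0 ≤ (1 - c) * t - 3 / 1000 := by linarith
  have hge : (1 + c) * t * (((1 - c) * t - 3 / 1000) * D + (1 + c) * t)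
      ≤ (y * D) * (a * D + y * D) := by
    have g1 : ((1 - c) * t - 3 / 1000) * D + (1 + c) * t ≤ a * D + y * D := by
      have := mul_le_mul_of_nonneg_right ha0 hDpos.le
      linarith
    apply mul_le_mul hyD g1 _ (by positivity)
    have : 0 ≤ ((1 - c) * t - 3 / 1000) * D := mul_nonneg h0 hDpos.le
    positivity
  have e : (1 + c) * t * (((1 - c) * t - 3 / 1000) * D + (1 + c) * t)
      = (1 + c) * ((D - 137 / 40) * D) - 3 / 1000 * ((1 + c) * t) * D + (1 + c) ^ 2 * t ^ 2 := by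
    rw [← ht2]; ring
  have e1 : 14157 / 10000 * ((D - 137 / 40) * D) ≤ (1 + c) * ((D - 137 / 40) * D) := by
    have : 0 ≤ (D - 137 / 40) * D := mul_nonneg (by linarith) hDpos.le
    exact mul_le_mul_of_nonneg_right (by linarith) this
  have e2 : 3 / 1000 * ((1 + c) * t) * D ≤ 3 / 1000 * D * D := by
    have : (1 + c) * t ≤ D := by
      rw [hD]
      nlinarith [sq_nonneg (t - 3)]
    exact mul_le_mul_of_nonneg_right (by linarith) hDpos.le
  have e3 : 34 / 10 * (D - 137 / 40) ≤ (1 + c) ^ 2 * t ^ 2 := by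
    rw [← ht2]
    have : 34 / 10 * (1 - c) ≤ (1 + c) ^ 2 := by nlinarith
    nlinarith [sq_nonneg t]
  have h1 : 95 / 100 * D ^ 2 ≤ (y * D) * (a * D + y * D) := by
    refine le_trans ?_ hge
    rw [e]
    nlinarith [mul_nonneg (sub_nonneg.2 hD0) (sub_nonneg.2 hD0)]
  have e4 : (y * D) * (a * D + y * D) = y * (a + y) * D ^ 2 := by ring
  rw [e4] at h1
  exact le_of_mul_le_mul_right h1 (by positivity)

set_option maxHeartbeats 1000000 in
lemma algL3 {c t w v z : ℝ} (hcl : 4157 / 10000 ≤ c) (hch : c ≤ 4158 / 10000) (ht : 3 ≤ t)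
    (hw : 0 < w) (hwt : w * t ≤ 3 / 400) (hv0 : 0 < v) (hv : v * t ^ 2 ≤ 9 / 200) (hz : 0 < z)
    (hzD : z * ((1 - c) * t ^ 2 + 199 / 100) ≤ t) :
    v * (((1 - c) * t - 2 * c * w) + (1 + c) * z) ^ 2 ≤ 35 / 1000 := by
  have hc1 : 0 < 1 - c := by linarith
  have hz1 : z ≤ 45 / 100 := by
    by_contra hcon
    push Not at hcon
    have h0 : 0 < (1 - c) * t ^ 2 + 199 / 100 := by positivity
    have h1 := mul_lt_mul_of_pos_right hcon h0
    nlinarith [sq_nonneg (t - 3)]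
  have hcw : 0 ≤ 2 * c * w := by positivity
  have hcw2 : 2 * c * w ≤ w := by nlinarith
  have hw3 : w ≤ 1 / 400 := by nlinarith
  have hct0 : 1 ≤ (1 - c) * t := by nlinarith
  have hay : ((1 - c) * t - 2 * c * w) + (1 + c) * z ≤ 8 / 10 * t := by nlinarith
  have hay0 : 0 ≤ ((1 - c) * t - 2 * c * w) + (1 + c) * z := by
    have : 0 < (1 + c) * z := by positivity
    linarith
  calc v * (((1 - c) * t - 2 * c * w) + (1 + c) * z) ^ 2 ≤ v * (8 / 10 * t) ^ 2 := by gcongr
    _ = 64 / 100 * (v * t ^ 2) := by ring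
    _ ≤ 64 / 100 * (9 / 200) := by gcongr
    _ ≤ 35 / 1000 := by norm_num

/-- `s ≤ -1/2` for `x ≤ -3` -/
theorem sx_le_left (h : SPair c W V I k lam) (hc : CR c) (h3 : In3 W V) {x : ℝ} (hx : x ≤ -3) :
    sx c W V I x ≤ -1 / 2 := by
  rw [s_eq_left h x]
  have hp := p_pos h x
  obtain ⟨hVs, hWs, hWt, hVt, hVt2, -⟩ := small_left h hc h3 hx
  have hzl := z_lo h hc x (by linarith)
  have hzu := z_up h hc x hx
  have hVp := h.V_pos x
  have hWp := h.W_pos x
  have ex : (-x) ^ 2 = x ^ 2 := by ring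
  have hzD : W x / V x * ((1 - c) * (-x) ^ 2 + 199 / 100) ≤ -x := by
    rw [div_mul_eq_mul_div, div_le_iff₀ hVp, ex]
    exact hzu
  have hzD2 : -x ≤ W x / V x * ((1 - c) * (-x) ^ 2 + 137 / 40) := by
    rw [div_mul_eq_mul_div, le_div_iff₀ hVp, ex]
    exact hzl
  have hyy := algL2 hc.lo hc.hi (by linarith : 3 ≤ -x) hWp hWt (div_pos hWp hVp) hzD2
  have hVp2 := algL3 hc.lo hc.hi (by linarith : 3 ≤ -x) hWp hWt hVp (by rw [ex]; exact hVt2)
    (div_pos hWp hVp) hzD
  obtain ⟨y, hy⟩ : ∃ y, y = (1 + c) * (W x / V x) := ⟨_, rfl⟩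
  obtain ⟨a, hae⟩ : ∃ a, a = al c W x := ⟨_, rfl⟩
  have hae' : a = (1 - c) * (-x) - 2 * c * W x := hae
  rw [← hae', ← hy] at hyy hVp2
  have hpe : px V I x = a + y := by rw [p_eq h x, hae, hy]; ring
  have hR : 0 < 1 - V x := sub_pos.2 (h.V_lt x)
  rw [← hae]
  have h5 : (1 - V x) * (a * px V I x + 2 * c * (1 - V x)) / px V I x ^ 2 ≤ 1 - 3 * V x := by
    rw [div_le_iff₀ (by positivity), hpe]
    have e : (1 - 3 * V x) * (a + y) ^ 2 - (1 - V x) * (a * (a + y) + 2 * c * (1 - V x))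
        = (1 - V x) * (y * (a + y) - 2 * c * (1 - V x)) - 2 * (V x * (a + y) ^ 2) := by ring
    have h6 : 2 * c * (1 - V x) ≤ 8316 / 10000 := by nlinarith [hc.lo, hc.hi]
    have h7 : (1 - V x) * (95 / 100 - 8316 / 10000)
        ≤ (1 - V x) * (y * (a + y) - 2 * c * (1 - V x)) := by
      apply mul_le_mul_of_nonneg_left _ hR.le
      linarith
    nlinarith
  linarith

end Crest.Agent.R146.Tail2_34
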