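import Crest.Agent.R146.MaxPCmp2_371

/-!
Passage from `x` to the level `v` for the backward tip system (row 146, helper371).

`X V t v` is the inverse of `V t`; `I(t,v) = P t (X V t v)` solves the v-space equation
`I_t = -½ I² I_vv - b v(1-v) I_v + b (2-3v) I` (right time derivative).
-/

set_option autoImplicit false

open Set Filter Topology

namespace Crest.Agent.R146.VSpace_371

open MaxP_371 MaxP2_371 MaxPCmp_371


/-- the inverse function of `V t` -/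
noncomputable def X (V : ℝ → ℝ → ℝ) (t v : ℝ) : ℝ := Function.invFun (V t) v

/-- Backward tip system with strictly positive slope, full range and jointly continuous `P_x`. -/
structure BSysV (t0 t1 : ℝ) (b : ℝ → ℝ) (u V P Px Pxx : ℝ → ℝ → ℝ) (M : ℝ) : Prop
    extends BSys t0 t1 b u V P Px Pxx M where
  P_pos : ∀ t ∈ Ico t0 t1, ∀ x, 0 < P t x
  lim_bot : ∀ t ∈ Ico t0 t1, Tendsto (V t) atBot (𝓝 0)
  lim_top : ∀ t ∈ Ico t0 t1, Tendsto (V t) atTop (𝓝 1)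
  cPx : ContinuousOn (fun p : ℝ × ℝ => Px p.1 p.2) (Ico t0 t1 ×ˢ (univ : Set ℝ))

namespace BSysV

variable {t0 t1 : ℝ} {b : ℝ → ℝ} {u V P Px Pxx : ℝ → ℝ → ℝ} {M : ℝ}

lemma strictMono (h : BSysV t0 t1 b u V P Px Pxx M) {t : ℝ} (ht : t ∈ Ico t0 t1) :
    StrictMono (V t) := by
  apply strictMono_of_deriv_pos
  intro x; rw [(h.hVx t ht x).deriv]; exact h.P_pos t ht x

lemma continuous_V (h : BSysV t0 t1 b u V P Px Pxx M) {t : ℝ} (ht : t ∈ Ico t0 t1) :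
    Continuous (V t) :=
  continuous_iff_continuousAt.2 fun x => (h.hVx t ht x).continuousAt

lemma surj (h : BSysV t0 t1 b u V P Px Pxx M) {t : ℝ} (ht : t ∈ Ico t0 t1) {v : ℝ}
    (hv : v ∈ Ioo (0:ℝ) 1) : ∃ x, V t x = v := by
  have h1 : ∀ᶠ x in atBot, V t x < v := (h.lim_bot t ht).eventually (gt_mem_nhds hv.1)
  have h2 : ∀ᶠ x in atTop, v < V t x := (h.lim_top t ht).eventually (lt_mem_nhds hv.2)
  obtain ⟨a, ha⟩ := h1.exists
  obtain ⟨c, hc⟩ := h2.exists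
  have hac : a ≤ c := by
    by_contra hcon
    push Not at hcon
    exact absurd ((h.strictMono ht).lt_iff_lt.2 hcon) (not_lt.2 (ha.le.trans hc.le))
  obtain ⟨x, _, hx⟩ := intermediate_value_Icc hac (h.continuous_V ht).continuousOn ⟨ha.le, hc.le⟩
  exact ⟨x, hx⟩

lemma V_X (h : BSysV t0 t1 b u V P Px Pxx M) {t : ℝ} (ht : t ∈ Ico t0 t1) {v : ℝ}
    (hv : v ∈ Ioo (0:ℝ) 1) : V t (X V t v) = v :=
  Function.invFun_eq (h.surj ht hv)


lemma V_mem (h : BSysV t0 t1 b u V P Px Pxx M) {t : ℝ} (ht : t ∈ Ico t0 t1) (x : ℝ) :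
    V t x ∈ Ioo (0:ℝ) 1 := ⟨h.V_pos t ⟨ht.1, ht.2.le⟩ x, h.V_lt t ⟨ht.1, ht.2.le⟩ x⟩








/-- the slope as a function of the level -/
noncomputable def I (V P : ℝ → ℝ → ℝ) (t v : ℝ) : ℝ := P t (X V t v)

noncomputable def Iv (V P Px : ℝ → ℝ → ℝ) (t v : ℝ) : ℝ := Px t (X V t v) / P t (X V t v)


lemma I_pos (h : BSysV t0 t1 b u V P Px Pxx M) {t : ℝ} (ht : t ∈ Ico t0 t1) (v : ℝ) :
    0 < I V P t v := h.P_pos t ht _






end BSysV

end Crest.Agent.R146.VSpace_371
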